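import Crest.Agent.R012.Defs

/-!
# Row 12: basic arithmetic of the Eisenstein integers (part 1)

`lam = 1 - ω`, divisibility by `3` and `lam` in coordinates, primary elements.
-/

set_option autoImplicit false
set_option linter.unusedSimpArgs false
set_option linter.unusedVariables false

noncomputable section

open Complex

namespace Crest.Agent.R012

open Eis

namespace Eis

/-- The prime `λ = 1 - ω` above `3`. -/
def lam : Eis := 1 - w

@[simp] lemma lam_re : lam.re = 1 := by simp [lam]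
@[simp] lemma lam_im : lam.im = -1 := by simp [lam]

@[simp] lemma nm_lam : nm lam = 3 := by
  have : (nm lam : ℤ) = 3 := by rw [nm_cast]; simp
  exact_mod_cast this

lemma lam_ne_zero : lam ≠ 0 := by
  intro h; have := nm_lam; rw [h, nm_zero] at this; omega

@[simp] lemma ofNat_re (n : ℕ) [n.AtLeastTwo] : (ofNat(n) : Eis).re = ofNat(n) :=
  QuadraticAlgebra.re_ofNat n
@[simp] lemma ofNat_im (n : ℕ) [n.AtLeastTwo] : (ofNat(n) : Eis).im = 0 :=
  QuadraticAlgebra.im_ofNat n

lemma lam_sq : lam ^ 2 = -3 * w := by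
  rw [pow_two]; apply ext' <;> simp [re_mul', im_mul']

lemma three_eq : (3 : Eis) = -w ^ 2 * lam ^ 2 := by
  rw [lam_sq]
  have := w_cube
  linear_combination (-3 : Eis) * this

lemma lam_sq_dvd_three : lam ^ 2 ∣ 3 := ⟨-w ^ 2, by rw [three_eq]; ring⟩
lemma lam_dvd_three : lam ∣ 3 := (dvd_pow_self lam two_ne_zero).trans lam_sq_dvd_three
lemma three_dvd_lam_sq : (3 : Eis) ∣ lam ^ 2 := ⟨-w, by rw [lam_sq]; ring⟩

lemma nm_three : nm 3 = 9 := by
  have : (nm 3 : ℤ) = 9 := by rw [nm_cast]; simp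
  exact_mod_cast this

lemma three_ne_zero' : (3 : Eis) ≠ 0 := by
  intro h; have := nm_three; rw [h, nm_zero] at this; omega

/-- Reduction modulo `lam`. -/
def resL : Eis →+* ZMod 3 where
  toFun z := ((z.re + z.im : ℤ) : ZMod 3)
  map_zero' := by simp
  map_one' := by simp
  map_add' x y := by simp; ring
  map_mul' x y := by
    simp only [re_mul', im_mul']
    push_cast
    have h3 : (3 : ZMod 3) = 0 := by decide
    linear_combination (-(x.im : ZMod 3) * y.im) * h3

lemma resL_apply (z : Eis) : resL z = ((z.re + z.im : ℤ) : ZMod 3) := rfl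

lemma lam_dvd_iff {z : Eis} : lam ∣ z ↔ (3 : ℤ) ∣ z.re + z.im := by
  constructor
  · rintro ⟨t, rfl⟩
    rw [re_mul', im_mul']
    simp
    exact ⟨t.im - 0, by ring⟩
  · rintro ⟨k, hk⟩
    -- z = re + im w = (re + im) - im (1 - w)
    refine ⟨-(z.im : Eis) + (k : Eis) * (-w ^ 2 * lam), ?_⟩
    have h1 : z = ((z.re + z.im : ℤ) : Eis) - (z.im : Eis) * lam := by
      apply ext' <;> simp [re_mul', im_mul']
    have h3 := three_eq
    calc z = ((z.re + z.im : ℤ) : Eis) - (z.im : Eis) * lam := h1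
      _ = ((3 * k : ℤ) : Eis) - (z.im : Eis) * lam := by rw [hk]
      _ = _ := by push_cast; rw [h3]; ring

lemma resL_eq_zero_iff {z : Eis} : resL z = 0 ↔ lam ∣ z := by
  rw [resL_apply, ZMod.intCast_zmod_eq_zero_iff_dvd, lam_dvd_iff]; norm_cast

lemma three_dvd_iff {z : Eis} : (3 : Eis) ∣ z ↔ (3 : ℤ) ∣ z.re ∧ (3 : ℤ) ∣ z.im := by
  constructor
  · rintro ⟨t, rfl⟩
    rw [re_mul', im_mul']
    simp
  · rintro ⟨⟨a, ha⟩, ⟨b, hb⟩⟩
    refine ⟨⟨a, b⟩, ?_⟩
    apply ext' <;> simp [re_mul', im_mul', ha, hb]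

lemma intCast_dvd_iff {n : ℤ} {z : Eis} : (n : Eis) ∣ z ↔ n ∣ z.re ∧ n ∣ z.im := by
  constructor
  · rintro ⟨t, rfl⟩
    rw [re_mul', im_mul']
    simp
  · rintro ⟨⟨a, ha⟩, ⟨b, hb⟩⟩
    refine ⟨⟨a, b⟩, ?_⟩
    apply ext' <;> simp [re_mul', im_mul', ha, hb]

lemma prime_lam : Prime lam := by
  refine ⟨lam_ne_zero, ?_, ?_⟩
  · rw [isUnit_iff, nm_lam]; norm_num
  · intro a b h
    rw [← resL_eq_zero_iff, map_mul] at h
    have : Fact (Nat.Prime 3) := ⟨Nat.prime_three⟩
    rcases mul_eq_zero.mp h with h | h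
    · exact Or.inl (resL_eq_zero_iff.mp h)
    · exact Or.inr (resL_eq_zero_iff.mp h)

/-! ### Primary elements -/

end Eis

open Eis

lemma isPrim_iff {z : Eis} : IsPrim z ↔ (3 : ℤ) ∣ z.re - 1 ∧ (3 : ℤ) ∣ z.im := by
  unfold IsPrim
  rw [three_dvd_iff]
  simp

lemma isPrim_one : IsPrim 1 := by simp [IsPrim]

lemma IsPrim.mul {x y : Eis} (hx : IsPrim x) (hy : IsPrim y) : IsPrim (x * y) := by
  unfold IsPrim at *
  have : x * y - 1 = x * (y - 1) + (x - 1) := by ring
  rw [this]
  exact dvd_add (hy.mul_left _) hx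

lemma IsPrim.pow {x : Eis} (hx : IsPrim x) (n : ℕ) : IsPrim (x ^ n) := by
  induction n with
  | zero => simpa using isPrim_one
  | succ n ih => rw [pow_succ]; exact ih.mul hx

lemma IsPrim.of_mul_left {x y : Eis} (hxy : IsPrim (x * y)) (hx : IsPrim x) : IsPrim y := by
  unfold IsPrim at *
  have : y - 1 = (x * y - 1) - y * (x - 1) := by ring
  rw [this]
  exact dvd_sub hxy (hx.mul_left _)

lemma IsPrim.of_mul_right {x y : Eis} (hxy : IsPrim (x * y)) (hy : IsPrim y) : IsPrim x :=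
  IsPrim.of_mul_left (by rwa [mul_comm]) hy

lemma IsPrim.conj {x : Eis} (hx : IsPrim x) : IsPrim (Eis.conj x) := by
  unfold IsPrim at *
  have h := conj_dvd_conj hx
  rw [conj_sub, conj_one] at h
  have h3 : Eis.conj 3 = 3 := map_ofNat conjHom 3
  rwa [h3] at h

lemma IsPrim.not_lam_dvd {x : Eis} (hx : IsPrim x) : ¬ lam ∣ x := by
  intro h
  have h1 : lam ∣ 1 := by
    have := dvd_sub h (lam_dvd_three.trans hx)
    simpa using this
  exact prime_lam.not_isUnit (isUnit_of_dvd_one h1)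

lemma IsPrim.ne_zero {x : Eis} (hx : IsPrim x) : x ≠ 0 := by
  rintro rfl; exact hx.not_lam_dvd (dvd_zero _)

lemma IsPrim.isCoprime_three {x : Eis} (hx : IsPrim x) : IsCoprime x 3 := by
  obtain ⟨t, ht⟩ := hx
  exact ⟨1, -t, by linear_combination ht⟩

lemma IsPrim.isCoprime_lam {x : Eis} (hx : IsPrim x) : IsCoprime x lam :=
  IsCoprime.of_isCoprime_of_dvd_right hx.isCoprime_three lam_dvd_three

lemma isCoprime_lam_iff {x : Eis} : IsCoprime x lam ↔ ¬ lam ∣ x := by
  rw [isCoprime_comm]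
  exact prime_lam.irreducible.coprime_iff_not_dvd

lemma nm_mod_three {x : Eis} : ((nm x : ℕ) : ZMod 3) = resL x ^ 2 := by
  have h : ((nm x : ℕ) : ZMod 3) = (((nm x : ℕ) : ℤ) : ZMod 3) := by norm_cast
  rw [h, nm_cast, resL_apply]
  push_cast
  have h3 : (3 : ZMod 3) = 0 := by decide
  linear_combination (-(x.re : ZMod 3) * x.im) * h3

lemma nm_mod_three_of_not_dvd {x : Eis} (h : ¬ lam ∣ x) : nm x % 3 = 1 := by
  have h1 : resL x ≠ 0 := fun h' => h (resL_eq_zero_iff.mp h')
  have h2 : resL x ^ 2 = 1 := by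
    revert h1; generalize resL x = t; revert t; decide
  have h3 := nm_mod_three (x := x)
  rw [h2] at h3
  have h4 : ((nm x : ℕ) : ZMod 3) = ((1 : ℕ) : ZMod 3) := by simpa using h3
  rw [ZMod.natCast_eq_natCast_iff] at h4
  exact h4

lemma nm_mod_three_of_dvd {x : Eis} (h : lam ∣ x) : nm x % 3 = 0 := by
  obtain ⟨t, rfl⟩ := h
  rw [nm_mul, nm_lam]; omega

lemma IsPrim.nm_mod {x : Eis} (hx : IsPrim x) : nm x % 3 = 1 :=
  nm_mod_three_of_not_dvd hx.not_lam_dvd

lemma nm_mod_eq_one_iff {x : Eis} : nm x % 3 = 1 ↔ ¬ lam ∣ x :=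
  ⟨fun h h' => by rw [nm_mod_three_of_dvd h'] at h; omega, nm_mod_three_of_not_dvd⟩

/-- Multiplication by a unit makes every element prime to `3` primary. -/
lemma exists_unit_mul_isPrim {x : Eis} (h : ¬ lam ∣ x) : ∃ u : Eisˣ, IsPrim (u * x) := by
  rw [lam_dvd_iff] at h
  have hw := w_sq
  have key : ∀ u : Eis, IsUnit u → (3 : ℤ) ∣ (u * x).re - 1 → (3 : ℤ) ∣ (u * x).im →
      ∃ u : Eisˣ, IsPrim (u * x) := fun u hu h1 h2 =>
    ⟨hu.unit, isPrim_iff.mpr ⟨by simpa using h1, by simpa using h2⟩⟩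
  have hre : ∀ u : Eis, (u * x).re = u.re * x.re - u.im * x.im := fun u => re_mul' u x
  have him : ∀ u : Eis, (u * x).im = u.re * x.im + u.im * x.re - u.im * x.im := fun u => im_mul' u x
  have e2 : w ^ 2 = (⟨-1, -1⟩ : Eis) := by
    rw [w_sq]; apply ext' <;> simp
  have u1 : IsUnit (1 : Eis) := isUnit_one
  have um1 : IsUnit (-1 : Eis) := isUnit_one.neg
  have uw : IsUnit w := isUnit_w
  have umw : IsUnit (-w) := isUnit_w.neg
  have uw2 : IsUnit (w ^ 2) := isUnit_w.pow 2
  have umw2 : IsUnit (-w ^ 2) := (isUnit_w.pow 2).neg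
  have hm : x.re % 3 = 0 ∨ x.re % 3 = 1 ∨ x.re % 3 = 2 := by omega
  have hm' : x.im % 3 = 0 ∨ x.im % 3 = 1 ∨ x.im % 3 = 2 := by omega
  have r1 := hre 1
  have i1 := him 1
  have rm1 := hre (-1)
  have im1 := him (-1)
  have rw1 := hre w
  have iw1 := him w
  have rmw := hre (-w)
  have imw := him (-w)
  have rw2 := hre (w ^ 2)
  have iw2 := him (w ^ 2)
  have rmw2 := hre (-w ^ 2)
  have imw2 := him (-w ^ 2)
  rw [e2] at rw2 iw2 rmw2 imw2
  simp at r1 i1 rm1 im1 rw1 iw1 rmw imw rw2 iw2 rmw2 imw2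
  rcases hm with hm | hm | hm <;> rcases hm' with hm' | hm' | hm'
  · omega
  · -- re = 0, im = 1 : x = w ; multiply by w^2
    exact key (w ^ 2) uw2 (by rw [e2]; simp; omega) (by rw [e2]; simp; omega)
  · exact key (-w ^ 2) umw2 (by rw [e2]; simp; omega) (by rw [e2]; simp; omega)
  · exact key 1 u1 (by simp; omega) (by simp; omega)
  · -- re=1, im=1 : -w^2 ; multiply by -w
    exact key (-w) umw (by simp; omega) (by simp; omega)
  · omega
  · exact key (-1) um1 (by simp; omega) (by simp; omega)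
  · omega
  · exact key w uw (by simp; omega) (by simp; omega)

/-- Two associated primary elements are equal. -/
lemma IsPrim.eq_of_associated {x y : Eis} (hx : IsPrim x) (hy : IsPrim y)
    (h : Associated x y) : x = y := by
  obtain ⟨u, rfl⟩ := h
  have hu : IsPrim (u : Eis) := hy.of_mul_left hx
  have h1 := isPrim_iff.mp hu
  rcases isUnit_cases u.isUnit with h | h | h | h | h | h
  · rw [h, mul_one]
  · rw [h] at h1; simp at h1
  · rw [h] at h1; simp at h1
  · rw [h] at h1; simp at h1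
  · rw [h, w_sq] at h1; simp at h1
  · rw [h] at h1
    have e2 : -w ^ 2 = (⟨1, 1⟩ : Eis) := by
      rw [w_sq]; apply ext' <;> simp
    rw [e2] at h1; simp at h1

/-- An element dividing a primary element has a primary associate. -/
lemma exists_isPrim_associated {x : Eis} (h : ¬ lam ∣ x) : ∃ y, IsPrim y ∧ Associated x y := by
  obtain ⟨u, hu⟩ := exists_unit_mul_isPrim h
  exact ⟨u * x, hu, ⟨u, by ring⟩⟩

/-- The primary associate of an element prime to `lam` (junk value otherwise). -/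
def prim (x : Eis) : Eis :=
  open Classical in if h : lam ∣ x then x else Classical.choose (exists_isPrim_associated h)

lemma prim_isPrim {x : Eis} (h : ¬ lam ∣ x) : IsPrim (prim x) := by
  rw [prim, dif_neg h]; exact (Classical.choose_spec (exists_isPrim_associated h)).1

lemma prim_associated (x : Eis) : Associated x (prim x) := by
  by_cases h : lam ∣ x
  · rw [prim, dif_pos h]
  · rw [prim, dif_neg h]; exact (Classical.choose_spec (exists_isPrim_associated h)).2

lemma IsPrim.prim_eq {x : Eis} (hx : IsPrim x) : prim x = x :=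
  ((prim_isPrim hx.not_lam_dvd).eq_of_associated hx (prim_associated x).symm)


lemma Eis.nm_eq_of_associated {x y : Eis} (h : Associated x y) : nm x = nm y := by
  obtain ⟨u, rfl⟩ := h
  rw [nm_mul, isUnit_iff.mp u.isUnit, mul_one]

lemma prim_mul {x y : Eis} (hx : ¬ lam ∣ x) (hy : ¬ lam ∣ y) :
    prim (x * y) = prim x * prim y := by
  have hxy : ¬ lam ∣ x * y := fun h => (prime_lam.dvd_or_dvd h).elim hx hy
  exact (prim_isPrim hxy).eq_of_associated ((prim_isPrim hx).mul (prim_isPrim hy))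
    ((prim_associated _).symm.trans ((prim_associated x).mul_mul (prim_associated y)))

@[simp] lemma nm_prim (x : Eis) : nm (prim x) = nm x :=
  (nm_eq_of_associated (prim_associated x)).symm

lemma isPrim_add_mul {x : Eis} (hx : IsPrim x) (t : Eis) : IsPrim (x + 3 * t) := by
  unfold IsPrim at *
  have : x + 3 * t - 1 = (x - 1) + 3 * t := by ring
  rw [this]
  exact dvd_add hx (dvd_mul_right _ _)

end Crest.Agent.R012
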