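import Crest.Agent.R012.Base_666
import Crest.Agent.R012.Quot_666

-- ▼ part R012/Count_852
section

/-!
# Row 12 (X): counting primary residues mod `3c` prime to `c`

`prC c P e` = residues `q mod 3c` with a representative `d ≡ 1 (3)`, `e ∣ d`, `p ∤ d` for `p ∈ P`.
-/

set_option autoImplicit false

noncomputable section

namespace Crest.Agent.R012

open Eis

namespace Count852

/-- residues mod `3c` represented by primary `d` with `e ∣ d` and `p ∤ d` for all `p ∈ P`. -/
def resSet (c : Eis) (P : Finset Eis) (e : Eis) : Set (Eis ⧸ Ideal.span ({3 * c} : Set Eis)) :=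
  {q | ∃ d : Eis, Ideal.Quotient.mk _ d = q ∧ IsPrim d ∧ e ∣ d ∧ ∀ p ∈ P, ¬ p ∣ d}

lemma mk_eq_iff {c d d' : Eis} :
    (Ideal.Quotient.mk (Ideal.span ({c} : Set Eis)) d = Ideal.Quotient.mk _ d') ↔ c ∣ d - d' := by
  rw [Ideal.Quotient.eq, Ideal.mem_span_singleton]

lemma mem_resSet_iff {c : Eis} {P : Finset Eis} {e d : Eis} (he : e ∣ c) (hP : ∀ p ∈ P, p ∣ c) :
    Ideal.Quotient.mk (Ideal.span ({3 * c} : Set Eis)) d ∈ resSet c P e ↔
      IsPrim d ∧ e ∣ d ∧ ∀ p ∈ P, ¬ p ∣ d := by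
  constructor
  · rintro ⟨d', hd', h1, h2, h3⟩
    have h : 3 * c ∣ d' - d := mk_eq_iff.mp hd'
    have hc : c ∣ d' - d := (Dvd.intro_left _ rfl).trans h
    have h33 : (3 : Eis) ∣ d' - d := (Dvd.intro _ rfl).trans h
    refine ⟨?_, ?_, ?_⟩
    · have e1 : d - 1 = (d' - 1) - (d' - d) := by ring
      rw [IsPrim, e1]; exact dvd_sub h1 h33
    · have e1 : d = d' - (d' - d) := by ring
      rw [e1]; exact dvd_sub h2 (he.trans hc)
    · intro p hp hpd
      refine h3 p hp ?_
      have e1 : d' = d + (d' - d) := by ring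
      rw [e1]; exact dvd_add hpd ((hP p hp).trans hc)
  · rintro ⟨h1, h2, h3⟩
    exact ⟨d, rfl, h1, h2, h3⟩

/-- the base count -/
lemma ncard_resSet_empty (hcard : ∀ c : Eis, c ≠ 0 →
      Nat.card (Eis ⧸ Ideal.span ({c} : Set Eis)) = nm c)
    {e c' : Eis} (he : IsPrim e) (hc' : c' ≠ 0) :
    (resSet (e * c') ∅ e).ncard = nm c' := by
  classical
  rw [← hcard c' hc']
  set f : (Eis ⧸ Ideal.span ({c'} : Set Eis)) → (Eis ⧸ Ideal.span ({3 * (e * c')} : Set Eis)) :=
    fun q => Ideal.Quotient.mk _ (e * (1 + 3 * Quotient.out q)) with hf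
  have hinj : Function.Injective f := by
    intro q q' h
    rw [hf] at h
    simp only at h
    rw [mk_eq_iff] at h
    have e1 : e * (1 + 3 * Quotient.out q) - e * (1 + 3 * Quotient.out q') =
        3 * e * (Quotient.out q - Quotient.out q') := by ring
    have e2 : 3 * (e * c') = 3 * e * c' := by ring
    rw [e1, e2] at h
    have h3 : (3 * e : Eis) ≠ 0 := mul_ne_zero three_ne_zero' he.ne_zero
    have h4 : c' ∣ Quotient.out q - Quotient.out q' := (mul_dvd_mul_iff_left h3).mp h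
    have h5 := mk_eq_iff.mpr h4
    have h6 : ∀ q : (Eis ⧸ Ideal.span ({c'} : Set Eis)),
        Ideal.Quotient.mk (Ideal.span ({c'} : Set Eis)) (Quotient.out q) = q := fun q =>
      Ideal.Quotient.mk_out q
    rw [h6, h6] at h5
    exact h5
  have hrange : Set.range f = resSet (e * c') ∅ e := by
    ext q
    constructor
    · rintro ⟨s, rfl⟩
      refine ⟨e * (1 + 3 * Quotient.out s), rfl, ?_, Dvd.intro _ rfl, by simp⟩
      refine he.mul ?_
      simp [IsPrim]
    · rintro ⟨d, rfl, h1, ⟨y, rfl⟩, -⟩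
      have hy : IsPrim y := h1.of_mul_left he
      obtain ⟨s, hs⟩ := hy
      refine ⟨Ideal.Quotient.mk _ s, ?_⟩
      rw [hf]
      simp only
      rw [mk_eq_iff]
      have h7 : c' ∣ Quotient.out (Ideal.Quotient.mk (Ideal.span ({c'} : Set Eis)) s) - s := by
        rw [← mk_eq_iff]
        exact Ideal.Quotient.mk_out _
      obtain ⟨u, hu⟩ := h7
      refine ⟨u, ?_⟩
      have hs' : y = 1 + 3 * s := by linear_combination hs
      rw [hs']
      linear_combination (3 * e) * hu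
  rw [← hrange, ← Set.image_univ, Set.ncard_image_of_injective _ hinj, Set.ncard_univ]

/-- The count: `#{d mod 3c : d ≡ 1 (3), e ∣ d, p ∤ d (p ∈ P)} = N(c/e) ∏_{p ∈ P} (1 - 1/N(p))`. -/
theorem ncard_resSet (hcard : ∀ c : Eis, c ≠ 0 →
      Nat.card (Eis ⧸ Ideal.span ({c} : Set Eis)) = nm c)
    {c : Eis} (hc : c ≠ 0) (P : Finset Eis) :
    (∀ p ∈ P, p ∣ c ∧ Prime p ∧ IsPrim p) → ∀ e : Eis, IsPrim e → e ∣ c →
      (∀ p ∈ P, IsCoprime e p) → 
      ((resSet c P e).ncard : ℝ) = (nm c : ℝ) / nm e * ∏ p ∈ P, (1 - 1 / (nm p : ℝ)) := by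
  classical
  have hfin : ∀ (P : Finset Eis) (e : Eis), (resSet c P e).Finite := by
    intro P e
    have h1 : Nat.card (Eis ⧸ Ideal.span ({3 * c} : Set Eis)) ≠ 0 := by
      rw [hcard _ (mul_ne_zero three_ne_zero' hc)]
      exact (nm_pos.mpr (mul_ne_zero three_ne_zero' hc)).ne'
    have : Finite (Eis ⧸ Ideal.span ({3 * c} : Set Eis)) := Nat.finite_of_card_ne_zero h1
    exact Set.toFinite _
  induction P using Finset.induction_on with
  | empty =>
    intro _ e he hec _
    obtain ⟨c', rfl⟩ := hec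
    have hc' : c' ≠ 0 := right_ne_zero_of_mul hc
    rw [ncard_resSet_empty hcard he hc', nm_mul]
    have h1 : (nm e : ℝ) ≠ 0 := by
      exact_mod_cast (nm_pos.mpr he.ne_zero).ne'
    push_cast
    field_simp
    simp
  | insert p P hp ih =>
    intro hP e he hec hcop
    have hP' : ∀ p ∈ P, p ∣ c ∧ Prime p ∧ IsPrim p := fun q hq => hP q (Finset.mem_insert_of_mem hq)
    have hp1 := hP p (Finset.mem_insert_self p P)
    have hep : IsCoprime e p := hcop p (Finset.mem_insert_self p P)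
    -- split the set
    have hsplit : resSet c P e = resSet c (insert p P) e ∪ resSet c P (e * p) := by
      ext q
      obtain ⟨d, rfl⟩ := Ideal.Quotient.mk_surjective q
      have hepc : e * p ∣ c := hep.mul_dvd hec hp1.1
      rw [Set.mem_union, mem_resSet_iff hec (fun q hq => (hP' q hq).1),
        mem_resSet_iff hec (fun q hq => (hP q hq).1),
        mem_resSet_iff hepc (fun q hq => (hP' q hq).1)]
      constructor
      · rintro ⟨h1, h2, h3⟩
        by_cases hpd : p ∣ d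
        · right; exact ⟨h1, hep.mul_dvd h2 hpd, h3⟩
        · left
          refine ⟨h1, h2, ?_⟩
          intro r hr
          rcases Finset.mem_insert.mp hr with rfl | hr
          · exact hpd
          · exact h3 r hr
      · rintro (⟨h1, h2, h3⟩ | ⟨h1, h2, h3⟩)
        · exact ⟨h1, h2, fun r hr => h3 r (Finset.mem_insert_of_mem hr)⟩
        · exact ⟨h1, (Dvd.intro _ rfl).trans h2, h3⟩
    have hdisj : Disjoint (resSet c (insert p P) e) (resSet c P (e * p)) := by
      rw [Set.disjoint_left]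
      intro q h1 h2
      obtain ⟨d, rfl⟩ := Ideal.Quotient.mk_surjective q
      have hepc : e * p ∣ c := hep.mul_dvd hec hp1.1
      rw [mem_resSet_iff hec (fun q hq => (hP q hq).1)] at h1
      rw [mem_resSet_iff hepc (fun q hq => (hP' q hq).1)] at h2
      exact h1.2.2 p (Finset.mem_insert_self p P) ((Dvd.intro_left _ rfl).trans h2.2.1)
    have hcardsplit : (resSet c P e).ncard =
        (resSet c (insert p P) e).ncard + (resSet c P (e * p)).ncard := by
      rw [hsplit, Set.ncard_union_eq hdisj (hfin _ _) (hfin _ _)]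
    have i1 := ih hP' e he hec (fun q hq => hcop q (Finset.mem_insert_of_mem hq))
    have hcop2 : ∀ q ∈ P, IsCoprime (e * p) q := by
      intro q hq
      refine IsCoprime.mul_left (hcop q (Finset.mem_insert_of_mem hq)) ?_
      -- p and q are distinct primary primes
      have hq' := hP' q hq
      have hne : p ≠ q := by rintro rfl; exact hp hq
      refine (hp1.2.1.irreducible.coprime_iff_not_dvd).mpr ?_
      intro hpq
      have hassoc : Associated p q := hp1.2.1.irreducible.associated_of_dvd hq'.2.1.irreducible hpq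
      exact hne (hp1.2.2.eq_of_associated hq'.2.2 hassoc)
    have i2 := ih hP' (e * p) (he.mul hp1.2.2) (hep.mul_dvd hec hp1.1) hcop2
    have h1 : (nm e : ℝ) ≠ 0 := by exact_mod_cast (nm_pos.mpr he.ne_zero).ne'
    have h2 : (nm p : ℝ) ≠ 0 := by exact_mod_cast (nm_pos.mpr hp1.2.2.ne_zero).ne'
    have hcs : ((resSet c (insert p P) e).ncard : ℝ) =
        (resSet c P e).ncard - (resSet c P (e * p)).ncard := by
      rw [hcardsplit]; push_cast; ring
    rw [hcs, i1, i2, Finset.prod_insert hp, nm_mul]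
    push_cast
    field_simp

/-- The primary primes dividing `c`. -/
def pdiv (c : Eis) : Finset Eis :=
  open Classical in (primBall (nm c)).filter (fun p => Prime p ∧ p ∣ c)

lemma mem_pdiv {c p : Eis} (hc : c ≠ 0) : p ∈ pdiv c ↔ IsPrim p ∧ Prime p ∧ p ∣ c := by
  classical
  rw [pdiv, Finset.mem_filter, mem_primBall]
  constructor
  · rintro ⟨⟨-, h1⟩, h2, h3⟩; exact ⟨h1, h2, h3⟩
  · rintro ⟨h1, h2, h3⟩
    refine ⟨⟨?_, h1⟩, h2, h3⟩
    obtain ⟨t, rfl⟩ := h3
    rw [nm_mul]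
    exact Nat.le_mul_of_pos_right _ (nm_pos.mpr (right_ne_zero_of_mul hc))

lemma isCoprime_iff_pdiv {c d : Eis} (hc : c ≠ 0) (hd : IsPrim d) :
    IsCoprime c d ↔ ∀ p ∈ pdiv c, ¬ p ∣ d := by
  constructor
  · intro h p hp hpd
    rw [mem_pdiv hc] at hp
    exact hp.2.1.not_isUnit (h.isUnit_of_dvd' hp.2.2 hpd)
  · intro h
    refine isCoprime_of_prime_dvd (fun h0 => hc h0.1) ?_
    intro p hp hpc hpd
    have hl : ¬ lam ∣ p := fun h' => hd.not_lam_dvd (h'.trans hpd)
    have h1 : prim p ∈ pdiv c := by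
      rw [mem_pdiv hc]
      exact ⟨prim_isPrim hl, (prim_associated p).prime hp, (prim_associated p).dvd_iff_dvd_left.mp hpc⟩
    exact h _ h1 ((prim_associated p).dvd_iff_dvd_left.mp hpd)

/-- `ψ(c) = ∏_{p ∣ c primary} (1 - 1/N(p))`. -/
def psi (c : Eis) : ℝ := ∏ p ∈ pdiv c, (1 - 1 / (nm p : ℝ))

/-- `#{d mod 3c : d ≡ 1 (3), (d,c) = 1} = N(c) ψ(c)`. -/
theorem ncard_prim_coprime (hcard : ∀ c : Eis, c ≠ 0 →
      Nat.card (Eis ⧸ Ideal.span ({c} : Set Eis)) = nm c)
    {c : Eis} (hc : c ≠ 0) :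
    (({q : Eis ⧸ Ideal.span ({3 * c} : Set Eis) |
        IsPrim (Quotient.out q) ∧ IsCoprime c (Quotient.out q)}.ncard : ℕ) : ℝ) =
      nm c * psi c := by
  have h1 := ncard_resSet hcard hc (pdiv c) (fun p hp => by
    rw [mem_pdiv hc] at hp; exact ⟨hp.2.2, hp.2.1, hp.1⟩) 1 isPrim_one (one_dvd c)
    (fun p _ => isCoprime_one_left)
  rw [nm_one, Nat.cast_one, div_one] at h1
  rw [psi, ← h1]
  congr 2
  ext q
  have hq : Ideal.Quotient.mk (Ideal.span ({3 * c} : Set Eis)) (Quotient.out q) = q :=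
    Ideal.Quotient.mk_out q
  have h2 := mem_resSet_iff (c := c) (P := pdiv c) (e := 1) (d := Quotient.out q) (one_dvd c)
    (fun p hp => by rw [mem_pdiv hc] at hp; exact hp.2.2)
  rw [hq] at h2
  rw [h2]
  simp only [Set.mem_ofPred_eq, isUnit_one, IsUnit.dvd, true_and]
  constructor
  · rintro ⟨h3, h4⟩
    exact ⟨h3, (isCoprime_iff_pdiv hc h3).mp h4⟩
  · rintro ⟨h3, h4⟩
    exact ⟨h3, (isCoprime_iff_pdiv hc h3).mpr h4⟩

end Count852

end Crest.Agent.R012
end
end

-- ▼ part R012/CharSum_852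

/-!
# Row 12 (X): the character sums `S(c) = Σ_{d mod 3c, d ≡ 1 (3)} (c/d)_3`

Everything is deduced from the basic facts on `sy` collected in `SyFacts` (proved in `Sym_645`).

* `sy_shift`      : `(c/(d+ct)) = (c/d)` for `3 ∣ c`, `3 ∣ t`, `d` primary;
* `Ssum_eq_zero`  : `S(c) = 0` if `3 ∣ c` and `c` is not a cube;
* `Ssum_cube`     : `S(e^3) = N(e^3) ψ(e^3)`, `ψ(c) = ∏_{p ∣ c, p primary prime} (1 - 1/N(p))`;
-/

set_option autoImplicit false

noncomputable section

namespace Crest.Agent.R012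

open Eis

namespace CharSum852

/-- The facts on the cubic symbol which are used here. -/
structure SyFacts : Prop where
  mul_left : ∀ x y c : Eis, IsPrim c → sy (x * y) c = sy x c * sy y c
  mul_right : ∀ x c d : Eis, IsPrim c → IsPrim d → sy x (c * d) = sy x c * sy x d
  congr : ∀ x y c : Eis, IsPrim c → c ∣ x - y → sy x c = sy y c
  eq_zero : ∀ x c : Eis, IsPrim c → (sy x c = 0 ↔ ¬ IsCoprime x c)
  cube : ∀ x c : Eis, IsPrim c → IsCoprime x c → sy x c ^ 3 = 1
  recip : ∀ a b : Eis, IsPrim a → IsPrim b → sy a b = sy b a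
  unit9 : ∀ u d d' : Eis, IsUnit u → IsPrim d → IsPrim d' → (9 : Eis) ∣ d - d' → sy u d = sy u d'
  lam9 : ∀ d d' : Eis, IsPrim d → IsPrim d' → (9 : Eis) ∣ d - d' → sy lam d = sy lam d'
  nontriv : ∀ h : Eis, h ≠ 0 → (¬ ∃ e, h = e ^ 3) → ∃ b, IsPrim b ∧ IsCoprime h b ∧ sy h b ≠ 1

/-- Every non-zero `c` is `lam^k * u * m` with `u` a unit and `m` primary. -/
lemma exists_decomp {c : Eis} (hc : c ≠ 0) :
    ∃ (k : ℕ) (u m : Eis), IsUnit u ∧ IsPrim m ∧ c = lam ^ k * (u * m) := by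
  obtain ⟨m, hcm, hm⟩ := (FiniteMultiplicity.of_not_isUnit prime_lam.not_isUnit
    hc).exists_eq_pow_mul_and_not_dvd
  obtain ⟨u, hu⟩ := exists_unit_mul_isPrim hm
  set k := multiplicity lam c
  refine ⟨k, ((u⁻¹ : Eisˣ) : Eis), u * m, (u⁻¹).isUnit, hu, ?_⟩
  rw [← mul_assoc ((u⁻¹ : Eisˣ) : Eis), Units.inv_mul, one_mul]
  exact hcm

lemma isPrim_add {d s : Eis} (hd : IsPrim d) (hs : (3 : Eis) ∣ s) : IsPrim (d + s) := by
  have e : d + s - 1 = (d - 1) + s := by ring
  rw [IsPrim, e]; exact dvd_add hd hs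

variable (H : SyFacts)
include H

lemma sy_pow_left (x c : Eis) (hc : IsPrim c) (k : ℕ) (h1 : sy 1 c = 1) :
    sy (x ^ k) c = sy x c ^ k := by
  induction k with
  | zero => simpa using h1
  | succ k ih => rw [pow_succ, H.mul_left _ _ _ hc, ih, pow_succ]

lemma sy_one_left (c : Eis) (hc : IsPrim c) : sy 1 c = 1 := by
  have h1 : sy 1 c ≠ 0 := by
    intro h
    rw [H.eq_zero 1 c hc] at h
    exact h isCoprime_one_left
  have h2 := H.mul_left 1 1 c hc
  rw [mul_one] at h2
  exact (mul_left_cancel₀ h1 (by rw [mul_one, ← h2]))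

/-- `(c/d)` depends on `d` only modulo `9` and modulo the primary part of `c`. -/
lemma sy_congr_right {c d d' : Eis} (hd : IsPrim d) (hd' : IsPrim d') (h9 : (9 : Eis) ∣ d - d')
    (hc : c ∣ d - d') : sy c d = sy c d' := by
  by_cases hc0 : c = 0
  · subst hc0
    have : d = d' := by
      have := zero_dvd_iff.mp hc
      linear_combination this
    rw [this]
  obtain ⟨k, u, m, hu, hm, rfl⟩ := exists_decomp hc0
  rw [H.mul_left _ _ _ hd, H.mul_left _ _ _ hd', H.mul_left _ _ _ hd, H.mul_left _ _ _ hd',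
    sy_pow_left H _ _ hd _ (sy_one_left H _ hd), sy_pow_left H _ _ hd' _ (sy_one_left H _ hd'),
    H.lam9 d d' hd hd' h9, H.unit9 u d d' hu hd hd' h9, H.recip m d hm hd, H.recip m d' hm hd']
  have hmd : m ∣ d - d' := (Dvd.intro_left _ rfl).trans ((Dvd.intro_left _ rfl).trans hc)
  rw [H.congr d d' m hm hmd]

/-- `(c/(d+ct)) = (c/d)` for `3 ∣ c`, `3 ∣ t`. -/
lemma sy_shift {c d t : Eis} (hc : (3 : Eis) ∣ c) (hd : IsPrim d) (ht : (3 : Eis) ∣ t) :
    sy c (d + c * t) = sy c d := by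
  have h9 : (9 : Eis) ∣ c * t := by
    have : (9 : Eis) = 3 * 3 := by norm_num
    rw [this]; exact mul_dvd_mul hc ht
  have h3 : (3 : Eis) ∣ c * t := Dvd.dvd.mul_right hc _
  refine sy_congr_right H (isPrim_add hd h3) hd ?_ ?_
  · simpa using h9
  · simp

/-- the summand of `S(c)`. -/
def fS (c d : Eis) : ℂ := open Classical in if IsPrim d then sy c d else 0

lemma fS_periodic {c : Eis} (hc : (3 : Eis) ∣ c) : PMod (3 * c) (fS c) := by
  intro x t
  unfold fS
  have h3 : IsPrim (x + 3 * c * t) ↔ IsPrim x := by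
    constructor
    · intro h
      have := isPrim_add (s := -(3 * c * t)) h (by
        rw [dvd_neg, mul_assoc]; exact Dvd.intro _ rfl)
      simpa using this
    · intro h
      exact isPrim_add h (by rw [mul_assoc]; exact Dvd.intro _ rfl)
  by_cases hx : IsPrim x
  · rw [if_pos hx, if_pos (h3.mpr hx)]
    have e : x + 3 * c * t = x + c * (3 * t) := by ring
    rw [e]
    exact sy_shift H hc hx (Dvd.intro _ rfl)
  · rw [if_neg hx, if_neg (fun h => hx (h3.mp h))]

/-- `S(c) = Σ_{d mod 3c, d ≡ 1 (3)} (c/d)_3`. -/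
def Ssum (c : Eis) : ℂ := sumMod (3 * c) (fS c)

lemma fS_mul {c b x : Eis} (hb : IsPrim b) : fS c (b * x) = sy c b * fS c x := by
  unfold fS
  by_cases hx : IsPrim x
  · rw [if_pos hx, if_pos (hb.mul hx), H.mul_right c b x hb hx]
  · rw [if_neg hx, if_neg (fun h => hx (h.of_mul_left hb)), mul_zero]

/-- `S(c) = 0` if `3 ∣ c` and `c` is not a cube. -/
theorem Ssum_eq_zero {c : Eis} (hc0 : c ≠ 0) (hc : (3 : Eis) ∣ c) (hn : ¬ ∃ e, c = e ^ 3) :
    Ssum c = 0 := by
  obtain ⟨b, hb, hcop, hne⟩ := H.nontriv c hc0 hn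
  have h3c : (3 * c : Eis) ≠ 0 := mul_ne_zero three_ne_zero' hc0
  have hcop3 : IsCoprime b (3 * c) := hb.isCoprime_three.mul_right hcop.symm
  have h1 := sumMod_mul_coprime h3c (fS_periodic H hc) hcop3
  have h2 : sumMod (3 * c) (fun x => fS c (b * x)) = sy c b * Ssum c := by
    rw [Ssum, ← sumMod_mul_left h3c]
    exact sumMod_congr fun x => fS_mul H hb
  rw [h2] at h1
  have h3 : (sy c b - 1) * Ssum c = 0 := by
    rw [sub_mul, one_mul, h1, Ssum, sub_self]
  rcases mul_eq_zero.mp h3 with h | h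
  · exact absurd (sub_eq_zero.mp h) hne
  · exact h

lemma fS_cube {e d : Eis} : fS (e ^ 3) d =
    open Classical in if IsPrim d ∧ IsCoprime (e ^ 3) d then 1 else 0 := by
  classical
  unfold fS
  by_cases hd : IsPrim d
  · rw [if_pos hd, sy_pow_left H _ _ hd _ (sy_one_left H _ hd)]
    by_cases hc : IsCoprime (e ^ 3) d
    · have he : IsCoprime e d := (IsCoprime.pow_left_iff (by norm_num)).mp hc
      rw [if_pos ⟨hd, hc⟩, H.cube e d hd he]
    · have he : ¬ IsCoprime e d := fun h => hc h.pow_left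
      rw [if_neg (fun h => hc h.2), (H.eq_zero e d hd).mpr he]
      norm_num
  · rw [if_neg hd, if_neg (fun h => hd h.1)]

/-- `S(e^3) = N(e^3) ψ(e^3)`. -/
theorem Ssum_cube {e : Eis} (he : e ≠ 0) :
    Ssum (e ^ 3) = ((nm (e ^ 3) * Count852.psi (e ^ 3) : ℝ) : ℂ) := by
  classical
  have hc : (e ^ 3 : Eis) ≠ 0 := pow_ne_zero _ he
  have h3c : (3 * e ^ 3 : Eis) ≠ 0 := mul_ne_zero three_ne_zero' hc
  rw [← Count852.ncard_prim_coprime (fun c _ => card_QE c) hc, Ssum]
  have hfin := finite_QE h3c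
  let _ := Fintype.ofFinite (QE (3 * e ^ 3))
  unfold sumMod
  rw [finsum_eq_sum_of_fintype]
  simp_rw [fS_cube H]
  rw [Finset.sum_ite, Finset.sum_const_zero, add_zero, Finset.sum_const, nsmul_eq_mul, mul_one,
    ← Set.ncard_coe_finset]
  push_cast
  congr 3
  ext q
  simp

end CharSum852

end Crest.Agent.R012
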