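import Crest.Agent.R012.AddChar_666
import Crest.Prelude.Def_CubicGauss
import Crest.Agent.R012.Prime_666

-- ▼ part R012/Bridge_666
section

/-!
# Row 12: bridge between the concrete model `Eis` and the frozen definitions

Main results:
* `phi : Eis ≃+* EisR`
* `defect l X = ∑_{π primary prime, N π ≤ X} ang l π (G π - pC N(π)^(-1/6))`
* `twisted_eq` : `twistedFirstMomentDefect σ l X = defect l X` or its complex conjugate
* `s0014_of_defect` : the statement of S0014 follows from `defect l X / (X^(5/6)/log X) → 0`.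
-/

set_option autoImplicit false
set_option linter.unusedSimpArgs false
set_option linter.unusedVariables false

noncomputable section

open Crest.NumberTheoryR.CubicGauss

namespace Crest.Agent.R012

open Eis

namespace Bridge

instance instCyc : IsCyclotomicExtension {3} ℚ EisK := CyclotomicField.isCyclotomicExtension 3 ℚ

lemma zspec : IsPrimitiveRoot (IsCyclotomicExtension.zeta 3 ℚ EisK) 3 :=
  IsCyclotomicExtension.zeta_spec 3 ℚ EisK

lemma eisZeta_eq : eisZeta = zspec.toInteger := rfl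

lemma eisZeta_coe : (eisZeta : EisK) = IsCyclotomicExtension.zeta 3 ℚ EisK := rfl

lemma eisZeta_sq : eisZeta ^ 2 = -1 - eisZeta := by
  have h : (IsCyclotomicExtension.zeta 3 ℚ EisK) ^ 2 + IsCyclotomicExtension.zeta 3 ℚ EisK + 1
      = 0 := by
    have := zspec.isRoot_cyclotomic (by norm_num)
    rw [Polynomial.cyclotomic_three] at this
    simpa using this
  apply NumberField.RingOfIntegers.ext
  push_cast
  have h' : (eisZeta : EisK) ^ 2 + (eisZeta : EisK) + 1 = 0 := h
  linear_combination h'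

/-- The ring homomorphism `Eis → EisR`. -/
def phi0 : Eis →+* EisR where
  toFun z := eisOfCoords z.re z.im
  map_zero' := by simp [eisOfCoords]
  map_one' := by simp [eisOfCoords]
  map_add' x y := by simp [eisOfCoords]; ring
  map_mul' x y := by
    simp only [eisOfCoords, re_mul', im_mul']
    push_cast
    linear_combination (-(x.im : EisR) * y.im) * eisZeta_sq

lemma phi0_apply (z : Eis) : phi0 z = eisOfCoords z.re z.im := rfl

lemma phi0_injective : Function.Injective phi0 := by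
  rw [injective_iff_map_eq_zero]
  intro z hz
  have h := congrArg phi0 (Eis.mul_conj z)
  rw [map_mul, hz, zero_mul, map_natCast] at h
  have h2 : nm z = 0 := by exact_mod_cast h.symm
  exact nm_eq_zero.mp h2

lemma phi0_surjective : Function.Surjective phi0 := by
  intro x
  have hdim : zspec.integralPowerBasis.dim = 2 := by
    rw [IsPrimitiveRoot.integralPowerBasis_dim]; decide
  let b := zspec.integralPowerBasis.basis.reindex (finCongr hdim)
  have hx := b.sum_repr x
  rw [Fin.sum_univ_two] at hx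
  have hb0 : b 0 = 1 := by
    simp [b, PowerBasis.coe_basis]
  have hb1 : b 1 = eisZeta := by
    simp [b, PowerBasis.coe_basis, IsPrimitiveRoot.integralPowerBasis_gen, eisZeta_eq]
  rw [hb0, hb1] at hx
  refine ⟨⟨b.repr x 0, b.repr x 1⟩, ?_⟩
  rw [phi0_apply]
  unfold eisOfCoords
  conv_rhs => rw [← hx]
  simp only [zsmul_eq_mul, mul_one]

/-- The ring isomorphism `Eis ≃+* EisR`. -/
def phi : Eis ≃+* EisR := RingEquiv.ofBijective phi0 ⟨phi0_injective, phi0_surjective⟩

lemma phi_apply (z : Eis) : phi z = eisOfCoords z.re z.im := rfl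

lemma phi_w : phi w = eisZeta := by
  rw [phi_apply]; simp [eisOfCoords]

lemma eisNorm_phi (z : Eis) : eisNorm (phi z) = nm z := by
  have h1 := Ideal.absNorm_span_singleton (S := EisR) (phi z)
  rw [Ideal.absNorm_apply, Submodule.cardQuot_apply] at h1
  unfold eisNorm
  rw [← h1, ← card_QE z]
  symm
  refine Nat.card_congr (Ideal.quotientEquiv _ _ phi ?_).toEquiv
  rw [Ideal.map_span, Set.image_singleton]
  rfl

lemma isPrimary_phi (z : Eis) : IsPrimary (phi z) ↔ IsPrim z := by
  unfold IsPrimary IsPrim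
  rw [← map_dvd_iff phi, map_sub, map_one, map_ofNat]

lemma prime_phi (z : Eis) : Prime (phi z) ↔ Prime z := MulEquiv.prime_iff phi

/-! ### The embedding -/

lemma wC_conj : (starRingEnd ℂ) wC = wC ^ 2 := by
  rw [wC_sq]
  apply Complex.ext
  · simp [wC]; ring
  · simp [wC]

lemma sigma_zeta (σ : EisK →+* ℂ) :
    σ (eisZeta : EisK) = wC ∨ σ (eisZeta : EisK) = (starRingEnd ℂ) wC := by
  have h := congrArg (fun x : EisR => σ (x : EisK)) eisZeta_sq
  beta_reduce at h
  push_cast at h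
  rw [map_pow, map_sub, map_neg, map_one] at h
  rw [wC_conj]
  have h1 := wC_sq
  have h3 := wC_cube
  have : (σ (eisZeta : EisK) - wC) * (σ (eisZeta : EisK) - wC ^ 2) = 0 := by
    linear_combination h - σ (eisZeta : EisK) * h1 + h3
  rcases mul_eq_zero.mp this with h | h
  · exact Or.inl (sub_eq_zero.mp h)
  · exact Or.inr (sub_eq_zero.mp h)

/-- `σ ∘ phi` as a ring homomorphism. -/
def tau (σ : EisK →+* ℂ) : Eis →+* ℂ := (σ.comp (algebraMap EisR EisK)).comp phi.toRingHom

lemma tau_apply (σ : EisK →+* ℂ) (z : Eis) : tau σ z = σ (phi z : EisK) := rfl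

lemma tau_eq (σ : EisK →+* ℂ) (z : Eis) :
    tau σ z = (z.re : ℂ) + (z.im : ℂ) * σ (eisZeta : EisK) := by
  conv_lhs => rw [eq_re_add z]
  rw [map_add, map_mul, map_intCast, map_intCast, tau_apply, phi_w]

lemma sigma_phi_A {σ : EisK →+* ℂ} (h : σ (eisZeta : EisK) = wC) (z : Eis) :
    σ (phi z : EisK) = toC z := by
  rw [← tau_apply, tau_eq, h, toC_apply]

lemma sigma_phi_B {σ : EisK →+* ℂ} (h : σ (eisZeta : EisK) = (starRingEnd ℂ) wC) (z : Eis) :
    σ (phi z : EisK) = (starRingEnd ℂ) (toC z) := by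
  rw [← tau_apply, tau_eq, h, toC_apply, map_add, map_mul, map_intCast, map_intCast]

/-! ### The trace -/

lemma trace_zeta : Algebra.trace ℚ EisK (IsCyclotomicExtension.zeta 3 ℚ EisK) = -1 := by
  have h := PowerBasis.trace_gen_eq_nextCoeff_minpoly (zspec.powerBasis ℚ)
  rw [IsPrimitiveRoot.powerBasis_gen] at h
  rw [h, ← Polynomial.cyclotomic_eq_minpoly_rat zspec (by norm_num), Polynomial.cyclotomic_three]
  have hd : (Polynomial.X ^ 2 + Polynomial.X + 1 : Polynomial ℚ).natDegree = 2 := by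
    compute_degree!
  rw [Polynomial.nextCoeff_of_natDegree_pos (by rw [hd]; norm_num), hd]
  simp [Polynomial.coeff_X, Polynomial.coeff_one]

lemma two_re_sigma (σ : EisK →+* ℂ) (y : EisK) :
    2 * (σ y).re = ((Algebra.trace ℚ EisK y : ℚ) : ℝ) := by
  let f : EisK →ₗ[ℚ] ℝ :=
    { toFun := fun y => 2 * (σ y).re
      map_add' := fun a b => by simp; ring
      map_smul' := fun q a => by
        rw [Algebra.smul_def, map_mul]
        have : σ ((algebraMap ℚ EisK) q) = ((q : ℝ) : ℂ) := by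
          rw [eq_ratCast, map_ratCast]; norm_cast
        rw [this, Complex.re_ofReal_mul, RingHom.id_apply, Rat.smul_def]
        ring }
  let g : EisK →ₗ[ℚ] ℝ :=
    { toFun := fun y => ((Algebra.trace ℚ EisK y : ℚ) : ℝ)
      map_add' := fun a b => by simp
      map_smul' := fun q a => by rw [map_smul]; simp [Rat.smul_def] }
  have hfg : f = g := by
    apply (zspec.powerBasis ℚ).basis.ext
    intro i
    rw [PowerBasis.coe_basis, IsPrimitiveRoot.powerBasis_gen]
    beta_reduce
    have hdim : (zspec.powerBasis ℚ).dim = 2 := by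
      rw [← PowerBasis.natDegree_minpoly, IsPrimitiveRoot.powerBasis_gen,
        ← Polynomial.cyclotomic_eq_minpoly_rat zspec (by norm_num),
        Polynomial.natDegree_cyclotomic]
      decide
    have hi : (i : ℕ) = 0 ∨ (i : ℕ) = 1 := by have := i.isLt; omega
    rcases hi with hi | hi
    · rw [hi, pow_zero]
      show 2 * (σ 1).re = ((Algebra.trace ℚ EisK 1 : ℚ) : ℝ)
      have h1 : Algebra.trace ℚ EisK 1 = 2 := by
        have h2 := Algebra.trace_algebraMap (R := ℚ) (S := EisK) (1 : ℚ)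
        rw [map_one] at h2
        rw [h2, IsCyclotomicExtension.finrank (n := 3) EisK
          (Polynomial.cyclotomic.irreducible_rat (by norm_num))]
        have : Nat.totient 3 = 2 := by decide
        rw [this]; simp
      rw [h1, map_one]; simp
    · rw [hi, pow_one]
      show 2 * (σ _).re = ((Algebra.trace ℚ EisK _ : ℚ) : ℝ)
      rw [trace_zeta, ← eisZeta_coe]
      rcases sigma_zeta σ with h | h
      · rw [h]; simp [wC]; norm_num
      · rw [h]; simp [wC]; norm_num
  exact congrFun (congrArg DFunLike.coe hfg) y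

lemma eisAddChar_phi (c x : Eis) : eisAddChar (phi c) (phi x) = eC (toC x / toC c) := by
  -- any embedding will do; take the one sending zeta to wC
  obtain ⟨σ⟩ : Nonempty (EisK →+* ℂ) := inferInstance
  unfold eisAddChar
  rw [eC]
  have h := two_re_sigma σ ((phi x : EisK) / (phi c : EisK))
  have h2 : (((Algebra.trace ℚ EisK ((phi x : EisK) / (phi c : EisK)) : ℚ) : ℝ) : ℂ) =
      toC x / toC c + (starRingEnd ℂ) (toC x / toC c) := by
    rw [← h, map_div₀]
    rcases sigma_zeta σ with hz | hz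
    · rw [sigma_phi_A hz, sigma_phi_A hz, Complex.add_conj]
    · rw [sigma_phi_B hz, sigma_phi_B hz, ← map_div₀, Complex.add_conj, Complex.conj_re]
  rw [h2]

end Bridge

end Crest.Agent.R012
end
end

-- ▼ part R012/Bridge2_666

/-!
# Row 12: bridge, part 2: Gauss sums and the twisted first moment

* `defect l X = ∑_{π primary prime, N π ≤ X} ang l π (G π - pC N(π)^(-1/6))`
* `twisted_eq` : `twistedFirstMomentDefect σ l X = defect l X` or its complex conjugate
* `s0014_of_defect` : the statement of S0014 follows from `defect l X / (X^(5/6)/log X) → 0`.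
-/

set_option autoImplicit false
set_option linter.unusedSimpArgs false
set_option linter.unusedVariables false

noncomputable section

open Crest.NumberTheoryR.CubicGauss

namespace Crest.Agent.R012

open Eis

open Classical in
/-- The twisted first moment defect, in the concrete model. -/
def defect (l : ℤ) (X : ℕ) : ℂ :=
  ∑ z ∈ (primBall X).filter Prime,
    ang l z * (G z - ((pC * (nm z : ℝ) ^ (-(1 : ℝ) / 6) : ℝ) : ℂ))

namespace Bridge

/-- The set of admissible cube roots of unity in the frozen definition of the symbol. -/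
lemma cubicChar_phi_of_dvd (σ : EisK →+* ℂ) {p x : Eis} (hp : Prime p) (hl : ¬ lam ∣ p)
    (hx : p ∣ x) : cubicChar σ (phi p) (phi x) = 0 := by
  unfold cubicChar
  rw [eisNorm_phi]
  have : {u : EisR | u ^ 3 = 1 ∧ phi p ∣ phi x ^ ((nm p - 1) / 3) - u} = ∅ := by
    rw [Set.eq_empty_iff_forall_notMem]
    rintro u ⟨hu, hd⟩
    obtain ⟨v, rfl⟩ := phi.surjective u
    rw [← map_pow, ← map_sub, map_dvd_iff] at hd
    have hv : v ^ 3 = 1 := by
      apply phi.injective; rw [map_pow, hu, map_one]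
    have h4 := four_le_nm hp hl
    have h3 := three_dvd_nm_sub_one hl
    have hk : (nm p - 1) / 3 ≠ 0 := by omega
    have h1 : p ∣ v := by
      have := dvd_sub (dvd_pow hx hk) hd
      simpa using this
    exact hp.not_isUnit (isUnit_of_dvd_unit h1 (IsUnit.of_pow_eq_one hv (by norm_num)))
  rw [this]
  exact finsum_mem_empty

lemma cubicChar_phi_of_not_dvd (σ : EisK →+* ℂ) {p x v : Eis} (hp : Prime p) (hl : ¬ lam ∣ p)
    (hv : v ^ 3 = 1) (h : p ∣ x ^ ((nm p - 1) / 3) - v) :
    cubicChar σ (phi p) (phi x) = σ (phi v : EisK) := by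
  unfold cubicChar
  rw [eisNorm_phi]
  have : {u : EisR | u ^ 3 = 1 ∧ phi p ∣ phi x ^ ((nm p - 1) / 3) - u} = {phi v} := by
    ext u
    rw [Set.mem_ofPred_eq, Set.mem_singleton_iff]
    constructor
    · rintro ⟨hu, hd⟩
      obtain ⟨v', rfl⟩ := phi.surjective u
      rw [← map_pow, ← map_sub, map_dvd_iff] at hd
      have hv' : v' ^ 3 = 1 := by
        apply phi.injective; rw [map_pow, hu, map_one]
      rw [cube_unique hp.not_isUnit hl hv' hv hd h]
    · rintro rfl
      refine ⟨by rw [← map_pow, hv, map_one], ?_⟩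
      rw [← map_pow, ← map_sub, map_dvd_iff]
      exact h
  rw [this]
  exact finsum_mem_singleton

lemma cubicChar_A {σ : EisK →+* ℂ} (hσ : σ (eisZeta : EisK) = wC) {p : Eis} (hp : Prime p)
    (hl : ¬ lam ∣ p) (x : Eis) : cubicChar σ (phi p) (phi x) = sy x p := by
  rw [sy_prime hp]
  by_cases hx : p ∣ x
  · rw [cubicChar_phi_of_dvd σ hp hl hx, sy0_eq_zero hx]
  · obtain ⟨v, hv, h, e⟩ := sy0_exists hp hl hx
    rw [cubicChar_phi_of_not_dvd σ hp hl hv h, e, sigma_phi_A hσ]

lemma cubicChar_B {σ : EisK →+* ℂ} (hσ : σ (eisZeta : EisK) = (starRingEnd ℂ) wC) {p : Eis}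
    (hp : Prime p) (hl : ¬ lam ∣ p) (x : Eis) :
    cubicChar σ (phi p) (phi x) = (starRingEnd ℂ) (sy x p) := by
  rw [sy_prime hp]
  by_cases hx : p ∣ x
  · rw [cubicChar_phi_of_dvd σ hp hl hx, sy0_eq_zero hx, map_zero]
  · obtain ⟨v, hv, h, e⟩ := sy0_exists hp hl hx
    rw [cubicChar_phi_of_not_dvd σ hp hl hv h, e, sigma_phi_B hσ]

lemma pmod_sy_prime {p : Eis} (hp : Prime p) : PMod p (fun x => sy x p) := by
  have h := pmod_sy0 p
  intro x t
  beta_reduce
  rw [sy_prime hp, sy_prime hp]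
  exact h x t

lemma eisOfCoords_nat (a b : ℕ) : eisOfCoords a b = phi ⟨(a : ℤ), (b : ℤ)⟩ := by
  rw [phi_apply]

lemma sum_box_eq {p : Eis} (hp : p ≠ 0) (F : EisR → ℂ) (f : Eis → ℂ) (hf : PMod p f)
    (hF : ∀ x, F (phi x) = f x) :
    ∑ a ∈ Finset.range (nm p), ∑ b ∈ Finset.range (nm p), F (eisOfCoords a b) =
      nm p * sumMod p f := by
  rw [← sum_box_nm hp hf]
  refine Finset.sum_congr rfl fun a _ => Finset.sum_congr rfl fun b _ => ?_
  rw [eisOfCoords_nat, hF]

lemma norm_factor {n : ℕ} (hn : n ≠ 0) (S : ℂ) :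
    (((n : ℝ) ^ (-(3 : ℝ) / 2) : ℝ) : ℂ) * ((n : ℂ) * S) = S / (Real.sqrt n : ℂ) := by
  have hn' : (0 : ℝ) < n := by positivity
  have h1 : (n : ℝ) ^ (-(3 : ℝ) / 2) * n = (Real.sqrt n)⁻¹ := by
    rw [Real.sqrt_eq_rpow, ← Real.rpow_neg hn'.le]
    conv_lhs => rw [← Real.rpow_one (n : ℝ)]
    rw [← Real.rpow_mul hn'.le, ← Real.rpow_add hn']
    norm_num
  have h2 : (((n : ℝ) ^ (-(3 : ℝ) / 2) : ℝ) : ℂ) * (n : ℂ) = ((Real.sqrt n : ℝ) : ℂ)⁻¹ := by
    rw [← Complex.ofReal_inv, ← h1]; push_cast; rfl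
  rw [← mul_assoc, h2]
  rw [div_eq_mul_inv, mul_comm]

lemma cubicGaussSum_A {σ : EisK →+* ℂ} (hσ : σ (eisZeta : EisK) = wC) {p : Eis} (hp : Prime p)
    (hl : ¬ lam ∣ p) : cubicGaussSum σ (phi p) = G p := by
  unfold cubicGaussSum
  rw [eisNorm_phi]
  rw [sum_box_eq hp.ne_zero (fun y => cubicChar σ (phi p) y * eisAddChar (phi p) y)
    (fun x => sy x p * eC (toC 1 * toC x / toC p))
    ((pmod_sy_prime hp).mul (pmod_eC 1 p)) (fun x => by
      beta_reduce
      rw [cubicChar_A hσ hp hl, eisAddChar_phi, map_one, one_mul])]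
  rw [norm_factor (nm_pos.mpr hp.ne_zero).ne']
  rfl

lemma cubicGaussSum_B {σ : EisK →+* ℂ} (hσ : σ (eisZeta : EisK) = (starRingEnd ℂ) wC) {p : Eis}
    (hp : Prime p) (hl : ¬ lam ∣ p) : cubicGaussSum σ (phi p) = (starRingEnd ℂ) (G p) := by
  unfold cubicGaussSum
  rw [eisNorm_phi]
  have hper : PMod p (fun x => (starRingEnd ℂ) (sy x p) * eC (toC 1 * toC x / toC p)) :=
    ((pmod_sy_prime hp).comp _).mul (pmod_eC 1 p)
  rw [sum_box_eq hp.ne_zero (fun y => cubicChar σ (phi p) y * eisAddChar (phi p) y)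
    (fun x => (starRingEnd ℂ) (sy x p) * eC (toC 1 * toC x / toC p)) hper (fun x => by
      beta_reduce
      rw [cubicChar_B hσ hp hl, eisAddChar_phi, map_one, one_mul])]
  rw [norm_factor (nm_pos.mpr hp.ne_zero).ne']
  unfold G
  rw [map_div₀, Complex.conj_ofReal]
  congr 1
  unfold gs
  rw [sumMod_star hp.ne_zero, ← sumMod_neg hp.ne_zero hper]
  refine sumMod_congr fun x => ?_
  rw [map_mul, star_eC, map_neg, sy_prime hp, sy_prime hp, sy0_neg hp hl]
  congr 2
  ring

lemma angularChar_A {σ : EisK →+* ℂ} (hσ : σ (eisZeta : EisK) = wC) (l : ℤ) (z : Eis) :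
    angularChar σ l (phi z) = ang l z := by
  unfold angularChar ang
  rw [sigma_phi_A hσ]

lemma angularChar_B {σ : EisK →+* ℂ} (hσ : σ (eisZeta : EisK) = (starRingEnd ℂ) wC) (l : ℤ)
    (z : Eis) : angularChar σ l (phi z) = (starRingEnd ℂ) (ang l z) := by
  unfold angularChar ang
  rw [sigma_phi_B hσ, map_zpow₀, map_div₀, Complex.conj_ofReal, Complex.norm_conj]

lemma twisted_eq_sum (σ : EisK →+* ℂ) (l : ℤ) (X : ℕ) (g : Eis → ℂ)
    (hg : ∀ z : Eis, Prime z → IsPrim z → angularChar σ l (phi z) *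
        (cubicGaussSum σ (phi z) -
          ((pattersonConst * (eisNorm (phi z) : ℝ) ^ (-(1 : ℝ) / 6) : ℝ) : ℂ)) = g z) :
    open Classical in
    twistedFirstMomentDefect σ l X = ∑ z ∈ (primBall X).filter Prime, g z := by
  classical
  unfold twistedFirstMomentDefect
  rw [← Finset.sum_filter]
  symm
  refine Finset.sum_bij' (fun z _ => (z.re, z.im)) (fun ab _ => (⟨ab.1, ab.2⟩ : Eis)) ?_ ?_ ?_ ?_ ?_
  · intro z hz
    rw [Finset.mem_filter, mem_primBall] at hz
    obtain ⟨⟨h1, h2⟩, h3⟩ := hz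
    have hb := mem_ball.mpr h1
    unfold ball at hb
    rw [Finset.mem_filter, Finset.mem_image] at hb
    obtain ⟨⟨ab, hab, rfl⟩, -⟩ := hb
    rw [Finset.mem_filter]
    refine ⟨hab, ?_⟩
    have e : eisOfCoords ab.1 ab.2 = phi ⟨ab.1, ab.2⟩ := rfl
    simp only
    rw [e, prime_phi, isPrimary_phi, eisNorm_phi]
    exact ⟨h3, h2, h1⟩
  · intro ab hab
    rw [Finset.mem_filter] at hab
    obtain ⟨h0, h1, h2, h3⟩ := hab
    have e : eisOfCoords ab.1 ab.2 = phi ⟨ab.1, ab.2⟩ := rfl
    rw [e, prime_phi] at h1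
    rw [e, isPrimary_phi] at h2
    rw [e, eisNorm_phi] at h3
    rw [Finset.mem_filter, mem_primBall]
    exact ⟨⟨h3, h2⟩, h1⟩
  · intro z _; rfl
  · intro ab _; rfl
  · intro z hz
    rw [Finset.mem_filter, mem_primBall] at hz
    have e : eisOfCoords z.re z.im = phi z := rfl
    simp only
    rw [e, hg z hz.2 hz.1.2]

lemma twisted_A {σ : EisK →+* ℂ} (hσ : σ (eisZeta : EisK) = wC) (l : ℤ) (X : ℕ) :
    twistedFirstMomentDefect σ l X = defect l X := by
  rw [twisted_eq_sum σ l X (fun z => ang l z * (G z - ((pC * (nm z : ℝ) ^ (-(1 : ℝ) / 6) : ℝ) : ℂ)))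
    (fun z hz hz' => by
      rw [angularChar_A hσ, cubicGaussSum_A hσ hz hz'.not_lam_dvd, eisNorm_phi]; rfl)]
  rfl

lemma twisted_B {σ : EisK →+* ℂ} (hσ : σ (eisZeta : EisK) = (starRingEnd ℂ) wC) (l : ℤ) (X : ℕ) :
    twistedFirstMomentDefect σ l X = (starRingEnd ℂ) (defect l X) := by
  rw [twisted_eq_sum σ l X (fun z => (starRingEnd ℂ) (ang l z *
      (G z - ((pC * (nm z : ℝ) ^ (-(1 : ℝ) / 6) : ℝ) : ℂ))))
    (fun z hz hz' => by
      rw [angularChar_B hσ, cubicGaussSum_B hσ hz hz'.not_lam_dvd, eisNorm_phi, map_mul, map_sub,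
        Complex.conj_ofReal]; rfl)]
  unfold defect
  rw [map_sum]

theorem twisted_eq (σ : EisK →+* ℂ) (l : ℤ) (X : ℕ) :
    twistedFirstMomentDefect σ l X = defect l X ∨
      twistedFirstMomentDefect σ l X = (starRingEnd ℂ) (defect l X) := by
  rcases sigma_zeta σ with h | h
  · exact Or.inl (twisted_A h l X)
  · exact Or.inr (twisted_B h l X)

theorem norm_twisted_eq (σ : EisK →+* ℂ) (l : ℤ) (X : ℕ) :
    ‖twistedFirstMomentDefect σ l X‖ = ‖defect l X‖ := by
  rcases twisted_eq σ l X with h | h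
  · rw [h]
  · rw [h, Complex.norm_conj]

open Filter Topology in
/-- S0014 follows from the asymptotics of the concrete `defect`. -/
theorem s0014_of_defect (h : ∀ l : ℤ, Tendsto (fun X : ℕ => defect l X /
        (((X : ℝ) ^ ((5 : ℝ) / 6) / Real.log (X : ℝ) : ℝ) : ℂ)) atTop (𝓝 0))
    (σ : EisK →+* ℂ) (ℓ : ℤ) :
    Tendsto (fun X : ℕ => twistedFirstMomentDefect σ ℓ X /
        (((X : ℝ) ^ ((5 : ℝ) / 6) / Real.log (X : ℝ) : ℝ) : ℂ)) atTop (𝓝 0) := by
  have h1 := h ℓ
  rw [tendsto_zero_iff_norm_tendsto_zero] at h1 ⊢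
  refine h1.congr fun X => ?_
  rw [norm_div, norm_div, norm_twisted_eq]


end Bridge

end Crest.Agent.R012
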