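import Mathlib
import Crest.Agent.R012.Base_666
import Crest.Agent.R012.Cheb_420

-- ▼ part R012/Buch_420
section

/-!
# Row 12: exact Buchstab / Legendre identities, purely combinatorial

`ι` is a linearly ordered type of "primes", `N : ι → ℝ` with `1 ≤ N p`, squarefree "integers" are
finite sets `T : Finset ι`, `nu N T = ∏_{p ∈ T} N p`.

Main result: `buchstab`.  For a universe `U`, a set `Z` of small primes, closed downwards, and a
level `D > 1`,
`∑_{T ⊆ U, T ∩ Z = ∅} F T = ∑_{I ⊆ U ∩ Z, ν I < D} (-1)^|I| ∑_{J ⊆ U \ I} F (I ∪ J)`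
`  + ∑_{I ⊆ U ∩ Z, ν (I \ min I) < D ≤ ν I} (-1)^|I| ∑_{J ⊆ U \ I, J > min I} F (I ∪ J)`.
-/

set_option autoImplicit false
set_option linter.unusedSectionVars false

noncomputable section

namespace Crest.Agent.R012.Buch420

open Finset

variable {ι : Type*} [LinearOrder ι]

/-- norm of a squarefree integer -/
def nu (N : ι → ℝ) (T : Finset ι) : ℝ := ∏ p ∈ T, N p

@[simp] lemma nu_empty (N : ι → ℝ) : nu N ∅ = 1 := by simp [nu]

lemma nu_insert (N : ι → ℝ) {p : ι} {T : Finset ι} (h : p ∉ T) :
    nu N (insert p T) = N p * nu N T := by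
  unfold nu; rw [Finset.prod_insert h]

lemma nu_pos {N : ι → ℝ} (hN : ∀ p, 1 ≤ N p) (T : Finset ι) : 0 < nu N T :=
  Finset.prod_pos fun p _ => by linarith [hN p]

lemma one_le_nu {N : ι → ℝ} (hN : ∀ p, 1 ≤ N p) (T : Finset ι) : 1 ≤ nu N T := by
  induction T using Finset.induction_on with
  | empty => simp
  | insert p T hp ih => rw [nu_insert N hp]; nlinarith [hN p]

lemma nu_union {N : ι → ℝ} {S T : Finset ι} (h : Disjoint S T) :
    nu N (S ∪ T) = nu N S * nu N T := Finset.prod_union h

lemma nu_mono {N : ι → ℝ} (hN : ∀ p, 1 ≤ N p) {S T : Finset ι} (h : S ⊆ T) : nu N S ≤ nu N T := by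
  have e : T = S ∪ (T \ S) := (Finset.union_sdiff_of_subset h).symm
  rw [e, nu_union Finset.disjoint_sdiff]
  nlinarith [one_le_nu hN (T \ S), nu_pos hN S]

/-- `I` crosses the level `D` exactly at its smallest element. -/
def Cr (N : ι → ℝ) (D : ℝ) (I : Finset ι) : Prop :=
  ∃ h : I.Nonempty, nu N (I.erase (I.min' h)) < D ∧ D ≤ nu N I

/-- `p` is larger than the smallest element of `I`. -/
def Ab (I : Finset ι) (p : ι) : Prop := ∃ q ∈ I, q < p

open Classical in
/-- Pointwise Buchstab identity. -/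
lemma pointwise {N : ι → ℝ} (hN : ∀ p, 1 ≤ N p) {D : ℝ} (hD : 1 < D) (T : Finset ι) (Z : ι → Prop)
    (hZ : ∀ p q, p ≤ q → Z q → Z p) :
    (if T.filter Z = ∅ then (1 : ℂ) else 0) =
      ∑ I ∈ (T.filter Z).powerset, (-1 : ℂ) ^ I.card * (if nu N I < D then 1 else 0) +
      ∑ I ∈ (T.filter Z).powerset,
        (-1 : ℂ) ^ I.card * (if Cr N D I ∧ ∀ p ∈ T \ I, Ab I p then 1 else 0) := by
  by_cases hA : T.filter Z = ∅
  · rw [hA]
    have : ¬ Cr N D ∅ := by rintro ⟨h, -⟩; exact Finset.not_nonempty_empty h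
    simp [this, hD]
  · rw [if_neg hA]
    have hne : (T.filter Z).Nonempty := Finset.nonempty_iff_ne_empty.mpr hA
    set A := T.filter Z with hAdef
    set m := A.min' hne with hm
    have hmA : m ∈ A := A.min'_mem hne
    have hmT : m ∈ T := (Finset.mem_filter.mp hmA).1
    have hmZ : Z m := (Finset.mem_filter.mp hmA).2
    have hmin : ∀ p ∈ T, m ≤ p := by
      intro p hp
      by_contra hc
      push Not at hc
      have : p ∈ A := Finset.mem_filter.mpr ⟨hp, hZ p m hc.le hmZ⟩
      exact absurd (A.min'_le p this) (not_le.mpr hc)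
    have hins : A = insert m (A.erase m) := (Finset.insert_erase hmA).symm
    have hmB : m ∉ A.erase m := Finset.notMem_erase m A
    rw [hins, Finset.sum_powerset_insert hmB, Finset.sum_powerset_insert hmB]
    rw [← Finset.sum_add_distrib, ← Finset.sum_add_distrib, ← Finset.sum_add_distrib]
    symm
    refine Finset.sum_eq_zero fun I hI => ?_
    rw [Finset.mem_powerset] at hI
    have hmI : m ∉ I := fun h => hmB (hI h)
    have hIT : ∀ q ∈ I, q ∈ T := fun q hq =>
      (Finset.mem_filter.mp (Finset.mem_of_mem_erase (hI hq))).1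
    have h1 : ¬ (Cr N D I ∧ ∀ p ∈ T \ I, Ab I p) := by
      rintro ⟨-, h⟩
      obtain ⟨q, hq, hqm⟩ := h m (Finset.mem_sdiff.mpr ⟨hmT, hmI⟩)
      exact absurd (hmin q (hIT q hq)) (not_le.mpr hqm)
    have hne' : (insert m I).Nonempty := Finset.insert_nonempty m I
    have hmin' : (insert m I).min' hne' = m := by
      apply le_antisymm
      · exact Finset.min'_le _ _ (Finset.mem_insert_self m I)
      · refine Finset.le_min' _ _ _ fun y hy => ?_
        rcases Finset.mem_insert.mp hy with rfl | hy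
        · exact le_rfl
        · exact hmin y (hIT y hy)
    have h2 : (Cr N D (insert m I) ∧ ∀ p ∈ T \ insert m I, Ab (insert m I) p) ↔
        (nu N I < D ∧ D ≤ N m * nu N I) := by
      constructor
      · rintro ⟨⟨h, h3, h4⟩, -⟩
        rw [hmin', Finset.erase_insert hmI] at h3
        rw [nu_insert N hmI] at h4
        exact ⟨h3, h4⟩
      · rintro ⟨h3, h4⟩
        refine ⟨⟨hne', ?_, ?_⟩, ?_⟩
        · rw [hmin', Finset.erase_insert hmI]; exact h3
        · rw [nu_insert N hmI]; exact h4
        · intro p hp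
          rw [Finset.mem_sdiff, Finset.mem_insert, not_or] at hp
          exact ⟨m, Finset.mem_insert_self m I, lt_of_le_of_ne (hmin p hp.1) (Ne.symm hp.2.1)⟩
    rw [if_neg h1, Finset.card_insert_of_notMem hmI, nu_insert N hmI]
    simp only [h2]
    have hle : nu N I ≤ N m * nu N I := by nlinarith [hN m, nu_pos hN I]
    rw [pow_succ]
    by_cases c1 : nu N I < D
    · by_cases c2 : N m * nu N I < D
      · have c3 : ¬ (nu N I < D ∧ D ≤ N m * nu N I) := fun h => absurd h.2 (not_le.mpr c2)
        rw [if_pos c1, if_pos c2, if_neg c3]; ring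
      · have c3 : (nu N I < D ∧ D ≤ N m * nu N I) := ⟨c1, not_lt.mp c2⟩
        rw [if_pos c1, if_neg c2, if_pos c3]; ring
    · have c2 : ¬ N m * nu N I < D := fun h => c1 (lt_of_le_of_lt hle h)
      have c3 : ¬ (nu N I < D ∧ D ≤ N m * nu N I) := fun h => c1 h.1
      rw [if_neg c1, if_neg c2, if_neg c3]; ring

open Classical in
/-- Exchange of summation. -/
lemma exchange (U : Finset ι) (Z : ι → Prop) (g : Finset ι → Finset ι → ℂ) :
    ∑ T ∈ U.powerset, ∑ I ∈ (T.filter Z).powerset, g I T =
      ∑ I ∈ (U.filter Z).powerset, ∑ J ∈ (U \ I).powerset, g I (I ∪ J) := by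
  have h1 : ∀ T ∈ U.powerset, ∑ I ∈ (T.filter Z).powerset, g I T =
      ∑ I ∈ (U.filter Z).powerset, if I ⊆ T then g I T else 0 := by
    intro T hT
    rw [Finset.mem_powerset] at hT
    rw [← Finset.sum_filter]
    refine Finset.sum_congr ?_ fun _ _ => rfl
    ext I
    simp only [Finset.mem_powerset, Finset.mem_filter, Finset.subset_iff]
    constructor
    · intro h
      exact ⟨fun x hx => ⟨hT (h hx).1, (h hx).2⟩, fun x hx => (h hx).1⟩
    · rintro ⟨h2, h3⟩ x hx
      exact ⟨h3 hx, (h2 hx).2⟩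
  rw [Finset.sum_congr rfl h1, Finset.sum_comm]
  refine Finset.sum_congr rfl fun I hI => ?_
  rw [← Finset.sum_filter]
  have hIU : I ⊆ U := fun x hx => by
    have := (Finset.mem_powerset.mp hI) hx
    exact (Finset.mem_filter.mp this).1
  symm
  refine Finset.sum_bij' (fun J _ => I ∪ J) (fun T _ => T \ I) ?_ ?_ ?_ ?_ ?_
  · intro J hJ
    rw [Finset.mem_powerset] at hJ
    rw [Finset.mem_filter, Finset.mem_powerset]
    refine ⟨Finset.union_subset hIU (fun x hx => (Finset.mem_sdiff.mp (hJ hx)).1),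
      Finset.subset_union_left⟩
  · intro T hT
    rw [Finset.mem_filter, Finset.mem_powerset] at hT
    rw [Finset.mem_powerset]
    exact Finset.sdiff_subset_sdiff hT.1 (Finset.Subset.refl _)
  · intro J hJ
    rw [Finset.mem_powerset] at hJ
    have : Disjoint I J := by
      rw [Finset.disjoint_left]
      intro x hx hx'
      exact (Finset.mem_sdiff.mp (hJ hx')).2 hx
    exact Finset.union_sdiff_cancel_left this
  · intro T hT
    rw [Finset.mem_filter, Finset.mem_powerset] at hT
    exact Finset.union_sdiff_of_subset hT.2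
  · intro J _; rfl

open Classical in
/-- **Buchstab identity** with one level `D`. -/
theorem buchstab {N : ι → ℝ} (hN : ∀ p, 1 ≤ N p) {D : ℝ} (hD : 1 < D) (U : Finset ι)
    (Z : ι → Prop) (hZ : ∀ p q, p ≤ q → Z q → Z p) (F : Finset ι → ℂ) :
    ∑ T ∈ (U.filter (fun p => ¬ Z p)).powerset, F T =
      ∑ I ∈ (U.filter Z).powerset.filter (fun I => nu N I < D),
        (-1 : ℂ) ^ I.card * ∑ J ∈ (U \ I).powerset, F (I ∪ J) +
      ∑ I ∈ (U.filter Z).powerset.filter (fun I => Cr N D I),
        (-1 : ℂ) ^ I.card * ∑ J ∈ ((U \ I).filter (fun p => Ab I p)).powerset, F (I ∪ J) := by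
  have h0 : ∑ T ∈ (U.filter (fun p => ¬ Z p)).powerset, F T =
      ∑ T ∈ U.powerset, F T * (if T.filter Z = ∅ then (1 : ℂ) else 0) := by
    simp only [mul_ite, mul_one, mul_zero]
    rw [← Finset.sum_filter]
    refine Finset.sum_congr ?_ fun _ _ => rfl
    ext T
    simp only [Finset.mem_powerset, Finset.mem_filter, Finset.subset_iff,
      Finset.filter_eq_empty_iff]
    constructor
    · intro h
      exact ⟨fun x hx => (h hx).1, fun x hx => (h hx).2⟩
    · rintro ⟨h2, h3⟩ x hx
      exact ⟨h2 hx, h3 hx⟩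
  rw [h0]
  have h1 : ∀ T ∈ U.powerset, F T * (if T.filter Z = ∅ then (1 : ℂ) else 0) =
      ∑ I ∈ (T.filter Z).powerset, (-1 : ℂ) ^ I.card * (if nu N I < D then 1 else 0) * F T +
      ∑ I ∈ (T.filter Z).powerset,
        (-1 : ℂ) ^ I.card * (if Cr N D I ∧ ∀ p ∈ T \ I, Ab I p then 1 else 0) * F T := by
    intro T _
    rw [pointwise hN hD T Z hZ, mul_add, Finset.mul_sum, Finset.mul_sum]
    congr 1 <;> exact Finset.sum_congr rfl fun I _ => by ring
  rw [Finset.sum_congr rfl h1, Finset.sum_add_distrib, exchange, exchange]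
  congr 1
  · rw [Finset.sum_filter]
    refine Finset.sum_congr rfl fun I _ => ?_
    split_ifs with h
    · rw [Finset.mul_sum]
      refine Finset.sum_congr rfl fun J _ => by ring
    · simp
  · rw [Finset.sum_filter]
    refine Finset.sum_congr rfl fun I _ => ?_
    have hdis : ∀ J ∈ (U \ I).powerset, (I ∪ J) \ I = J := by
      intro J hJ
      rw [Finset.mem_powerset] at hJ
      have : Disjoint I J := by
        rw [Finset.disjoint_left]
        intro x hx hx'
        exact (Finset.mem_sdiff.mp (hJ hx')).2 hx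
      exact Finset.union_sdiff_cancel_left this
    split_ifs with h
    · rw [Finset.mul_sum]
      have e : ((U \ I).filter (fun p => Ab I p)).powerset =
          (U \ I).powerset.filter (fun J => ∀ p ∈ J, Ab I p) := by
        ext J
        simp only [Finset.mem_powerset, Finset.mem_filter, Finset.subset_iff]
        constructor
        · intro h
          exact ⟨fun x hx => (h hx).1, fun x hx => (h hx).2⟩
        · rintro ⟨h2, h3⟩ x hx
          exact ⟨h2 hx, h3 x hx⟩
      rw [e, Finset.sum_filter]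
      refine Finset.sum_congr rfl fun J hJ => ?_
      rw [hdis J hJ]
      by_cases hp : ∀ p ∈ J, Ab I p
      · rw [if_pos ⟨h, hp⟩, if_pos hp]; ring
      · rw [if_neg (fun hh => hp hh.2), if_neg hp]; ring
    · refine Finset.sum_eq_zero fun J hJ => ?_
      rw [if_neg (fun hh => h hh.1)]; ring

end Crest.Agent.R012.Buch420
end
end

-- ▼ part R012/BuchE_420

/-!
# Row 12: Buchstab identity for primary squarefree Eisenstein integers

`PrP` : type of primary primes with the linear order `(nm, re, im)`;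
`prd T = ∏_{p ∈ T} p`;  squarefree primary `n` ↔ `Finset PrP`.
-/

set_option autoImplicit false

noncomputable section

namespace Crest.Agent.R012.Buch420

open Finset Eis

/-- the type of primary primes -/
def PrP : Type := {p : Eis // IsPrim p ∧ Prime p}

namespace PrP

def key (p : PrP) : ℕ ×ₗ (ℤ ×ₗ ℤ) := toLex (nm p.1, toLex (p.1.re, p.1.im))

lemma key_inj : Function.Injective key := by
  intro p q h
  unfold key at h
  have h1 := toLex.injective h
  rw [Prod.mk.injEq] at h1
  have h2 := toLex.injective h1.2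
  rw [Prod.mk.injEq] at h2
  exact Subtype.ext (Eis.ext' h2.1 h2.2)

instance : LinearOrder PrP := LinearOrder.lift' key key_inj

lemma nm_le_of_le {p q : PrP} (h : p ≤ q) : nm p.1 ≤ nm q.1 := by
  have h' : key p ≤ key q := h
  rw [Prod.Lex.le_iff] at h'
  rcases h' with h' | h'
  · exact h'.le
  · exact h'.1.le

lemma lt_of_nm_lt {p q : PrP} (h : nm p.1 < nm q.1) : p < q := by
  by_contra hc
  push Not at hc
  exact absurd (nm_le_of_le hc) (not_le.mpr h)

lemma isPrim (p : PrP) : IsPrim p.1 := p.2.1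
lemma prime (p : PrP) : Prime p.1 := p.2.2
lemma ne_zero (p : PrP) : p.1 ≠ 0 := p.2.2.ne_zero

lemma two_le_nm (p : PrP) : 2 ≤ nm p.1 := Cheb420.nm_two_le p.prime

/-- norm as a real number -/
def N (p : PrP) : ℝ := nm p.1

lemma one_le_N (p : PrP) : 1 ≤ N p := by
  have := two_le_nm p
  unfold N
  exact_mod_cast (by omega : 1 ≤ nm p.1)

lemma dvd_iff_eq {p q : PrP} : p.1 ∣ q.1 ↔ p = q := by
  constructor
  · intro h
    exact Subtype.ext (p.isPrim.eq_of_associated q.isPrim (p.prime.associated_of_dvd q.prime h))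
  · rintro rfl; exact dvd_rfl

end PrP

/-- the squarefree primary number with given set of prime factors -/
def prd (T : Finset PrP) : Eis := ∏ p ∈ T, p.1

@[simp] lemma prd_empty : prd ∅ = 1 := by simp [prd]
lemma prd_insert {p : PrP} {T : Finset PrP} (h : p ∉ T) : prd (insert p T) = p.1 * prd T := by
  unfold prd; rw [Finset.prod_insert h]
lemma prd_union {S T : Finset PrP} (h : Disjoint S T) : prd (S ∪ T) = prd S * prd T :=
  Finset.prod_union h
@[simp] lemma prd_singleton (p : PrP) : prd {p} = p.1 := by simp [prd]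

lemma isPrim_prd (T : Finset PrP) : IsPrim (prd T) := by
  induction T using Finset.induction_on with
  | empty => simpa using isPrim_one
  | insert p T hp ih => rw [prd_insert hp]; exact p.isPrim.mul ih

lemma prd_ne_zero (T : Finset PrP) : prd T ≠ 0 := (isPrim_prd T).ne_zero

lemma nu_eq (T : Finset PrP) : nu PrP.N T = nm (prd T) := by
  induction T using Finset.induction_on with
  | empty => simp
  | insert p T hp ih => rw [nu_insert _ hp, prd_insert hp, nm_mul, ih]; push_cast; rfl

lemma dvd_prd_iff {p : PrP} {T : Finset PrP} : p.1 ∣ prd T ↔ p ∈ T := by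
  constructor
  · intro h
    obtain ⟨q, hq, hpq⟩ := (p.prime.dvd_finsetProd_iff _).mp h
    rw [PrP.dvd_iff_eq] at hpq
    rw [hpq]; exact hq
  · intro h; exact Finset.dvd_prod_of_mem _ h

lemma prd_dvd_prd_iff {S T : Finset PrP} : prd S ∣ prd T ↔ S ⊆ T := by
  constructor
  · intro h p hp
    exact dvd_prd_iff.mp ((dvd_prd_iff.mpr hp).trans h)
  · intro h; exact Finset.prod_dvd_prod_of_subset _ _ _ h

lemma prd_injective : Function.Injective prd := by
  intro S T h
  apply Finset.Subset.antisymm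
  · exact prd_dvd_prd_iff.mp (by rw [h])
  · exact prd_dvd_prd_iff.mp (by rw [h])

/-- every prime divisor of a primary number has a unique primary associate, as an element of
`PrP`. -/
lemma exists_PrP {n q : Eis} (hn : IsPrim n) (hq : Prime q) (h : q ∣ n) :
    ∃ p : PrP, Associated q p.1 ∧ p.1 ∣ n := by
  have hl : ¬ lam ∣ q := fun h' => hn.not_lam_dvd (h'.trans h)
  obtain ⟨y, hy, ha⟩ := exists_isPrim_associated hl
  exact ⟨⟨y, hy, ha.prime hq⟩, ha, (ha.dvd_iff_dvd_left).mp h⟩

lemma squarefree_prd (T : Finset PrP) : Squarefree (prd T) := by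
  induction T using Finset.induction_on with
  | empty => simp
  | insert p T hp ih =>
    rw [prd_insert hp]
    refine (squarefree_mul_iff).mpr ⟨?_, p.prime.squarefree, ih⟩
    refine IsCoprime.isRelPrime ?_
    refine (p.prime.irreducible.coprime_iff_not_dvd).mpr ?_
    rw [dvd_prd_iff]; exact hp

/-- The set of primary primes of norm at most `X`. -/
def UX (X : ℕ) : Finset PrP :=
  open Classical in Finset.subtype (fun p => IsPrim p ∧ Prime p) (ball X)

open Classical in
lemma mem_UX {X : ℕ} {p : PrP} : p ∈ UX X ↔ nm p.1 ≤ X := by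
  exact Finset.mem_subtype.trans mem_ball

/-- The set of primary primes dividing `n`. -/
def pset (n : Eis) : Finset PrP :=
  open Classical in (UX (nm n)).filter (fun p => p.1 ∣ n)

lemma nm_le_of_dvd' {d n : Eis} (hn : n ≠ 0) (h : d ∣ n) : nm d ≤ nm n := by
  obtain ⟨t, rfl⟩ := h
  rw [nm_mul]
  exact Nat.le_mul_of_pos_right _ (nm_pos.mpr (right_ne_zero_of_mul hn))

lemma mem_pset {n : Eis} (hn : n ≠ 0) {p : PrP} : p ∈ pset n ↔ p.1 ∣ n := by
  classical
  unfold pset
  rw [Finset.mem_filter, mem_UX]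
  exact ⟨fun h => h.2, fun h => ⟨nm_le_of_dvd' hn h, h⟩⟩

@[simp] lemma pset_prd (T : Finset PrP) : pset (prd T) = T := by
  ext p; rw [mem_pset (prd_ne_zero T), dvd_prd_iff]

lemma prd_pset {n : Eis} (hn : IsPrim n) (hs : Squarefree n) : prd (pset n) = n := by
  have h1 : prd (pset n) ∣ n := by
    unfold prd
    refine Finset.prod_dvd_of_coprime ?_ ?_
    · intro p _ q _ hpq
      refine (p.prime.irreducible.coprime_iff_not_dvd).mpr ?_
      rw [PrP.dvd_iff_eq]; exact hpq
    · intro p hp; exact (mem_pset hn.ne_zero).mp hp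
  obtain ⟨t, ht⟩ := h1
  have htp : IsPrim t := IsPrim.of_mul_left (by rw [← ht]; exact hn) (isPrim_prd _)
  have htu : IsUnit t := by
    by_contra hc
    obtain ⟨q, hq, hqt⟩ := WfDvdMonoid.exists_irreducible_factor hc htp.ne_zero
    obtain ⟨p, hp, hpt⟩ := exists_PrP htp hq.prime hqt
    have hpn : p ∈ pset n := (mem_pset hn.ne_zero).mpr (by rw [ht]; exact hpt.mul_left _)
    have h2 : p.1 * p.1 ∣ n := by
      conv_rhs => rw [ht]
      exact mul_dvd_mul (dvd_prd_iff.mpr hpn) hpt
    exact p.prime.not_isUnit (hs _ h2)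
  have ht1 : t = 1 := Cheb420.isPrim_unit htu htp
  conv_rhs => rw [ht, ht1, mul_one]


/-! ### Sums over powersets as sums over primary numbers -/

open Classical in
/-- `∑_{T ⊆ A} f (∏ T)` is the sum over the primary `n`, `nm n ≤ X`, all of whose prime factors are in
`A`, if `f` is supported on squarefree `n` of norm `≤ X`. -/
lemma sum_powerset_prd {X : ℕ} (f : Eis → ℂ) (hf : ∀ n, f n ≠ 0 → Squarefree n ∧ nm n ≤ X)
    (A : Finset PrP) :
    ∑ T ∈ A.powerset, f (prd T) =
      ∑ n ∈ (primBall X).filter (fun n => ∀ p : PrP, p.1 ∣ n → p ∈ A), f n := by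
  have h1 : ∑ T ∈ A.powerset, f (prd T) =
      ∑ T ∈ A.powerset.filter (fun T => nm (prd T) ≤ X), f (prd T) := by
    rw [Finset.sum_filter]
    refine Finset.sum_congr rfl fun T _ => ?_
    split_ifs with h
    · rfl
    · by_contra hc; exact h (hf _ hc).2
  rw [h1]
  have h2 : ∑ T ∈ A.powerset.filter (fun T => nm (prd T) ≤ X), f (prd T) =
      ∑ n ∈ (A.powerset.filter (fun T => nm (prd T) ≤ X)).image prd, f n :=
    (Finset.sum_image (fun a _ b _ h => prd_injective h)).symm
  rw [h2]
  refine Finset.sum_subset ?_ ?_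
  · intro n hn
    rw [Finset.mem_image] at hn
    obtain ⟨T, hT, rfl⟩ := hn
    rw [Finset.mem_filter, Finset.mem_powerset] at hT
    rw [Finset.mem_filter, mem_primBall]
    exact ⟨⟨hT.2, isPrim_prd T⟩, fun p hp => hT.1 (dvd_prd_iff.mp hp)⟩
  · intro n hn hn'
    rw [Finset.mem_filter, mem_primBall] at hn
    by_contra hc
    have hs := (hf n hc).1
    apply hn'
    rw [Finset.mem_image]
    refine ⟨pset n, ?_, prd_pset hn.1.2 hs⟩
    rw [Finset.mem_filter, Finset.mem_powerset, prd_pset hn.1.2 hs]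
    exact ⟨fun p hp => hn.2 p ((mem_pset hn.1.2.ne_zero).mp hp), hn.1.1⟩

open Classical in
/-- Sum over multiples. -/
lemma sum_powerset_multiples {X : ℕ} (f : Eis → ℂ) (hf : ∀ n, f n ≠ 0 → Squarefree n ∧ nm n ≤ X)
    (I : Finset PrP) :
    ∑ J ∈ (UX X \ I).powerset, f (prd (I ∪ J)) =
      ∑ n ∈ (primBall X).filter (fun n => prd I ∣ n), f n := by
  have h1 : ∑ J ∈ (UX X \ I).powerset, f (prd (I ∪ J)) =
      ∑ J ∈ (UX X \ I).powerset.filter (fun J => nm (prd (I ∪ J)) ≤ X), f (prd (I ∪ J)) := by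
    rw [Finset.sum_filter]
    refine Finset.sum_congr rfl fun T _ => ?_
    split_ifs with h
    · rfl
    · by_contra hc; exact h (hf _ hc).2
  rw [h1]
  have hdj : ∀ J ∈ (UX X \ I).powerset, Disjoint I J := by
    intro J hJ
    rw [Finset.mem_powerset] at hJ
    rw [Finset.disjoint_left]
    intro x hx hx'
    exact (Finset.mem_sdiff.mp (hJ hx')).2 hx
  have hinj : Set.InjOn (fun J => prd (I ∪ J))
      ((UX X \ I).powerset.filter (fun J => nm (prd (I ∪ J)) ≤ X) : Finset (Finset PrP)) := by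
    intro J hJ K hK h
    rw [Finset.mem_coe, Finset.mem_filter] at hJ hK
    have h2 := prd_injective h
    rw [← Finset.union_sdiff_cancel_left (hdj J hJ.1), h2,
      Finset.union_sdiff_cancel_left (hdj K hK.1)]
  rw [← Finset.sum_image (f := f) hinj]
  refine Finset.sum_subset ?_ ?_
  · intro n hn
    rw [Finset.mem_image] at hn
    obtain ⟨J, hJ, rfl⟩ := hn
    rw [Finset.mem_filter, Finset.mem_powerset] at hJ
    rw [Finset.mem_filter, mem_primBall]
    exact ⟨⟨hJ.2, isPrim_prd _⟩, prd_dvd_prd_iff.mpr Finset.subset_union_left⟩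
  · intro n hn hn'
    rw [Finset.mem_filter, mem_primBall] at hn
    by_contra hc
    have hs := (hf n hc).1
    have hI : I ⊆ pset n := by
      rw [← prd_dvd_prd_iff, prd_pset hn.1.2 hs]; exact hn.2
    apply hn'
    rw [Finset.mem_image]
    have hu : I ∪ (pset n \ I) = pset n := Finset.union_sdiff_of_subset hI
    refine ⟨pset n \ I, ?_, by rw [hu, prd_pset hn.1.2 hs]⟩
    rw [Finset.mem_filter, Finset.mem_powerset, hu, prd_pset hn.1.2 hs]
    refine ⟨fun p hp => ?_, hn.1.1⟩
    rw [Finset.mem_sdiff] at hp ⊢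
    refine ⟨?_, hp.2⟩
    rw [mem_UX]
    exact (nm_le_of_dvd' hn.1.2.ne_zero ((mem_pset hn.1.2.ne_zero).mp hp.1)).trans hn.1.1


end Crest.Agent.R012.Buch420
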