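import Crest.Agent.R012.Defs

/-!
# Row 12, part (CR): the critical range `h ≈ b ≈ X^(1/2)`.   Interface statements (helper290)

Everything is stated with the numerator variable `h` and the completely multiplicative (in the
denominator) symbol `sy h c`.

VERSION A (captain's ORDERS 4): the critical range is only used for `b = p d`, `p` prime (the least
prime of `b`), all primes of `b` at least `X^ν`.  No type I part, no Vaughan identity.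

* inputs        : `HBLS` (L2), `OrdLS` (L1), `TypeINat` ((M) + TI)
* `GLS`, `Mom`  : (CRA)  general coefficients / moments            DONE (helper106, `CRA_106`)
* `SavedMom`    : (CR2)  saved moment                                         helper180
* `Core`        : (CRH)  Hölder  `Mom → SavedMom → Core`                      helper569
* `CoreCub`     : (CRC)  cubefree numerators                                  helper436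
* `CRProd`      : (CRG)  final output for products                            helper290
-/

set_option autoImplicit false

noncomputable section

open Complex
open scoped BigOperators

namespace Crest.Agent.R012.CR290

open Crest.Agent.R012 Crest.Agent.R012.Eis

/-- `1 - ω`. -/
def lm : Eis := 1 - w

/-- a finite set of primary squarefree elements of norm `≤ X`. -/
def IsSF (S : Finset Eis) (X : ℝ) : Prop :=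
  ∀ h ∈ S, IsPrim h ∧ Squarefree h ∧ (nm h : ℝ) ≤ X

/-- a finite set of primary elements of norm `≤ X`. -/
def IsPB (T : Finset Eis) (X : ℝ) : Prop :=
  ∀ n ∈ T, IsPrim n ∧ (nm n : ℝ) ≤ X

/-- a finite set of primary primes of norm in `(C, 2C]`. -/
def IsPP (P : Finset Eis) (C : ℝ) : Prop :=
  ∀ p ∈ P, IsPrim p ∧ Prime p ∧ C < (nm p : ℝ) ∧ (nm p : ℝ) ≤ 2 * C

/-- The linear form `∑_{c ∈ T} γ_c (h/c)`. -/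
def F (T : Finset Eis) (γ : Eis → ℂ) (h : Eis) : ℂ := ∑ c ∈ T, γ c * sy h c

/-! ### Inputs -/

/-- (L2) Heath-Brown's cubic large sieve. -/
def HBLS : Prop := ∀ ε : ℝ, 0 < ε → ∃ K : ℝ, 0 < K ∧ ∀ M N : ℝ, 1 ≤ M → 1 ≤ N →
  ∀ S T : Finset Eis, IsSF S M → IsSF T N → ∀ c : Eis → ℂ,
    ∑ h ∈ S, ‖F T c h‖ ^ 2
      ≤ K * (M * N) ^ ε * (M + N + (M * N) ^ (2 / 3 : ℝ)) * ∑ n ∈ T, ‖c n‖ ^ 2

/-- A tuple `(i, j, k₁, k₂)` stands for the cubefree numerator `ω^i λ^j k₁ k₂²`. -/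
abbrev Tup : Type := (ℕ × ℕ) × (Eis × Eis)

/-- the numerator `ω^i λ^j k₁ k₂²`. -/
def num (x : Tup) : Eis := w ^ x.1.1 * lm ^ x.1.2 * x.2.1 * x.2.2 ^ 2

/-- admissible tuple: `i, j < 3`, `k₁, k₂` primary squarefree coprime. -/
def IsTup (x : Tup) : Prop :=
  x.1.1 < 3 ∧ x.1.2 < 3 ∧ IsPrim x.2.1 ∧ IsPrim x.2.2 ∧ Squarefree x.2.1 ∧ Squarefree x.2.2 ∧
    IsCoprime x.2.1 x.2.2

/-- (L1) ordinary multiplicative large sieve for the characters `(ω^i λ^j k₁ k₂² / ·)`,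
conductor `N(k₁ k₂) ≤ Q` (helper52 #1551, helper879). -/
def OrdLS : Prop := ∃ K : ℝ, 0 < K ∧ ∀ Q N : ℝ, 1 ≤ Q → 1 ≤ N →
  ∀ (S : Finset Tup) (T : Finset Eis),
    (∀ x ∈ S, IsTup x ∧ (nm x.2.1 : ℝ) * nm x.2.2 ≤ Q) → IsPB T N → ∀ c : Eis → ℂ,
    ∑ x ∈ S, ‖F T c (num x)‖ ^ 2 ≤ K * (Q ^ 2 + N) * ∑ n ∈ T, ‖c n‖ ^ 2





/-! ### (CRA) -/

/-- (CRA) general large sieve for bounded coefficients on ALL primary `n`. -/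
def GLS : Prop := ∀ ε : ℝ, 0 < ε → ∃ K : ℝ, 0 < K ∧ ∀ M N : ℝ, 1 ≤ M → 1 ≤ N →
  ∀ S T : Finset Eis, IsSF S M → IsPB T N → ∀ c : Eis → ℂ, (∀ n ∈ T, ‖c n‖ ≤ 1) →
    ∑ h ∈ S, ‖F T c h‖ ^ 2 ≤ K * (M * N) ^ ε * (M + N + (M * N) ^ (2 / 3 : ℝ)) * N

/-- (CRA) moments. -/
def Mom : Prop := ∀ (j : ℕ), 1 ≤ j → ∀ ε : ℝ, 0 < ε → ∃ K : ℝ, 0 < K ∧
  ∀ M C : ℝ, 1 ≤ M → 1 ≤ C → ∀ S T : Finset Eis, IsSF S M → IsPB T C →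
  ∀ γ : Eis → ℂ, (∀ c ∈ T, ‖γ c‖ ≤ 1) →
    ∑ h ∈ S, ‖F T γ h‖ ^ (2 * j)
      ≤ K * (M * C) ^ ε * (M + C ^ j + (M * C ^ j) ^ (2 / 3 : ℝ)) * C ^ j

/-! ### (CR2) -/

/-- (CR2) the saved moment: `C^j ∈ [H^(1.1), H^(1.8)]`, `c` prime. -/
def SavedMom : Prop := ∀ j : ℕ, 2 ≤ j → ∃ δ K : ℝ, 0 < δ ∧ 0 < K ∧
  ∀ H C : ℝ, 1 ≤ H → 1 ≤ C → H ^ (1.1 : ℝ) ≤ C ^ j → C ^ j ≤ H ^ (1.8 : ℝ) →
  ∀ S P : Finset Eis, IsSF S H → IsPP P C → ∀ γ : Eis → ℂ, (∀ p ∈ P, ‖γ p‖ ≤ 1) →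
    ∑ h ∈ S, ‖F P γ h‖ ^ (2 * j) ≤ K * H ^ (-δ) * (H * C ^ j) ^ (2 / 3 : ℝ) * C ^ j

/-! ### (CRH) -/

/-- (CRH) core bilinear estimate: `c` prime, `d` arbitrary. -/
def Core : Prop := ∀ ν : ℝ, 0 < ν → ∃ δ e₀ K : ℝ, 0 < δ ∧ 0 < e₀ ∧ 0 < K ∧
  ∀ H C D : ℝ, 1 ≤ H → H ^ ν ≤ C → C ≤ H ^ (0.9 : ℝ) → 1 ≤ D → C * D ≤ H ^ (1 + e₀) →
  ∀ S P T : Finset Eis, IsSF S H → IsPP P C → IsPB T D →
  ∀ γ ξ : Eis → ℂ, (∀ p ∈ P, ‖γ p‖ ≤ 1) → (∀ d ∈ T, ‖ξ d‖ ≤ 1) →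
    ∑ h ∈ S, ‖F P γ h‖ ^ 2 * ‖F T ξ h‖ ^ 2 ≤ K * H ^ (7 / 3 - δ)


/-! ### (CRC) passage from squarefree `h` to all cubefree numerators `ω^i λ^j k₁ k₂²` -/

/-- a finite set of admissible tuples with numerator of norm `≤ X`. -/
def IsTS (S : Finset Tup) (X : ℝ) : Prop := ∀ x ∈ S, IsTup x ∧ (nm (num x) : ℝ) ≤ X

/-- (CRC) the core bilinear estimate over all cubefree numerators. -/
def CoreCub : Prop := ∀ ν : ℝ, 0 < ν → ∃ δ e₀ K : ℝ, 0 < δ ∧ 0 < e₀ ∧ 0 < K ∧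
  ∀ B C D : ℝ, 1 ≤ B → B ^ ν ≤ C → C ≤ B ^ (0.9 : ℝ) → 1 ≤ D → C * D ≤ B ^ (1 + e₀) →
  ∀ (S : Finset Tup) (P T : Finset Eis), IsTS S (B ^ (1 + e₀)) → IsPP P C → IsPB T D →
  ∀ γ ξ : Eis → ℂ, (∀ p ∈ P, ‖γ p‖ ≤ 1) → (∀ d ∈ T, ‖ξ d‖ ≤ 1) →
    ∑ x ∈ S, ‖F P γ (num x)‖ ^ 2 * ‖F T ξ (num x)‖ ^ 2 ≤ K * B ^ (7 / 3 - δ)

/-! ### (CRG) final output -/

open Classical in
/-- (CRG) products `b = p d` with `p` prime, `B^ν ≤ N p ≤ B^0.9`, arbitrary bounded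
coefficients, and two conditions `φ₁(p) < ψ₁(d)`, `φ₂(p) < ψ₂(d)` with integer valued functions
(e.g. `p < P⁻(d)` in some order and `N(pd) ≤ B₂`). -/
def CRProd : Prop := ∀ ν : ℝ, 0 < ν → ∃ δ K : ℝ, 0 < δ ∧ 0 < K ∧
  ∀ B : ℝ, 1 ≤ B → ∀ (P T : Finset Eis) (γ ξ : Eis → ℂ) (φ₁ φ₂ ψ₁ ψ₂ : Eis → ℕ),
    (∀ p ∈ P, IsPrim p ∧ Prime p ∧ B ^ ν ≤ nm p ∧ (nm p : ℝ) ≤ B ^ (0.9 : ℝ)) →
    (∀ d ∈ T, IsPrim d) → (∀ p ∈ P, ‖γ p‖ ≤ 1) → (∀ d ∈ T, ‖ξ d‖ ≤ 1) →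
    (∀ x, (φ₁ x : ℝ) ≤ B ^ 3 ∧ (φ₂ x : ℝ) ≤ B ^ 3 ∧ (ψ₁ x : ℝ) ≤ B ^ 3 ∧ (ψ₂ x : ℝ) ≤ B ^ 3) →
    (∀ p ∈ P, ∀ d ∈ T, φ₁ p < ψ₁ d → φ₂ p < ψ₂ d → (nm p : ℝ) * nm d ≤ B) →
    ∀ S : Finset Tup, IsTS S (B ^ (1 + δ)) →
      ∑ y ∈ S, ‖∑ p ∈ P, ∑ d ∈ T, (if φ₁ p < ψ₁ d ∧ φ₂ p < ψ₂ d then (1 : ℂ) else 0) *
        (γ p * ξ d * sy (num y) (p * d))‖ ^ 2 ≤ K * B ^ (7 / 3 - δ)

end Crest.Agent.R012.CR290
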