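import Crest.Agent.R012.Defs

-- ▼ part R012/Sym1_645
section

/-!
# Row 12, R2 (1): cubic residue symbol modulo a prime
-/

set_option autoImplicit false

noncomputable section

open Crest.Agent.R012 Crest.Agent.R012.Eis

namespace Crest.Agent.R012.Sym645

/-! ### cardinality of residue rings -/

instance : Module.Free ℤ Eis := inferInstance
instance : Module.Finite ℤ Eis := inferInstance

lemma algNorm_eq (c : Eis) : Algebra.norm ℤ c = (nm c : ℤ) := by
  rw [Algebra.norm_apply, ← norm_eq_nm, ← QuadraticAlgebra.det_toLinearMap_eq_norm]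
  congr 1

/-- Residue ring. -/
abbrev Rq (c : Eis) : Type := Eis ⧸ Ideal.span ({c} : Set Eis)

lemma natCard_Rq (c : Eis) : Nat.card (Rq c) = nm c := by
  have h := Ideal.absNorm_span_singleton (S := Eis) c
  rw [algNorm_eq, Int.natAbs_natCast] at h
  rw [← h, Ideal.absNorm_apply]
  rfl

lemma finite_Rq {c : Eis} (hc : c ≠ 0) : Finite (Rq c) := by
  apply Nat.finite_of_card_ne_zero
  rw [natCard_Rq]
  exact (nm_pos.2 hc).ne'

/-- The class of `x`. -/
abbrev rq (c x : Eis) : Rq c := Ideal.Quotient.mk (Ideal.span ({c} : Set Eis)) x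

lemma rq_eq {c x y : Eis} : rq c x = rq c y ↔ c ∣ x - y := by
  rw [Ideal.Quotient.eq, Ideal.mem_span_singleton]

lemma rq_eq_zero {c x : Eis} : rq c x = 0 ↔ c ∣ x := by
  rw [Ideal.Quotient.eq_zero_iff_mem, Ideal.mem_span_singleton]

/-! ### norms modulo 3 -/

lemma nm_mod_three (c : Eis) : nm c % 3 = 0 ∨ nm c % 3 = 1 := by
  have h := nm_cast c
  have : (nm c : ℤ) % 3 = 0 ∨ (nm c : ℤ) % 3 = 1 := by
    rw [h]
    have h1 : c.re % 3 = 0 ∨ c.re % 3 = 1 ∨ c.re % 3 = 2 := by omega
    have h2 : c.im % 3 = 0 ∨ c.im % 3 = 1 ∨ c.im % 3 = 2 := by omega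
    rcases h1 with h1 | h1 | h1 <;> rcases h2 with h2 | h2 | h2 <;>
      simp [pow_two, Int.add_emod, Int.sub_emod, Int.mul_emod, h1, h2]
  omega

lemma nm_mod_of_mul {a b : Eis} (h : nm (a * b) % 3 = 1) : nm a % 3 = 1 ∧ nm b % 3 = 1 := by
  rw [nm_mul, Nat.mul_mod] at h
  rcases nm_mod_three a with ha | ha <;> rcases nm_mod_three b with hb | hb <;>
    simp_all


lemma prim_nm_mod {a : Eis} (h : IsPrim a) : nm a % 3 = 1 := by
  obtain ⟨t, ht⟩ := h
  have ha : a = 1 + 3 * t := by rw [← ht]; ring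
  have h3re : (3 : Eis).re = 3 := rfl
  have h3im : (3 : Eis).im = 0 := rfl
  have hre : a.re = 1 + 3 * t.re := by
    rw [ha, QuadraticAlgebra.re_add, re_mul', h3re, h3im, one_re']; ring
  have him : a.im = 3 * t.im := by
    rw [ha, QuadraticAlgebra.im_add, im_mul', h3re, h3im, one_im']; ring
  have h := nm_cast a
  rw [hre, him] at h
  have : (nm a : ℤ) % 3 = 1 := by
    rw [h]
    have : (1 + 3 * t.re) ^ 2 - (1 + 3 * t.re) * (3 * t.im) + (3 * t.im) ^ 2
      = 1 + 3 * (2 * t.re + 3 * t.re ^ 2 - (1 + 3 * t.re) * t.im + 3 * t.im ^ 2) := by ring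
    rw [this]; omega
  omega

lemma prim_one : IsPrim 1 := ⟨0, by ring⟩

lemma prim_mul {a b : Eis} (ha : IsPrim a) (hb : IsPrim b) : IsPrim (a * b) := by
  obtain ⟨s, hs⟩ := ha
  obtain ⟨t, ht⟩ := hb
  refine ⟨s * b + t, ?_⟩
  linear_combination b * hs + ht

lemma prim_ne_zero {a : Eis} (h : IsPrim a) : a ≠ 0 := by
  rintro rfl
  have := prim_nm_mod h
  simp at this

lemma ne_zero_of_nm_mod {a : Eis} (h : nm a % 3 = 1) : a ≠ 0 := by
  rintro rfl
  simp at h


/-! ### primes -/

lemma isCoprime_of_prime_not_dvd {p x : Eis} (hp : Prime p) (h : ¬ p ∣ x) : IsCoprime p x :=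
  (hp.irreducible.coprime_iff_not_dvd).2 h

instance instIsPrimeSpan {p : Eis} [hp : Fact (Prime p)] :
    (Ideal.span ({p} : Set Eis)).IsPrime :=
  (Ideal.span_singleton_prime hp.out.ne_zero).2 hp.out

lemma isMaximal_span {p : Eis} (hp : Prime p) : (Ideal.span ({p} : Set Eis)).IsMaximal :=
  PrincipalIdealRing.isMaximal_of_irreducible hp.irreducible

/-- The residue field. -/
@[reducible] def fieldRq {p : Eis} (hp : Prime p) : Field (Rq p) :=
  haveI := isMaximal_span hp
  Ideal.Quotient.field _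

lemma nm_ne_one_of_prime {p : Eis} (hp : Prime p) : nm p ≠ 1 := by
  intro h
  exact hp.not_isUnit (isUnit_iff.2 h)

/-- Fermat. -/
lemma prime_dvd_pow_sub_one {p x : Eis} (hp : Prime p) (h : ¬ p ∣ x) :
    p ∣ x ^ (nm p - 1) - 1 := by
  let _ := fieldRq hp
  have := finite_Rq hp.ne_zero
  let _ : Fintype (Rq p) := Fintype.ofFinite _
  have hc : Fintype.card (Rq p) = nm p := by
    rw [← Nat.card_eq_fintype_card, natCard_Rq]
  have hx : rq p x ≠ 0 := by rwa [Ne, rq_eq_zero]
  have := FiniteField.pow_card_sub_one_eq_one (rq p x) hx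
  rw [hc] at this
  have h2 : rq p (x ^ (nm p - 1)) = rq p 1 := by
    show Ideal.Quotient.mk _ _ = Ideal.Quotient.mk _ _
    rw [map_pow, map_one]; exact this
  exact rq_eq.1 h2

lemma one_lt_nm_of_prime {p : Eis} (hp : Prime p) : 1 < nm p := by
  have h1 := nm_pos.2 hp.ne_zero
  have h2 := nm_ne_one_of_prime hp
  omega

lemma three_mul_div {p : Eis} (hp3 : nm p % 3 = 1) : 3 * ((nm p - 1) / 3) = nm p - 1 := by
  omega

/-- Two distinct cube roots of unity differ by an element of norm three. -/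
lemma not_dvd_of_nm_three {p z : Eis} (hp : Prime p) (hp3 : nm p % 3 = 1) (hz : nm z = 3) :
    ¬ p ∣ z := by
  rintro ⟨t, rfl⟩
  rw [nm_mul] at hz
  have h1 : nm p ∣ 3 := ⟨nm t, hz.symm⟩
  rcases (Nat.dvd_prime Nat.prime_three).1 h1 with h | h
  · exact nm_ne_one_of_prime hp h
  · rw [h] at hp3; simp at hp3

lemma nm_one_sub_w : nm (1 - w) = 3 := by
  simp [nm]
lemma nm_one_sub_w2 : nm (1 - w ^ 2) = 3 := by
  rw [w_sq]; simp [nm]
lemma nm_w_sub_w2 : nm (w - w ^ 2) = 3 := by
  rw [w_sq]; simp [nm]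

open Classical in
/-- The cube root of unity `u` with `p ∣ x^((Np-1)/3) - u`, or `0` if `p ∣ x`. -/
def cu (x p : Eis) : Eis :=
  if p ∣ x then 0
  else if p ∣ x ^ ((nm p - 1) / 3) - 1 then 1
  else if p ∣ x ^ ((nm p - 1) / 3) - w then w
  else w ^ 2

lemma toC_cu (x p : Eis) : toC (cu x p) = sy0 x p := by
  unfold cu sy0
  split_ifs <;> simp

lemma cu_of_dvd {x p : Eis} (h : p ∣ x) : cu x p = 0 := by
  unfold cu; rw [if_pos h]

lemma cu_cases {x p : Eis} (h : ¬ p ∣ x) : cu x p = 1 ∨ cu x p = w ∨ cu x p = w ^ 2 := by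
  unfold cu; rw [if_neg h]
  split_ifs <;> simp

lemma cu_cube {x p : Eis} (h : ¬ p ∣ x) : cu x p ^ 3 = 1 := by
  have hw := w_cube
  rcases cu_cases h with h | h | h <;> rw [h]
  · simp
  · exact hw
  · rw [← pow_mul, mul_comm, pow_mul, hw, one_pow]

/-- Defining property of `cu`. -/
lemma cu_spec {x p : Eis} (hp : Prime p) (hp3 : nm p % 3 = 1) (h : ¬ p ∣ x) :
    p ∣ x ^ ((nm p - 1) / 3) - cu x p := by
  unfold cu
  rw [if_neg h]
  split_ifs with h1 h2
  · exact h1
  · exact h2
  · set y := x ^ ((nm p - 1) / 3) with hy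
    have h3 : y ^ 3 = x ^ (nm p - 1) := by
      rw [hy, ← pow_mul, mul_comm, three_mul_div hp3]
    have h4 : p ∣ y ^ 3 - 1 := by rw [h3]; exact prime_dvd_pow_sub_one hp h
    have h5 : y ^ 3 - 1 = (y - 1) * ((y - w) * (y - w ^ 2)) := by
      have e1 := w_cube
      have e2 := w_sq
      linear_combination (y * (y - 1)) * e2 - (y - 1) * e1
    rw [h5] at h4
    rcases hp.dvd_or_dvd h4 with h6 | h6
    · exact absurd h6 h1
    rcases hp.dvd_or_dvd h6 with h7 | h7
    · exact absurd h7 h2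
    · exact h7

/-- Uniqueness of the cube root of unity. -/
lemma root_unique {p u v : Eis} (hp : Prime p) (hp3 : nm p % 3 = 1)
    (hu : u = 1 ∨ u = w ∨ u = w ^ 2) (hv : v = 1 ∨ v = w ∨ v = w ^ 2) (h : p ∣ u - v) : u = v := by
  have k1 := not_dvd_of_nm_three hp hp3 nm_one_sub_w
  have k2 := not_dvd_of_nm_three hp hp3 nm_one_sub_w2
  have k3 := not_dvd_of_nm_three hp hp3 nm_w_sub_w2
  rcases hu with rfl | rfl | rfl <;> rcases hv with rfl | rfl | rfl
  · rfl
  · exact absurd h k1
  · exact absurd h k2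
  · exact absurd (by rw [← dvd_neg, neg_sub]; exact h) k1
  · rfl
  · exact absurd h k3
  · exact absurd (by rw [← dvd_neg, neg_sub]; exact h) k2
  · exact absurd (by rw [← dvd_neg, neg_sub]; exact h) k3
  · rfl

lemma cu_eq_of {x p u : Eis} (hp : Prime p) (hp3 : nm p % 3 = 1)
    (hu : u = 1 ∨ u = w ∨ u = w ^ 2) (h : p ∣ x ^ ((nm p - 1) / 3) - u) : cu x p = u := by
  have hx : ¬ p ∣ x := by
    intro hx
    have hk : (nm p - 1) / 3 ≠ 0 := by
      have := one_lt_nm_of_prime hp
      omega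
    have h1 : p ∣ x ^ ((nm p - 1) / 3) := dvd_pow hx hk
    have h2 : p ∣ u := by
      have := dvd_sub h1 h
      rwa [sub_sub_cancel] at this
    have h3 : IsUnit u := by
      rcases hu with rfl | rfl | rfl
      · exact isUnit_one
      · exact isUnit_w
      · exact isUnit_w.pow 2
    exact hp.not_isUnit (isUnit_of_dvd_unit h2 h3)
  have h1 := cu_spec hp hp3 hx
  refine root_unique hp hp3 (cu_cases hx) hu ?_
  have := dvd_sub h h1
  rwa [sub_sub_sub_cancel_left] at this

lemma cu_congr {x y p : Eis} (hp : Prime p) (hp3 : nm p % 3 = 1) (h : p ∣ x - y) :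
    cu x p = cu y p := by
  by_cases hx : p ∣ x
  · have hy : p ∣ y := by
      have := dvd_sub hx h
      rwa [sub_sub_cancel] at this
    rw [cu_of_dvd hx, cu_of_dvd hy]
  · have hy : ¬ p ∣ y := by
      intro hy
      exact hx (by have := dvd_add h hy; rwa [sub_add_cancel] at this)
    refine cu_eq_of hp hp3 (cu_cases hy) ?_
    have h1 := cu_spec hp hp3 hy
    have h2 : p ∣ x ^ ((nm p - 1) / 3) - y ^ ((nm p - 1) / 3) :=
      h.trans (sub_dvd_pow_sub_pow _ _ _)
    have := dvd_add h2 h1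
    rwa [sub_add_sub_cancel] at this

lemma roots_mul {u v : Eis} (hu : u = 1 ∨ u = w ∨ u = w ^ 2) (hv : v = 1 ∨ v = w ∨ v = w ^ 2) :
    u * v = 1 ∨ u * v = w ∨ u * v = w ^ 2 := by
  have hw := w_cube
  have h4 : w ^ 2 * w ^ 2 = w := by
    have : w ^ 2 * w ^ 2 = w ^ 3 * w := by ring
    rw [this, hw, one_mul]
  have h3 : w ^ 2 * w = 1 := by rw [← pow_succ]; exact hw
  have h3' : w * w ^ 2 = 1 := by rw [← pow_succ']; exact hw
  have h2 : w * w = w ^ 2 := (pow_two w).symm
  rcases hu with rfl | rfl | rfl <;> rcases hv with rfl | rfl | rfl <;>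
    simp [h4, h3, h3', h2]

lemma cu_mul {x y p : Eis} (hp : Prime p) (hp3 : nm p % 3 = 1) :
    cu (x * y) p = cu x p * cu y p := by
  by_cases hx : p ∣ x
  · rw [cu_of_dvd hx, cu_of_dvd (hx.mul_right y), zero_mul]
  by_cases hy : p ∣ y
  · rw [cu_of_dvd hy, cu_of_dvd (hy.mul_left x), mul_zero]
  refine cu_eq_of hp hp3 (roots_mul (cu_cases hx) (cu_cases hy)) ?_
  have h1 := cu_spec hp hp3 hx
  have h2 := cu_spec hp hp3 hy
  rw [mul_pow]
  have : x ^ ((nm p - 1) / 3) * y ^ ((nm p - 1) / 3) - cu x p * cu y p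
    = (x ^ ((nm p - 1) / 3) - cu x p) * y ^ ((nm p - 1) / 3)
      + cu x p * (y ^ ((nm p - 1) / 3) - cu y p) := by ring
  rw [this]
  exact dvd_add (h1.mul_right _) (h2.mul_left _)

lemma cu_one {p : Eis} (hp : Prime p) (hp3 : nm p % 3 = 1) : cu 1 p = 1 :=
  cu_eq_of hp hp3 (Or.inl rfl) (by simp)

lemma cu_ne_zero {x p : Eis} (h : ¬ p ∣ x) : cu x p ≠ 0 := by
  intro h0
  have := cu_cube h
  rw [h0] at this
  simp at this

lemma cu_eq_zero_iff {x p : Eis} : cu x p = 0 ↔ p ∣ x :=
  ⟨fun h => by by_contra h2; exact cu_ne_zero h2 h, cu_of_dvd⟩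

lemma cu_pow {x p : Eis} (hp : Prime p) (hp3 : nm p % 3 = 1) (n : ℕ) :
    cu (x ^ n) p = cu x p ^ n := by
  induction n with
  | zero => simp [cu_one hp hp3]
  | succ n ih => rw [pow_succ, cu_mul hp hp3, ih, pow_succ]

lemma cu_neg {x p : Eis} (hp : Prime p) (hp3 : nm p % 3 = 1) : cu (-x) p = cu x p := by
  by_cases hx : p ∣ x
  · rw [cu_of_dvd hx, cu_of_dvd ((dvd_neg).2 hx)]
  have h1 : cu ((-1 : Eis) ^ 3) p = cu (-1) p ^ 3 := cu_pow hp hp3 3
  have hn : ¬ p ∣ (-1 : Eis) := fun h => hp.not_isUnit (isUnit_of_dvd_unit h isUnit_one.neg)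
  rw [cu_cube hn] at h1
  have h2 : ((-1 : Eis) ^ 3) = -1 := by ring
  rw [h2] at h1
  rw [← neg_one_mul, cu_mul hp hp3, h1, one_mul]

/-- `cu` only depends on the prime up to units. -/
lemma cu_assoc {x p q : Eis} (h : Associated p q) : cu x p = cu x q := by
  have hn : nm p = nm q := by
    obtain ⟨u, rfl⟩ := h
    rw [nm_mul, isUnit_iff.1 u.isUnit, mul_one]
  have e : ∀ z : Eis, (p ∣ z) = (q ∣ z) := fun z => propext h.dvd_iff_dvd_left
  have e1 := e x
  have e2 := e (x ^ ((nm q - 1) / 3) - 1)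
  have e3 := e (x ^ ((nm q - 1) / 3) - w)
  classical
  unfold cu
  rw [hn]
  exact if_congr (iff_of_eq e1) rfl (if_congr (iff_of_eq e2) rfl (if_congr (iff_of_eq e3) rfl rfl))

lemma cu_conj {x p : Eis} (hp : Prime p) (hp3 : nm p % 3 = 1) (hp' : Prime (Eis.conj p)) :
    cu (Eis.conj x) (Eis.conj p) = Eis.conj (cu x p) := by
  by_cases hx : p ∣ x
  · rw [cu_of_dvd hx, cu_of_dvd (conj_dvd_conj hx), conj_zero]
  have h1 := conj_dvd_conj (cu_spec hp hp3 hx)
  refine cu_eq_of hp' (by rw [nm_conj]; exact hp3) ?_ ?_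
  · rcases cu_cases hx with h | h | h <;> rw [h]
    · left; exact conj_one
    · right; right; exact conj_w
    · right; left
      have : Eis.conj (w ^ 2) = (Eis.conj w) ^ 2 := conjHom.map_pow w 2
      rw [this, conj_w, ← pow_mul]
      calc w ^ (2 * 2) = w ^ 3 * w := by ring
        _ = w := by rw [w_cube, one_mul]
  · rw [nm_conj]
    have : (Eis.conj x) ^ ((nm p - 1) / 3) = Eis.conj (x ^ ((nm p - 1) / 3)) :=
      (conjHom.map_pow x _).symm
    rw [this, ← conj_sub]
    exact h1

end Crest.Agent.R012.Sym645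
end
end

-- ▼ part R012/Sym2_645
section

/-!
# Row 12, R2 (2): cubic Gauss and Jacobi sums over finite fields
-/

set_option autoImplicit false

noncomputable section

open Crest.Agent.R012 Crest.Agent.R012.Eis

namespace Crest.Agent.R012.Sym645

/-! ### the abstract Frobenius identity -/

lemma gaussSum_frob_pow {R R' : Type} [CommRing R] [Fintype R] [CommRing R'] (l : ℕ)
    [Fact l.Prime] [CharP R' l] (χ : MulChar R R') (ψ : AddChar R R') (m : ℕ) :
    gaussSum χ ψ ^ (l ^ m) = gaussSum (χ ^ (l ^ m)) (ψ ^ (l ^ m)) := by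
  induction m with
  | zero => simp
  | succ m ih =>
    rw [pow_succ, pow_mul, ih, gaussSum_frob l, ← pow_mul, ← pow_mul]

theorem frob_identity {F K : Type} [Field F] [Fintype F] [Field K] [Fintype K]
    (hchar : ringChar K ≠ ringChar F) (χ : MulChar F K) (h3 : χ ^ 3 = 1) (h1 : χ ≠ 1)
    (hn : Fintype.card K % 3 = 1) :
    χ (Fintype.card K : F) *
      ((Fintype.card F : K) * jacobiSum χ χ) ^ ((Fintype.card K - 1) / 3) = 1 := by
  classical
  obtain ⟨m, hl, hcard⟩ := FiniteField.card K (ringChar K)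
  obtain ⟨m', hl', hcard'⟩ := FiniteField.card F (ringChar F)
  set l := ringChar K with hldef
  have : Fact l.Prime := ⟨hl⟩
  let ψ' := AddChar.FiniteField.primitiveChar F K hchar
  let K' := CyclotomicField ψ'.n K
  let ι : K →+* K' := algebraMap K K'
  have hι : Function.Injective ι := ι.injective
  have : CharP K' l := by
    have : CharP K l := ringChar.charP K
    exact charP_of_injective_ringHom hι l
  let ψ : AddChar F K' := ψ'.char
  have hψ : ψ.IsPrimitive := ψ'.prim
  let χ' : MulChar F K' := χ.ringHomComp ι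
  have hχ3 : χ' ^ 3 = 1 := by
    show (χ.ringHomComp ι) ^ 3 = 1
    rw [MulChar.ringHomComp_pow, h3, MulChar.ringHomComp_one]
  have hχ1 : χ' ≠ 1 := by
    intro h
    exact h1 ((MulChar.ringHomComp_eq_one_iff hι).1 h)
  have hord : orderOf χ' = 3 := orderOf_eq_prime hχ3 hχ1
  set G := gaussSum χ' ψ with hG
  -- cube of the Gauss sum
  have hneg : χ' (-1) = 1 := by
    have h2 : (χ' (-1)) ^ 3 = 1 := by
      rw [← MulChar.pow_apply' χ' (by norm_num : (3 : ℕ) ≠ 0), hχ3, MulChar.one_apply isUnit_one.neg]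
    have h4 : (χ' (-1)) ^ 2 = 1 := by
      rw [← map_pow]; simp
    calc χ' (-1) = χ' (-1) ^ 3 := by rw [pow_succ, h4, one_mul]
      _ = 1 := h2
  have hcube : G ^ 3 = ι ((Fintype.card F : K) * jacobiSum χ χ) := by
    have := gaussSum_pow_eq_prod_jacobiSum (χ := χ') (ψ := ψ) (by rw [hord]; norm_num) hψ
    rw [hord, hneg] at this
    rw [hG, this, map_mul, map_natCast, ← jacobiSum_ringHomComp]
    simp [χ']
  have hGne : G ≠ 0 := by
    refine gaussSum_ne_zero_of_nontrivial ?_ hχ1 hψ
    rw [hcard']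
    push_cast
    refine pow_ne_zero _ ?_
    intro h
    rw [CharP.cast_eq_zero_iff K' l] at h
    exact hchar ((Nat.prime_dvd_prime_iff_eq hl hl').1 h)
  -- Frobenius
  set n := Fintype.card K with hndef
  have hunit : IsUnit (n : F) := by
    rw [isUnit_iff_ne_zero, hcard]
    push_cast
    refine pow_ne_zero _ ?_
    intro h
    rw [CharP.cast_eq_zero_iff F (ringChar F)] at h
    exact hchar ((Nat.prime_dvd_prime_iff_eq hl' hl).1 h).symm
  have hfrob : χ' (n : F) * G ^ n = G := by
    have e1 : G ^ n = gaussSum (χ' ^ n) (ψ ^ n) := by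
      rw [hG, hcard]; exact gaussSum_frob_pow l χ' ψ m
    have e2 : χ' ^ n = χ' := by
      have : n = 3 * (n / 3) + 1 := by omega
      rw [this, pow_succ, pow_mul, hχ3, one_pow, one_mul]
    have e3 : ψ ^ n = AddChar.mulShift ψ ((hunit.unit : Fˣ) : F) := by
      rw [IsUnit.unit_spec, AddChar.pow_mulShift]
    have e4 := gaussSum_mulShift χ' ψ hunit.unit
    rw [e1, e2, e3]
    rw [IsUnit.unit_spec] at e4 ⊢
    exact e4
  have hpow : G ^ n = G * (G ^ 3) ^ ((n - 1) / 3) := by
    rw [← pow_mul, ← pow_succ']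
    congr 1
    omega
  rw [hpow, ← mul_assoc, mul_comm (χ' _) G, mul_assoc] at hfrob
  have hfin : χ' (n : F) * (G ^ 3) ^ ((n - 1) / 3) = 1 :=
    mul_left_cancel₀ hGne (by rw [hfrob, mul_one])
  rw [hcube] at hfin
  apply hι
  rw [map_mul, map_pow, map_one]
  exact hfin


/-! ### the cubic character modulo a prime -/

instance fintypeRq {p : Eis} [hp : Fact (Prime p)] : Fintype (Rq p) :=
  @Fintype.ofFinite _ (finite_Rq hp.out.ne_zero)

instance fieldRqInst {p : Eis} [hp : Fact (Prime p)] : Field (Rq p) := fieldRq hp.out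

lemma card_Rq (p : Eis) [hp : Fact (Prime p)] : Fintype.card (Rq p) = nm p := by
  rw [← Nat.card_eq_fintype_card, natCard_Rq]

lemma cu_out {p : Eis} [hp : Fact (Prime p)] (hp3 : nm p % 3 = 1) (x : Eis) :
    cu (Quotient.out (rq p x)) p = cu x p := by
  refine cu_congr hp.out hp3 ?_
  rw [← rq_eq]
  exact Quotient.out_eq _

/-- The cubic residue character modulo `p` with values in `Eis`. -/
def chiP (p : Eis) [hp : Fact (Prime p)] (hp3 : nm p % 3 = 1) : MulChar (Rq p) Eis where
  toFun q := cu (Quotient.out q) p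
  map_one' := by
    have := cu_out hp3 (1 : Eis)
    rw [cu_one hp.out hp3] at this
    exact this
  map_mul' a b := by
    obtain ⟨x, rfl⟩ := Ideal.Quotient.mk_surjective a
    obtain ⟨y, rfl⟩ := Ideal.Quotient.mk_surjective b
    have h1 := cu_out hp3 x
    have h2 := cu_out hp3 y
    have h3 := cu_out hp3 (x * y)
    rw [cu_mul hp.out hp3, ← h1, ← h2] at h3
    exact h3
  map_nonunit' a ha := by
    obtain ⟨x, rfl⟩ := Ideal.Quotient.mk_surjective a
    have h1 := cu_out hp3 x
    refine h1.trans (cu_of_dvd ?_)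
    rw [← rq_eq_zero]
    by_contra h
    exact ha (isUnit_iff_ne_zero.2 h)

lemma chiP_rq {p : Eis} [hp : Fact (Prime p)] (hp3 : nm p % 3 = 1) (x : Eis) :
    chiP p hp3 (rq p x) = cu x p := cu_out hp3 x

lemma chiP_cube {p : Eis} [hp : Fact (Prime p)] (hp3 : nm p % 3 = 1) : chiP p hp3 ^ 3 = 1 := by
  refine MulChar.ext fun a => ?_
  obtain ⟨x, hx⟩ := Ideal.Quotient.mk_surjective (a : Rq p)
  have ha : (a : Rq p) = rq p x := hx.symm
  rw [MulChar.pow_apply' _ (by norm_num), MulChar.one_apply a.isUnit, ha, chiP_rq]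
  refine cu_cube ?_
  rw [← rq_eq_zero, ← ha]
  exact a.ne_zero

/-- There are elements with any prescribed cubic symbol. -/
lemma exists_cu_eq_w {p : Eis} [hp : Fact (Prime p)] (hp3 : nm p % 3 = 1) :
    ∃ x, cu x p = w := by
  obtain ⟨g, hg⟩ := IsCyclic.exists_generator (α := (Rq p)ˣ)
  obtain ⟨x, hx⟩ := Ideal.Quotient.mk_surjective (g : Rq p)
  have hx' : rq p x = (g : Rq p) := hx
  have hnd : ¬ p ∣ x := by
    rw [← rq_eq_zero, hx']; exact g.ne_zero
  have hne : cu x p ≠ 1 := by
    intro h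
    have h1 := cu_spec hp.out hp3 hnd
    rw [h, ← rq_eq] at h1
    have h2 : (g : Rq p) ^ ((nm p - 1) / 3) = 1 := by
      rw [← hx']
      have : rq p (x ^ ((nm p - 1) / 3)) = rq p x ^ ((nm p - 1) / 3) := map_pow _ _ _
      rw [← this, h1]
      exact map_one _
    have h3 : g ^ ((nm p - 1) / 3) = 1 := by
      ext; push_cast; exact h2
    have h4 : orderOf g = nm p - 1 := by
      rw [orderOf_eq_card_of_forall_mem_zpowers hg, Nat.card_units, natCard_Rq]
    have h5 := orderOf_dvd_of_pow_eq_one h3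
    rw [h4] at h5
    have h6 := one_lt_nm_of_prime hp.out
    have h7 := Nat.le_of_dvd (by omega) h5
    omega
  rcases cu_cases hnd with h | h | h
  · exact absurd h hne
  · exact ⟨x, h⟩
  · refine ⟨x ^ 2, ?_⟩
    rw [cu_pow hp.out hp3, h, ← pow_mul]
    calc w ^ (2 * 2) = w ^ 3 * w := by ring
      _ = w := by rw [w_cube, one_mul]

lemma chiP_ne_one {p : Eis} [hp : Fact (Prime p)] (hp3 : nm p % 3 = 1) : chiP p hp3 ≠ 1 := by
  intro h
  obtain ⟨x, hx⟩ := exists_cu_eq_w (p := p) hp3
  have hnd : ¬ p ∣ x := by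
    rw [← cu_eq_zero_iff, hx]
    intro h0
    have := congrArg QuadraticAlgebra.im h0
    simp at this
  have h1 : chiP p hp3 (rq p x) = 1 := by
    rw [h, MulChar.one_apply]
    rw [isUnit_iff_ne_zero, Ne, rq_eq_zero]
    exact hnd
  rw [chiP_rq, hx] at h1
  have := congrArg QuadraticAlgebra.im h1
  simp at this

/-- The Jacobi sum `J(χ, χ)`. -/
def Jac (p : Eis) [hp : Fact (Prime p)] (hp3 : nm p % 3 = 1) : Eis :=
  jacobiSum (chiP p hp3) (chiP p hp3)

/-- `p` divides its Jacobi sum. -/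
lemma dvd_Jac {p : Eis} [hp : Fact (Prime p)] (hp3 : nm p % 3 = 1) : p ∣ Jac p hp3 := by
  rw [← rq_eq_zero]
  set k := (nm p - 1) / 3 with hk
  have h1n := one_lt_nm_of_prime hp.out
  have hkpos : k ≠ 0 := by omega
  have key : ∀ a : Rq p, rq p (chiP p hp3 a) = a ^ k := by
    intro a
    obtain ⟨x, hx⟩ := Ideal.Quotient.mk_surjective a
    have ha : a = rq p x := hx.symm
    rw [ha, chiP_rq]
    by_cases hd : p ∣ x
    · rw [cu_of_dvd hd, rq_eq_zero.2 hd, zero_pow hkpos]
      exact map_zero _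
    · have h1 := cu_spec hp.out hp3 hd
      rw [← rq_eq] at h1
      rw [← h1]
      exact map_pow _ _ _
  have e1 : rq p (Jac p hp3) = ∑ x : Rq p, x ^ k * (1 - x) ^ k := by
    unfold Jac jacobiSum
    show Ideal.Quotient.mk _ _ = _
    rw [map_sum]
    refine Finset.sum_congr rfl fun x _ => ?_
    rw [map_mul]
    exact congrArg₂ (· * ·) (key x) (key (1 - x))
  rw [e1]
  have e2 : ∀ x : Rq p, x ^ k * (1 - x) ^ k
      = ∑ m ∈ Finset.range (k + 1), (((-1) ^ m * (k.choose m : Rq p)) * x ^ (k + m)) := by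
    intro x
    rw [sub_eq_add_neg, add_comm, add_pow, Finset.mul_sum]
    refine Finset.sum_congr rfl fun m _ => ?_
    rw [one_pow, mul_one, neg_pow, pow_add]
    ring
  simp_rw [e2]
  rw [Finset.sum_comm]
  refine Finset.sum_eq_zero fun m hm => ?_
  rw [← Finset.mul_sum, FiniteField.sum_pow_lt_card_sub_one, mul_zero]
  rw [card_Rq]
  have := Finset.mem_range.1 hm
  omega

end Crest.Agent.R012.Sym645
end
end

-- ▼ part R012/Sym3_645
section

/-!
# Row 12, R2 (3): evaluation of the Jacobi sum, prime reciprocity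
-/

set_option autoImplicit false

noncomputable section

open Crest.Agent.R012 Crest.Agent.R012.Eis

namespace Crest.Agent.R012.Sym645

/-- `w` is a primitive cube root of unity. -/
lemma isPrimitiveRoot_w : IsPrimitiveRoot w 3 := by
  refine (IsPrimitiveRoot.iff (by norm_num)).2 ⟨w_cube, ?_⟩
  intro l hl hl3 h
  interval_cases l
  · rw [pow_one] at h
    have := congrArg QuadraticAlgebra.im h
    simp at this
  · rw [w_sq] at h
    have := congrArg QuadraticAlgebra.im h
    simp at this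

lemma Jac_mod_three {p : Eis} [hp : Fact (Prime p)] (hp3 : nm p % 3 = 1) :
    (3 : Eis) ∣ Jac p hp3 + 1 := by
  have h3 : 3 ∣ Fintype.card (Rq p) - 1 := by
    rw [card_Rq]; omega
  obtain ⟨z, -, hz⟩ := exists_jacobiSum_eq_neg_one_add (F := Rq p) (R := Eis) (n := 3) (by norm_num)
    (chiP_cube hp3) (chiP_cube hp3) h3 isPrimitiveRoot_w
  refine ⟨-(z * w), ?_⟩
  unfold Jac
  rw [hz]
  have := w_sq
  linear_combination z * this


/-- The norm of the Jacobi sum. -/
lemma nm_Jac {p : Eis} [hp : Fact (Prime p)] (hp3 : nm p % 3 = 1) : nm (Jac p hp3) = nm p := by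
  set χ : MulChar (Rq p) ℂ := (chiP p hp3).ringHomComp toC with hχ
  have hχ3 : χ ^ 3 = 1 := by
    rw [hχ, MulChar.ringHomComp_pow, chiP_cube, MulChar.ringHomComp_one]
  have hχ1 : χ ≠ 1 := fun h => chiP_ne_one hp3 ((MulChar.ringHomComp_eq_one_iff toC_injective).1 h)
  have hχ2 : χ * χ ≠ 1 := by
    intro h
    apply hχ1
    calc χ = χ * (χ * χ) := by rw [h, mul_one]
      _ = χ ^ 3 := by rw [pow_succ', pow_two]
      _ = 1 := hχ3
  have hchar : ringChar ℂ ≠ ringChar (Rq p) := by
    rw [ringChar.eq_zero]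
    intro h
    have : Fact (ringChar (Rq p)).Prime := ⟨CharP.char_is_prime (Rq p) _⟩
    exact (this.out.ne_zero) h.symm
  have h1 := jacobiSum_mul_jacobiSum_inv (F' := ℂ) hchar hχ1 hχ1 hχ2
  have h2 : jacobiSum χ χ = toC (Jac p hp3) := jacobiSum_ringHomComp _ _ _
  have h3 : jacobiSum χ⁻¹ χ⁻¹ = (starRingEnd ℂ) (toC (Jac p hp3)) := by
    rw [← h2]
    unfold jacobiSum
    rw [map_sum]
    refine Finset.sum_congr rfl fun x _ => ?_
    rw [map_mul]
    have e : ∀ y, χ⁻¹ y = (starRingEnd ℂ) (χ y) := by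
      intro y
      rw [← MulChar.star_apply']
      rfl
    rw [e, e]
  rw [h2, h3, Complex.mul_conj, normSq_toC, card_Rq] at h1
  exact_mod_cast h1

/-- **Evaluation of the cubic Jacobi sum**: `J(χ,χ) = -p` for a primary prime `p`. -/
theorem Jac_eq {p : Eis} [hp : Fact (Prime p)] (hp3 : nm p % 3 = 1) (hprim : IsPrim p) :
    Jac p hp3 = -p := by
  obtain ⟨u, hu⟩ := dvd_Jac (p := p) hp3
  have h1 : nm u = 1 := by
    have := nm_Jac (p := p) hp3
    rw [hu, nm_mul] at this
    have hpos := one_lt_nm_of_prime hp.out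
    exact Nat.eq_of_mul_eq_mul_left (Nat.lt_of_lt_of_le Nat.zero_lt_one hpos.le)
      (by rw [this, mul_one])
  have h2 := Jac_mod_three (p := p) hp3
  rw [hu] at h2
  obtain ⟨t, ht⟩ := hprim
  have h3 : (3 : Eis) ∣ u + 1 := by
    have : u + 1 = (p * u + 1) - 3 * (t * u) := by
      linear_combination (-u) * ht
    rw [this]
    exact dvd_sub h2 (dvd_mul_right _ _)
  have key : u = -1 := by
    have hnd : ∀ a b : ℤ, (3 : Eis) ∣ (⟨a, b⟩ : Eis) → (3 ∣ a ∧ 3 ∣ b) := by
      rintro a b ⟨s, hs⟩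
      have h3re : (3 : Eis).re = 3 := rfl
      have h3im : (3 : Eis).im = 0 := rfl
      have hre := congrArg QuadraticAlgebra.re hs
      have him := congrArg QuadraticAlgebra.im hs
      rw [re_mul', h3re, h3im] at hre
      rw [im_mul', h3re, h3im] at him
      simp only at hre him
      constructor
      · exact ⟨s.re, by rw [hre]; ring⟩
      · exact ⟨s.im, by rw [him]; ring⟩
    rcases isUnit_cases (isUnit_iff.2 h1) with h | h | h | h | h | h
    · exfalso
      rw [h] at h3
      have h4 : (1 + 1 : Eis) = ⟨2, 0⟩ := by apply ext' <;> simp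
      rw [h4] at h3
      have := (hnd _ _ h3).1
      omega
    · exact h
    · exfalso
      rw [h] at h3
      have h4 : (w + 1 : Eis) = ⟨1, 1⟩ := by apply ext' <;> simp
      rw [h4] at h3
      have := (hnd _ _ h3).1
      omega
    · exfalso
      rw [h] at h3
      have h4 : (-w + 1 : Eis) = ⟨1, -1⟩ := by apply ext' <;> simp
      rw [h4] at h3
      have := (hnd _ _ h3).1
      omega
    · exfalso
      rw [h, w_sq] at h3
      have h4 : (-1 - w + 1 : Eis) = ⟨0, -1⟩ := by apply ext' <;> simp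
      rw [h4] at h3
      have := (hnd _ _ h3).2
      omega
    · exfalso
      rw [h, w_sq] at h3
      have h4 : (-(-1 - w) + 1 : Eis) = ⟨2, 1⟩ := by apply ext' <;> simp
      rw [h4] at h3
      have := (hnd _ _ h3).2
      omega
  rw [hu, key]; ring

/-! ### prime reciprocity -/


lemma ringChar_ne {p q : Eis} [hp : Fact (Prime p)] [hq : Fact (Prime q)]
    (hcop : Nat.Coprime (nm p) (nm q)) : ringChar (Rq q) ≠ ringChar (Rq p) := by
  intro h
  obtain ⟨m, hl, hc⟩ := FiniteField.card (Rq q) (ringChar (Rq q))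
  obtain ⟨m', hl', hc'⟩ := FiniteField.card (Rq p) (ringChar (Rq p))
  rw [card_Rq] at hc hc'
  have h1 : ringChar (Rq q) ∣ nm q := by rw [hc]; exact dvd_pow_self _ m.pos.ne'
  have h2 : ringChar (Rq q) ∣ nm p := by rw [hc', h]; exact dvd_pow_self _ m'.pos.ne'
  have h3 := Nat.dvd_gcd h2 h1
  rw [hcop] at h3
  exact hl.one_lt.ne' (Nat.dvd_one.1 h3)

/-- Fundamental identity (E1). -/
theorem prime_identity {p q : Eis} (hp : Prime p) (hq : Prime q) (hpp : IsPrim p)
    (hq3 : nm q % 3 = 1) (hcop : Nat.Coprime (nm p) (nm q)) :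
    cu ((nm q : ℕ) : Eis) p * cu (((nm p : ℕ) : Eis) * p) q = 1 := by
  have : Fact (Prime p) := ⟨hp⟩
  have : Fact (Prime q) := ⟨hq⟩
  have hp3 := prim_nm_mod hpp
  -- the character with values in the residue field of q
  let f : Eis →+* Rq q := Ideal.Quotient.mk _
  have hf : ∀ x, f x = rq q x := fun x => rfl
  set χ : MulChar (Rq p) (Rq q) := (chiP p hp3).ringHomComp f with hχ
  have hχ3 : χ ^ 3 = 1 := by
    rw [hχ, MulChar.ringHomComp_pow, chiP_cube, MulChar.ringHomComp_one]
  have hχ1 : χ ≠ 1 := by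
    intro h
    obtain ⟨x, hx⟩ := exists_cu_eq_w (p := p) hp3
    have hnd : ¬ p ∣ x := by
      rw [← cu_eq_zero_iff, hx]
      intro h0
      have := congrArg QuadraticAlgebra.im h0
      simp at this
    have h1 : χ (rq p x) = 1 := by
      rw [h, MulChar.one_apply]
      rw [isUnit_iff_ne_zero, Ne, rq_eq_zero]
      exact hnd
    rw [hχ, MulChar.ringHomComp_apply, chiP_rq, hx] at h1
    have h2 : rq q w = rq q 1 := by
      rw [← hf, h1]; exact (map_one _).symm
    rw [rq_eq] at h2
    have := root_unique hq hq3 (Or.inr (Or.inl rfl)) (Or.inl rfl) h2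
    have := congrArg QuadraticAlgebra.im this
    simp at this
  have hK : Fintype.card (Rq q) % 3 = 1 := by rw [card_Rq]; exact hq3
  have main := frob_identity (ringChar_ne hcop) χ hχ3 hχ1 hK
  have hJ : jacobiSum χ χ = f (Jac p hp3) := jacobiSum_ringHomComp _ _ _
  rw [hJ, Jac_eq hp3 hpp, card_Rq, card_Rq] at main
  have e1 : χ ((nm q : ℕ) : Rq p) = rq q (cu ((nm q : ℕ) : Eis) p) := by
    have : ((nm q : ℕ) : Rq p) = rq p ((nm q : ℕ) : Eis) := (map_natCast _ _).symm
    rw [this, hχ, MulChar.ringHomComp_apply, chiP_rq]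
  have hnd : ¬ q ∣ ((nm p : ℕ) : Eis) * p := by
    intro hd
    have h1 : nm q ∣ nm (((nm p : ℕ) : Eis) * p) := by
      obtain ⟨t, ht⟩ := hd
      rw [ht, nm_mul]; exact dvd_mul_right _ _
    rw [nm_mul, nm_natCast, ← pow_succ] at h1
    have h2 : Nat.Coprime (nm q) (nm p ^ 3) := (hcop.symm).pow_right 3
    have h3 := Nat.Coprime.eq_one_of_dvd h2 h1
    exact nm_ne_one_of_prime hq h3
  have e2 : (((nm p : ℕ) : Rq q) * f (-p)) ^ ((nm q - 1) / 3)
      = rq q (cu (((nm p : ℕ) : Eis) * p) q) := by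
    have h1 : ((nm p : ℕ) : Rq q) * f (-p) = rq q (-(((nm p : ℕ) : Eis) * p)) := by
      have : ((nm p : ℕ) : Rq q) = f ((nm p : ℕ) : Eis) := (map_natCast _ _).symm
      rw [this, ← map_mul, hf]
      congr 1; ring
    rw [h1]
    have hnd' : ¬ q ∣ -(((nm p : ℕ) : Eis) * p) := by rwa [dvd_neg]
    have h2 := cu_spec hq hq3 hnd'
    rw [← rq_eq, cu_neg hq hq3] at h2
    rw [← h2]
    exact (map_pow _ _ _).symm
  rw [e1, e2] at main
  have h3 : rq q (cu ((nm q : ℕ) : Eis) p * cu (((nm p : ℕ) : Eis) * p) q) = rq q 1 := by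
    have h4 : rq q (cu ((nm q : ℕ) : Eis) p * cu (((nm p : ℕ) : Eis) * p) q)
      = rq q (cu ((nm q : ℕ) : Eis) p) * rq q (cu (((nm p : ℕ) : Eis) * p) q) := map_mul _ _ _
    rw [h4, main]; exact (map_one _).symm
  rw [rq_eq] at h3
  have hnd2 : ¬ p ∣ ((nm q : ℕ) : Eis) := by
    intro hd
    have h1 : nm p ∣ nm ((nm q : ℕ) : Eis) := by
      obtain ⟨t, ht⟩ := hd
      rw [ht, nm_mul]; exact dvd_mul_right _ _
    rw [nm_natCast] at h1
    have h2 : Nat.Coprime (nm p) (nm q ^ 2) := hcop.pow_right 2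
    have h3 := Nat.Coprime.eq_one_of_dvd h2 h1
    exact nm_ne_one_of_prime hp h3
  exact root_unique hq hq3 (roots_mul (cu_cases hnd2) (cu_cases hnd)) (Or.inl rfl) h3

end Crest.Agent.R012.Sym645
end
end

-- ▼ part R012/Sym4_645

/-!
# Row 12, R2 (4): the symbol `sy`: multiplicativity, periodicity, reciprocity
-/

set_option autoImplicit false

noncomputable section

open Crest.Agent.R012 Crest.Agent.R012.Eis

namespace Crest.Agent.R012.Sym645

/-! ### primary elements -/

lemma three_re : (3 : Eis).re = 3 := rfl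
lemma three_im : (3 : Eis).im = 0 := rfl

lemma three_dvd_iff {z : Eis} : (3 : Eis) ∣ z ↔ (3 ∣ z.re ∧ 3 ∣ z.im) := by
  constructor
  · rintro ⟨s, rfl⟩
    rw [re_mul', im_mul', three_re, three_im]
    constructor
    · exact ⟨s.re, by ring⟩
    · exact ⟨s.im, by ring⟩
  · rintro ⟨⟨s, hs⟩, ⟨t, ht⟩⟩
    refine ⟨⟨s, t⟩, ?_⟩
    apply ext'
    · rw [re_mul', three_re, three_im, hs]; ring
    · rw [im_mul', three_re, three_im, ht]; ring

lemma isPrim_iff {z : Eis} : IsPrim z ↔ (z.re % 3 = 1 ∧ z.im % 3 = 0) := by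
  unfold IsPrim
  rw [three_dvd_iff, QuadraticAlgebra.re_sub, QuadraticAlgebra.im_sub, one_re', one_im']
  omega

lemma exists_unit_prim {x : Eis} (h : nm x % 3 = 1) :
    ∃ u : Eis, IsUnit u ∧ IsPrim (u * x) := by
  have hx := nm_cast x
  have hx' : (x.re ^ 2 - x.re * x.im + x.im ^ 2) % 3 = 1 := by
    rw [← hx]; exact_mod_cast h
  have h1 : x.re % 3 = 0 ∨ x.re % 3 = 1 ∨ x.re % 3 = 2 := by omega
  have h2 : x.im % 3 = 0 ∨ x.im % 3 = 1 ∨ x.im % 3 = 2 := by omega
  have uw := isUnit_w
  rcases h1 with h1 | h1 | h1 <;> rcases h2 with h2 | h2 | h2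
  · exfalso
    simp [pow_two, Int.add_emod, Int.sub_emod, Int.mul_emod, h1, h2] at hx'
  · refine ⟨w ^ 2, uw.pow 2, ?_⟩
    rw [isPrim_iff, w_sq, re_mul', im_mul']; simp; omega
  · refine ⟨-w ^ 2, (uw.pow 2).neg, ?_⟩
    rw [isPrim_iff, w_sq, re_mul', im_mul']; simp; omega
  · refine ⟨1, isUnit_one, ?_⟩
    rw [isPrim_iff, re_mul', im_mul']; simp; omega
  · refine ⟨-w, uw.neg, ?_⟩
    rw [isPrim_iff, re_mul', im_mul']; simp; omega
  · exfalso
    simp [pow_two, Int.add_emod, Int.sub_emod, Int.mul_emod, h1, h2] at hx'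
  · refine ⟨-1, isUnit_one.neg, ?_⟩
    rw [isPrim_iff, re_mul', im_mul']; simp; omega
  · exfalso
    simp [pow_two, Int.add_emod, Int.sub_emod, Int.mul_emod, h1, h2] at hx'
  · refine ⟨w, uw, ?_⟩
    rw [isPrim_iff, re_mul', im_mul']; simp; omega

lemma prim_unit_eq_one {u : Eis} (hu : IsUnit u) (hp : IsPrim u) : u = 1 := by
  rw [isPrim_iff] at hp
  have e2 : w ^ 2 = (⟨-1, -1⟩ : Eis) := by
    rw [w_sq]; apply ext' <;> simp
  rcases isUnit_cases hu with h | h | h | h | h | h
  · exact h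
  all_goals
    exfalso
    rw [h] at hp
    try rw [e2] at hp
    simp at hp

lemma prim_of_mul_left {a b : Eis} (ha : IsPrim a) (hab : IsPrim (a * b)) : IsPrim b := by
  obtain ⟨s, hs⟩ := ha
  obtain ⟨t, ht⟩ := hab
  exact ⟨t - s * b, by linear_combination ht - b * hs⟩

/-- Induction on primary elements through primary primes. -/
@[elab_as_elim]
theorem prim_induction {P : Eis → Prop} (h1 : P 1)
    (hmul : ∀ p b, Prime p → IsPrim p → IsPrim b → P b → P (p * b))
    {b : Eis} (hb : IsPrim b) : P b := by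
  have key : ∀ n : ℕ, ∀ b, nm b = n → IsPrim b → P b := by
    intro n
    induction n using Nat.strong_induction_on with
    | _ n ih =>
      intro b hb hprim
      by_cases hu : IsUnit b
      · rw [prim_unit_eq_one hu hprim]; exact h1
      · obtain ⟨q, hq, c, hc⟩ := WfDvdMonoid.exists_irreducible_factor hu (prim_ne_zero hprim)
        have hq' : Prime q := hq.prime
        have hn := prim_nm_mod hprim
        rw [hc] at hn
        obtain ⟨hq3, -⟩ := nm_mod_of_mul hn
        obtain ⟨u, hu1, hu2⟩ := exists_unit_prim hq3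
        have hpp : Prime (u * q) := (Associated.prime_iff
          (associated_unit_mul_left q u hu1)).2 hq'
        obtain ⟨v, hv⟩ := hu1.exists_left_inv
        have hb2 : b = (u * q) * (v * c) := by
          rw [hc]
          linear_combination (-q * c) * hv
        have hprim' : IsPrim (v * c) := prim_of_mul_left hu2 (hb2 ▸ hprim)
        have hlt : nm (v * c) < n := by
          have h5 : nm b = nm (u * q) * nm (v * c) := by rw [← nm_mul, ← hb2]
          rw [hb] at h5
          have h6 := one_lt_nm_of_prime hpp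
          have h7 : 0 < nm (v * c) := nm_pos.2 (prim_ne_zero hprim')
          nlinarith
        rw [hb2]
        exact hmul _ _ hpp hu2 hprim' (ih _ hlt _ rfl hprim')
  exact key _ b rfl hb

/-! ### the symbol -/

lemma sy0_assoc {x p q : Eis} (h : Associated p q) : sy0 x p = sy0 x q := by
  rw [← toC_cu, ← toC_cu, cu_assoc h]

lemma prod_rel {x : Eis} {s t : Multiset Eis} (h : Multiset.Rel Associated s t) :
    (s.map (fun p => sy0 x p)).prod = (t.map (fun p => sy0 x p)).prod := by
  induction h with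
  | zero => rfl
  | cons hab _ ih =>
    simp only [Multiset.map_cons, Multiset.prod_cons]
    rw [sy0_assoc hab, ih]

lemma sy_mul_right (x : Eis) {a b : Eis} (ha : a ≠ 0) (hb : b ≠ 0) :
    sy x (a * b) = sy x a * sy x b := by
  unfold sy
  rw [prod_rel (UniqueFactorizationMonoid.factors_mul ha hb), Multiset.map_add, Multiset.prod_add]

lemma sy_assoc_right (x : Eis) {a b : Eis} (h : Associated a b) : sy x a = sy x b := by
  by_cases ha : a = 0
  · subst ha
    rw [(associated_zero_iff_eq_zero b).1 h.symm]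
  unfold sy
  refine prod_rel (UniqueFactorizationMonoid.factors_unique ?_ ?_ ?_)
  · exact fun _ => UniqueFactorizationMonoid.irreducible_of_factor _
  · exact fun _ => UniqueFactorizationMonoid.irreducible_of_factor _
  · have hb : b ≠ 0 := by
      rintro rfl
      exact ha ((associated_zero_iff_eq_zero a).1 h)
    exact (UniqueFactorizationMonoid.factors_prod ha).trans
      (h.trans (UniqueFactorizationMonoid.factors_prod hb).symm)

@[simp] lemma sy_one_right (x : Eis) : sy x 1 = 1 := by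
  unfold sy
  rw [UniqueFactorizationMonoid.factors_one]
  simp

lemma sy_unit_right (x : Eis) {u : Eis} (hu : IsUnit u) : sy x u = 1 := by
  rw [sy_assoc_right x (associated_one_iff_isUnit.2 hu), sy_one_right]

lemma sy_prime (x : Eis) {p : Eis} (hp : Prime p) : sy x p = sy0 x p := by
  have h : Multiset.Rel Associated (UniqueFactorizationMonoid.factors p) {p} := by
    refine UniqueFactorizationMonoid.factors_unique ?_ ?_ ?_
    · exact fun _ => UniqueFactorizationMonoid.irreducible_of_factor _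
    · intro q hq
      rw [Multiset.mem_singleton.1 hq]; exact hp.irreducible
    · rw [Multiset.prod_singleton]
      exact UniqueFactorizationMonoid.factors_prod hp.ne_zero
  unfold sy
  rw [prod_rel h]
  simp

lemma sy_prime_cu (x : Eis) {p : Eis} (hp : Prime p) : sy x p = toC (cu x p) := by
  rw [sy_prime x hp, toC_cu]

/-- Reduction of statements about `sy · c`, `c` prime to three, to primary primes. -/
@[elab_as_elim]
theorem coprime_induction {P : Eis → Prop} (h1 : P 1)
    (hassoc : ∀ a b, Associated a b → P a → P b)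
    (hmul : ∀ p b, Prime p → IsPrim p → IsPrim b → P b → P (p * b))
    {c : Eis} (hc : nm c % 3 = 1) : P c := by
  obtain ⟨u, hu, hprim⟩ := exists_unit_prim hc
  exact hassoc _ _ (associated_unit_mul_left c u hu) (prim_induction h1 hmul hprim)

lemma sy_mul_left {c : Eis} (hc : nm c % 3 = 1) (x y : Eis) :
    sy (x * y) c = sy x c * sy y c := by
  refine coprime_induction ?_ ?_ ?_ hc
  · simp
  · intro a b hab h
    rw [← sy_assoc_right _ hab, ← sy_assoc_right _ hab, ← sy_assoc_right _ hab, h]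
  · intro p b hp hpp hb h
    have hb0 := prim_ne_zero hb
    rw [sy_mul_right _ hp.ne_zero hb0, sy_mul_right _ hp.ne_zero hb0,
      sy_mul_right _ hp.ne_zero hb0, h, sy_prime_cu _ hp, sy_prime_cu _ hp, sy_prime_cu _ hp,
      cu_mul hp (prim_nm_mod hpp), map_mul]
    ring

lemma sy_congr {c x y : Eis} (hc : nm c % 3 = 1) (h : c ∣ x - y) : sy x c = sy y c := by
  revert h
  refine coprime_induction ?_ ?_ ?_ hc
  · simp
  · intro a b hab h hd
    rw [← sy_assoc_right _ hab, ← sy_assoc_right _ hab, h (hab.dvd.trans hd)]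
  · intro p b hp hpp hb h hd
    have hb0 := prim_ne_zero hb
    rw [sy_mul_right _ hp.ne_zero hb0, sy_mul_right _ hp.ne_zero hb0,
      h ((dvd_mul_left b p).trans hd), sy_prime_cu _ hp, sy_prime_cu _ hp,
      cu_congr hp (prim_nm_mod hpp) ((dvd_mul_right p b).trans hd)]

@[simp] lemma sy_one_left {c : Eis} (hc : nm c % 3 = 1) : sy 1 c = 1 := by
  refine coprime_induction ?_ ?_ ?_ hc
  · simp
  · intro a b hab h
    rw [← sy_assoc_right _ hab, h]
  · intro p b hp hpp hb h
    rw [sy_mul_right _ hp.ne_zero (prim_ne_zero hb), h, sy_prime_cu _ hp,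
      cu_one hp (prim_nm_mod hpp)]
    simp

lemma sy_neg {c : Eis} (hc : nm c % 3 = 1) (x : Eis) : sy (-x) c = sy x c := by
  refine coprime_induction ?_ ?_ ?_ hc
  · simp
  · intro a b hab h
    rw [← sy_assoc_right _ hab, ← sy_assoc_right _ hab, h]
  · intro p b hp hpp hb h
    rw [sy_mul_right _ hp.ne_zero (prim_ne_zero hb), sy_mul_right _ hp.ne_zero (prim_ne_zero hb),
      h, sy_prime_cu _ hp, sy_prime_cu _ hp, cu_neg hp (prim_nm_mod hpp)]

lemma sy_pow_left {c : Eis} (hc : nm c % 3 = 1) (x : Eis) (n : ℕ) :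
    sy (x ^ n) c = sy x c ^ n := by
  induction n with
  | zero => simp [sy_one_left hc]
  | succ n ih => rw [pow_succ, sy_mul_left hc, ih, pow_succ]

lemma sy_pow_right (x : Eis) {c : Eis} (hc : c ≠ 0) (n : ℕ) :
    sy x (c ^ n) = sy x c ^ n := by
  induction n with
  | zero => simp
  | succ n ih => rw [pow_succ, sy_mul_right x (pow_ne_zero n hc) hc, ih, pow_succ]

/-- The cube of the symbol. -/
lemma sy_cube {c x : Eis} (hc : nm c % 3 = 1) (hx : IsCoprime x c) : sy x c ^ 3 = 1 := by
  revert hx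
  refine coprime_induction ?_ ?_ ?_ hc
  · simp
  · intro a b hab h hx
    rw [← sy_assoc_right _ hab]
    refine h ?_
    obtain ⟨u, rfl⟩ := hab
    exact (isCoprime_mul_unit_right_right u.isUnit x a).1 hx
  · intro p b hp hpp hb h hx
    have h1 : IsCoprime x p := hx.of_mul_right_left
    have h2 : IsCoprime x b := hx.of_mul_right_right
    have hnd : ¬ p ∣ x := fun hd => hp.not_isUnit (h1.isUnit_of_dvd' hd dvd_rfl)
    rw [sy_mul_right _ hp.ne_zero (prim_ne_zero hb), mul_pow, h h2, sy_prime_cu _ hp, ← map_pow,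
      cu_cube hnd]
    simp

lemma sy_eq_zero_iff {c x : Eis} (hc : nm c % 3 = 1) : sy x c = 0 ↔ ¬ IsCoprime x c := by
  constructor
  · intro h hx
    have := sy_cube hc hx
    rw [h] at this
    simp at this
  · refine coprime_induction ?_ ?_ ?_ hc
    · intro h
      exact absurd isCoprime_one_right h
    · intro a b hab h hx
      rw [← sy_assoc_right _ hab]
      refine h ?_
      intro h2
      apply hx
      obtain ⟨u, rfl⟩ := hab
      exact (isCoprime_mul_unit_right_right u.isUnit x a).2 h2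
    · intro p b hp hpp hb h hx
      rw [sy_mul_right _ hp.ne_zero (prim_ne_zero hb)]
      by_cases hpx : p ∣ x
      · rw [sy_prime_cu _ hp, cu_of_dvd hpx]; simp
      · have h1 : IsCoprime x p := (isCoprime_of_prime_not_dvd hp hpx).symm
        have h2 : ¬ IsCoprime x b := fun h2 => hx (h1.mul_right h2)
        rw [h h2, mul_zero]

lemma norm_sy_of_isCoprime {c x : Eis} (hc : nm c % 3 = 1) (hx : IsCoprime x c) :
    ‖sy x c‖ = 1 := by
  have h := congrArg norm (sy_cube hc hx)
  rw [norm_pow, norm_one] at h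
  exact (pow_eq_one_iff_of_nonneg (norm_nonneg _) (by norm_num)).1 h

lemma norm_sy_le_one {c : Eis} (hc : nm c % 3 = 1) (x : Eis) : ‖sy x c‖ ≤ 1 := by
  by_cases hx : IsCoprime x c
  · exact (norm_sy_of_isCoprime hc hx).le
  · rw [(sy_eq_zero_iff hc).2 hx]; simp

/-! ### reciprocity -/



/-- Reciprocity for primary primes with coprime norms. -/
theorem cu_reciprocity {p q : Eis} (hp : Prime p) (hq : Prime q) (hpp : IsPrim p) (hqp : IsPrim q)
    (hcop : Nat.Coprime (nm p) (nm q)) : cu p q = cu q p := by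
  have hp3 := prim_nm_mod hpp
  have hq3 := prim_nm_mod hqp
  have e1 := prime_identity hp hq hpp hq3 hcop
  have e2 := prime_identity hq hp hqp hp3 hcop.symm
  rw [← mul_conj q, ← mul_conj p, cu_mul hp hp3, cu_mul hq hq3, cu_mul hq hq3] at e1
  rw [← mul_conj q, ← mul_conj p, cu_mul hq hq3, cu_mul hp hp3, cu_mul hp hp3] at e2
  have hne : cu p q * cu (Eis.conj p) q * (cu q p * cu (Eis.conj q) p) ≠ 0 := by
    intro h
    have : (1 : Eis) = 0 := by
      rw [← e1]
      linear_combination (cu p q) * h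
    exact one_ne_zero this
  refine mul_right_cancel₀ hne ?_
  linear_combination e1 - e2

/-- Reciprocity for primary elements with coprime norms. -/
theorem sy_reciprocity_of_coprime_nm {a b : Eis} (ha : IsPrim a) (hb : IsPrim b)
    (hcop : Nat.Coprime (nm a) (nm b)) : sy a b = sy b a := by
  revert hb hcop
  refine prim_induction ?_ ?_ ha
  · intro hb _
    rw [sy_one_left (prim_nm_mod hb), sy_one_right]
  · intro p a hp hpp ha iha hb hcop
    rw [nm_mul] at hcop
    have hc1 : Nat.Coprime (nm p) (nm b) := hcop.coprime_mul_right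
    have hc2 : Nat.Coprime (nm a) (nm b) := hcop.coprime_mul_left
    rw [sy_mul_left (prim_nm_mod hb), sy_mul_right _ hp.ne_zero (prim_ne_zero ha), iha hb hc2]
    congr 1
    clear hcop hc2 iha
    revert hc1
    refine prim_induction ?_ ?_ hb
    · intro _
      rw [sy_one_right, sy_one_left (prim_nm_mod hpp)]
    · intro q b hq hqp hb ihb hc
      rw [nm_mul] at hc
      have hd1 : Nat.Coprime (nm p) (nm q) := hc.coprime_mul_right_right
      have hd2 : Nat.Coprime (nm p) (nm b) := hc.coprime_mul_left_right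
      rw [sy_mul_left (prim_nm_mod hpp), sy_mul_right _ hq.ne_zero (prim_ne_zero hb), ihb hd2,
        sy_prime_cu p hq, sy_prime_cu q hp, cu_reciprocity hp hq hpp hqp hd1]


/-! ### the conjugate case -/

lemma conj_prime {p : Eis} (hp : Prime p) : Prime (Eis.conj p) := by
  have h : Irreducible (Eis.conj p) := by
    rw [irreducible_iff]
    constructor
    · intro hu
      have : nm (Eis.conj p) = 1 := isUnit_iff.1 hu
      rw [nm_conj] at this
      exact nm_ne_one_of_prime hp this
    · intro a b hab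
      have h1 : p = Eis.conj a * Eis.conj b := by
        rw [← conj_mul, ← hab, conj_conj]
      rcases hp.irreducible.isUnit_or_isUnit h1 with h | h
      · left; rw [isUnit_iff] at h ⊢; rwa [nm_conj] at h
      · right; rw [isUnit_iff] at h ⊢; rwa [nm_conj] at h
  exact h.prime

lemma conj_prim {a : Eis} (ha : IsPrim a) : IsPrim (Eis.conj a) := by
  rw [isPrim_iff] at ha ⊢
  simp only [conj_re, conj_im]
  omega

lemma sy_conj {c : Eis} (hc : nm c % 3 = 1) (x : Eis) :
    sy (Eis.conj x) (Eis.conj c) = (starRingEnd ℂ) (sy x c) := by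
  refine coprime_induction ?_ ?_ ?_ hc
  · simp
  · intro a b hab h
    have hab' : Associated (Eis.conj a) (Eis.conj b) := by
      obtain ⟨u, rfl⟩ := hab
      rw [conj_mul]
      refine associated_mul_unit_right _ _ ?_
      rw [isUnit_iff, nm_conj]
      exact isUnit_iff.1 u.isUnit
    rw [← sy_assoc_right _ hab', ← sy_assoc_right _ hab, h]
  · intro p b hp hpp hb h
    have hb0 := prim_ne_zero hb
    have hb0' := prim_ne_zero (conj_prim hb)
    have hp' := conj_prime hp
    rw [conj_mul, sy_mul_right _ hp'.ne_zero hb0', sy_mul_right _ hp.ne_zero hb0, h, map_mul,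
      sy_prime_cu _ hp', sy_prime_cu _ hp, cu_conj hp (prim_nm_mod hpp) hp', toC_conj]

/-- A prime which does not divide its conjugate has prime norm coprime to ... -/
lemma sy_conj_self {p : Eis} (hp : Prime p) (hpp : IsPrim p) (hne : ¬ p ∣ Eis.conj p) :
    sy (Eis.conj p) p = 1 := by
  have hp3 := prim_nm_mod hpp
  -- `t = p + conj p` is a rational integer, `-t` is primary
  set t : Eis := p + Eis.conj p with ht
  have htc : Eis.conj t = t := by
    rw [ht, conj_add, conj_conj, add_comm]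
  have hprim : IsPrim (-t) := by
    rw [isPrim_iff] at hpp ⊢
    simp only [ht, QuadraticAlgebra.re_neg, QuadraticAlgebra.im_neg, QuadraticAlgebra.re_add,
      QuadraticAlgebra.im_add, conj_re, conj_im]
    omega
  have hcop : ¬ p ∣ t := by
    intro h
    apply hne
    have := dvd_sub h (dvd_refl p)
    rwa [ht, add_sub_cancel_left] at this
  have hcop' : ¬ Eis.conj p ∣ t := by
    intro h
    apply hcop
    have := conj_dvd_conj h
    rwa [conj_conj, htc] at this
  have hnm : Nat.Coprime (nm p) (nm (-t)) := by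
    rw [nm_neg]
    by_contra h
    obtain ⟨l, hl, h1, h2⟩ := Nat.Prime.not_coprime_iff_dvd.1 h
    -- `l` divides `nm t`; a prime factor argument
    have h3 : (nm p : Eis) = p * Eis.conj p := (mul_conj p).symm
    have h4 : ((l : ℕ) : Eis) ∣ p * Eis.conj p := by
      rw [← h3]; exact_mod_cast Nat.cast_dvd_cast h1
    have hlu : ¬ IsUnit ((l : ℕ) : Eis) := by
      rw [isUnit_iff, nm_natCast]
      have := hl.one_lt
      intro h; nlinarith
    obtain ⟨q, hq, hql⟩ := WfDvdMonoid.exists_irreducible_factor hlu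
      (by exact_mod_cast hl.ne_zero : ((l : ℕ) : Eis) ≠ 0)
    have hq' := hq.prime
    -- q divides p * conj p, hence q ~ p or q ~ conj p
    have h5 : q ∣ p ∨ q ∣ Eis.conj p := hq'.dvd_or_dvd (hql.trans h4)
    have h6 : p ∣ ((l : ℕ) : Eis) := by
      rcases h5 with h5 | h5
      · exact (((hq.associated_of_dvd hp.irreducible h5).symm).dvd).trans hql
      · have h7 : Eis.conj p ∣ ((l : ℕ) : Eis) :=
          (((hq.associated_of_dvd (conj_prime hp).irreducible h5).symm).dvd).trans hql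
        have h8 := conj_dvd_conj h7
        rw [conj_conj] at h8
        have h9 : Eis.conj ((l : ℕ) : Eis) = ((l : ℕ) : Eis) := by
          apply ext' <;> simp
        rwa [h9] at h8
    have h10 : ((l : ℕ) : Eis) ∣ t * Eis.conj t := by
      rw [mul_conj]; exact_mod_cast Nat.cast_dvd_cast h2
    have h11 := h6.trans h10
    rw [htc] at h11
    rcases hp.dvd_or_dvd h11 with h | h <;> exact hcop h
  -- reciprocity for `-t` and `p`
  have hr := sy_reciprocity_of_coprime_nm hprim hpp hnm.symm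
  -- `sy (-t) p = sy (conj p) p`
  have e1 : sy (-t) p = sy (Eis.conj p) p := by
    rw [sy_neg hp3]
    refine sy_congr hp3 ?_
    rw [ht, add_sub_cancel_right]
  -- `sy p (-t)` is real
  have e2 : (starRingEnd ℂ) (sy p (-t)) = sy p (-t) := by
    have h1 := sy_conj (prim_nm_mod hprim) p
    have h2 : Eis.conj (-t) = -t := by
      have : Eis.conj (-t) = -Eis.conj t := conjHom.map_neg t
      rw [this, htc]
    rw [h2] at h1
    rw [← h1]
    have h3 : sy (Eis.conj p) (-t) = sy (-p) (-t) := by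
      refine sy_congr (prim_nm_mod hprim) ?_
      rw [neg_dvd, sub_neg_eq_add, add_comm]
    rw [h3, sy_neg (prim_nm_mod hprim)]
  have hcp : IsCoprime p (-t) := by
    have := (hp.irreducible.coprime_iff_not_dvd (n := -t)).2 (by rwa [dvd_neg])
    exact this
  have h3 := sy_cube (prim_nm_mod hprim) hcp
  rw [← e1, hr]
  set z := sy p (-t) with hz
  -- a real cube root of unity is one
  have him : z.im = 0 := Complex.conj_eq_iff_im.1 e2
  have hre : z = (z.re : ℂ) := by
    apply Complex.ext <;> simp [him]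
  rw [hre] at h3 ⊢
  have h4 : z.re ^ 3 = 1 := by exact_mod_cast h3
  have h5 : z.re = 1 := by
    have h6 : (z.re - 1) * (z.re ^ 2 + z.re + 1) = 0 := by linear_combination h4
    rcases mul_eq_zero.1 h6 with h | h
    · linarith
    · nlinarith [sq_nonneg (z.re + 1 / 2)]
  rw [h5]; simp

/-- Reciprocity for primary primes. -/
theorem sy_reciprocity_prime {p q : Eis} (hp : Prime p) (hq : Prime q) (hpp : IsPrim p)
    (hqp : IsPrim q) : sy p q = sy q p := by
  by_cases hcop : Nat.Coprime (nm p) (nm q)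
  · exact sy_reciprocity_of_coprime_nm hpp hqp hcop
  obtain ⟨l, hl, h1, h2⟩ := Nat.Prime.not_coprime_iff_dvd.1 hcop
  -- both primes lie above l
  have hdiv : ∀ r : Eis, Prime r → l ∣ nm r → r ∣ ((l : ℕ) : Eis) := by
    intro r hr hlr
    have h4 : ((l : ℕ) : Eis) ∣ r * Eis.conj r := by
      rw [mul_conj]; exact_mod_cast Nat.cast_dvd_cast hlr
    have hlu : ¬ IsUnit ((l : ℕ) : Eis) := by
      rw [isUnit_iff, nm_natCast]
      have := hl.one_lt
      intro h; nlinarith
    obtain ⟨s, hs, hsl⟩ := WfDvdMonoid.exists_irreducible_factor hlu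
      (by exact_mod_cast hl.ne_zero : ((l : ℕ) : Eis) ≠ 0)
    rcases hs.prime.dvd_or_dvd (hsl.trans h4) with h5 | h5
    · exact (((hs.associated_of_dvd hr.irreducible h5).symm).dvd).trans hsl
    · have h7 : Eis.conj r ∣ ((l : ℕ) : Eis) :=
        (((hs.associated_of_dvd (conj_prime hr).irreducible h5).symm).dvd).trans hsl
      have h8 := conj_dvd_conj h7
      rw [conj_conj] at h8
      have h9 : Eis.conj ((l : ℕ) : Eis) = ((l : ℕ) : Eis) := by
        apply ext' <;> simp
      rwa [h9] at h8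
  have hpl := hdiv p hp h1
  have hql := hdiv q hq h2
  -- q divides p * conj p
  have h3 : q ∣ p * Eis.conj p := by
    rw [mul_conj]
    exact hql.trans (by exact_mod_cast Nat.cast_dvd_cast h1)
  have huniq : ∀ a b : Eis, Prime a → Prime b → IsPrim a → IsPrim b → a ∣ b → a = b := by
    intro a b ha hb hap hbp hab
    obtain ⟨u, hu⟩ := ha.irreducible.associated_of_dvd hb.irreducible hab
    have : IsPrim (u : Eis) := prim_of_mul_left hap (hu ▸ hbp)
    rw [prim_unit_eq_one u.isUnit this, mul_one] at hu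
    exact hu
  rcases hq.dvd_or_dvd h3 with h | h
  · rw [huniq q p hq hp hqp hpp h]
  · have he : q = Eis.conj p := huniq q _ hq (conj_prime hp) hqp (conj_prim hpp) h
    by_cases hself : p ∣ Eis.conj p
    · have : p = Eis.conj p := huniq p _ hp (conj_prime hp) hpp (conj_prim hpp) hself
      rw [he, ← this]
    · have e1 := sy_conj_self hp hpp hself
      have e2 : sy p (Eis.conj p) = 1 := by
        have := sy_conj (prim_nm_mod hpp) (Eis.conj p)
        rw [conj_conj, e1] at this
        simpa using this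
      rw [he, e1, e2]

/-- **Cubic reciprocity**: `(a/b)_3 = (b/a)_3` for primary `a`, `b`. -/
theorem sy_reciprocity {a b : Eis} (ha : IsPrim a) (hb : IsPrim b) : sy a b = sy b a := by
  revert hb
  refine prim_induction ?_ ?_ ha
  · intro hb
    rw [sy_one_left (prim_nm_mod hb), sy_one_right]
  · intro p a hp hpp ha iha hb
    rw [sy_mul_left (prim_nm_mod hb), sy_mul_right _ hp.ne_zero (prim_ne_zero ha), iha hb]
    congr 1
    clear iha
    refine prim_induction ?_ ?_ hb
    · rw [sy_one_right, sy_one_left (prim_nm_mod hpp)]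
    · intro q b hq hqp hb ihb
      rw [sy_mul_left (prim_nm_mod hpp), sy_mul_right _ hq.ne_zero (prim_ne_zero hb), ihb,
        sy_reciprocity_prime hp hq hpp hqp]

end Crest.Agent.R012.Sym645
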