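import Crest.Agent.R012.GLS_106
import Crest.Agent.R012.Div_277
import Crest.Agent.R012.Sym4_645
import Crest.Agent.R012.Spec_CR_290

-- ▼ part R012/GLSmom_106
section

/-!
# Row 12 (CRA), part 2: moments

* `syF : SyF` (from `Sym4_645`).
* `gls_sq`  : coefficients supported on `n` divisible by some `d²`, `nm d ≥ D` : gain `D⁻¹`.
* `tuples`  : for finite `s ⊆ primBall ⌊C⌋₊`, `‖γ‖ ≤ 1`, any set `T` of `j`-tuples,
  `∑_{h ∈ S H} ‖∑_{x ∈ T} (∏ γ (x i)) sy (∏ x i) h‖² ≤ K (H C)^ε (H + C^j + (H C^j)^(2/3)) C^j`,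
  `tuples_sq` : the same for tuples whose product is divisible by a large square.
* `moment`  : `∑_{h ∈ S H} ‖∑_{c ∈ s} γ c * sy c h‖^(2j) ≤ K (H C)^ε (H + C^j + (H C^j)^(2/3)) C^j`.
-/

set_option autoImplicit false

noncomputable section

open Finset

namespace Crest.Agent.R012.GLS106

open Crest.Agent.R012 Crest.Agent.R012.Eis Crest.Agent.R012.LS2 Crest.Agent.R012.LS448
  Crest.Agent.R012.Char766

theorem syF : SyF where
  mul_left x y _ hc := Sym645.sy_mul_left hc.nm_mod x y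
  norm_le x _ hc := Sym645.norm_sy_le_one hc.nm_mod x
  recip _ _ ha hb := Sym645.sy_reciprocity ha hb

/-! ### Large square divisors -/

/-- if `d² ∣ k1 k2² m³` (`k1, k2` squarefree coprime) then `N(d)^3 ≤ (N(k2)² N(m)³)²`. -/
lemma sq_dvd_bound {d k1 k2 m : Eis} (h1 : IsPrim k1) (h2 : IsPrim k2) (h3 : IsPrim m)
    (s1 : Squarefree k1) (s2 : Squarefree k2) (hc : IsCoprime k1 k2)
    (hd : d ^ 2 ∣ k1 * k2 ^ 2 * m ^ 3) :
    (nm d : ℝ) ^ 3 ≤ ((nm k2 : ℝ) ^ 2 * (nm m : ℝ) ^ 3) ^ 2 := by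
  have hn0 : k1 * k2 ^ 2 * m ^ 3 ≠ 0 :=
    mul_ne_zero (mul_ne_zero h1.ne_zero (pow_ne_zero _ h2.ne_zero)) (pow_ne_zero _ h3.ne_zero)
  have hd0 : d ≠ 0 := by
    rintro rfl
    rw [zero_pow (by norm_num), zero_dvd_iff] at hd
    exact hn0 hd
  have key : d ^ 3 ∣ k2 ^ 4 * m ^ 6 := by
    refine dvd_of_mult_le (pow_ne_zero _ hd0)
      (mul_ne_zero (pow_ne_zero _ h2.ne_zero) (pow_ne_zero _ h3.ne_zero)) ?_
    intro p hp
    have e1 : multiplicity p (d ^ 2) ≤ multiplicity p (k1 * k2 ^ 2 * m ^ 3) := by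
      have hf1 := finMult hp hn0
      have hf2 := finMult hp (pow_ne_zero 2 hd0)
      have h5 := emultiplicity_le_emultiplicity_of_dvd_right (a := p) hd
      rw [hf1.emultiplicity_eq_multiplicity, hf2.emultiplicity_eq_multiplicity] at h5
      exact_mod_cast h5
    rw [mult_pow hp hd0, mult_mul hp (mul_ne_zero h1.ne_zero (pow_ne_zero _ h2.ne_zero))
      (pow_ne_zero _ h3.ne_zero), mult_mul hp h1.ne_zero (pow_ne_zero _ h2.ne_zero),
      mult_pow hp h2.ne_zero, mult_pow hp h3.ne_zero] at e1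
    rw [mult_pow hp hd0, mult_mul hp (pow_ne_zero _ h2.ne_zero) (pow_ne_zero _ h3.ne_zero),
      mult_pow hp h2.ne_zero, mult_pow hp h3.ne_zero]
    have a1 := mult_le_one_of_squarefree hp s1
    have a2 := mult_le_one_of_squarefree hp s2
    have a3 := not_both_dvd hp hc
    omega
  have hne : k2 ^ 4 * m ^ 6 ≠ 0 :=
    mul_ne_zero (pow_ne_zero _ h2.ne_zero) (pow_ne_zero _ h3.ne_zero)
  have h4 := nm_le_of_dvd key hne
  rw [nm_pow, nm_mul, nm_pow, nm_pow] at h4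
  have h5 : ((nm d : ℝ)) ^ 3 ≤ (nm k2 : ℝ) ^ 4 * (nm m : ℝ) ^ 6 := by exact_mod_cast h4
  calc (nm d : ℝ) ^ 3 ≤ (nm k2 : ℝ) ^ 4 * (nm m : ℝ) ^ 6 := h5
    _ = _ := by ring

/-- GLS with coefficients supported on `n` divisible by `d²`, `nm d ≥ D`. -/
theorem gls_sq (hF : Final) : ∀ ε : ℝ, 0 < ε → ∃ K : ℝ, 0 < K ∧
    ∀ H Z A D : ℝ, 1 ≤ H → 1 ≤ Z → 1 ≤ D → ∀ a : Eis → ℂ,
      (∀ n ∈ primBall ⌊Z⌋₊, ‖a n‖ ≤ A) →
      (∀ n ∈ primBall ⌊Z⌋₊, a n ≠ 0 → ∃ d : Eis, D ≤ (nm d : ℝ) ∧ d ^ 2 ∣ n) →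
      ∑ h ∈ S H, ‖∑ n ∈ primBall ⌊Z⌋₊, a n * sy n h‖ ^ 2 ≤
        K * (H * Z) ^ ε * A ^ 2 * Z * (H + D⁻¹ * (Z + (H * Z) ^ ((2 : ℝ) / 3))) := by
  intro ε hε
  obtain ⟨K, hK, h⟩ := gls syF hF ε hε
  refine ⟨K, hK, fun H Z A D hH hZ hD a ha hs => ?_⟩
  have hD0 : 0 < D := by linarith
  have hL : 1 ≤ D ^ ((3 : ℝ) / 2) := Real.one_le_rpow hD (by norm_num)
  have h1 := h H Z A (D ^ ((3 : ℝ) / 2)) hH hZ hL a ha (fun n hn hne k1 k2 m p1 p2 p3 s1 s2 hc he => by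
    obtain ⟨d, hd1, hd2⟩ := hs n hn hne
    rw [he] at hd2
    have h2 := sq_dvd_bound p1 p2 p3 s1 s2 hc hd2
    have h3 : (D ^ ((3 : ℝ) / 2)) ^ 2 ≤ ((nm k2 : ℝ) ^ 2 * (nm m : ℝ) ^ 3) ^ 2 := by
      calc (D ^ ((3 : ℝ) / 2)) ^ 2 = D ^ (3 : ℝ) := by
            rw [← Real.rpow_natCast, ← Real.rpow_mul hD0.le]; norm_num
        _ = D ^ 3 := by norm_cast
        _ ≤ (nm d : ℝ) ^ 3 := pow_le_pow_left₀ hD0.le hd1 3
        _ ≤ _ := h2
    exact le_of_sq_le_sq h3 (by positivity))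
  have e : (D ^ ((3 : ℝ) / 2)) ^ (-(2 / 3) : ℝ) = D⁻¹ := by
    rw [← Real.rpow_mul hD0.le, ← Real.rpow_neg_one]
    norm_num
  rw [e] at h1
  exact h1

/-! ### Powers of character sums -/

lemma sy_one_left {c : Eis} (hc : IsPrim c) : sy 1 c = 1 := by
  have h1 : sy (1 * 1) c = sy 1 c * sy 1 c := syF.mul_left 1 1 c hc
  rw [one_mul] at h1
  have h2 : sy 1 c ≠ 0 := by
    intro h
    exact (Sym645.sy_eq_zero_iff hc.nm_mod).mp h isCoprime_one_left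
  exact (mul_left_cancel₀ h2 (by rw [mul_one]; exact h1)).symm

lemma sy_prod {j : ℕ} (x : Fin j → Eis) {c : Eis} (hc : IsPrim c) :
    sy (∏ i, x i) c = ∏ i, sy (x i) c := by
  induction j with
  | zero => simp [sy_one_left hc]
  | succ j ih => rw [Fin.prod_univ_succ, Fin.prod_univ_succ, syF.mul_left _ _ _ hc, ih]

lemma isPrim_prod {j : ℕ} (x : Fin j → Eis) (h : ∀ i, IsPrim (x i)) : IsPrim (∏ i, x i) := by
  induction j with
  | zero => simpa using isPrim_one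
  | succ j ih => rw [Fin.prod_univ_succ]; exact (h 0).mul (ih _ fun i => h i.succ)

lemma nm_prod {j : ℕ} (x : Fin j → Eis) : nm (∏ i, x i) = ∏ i, nm (x i) := by
  induction j with
  | zero => simp
  | succ j ih => rw [Fin.prod_univ_succ, Fin.prod_univ_succ, nm_mul, ih]


/-- Sum over a set of tuples of primary elements of norm at most `C`. -/
lemma tuples_aux (hF : Final) (j : ℕ) : ∀ ε : ℝ, 0 < ε → ∃ K : ℝ, 0 < K ∧
    ∀ H C D : ℝ, 1 ≤ H → 1 ≤ C → 1 ≤ D → ∀ s : Finset Eis, (∀ c ∈ s, IsPrim c ∧ (nm c : ℝ) ≤ C) →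
      ∀ γ : Eis → ℂ, (∀ c ∈ s, ‖γ c‖ ≤ 1) →
      ∀ T : Finset (Fin j → Eis), T ⊆ Fintype.piFinset (fun _ : Fin j => s) →
      (∀ x ∈ T, ∃ d : Eis, D ≤ (nm d : ℝ) ∧ d ^ 2 ∣ ∏ i, x i) →
      ∑ h ∈ S H, ‖∑ x ∈ T, (∏ i, γ (x i)) * sy (∏ i, x i) h‖ ^ 2 ≤
        K * (H * C) ^ ε * C ^ j * (H + D⁻¹ * (C ^ j + (H * C ^ j) ^ ((2 : ℝ) / 3))) := by
  classical
  intro ε hε
  set e1 : ℝ := ε / (3 * (j ^ 2 + j + 1)) with he1
  have he1p : 0 < e1 := by positivity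
  obtain ⟨K, hK, hG⟩ := gls_sq hF e1 he1p
  obtain ⟨C1, hC1, hτ⟩ := Div277.tau_le_rpow he1p
  refine ⟨K * (C1 ^ j) ^ 2, by positivity, ?_⟩
  intro H C D hH hC hD s hs γ hγ T hT hsq
  have hC0 : 0 < C := by linarith
  have hH0 : 0 < H := by linarith
  set Z : ℝ := C ^ j with hZ
  have hZ1 : 1 ≤ Z := one_le_pow₀ hC
  have hxs : ∀ x ∈ T, ∀ i, x i ∈ s := by
    intro x hx i
    exact Fintype.mem_piFinset.mp (hT hx) i
  have hprod : ∀ x ∈ T, (∏ i, x i) ∈ primBall ⌊Z⌋₊ := by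
    intro x hx
    rw [mem_primBall_floor]
    refine ⟨?_, isPrim_prod x fun i => (hs _ (hxs x hx i)).1⟩
    rw [nm_prod]
    push_cast
    calc (∏ i, (nm (x i) : ℝ)) ≤ ∏ _i : Fin j, C :=
          prod_le_prod (fun i _ => by positivity) (fun i _ => (hs _ (hxs x hx i)).2)
      _ = Z := by rw [prod_const, card_univ, Fintype.card_fin]
  set a : Eis → ℂ := fun n => ∑ x ∈ T.filter (fun x => ∏ i, x i = n), ∏ i, γ (x i) with ha
  have hγx : ∀ x ∈ T, ‖∏ i, γ (x i)‖ ≤ 1 := by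
    intro x hx
    rw [norm_prod]
    exact prod_le_one (fun i _ => norm_nonneg _) (fun i _ => hγ _ (hxs x hx i))
  -- bound for the coefficients
  have hbound : ∀ n ∈ primBall ⌊Z⌋₊, ‖a n‖ ≤ (C1 * Z ^ e1) ^ j := by
    intro n hn
    rw [mem_primBall_floor] at hn
    have hn0 : n ≠ 0 := hn.2.ne_zero
    have hcard : #(T.filter (fun x => ∏ i, x i = n)) ≤ (Div277.tau n) ^ j := by
      have hsub : T.filter (fun x => ∏ i, x i = n) ⊆
          Fintype.piFinset (fun _ : Fin j => Div277.dvs n) := by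
        intro x hx
        rw [mem_filter] at hx
        rw [Fintype.mem_piFinset]
        intro i
        rw [Div277.mem_dvs hn0]
        exact ⟨(hs _ (hxs x hx.1 i)).1, hx.2 ▸ dvd_prod_of_mem _ (mem_univ i)⟩
      refine (card_le_card hsub).trans ?_
      rw [Fintype.card_piFinset, prod_const, card_univ, Fintype.card_fin]
      exact le_rfl
    have h1 : ‖a n‖ ≤ #(T.filter (fun x => ∏ i, x i = n)) := by
      rw [ha]
      simp only
      calc ‖∑ x ∈ T.filter (fun x => ∏ i, x i = n), ∏ i, γ (x i)‖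
          ≤ ∑ x ∈ T.filter (fun x => ∏ i, x i = n), ‖∏ i, γ (x i)‖ := norm_sum_le _ _
        _ ≤ ∑ x ∈ T.filter (fun x => ∏ i, x i = n), 1 :=
            sum_le_sum fun x hx => hγx x (mem_filter.mp hx).1
        _ = _ := by simp
    have h2 : (Div277.tau n : ℝ) ≤ C1 * Z ^ e1 := by
      refine (hτ n hn0).trans ?_
      have : (nm n : ℝ) ^ e1 ≤ Z ^ e1 := Real.rpow_le_rpow (by positivity) hn.1 he1p.le
      gcongr
    calc ‖a n‖ ≤ #(T.filter (fun x => ∏ i, x i = n)) := h1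
      _ ≤ ((Div277.tau n ^ j : ℕ) : ℝ) := by exact_mod_cast hcard
      _ = (Div277.tau n : ℝ) ^ j := by push_cast; ring
      _ ≤ (C1 * Z ^ e1) ^ j := pow_le_pow_left₀ (by positivity) h2 j
  have hsupp : ∀ n ∈ primBall ⌊Z⌋₊, a n ≠ 0 → ∃ d : Eis, D ≤ (nm d : ℝ) ∧ d ^ 2 ∣ n := by
    intro n _ hne
    have : (T.filter (fun x => ∏ i, x i = n)).Nonempty := by
      by_contra hc
      rw [not_nonempty_iff_eq_empty] at hc
      exact hne (by rw [ha]; simp only; rw [hc, sum_empty])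
    obtain ⟨x, hx⟩ := this
    rw [mem_filter] at hx
    obtain ⟨d, hd1, hd2⟩ := hsq x hx.1
    exact ⟨d, hd1, hx.2 ▸ hd2⟩
  have hrw : ∀ h ∈ S H, ∑ x ∈ T, (∏ i, γ (x i)) * sy (∏ i, x i) h =
      ∑ n ∈ primBall ⌊Z⌋₊, a n * sy n h := by
    intro h _
    rw [← sum_fiberwise_of_maps_to hprod]
    refine sum_congr rfl fun n _ => ?_
    rw [ha]
    simp only
    rw [sum_mul]
    exact sum_congr rfl fun x hx => by rw [(mem_filter.mp hx).2]
  have h3 := hG H Z ((C1 * Z ^ e1) ^ j) D hH hZ1 hD a hbound hsupp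
  calc ∑ h ∈ S H, ‖∑ x ∈ T, (∏ i, γ (x i)) * sy (∏ i, x i) h‖ ^ 2
      = ∑ h ∈ S H, ‖∑ n ∈ primBall ⌊Z⌋₊, a n * sy n h‖ ^ 2 :=
        sum_congr rfl fun h hh => by rw [hrw h hh]
    _ ≤ K * (H * Z) ^ e1 * ((C1 * Z ^ e1) ^ j) ^ 2 * Z *
        (H + D⁻¹ * (Z + (H * Z) ^ ((2 : ℝ) / 3))) := h3
    _ = K * (C1 ^ j) ^ 2 * ((H * Z) ^ e1 * (Z ^ e1) ^ (2 * j)) * Z *
        (H + D⁻¹ * (Z + (H * Z) ^ ((2 : ℝ) / 3))) := by
        rw [mul_pow, mul_pow, ← pow_mul (Z ^ e1)]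
        ring
    _ ≤ K * (C1 ^ j) ^ 2 * (H * C) ^ ε * Z *
        (H + D⁻¹ * (Z + (H * Z) ^ ((2 : ℝ) / 3))) := by
        have hHC : 1 ≤ H * C := one_le_mul_of_one_le_of_one_le hH hC
        have k1 : (H * Z) ^ e1 ≤ (H * C) ^ ((j + 1 : ℝ) * e1) := by
          rw [Real.rpow_mul (by positivity)]
          refine Real.rpow_le_rpow (by positivity) ?_ he1p.le
          have : (H * C) ^ ((j : ℝ) + 1) = (H * C) ^ (j + 1) := by
            rw [← Real.rpow_natCast]; push_cast; ring_nf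
          rw [this, hZ]
          calc H * C ^ j ≤ (H ^ (j + 1)) * (C ^ (j + 1)) := by
                refine mul_le_mul ?_ (pow_le_pow_right₀ hC (by omega)) (by positivity)
                  (by positivity)
                calc H = H ^ 1 := (pow_one H).symm
                  _ ≤ H ^ (j + 1) := pow_le_pow_right₀ hH (by omega)
            _ = (H * C) ^ (j + 1) := (mul_pow _ _ _).symm
        have k2 : (Z ^ e1) ^ (2 * j) ≤ (H * C) ^ ((2 * j ^ 2 : ℝ) * e1) := by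
          have e2 : (Z ^ e1) ^ (2 * j) = (C ^ e1) ^ (2 * j ^ 2) := by
            rw [hZ, ← Real.rpow_natCast C j, ← Real.rpow_mul hC0.le, mul_comm (j : ℝ) e1,
              Real.rpow_mul hC0.le, Real.rpow_natCast, ← pow_mul]
            congr 1
            ring
          rw [e2]
          have e3 : (C ^ e1) ^ (2 * j ^ 2) = C ^ ((2 * j ^ 2 : ℝ) * e1) := by
            rw [mul_comm (2 * (j : ℝ) ^ 2) e1, Real.rpow_mul hC0.le]
            rw [← Real.rpow_natCast]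
            push_cast
            ring_nf
          rw [e3]
          refine Real.rpow_le_rpow hC0.le ?_ (by positivity)
          nlinarith
        have k3 : (H * Z) ^ e1 * (Z ^ e1) ^ (2 * j) ≤ (H * C) ^ ε := by
          calc (H * Z) ^ e1 * (Z ^ e1) ^ (2 * j)
              ≤ (H * C) ^ ((j + 1 : ℝ) * e1) * (H * C) ^ ((2 * j ^ 2 : ℝ) * e1) :=
                mul_le_mul k1 k2 (by positivity) (by positivity)
            _ = (H * C) ^ ((j + 1 : ℝ) * e1 + (2 * j ^ 2 : ℝ) * e1) := by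
                rw [Real.rpow_add (by positivity)]
            _ ≤ (H * C) ^ ε := by
                refine Real.rpow_le_rpow_of_exponent_le hHC ?_
                rw [he1, ← add_mul, mul_div_assoc', div_le_iff₀ (by positivity)]
                have : (0 : ℝ) ≤ j := Nat.cast_nonneg j
                nlinarith [mul_nonneg hε.le (sq_nonneg (j : ℝ)), mul_nonneg hε.le this]
        gcongr

/-- **tuples with a large square** -/
theorem tuples_sq (hF : Final) (j : ℕ) : ∀ ε : ℝ, 0 < ε → ∃ K : ℝ, 0 < K ∧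
    ∀ H C D : ℝ, 1 ≤ H → 1 ≤ C → 1 ≤ D → ∀ s : Finset Eis, (∀ c ∈ s, IsPrim c ∧ (nm c : ℝ) ≤ C) →
      ∀ γ : Eis → ℂ, (∀ c ∈ s, ‖γ c‖ ≤ 1) →
      ∀ T : Finset (Fin j → Eis), T ⊆ Fintype.piFinset (fun _ : Fin j => s) →
      (∀ x ∈ T, ∃ d : Eis, D ≤ (nm d : ℝ) ∧ d ^ 2 ∣ ∏ i, x i) →
      ∑ h ∈ S H, ‖∑ x ∈ T, (∏ i, γ (x i)) * sy (∏ i, x i) h‖ ^ 2 ≤
        K * (H * C) ^ ε * C ^ j * (H + D⁻¹ * (C ^ j + (H * C ^ j) ^ ((2 : ℝ) / 3))) :=
  tuples_aux hF j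



end Crest.Agent.R012.GLS106
end
end

-- ▼ part R012/CRA_106

/-!
# Row 12 (CRA): adapters to `Spec_CR_290`

`hbls_of_final : LS2.Final → HBLS`, `final_of_hbls : HBLS → LS2.Final`,
`gls290 : HBLS → GLS`, `mom290 : HBLS → Mom`.
-/

set_option autoImplicit false

noncomputable section

open Finset

namespace Crest.Agent.R012.GLS106

open Crest.Agent.R012 Crest.Agent.R012.Eis Crest.Agent.R012.LS2 Crest.Agent.R012.LS448
  Crest.Agent.R012.CR290


lemma isSF_subset {T : Finset Eis} {X : ℝ} (hX : 0 ≤ X) (h : IsSF T X) : T ⊆ S X := fun x hx => by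
  have := h x hx
  exact (mem_S hX).mpr ⟨this.2.2, this.1, this.2.1⟩






end Crest.Agent.R012.GLS106
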