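import Crest.Agent.R012.Defs

/-!
# Row 12 (L2): Heath-Brown's cubic large sieve — definitions and interface Props

* `S X`      : squarefree primary `n` with `nm n ≤ X`
* `Sd X`     : the same with `X/2 < nm n ≤ X`
* `bl X`     : nonzero `h : Eis` with `nm h ≤ X`
* `HB M N C` : `∑ m ∈ S M, ‖∑ n ∈ S N, c n * sy m n‖² ≤ C ∑ ‖c n‖²` for all `c`
* `HBd M N C`: the same with `n ∈ Sd N`
* `HB2 K N C`: numerators `h ∈ bl K`, `n ∈ S N`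

`Step1`, `Step2`, `Final` : the three statements; `Final` is the large sieve.
-/

set_option autoImplicit false

noncomputable section

namespace Crest.Agent.R012.LS2

open Eis

open Classical in
/-- squarefree primary `n` with `nm n ≤ X`. -/
def S (X : ℝ) : Finset Eis := (primBall ⌊X⌋₊).filter Squarefree

open Classical in
/-- squarefree primary `n` with `X/2 < nm n ≤ X`. -/
def Sd (X : ℝ) : Finset Eis := (S X).filter (fun n => X / 2 < (nm n : ℝ))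

/-- nonzero `h` with `nm h ≤ X`. -/
def bl (X : ℝ) : Finset Eis := (ball ⌊X⌋₊).erase 0

lemma mem_S {X : ℝ} (hX : 0 ≤ X) {n : Eis} :
    n ∈ S X ↔ (nm n : ℝ) ≤ X ∧ IsPrim n ∧ Squarefree n := by
  classical
  unfold S
  rw [Finset.mem_filter, mem_primBall, Nat.le_floor_iff hX]
  tauto

lemma mem_Sd {X : ℝ} (hX : 0 ≤ X) {n : Eis} :
    n ∈ Sd X ↔ X / 2 < (nm n : ℝ) ∧ (nm n : ℝ) ≤ X ∧ IsPrim n ∧ Squarefree n := by
  classical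
  unfold Sd
  rw [Finset.mem_filter, mem_S hX]
  tauto

lemma mem_bl {X : ℝ} (hX : 0 ≤ X) {n : Eis} : n ∈ bl X ↔ n ≠ 0 ∧ (nm n : ℝ) ≤ X := by
  classical
  unfold bl
  rw [Finset.mem_erase, mem_ball, Nat.le_floor_iff hX]

/-- the large sieve inequality with constant `C` -/
def HB (M N C : ℝ) : Prop := ∀ c : Eis → ℂ,
  ∑ m ∈ S M, ‖∑ n ∈ S N, c n * sy m n‖ ^ 2 ≤ C * ∑ n ∈ S N, ‖c n‖ ^ 2

/-- dyadic denominators -/
def HBd (M N C : ℝ) : Prop := ∀ c : Eis → ℂ,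
  ∑ m ∈ S M, ‖∑ n ∈ Sd N, c n * sy m n‖ ^ 2 ≤ C * ∑ n ∈ Sd N, ‖c n‖ ^ 2

/-- all nonzero numerators -/
def HB2 (K N C : ℝ) : Prop := ∀ c : Eis → ℂ,
  ∑ h ∈ bl K, ‖∑ n ∈ S N, c n * sy h n‖ ^ 2 ≤ C * ∑ n ∈ S N, ‖c n‖ ^ 2


/-- STEP 2 (helper381): Poisson summation. -/
def Step2 : Prop := ∀ ε : ℝ, 0 < ε → ∃ C : ℝ, 0 < C ∧ ∀ M N : ℝ, 1 ≤ M → 1 ≤ N →
  ∀ D : ℝ, 0 ≤ D →
  (∀ d e : ℝ, 1 ≤ e → e ≤ d → d ≤ N → ∃ D1 : ℝ, 0 ≤ D1 ∧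
    HB2 (e * N ^ 2 / (d ^ 2 * M) * (M * N) ^ ε) (N / d) D1 ∧ M * d / (e * N) * D1 ≤ D) →
  HBd M N (C * (M * N) ^ ε * (M + D))

/-- The cubic large sieve of Heath-Brown. -/
def Final : Prop := ∀ ε : ℝ, 0 < ε → ∃ C : ℝ, 0 < C ∧ ∀ M N : ℝ, 1 ≤ M → 1 ≤ N →
  HB M N (C * (M * N) ^ ε * (M + N + (M * N) ^ ((2 : ℝ) / 3)))

end Crest.Agent.R012.LS2
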