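import Crest.Agent.R012.Base_666

/-!
# Row 12: counting Eisenstein integers

* `card_ball_le : 1 ≤ X → #(ball X) ≤ 16 X`
* `nz X` : nonzero elements of norm `≤ X` (`X` real)
* `LL X = ∑_{z ∈ nz X} 1 / nm z`, `LL_le : ∀ ε > 0, ∃ C > 0, ∀ X ≥ 1, LL X ≤ C X^ε`
* `card_nz_le : #(nz X) ≤ X * LL X`.
* `exists_decomp` : `h ≠ 0` is `t * a * b² * c³`, `a, b` primary squarefree, `t ∈ TT`, `c ≠ 0`.
-/

set_option autoImplicit false

noncomputable section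

open Finset

namespace Crest.Agent.R012.LS448

open Crest.Agent.R012 Crest.Agent.R012.Eis

lemma three_re_sq_le (z : Eis) : 3 * z.re ^ 2 ≤ 4 * nm z := by
  rw [nm_cast]; nlinarith [sq_nonneg (z.re - 2 * z.im)]

lemma three_im_sq_le (z : Eis) : 3 * z.im ^ 2 ≤ 4 * nm z := by
  rw [nm_cast]; nlinarith [sq_nonneg (z.im - 2 * z.re)]

lemma card_ball_le {X : ℕ} (hX : 1 ≤ X) : #(ball X) ≤ 16 * X := by
  classical
  set s : ℕ := Nat.sqrt (2 * X) with hs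
  have hs2 : s * s ≤ 2 * X := Nat.sqrt_le (2 * X)
  have hs3 : 2 * X < (s + 1) * (s + 1) := Nat.lt_succ_sqrt (2 * X)
  have hb : ∀ a : ℤ, 3 * a ^ 2 ≤ 4 * X → -(s : ℤ) ≤ a ∧ a ≤ s := by
    intro a ha
    have h3 : (2 * X : ℤ) < (s + 1) * (s + 1) := by exact_mod_cast hs3
    constructor
    · by_contra hc
      push Not at hc
      have : (s : ℤ) + 1 ≤ -a := by omega
      nlinarith
    · by_contra hc
      push Not at hc
      have : (s : ℤ) + 1 ≤ a := by omega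
      nlinarith
  have hsub : ball X ⊆ (Finset.Icc (-(s : ℤ)) s ×ˢ Finset.Icc (-(s : ℤ)) s).image
      (fun ab => (⟨ab.1, ab.2⟩ : Eis)) := by
    intro z hz
    rw [mem_ball] at hz
    have hz' : (nm z : ℤ) ≤ X := by exact_mod_cast hz
    have h1 := hb z.re (by linarith [three_re_sq_le z])
    have h2 := hb z.im (by linarith [three_im_sq_le z])
    simp only [Finset.mem_image, Finset.mem_product, Finset.mem_Icc, Prod.exists]
    exact ⟨z.re, z.im, ⟨h1, h2⟩, rfl⟩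
  have hcard := (card_le_card hsub).trans card_image_le
  rw [card_product, Int.card_Icc] at hcard
  have e1 : ((s : ℤ) + 1 - -(s : ℤ)).toNat = 2 * s + 1 := by omega
  rw [e1] at hcard
  refine hcard.trans ?_
  -- (2 s + 1)^2 = 4 s^2 + 4 s + 1
  have hs1 : s ≤ s * s := Nat.le_mul_self s
  nlinarith

/-- Nonzero elements of norm at most `X`. -/
def nz (X : ℝ) : Finset Eis := open Classical in (ball ⌊X⌋₊).erase 0

lemma mem_nz {X : ℝ} {z : Eis} : z ∈ nz X ↔ z ≠ 0 ∧ (nm z : ℝ) ≤ X := by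
  classical
  unfold nz
  rw [mem_erase, mem_ball]
  constructor
  · rintro ⟨h0, h⟩
    have h1 : 0 < nm z := nm_pos.mpr h0
    exact ⟨h0, (Nat.le_floor_iff' h1.ne').mp h⟩
  · rintro ⟨h0, h⟩
    exact ⟨h0, Nat.le_floor h⟩

lemma one_le_nm {z : Eis} (h : z ≠ 0) : 1 ≤ nm z := nm_pos.mpr h

lemma one_le_nm' {z : Eis} (h : z ≠ 0) : (1 : ℝ) ≤ nm z := by exact_mod_cast one_le_nm h

lemma nz_eq_empty {X : ℝ} (h : X < 1) : nz X = ∅ := by
  refine eq_empty_of_forall_notMem fun z hz => ?_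
  rw [mem_nz] at hz
  linarith [one_le_nm' hz.1]

lemma nz_mono {X Y : ℝ} (h : X ≤ Y) : nz X ⊆ nz Y := fun z hz => by
  rw [mem_nz] at hz ⊢; exact ⟨hz.1, hz.2.trans h⟩

/-- `∑_{0 < nm z ≤ X} 1 / nm z`. -/
def LL (X : ℝ) : ℝ := ∑ z ∈ nz X, 1 / (nm z : ℝ)

lemma LL_nonneg (X : ℝ) : 0 ≤ LL X := sum_nonneg fun _ _ => by positivity

lemma LL_mono {X Y : ℝ} (h : X ≤ Y) : LL X ≤ LL Y :=
  sum_le_sum_of_subset_of_nonneg (nz_mono h) fun _ _ _ => by positivity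



lemma card_nz_le (X : ℝ) : (#(nz X) : ℝ) ≤ X * LL X := by
  unfold LL
  rw [mul_sum, card_eq_sum_ones]
  push_cast
  refine sum_le_sum fun z hz => ?_
  rw [mem_nz] at hz
  have := one_le_nm' hz.1
  rw [mul_one_div, le_div_iff₀ (by linarith)]
  linarith [hz.2]

lemma LL_le_log {X : ℝ} (_hX : 1 ≤ X) : LL X ≤ 32 * (Nat.log 2 ⌊X⌋₊ + 1) := by
  classical
  have hmaps : ∀ z ∈ nz X, Nat.log 2 (nm z) ∈ range (Nat.log 2 ⌊X⌋₊ + 1) := by
    intro z hz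
    rw [mem_nz] at hz
    rw [mem_range, Nat.lt_succ_iff]
    exact Nat.log_mono_right (Nat.le_floor hz.2)
  unfold LL
  rw [← sum_fiberwise_of_maps_to hmaps]
  have hone : ∀ i ∈ range (Nat.log 2 ⌊X⌋₊ + 1),
      ∑ z ∈ nz X with Nat.log 2 (nm z) = i, 1 / (nm z : ℝ) ≤ 32 := by
    intro i _
    have h1 : ∀ z ∈ (nz X).filter (fun z => Nat.log 2 (nm z) = i), 1 / (nm z : ℝ) ≤ 1 / 2 ^ i := by
      intro z hz
      rw [mem_filter, mem_nz] at hz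
      have h2 : 2 ^ Nat.log 2 (nm z) ≤ nm z := Nat.pow_log_le_self 2 (nm_pos.mpr hz.1.1).ne'
      rw [hz.2] at h2
      have h3 : ((2 : ℝ)) ^ i ≤ nm z := by exact_mod_cast h2
      exact one_div_le_one_div_of_le (by positivity) h3
    have h4 : (nz X).filter (fun z => Nat.log 2 (nm z) = i) ⊆ ball (2 ^ (i + 1)) := by
      intro z hz
      rw [mem_filter, mem_nz] at hz
      rw [mem_ball]
      have := Nat.lt_pow_succ_log_self (b := 2) (by norm_num) (nm z)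
      rw [hz.2] at this
      exact this.le
    have h5 := (card_le_card h4).trans (card_ball_le (X := 2 ^ (i + 1)) Nat.one_le_two_pow)
    calc ∑ z ∈ nz X with Nat.log 2 (nm z) = i, 1 / (nm z : ℝ)
        ≤ ∑ z ∈ nz X with Nat.log 2 (nm z) = i, (1 / 2 ^ i : ℝ) := sum_le_sum h1
      _ = #((nz X).filter (fun z => Nat.log 2 (nm z) = i)) * (1 / 2 ^ i : ℝ) := by
          rw [sum_const, nsmul_eq_mul]
      _ ≤ (16 * 2 ^ (i + 1)) * (1 / 2 ^ i : ℝ) := by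
          gcongr
          exact_mod_cast h5
      _ = 32 := by
          rw [pow_succ]; field_simp; norm_num
  calc _ ≤ ∑ i ∈ range (Nat.log 2 ⌊X⌋₊ + 1), (32 : ℝ) := sum_le_sum hone
    _ = _ := by simp; ring

lemma log2_floor_le {ε : ℝ} (hε : 0 < ε) :
    ∃ C : ℝ, 0 < C ∧ ∀ X : ℝ, 1 ≤ X → (Nat.log 2 ⌊X⌋₊ : ℝ) + 1 ≤ C * X ^ ε := by
  refine ⟨1 / (Real.log 2 * ε) + 1, by positivity, fun X hX => ?_⟩
  have hX0 : 0 < X := by linarith
  have h1 : (2 : ℝ) ^ (Nat.log 2 ⌊X⌋₊) ≤ X := by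
    have h2 : 2 ^ Nat.log 2 ⌊X⌋₊ ≤ ⌊X⌋₊ := Nat.pow_log_le_self 2 (Nat.floor_pos.mpr hX).ne'
    calc (2 : ℝ) ^ (Nat.log 2 ⌊X⌋₊) ≤ (⌊X⌋₊ : ℝ) := by exact_mod_cast h2
      _ ≤ X := Nat.floor_le hX0.le
  have h3 : (Nat.log 2 ⌊X⌋₊ : ℝ) * Real.log 2 ≤ Real.log X := by
    rw [← Real.log_pow]
    exact Real.log_le_log (by positivity) h1
  have h4 : Real.log X ≤ X ^ ε / ε := Real.log_le_rpow_div hX0.le hε
  have hl2 : 0 < Real.log 2 := Real.log_pos (by norm_num)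
  have h5 : (Nat.log 2 ⌊X⌋₊ : ℝ) ≤ 1 / (Real.log 2 * ε) * X ^ ε := by
    have : (Nat.log 2 ⌊X⌋₊ : ℝ) ≤ (X ^ ε / ε) / Real.log 2 := by
      rw [le_div_iff₀ hl2]; exact h3.trans h4
    refine this.trans (le_of_eq ?_)
    field_simp
  have h6 : (1 : ℝ) ≤ X ^ ε := Real.one_le_rpow hX hε.le
  rw [add_mul, one_mul]
  linarith

lemma LL_le {ε : ℝ} (hε : 0 < ε) : ∃ C : ℝ, 0 < C ∧ ∀ X : ℝ, 1 ≤ X → LL X ≤ C * X ^ ε := by
  obtain ⟨C, hC, h⟩ := log2_floor_le hε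
  refine ⟨32 * C, by positivity, fun X hX => ?_⟩
  calc LL X ≤ 32 * (Nat.log 2 ⌊X⌋₊ + 1) := LL_le_log hX
    _ ≤ 32 * (C * X ^ ε) := by gcongr; exact h X hX
    _ = _ := by ring

/-! ### Decomposition `h = t a b² c³` -/

lemma two_le_nm_of_not_isUnit {x : Eis} (h0 : x ≠ 0) (h : ¬ IsUnit x) : 2 ≤ nm x := by
  have h1 := one_le_nm h0
  have h2 : nm x ≠ 1 := fun h' => h (isUnit_iff.mpr h')
  omega

lemma nm_le_of_dvd {x y : Eis} (h : x ∣ y) (hy : y ≠ 0) : nm x ≤ nm y := by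
  obtain ⟨t, rfl⟩ := h
  rw [nm_mul]
  exact Nat.le_mul_of_pos_right _ (nm_pos.mpr (right_ne_zero_of_mul hy))

/-- A squarefree element is `t * x₀` with `x₀` primary squarefree and `nm t ≤ 3`. -/
lemma squarefree_split {x : Eis} (hx0 : x ≠ 0) (hx : Squarefree x) :
    ∃ t x₀ : Eis, x = t * x₀ ∧ IsPrim x₀ ∧ Squarefree x₀ ∧ nm t ≤ 3 ∧ t ≠ 0 := by
  by_cases h : lam ∣ x
  · obtain ⟨y, rfl⟩ := h
    have hy : ¬ lam ∣ y := by
      rintro ⟨z, rfl⟩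
      exact prime_lam.not_isUnit (hx lam ⟨z, by ring⟩)
    obtain ⟨y', hy', u, hu⟩ := exists_isPrim_associated hy
    refine ⟨lam * (u⁻¹ : Eisˣ), y', ?_, hy', ?_, ?_, ?_⟩
    · rw [← hu]
      have : ((u⁻¹ : Eisˣ) : Eis) * u = 1 := by simp
      linear_combination (-lam * y) * this
    · have hsq : Squarefree y := hx.squarefree_of_dvd (dvd_mul_left _ _)
      rw [← hu]
      exact hsq.squarefree_of_dvd (by rw [Units.mul_right_dvd])
    · rw [nm_mul, nm_lam, isUnit_iff.mp (u⁻¹).isUnit]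
    · exact mul_ne_zero lam_ne_zero (u⁻¹).ne_zero
  · obtain ⟨y', hy', u, hu⟩ := exists_isPrim_associated h
    refine ⟨(u⁻¹ : Eisˣ), y', ?_, hy', ?_, ?_, ?_⟩
    · rw [← hu]
      have : ((u⁻¹ : Eisˣ) : Eis) * u = 1 := by simp
      linear_combination (-x) * this
    · rw [← hu]
      exact hx.squarefree_of_dvd (by rw [Units.mul_right_dvd])
    · rw [isUnit_iff.mp (u⁻¹).isUnit]; norm_num
    · exact (u⁻¹).ne_zero

/-- Every nonzero element is `b² a` with `a` squarefree, `b` of maximal norm with `b² ∣ h`. -/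
lemma exists_max_pow_dvd (k : ℕ) (hk : k ≠ 0) {h : Eis} (h0 : h ≠ 0) :
    ∃ c : Eis, c ≠ 0 ∧ c ^ k ∣ h ∧ ∀ c' : Eis, c' ^ k ∣ h → nm c' ≤ nm c := by
  classical
  have hne : ((ball (nm h)).filter (fun c => c ^ k ∣ h)).Nonempty := by
    refine ⟨1, ?_⟩
    rw [mem_filter, mem_ball, nm_one, one_pow]
    exact ⟨nm_pos.mpr h0, one_dvd _⟩
  obtain ⟨c, hc, hmax⟩ := exists_max_image _ nm hne
  rw [mem_filter, mem_ball] at hc
  refine ⟨c, ?_, hc.2, fun c' hc' => hmax c' ?_⟩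
  · rintro rfl
    have := hc.2
    rw [zero_pow hk, zero_dvd_iff] at this
    exact h0 this
  · rw [mem_filter, mem_ball]
    refine ⟨nm_le_of_dvd ((dvd_pow_self c' hk).trans hc') h0, hc'⟩

/-- Every nonzero `h` is `t a b² c³` with `a, b` primary and squarefree, `nm t ≤ 27`. -/
lemma exists_decomp {h : Eis} (h0 : h ≠ 0) :
    ∃ t a b c : Eis, h = t * a * b ^ 2 * c ^ 3 ∧ t ≠ 0 ∧ nm t ≤ 27 ∧ IsPrim a ∧ Squarefree a ∧
      IsPrim b ∧ Squarefree b ∧ c ≠ 0 := by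
  obtain ⟨c, hc0, ⟨h', hh'⟩, hcmax⟩ := exists_max_pow_dvd 3 (by norm_num) h0
  have hh0 : h' ≠ 0 := by rintro rfl; exact h0 (by rw [hh', mul_zero])
  obtain ⟨b, hb0, ⟨a, ha⟩, hbmax⟩ := exists_max_pow_dvd 2 (by norm_num) hh0
  have ha0 : a ≠ 0 := by rintro rfl; exact hh0 (by rw [ha, mul_zero])
  have hasq : Squarefree a := by
    rintro x ⟨y, hy⟩
    by_contra hx
    have hx0 : x ≠ 0 := by rintro rfl; exact ha0 (by rw [hy]; ring)
    have h1 := hbmax (x * b) ⟨y, by rw [ha, hy]; ring⟩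
    have h2 := two_le_nm_of_not_isUnit hx0 hx
    rw [nm_mul] at h1
    nlinarith [nm_pos.mpr hb0]
  have hbsq : Squarefree b := by
    rintro x ⟨y, hy⟩
    by_contra hx
    have hx0 : x ≠ 0 := by rintro rfl; exact hb0 (by rw [hy]; ring)
    have h1 := hcmax (x * c) ⟨x * y ^ 2 * a, by rw [hh', ha, hy]; ring⟩
    have h2 := two_le_nm_of_not_isUnit hx0 hx
    rw [nm_mul] at h1
    nlinarith [nm_pos.mpr hc0]
  obtain ⟨ta, a', ha1, ha2, ha3, ha4, ha5⟩ := squarefree_split ha0 hasq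
  obtain ⟨tb, b', hb1, hb2, hb3, hb4, hb5⟩ := squarefree_split hb0 hbsq
  refine ⟨ta * tb ^ 2, a', b', c, ?_, ?_, ?_, ha2, ha3, hb2, hb3, hc0⟩
  · rw [hh', ha, ha1, hb1]; ring
  · exact mul_ne_zero ha5 (pow_ne_zero _ hb5)
  · rw [nm_mul, nm_pow]
    calc nm ta * nm tb ^ 2 ≤ 3 * 3 ^ 2 := Nat.mul_le_mul ha4 (Nat.pow_le_pow_left hb4 2)
      _ = 27 := by norm_num

end Crest.Agent.R012.LS448
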