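import Crest.Agent.R012.MSgenD_49

/-!
# Row 12, part (M): constructors of `LogW`; `MS1 → MS` (helper49)
-/

set_option autoImplicit false

noncomputable section

open MeasureTheory Complex Set Filter Topology
open Crest.Agent.R012.Weight600 Crest.Agent.R012.Eis

namespace Crest.Agent.R012.MSgen49

/-! ### constructors of `LogW` -/

lemma LogW.mono {w : ℝ → ℂ} {M M' : ℝ} (h : LogW w M) (hM : M ≤ M') : LogW w M' := by
  obtain ⟨D, h0, h1, h2, h3⟩ := h
  refine ⟨D, h0, h1, h2, fun j hj u => (h3 j hj u).trans ?_⟩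
  exact mul_le_mul_of_nonneg_right hM (env_pos u).le

lemma LogW.add {w w' : ℝ → ℂ} {M M' : ℝ} (h : LogW w M) (h' : LogW w' M') :
    LogW (fun u => w u + w' u) (M + M') := by
  obtain ⟨D, h0, h1, h2, h3⟩ := h
  obtain ⟨D', h0', h1', h2', h3'⟩ := h'
  refine ⟨fun j u => D j u + D' j u, ?_, ?_, h2.add h2', ?_⟩
  · ext u; simp only [h0, h0']
  · intro j hj u
    exact (h1 j hj u).fun_add (h1' j hj u)
  · intro j hj u
    rw [add_mul]
    exact (norm_add_le _ _).trans (add_le_add (h3 j hj u) (h3' j hj u))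

lemma LogW.const_mul {w : ℝ → ℂ} {M : ℝ} (h : LogW w M) (a : ℂ) :
    LogW (fun u => a * w u) (‖a‖ * M) := by
  obtain ⟨D, h0, h1, h2, h3⟩ := h
  refine ⟨fun j u => a * D j u, ?_, ?_, continuous_const.mul h2, ?_⟩
  · ext u; simp only [h0]
  · intro j hj u
    exact (h1 j hj u).const_mul a
  · intro j hj u
    rw [norm_mul, mul_assoc]
    exact mul_le_mul_of_nonneg_left (h3 j hj u) (norm_nonneg a)



/-- `x^{-a} e^{-x}` in the variable `u = log x`. -/
def pe (a u : ℝ) : ℝ := Real.exp (-(a * u) - Real.exp u)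

lemma hasDerivAt_pe (a u : ℝ) : HasDerivAt (pe a) (-(a + Real.exp u) * pe a u) u := by
  unfold pe
  have h1 : HasDerivAt (fun u : ℝ => -(a * u) - Real.exp u) (-a - Real.exp u) u := by
    have := (((hasDerivAt_id u).const_mul a).neg).sub (Real.hasDerivAt_exp u)
    refine this.congr_deriv ?_
    ring
  refine h1.exp.congr_deriv ?_
  ring

lemma pow5_le (x : ℝ) (hx : 0 ≤ x) : (1 + x) ^ 5 ≤ 360 * Real.exp x := by
  have h1 := Real.pow_div_factorial_le_exp (1 + x) (by linarith) 5
  rw [div_le_iff₀ (by positivity), Real.exp_add] at h1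
  have h2 : Real.exp 1 ≤ 3 := by linarith [Real.exp_one_lt_d9]
  have h3 : ((5 : ℕ).factorial : ℝ) = 120 := by norm_num [Nat.factorial]
  rw [h3] at h1
  have h4 := Real.exp_pos x
  nlinarith

/-- **`x^{-a} e^{-x}`**, `0 ≤ a ≤ 1/4`, is admissible (`a = 0` : `e^{-x}`). -/
lemma logW_pe {a : ℝ} (ha : 0 ≤ a) (ha1 : a ≤ 1 / 4) :
    LogW (fun u => ((pe a u : ℝ) : ℂ)) 2000 := by
  let P : ℕ → ℝ → ℝ := fun i => match i with
    | 0 => fun _ => 1
    | 1 => fun x => -(a + x)
    | 2 => fun x => (a + x) ^ 2 - x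
    | 3 => fun x => -(a + x) ^ 3 + 3 * x * (a + x) - x
    | _ => fun _ => 0
  have hder : ∀ j < 3, ∀ u, HasDerivAt (fun u => P j (Real.exp u) * pe a u)
      (P (j + 1) (Real.exp u) * pe a u) u := by
    intro j hj u
    have hE := Real.hasDerivAt_exp u
    have hF := hasDerivAt_pe a u
    interval_cases j
    · simp only [P, one_mul]
      exact hF
    · have h1 : HasDerivAt (fun u => -(a + Real.exp u)) (-(Real.exp u)) u := (hE.const_add a).neg
      refine (h1.fun_mul hF).congr_deriv ?_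
      simp only [P]; ring
    · have h1 : HasDerivAt (fun u => (a + Real.exp u) ^ 2 - Real.exp u)
          (2 * (a + Real.exp u) * Real.exp u - Real.exp u) u := by
        have := ((hE.const_add a).fun_pow 2).fun_sub hE
        refine this.congr_deriv ?_
        simp
      refine (h1.fun_mul hF).congr_deriv ?_
      simp only [P]; ring
  refine ⟨fun j u => ((P j (Real.exp u) * pe a u : ℝ) : ℂ), ?_, ?_, ?_, ?_⟩
  · ext u; simp [P]
  · intro j hj u
    exact (hder j hj u).ofReal_comp
  · have : Continuous (fun u => P 3 (Real.exp u) * pe a u) := by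
      simp only [P, pe]; fun_prop
    exact Complex.continuous_ofReal.comp this
  · intro j hj u
    rw [Complex.norm_real, norm_mul, Real.norm_eq_abs, Real.norm_eq_abs]
    have hx := Real.exp_pos u
    have hPb : |P j (Real.exp u)| ≤ 5 * (1 + Real.exp u) ^ 3 := by
      set x := Real.exp u with hxdef
      have hb : a + x ≤ 1 + x := by linarith
      have hb0 : 0 ≤ a + x := by linarith
      have hb2 : (a + x) ^ 2 ≤ (1 + x) ^ 2 := pow_le_pow_left₀ hb0 hb 2
      have hb3 : (a + x) ^ 3 ≤ (1 + x) ^ 3 := pow_le_pow_left₀ hb0 hb 3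
      have hb20 : 0 ≤ (a + x) ^ 2 := by positivity
      have hb30 : 0 ≤ (a + x) ^ 3 := by positivity
      have hq : (1 : ℝ) ≤ (1 + x) := by linarith
      have hq2 : (1 + x) ^ 2 ≤ (1 + x) ^ 3 := pow_le_pow_right₀ hq (by norm_num)
      have hq1 : (1 + x) ≤ (1 + x) ^ 3 := by
        calc (1 + x) = (1 + x) ^ 1 := (pow_one _).symm
          _ ≤ _ := pow_le_pow_right₀ hq (by norm_num)
      have hq0 : (1 : ℝ) ≤ (1 + x) ^ 3 := one_le_pow₀ hq
      have hxx : x * (a + x) ≤ (1 + x) ^ 2 := by nlinarith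
      have hxx0 : 0 ≤ x * (a + x) := by positivity
      interval_cases j
      · simp only [P]; rw [abs_one]; linarith
      · simp only [P]; rw [abs_neg, abs_of_nonneg hb0]; linarith
      · simp only [P]; rw [abs_le]; constructor <;> nlinarith
      · simp only [P]; rw [abs_le]; constructor <;> nlinarith
    have hpe : |pe a u| = Real.exp (-(a * u)) * Real.exp (-Real.exp u) := by
      unfold pe; rw [abs_of_pos (Real.exp_pos _), ← Real.exp_add]; congr 1
    have hpa : Real.exp (-(a * u)) ≤ (1 + Real.exp (-u)) ^ ((1 : ℝ) / 4) := by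
      rcases le_total 0 u with h | h
      · have h1 : Real.exp (-(a * u)) ≤ 1 := Real.exp_le_one_iff.mpr (by nlinarith)
        exact h1.trans (Real.one_le_rpow (by linarith [Real.exp_pos (-u)]) (by norm_num))
      · calc Real.exp (-(a * u)) ≤ Real.exp (-u * (1 / 4)) :=
              Real.exp_le_exp.mpr (by nlinarith)
          _ = (Real.exp (-u)) ^ ((1 : ℝ) / 4) := by rw [Real.exp_mul]
          _ ≤ _ := Real.rpow_le_rpow (Real.exp_pos _).le (by linarith) (by norm_num)
    have h5 := pow5_le (Real.exp u) hx.le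
    have h6 : (1 + Real.exp u) ^ 3 * Real.exp (-Real.exp u) ≤ 360 / (1 + Real.exp u) ^ 2 := by
      rw [le_div_iff₀ (by positivity), Real.exp_neg]
      have h7 := Real.exp_pos (Real.exp u)
      calc (1 + Real.exp u) ^ 3 * (Real.exp (Real.exp u))⁻¹ * (1 + Real.exp u) ^ 2
          = (1 + Real.exp u) ^ 5 / Real.exp (Real.exp u) := by
            rw [div_eq_mul_inv]; ring
        _ ≤ 360 := by rw [div_le_iff₀ h7]; exact h5
    rw [hpe]
    calc |P j (Real.exp u)| * (Real.exp (-(a * u)) * Real.exp (-Real.exp u))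
        ≤ (5 * (1 + Real.exp u) ^ 3) * ((1 + Real.exp (-u)) ^ ((1 : ℝ) / 4) *
          Real.exp (-Real.exp u)) := by gcongr
      _ = 5 * (1 + Real.exp (-u)) ^ ((1 : ℝ) / 4) *
          ((1 + Real.exp u) ^ 3 * Real.exp (-Real.exp u)) := by ring
      _ ≤ 5 * (1 + Real.exp (-u)) ^ ((1 : ℝ) / 4) * (360 / (1 + Real.exp u) ^ 2) := by gcongr
      _ = 1800 * env u := by unfold env; ring
      _ ≤ 2000 * env u := by have := env_pos u; nlinarith





end Crest.Agent.R012.MSgen49
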