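import Crest.Agent.R012.Defs
import Crest.Agent.R012.Div_277

-- ▼ part R012/Mu_413
section

/-!
# Row 12: the Möbius function on `Eis` (shared definition)

`muE n = (-1)^(number of prime factors)` if `n` is squarefree and `0` otherwise.
API: see `Mob_705.lean` (helper705).
-/

set_option autoImplicit false

noncomputable section

namespace Crest.Agent.R012

open Classical in
/-- The Möbius function on the Eisenstein integers. -/
def muE (n : Eis) : ℤ :=
  if Squarefree n then (-1) ^ Multiset.card (UniqueFactorizationMonoid.factors n) else 0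

lemma muE_of_squarefree {n : Eis} (h : Squarefree n) :
    muE n = (-1) ^ Multiset.card (UniqueFactorizationMonoid.factors n) := by
  rw [muE, if_pos h]

lemma muE_of_not_squarefree {n : Eis} (h : ¬ Squarefree n) : muE n = 0 := by
  rw [muE, if_neg h]


lemma abs_muE_le (n : Eis) : |muE n| ≤ 1 := by
  by_cases h : Squarefree n
  · rw [muE_of_squarefree h]; simp
  · rw [muE_of_not_squarefree h]; simp

lemma abs_muE_le_real (n : Eis) : |(muE n : ℝ)| ≤ 1 := by
  exact_mod_cast abs_muE_le n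

lemma norm_muE_le (n : Eis) : ‖(muE n : ℂ)‖ ≤ 1 := by
  have h : ((muE n : ℤ) : ℂ) = ((muE n : ℝ) : ℂ) := by push_cast; rfl
  rw [h, Complex.norm_real]
  exact abs_muE_le_real n

end Crest.Agent.R012
end
end

-- ▼ part R012/Mob_705

/-!
# Row 12: Moebius function and coprimality sums on primary elements

`IsPP p` : `p` is a primary prime.
`pp a` : the primary primes dividing `a` (for `a ≠ 0`); `dvs a` (helper277): the primary divisors.
`muE n` (helper413) : Moebius function; `muE n = (-1) ^ #(pp n)` for squarefree primary `n`.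

Every squarefree primary element is the product of `pp n`, so sums of `muE d * F d` over primary
divisors of `a` are sums over the subsets of `pp a`.
-/

set_option autoImplicit false

noncomputable section

open Finset

namespace Crest.Agent.R012.Mob705

open Crest.Agent.R012 Crest.Agent.R012.Eis Crest.Agent.R012.Div277

/-! ### Primary primes -/

/-- `p` is a primary prime. -/
def IsPP (p : Eis) : Prop := IsPrim p ∧ Prime p

lemma IsPP.isPrim {p : Eis} (h : IsPP p) : IsPrim p := h.1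
lemma IsPP.prime {p : Eis} (h : IsPP p) : Prime p := h.2
lemma IsPP.ne_zero {p : Eis} (h : IsPP p) : p ≠ 0 := h.2.ne_zero

lemma IsPP.one_lt_nm {p : Eis} (h : IsPP p) : 1 < nm p := by
  have h1 : nm p ≠ 0 := fun h' => h.ne_zero (nm_eq_zero.mp h')
  have h2 : nm p ≠ 1 := fun h' => h.prime.not_isUnit (isUnit_iff.mpr h')
  omega

/-- The norm of a primary prime is at least `4`. -/
lemma IsPP.four_le_nm {p : Eis} (h : IsPP p) : 4 ≤ nm p := by
  have h1 := h.one_lt_nm
  have h2 := h.isPrim.nm_mod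
  omega

lemma IsPP.eq_of_dvd {p q : Eis} (hp : IsPP p) (hq : IsPP q) (h : p ∣ q) : p = q :=
  hp.isPrim.eq_of_associated hq.isPrim (hp.prime.associated_of_dvd hq.prime h)

lemma IsPP.isCoprime {p q : Eis} (hp : IsPP p) (hq : IsPP q) (h : p ≠ q) : IsCoprime p q :=
  (hp.prime.irreducible.coprime_iff_not_dvd).mpr fun h' => h (hp.eq_of_dvd hq h')

lemma IsPP.isCoprime_iff {p x : Eis} (hp : IsPP p) : IsCoprime p x ↔ ¬ p ∣ x :=
  hp.prime.irreducible.coprime_iff_not_dvd

/-- Every non unit which is prime to `lam` has a primary prime factor. -/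
lemma exists_pp_dvd {x : Eis} (hx : ¬ lam ∣ x) (hu : ¬ IsUnit x) : ∃ p, IsPP p ∧ p ∣ x := by
  have hx0 : x ≠ 0 := fun h => hx (h ▸ dvd_zero _)
  obtain ⟨q, hq, hqx⟩ := WfDvdMonoid.exists_irreducible_factor hu hx0
  have hq' : Prime q := hq.prime
  have hql : ¬ lam ∣ q := fun h => hx (h.trans hqx)
  refine ⟨prim q, ⟨prim_isPrim hql, ?_⟩, ?_⟩
  · exact (prim_associated q).prime_iff.mp hq'
  · exact ((prim_associated q).dvd_iff_dvd_left).mp hqx

/-- Two elements which are not coprime, the first one primary, have a common primary prime. -/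
lemma exists_common_pp {n a : Eis} (hn : IsPrim n) (h : ¬ IsCoprime n a) :
    ∃ p, IsPP p ∧ p ∣ n ∧ p ∣ a := by
  have h3 : ¬ IsUnit (EuclideanDomain.gcd n a) := fun h4 =>
    h (EuclideanDomain.gcd_isUnit_iff.mp h4)
  have h4 : ¬ lam ∣ EuclideanDomain.gcd n a := fun h =>
    hn.not_lam_dvd (h.trans (EuclideanDomain.gcd_dvd_left _ _))
  obtain ⟨p, hp, hpg⟩ := exists_pp_dvd h4 h3
  exact ⟨p, hp, hpg.trans (EuclideanDomain.gcd_dvd_left _ _),
    hpg.trans (EuclideanDomain.gcd_dvd_right _ _)⟩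

lemma isCoprime_iff_pp {n a : Eis} (hn : IsPrim n) :
    IsCoprime n a ↔ ∀ p, IsPP p → p ∣ n → ¬ p ∣ a := by
  constructor
  · intro h p hp h1 h2
    exact hp.prime.not_isUnit (h.isUnit_of_dvd' h1 h2)
  · intro h
    by_contra h1
    obtain ⟨p, hp, hpn, hpa⟩ := exists_common_pp hn h1
    exact h p hp hpn hpa

lemma isPrim_eq_one_of_isUnit {x : Eis} (hx : IsPrim x) (hu : IsUnit x) : x = 1 :=
  hx.eq_of_associated isPrim_one (associated_one_iff_isUnit.mpr hu)

lemma exists_pp_dvd_of_isPrim {x : Eis} (hx : IsPrim x) (h1 : x ≠ 1) : ∃ p, IsPP p ∧ p ∣ x :=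
  exists_pp_dvd hx.not_lam_dvd fun hu => h1 (isPrim_eq_one_of_isUnit hx hu)

open Classical in
/-- The primary primes dividing `a` (for `a ≠ 0`). -/
def pp (a : Eis) : Finset Eis := (primBall (nm a)).filter fun p => Prime p ∧ p ∣ a

open Classical in
lemma mem_pp {a p : Eis} (ha : a ≠ 0) : p ∈ pp a ↔ IsPP p ∧ p ∣ a := by
  unfold pp IsPP
  rw [mem_filter, mem_primBall]
  constructor
  · rintro ⟨⟨_, h2⟩, h3, h4⟩; exact ⟨⟨h2, h3⟩, h4⟩
  · rintro ⟨⟨h2, h3⟩, h4⟩; exact ⟨⟨nm_le_of_dvd ha h4, h2⟩, h3, h4⟩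

open Classical in
lemma isPP_of_mem_pp {a p : Eis} (h : p ∈ pp a) : IsPP p := by
  unfold pp at h
  rw [mem_filter, mem_primBall] at h
  exact ⟨h.1.2, h.2.1⟩

open Classical in
lemma dvd_of_mem_pp {a p : Eis} (h : p ∈ pp a) : p ∣ a := by
  unfold pp at h
  rw [mem_filter] at h
  exact h.2.2

/-! ### Products of sets of primary primes -/

/-- `S` is a finite set of primary primes. -/
def PPSet (S : Finset Eis) : Prop := ∀ p ∈ S, IsPP p

lemma PPSet.subset {S T : Finset Eis} (hT : PPSet T) (h : S ⊆ T) : PPSet S :=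
  fun p hp => hT p (h hp)

lemma ppSet_pp (a : Eis) : PPSet (pp a) := fun _ hp => isPP_of_mem_pp hp

lemma PPSet.isPrim_prod {S : Finset Eis} (hS : PPSet S) : IsPrim (∏ p ∈ S, p) := by
  classical
  induction S using Finset.induction_on with
  | empty => simpa using isPrim_one
  | insert a s ha ih =>
    rw [Finset.prod_insert ha]
    exact (hS a (mem_insert_self _ _)).isPrim.mul (ih (hS.subset (subset_insert _ _)))

lemma PPSet.prod_ne_zero {S : Finset Eis} (hS : PPSet S) : (∏ p ∈ S, p) ≠ 0 :=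
  hS.isPrim_prod.ne_zero

lemma PPSet.pairwise {S : Finset Eis} (hS : PPSet S) :
    (S : Set Eis).Pairwise (fun a b => IsCoprime a b) :=
  fun _ ha _ hb hab => (hS _ ha).isCoprime (hS _ hb) hab

lemma PPSet.prod_dvd {S : Finset Eis} (hS : PPSet S) {z : Eis} :
    (∏ p ∈ S, p) ∣ z ↔ ∀ p ∈ S, p ∣ z := by
  constructor
  · intro h p hp
    exact (Finset.dvd_prod_of_mem (fun x => x) hp).trans h
  · intro h
    exact Finset.prod_dvd_of_coprime (s := fun x => x) hS.pairwise h

lemma PPSet.prod_pow_dvd {S : Finset Eis} (hS : PPSet S) {z : Eis} (k : ℕ) :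
    (∏ p ∈ S, p) ^ k ∣ z ↔ ∀ p ∈ S, p ^ k ∣ z := by
  constructor
  · intro h p hp
    exact (pow_dvd_pow_of_dvd (Finset.dvd_prod_of_mem (fun x => x) hp) k).trans h
  · intro h
    rw [← Finset.prod_pow]
    refine Finset.prod_dvd_of_coprime (s := fun x => x ^ k) ?_ h
    intro a ha b hb hab
    exact (hS.pairwise ha hb hab).pow

lemma PPSet.squarefree_prod {S : Finset Eis} (hS : PPSet S) : Squarefree (∏ p ∈ S, p) := by
  refine Finset.squarefree_prod_of_pairwise_isCoprime (f := fun x => x) ?_ ?_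
  · intro a ha b hb hab
    exact (hS.pairwise ha hb hab).isRelPrime
  · intro p hp
    exact (hS p hp).prime.squarefree

lemma PPSet.dvd_prod {S : Finset Eis} (hS : PPSet S) {q : Eis} (hq : IsPP q) :
    q ∣ (∏ p ∈ S, p) ↔ q ∈ S := by
  constructor
  · intro h
    obtain ⟨p, hp, hqp⟩ := (Prime.dvd_finsetProd_iff hq.prime _).mp h
    rwa [hq.eq_of_dvd (hS p hp) hqp]
  · intro h
    exact Finset.dvd_prod_of_mem (fun x => x) h

lemma PPSet.pp_prod {S : Finset Eis} (hS : PPSet S) : pp (∏ p ∈ S, p) = S := by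
  ext q
  rw [mem_pp hS.prod_ne_zero]
  constructor
  · rintro ⟨h1, h2⟩; exact (hS.dvd_prod h1).mp h2
  · intro h; exact ⟨hS q h, (hS.dvd_prod (hS q h)).mpr h⟩

lemma prod_pp_dvd (n : Eis) : (∏ p ∈ pp n, p) ∣ n :=
  (ppSet_pp n).prod_dvd.mpr fun _ hp => dvd_of_mem_pp hp

/-- A squarefree primary element is the product of its primary prime factors. -/
lemma prod_pp {n : Eis} (hn : IsPrim n) (hs : Squarefree n) : (∏ p ∈ pp n, p) = n := by
  obtain ⟨m, hm⟩ := prod_pp_dvd n
  have hmp : IsPrim m := IsPrim.of_mul_left (hm ▸ hn) (ppSet_pp n).isPrim_prod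
  by_cases h1 : m = 1
  · rw [h1, mul_one] at hm; exact hm.symm
  · exfalso
    obtain ⟨q, hq, hqm⟩ := exists_pp_dvd_of_isPrim hmp h1
    have hqn : q ∣ n := hqm.trans (Dvd.intro_left _ hm.symm)
    have hq1 : q ∣ ∏ p ∈ pp n, p :=
      ((ppSet_pp n).dvd_prod hq).mpr ((mem_pp hn.ne_zero).mpr ⟨hq, hqn⟩)
    have : q * q ∣ n := by rw [hm]; exact mul_dvd_mul hq1 hqm
    exact hq.prime.not_isUnit (hs q this)

lemma pp_one : pp 1 = ∅ := by
  ext q
  rw [mem_pp one_ne_zero]
  simp only [notMem_empty, iff_false, not_and]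
  intro hq h
  exact hq.prime.not_isUnit (isUnit_of_dvd_one h)

lemma pp_eq_empty_iff {n : Eis} (hn : IsPrim n) : pp n = ∅ ↔ n = 1 := by
  constructor
  · intro h
    by_contra h1
    obtain ⟨p, hp, hpn⟩ := exists_pp_dvd_of_isPrim hn h1
    have : p ∈ pp n := (mem_pp hn.ne_zero).mpr ⟨hp, hpn⟩
    rw [h] at this
    simp at this
  · rintro rfl; exact pp_one

lemma pp_prime {p : Eis} (hp : IsPP p) : pp p = {p} := by
  ext q
  rw [mem_pp hp.ne_zero, mem_singleton]
  constructor
  · rintro ⟨hq, h⟩; exact hq.eq_of_dvd hp h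
  · rintro rfl; exact ⟨hp, dvd_rfl⟩

open Classical in
lemma pp_mul {a b : Eis} (ha : a ≠ 0) (hb : b ≠ 0) : pp (a * b) = pp a ∪ pp b := by
  ext q
  rw [mem_pp (mul_ne_zero ha hb), mem_union, mem_pp ha, mem_pp hb]
  constructor
  · rintro ⟨hq, h⟩
    rcases hq.prime.dvd_or_dvd h with h | h
    · exact Or.inl ⟨hq, h⟩
    · exact Or.inr ⟨hq, h⟩
  · rintro (⟨hq, h⟩ | ⟨hq, h⟩)
    · exact ⟨hq, h.mul_right _⟩
    · exact ⟨hq, h.mul_left _⟩

lemma pp_pow {a : Eis} (ha : a ≠ 0) {k : ℕ} (hk : k ≠ 0) : pp (a ^ k) = pp a := by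
  ext q
  rw [mem_pp (pow_ne_zero _ ha), mem_pp ha]
  constructor
  · rintro ⟨hq, h⟩; exact ⟨hq, hq.prime.dvd_of_dvd_pow h⟩
  · rintro ⟨hq, h⟩; exact ⟨hq, h.trans (dvd_pow_self _ hk)⟩

lemma pp_disjoint {a b : Eis} (h : IsCoprime a b) : Disjoint (pp a) (pp b) := by
  rw [Finset.disjoint_left]
  intro p hpa hpb
  have hp := isPP_of_mem_pp hpa
  exact hp.prime.not_isUnit (h.isUnit_of_dvd' (dvd_of_mem_pp hpa) (dvd_of_mem_pp hpb))

lemma pp_mono {a b : Eis} (hb : b ≠ 0) (h : a ∣ b) : pp a ⊆ pp b := by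
  intro p hp
  exact (mem_pp hb).mpr ⟨isPP_of_mem_pp hp, (dvd_of_mem_pp hp).trans h⟩

/-! ### The Moebius function -/

/-- The number of prime factors of a squarefree primary element. -/
lemma card_factors_eq {n : Eis} (hn : IsPrim n) (hs : Squarefree n) :
    Multiset.card (UniqueFactorizationMonoid.factors n) = (pp n).card := by
  have h1 : Multiset.Rel Associated (UniqueFactorizationMonoid.factors n) (pp n).val := by
    refine UniqueFactorizationMonoid.factors_unique
      (fun x hx => UniqueFactorizationMonoid.irreducible_of_factor x hx)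
      (fun x hx => (isPP_of_mem_pp (Finset.mem_def.mpr hx)).prime.irreducible) ?_
    have h2 : (pp n).val.prod = n := by
      have := prod_pp hn hs
      rwa [Finset.prod_eq_multiset_prod, Multiset.map_id'] at this
    rw [h2]
    exact UniqueFactorizationMonoid.factors_prod hn.ne_zero
  exact Multiset.card_eq_card_of_rel h1

lemma muE_eq {n : Eis} (hn : IsPrim n) (hs : Squarefree n) : muE n = (-1) ^ (pp n).card := by
  rw [muE_of_squarefree hs, card_factors_eq hn hs]

@[simp] lemma muE_one : muE 1 = 1 := by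
  rw [muE_eq isPrim_one squarefree_one, pp_one]; simp

lemma muE_prime {p : Eis} (hp : Prime p) : muE p = -1 := by
  rw [muE_of_squarefree hp.squarefree]
  have h1 : Multiset.Rel Associated (UniqueFactorizationMonoid.factors p) {p} := by
    refine UniqueFactorizationMonoid.factors_unique
      (fun x hx => UniqueFactorizationMonoid.irreducible_of_factor x hx)
      (fun x hx => by rw [Multiset.mem_singleton] at hx; exact hx ▸ hp.irreducible) ?_
    rw [Multiset.prod_singleton]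
    exact UniqueFactorizationMonoid.factors_prod hp.ne_zero
  rw [Multiset.card_eq_card_of_rel h1]; simp

lemma abs_muE_of_squarefree {n : Eis} (h : Squarefree n) : |muE n| = 1 := by
  rw [muE_of_squarefree h]; simp [abs_pow]

open Classical in
lemma muE_sq (n : Eis) : muE n ^ 2 = if Squarefree n then 1 else 0 := by
  unfold muE
  split_ifs
  · rw [← pow_mul, mul_comm, pow_mul]; simp
  · simp

open Classical in
lemma abs_muE (n : Eis) : |muE n| = if Squarefree n then 1 else 0 := by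
  split_ifs with h
  · exact abs_muE_of_squarefree h
  · rw [muE_of_not_squarefree h, abs_zero]

lemma PPSet.muE_prod {S : Finset Eis} (hS : PPSet S) : muE (∏ p ∈ S, p) = (-1) ^ S.card := by
  rw [muE_eq hS.isPrim_prod hS.squarefree_prod, hS.pp_prod]

/-- `muE` is multiplicative on coprime elements. -/
lemma muE_mul {a b : Eis} (ha : a ≠ 0) (hb : b ≠ 0) (h : IsCoprime a b) :
    muE (a * b) = muE a * muE b := by
  classical
  by_cases hs : Squarefree (a * b)
  · have h1 := (squarefree_mul_iff.mp hs)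
    rw [muE_of_squarefree hs, muE_of_squarefree h1.2.1, muE_of_squarefree h1.2.2,
      Multiset.card_eq_card_of_rel (UniqueFactorizationMonoid.factors_mul ha hb),
      Multiset.card_add, pow_add]
  · rw [muE_of_not_squarefree hs]
    by_cases h2 : Squarefree a
    · by_cases h3 : Squarefree b
      · exact absurd (squarefree_mul_iff.mpr ⟨h.isRelPrime, h2, h3⟩) hs
      · rw [muE_of_not_squarefree h3, mul_zero]
    · rw [muE_of_not_squarefree h2, zero_mul]

/-- Products which are not coprime have Moebius function zero. -/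
lemma muE_mul_of_not_coprime {a b : Eis} (h : ¬ IsCoprime a b) : muE (a * b) = 0 := by
  apply muE_of_not_squarefree
  intro hs
  exact h (squarefree_mul_iff.mp hs).1.isCoprime

/-! ### Divisor sums as sums over subsets -/

/-- A sum over a set `D` of primary elements, containing the squarefree ones among the products of
subsets of `P`, weighted by `muE`, is a sum over subsets of `P`. -/
lemma sum_muE_eq_sum_powerset {R : Type*} [CommRing R] (D P : Finset Eis) (hP : PPSet P)
    (hD : ∀ d ∈ D, IsPrim d) (h1 : ∀ d ∈ D, Squarefree d → pp d ⊆ P)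
    (h2 : ∀ S ⊆ P, (∏ p ∈ S, p) ∈ D) (F : Eis → R) :
    ∑ d ∈ D, (muE d : R) * F d = ∑ S ∈ P.powerset, (-1) ^ S.card * F (∏ p ∈ S, p) := by
  classical
  rw [← Finset.sum_filter_add_sum_filter_not D Squarefree]
  have h0 : ∑ d ∈ D with ¬ Squarefree d, (muE d : R) * F d = 0 := by
    apply Finset.sum_eq_zero
    intro d hd
    rw [muE_of_not_squarefree (mem_filter.mp hd).2]; simp
  rw [h0, add_zero]
  refine Finset.sum_nbij' (fun d => pp d) (fun S => ∏ p ∈ S, p) ?_ ?_ ?_ ?_ ?_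
  · intro d hd
    rw [mem_filter] at hd
    exact mem_powerset.mpr (h1 d hd.1 hd.2)
  · intro S hS
    rw [mem_powerset] at hS
    exact mem_filter.mpr ⟨h2 S hS, (hP.subset hS).squarefree_prod⟩
  · intro d hd
    rw [mem_filter] at hd
    exact prod_pp (hD d hd.1) hd.2
  · intro S hS
    rw [mem_powerset] at hS
    exact (hP.subset hS).pp_prod
  · intro d hd
    rw [mem_filter] at hd
    rw [prod_pp (hD d hd.1) hd.2, muE_eq (hD d hd.1) hd.2]
    push_cast
    rfl

/-- Sum over the primary divisors of `a`. -/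
lemma sum_dvs_muE {R : Type*} [CommRing R] {a : Eis} (ha : a ≠ 0) (F : Eis → R) :
    ∑ d ∈ dvs a, (muE d : R) * F d = ∑ S ∈ (pp a).powerset, (-1) ^ S.card * F (∏ p ∈ S, p) := by
  refine sum_muE_eq_sum_powerset _ _ (ppSet_pp a) (fun d hd => ((mem_dvs ha).mp hd).1) ?_ ?_ F
  · intro d hd _
    exact pp_mono ha ((mem_dvs ha).mp hd).2
  · intro S hS
    rw [mem_dvs ha]
    exact ⟨((ppSet_pp a).subset hS).isPrim_prod,
      ((ppSet_pp a).subset hS).prod_dvd.mpr fun p hp => dvd_of_mem_pp (hS hp)⟩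

/-- `∑_{d ∣ a} μ(d) f(d) = ∏_{p ∣ a} (1 - f p)` for `f` multiplicative on products of distinct
primary primes. -/
lemma sum_dvs_muE_mul {R : Type*} [CommRing R] {a : Eis} (ha : a ≠ 0) (F : Eis → R)
    (hF : ∀ S : Finset Eis, PPSet S → F (∏ p ∈ S, p) = ∏ p ∈ S, F p) :
    ∑ d ∈ dvs a, (muE d : R) * F d = ∏ p ∈ pp a, (1 - F p) := by
  rw [sum_dvs_muE ha F]
  have : ∀ p : Eis, (1 - F p) = 1 + (-1) * F p := fun p => by ring
  simp_rw [this]
  rw [Finset.prod_one_add]
  refine Finset.sum_congr rfl fun S hS => ?_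
  rw [mem_powerset] at hS
  rw [hF S ((ppSet_pp a).subset hS), Finset.prod_mul_distrib, Finset.prod_const]

open Classical in
/-- The coprimality indicator. -/
lemma sum_muE_coprime {n a : Eis} (hn : IsPrim n) (ha : a ≠ 0) :
    ∑ d ∈ dvs a, (if d ∣ n then muE d else 0) = if IsCoprime n a then 1 else 0 := by
  have h := sum_dvs_muE ha (fun d => if d ∣ n then (1 : ℤ) else 0)
  have e1 : ∑ d ∈ dvs a, (if d ∣ n then muE d else 0)
      = ∑ d ∈ dvs a, ((muE d : ℤ) : ℤ) * (if d ∣ n then (1 : ℤ) else 0) := by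
    refine Finset.sum_congr rfl fun d _ => ?_
    split_ifs <;> simp
  rw [e1]
  simp only [Int.cast_id] at h ⊢
  rw [h]
  have e2 : ∑ S ∈ (pp a).powerset, (-1 : ℤ) ^ S.card * (if (∏ p ∈ S, p) ∣ n then (1 : ℤ) else 0)
      = ∑ S ∈ ((pp a).filter (fun p => p ∣ n)).powerset, (-1 : ℤ) ^ S.card := by
    rw [← Finset.sum_filter_add_sum_filter_not (pp a).powerset (fun S => (∏ p ∈ S, p) ∣ n)]
    have e3 : ∑ S ∈ (pp a).powerset with ¬ (∏ p ∈ S, p) ∣ n,
        (-1 : ℤ) ^ S.card * (if (∏ p ∈ S, p) ∣ n then (1 : ℤ) else 0) = 0 := by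
      apply Finset.sum_eq_zero
      intro S hS
      rw [if_neg (mem_filter.mp hS).2, mul_zero]
    rw [e3, add_zero]
    refine Finset.sum_congr ?_ fun S hS => ?_
    · ext S
      rw [mem_filter, mem_powerset, mem_powerset]
      constructor
      · rintro ⟨h1, h2⟩ p hp
        exact mem_filter.mpr ⟨h1 hp, ((ppSet_pp a).subset h1).prod_dvd.mp h2 p hp⟩
      · intro h1
        have h2 : S ⊆ pp a := fun p hp => (mem_filter.mp (h1 hp)).1
        exact ⟨h2, ((ppSet_pp a).subset h2).prod_dvd.mpr fun p hp => (mem_filter.mp (h1 hp)).2⟩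
    · rw [mem_powerset] at hS
      have h2 : S ⊆ pp a := fun p hp => (mem_filter.mp (hS hp)).1
      rw [if_pos, mul_one]
      exact ((ppSet_pp a).subset h2).prod_dvd.mpr fun p hp => (mem_filter.mp (hS hp)).2
  rw [e2, Finset.sum_powerset_neg_one_pow_card]
  congr 1
  apply propext
  rw [Finset.filter_eq_empty_iff]
  constructor
  · intro h1
    by_contra h2
    -- a common prime
    obtain ⟨p, hp, hpn, hpa⟩ := exists_common_pp hn h2
    exact h1 ((mem_pp ha).mpr ⟨hp, hpa⟩) hpn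
  · intro h1 p hp hpn
    exact (isPP_of_mem_pp hp).prime.not_isUnit (h1.isUnit_of_dvd' hpn (dvd_of_mem_pp hp))

/-- `∑_{d ∣ n} μ(d) = [n = 1]` for primary `n`. -/
lemma sum_dvs_muE_one {n : Eis} (hn : IsPrim n) :
    ∑ d ∈ dvs n, muE d = if n = 1 then 1 else 0 := by
  classical
  have h := sum_dvs_muE (R := ℤ) hn.ne_zero (fun _ => 1)
  simp only [Int.cast_id, mul_one] at h
  rw [h, Finset.sum_powerset_neg_one_pow_card]
  congr 1
  exact propext (pp_eq_empty_iff hn)

lemma squarefree_iff_pp {n : Eis} (hn : IsPrim n) :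
    Squarefree n ↔ ∀ p, IsPP p → ¬ p ^ 2 ∣ n := by
  constructor
  · intro h p hp h2
    rw [pow_two] at h2
    exact hp.prime.not_isUnit (h p h2)
  · intro h x hx
    by_contra hu
    have hl : ¬ lam ∣ x := fun h' => hn.not_lam_dvd (h'.trans ((Dvd.intro _ rfl).trans hx))
    obtain ⟨p, hp, hpx⟩ := exists_pp_dvd hl hu
    refine h p hp ?_
    rw [pow_two]
    exact (mul_dvd_mul hpx hpx).trans hx

open Classical in
/-- The squarefree indicator: `∑_{d² ∣ n} μ(d) = μ²(n)`. -/
lemma sum_muE_sq {n : Eis} (hn : IsPrim n) :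
    ∑ d ∈ dvs n, (if d ^ 2 ∣ n then muE d else 0) = if Squarefree n then 1 else 0 := by
  have hP : PPSet ((pp n).filter (fun p => p ^ 2 ∣ n)) :=
    (ppSet_pp n).subset (Finset.filter_subset _ _)
  have h := sum_muE_eq_sum_powerset (R := ℤ) ((dvs n).filter (fun d => d ^ 2 ∣ n))
    ((pp n).filter (fun p => p ^ 2 ∣ n)) hP
    (fun d hd => isPrim_of_mem_dvs (mem_filter.mp hd).1) ?_ ?_ (fun _ => 1)
  · rw [← Finset.sum_filter]
    simp only [Int.cast_id, mul_one] at h
    rw [h, Finset.sum_powerset_neg_one_pow_card]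
    congr 1
    apply propext
    rw [Finset.filter_eq_empty_iff, squarefree_iff_pp hn]
    constructor
    · intro h1 p hp h2
      exact h1 ((mem_pp hn.ne_zero).mpr ⟨hp, (dvd_pow_self p two_ne_zero).trans h2⟩) h2
    · intro h1 p hp
      exact h1 p (isPP_of_mem_pp hp)
  · intro d hd _ p hp
    rw [mem_filter] at hd
    rw [mem_filter]
    have h1 : p ^ 2 ∣ n := (pow_dvd_pow_of_dvd (dvd_of_mem_pp hp) 2).trans hd.2
    exact ⟨(mem_pp hn.ne_zero).mpr ⟨isPP_of_mem_pp hp, (dvd_pow_self p two_ne_zero).trans h1⟩, h1⟩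
  · intro S hS
    rw [mem_filter, mem_dvs hn.ne_zero]
    have h1 : (∏ p ∈ S, p) ^ 2 ∣ n :=
      ((hP.subset hS).prod_pow_dvd 2).mpr fun p hp => (mem_filter.mp (hS hp)).2
    exact ⟨⟨(hP.subset hS).isPrim_prod, (dvd_pow_self _ two_ne_zero).trans h1⟩, h1⟩

lemma nm_prod (S : Finset Eis) : nm (∏ p ∈ S, p) = ∏ p ∈ S, nm p := by
  classical
  induction S using Finset.induction_on with
  | empty => simp
  | insert a s ha ih => rw [Finset.prod_insert ha, Finset.prod_insert ha, nm_mul, ih]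

/-! ### Local factors -/

/-- `P a = ∏_{p ∣ a} (1 - 1 / N p)`. -/
def PE (a : Eis) : ℝ := ∏ p ∈ pp a, (1 - 1 / (nm p : ℝ))

/-- `sig a = ∏_{p ∣ a} (1 + 1 / √(N p))`. -/
def sig (a : Eis) : ℝ := ∏ p ∈ pp a, (1 + 1 / Real.sqrt (nm p))

lemma PE_pos (a : Eis) : 0 < PE a := by
  refine Finset.prod_pos fun p hp => ?_
  have h1 := (isPP_of_mem_pp hp).one_lt_nm
  have h2 : (1 : ℝ) < nm p := by exact_mod_cast h1
  rw [sub_pos, div_lt_one (by linarith)]
  exact h2

lemma PE_le_one (a : Eis) : PE a ≤ 1 := by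
  refine Finset.prod_le_one (fun p hp => ?_) (fun p hp => ?_)
  · have h1 := (isPP_of_mem_pp hp).one_lt_nm
    have h2 : (1 : ℝ) < nm p := by exact_mod_cast h1
    rw [sub_nonneg, div_le_one (by linarith)]
    exact h2.le
  · have : (0 : ℝ) ≤ 1 / nm p := by positivity
    linarith

lemma one_le_sig (a : Eis) : 1 ≤ sig a := by
  unfold sig
  refine Finset.prod_induction _ (fun x => (1 : ℝ) ≤ x) (fun x y hx hy => ?_) le_rfl ?_
  · nlinarith
  · intro p _
    have : (0 : ℝ) ≤ 1 / Real.sqrt (nm p) := by positivity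
    linarith

lemma sig_pos (a : Eis) : 0 < sig a := lt_of_lt_of_le one_pos (one_le_sig a)

/-- `∏_{p ∣ a} (1 - 1 / N p) = ∑_{d ∣ a} μ(d) / N d`. -/
lemma PE_eq_sum {a : Eis} (ha : a ≠ 0) : PE a = ∑ d ∈ dvs a, (muE d : ℝ) * (1 / (nm d : ℝ)) := by
  rw [sum_dvs_muE_mul ha (fun d => 1 / (nm d : ℝ))]
  · rfl
  · intro S _
    simp only [nm_prod, Nat.cast_prod, one_div, Finset.prod_inv_distrib]

lemma sum_abs_muE_mul {a : Eis} (ha : a ≠ 0) (F : Eis → ℝ)
    (hF : ∀ S : Finset Eis, PPSet S → F (∏ p ∈ S, p) = ∏ p ∈ S, F p) :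
    ∑ d ∈ dvs a, |(muE d : ℝ)| * F d = ∏ p ∈ pp a, (1 + F p) := by
  classical
  have h := sum_dvs_muE_mul (R := ℝ) ha (fun d => (muE d : ℝ) * F d) ?_
  · have e1 : ∀ p ∈ pp a, (1 + F p) = 1 - (muE p : ℝ) * F p := by
      intro p hp
      rw [muE_prime (isPP_of_mem_pp hp).prime]; push_cast; ring
    rw [Finset.prod_congr rfl e1, ← h]
    refine Finset.sum_congr rfl fun d _ => ?_
    have e2 : |(muE d : ℝ)| = (muE d : ℝ) * (muE d : ℝ) := by
      have h1 := abs_muE d
      have h2 := muE_sq d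
      have h3 : |muE d| = muE d * muE d := by rw [h1, ← h2]; ring
      have h4 : ((|muE d| : ℤ) : ℝ) = ((muE d * muE d : ℤ) : ℝ) := by rw [h3]
      simpa using h4
    rw [e2]; ring
  · intro S hS
    rw [hF S hS, hS.muE_prod, Finset.prod_mul_distrib]
    congr 1
    have e3 : ∀ p ∈ S, (muE p : ℝ) = -1 := by
      intro p hp
      rw [muE_prime (hS p hp).prime]; simp
    rw [Finset.prod_congr rfl e3, Finset.prod_const]
    push_cast; rfl

/-- `∏_{p ∣ a} (1 + 1 / √(N p)) = ∑_{d ∣ a} |μ(d)| / √(N d)`. -/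
lemma sig_eq_sum {a : Eis} (ha : a ≠ 0) :
    sig a = ∑ d ∈ dvs a, |(muE d : ℝ)| * (1 / Real.sqrt (nm d)) := by
  rw [sum_abs_muE_mul ha (fun d => 1 / Real.sqrt (nm d))]
  · rfl
  · intro S _
    simp only [nm_prod, Nat.cast_prod, one_div, Finset.prod_inv_distrib]
    congr 1
    rw [Real.sqrt_prod]
    intro p _
    positivity

/-- `sig a ≤ τ(a)`. -/
lemma sig_le_tau {a : Eis} (ha : a ≠ 0) : sig a ≤ tau a := by
  rw [sig_eq_sum ha, tau, Finset.card_eq_sum_ones]
  push_cast
  refine Finset.sum_le_sum fun d hd => ?_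
  have h1 : (1 : ℝ) ≤ nm d := by
    have : 0 < nm d := nm_pos.mpr (isPrim_of_mem_dvs hd).ne_zero
    exact_mod_cast this
  have h2 : 1 / Real.sqrt (nm d) ≤ 1 := by
    rw [div_le_one (by positivity)]
    rw [show (1 : ℝ) = Real.sqrt 1 by simp]
    exact Real.sqrt_le_sqrt h1
  have h3 := abs_muE_le_real d
  have h4 : 0 ≤ 1 / Real.sqrt (nm d) := by positivity
  calc |(muE d : ℝ)| * (1 / Real.sqrt (nm d)) ≤ 1 * 1 := mul_le_mul h3 h2 h4 (by norm_num)
    _ = 1 := by norm_num

/-! ### Compatibility with the names of the first version of this file -/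

/-- The Moebius function (same as `muE`). -/
abbrev mu (n : Eis) : ℤ := muE n

/-- The primary divisors (same as `dvs`). -/
abbrev pdiv (a : Eis) : Finset Eis := dvs a

lemma mem_pdiv {a d : Eis} (ha : a ≠ 0) : d ∈ pdiv a ↔ IsPrim d ∧ d ∣ a := mem_dvs ha




lemma abs_mu_le_one (n : Eis) : |mu n| ≤ 1 := abs_muE_le n





lemma sum_pdiv_mu {R : Type*} [CommRing R] {a : Eis} (ha : a ≠ 0) (F : Eis → R) :
    ∑ d ∈ pdiv a, (mu d : R) * F d = ∑ S ∈ (pp a).powerset, (-1) ^ S.card * F (∏ p ∈ S, p) :=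
  sum_dvs_muE ha F

lemma sum_pdiv_mu_mul {R : Type*} [CommRing R] {a : Eis} (ha : a ≠ 0) (F : Eis → R)
    (hF : ∀ S : Finset Eis, PPSet S → F (∏ p ∈ S, p) = ∏ p ∈ S, F p) :
    ∑ d ∈ pdiv a, (mu d : R) * F d = ∏ p ∈ pp a, (1 - F p) :=
  sum_dvs_muE_mul ha F hF

open Classical in
lemma sum_mu_coprime {n a : Eis} (hn : IsPrim n) (ha : a ≠ 0) :
    ∑ d ∈ pdiv a, (if d ∣ n then mu d else 0) = if IsCoprime n a then 1 else 0 :=
  sum_muE_coprime hn ha

end Crest.Agent.R012.Mob705
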