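import Crest.Agent.R012.PSpec_355

/-!
# Row 12, part (P): lattice counting in `ℤ[ω]` (helper355)
-/

set_option autoImplicit false

noncomputable section

open Complex

namespace Crest.Agent.R012.P355

open Crest.Agent.R012 Eis

/-! ### sector decomposition and annulus counting -/

/-- the six units -/
def units6 : Finset Eis := {1, w, w ^ 2, -1, -w, -w ^ 2}

lemma units6_card : units6.card ≤ 6 := by
  unfold units6
  exact Finset.card_le_six

lemma nm_of_mem_units6 {u : Eis} (hu : u ∈ units6) : nm u = 1 := by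
  unfold units6 at hu
  simp only [Finset.mem_insert, Finset.mem_singleton] at hu
  rcases hu with h | h | h | h | h | h <;> subst h <;> simp [nm_pow]

/-- every element has an associate in the sector `0 ≤ im ≤ re`. -/
lemma exists_sector (z : Eis) : ∃ u ∈ units6, 0 ≤ (u * z).im ∧ (u * z).im ≤ (u * z).re := by
  have e1 : (w * z).re = -z.im := by simp
  have e2 : (w * z).im = z.re - z.im := by simp; ring
  have e3 : (w ^ 2 * z).re = -z.re + z.im := by rw [w_sq]; simp
  have e4 : (w ^ 2 * z).im = -z.re := by rw [w_sq]; simp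
  have e5 : (-1 * z).re = -z.re := by simp
  have e6 : (-1 * z).im = -z.im := by simp
  have e7 : (-w * z).re = z.im := by simp
  have e8 : (-w * z).im = z.im - z.re := by simp; ring
  have e9 : (-w ^ 2 * z).re = z.re - z.im := by rw [neg_mul]; simp [e3]; ring
  have e10 : (-w ^ 2 * z).im = z.re := by rw [neg_mul]; simp [e4]
  have m1 : (1 : Eis) ∈ units6 := by simp [units6]
  have m2 : (w : Eis) ∈ units6 := by simp [units6]
  have m3 : (w ^ 2 : Eis) ∈ units6 := by simp [units6]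
  have m4 : (-1 : Eis) ∈ units6 := by simp [units6]
  have m5 : (-w : Eis) ∈ units6 := by simp [units6]
  have m6 : (-w ^ 2 : Eis) ∈ units6 := by simp [units6]
  rcases le_total 0 z.im with h1 | h1 <;> rcases le_total 0 z.re with h2 | h2
  · rcases le_total z.im z.re with h3 | h3
    · exact ⟨1, m1, by simpa using h1, by simpa using h3⟩
    · exact ⟨-w, m5, by rw [e8]; omega, by rw [e7, e8]; omega⟩
  · exact ⟨w ^ 2, m3, by rw [e4]; omega, by rw [e3, e4]; omega⟩
  · exact ⟨-w ^ 2, m6, by rw [e10]; omega, by rw [e9, e10]; omega⟩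
  · rcases le_total z.im z.re with h3 | h3
    · exact ⟨w, m2, by rw [e2]; omega, by rw [e1, e2]; omega⟩
    · exact ⟨-1, m4, by rw [e6]; omega, by rw [e5, e6]; omega⟩

lemma nm_real (z : Eis) : ((nm z : ℕ) : ℝ) = (z.re : ℝ) ^ 2 - z.re * z.im + z.im ^ 2 := by
  have h : ((nm z : ℕ) : ℝ) = ((nm z : ℤ) : ℝ) := by norm_cast
  rw [h, nm_cast]; push_cast; ring

lemma norm_sq_real (z : Eis) : ‖toC z‖ ^ 2 = (z.re : ℝ) ^ 2 - z.re * z.im + z.im ^ 2 := by
  rw [norm_toC_sq, nm_real]

lemma abs_im_le (z : Eis) : |(z.im : ℝ)| ≤ 2 * ‖toC z‖ := by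
  have h := norm_sq_real z
  apply abs_le_of_sq_le_sq _ (by positivity)
  nlinarith [sq_nonneg ((z.re : ℝ) - z.im / 2), norm_nonneg (toC z)]

lemma abs_re_le (z : Eis) : |(z.re : ℝ)| ≤ 2 * ‖toC z‖ := by
  have h := norm_sq_real z
  apply abs_le_of_sq_le_sq _ (by positivity)
  nlinarith [sq_nonneg ((z.im : ℝ) - z.re / 2), norm_nonneg (toC z)]

lemma sector_count {R c : ℝ} (hR : 0 ≤ R) (hc : 0 ≤ c) (B : Finset Eis)
    (hs : ∀ z ∈ B, 0 ≤ z.im ∧ z.im ≤ z.re)
    (hB : ∀ z ∈ B, R - c ≤ ‖toC z‖ ∧ ‖toC z‖ ≤ R + c) :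
    (B.card : ℝ) ≤ (4 * c + 1) * (2 * (R + c) + 1) := by
  classical
  have h1 : B.card ≤ (⌊4 * c⌋₊ + 1) * (Finset.image (fun z : Eis => z.im) B).card := by
    apply Finset.card_le_mul_card_image
    intro b _
    by_cases hne : (B.filter (fun z => z.im = b)).Nonempty
    · obtain ⟨z0, hz0, hmin⟩ := Finset.exists_min_image _ (fun z : Eis => z.re) hne
      rw [Finset.mem_filter] at hz0
      have hsub : (B.filter (fun z => z.im = b)).image (fun z : Eis => z.re) ⊆
          Finset.Icc z0.re (z0.re + ⌊4 * c⌋₊) := by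
        intro a ha
        rw [Finset.mem_image] at ha
        obtain ⟨z, hz, rfl⟩ := ha
        have hm := hmin z hz
        rw [Finset.mem_filter] at hz
        rw [Finset.mem_Icc]
        refine ⟨hm, ?_⟩
        have hle : (z.re : ℝ) - z0.re ≤ 4 * c := by
          have q1 := norm_sq_real z
          have q0 := norm_sq_real z0
          have him : (z.im : ℝ) = z0.im := by exact_mod_cast (hz.2.trans hz0.2.symm)
          have hm' : (z0.re : ℝ) ≤ z.re := by exact_mod_cast hm
          obtain ⟨s1, s2⟩ := hs z hz.1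
          obtain ⟨s3, s4⟩ := hs z0 hz0.1
          have s1' : (0 : ℝ) ≤ z.im := by exact_mod_cast s1
          have s2' : (z.im : ℝ) ≤ z.re := by exact_mod_cast s2
          have s4' : (z0.im : ℝ) ≤ z0.re := by exact_mod_cast s4
          obtain ⟨b1, b2⟩ := hB z hz.1
          obtain ⟨b3, b4⟩ := hB z0 hz0.1
          have n1 := norm_nonneg (toC z)
          have n0 := norm_nonneg (toC z0)
          have hzle : ‖toC z‖ ≤ z.re := by
            apply le_of_sq_le_sq _ (by linarith)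
            nlinarith
          have hz0le : ‖toC z0‖ ≤ ‖toC z‖ := by
            apply le_of_sq_le_sq _ n1
            rw [q1, q0, him]
            nlinarith
          rcases eq_or_lt_of_le n1 with h0 | h0
          · have : (z.re : ℝ) = z0.re := by
              have hz0' : ‖toC z0‖ = 0 := by linarith
              have t1 : toC z = 0 := norm_eq_zero.mp h0.symm
              have t2 : toC z0 = 0 := norm_eq_zero.mp hz0'
              rw [toC_eq_zero] at t1 t2
              rw [t1, t2]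
            rw [this]; linarith
          · -- (re - re0) * |z| ≤ nm z - nm z0 ≤ 2c * 2|z|
            have k1 : ((z.re : ℝ) - z0.re) * ‖toC z‖ ≤ ‖toC z‖ ^ 2 - ‖toC z0‖ ^ 2 := by
              rw [q1, q0, him]
              have : (z.re : ℝ) ^ 2 - z.re * z0.im + z0.im ^ 2 -
                  ((z0.re : ℝ) ^ 2 - z0.re * z0.im + z0.im ^ 2) =
                  ((z.re : ℝ) - z0.re) * (z.re + z0.re - z0.im) := by ring
              rw [this]
              apply mul_le_mul_of_nonneg_left _ (by linarith)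
              linarith
            have k2 : ‖toC z‖ ^ 2 - ‖toC z0‖ ^ 2 ≤ (2 * c) * (2 * ‖toC z‖) := by
              have : ‖toC z‖ ^ 2 - ‖toC z0‖ ^ 2 = (‖toC z‖ - ‖toC z0‖) * (‖toC z‖ + ‖toC z0‖) := by
                ring
              rw [this]
              apply mul_le_mul _ _ (by linarith) (by linarith)
              · linarith
              · linarith
            have k3 : ((z.re : ℝ) - z0.re) * ‖toC z‖ ≤ (4 * c) * ‖toC z‖ := by linarith
            exact le_of_mul_le_mul_right k3 h0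
        have : (z.re : ℤ) - z0.re ≤ ⌊4 * c⌋₊ := by
          have h5 : ((z.re - z0.re).toNat : ℝ) ≤ 4 * c := by
            have h6 : ((z.re - z0.re).toNat : ℤ) = z.re - z0.re := Int.toNat_of_nonneg (by omega)
            have h7 : ((z.re - z0.re).toNat : ℝ) = ((z.re - z0.re : ℤ) : ℝ) := by
              exact_mod_cast congrArg (fun t : ℤ => (t : ℝ)) h6
            rw [h7]; push_cast; exact hle
          have h8 := Nat.le_floor h5
          omega
        omega
      have hinj : Set.InjOn (fun z : Eis => z.re) (B.filter (fun z => z.im = b)) := by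
        intro z1 h1 z2 h2 h
        rw [Finset.mem_coe, Finset.mem_filter] at h1 h2
        exact Eis.ext' h (h1.2.trans h2.2.symm)
      have hc1 := Finset.card_le_card hsub
      rw [Finset.card_image_of_injOn hinj, Int.card_Icc] at hc1
      omega
    · rw [Finset.not_nonempty_iff_eq_empty] at hne
      rw [hne]; simp
  have h2 : Finset.image (fun z : Eis => z.im) B ⊆ Finset.Icc 0 (⌊2 * (R + c)⌋₊ : ℤ) := by
    intro b hb
    rw [Finset.mem_image] at hb
    obtain ⟨z, hz, rfl⟩ := hb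
    rw [Finset.mem_Icc]
    refine ⟨(hs z hz).1, ?_⟩
    have h3 : ((z.im).toNat : ℝ) ≤ 2 * (R + c) := by
      have h6 : ((z.im).toNat : ℤ) = z.im := Int.toNat_of_nonneg (hs z hz).1
      have h7 : ((z.im).toNat : ℝ) = ((z.im : ℤ) : ℝ) := by
        exact_mod_cast congrArg (fun t : ℤ => (t : ℝ)) h6
      rw [h7]
      have := (abs_le.mp (abs_im_le z)).2
      linarith [(hB z hz).2]
    have h8 := Nat.le_floor h3
    have := (hs z hz).1
    omega
  have h3 := Finset.card_le_card h2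
  rw [Int.card_Icc] at h3
  have h4 : (Finset.image (fun z : Eis => z.im) B).card ≤ ⌊2 * (R + c)⌋₊ + 1 := by omega
  have h5 : (B.card : ℝ) ≤ (⌊4 * c⌋₊ + 1) * (⌊2 * (R + c)⌋₊ + 1) := by
    exact_mod_cast h1.trans (Nat.mul_le_mul_left _ h4)
  refine h5.trans ?_
  have f1 := Nat.floor_le (show 0 ≤ 4 * c by linarith)
  have f2 := Nat.floor_le (show 0 ≤ 2 * (R + c) by linarith)
  gcongr

/-- annulus counting -/
lemma annulus_count {R c : ℝ} (hR : 0 ≤ R) (hc : 0 ≤ c) (A : Finset Eis)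
    (hA : ∀ z ∈ A, R - c ≤ ‖toC z‖ ∧ ‖toC z‖ ≤ R + c) :
    (A.card : ℝ) ≤ 6 * ((4 * c + 1) * (2 * (R + c) + 1)) := by
  classical
  -- A ⊆ ⋃_{u} preimages
  have hcov : A ⊆ units6.biUnion (fun u => A.filter (fun z => 0 ≤ (u * z).im ∧ (u * z).im ≤ (u * z).re)) := by
    intro z hz
    obtain ⟨u, hu, h⟩ := exists_sector z
    rw [Finset.mem_biUnion]
    exact ⟨u, hu, Finset.mem_filter.mpr ⟨hz, h⟩⟩
  have h1 : (A.card : ℝ) ≤ ∑ u ∈ units6,
      ((A.filter (fun z => 0 ≤ (u * z).im ∧ (u * z).im ≤ (u * z).re)).card : ℝ) := by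
    exact_mod_cast (Finset.card_le_card hcov).trans Finset.card_biUnion_le
  have h2 : ∀ u ∈ units6, ((A.filter (fun z => 0 ≤ (u * z).im ∧ (u * z).im ≤ (u * z).re)).card : ℝ) ≤
      (4 * c + 1) * (2 * (R + c) + 1) := by
    intro u hu
    have hnu := nm_of_mem_units6 hu
    have hu0 : u ≠ 0 := by
      rintro rfl; simp at hnu
    have hnorm : ∀ z, ‖toC (u * z)‖ = ‖toC z‖ := by
      intro z
      rw [norm_toC, norm_toC, nm_mul, hnu, one_mul]
    have := sector_count hR hc ((A.filter (fun z => 0 ≤ (u * z).im ∧ (u * z).im ≤ (u * z).re)).image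
      (fun z => u * z)) ?_ ?_
    · rwa [Finset.card_image_of_injective _ (mul_right_injective₀ hu0)] at this
    · intro z hz
      rw [Finset.mem_image] at hz
      obtain ⟨z', hz', rfl⟩ := hz
      exact (Finset.mem_filter.mp hz').2
    · intro z hz
      rw [Finset.mem_image] at hz
      obtain ⟨z', hz', rfl⟩ := hz
      rw [hnorm]
      exact hA z' (Finset.mem_filter.mp hz').1
  refine h1.trans ((Finset.sum_le_sum h2).trans ?_)
  rw [Finset.sum_const, nsmul_eq_mul]
  have : (units6.card : ℝ) ≤ 6 := by exact_mod_cast units6_card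
  have h0 : 0 ≤ (4 * c + 1) * (2 * (R + c) + 1) := by positivity
  exact mul_le_mul_of_nonneg_right this h0


/-- counting in a disc -/
lemma disc_count {R : ℝ} (hR : 0 ≤ R) (A : Finset Eis) (hA : ∀ z ∈ A, ‖toC z‖ ≤ R) :
    (A.card : ℝ) ≤ (4 * R + 1) ^ 2 := by
  classical
  have h : A ⊆ ((Finset.Icc (-(⌊2 * R⌋₊ : ℤ)) ⌊2 * R⌋₊ ×ˢ
      Finset.Icc (-(⌊2 * R⌋₊ : ℤ)) ⌊2 * R⌋₊).image (fun ab => (⟨ab.1, ab.2⟩ : Eis))) := by
    intro z hz
    have key : ∀ n : ℤ, |(n : ℝ)| ≤ 2 * R → -(⌊2 * R⌋₊ : ℤ) ≤ n ∧ n ≤ ⌊2 * R⌋₊ := by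
      intro n hn
      have h1 : ((n.natAbs : ℕ) : ℝ) ≤ 2 * R := by
        rwa [Nat.cast_natAbs, Int.cast_abs]
      have h2 := Nat.le_floor h1
      omega
    rw [Finset.mem_image]
    refine ⟨(z.re, z.im), ?_, rfl⟩
    rw [Finset.mem_product, Finset.mem_Icc, Finset.mem_Icc]
    have hz' := hA z hz
    exact ⟨key _ ((abs_re_le z).trans (by linarith)), key _ ((abs_im_le z).trans (by linarith))⟩
  have h1 := (Finset.card_le_card h).trans Finset.card_image_le
  rw [Finset.card_product, Int.card_Icc] at h1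
  have h2 : (A.card : ℝ) ≤ (2 * ⌊2 * R⌋₊ + 1) * (2 * ⌊2 * R⌋₊ + 1) := by
    have e : ((⌊2 * R⌋₊ : ℤ) + 1 - -(⌊2 * R⌋₊ : ℤ)).toNat = 2 * ⌊2 * R⌋₊ + 1 := by omega
    rw [e] at h1
    exact_mod_cast h1
  have f := Nat.floor_le (show 0 ≤ 2 * R by linarith)
  refine h2.trans ?_
  rw [pow_two]
  have : (2 * (⌊2 * R⌋₊ : ℝ) + 1) ≤ 4 * R + 1 := by linarith
  gcongr

lemma norm_le_of_nm_le {z : Eis} {N : ℕ} (h : nm z ≤ N) : ‖toC z‖ ≤ Real.sqrt N := by
  rw [norm_toC]; exact Real.sqrt_le_sqrt (by exact_mod_cast h)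

lemma nm_le_iff {z : Eis} {N : ℕ} : nm z ≤ N ↔ ‖toC z‖ ≤ Real.sqrt N := by
  rw [norm_toC, Real.sqrt_le_sqrt_iff (by positivity)]
  exact Nat.cast_le.symm

lemma ball_card (N : ℕ) (hN : 1 ≤ N) : ((ball N).card : ℝ) ≤ 25 * N := by
  have h := disc_count (R := Real.sqrt N) (Real.sqrt_nonneg _) (ball N)
    (fun z hz => norm_le_of_nm_le (mem_ball.mp hz))
  have h1 : (1 : ℝ) ≤ Real.sqrt N := by
    rw [Real.one_le_sqrt]; exact_mod_cast hN
  have h2 : Real.sqrt N ^ 2 = N := Real.sq_sqrt (Nat.cast_nonneg N)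
  nlinarith

/-- (C1) -/
theorem C1 : ∀ N : ℕ, ((primBall N).card : ℝ) ≤ 25 * N := by
  intro N
  rcases Nat.eq_zero_or_pos N with rfl | hN
  · have : primBall 0 = ∅ := by
      rw [Finset.eq_empty_iff_forall_notMem]
      intro z hz
      rw [mem_primBall] at hz
      have h0 : z = 0 := nm_eq_zero.mp (by omega)
      obtain ⟨k, hk⟩ := hz.2
      rw [h0] at hk
      have := congrArg (fun t : Eis => t.re) hk
      have e3 : (3 : Eis).re = 3 := rfl
      have e4 : (3 : Eis).im = 0 := rfl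
      simp [e3, e4] at this
      omega
    rw [this]; simp
  · refine le_trans ?_ (ball_card N hN)
    exact_mod_cast Finset.card_le_card (fun z hz => mem_ball.mpr (mem_primBall.mp hz).1)

/-- `Σ_{0<|k|≤R} 1/|k| ≪ R`. -/
lemma sum_inv_norm {R : ℝ} (hR : 0 ≤ R) (A : Finset Eis)
    (hA : ∀ z ∈ A, 1 ≤ ‖toC z‖ ∧ ‖toC z‖ ≤ R) : ∑ z ∈ A, 1 / ‖toC z‖ ≤ 90 * R := by
  classical
  have hmap : ∀ z ∈ A, ⌊‖toC z‖⌋₊ ∈ Finset.Icc 1 ⌊R⌋₊ := by
    intro z hz
    rw [Finset.mem_Icc]
    exact ⟨Nat.le_floor (by exact_mod_cast (hA z hz).1), Nat.floor_mono (hA z hz).2⟩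
  rw [← Finset.sum_fiberwise_of_maps_to hmap]
  have hj : ∀ j ∈ Finset.Icc 1 ⌊R⌋₊, ∑ z ∈ A.filter (fun z => ⌊‖toC z‖⌋₊ = j), 1 / ‖toC z‖ ≤ 90 := by
    intro j hj
    rw [Finset.mem_Icc] at hj
    have hj1 : (1 : ℝ) ≤ j := by exact_mod_cast hj.1
    have hcard := annulus_count (R := (j : ℝ) + 1 / 2) (c := 1 / 2) (by linarith) (by norm_num)
      (A.filter (fun z => ⌊‖toC z‖⌋₊ = j)) ?_
    · have hle : ∀ z ∈ A.filter (fun z => ⌊‖toC z‖⌋₊ = j), 1 / ‖toC z‖ ≤ 1 / (j : ℝ) := by
        intro z hz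
        rw [Finset.mem_filter] at hz
        have : (j : ℝ) ≤ ‖toC z‖ := by
          rw [← hz.2]; exact Nat.floor_le (norm_nonneg _)
        exact one_div_le_one_div_of_le (by linarith) this
      refine (Finset.sum_le_sum hle).trans ?_
      rw [Finset.sum_const, nsmul_eq_mul]
      have h3 : ((A.filter (fun z => ⌊‖toC z‖⌋₊ = j)).card : ℝ) ≤ 90 * j := by
        refine hcard.trans ?_
        nlinarith
      calc _ ≤ 90 * (j : ℝ) * (1 / j) := by gcongr
        _ = 90 := by field_simp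
    · intro z hz
      rw [Finset.mem_filter] at hz
      have h4 : (j : ℝ) ≤ ‖toC z‖ := by
        rw [← hz.2]; exact Nat.floor_le (norm_nonneg _)
      have h5 : ‖toC z‖ < j + 1 := by
        rw [← hz.2]; exact Nat.lt_floor_add_one _
      constructor <;> linarith
  refine (Finset.sum_le_sum hj).trans ?_
  rw [Finset.sum_const, nsmul_eq_mul, Nat.card_Icc, Nat.add_sub_cancel]
  have := Nat.floor_le hR
  linarith

/-! ### the angular character -/

lemma norm_ang_le (l : ℤ) (z : Eis) : ‖ang l z‖ ≤ 1 := by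
  unfold ang
  by_cases h : toC z = 0
  · rw [h]
    simp only [norm_zero, Complex.ofReal_zero, div_zero]
    by_cases hl : l = 0
    · simp [hl]
    · rw [zero_zpow _ hl]; simp
  · have : ‖toC z / (‖toC z‖ : ℂ)‖ = 1 := by
      rw [norm_div, Complex.norm_real, norm_norm, div_self (norm_ne_zero_iff.mpr h)]
    rw [norm_zpow, this, one_zpow]

lemma pow_sub_pow_norm_le {a b : ℂ} (ha : ‖a‖ = 1) (hb : ‖b‖ = 1) (n : ℕ) :
    ‖a ^ n - b ^ n‖ ≤ n * ‖a - b‖ := by
  induction n with
  | zero => simp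
  | succ n ih =>
    have : a ^ (n + 1) - b ^ (n + 1) = a ^ n * (a - b) + (a ^ n - b ^ n) * b := by ring
    rw [this]
    refine (norm_add_le _ _).trans ?_
    rw [norm_mul, norm_mul, norm_pow, ha, hb, one_pow, one_mul, mul_one]
    push_cast
    linarith

lemma zpow_sub_zpow_norm_le {a b : ℂ} (ha : ‖a‖ = 1) (hb : ‖b‖ = 1) (l : ℤ) :
    ‖a ^ l - b ^ l‖ ≤ |(l : ℝ)| * ‖a - b‖ := by
  have ha0 : a ≠ 0 := by rintro rfl; simp at ha
  have hb0 : b ≠ 0 := by rintro rfl; simp at hb
  rcases le_total 0 l with h | h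
  · obtain ⟨n, rfl⟩ := Int.eq_ofNat_of_zero_le h
    have := pow_sub_pow_norm_le ha hb n
    simpa using this
  · obtain ⟨n, hn⟩ := Int.eq_ofNat_of_zero_le (show 0 ≤ -l by omega)
    have hl : l = -(n : ℤ) := by omega
    subst hl
    rw [zpow_neg, zpow_neg, zpow_natCast, zpow_natCast]
    have h1 : (a ^ n)⁻¹ - (b ^ n)⁻¹ = (b ^ n - a ^ n) / (a ^ n * b ^ n) := by
      field_simp
    rw [h1, norm_div, norm_mul, norm_pow, norm_pow, ha, hb, one_pow, one_mul, div_one, norm_sub_rev]
    have := pow_sub_pow_norm_le ha hb n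
    simpa using this

lemma norm_unit_sub_le {a b : ℂ} (ha : a ≠ 0) (hb : b ≠ 0) :
    ‖a / (‖a‖ : ℂ) - b / (‖b‖ : ℂ)‖ ≤ 2 * ‖a - b‖ / ‖b‖ := by
  have ha' : (‖a‖ : ℂ) ≠ 0 := by exact_mod_cast norm_ne_zero_iff.mpr ha
  have hb' : (‖b‖ : ℂ) ≠ 0 := by exact_mod_cast norm_ne_zero_iff.mpr hb
  have hbp : 0 < ‖b‖ := norm_pos_iff.mpr hb
  have e : a / (‖a‖ : ℂ) - b / (‖b‖ : ℂ) =
      ((a / (‖a‖ : ℂ)) * ((‖b‖ - ‖a‖ : ℝ) : ℂ) + (a - b)) / (‖b‖ : ℂ) := by
    push_cast
    field_simp
    ring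
  rw [e, norm_div, Complex.norm_real, norm_norm]
  gcongr
  refine (norm_add_le _ _).trans ?_
  rw [norm_mul, norm_div, Complex.norm_real, norm_norm, div_self (norm_ne_zero_iff.mpr ha), one_mul,
    Complex.norm_real, Real.norm_eq_abs]
  have : |‖b‖ - ‖a‖| ≤ ‖b - a‖ := abs_norm_sub_norm_le b a
  rw [norm_sub_rev] at this
  linarith

lemma ang_sub_le (l : ℤ) {z z' : Eis} (hz : z ≠ 0) (hz' : z' ≠ 0) :
    ‖ang l z - ang l z'‖ ≤ |(l : ℝ)| * (2 * ‖toC z - toC z'‖ / ‖toC z'‖) := by
  have h1 : toC z ≠ 0 := by rwa [Ne, toC_eq_zero]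
  have h2 : toC z' ≠ 0 := by rwa [Ne, toC_eq_zero]
  have n1 : ‖toC z / (‖toC z‖ : ℂ)‖ = 1 := by
    rw [norm_div, Complex.norm_real, norm_norm, div_self (norm_ne_zero_iff.mpr h1)]
  have n2 : ‖toC z' / (‖toC z'‖ : ℂ)‖ = 1 := by
    rw [norm_div, Complex.norm_real, norm_norm, div_self (norm_ne_zero_iff.mpr h2)]
  unfold ang
  refine (zpow_sub_zpow_norm_le n1 n2 l).trans ?_
  exact mul_le_mul_of_nonneg_left (norm_unit_sub_le h1 h2) (abs_nonneg _)

lemma ang_mul (l : ℤ) (a b : Eis) : ang l (a * b) = ang l a * ang l b := by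
  unfold ang
  rw [map_mul, norm_mul, Complex.ofReal_mul, ← mul_zpow]
  congr 1
  by_cases ha : toC a = 0
  · simp [ha]
  by_cases hb : toC b = 0
  · simp [hb]
  have ha' : (‖toC a‖ : ℂ) ≠ 0 := by exact_mod_cast norm_ne_zero_iff.mpr ha
  have hb' : (‖toC b‖ : ℂ) ≠ 0 := by exact_mod_cast norm_ne_zero_iff.mpr hb
  field_simp


lemma ang_zero (z : Eis) : ang 0 z = 1 := by unfold ang; simp


/-! ### blocks -/

/-- index set of a complete residue system modulo the integer `M` -/
def bx (M : ℕ) : Finset (ℕ × ℕ) := Finset.range M ×ˢ Finset.range M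

/-- `M k + p` -/
def blk (M : ℕ) (k : Eis) (p : ℕ × ℕ) : Eis := ⟨M * k.re + p.1, M * k.im + p.2⟩

lemma mem_bx {M : ℕ} {p : ℕ × ℕ} : p ∈ bx M ↔ p.1 < M ∧ p.2 < M := by simp [bx]

lemma bx_card (M : ℕ) : (bx M).card = M ^ 2 := by simp [bx, pow_two]

lemma toC_blk (M : ℕ) (k : Eis) (p : ℕ × ℕ) : toC (blk M k p) = M * toC k + toC (blk M 0 p) := by
  simp only [toC_apply, blk, QuadraticAlgebra.re_zero, QuadraticAlgebra.im_zero]
  push_cast
  ring

lemma norm_blk_zero {M : ℕ} {p : ℕ × ℕ} (hp : p ∈ bx M) : ‖toC (blk M 0 p)‖ < M := by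
  rw [mem_bx] at hp
  obtain ⟨h1, h2⟩ := hp
  have h := norm_sq_real (blk M 0 p)
  simp only [blk, QuadraticAlgebra.re_zero, QuadraticAlgebra.im_zero, mul_zero, zero_add] at h
  have hM : (0 : ℝ) < M := by exact_mod_cast (by omega : 0 < M)
  apply lt_of_pow_lt_pow_left₀ 2 hM.le
  simp only [blk, QuadraticAlgebra.re_zero, QuadraticAlgebra.im_zero, mul_zero, zero_add]
  rw [h]
  push_cast
  have a1 : (p.1 : ℝ) < M := by exact_mod_cast h1
  have a2 : (p.2 : ℝ) < M := by exact_mod_cast h2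
  have b1 : (0 : ℝ) ≤ p.1 := Nat.cast_nonneg _
  have b2 : (0 : ℝ) ≤ p.2 := Nat.cast_nonneg _
  rcases le_total (p.1 : ℝ) p.2 with h3 | h3 <;> nlinarith

lemma block_sum {M : ℕ} (hM : 0 < M) (N : ℕ) (F : Eis → ℂ) :
    ∑ b ∈ ball N, F b = ∑ k ∈ ball (4 * N + 4), ∑ p ∈ bx M,
      (if nm (blk M k p) ≤ N then F (blk M k p) else 0) := by
  rw [← Finset.sum_product', ← Finset.sum_filter]
  symm
  apply Finset.sum_nbij' (fun kp => blk M kp.1 kp.2)
    (fun b => ((⟨b.re / M, b.im / M⟩ : Eis), ((b.re % M).toNat, (b.im % M).toNat)))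
  · intro kp hkp
    rw [Finset.mem_filter] at hkp
    exact mem_ball.mpr hkp.2
  · intro b hb
    rw [mem_ball] at hb
    have hM' : (0 : ℤ) < M := by exact_mod_cast hM
    have hr1 := Int.emod_nonneg b.re hM'.ne'
    have hr2 := Int.emod_nonneg b.im hM'.ne'
    have hs1 := Int.emod_lt_of_pos b.re hM'
    have hs2 := Int.emod_lt_of_pos b.im hM'
    have hbx : ((b.re % M).toNat, (b.im % M).toNat) ∈ bx M := by
      rw [mem_bx]; constructor <;> simp only <;> omega
    have hblk : blk M (⟨b.re / M, b.im / M⟩ : Eis) ((b.re % M).toNat, (b.im % M).toNat) = b := by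
      apply Eis.ext'
      · simp only [blk]
        rw [Int.toNat_of_nonneg hr1]
        exact Int.mul_ediv_add_emod b.re M
      · simp only [blk]
        rw [Int.toNat_of_nonneg hr2]
        exact Int.mul_ediv_add_emod b.im M
    rw [Finset.mem_filter, Finset.mem_product]
    refine ⟨⟨?_, hbx⟩, ?_⟩
    · simp only
      rw [mem_ball]
      have h1 := toC_blk M (⟨b.re / M, b.im / M⟩ : Eis) ((b.re % M).toNat, (b.im % M).toNat)
      rw [hblk] at h1
      have h2 := norm_blk_zero hbx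
      have hMR : (1 : ℝ) ≤ M := by exact_mod_cast hM
      set k : Eis := ⟨b.re / M, b.im / M⟩
      have h3 : (M : ℝ) * ‖toC k‖ ≤ Real.sqrt N + M := by
        have h4 : (M : ℂ) * toC k = toC b - toC (blk M 0 ((b.re % M).toNat, (b.im % M).toNat)) := by
          rw [h1]; ring
        have h5 : (M : ℝ) * ‖toC k‖ = ‖(M : ℂ) * toC k‖ := by
          rw [norm_mul, Complex.norm_natCast]
        rw [h5, h4]
        refine (norm_sub_le _ _).trans ?_
        have := norm_le_of_nm_le hb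
        linarith
      have h6 : ‖toC k‖ ≤ Real.sqrt N + 1 := by
        have : (M : ℝ) * ‖toC k‖ ≤ M * (Real.sqrt N + 1) := by
          nlinarith [Real.sqrt_nonneg (N : ℝ)]
        exact le_of_mul_le_mul_left this (by linarith)
      have h7 : ((nm k : ℕ) : ℝ) ≤ 4 * N + 4 := by
        rw [← norm_toC_sq]
        have hN2 : Real.sqrt N ^ 2 = N := Real.sq_sqrt (Nat.cast_nonneg N)
        nlinarith [norm_nonneg (toC k), Real.sqrt_nonneg (N : ℝ), sq_nonneg (Real.sqrt N - 1)]
      exact_mod_cast h7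
    · simp only
      rw [hblk]; exact hb
  · intro kp hkp
    rw [Finset.mem_filter, Finset.mem_product, mem_bx] at hkp
    obtain ⟨⟨-, h1, h2⟩, -⟩ := hkp
    have hM' : (0 : ℤ) < M := by exact_mod_cast hM
    have e1 : ∀ (a : ℤ) (r : ℕ), r < M → (M * a + r) / (M : ℤ) = a := by
      intro a r hr
      rw [Int.add_comm, Int.add_mul_ediv_left _ _ hM'.ne', Int.ediv_eq_zero_of_lt (by omega) (by omega)]
      ring
    have e2 : ∀ (a : ℤ) (r : ℕ), r < M → ((M * a + r) % (M : ℤ)).toNat = r := by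
      intro a r hr
      rw [Int.add_comm, Int.add_mul_emod_self_left, Int.emod_eq_of_lt (by omega) (by omega)]
      simp
    apply Prod.ext
    · simp only [blk]
      exact Eis.ext' (e1 _ _ h1) (e1 _ _ h2)
    · simp only [blk]
      exact Prod.ext (e2 _ _ h1) (e2 _ _ h2)
  · intro b hb
    have hM' : (0 : ℤ) < M := by exact_mod_cast hM
    have hr1 := Int.emod_nonneg b.re hM'.ne'
    have hr2 := Int.emod_nonneg b.im hM'.ne'
    apply Eis.ext'
    · simp only [blk]
      rw [Int.toNat_of_nonneg hr1]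
      exact Int.mul_ediv_add_emod b.re M
    · simp only [blk]
      rw [Int.toNat_of_nonneg hr2]
      exact Int.mul_ediv_add_emod b.im M
  · intro kp _
    rfl

/-- mean zero modulo `M`, for every angular character. -/
theorem mean_zero_bound (l : ℤ) {M : ℕ} (hM : 0 < M) {X : Eis → ℂ} (hX : ∀ a, ‖X a‖ ≤ 1)
    (hper : ∀ k p, X (blk M k p) = X (blk M 0 p)) (h0 : ∑ p ∈ bx M, X (blk M 0 p) = 0)
    {N : ℕ} (hN : 1 ≤ N) :
    ‖∑ b ∈ ball N, X b * ang l b‖ ≤ (302 + 180 * |(l : ℝ)|) * M * Real.sqrt N := by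
  classical
  have hsN : 1 ≤ Real.sqrt N := by
    rw [Real.one_le_sqrt]; exact_mod_cast hN
  have hsq : Real.sqrt N ^ 2 = N := Real.sq_sqrt (Nat.cast_nonneg N)
  have hMR : (1 : ℝ) ≤ M := by exact_mod_cast hM
  have hl0 := abs_nonneg (l : ℝ)
  rcases lt_or_ge (Real.sqrt N) M with hcase | hcase
  · refine (norm_sum_le_of_le (ball N) (f := fun b => X b * ang l b) (n := fun _ => 1) ?_).trans ?_
    · intro b _
      rw [norm_mul]
      exact mul_le_one₀ (hX b) (norm_nonneg _) (norm_ang_le l b)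
    · rw [Finset.sum_const, nsmul_eq_mul, mul_one]
      refine (ball_card N hN).trans ?_
      have e : (25 : ℝ) * N = 25 * Real.sqrt N * Real.sqrt N := by
        rw [mul_assoc, Real.mul_self_sqrt (Nat.cast_nonneg N)]
      rw [e]
      have : 25 * Real.sqrt N ≤ (302 + 180 * |(l : ℝ)|) * M := by nlinarith
      exact mul_le_mul_of_nonneg_right this (by linarith)
  · set R : ℝ := Real.sqrt N / M with hRdef
    have hMpos : (0 : ℝ) < M := by linarith
    have hMR2 : M * R = Real.sqrt N := by rw [hRdef]; field_simp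
    have hR1 : 1 ≤ R := by rw [hRdef, le_div_iff₀ hMpos]; linarith
    set G : Eis → (ℕ × ℕ) → ℂ := fun k p => if nm (blk M k p) ≤ N then ang l (blk M k p) else 0 with hG
    set G0 : Eis → ℂ := fun k => if nm (blk M k (0, 0)) ≤ N then ang l (blk M k (0, 0)) else 0 with hG0
    have hS : ∑ b ∈ ball N, X b * ang l b =
        ∑ k ∈ ball (4 * N + 4), ∑ p ∈ bx M, X (blk M 0 p) * (G k p - G0 k) := by
      rw [block_sum hM]
      apply Finset.sum_congr rfl
      intro k _
      simp only [mul_sub]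
      rw [Finset.sum_sub_distrib, ← Finset.sum_mul, h0, zero_mul, sub_zero]
      apply Finset.sum_congr rfl
      intro p _
      simp only [hG]
      split_ifs
      · rw [hper]
      · simp
    set D : Eis → ℝ := fun k => (if R - 1 ≤ ‖toC k‖ ∧ ‖toC k‖ ≤ R + 1 then 2 else 0) +
      (if k = 0 then 2 else 0) +
      (if 1 ≤ ‖toC k‖ ∧ ‖toC k‖ ≤ R then 2 * |(l : ℝ)| * (1 / ‖toC k‖) else 0) with hD
    have hGle : ∀ k p, ‖G k p‖ ≤ 1 := by
      intro k p; simp only [hG]; split_ifs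
      · exact norm_ang_le _ _
      · simp
    have hG0le : ∀ k, ‖G0 k‖ ≤ 1 := by
      intro k; simp only [hG0]; split_ifs
      · exact norm_ang_le _ _
      · simp
    have h2 : ∀ k p, ‖G k p - G0 k‖ ≤ 2 := by
      intro k p
      refine (norm_sub_le _ _).trans ?_
      linarith [hGle k p, hG0le k]
    have hlast : ∀ k : Eis, 0 ≤ (if 1 ≤ ‖toC k‖ ∧ ‖toC k‖ ≤ R then 2 * |(l : ℝ)| * (1 / ‖toC k‖) else 0) := by
      intro k; split_ifs
      · positivity
      · exact le_rfl
    have key : ∀ k, ∀ p ∈ bx M, ‖G k p - G0 k‖ ≤ D k := by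
      intro k p hp
      have hpn := norm_blk_zero hp
      have hek := toC_blk M k p
      have hek0 : toC (blk M k (0, 0)) = M * toC k := by
        rw [toC_blk]
        have : blk M 0 (0, 0) = 0 := by
          apply Eis.ext' <;> simp [blk]
        rw [this]; simp
      have hnMk : ‖toC (blk M k (0, 0))‖ = M * ‖toC k‖ := by
        rw [hek0, norm_mul, Complex.norm_natCast]
      have hdiff : ‖toC (blk M k p) - toC (blk M k (0, 0))‖ < M := by
        rw [hek, hek0]; simpa using hpn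
      by_cases c1 : R - 1 ≤ ‖toC k‖ ∧ ‖toC k‖ ≤ R + 1
      · have : 2 ≤ D k := by
          simp only [hD]; rw [if_pos c1]
          have := hlast k
          split_ifs at this ⊢ <;> linarith
        exact (h2 k p).trans this
      · have hDge : 0 ≤ D k := by
          simp only [hD]
          have := hlast k
          split_ifs at this ⊢ <;> linarith
        rcases lt_or_ge (R + 1) ‖toC k‖ with c2 | c2
        · -- both outside
          have o1 : ¬ nm (blk M k (0, 0)) ≤ N := by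
            rw [nm_le_iff, hnMk, not_le, ← hMR2]
            exact mul_lt_mul_of_pos_left (by linarith) hMpos
          have o2 : ¬ nm (blk M k p) ≤ N := by
            rw [nm_le_iff, not_le]
            have h3 : ‖toC (blk M k (0, 0))‖ - ‖toC (blk M k p)‖ < M := by
              refine lt_of_le_of_lt (norm_sub_norm_le _ _) ?_
              rw [norm_sub_rev]; exact hdiff
            have h4 : M * (R + 1) < M * ‖toC k‖ := mul_lt_mul_of_pos_left c2 hMpos
            rw [hnMk] at h3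
            nlinarith
          have : G k p - G0 k = 0 := by
            simp only [hG, hG0]; rw [if_neg o1, if_neg o2, sub_zero]
          rw [this, norm_zero]
          exact hDge
        · have c3 : ‖toC k‖ < R - 1 := by
            by_contra hcon
            exact c1 ⟨not_lt.mp hcon, c2⟩
          have i1 : nm (blk M k (0, 0)) ≤ N := by
            rw [nm_le_iff, hnMk, ← hMR2]
            exact mul_le_mul_of_nonneg_left (by linarith) hMpos.le
          have i2 : nm (blk M k p) ≤ N := by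
            rw [nm_le_iff]
            have h3 : ‖toC (blk M k p)‖ - ‖toC (blk M k (0, 0))‖ < M :=
              lt_of_le_of_lt (norm_sub_norm_le _ _) hdiff
            have h4 : M * ‖toC k‖ < M * (R - 1) := mul_lt_mul_of_pos_left c3 hMpos
            rw [hnMk] at h3
            nlinarith
          by_cases hk : k = 0
          · have : 2 ≤ D k := by
              simp only [hD]; rw [if_pos hk]
              have := hlast k
              split_ifs at this ⊢ <;> linarith
            exact (h2 k p).trans this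
          · have hk1 : 1 ≤ ‖toC k‖ := by
              rw [norm_toC, Real.one_le_sqrt]
              exact_mod_cast nm_pos.mpr hk
            have hkR : ‖toC k‖ ≤ R := by linarith
            have n0 : blk M k (0, 0) ≠ 0 := by
              intro h
              have := hnMk
              rw [h] at this
              simp at this
              rcases this with h' | h'
              · omega
              · exact hk h'
            have n1 : blk M k p ≠ 0 := by
              intro h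
              rw [h] at hdiff
              simp only [map_zero, zero_sub, norm_neg] at hdiff
              rw [hnMk] at hdiff
              nlinarith
            have e : G k p - G0 k = ang l (blk M k p) - ang l (blk M k (0, 0)) := by
              simp only [hG, hG0]; rw [if_pos i1, if_pos i2]
            rw [e]
            refine (ang_sub_le l n1 n0).trans ?_
            have h5 : 2 * |(l : ℝ)| * (1 / ‖toC k‖) ≤ D k := by
              simp only [hD]
              rw [if_pos (⟨hk1, hkR⟩ : 1 ≤ ‖toC k‖ ∧ ‖toC k‖ ≤ R)]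
              split_ifs <;> linarith
            refine le_trans ?_ h5
            rw [hnMk]
            have h6 : 2 * ‖toC (blk M k p) - toC (blk M k (0, 0))‖ / (M * ‖toC k‖) ≤
                2 * (1 / ‖toC k‖) := by
              rw [div_le_iff₀ (by positivity)]
              have : 2 * (1 / ‖toC k‖) * (M * ‖toC k‖) = 2 * M := by field_simp
              rw [this]; linarith
            calc _ ≤ |(l : ℝ)| * (2 * (1 / ‖toC k‖)) := by gcongr
              _ = _ := by ring
    have hsumD : ∑ k ∈ ball (4 * N + 4), D k ≤ (302 + 180 * |(l : ℝ)|) * R := by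
      simp only [hD]
      rw [Finset.sum_add_distrib, Finset.sum_add_distrib]
      have t1 : ∑ k ∈ ball (4 * N + 4), (if R - 1 ≤ ‖toC k‖ ∧ ‖toC k‖ ≤ R + 1 then (2 : ℝ) else 0) ≤
          300 * R := by
        rw [← Finset.sum_filter, Finset.sum_const, nsmul_eq_mul]
        have := annulus_count (R := R) (c := 1) (by linarith) (by norm_num)
          ((ball (4 * N + 4)).filter (fun k => R - 1 ≤ ‖toC k‖ ∧ ‖toC k‖ ≤ R + 1))
          (fun z hz => (Finset.mem_filter.mp hz).2)
        nlinarith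
      have t2 : ∑ k ∈ ball (4 * N + 4), (if k = 0 then (2 : ℝ) else 0) ≤ 2 := by
        rw [Finset.sum_ite_eq']
        split_ifs <;> norm_num
      have t3 : ∑ k ∈ ball (4 * N + 4), (if 1 ≤ ‖toC k‖ ∧ ‖toC k‖ ≤ R then
          2 * |(l : ℝ)| * (1 / ‖toC k‖) else 0) ≤ 180 * |(l : ℝ)| * R := by
        rw [← Finset.sum_filter, ← Finset.mul_sum]
        have := sum_inv_norm (R := R) (by linarith)
          ((ball (4 * N + 4)).filter (fun k => 1 ≤ ‖toC k‖ ∧ ‖toC k‖ ≤ R))
          (fun z hz => (Finset.mem_filter.mp hz).2)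
        calc _ ≤ 2 * |(l : ℝ)| * (90 * R) := by gcongr
          _ = _ := by ring
      nlinarith
    rw [hS]
    refine (norm_sum_le_of_le (ball (4 * N + 4)) (n := fun k => (M : ℝ) ^ 2 * D k) ?_).trans ?_
    · intro k _
      refine (norm_sum_le_of_le (bx M) (n := fun _ => D k) ?_).trans ?_
      · intro p hp
        rw [norm_mul]
        calc _ ≤ 1 * ‖G k p - G0 k‖ := by gcongr; exact hX _
          _ ≤ D k := by rw [one_mul]; exact key k p hp
      · rw [Finset.sum_const, bx_card, nsmul_eq_mul]; push_cast; exact le_rfl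
    · rw [← Finset.mul_sum]
      calc (M : ℝ) ^ 2 * ∑ k ∈ ball (4 * N + 4), D k ≤ M ^ 2 * ((302 + 180 * |(l : ℝ)|) * R) := by
            gcongr
        _ = (302 + 180 * |(l : ℝ)|) * M * (M * R) := by ring
        _ = _ := by rw [hMR2]


/-! ### angular characters: `Σ_{N(b) ≤ N} (b/|b|)^l ≪ √N` for `l ≠ 0` -/

lemma ball_dvd_sum {p : Eis} (hp : p ≠ 0) (P : Eis → Prop) [DecidablePred P]
    (hP : ∀ b, P b ↔ p ∣ b) (N : ℕ) (F : Eis → ℂ) :
    ∑ b ∈ ball (nm p * N), (if P b then F b else 0) = ∑ z ∈ ball N, F (p * z) := by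
  rw [← Finset.sum_filter]
  symm
  apply Finset.sum_nbij (fun z => p * z)
  · intro z hz
    rw [mem_ball] at hz
    rw [Finset.mem_filter, mem_ball, nm_mul, hP]
    exact ⟨Nat.mul_le_mul_left _ hz, Dvd.intro _ rfl⟩
  · intro a _ b _ h
    exact mul_left_cancel₀ hp h
  · intro b hb
    rw [Finset.mem_coe, Finset.mem_filter, mem_ball, hP] at hb
    obtain ⟨h1, z, rfl⟩ := hb
    refine ⟨z, ?_, rfl⟩
    rw [Finset.mem_coe, mem_ball]
    rw [nm_mul] at h1
    exact Nat.le_of_mul_le_mul_left h1 (nm_pos.mpr hp)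
  · intro _ _; rfl

def p7 : Eis := ⟨3, 1⟩
def q7 : Eis := ⟨2, -1⟩

lemma nm_p7 : nm p7 = 7 := by decide
lemma nm_q7 : nm q7 = 7 := by decide

lemma p7_dvd_iff (b : Eis) : (7 : ℤ) ∣ b.re - 3 * b.im ↔ p7 ∣ b := by
  constructor
  · rintro ⟨c, hc⟩
    refine ⟨⟨b.im + 2 * c, -c⟩, ?_⟩
    apply Eis.ext'
    · simp only [re_mul', p7]; linarith
    · simp only [im_mul', p7]; linarith
  · rintro ⟨c, rfl⟩
    simp only [re_mul', im_mul', p7]
    exact ⟨-c.im, by ring⟩

lemma q7_dvd_iff (b : Eis) : (7 : ℤ) ∣ b.re + 2 * b.im ↔ q7 ∣ b := by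
  constructor
  · rintro ⟨c, hc⟩
    refine ⟨⟨3 * c - b.im, c⟩, ?_⟩
    apply Eis.ext'
    · simp only [re_mul', q7]; linarith
    · simp only [im_mul', q7]; linarith
  · rintro ⟨c, rfl⟩
    simp only [re_mul', im_mul', q7]
    exact ⟨c.im, by ring⟩

lemma lin7_mul (x y : Eis) : (x * y).re + 2 * (x * y).im =
    (x.re + 2 * x.im) * (y.re + 2 * y.im) - 7 * (x.im * y.im) := by
  simp only [re_mul', im_mul']; ring

lemma p7_pow_ne (n : ℕ) (hn : 0 < n) : p7 ^ n ≠ q7 ^ n := by
  intro h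
  have h1 : q7 ∣ q7 ^ n := dvd_pow_self _ hn.ne'
  rw [← h, ← q7_dvd_iff] at h1
  have h2 : ∀ m : ℕ, ¬ (7 : ℤ) ∣ (p7 ^ m).re + 2 * (p7 ^ m).im := by
    intro m
    induction m with
    | zero => simp
    | succ m ih =>
      rw [pow_succ, lin7_mul]
      intro hd
      have h3 : (7 : ℤ) ∣ ((p7 ^ m).re + 2 * (p7 ^ m).im) * (p7.re + 2 * p7.im) := by
        have := dvd_add hd (Dvd.intro _ rfl : (7 : ℤ) ∣ 7 * ((p7 ^ m).im * p7.im))
        simpa using this
      have hp7 : Prime (7 : ℤ) := by norm_num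
      rcases hp7.dvd_or_dvd h3 with h4 | h4
      · exact ih h4
      · have : p7.re + 2 * p7.im = 5 := rfl
        rw [this] at h4
        omega
  exact h2 n h1

lemma ang_p7_ne {l : ℤ} (hl : l ≠ 0) : ang l p7 ≠ ang l q7 := by
  intro h
  have hn : ‖toC p7‖ = ‖toC q7‖ := by rw [norm_toC, norm_toC, nm_p7, nm_q7]
  have hp0 : p7 ≠ 0 := by intro h; have := nm_p7; rw [h] at this; simp at this
  have hq0 : q7 ≠ 0 := by intro h; have := nm_q7; rw [h] at this; simp at this
  have hpC : toC p7 ≠ 0 := by rwa [Ne, toC_eq_zero]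
  have hqC : toC q7 ≠ 0 := by rwa [Ne, toC_eq_zero]
  have hnC : (‖toC q7‖ : ℂ) ≠ 0 := by exact_mod_cast norm_ne_zero_iff.mpr hqC
  unfold ang at h
  rw [hn, div_zpow, div_zpow] at h
  have h1 : toC p7 ^ l = toC q7 ^ l := by
    have h2 : (‖toC q7‖ : ℂ) ^ l ≠ 0 := zpow_ne_zero _ hnC
    field_simp at h
    exact h
  have h3 : toC p7 ^ l.natAbs = toC q7 ^ l.natAbs := by
    rcases Int.natAbs_eq l with h4 | h4
    · rw [h4, zpow_natCast, zpow_natCast] at h1
      exact h1
    · rw [h4, zpow_neg, zpow_neg, zpow_natCast, zpow_natCast] at h1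
      exact inv_injective h1
  rw [← map_pow, ← map_pow] at h3
  exact p7_pow_ne _ (Int.natAbs_pos.mpr hl) (toC_injective h3)

/-- the constant for the angular characters -/
theorem ang_sum_bound {l : ℤ} (hl : l ≠ 0) : ∃ C : ℝ, 0 ≤ C ∧ ∀ N : ℕ, 1 ≤ N →
    ‖∑ b ∈ ball N, ang l b‖ ≤ C * Real.sqrt N := by
  classical
  have hne : ‖ang l p7 - ang l q7‖ ≠ 0 := by
    rw [norm_ne_zero_iff, sub_ne_zero]; exact ang_p7_ne hl
  have hpos : 0 < ‖ang l p7 - ang l q7‖ := lt_of_le_of_ne (norm_nonneg _) (Ne.symm hne)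
  refine ⟨((302 + 180 * |(l : ℝ)|) * 7 * Real.sqrt 7) / ‖ang l p7 - ang l q7‖, by positivity, ?_⟩
  intro N hN
  set X : Eis → ℂ := fun b => (if (7 : ℤ) ∣ b.re - 3 * b.im then 1 else 0) -
    (if (7 : ℤ) ∣ b.re + 2 * b.im then 1 else 0) with hXdef
  have hp0 : p7 ≠ 0 := by intro h; have := nm_p7; rw [h] at this; simp at this
  have hq0 : q7 ≠ 0 := by intro h; have := nm_q7; rw [h] at this; simp at this
  have h1 : ∑ b ∈ ball (7 * N), X b * ang l b = (ang l p7 - ang l q7) * ∑ b ∈ ball N, ang l b := by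
    have e1 := ball_dvd_sum hp0 (fun b => (7 : ℤ) ∣ b.re - 3 * b.im) p7_dvd_iff N (ang l)
    have e2 := ball_dvd_sum hq0 (fun b => (7 : ℤ) ∣ b.re + 2 * b.im) q7_dvd_iff N (ang l)
    rw [nm_p7] at e1
    rw [nm_q7] at e2
    have e3 : ∀ b, X b * ang l b = (if (7 : ℤ) ∣ b.re - 3 * b.im then ang l b else 0) -
        (if (7 : ℤ) ∣ b.re + 2 * b.im then ang l b else 0) := by
      intro b
      simp only [hXdef, sub_mul, ite_mul, one_mul, zero_mul]
    simp only [e3]
    rw [Finset.sum_sub_distrib, e1, e2, sub_mul, Finset.mul_sum, Finset.mul_sum]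
    simp only [ang_mul]
  have h2 := mean_zero_bound l (M := 7) (by norm_num) (X := X) ?_ ?_ ?_ (N := 7 * N) (by omega)
  · rw [h1, norm_mul] at h2
    rw [div_mul_eq_mul_div, le_div_iff₀ hpos, mul_comm]
    refine h2.trans (le_of_eq ?_)
    push_cast
    rw [Real.sqrt_mul (by norm_num)]
    ring
  · intro b
    simp only [hXdef]
    split_ifs <;> simp
  · intro k p
    simp only [hXdef]
    have e1 : (7 : ℤ) ∣ (blk 7 k p).re - 3 * (blk 7 k p).im ↔
        (7 : ℤ) ∣ (blk 7 0 p).re - 3 * (blk 7 0 p).im := by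
      simp only [blk, QuadraticAlgebra.re_zero, QuadraticAlgebra.im_zero]
      push_cast
      omega
    have e2 : (7 : ℤ) ∣ (blk 7 k p).re + 2 * (blk 7 k p).im ↔
        (7 : ℤ) ∣ (blk 7 0 p).re + 2 * (blk 7 0 p).im := by
      simp only [blk, QuadraticAlgebra.re_zero, QuadraticAlgebra.im_zero]
      push_cast
      omega
    simp only [e1, e2]
  · simp only [hXdef]
    rw [Finset.sum_sub_distrib, ← Finset.sum_filter, ← Finset.sum_filter, Finset.sum_const,
      Finset.sum_const]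
    have : (Finset.filter (fun p : ℕ × ℕ => (7 : ℤ) ∣ (blk 7 0 p).re - 3 * (blk 7 0 p).im) (bx 7)).card =
        (Finset.filter (fun p : ℕ × ℕ => (7 : ℤ) ∣ (blk 7 0 p).re + 2 * (blk 7 0 p).im) (bx 7)).card := by
      decide +kernel
    rw [this, sub_self]

/-- (C2) sums of a periodic function against an angular character. -/
theorem C2 (l : ℤ) : ∃ C : ℝ, 0 < C ∧ ∀ (M : ℕ) (X : Eis → ℂ), 0 < M → (∀ a, ‖X a‖ ≤ 1) →
    (∀ k p, X (blk M k p) = X (blk M 0 p)) → (l = 0 → ∑ p ∈ bx M, X (blk M 0 p) = 0) →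
    ∀ N : ℕ, 1 ≤ N → ‖∑ b ∈ ball N, X b * ang l b‖ ≤ C * M * Real.sqrt N := by
  by_cases hl : l = 0
  · refine ⟨302 + 180 * |(l : ℝ)|, by positivity, fun M X hM hX hper h0 N hN => ?_⟩
    exact mean_zero_bound l hM hX hper (h0 hl) hN
  · obtain ⟨C1, hC1, h1⟩ := ang_sum_bound hl
    refine ⟨2 * (302 + 180 * |(l : ℝ)|) + C1, by positivity, fun M X hM hX hper _ N hN => ?_⟩
    have hMR : (1 : ℝ) ≤ M := by exact_mod_cast hM
    have hMC : ((M : ℂ)) ≠ 0 := by exact_mod_cast hM.ne'
    set c : ℂ := (∑ p ∈ bx M, X (blk M 0 p)) / (M : ℂ) ^ 2 with hc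
    have hcle : ‖c‖ ≤ 1 := by
      rw [hc, norm_div, norm_pow, Complex.norm_natCast, div_le_one (by positivity)]
      refine (norm_sum_le_of_le (bx M) (n := fun _ => 1) (fun p _ => hX _)).trans ?_
      rw [Finset.sum_const, bx_card, nsmul_eq_mul]; push_cast; linarith
    have h2 := mean_zero_bound l hM (X := fun b => (X b - c) / 2) ?_ ?_ ?_ hN
    · have h3 := h1 N hN
      have e : ∑ b ∈ ball N, X b * ang l b = 2 * ∑ b ∈ ball N, (X b - c) / 2 * ang l b +
          c * ∑ b ∈ ball N, ang l b := by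
        rw [Finset.mul_sum, Finset.mul_sum, ← Finset.sum_add_distrib]
        apply Finset.sum_congr rfl
        intro b _
        ring
      rw [e]
      refine (norm_add_le _ _).trans ?_
      rw [norm_mul, norm_mul]
      have hs := Real.sqrt_nonneg (N : ℝ)
      have h4 : ‖c‖ * ‖∑ b ∈ ball N, ang l b‖ ≤ C1 * M * Real.sqrt N := by
        calc _ ≤ 1 * (C1 * Real.sqrt N) := by gcongr
          _ ≤ M * (C1 * Real.sqrt N) := by gcongr
          _ = _ := by ring
      have h5 : ‖(2 : ℂ)‖ = 2 := by simp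
      rw [h5]
      nlinarith
    · intro a
      rw [norm_div]
      have h5 : ‖(2 : ℂ)‖ = 2 := by simp
      rw [h5, div_le_one (by norm_num)]
      refine (norm_sub_le _ _).trans ?_
      linarith [hX a]
    · intro k p
      simp only [hper k p]
    · rw [← Finset.sum_div, Finset.sum_sub_distrib, Finset.sum_const, bx_card, nsmul_eq_mul, hc]
      push_cast
      field_simp
      ring


/-! ### residues modulo the integer `M` -/

/-- the residue of `b` modulo `M` -/
def resM (M : ℕ) (b : Eis) : ℕ × ℕ := ((b.re % M).toNat, (b.im % M).toNat)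

lemma resM_mem {M : ℕ} (hM : 0 < M) (b : Eis) : resM M b ∈ bx M := by
  have hM' : (0 : ℤ) < M := by exact_mod_cast hM
  have hr1 := Int.emod_nonneg b.re hM'.ne'
  have hr2 := Int.emod_nonneg b.im hM'.ne'
  have hs1 := Int.emod_lt_of_pos b.re hM'
  have hs2 := Int.emod_lt_of_pos b.im hM'
  rw [mem_bx]; constructor <;> simp only [resM] <;> omega

lemma blk_resM {M : ℕ} (hM : 0 < M) (b : Eis) : blk M ⟨b.re / M, b.im / M⟩ (resM M b) = b := by
  have hM' : (0 : ℤ) < M := by exact_mod_cast hM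
  have hr1 := Int.emod_nonneg b.re hM'.ne'
  have hr2 := Int.emod_nonneg b.im hM'.ne'
  apply Eis.ext'
  · simp only [blk, resM]
    rw [Int.toNat_of_nonneg hr1]
    exact Int.mul_ediv_add_emod b.re M
  · simp only [blk, resM]
    rw [Int.toNat_of_nonneg hr2]
    exact Int.mul_ediv_add_emod b.im M

lemma blk_eq (M : ℕ) (k : Eis) (p : ℕ × ℕ) : blk M k p = (M : Eis) * k + blk M 0 p := by
  apply Eis.ext'
  · simp [blk, re_mul']
  · simp [blk, im_mul']

lemma natCast_dvd_iff {M : ℕ} {b : Eis} : (M : Eis) ∣ b ↔ (M : ℤ) ∣ b.re ∧ (M : ℤ) ∣ b.im := by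
  constructor
  · rintro ⟨k, rfl⟩
    simp only [re_mul', im_mul']
    simp
  · rintro ⟨⟨a, ha⟩, ⟨c, hc⟩⟩
    refine ⟨⟨a, c⟩, Eis.ext' ?_ ?_⟩
    · simp [re_mul', ha]
    · simp [im_mul', hc]

lemma blk_zero_injOn {M : ℕ} {p q : ℕ × ℕ} (hp : p ∈ bx M) (hq : q ∈ bx M)
    (h : (M : Eis) ∣ blk M 0 p - blk M 0 q) : p = q := by
  rw [mem_bx] at hp hq
  rw [natCast_dvd_iff] at h
  simp only [blk, QuadraticAlgebra.re_zero, QuadraticAlgebra.im_zero, mul_zero, zero_add,
    QuadraticAlgebra.re_sub, QuadraticAlgebra.im_sub] at h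
  have key : ∀ a b : ℕ, a < M → b < M → (M : ℤ) ∣ (a : ℤ) - b → a = b := by
    intro a b ha hb hd
    have h1 : ((a : ℤ) - b) = 0 := Int.eq_zero_of_abs_lt_dvd hd (by rw [abs_lt]; omega)
    omega
  exact Prod.ext (key _ _ hp.1 hq.1 h.1) (key _ _ hp.2 hq.2 h.2)

lemma isPrim_mul_iff {a b : Eis} (ha : IsPrim a) : IsPrim (a * b) ↔ IsPrim b := by
  unfold IsPrim at *
  have e : a * b - 1 = (b - 1) + (a - 1) * b := by ring
  rw [e]
  exact (dvd_add_left (Dvd.dvd.mul_right ha b))

lemma isPrim_congr {M : ℕ} (h3 : 3 ∣ M) {a b : Eis} (h : (M : Eis) ∣ a - b) : IsPrim a ↔ IsPrim b := by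
  unfold IsPrim
  obtain ⟨m, hm⟩ := h3
  have h4 : (3 : Eis) ∣ a - b := by
    refine dvd_trans ?_ h
    exact ⟨m, by rw [hm]; push_cast; ring⟩
  have e : a - 1 = (b - 1) + (a - b) := by ring
  rw [e]
  exact dvd_add_left h4

/-- mean value zero of a multiplicative function from nontriviality -/
theorem mean_zero_of_ne_one {M : ℕ} (hM : 0 < M) (h3 : 3 ∣ M) {χ : Eis → ℂ}
    (hper : ∀ a b, IsPrim a → IsPrim b → (M : Eis) ∣ a - b → χ a = χ b)
    {a : Eis} (ha : IsPrim a) (hcop : IsCoprime a (M : Eis)) (hne : χ a ≠ 1)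
    (hmul : ∀ b, IsPrim b → χ (a * b) = χ a * χ b) :
    ∑ p ∈ bx M, (open Classical in if IsPrim (blk M 0 p) then χ (blk M 0 p) else 0) = 0 := by
  classical
  set X : Eis → ℂ := fun b => if IsPrim b then χ b else 0 with hX
  have hXper : ∀ x y, (M : Eis) ∣ x - y → X x = X y := by
    intro x y h
    simp only [hX]
    have h1 := isPrim_congr h3 h
    by_cases hx : IsPrim x
    · rw [if_pos hx, if_pos (h1.mp hx)]
      exact hper x y hx (h1.mp hx) h
    · rw [if_neg hx, if_neg (fun hy => hx (h1.mpr hy))]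
  have hXmul : ∀ b, X (a * b) = χ a * X b := by
    intro b
    simp only [hX]
    by_cases hb : IsPrim b
    · rw [if_pos hb, if_pos ((isPrim_mul_iff ha).mpr hb), hmul b hb]
    · rw [if_neg hb, if_neg (fun h => hb ((isPrim_mul_iff ha).mp h)), mul_zero]
  change ∑ p ∈ bx M, X (blk M 0 p) = 0
  have hres : ∀ b, (M : Eis) ∣ b - blk M 0 (resM M b) := by
    intro b
    have := blk_resM hM b
    rw [blk_eq] at this
    refine ⟨⟨b.re / M, b.im / M⟩, ?_⟩
    linear_combination -this
  have hinj : Set.InjOn (fun p => resM M (a * blk M 0 p)) (bx M) := by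
    intro p hp q hq h
    simp only at h
    apply blk_zero_injOn (Finset.mem_coe.mp hp) (Finset.mem_coe.mp hq)
    have h1 := hres (a * blk M 0 p)
    have h2 := hres (a * blk M 0 q)
    rw [h] at h1
    have h3 := dvd_sub h1 h2
    have h4 : (M : Eis) ∣ a * (blk M 0 p - blk M 0 q) := by
      convert h3 using 1; ring
    exact hcop.symm.dvd_of_dvd_mul_left h4
  have hmap : Set.MapsTo (fun p => resM M (a * blk M 0 p)) (bx M) (bx M) := by
    intro p _
    exact resM_mem hM _
  have hsum : ∑ p ∈ bx M, X (a * blk M 0 p) = ∑ p ∈ bx M, X (blk M 0 p) := by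
    apply Finset.sum_nbij (fun p => resM M (a * blk M 0 p))
    · intro p _; exact resM_mem hM _
    · exact hinj
    · exact Finset.surjOn_of_injOn_of_card_le _ hmap hinj le_rfl
    · intro p _
      exact hXper _ _ (hres _)
  simp only [hXmul] at hsum
  rw [← Finset.mul_sum] at hsum
  have h5 : (χ a - 1) * ∑ p ∈ bx M, X (blk M 0 p) = 0 := by
    rw [sub_mul, hsum]; ring
  rcases mul_eq_zero.mp h5 with h6 | h6
  · exact absurd (sub_eq_zero.mp h6) hne
  · exact h6

/-- (C2') character sums over the primary elements -/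
theorem C2_prim (l : ℤ) : ∃ C : ℝ, 0 < C ∧ ∀ (M : ℕ) (χ : Eis → ℂ), 0 < M → 3 ∣ M →
    (∀ a, IsPrim a → ‖χ a‖ ≤ 1) →
    (∀ a b, IsPrim a → IsPrim b → (M : Eis) ∣ a - b → χ a = χ b) →
    (l = 0 → ∃ a, IsPrim a ∧ IsCoprime a (M : Eis) ∧ χ a ≠ 1 ∧ ∀ b, IsPrim b → χ (a * b) = χ a * χ b) →
    ∀ N : ℕ, ‖∑ b ∈ primBall N, χ b * ang l b‖ ≤ C * M * Real.sqrt N := by
  classical
  obtain ⟨C, hC, h⟩ := C2 l
  refine ⟨C, hC, fun M χ hM h3 hle hper hne N => ?_⟩
  rcases Nat.eq_zero_or_pos N with rfl | hN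
  · have h25 := C1 0
    have : primBall 0 = ∅ := by
      rw [← Finset.card_eq_zero]
      simpa using h25
    rw [this]; simp
  · have h1 := h M (fun b => if IsPrim b then χ b else 0) hM ?_ ?_ ?_ N hN
    · refine le_trans (le_of_eq ?_) h1
      congr 1
      unfold primBall
      rw [Finset.sum_filter]
      apply Finset.sum_congr rfl
      intro b _
      split_ifs
      · rfl
      · simp
    · intro a
      split_ifs with ha
      · exact hle a ha
      · simp
    · intro k p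
      have hd : (M : Eis) ∣ blk M k p - blk M 0 p := by
        rw [blk_eq]; simp
      have h2 := isPrim_congr h3 hd
      by_cases hx : IsPrim (blk M k p)
      · rw [if_pos hx, if_pos (h2.mp hx)]
        exact hper _ _ hx (h2.mp hx) hd
      · rw [if_neg hx, if_neg (fun hy => hx (h2.mpr hy))]
    · intro hl
      obtain ⟨a, ha, hcop, hne', hmul⟩ := hne hl
      exact mean_zero_of_ne_one hM h3 hper ha hcop hne' hmul

end Crest.Agent.R012.P355
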