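import Crest.Agent.R012.Defs

/-!
# Row 12, part (M): interface (definitions + `Prop`s), sub-captain helper49

Everything in part (M) is stated through the explicit objects below; NO quotient space, NO
fundamental domain appears in the interface.

Convention: rows `v = (c, d)`, `3 ∣ c`, `d ≡ 1 (3)`, coprime, symbol `sy c d = (c/d)_3`,
frames `(η, ζ) ∈ ℂ² × ℂ²`, `v ↦ c η + d ζ`, unipotent direction `ζ ↦ ζ + x η`, `x` mod `3 Eis`.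
-/

set_option autoImplicit false

noncomputable section

open MeasureTheory Complex Set Filter Topology
open Crest.Agent.R012.Eis

namespace Crest.Agent.R012.M49

/-! ## Rows, frames -/





/-- `η₁ ζ₂ - η₂ ζ₁`. -/
def det2 (η ζ : ℂ × ℂ) : ℂ := η.1 * ζ.2 - η.2 * ζ.1




/-! ## The Gram form -/

/-- smooth cut-off in `|det|`. -/
structure IsW (ww : ℝ → ℝ) : Prop where
  smooth : ContDiff ℝ ((⊤ : ℕ∞) : WithTop ℕ∞) ww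
  nonneg : ∀ s, 0 ≤ ww s
  le_one : ∀ s, ww s ≤ 1
  one_on : ∀ s, 1 / 2 ≤ s → s ≤ 2 → ww s = 1
  supp_lo : ∀ s, s < 1 / 4 → ww s = 0
  supp_hi : ∀ s, 4 < s → ww s = 0

/-- Möbius function on primary elements. -/
def mob (e : Eis) : ℝ := by
  classical
  exact if Squarefree e then (-1) ^ (Multiset.card (UniqueFactorizationMonoid.factors e)) else 0

/-- `E(m) = ∏_{p ∣ m, p ∤ 3} (1 - 1/N p) = Σ_{e primary, e ∣ m} μ(e)/N(e)` (`m ≠ 0`). -/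
def EE (m : Eis) : ℝ := by
  classical
  exact ∑ e ∈ (primBall (nm m)).filter (fun e => e ∣ m), mob e / nm e

/-- `K_{F,F'}(s) = ∫∫ F(u) conj F'(y) w(|u ∧ y|/s) du dy`. -/
def KK (ww : ℝ → ℝ) (F F' : ℂ × ℂ → ℂ) (s : ℝ) : ℂ :=
  ∫ p : (ℂ × ℂ) × (ℂ × ℂ), F p.1 * (starRingEnd ℂ) (F' p.2) * (ww (‖det2 p.1 p.2‖ / s) : ℂ)


/-! ## Fourier coefficients in the strip -/




/-- weights of the level-`p` step. -/
def aP (p : Eis) (d : Eis) : ℂ := by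
  classical
  exact if p ∣ d then 1 else -(1 / (nm p : ℂ))




/-! ## Asymptotics of the Gram form -/

/-- **(M-LL)** lattice sum over cubes, error exponent `θ < 2` arbitrary. -/
def LL (ww : ℝ → ℝ) : Prop :=
  ∃ c : ℝ, 0 < c ∧ ∀ θ : ℝ, 4 / 3 < θ → θ < 2 → ∃ C : ℝ, ∀ P : ℝ, 0 < P →
    |(∑' m : Eis, (if m = 0 then 0 else
        EE m / (3 * nm m : ℝ) ^ 3 * ww (P / (3 * nm m : ℝ) ^ ((3 : ℝ) / 2)))) -
      c * P ^ (-(4 : ℝ) / 3)| ≤ C * P ^ (-θ)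


/-- `∫∫ F(u) conj F'(y) |u ∧ y|^{-4/3}`. -/
def BB (F F' : ℂ × ℂ → ℂ) : ℂ :=
  ∫ p : (ℂ × ℂ) × (ℂ × ℂ), F p.1 * (starRingEnd ℂ) (F' p.2) *
    ((‖det2 p.1 p.2‖ ^ (-(4 : ℝ) / 3) : ℝ) : ℂ)

/-- `∫∫ |F(u)| |F'(y)| |u ∧ y|^{-θ}`. -/
def JJ (θ : ℝ) (F F' : ℂ × ℂ → ℂ) : ℝ :=
  ∫ p : (ℂ × ℂ) × (ℂ × ℂ), ‖F p.1‖ * ‖F' p.2‖ * ‖det2 p.1 p.2‖ ^ (-θ)


/-- product test functions: `Φ₁` bounded with decay, `Φ₂` bounded, supported in the annulus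
`a ≤ |u| ≤ b`. -/
structure ProdF (a b C : ℝ) (Φ₁ Φ₂ : ℂ → ℂ) : Prop where
  apos : 0 < a
  ab : a ≤ b
  m1 : Measurable Φ₁
  m2 : Measurable Φ₂
  dec1 : ∀ z, ‖Φ₁ z‖ ≤ C * (1 + ‖z‖) ^ (-(12 : ℝ))
  bd2 : ∀ z, ‖Φ₂ z‖ ≤ C
  supp2 : ∀ z, ‖z‖ < a ∨ b < ‖z‖ → Φ₂ z = 0





/-! ## Flat test functions -/

/-- smooth compactly supported weights on `(0,∞)`. -/
structure Wt (v : ℝ → ℂ) : Prop where
  smooth : ContDiff ℝ ((⊤ : ℕ∞) : WithTop ℕ∞) v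
  supp : ∃ a b : ℝ, 0 < a ∧ a < b ∧ ∀ x, x < a ∨ b < x → v x = 0


/-- `Φ₁`: radial, Schwartz, with `∫ Φ₁(z) e(-ξ z) dz = 1` for `|ξ| ≤ 1`. -/
structure Flat (Φ₁ : ℂ → ℂ) : Prop where
  cont : Continuous Φ₁
  rad : ∀ z u : ℂ, ‖u‖ = 1 → Φ₁ (u * z) = Φ₁ z
  dec : ∀ n : ℕ, ∃ C : ℝ, ∀ z, ‖Φ₁ z‖ ≤ C * (1 + ‖z‖) ^ (-(n : ℝ))
  flat : ∀ ξ : ℂ, ‖ξ‖ ≤ 1 → ∫ z : ℂ, Φ₁ z * eC (-(ξ * z)) = 1


/-! ## The sums `S_h` and the mean-square theorem -/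

/-- `S_h(X) = Σ_{d ≡ 1 (3)} g̃(h,d) (d/|d|)^l v(N d/X) (N d)^{iτ}`, `g̃(h,d) = g(h,d)/√N(d)`. -/
def SS (l : ℤ) (τ : ℝ) (v : ℝ → ℂ) (h : Eis) (X : ℝ) : ℂ := by
  classical
  exact ∑' d : Eis, (if IsPrim d then
    gs h d / ((Real.sqrt (nm d) : ℝ) : ℂ) * ang l d * v (nm d / X) *
      (nm d : ℂ) ^ ((τ : ℂ) * Complex.I) else 0)

/-- sums with the level-`p` weight. -/
def SSp (p : Eis) (v : ℝ → ℂ) (h : Eis) (X : ℝ) : ℂ := by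
  classical
  exact ∑' d : Eis, (if IsPrim d then
    aP p d * (gs h d / ((Real.sqrt (nm d) : ℝ) : ℂ)) * v (nm d / X) else 0)

/-- **(M-ST)** one dyadic step: two scales `X` and `r X`, `1 ≤ r ≤ 2`. -/
def ST : Prop :=
  ∀ (l : ℤ) (v : ℝ → ℂ), Wt v → ∀ δ : ℝ, 0 < δ → ∃ C : ℝ, ∀ (N : ℕ) (X r τ : ℝ),
    1 ≤ N → 0 < X → 1 ≤ r → r ≤ 2 →
    ∑ h ∈ ball N, ‖SS l τ v h X - (r : ℂ) ^ (-((5 : ℂ) / 6 + τ * Complex.I)) * SS l τ v h (r * X)‖ ^ 2 ≤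
      C * ((1 + |τ|) * (1 + X)) ^ δ * ((N + τ ^ 2) * X)


/-- **(M-STp)** level `p`, fixed `h` (exponent any number `< 5/6`). -/
def STp : Prop :=
  ∀ (v : ℝ → ℂ), Wt v → ∀ p : Eis, Prime p → IsPrim p → ∀ h : Eis, ∃ C : ℝ, ∀ X : ℝ, 1 ≤ X →
    ‖SSp p v h X‖ ≤ C * X ^ ((3 : ℝ) / 4)

/-- **(M-MS)** mean square theorem with residues `ρ` (`X > 0` arbitrary). -/
def MS (ρ : Eis → ℂ) : Prop :=
  ∀ (l : ℤ) (v : ℝ → ℂ), Wt v → ∀ δ : ℝ, 0 < δ → ∃ C : ℝ, ∀ (N : ℕ) (X τ : ℝ),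
    1 ≤ N → 0 < X →
    ∑ h ∈ ball N, ‖SS l τ v h X - (if l = 0 then
        ρ h * mellin v ((5 : ℂ) / 6 + τ * Complex.I) * (X : ℂ) ^ ((5 : ℂ) / 6 + τ * Complex.I)
        else 0)‖ ^ 2 ≤
      C * ((1 + |τ|) * (1 + X) * N) ^ δ * ((N + τ ^ 2) * X)

/-- **(M-MS1)** the same for `X ≥ 1` only (this is what 384/663 have to deliver;
`MS1 ρ → MS ρ` is proved in `MSgen_49`). -/
def MS1 (ρ : Eis → ℂ) : Prop :=
  ∀ (l : ℤ) (v : ℝ → ℂ), Wt v → ∀ δ : ℝ, 0 < δ → ∃ C : ℝ, ∀ (N : ℕ) (X τ : ℝ),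
    1 ≤ N → 1 ≤ X →
    ∑ h ∈ ball N, ‖SS l τ v h X - (if l = 0 then
        ρ h * mellin v ((5 : ℂ) / 6 + τ * Complex.I) * (X : ℂ) ^ ((5 : ℂ) / 6 + τ * Complex.I)
        else 0)‖ ^ 2 ≤
      C * ((1 + |τ|) * X * N) ^ δ * ((N + τ ^ 2) * X)

/-- **(M-R)** relations between the residues. -/
structure RhoRel (ρ : Eis → ℂ) : Prop where
  one_p : ∀ p h : Eis, Prime p → IsPrim p → ¬ p ∣ h →
    ρ (h * p) = (starRingEnd ℂ) (gs h p / ((Real.sqrt (nm p) : ℝ) : ℂ)) *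
      (((nm p : ℝ) ^ (-(1 : ℝ) / 6) : ℝ) : ℂ) * ρ h
  two_p : ∀ p h : Eis, Prime p → IsPrim p → ¬ p ∣ h → ρ (h * p ^ 2) = 0
  three_p : ∀ p h : Eis, Prime p → IsPrim p → ρ (h * p ^ 3) = ρ h

/-- `ζ_K(2)` without the factor at 3. -/
def zeta2 : ℝ := by
  classical
  exact ∑' m : Eis, (if IsPrim m then 1 / (nm m : ℝ) ^ 2 else 0)

/-- density of squarefree primary elements: `#{b sqfree primary, N b ≤ x} ~ Dsf x`. -/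
def Dsf : ℝ := 2 * Real.pi / (9 * Real.sqrt 3) / zeta2

/-- **(M-C)** `|ρ(1)|² = (pC Dsf)²`, **(M-Sg)** sign. -/
def RhoOne (ρ : Eis → ℂ) : Prop := ρ 1 = ((pC * Dsf : ℝ) : ℂ)

/-! ## Final output of (M) -/

/-- Type I sums `Σ_b G(ab) λ^l(b) v(N b/X) N(b)^{iτ}`. -/
def TT (l : ℤ) (τ : ℝ) (v : ℝ → ℂ) (a : Eis) (X : ℝ) : ℂ := by
  classical
  exact ∑' b : Eis, (if IsPrim b then
    G (a * b) * ang l b * v (nm b / X) * (nm b : ℂ) ^ ((τ : ℂ) * Complex.I) else 0)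

/-- `∏_{p ∣ a} (1 + 1/N p)^{-1}` for squarefree primary `a`. -/
def ga (a : Eis) : ℝ :=
  ((UniqueFactorizationMonoid.factors a).map (fun p => (1 + 1 / (nm p : ℝ))⁻¹)).prod

/-- **(M-FINAL)** Type I in mean square, for squarefree primary moduli. -/
def TypeI : Prop :=
  ∀ (l : ℤ) (v : ℝ → ℂ), Wt v → ∀ δ : ℝ, 0 < δ → ∃ C : ℝ, ∀ (N : ℕ) (X τ : ℝ),
    1 ≤ N → 0 < X →
    ∑ a ∈ (by classical exact (primBall N).filter (fun a => Squarefree a)),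
      ‖TT l τ v a X - (if l = 0 then
        ((pC * Dsf * ga a * (nm a : ℝ) ^ (-(1 : ℝ) / 6) : ℝ) : ℂ) *
        mellin v ((5 : ℂ) / 6 + τ * Complex.I) * (X : ℂ) ^ ((5 : ℂ) / 6 + τ * Complex.I)
        else 0)‖ ^ 2 ≤
      C * ((1 + |τ|) * (1 + X) * N) ^ δ * ((N + τ ^ 2) * X)

end Crest.Agent.R012.M49
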