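import Crest.Agent.R012.Mob_705

/-!
# Row 12, item T3: the coefficients `τ(a)` and the decomposition `a = a₀ m³`

* `TP : Set (Eis × Eis)` : pairs `(a₀, m)` of primary elements with `a₀` squarefree
* `cp q = q.1 * q.2 ^ 3`, `cp_injOn : Set.InjOn cp TP`
* `tauE a = conj (G a₀) · N(a₀)^(-1/6)` if `a = a₀ m³`, `(a₀, m) ∈ TP`, and `0` otherwise
* `tsum_TP` : sums over `a` supported on the image of `TP` as sums over `TP`
-/

set_option autoImplicit false
set_option linter.unusedSimpArgs false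
set_option linter.unusedVariables false

noncomputable section

open Finset

namespace Crest.Agent.R012.Tau85

open Eis Crest.Agent.R012

/-- Pairs `(a₀, m)` of primary elements, `a₀` squarefree. -/
def TP : Set (Eis × Eis) := {q | IsPrim q.1 ∧ Squarefree q.1 ∧ IsPrim q.2}

/-- `(a₀, m) ↦ a₀ m³`. -/
def cp (q : Eis × Eis) : Eis := q.1 * q.2 ^ 3

lemma cp_isPrim {q : Eis × Eis} (hq : q ∈ TP) : IsPrim (cp q) := hq.1.mul (hq.2.2.pow 3)


lemma nm_cp (q : Eis × Eis) : nm (cp q) = nm q.1 * nm q.2 ^ 3 := by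
  rw [cp, nm_mul, nm_pow]

open Classical in
/-- For a prime `p`, the exponent of `p` in `a₀ m³` is `1` mod `3` iff `p ∣ a₀`. -/
lemma mult_mod {p a m : Eis} (hp : Prime p) (ha : a ≠ 0) (hs : Squarefree a) (hm : m ≠ 0) :
    multiplicity p (a * m ^ 3) = (if p ∣ a then 1 else 0) + 3 * multiplicity p m := by
  have hfin : FiniteMultiplicity p (a * m ^ 3) :=
    FiniteMultiplicity.of_prime_left hp (mul_ne_zero ha (pow_ne_zero _ hm))
  have hfm : FiniteMultiplicity p m := FiniteMultiplicity.of_prime_left hp hm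
  rw [multiplicity_mul hp hfin, hfm.multiplicity_pow hp]
  congr 1
  split_ifs with h
  · have hfa : FiniteMultiplicity p a := FiniteMultiplicity.of_prime_left hp ha
    have h1 : 1 ≤ multiplicity p a := by
      have := hfa.pow_dvd_iff_le_multiplicity (k := 1)
      exact this.mp (by simpa using h)
    have h2 : ¬ 2 ≤ multiplicity p a := by
      intro h2
      have := (hfa.pow_dvd_iff_le_multiplicity (k := 2)).mpr h2
      rw [pow_two] at this
      exact hp.not_isUnit (hs p this)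
    omega
  · exact multiplicity_eq_zero.mpr h

lemma cube_inj {m n : Eis} (hm : IsPrim m) (hn : IsPrim n) (h : m ^ 3 = n ^ 3) : m = n := by
  have hw := w_sq
  have hass : Associated n m := by
    have h1 : (m - n) * ((m - w * n) * (m - w ^ 2 * n)) = 0 := by
      have h2 : (m - n) * ((m - w * n) * (m - w ^ 2 * n)) = m ^ 3 - n ^ 3 := by
        have h3 := w_cube
        linear_combination (-m ^ 2 * n + m * n ^ 2) * hw + (m * n ^ 2 - n ^ 3) * h3
      rw [h2, h, sub_self]
    rcases mul_eq_zero.mp h1 with h2 | h2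
    · exact ⟨1, by rw [Units.val_one, mul_one]; exact (sub_eq_zero.mp h2).symm⟩
    rcases mul_eq_zero.mp h2 with h2 | h2
    · exact ⟨wU, by rw [wU_val, mul_comm]; exact (sub_eq_zero.mp h2).symm⟩
    · exact ⟨wU ^ 2, by rw [Units.val_pow_eq_pow_val, wU_val, mul_comm]
                        exact (sub_eq_zero.mp h2).symm⟩
  exact (hn.eq_of_associated hm hass).symm

lemma pp_eq_of_cp_eq {q r : Eis × Eis} (hq : q ∈ TP) (hr : r ∈ TP) (h : cp q = cp r) :
    Mob705.pp q.1 = Mob705.pp r.1 := by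
  ext p
  rw [Mob705.mem_pp hq.1.ne_zero, Mob705.mem_pp hr.1.ne_zero]
  constructor
  · rintro ⟨hp, hd⟩
    refine ⟨hp, ?_⟩
    have h1 := mult_mod hp.prime hq.1.ne_zero hq.2.1 hq.2.2.ne_zero
    have h2 := mult_mod hp.prime hr.1.ne_zero hr.2.1 hr.2.2.ne_zero
    unfold cp at h
    rw [h, h2, if_pos hd] at h1
    by_contra hnd
    rw [if_neg hnd] at h1
    omega
  · rintro ⟨hp, hd⟩
    refine ⟨hp, ?_⟩
    have h1 := mult_mod hp.prime hq.1.ne_zero hq.2.1 hq.2.2.ne_zero
    have h2 := mult_mod hp.prime hr.1.ne_zero hr.2.1 hr.2.2.ne_zero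
    unfold cp at h
    rw [h, h2, if_pos hd] at h1
    by_contra hnd
    rw [if_neg hnd] at h1
    omega

/-- The decomposition `a = a₀ m³` is unique. -/
lemma cp_injOn : Set.InjOn cp TP := by
  intro q hq r hr h
  have h1 : q.1 = r.1 := by
    rw [← Mob705.prod_pp hq.1 hq.2.1, ← Mob705.prod_pp hr.1 hr.2.1, pp_eq_of_cp_eq hq hr h]
  have h2 : q.2 ^ 3 = r.2 ^ 3 := by
    unfold cp at h
    rw [h1] at h
    exact mul_left_cancel₀ hr.1.ne_zero h
  exact Prod.ext h1 (cube_inj hq.2.2 hr.2.2 h2)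

lemma isCoprime_cp {q : Eis × Eis} {b : Eis} :
    IsCoprime (cp q) b ↔ IsCoprime q.1 b ∧ IsCoprime q.2 b := by
  unfold cp
  rw [IsCoprime.mul_left_iff, IsCoprime.pow_left_iff (by norm_num : 0 < 3)]

open Classical in
/-- The (normalised) cubic theta coefficients: `τ(a₀ m³) = conj (G a₀) N(a₀)^(-1/6)`, and `0` if `a`
is not of this form. -/
def tauE (a : Eis) : ℂ :=
  if h : ∃ q ∈ TP, cp q = a then
    (starRingEnd ℂ) (G (Classical.choose h).1) *
      (((nm (Classical.choose h).1 : ℝ) ^ (-(1 / 6 : ℝ)) : ℝ) : ℂ)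
  else 0

lemma tauE_cp {q : Eis × Eis} (hq : q ∈ TP) :
    tauE (cp q) = (starRingEnd ℂ) (G q.1) * (((nm q.1 : ℝ) ^ (-(1 / 6 : ℝ)) : ℝ) : ℂ) := by
  have h : ∃ r ∈ TP, cp r = cp q := ⟨q, hq, rfl⟩
  have h2 : Classical.choose h = q :=
    cp_injOn (Classical.choose_spec h).1 hq (Classical.choose_spec h).2
  unfold tauE
  rw [dif_pos h, h2]

lemma tauE_mul {a m : Eis} (ha : IsPrim a) (hs : Squarefree a) (hm : IsPrim m) :
    tauE (a * m ^ 3) = (starRingEnd ℂ) (G a) * (((nm a : ℝ) ^ (-(1 / 6 : ℝ)) : ℝ) : ℂ) :=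
  tauE_cp (q := (a, m)) ⟨ha, hs, hm⟩


lemma tauE_eq_zero {a : Eis} (h : ∀ q ∈ TP, cp q ≠ a) : tauE a = 0 := by
  unfold tauE
  rw [dif_neg]
  rintro ⟨q, hq, h2⟩
  exact h q hq h2



/-- `cp` on the subtype. -/
lemma cp_subtype_injective : Function.Injective (fun q : TP => cp q.1) := by
  intro q r h
  exact Subtype.ext (cp_injOn q.2 r.2 h)

/-- A sum over `a` supported on the elements `a₀ m³` is a sum over the pairs `(a₀, m)`. -/
lemma tsum_TP {E : Type*} [AddCommMonoid E] [TopologicalSpace E] (f : Eis → E)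
    (hf : ∀ a, (∀ q ∈ TP, cp q ≠ a) → f a = 0) :
    ∑' a, f a = ∑' q : TP, f (cp q.1) := by
  refine (Function.Injective.tsum_eq cp_subtype_injective ?_).symm
  intro a ha
  by_contra hc
  apply ha
  apply hf
  intro q hq h
  exact hc ⟨⟨q, hq⟩, h⟩


open Classical in
/-- The pair version with indicator functions on `Eis × Eis`. -/
lemma tsum_TP' {E : Type*} [AddCommMonoid E] [TopologicalSpace E] (f : Eis → E)
    (hf : ∀ a, (∀ q ∈ TP, cp q ≠ a) → f a = 0) :
    ∑' a, f a = ∑' q : Eis × Eis, if q ∈ TP then f (cp q) else 0 := by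
  rw [tsum_TP f hf, tsum_subtype TP (fun q => f (cp q))]
  rfl

end Crest.Agent.R012.Tau85
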