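import Mathlib
import Crest.Agent.R012.Dens_705
import Crest.Agent.R012.SpecM_49
import Crest.Agent.R012.PC_355
import Crest.Agent.R012.Zeta2_85

-- ▼ part R012/Abel_705
section

/-!
# Row 12: Abel summation, general form

`abel_main`: if `‖∑_{ν i ≤ Y} a i - κ Y‖ ≤ Er Y` then
`‖∑ a i * f (ν i) - κ ∫_0^∞ f‖ ≤ ∫_0^∞ Er t * ‖f' t‖ dt`.
The function `f` may be singular at `0`.
-/

set_option autoImplicit false

noncomputable section

open MeasureTheory Set Filter Topology

namespace Crest.Agent.R012.Abel705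

variable {ι : Type*} [Countable ι]

/-- Data for Abel summation: `s Y` is the finite set of indices with `ν i ≤ Y`. -/
structure Data (a : ι → ℂ) (ν : ι → ℝ) (s : ℝ → Finset ι) (K : ℝ) : Prop where
  pos : ∀ i, a i ≠ 0 → 0 < ν i
  mem : ∀ i, a i ≠ 0 → ∀ Y, i ∈ s Y ↔ ν i ≤ Y
  bound : ∀ Y, 0 < Y → ∑ i ∈ s Y, ‖a i‖ ≤ K * Y

variable {a : ι → ℂ} {ν : ι → ℝ} {s : ℝ → Finset ι} {K : ℝ}

lemma aesm_of_mul {g : ℝ → ℂ} (hg : IntegrableOn (fun t : ℝ => (t : ℂ) * g t) (Ioi 0)) :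
    AEStronglyMeasurable g (volume.restrict (Ioi 0)) := by
  have h1 : AEStronglyMeasurable (fun t : ℝ => (t : ℂ)⁻¹ * ((t : ℂ) * g t))
      (volume.restrict (Ioi 0)) := by
    refine AEStronglyMeasurable.mul ?_ hg.aestronglyMeasurable
    exact (Complex.measurable_ofReal.inv).aestronglyMeasurable
  refine h1.congr ?_
  filter_upwards [ae_restrict_mem measurableSet_Ioi] with t ht
  have : (t : ℂ) ≠ 0 := by
    have : (0 : ℝ) < t := ht
    exact_mod_cast this.ne'
  field_simp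

lemma integrableOn_Ioi {g : ℝ → ℂ} (hg : IntegrableOn (fun t : ℝ => (t : ℂ) * g t) (Ioi 0))
    {y : ℝ} (hy : 0 < y) : IntegrableOn g (Ici y) := by
  have h1 : IntegrableOn (fun t : ℝ => (t : ℂ) * g t) (Ici y) :=
    hg.mono_set fun t (ht : y ≤ t) => lt_of_lt_of_le hy ht
  have h2 : AEStronglyMeasurable g (volume.restrict (Ici y)) :=
    (aesm_of_mul hg).mono_measure
      (Measure.restrict_mono (fun t (ht : y ≤ t) => lt_of_lt_of_le hy ht) le_rfl)
  refine (h1.norm.const_mul y⁻¹).mono' h2 ?_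
  filter_upwards [ae_restrict_mem measurableSet_Ici] with t ht
  have h3 : y ≤ t := ht
  rw [norm_mul, Complex.norm_real, Real.norm_of_nonneg (by linarith), ← mul_assoc]
  have h4 : 1 ≤ y⁻¹ * t := by
    rw [inv_mul_eq_div, le_div_iff₀ hy]; linarith
  nlinarith [norm_nonneg (g t)]

omit [Countable ι] in
lemma sum_filter_le (h : Data a ν s K) (T : Finset ι) {t : ℝ} (ht : 0 < t) :
    ∑ i ∈ T, (if ν i ≤ t then ‖a i‖ else 0) ≤ K * t := by
  classical
  refine le_trans ?_ (h.bound t ht)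
  rw [← Finset.sum_filter]
  have h1 : ∑ i ∈ T with ν i ≤ t, ‖a i‖ = ∑ i ∈ (T.filter (fun i => ν i ≤ t)).filter (fun i => a i ≠ 0), ‖a i‖ := by
    refine (Finset.sum_filter_of_ne fun i _ hi hi0 => ?_).symm
    exact hi (by rw [hi0, norm_zero])
  rw [h1]
  refine Finset.sum_le_sum_of_subset_of_nonneg ?_ fun _ _ _ => norm_nonneg _
  intro i hi
  rw [Finset.mem_filter, Finset.mem_filter] at hi
  exact (h.mem i hi.2 t).mpr hi.1.2

/-- Convergence and the integral formula. -/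
theorem hasSum_abel (h : Data a ν s K) {g : ℝ → ℂ}
    (hg : IntegrableOn (fun t : ℝ => (t : ℂ) * g t) (Ioi 0)) :
    HasSum (fun i => a i * ∫ t in Ioi (ν i), g t)
      (∫ t in Ioi (0 : ℝ), (∑ i ∈ s t, a i) * g t) ∧
    Summable (fun i => ‖a i * ∫ t in Ioi (ν i), g t‖) ∧
    IntegrableOn (fun t => (∑ i ∈ s t, a i) * g t) (Ioi 0) := by
  classical
  set F : ι → ℝ → ℂ := fun i t => a i * (Ici (ν i)).indicator g t with hF
  have hint : ∀ i, Integrable (F i) (volume.restrict (Ioi 0)) := by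
    intro i
    by_cases hi : a i = 0
    · simp only [hF, hi, zero_mul]; exact integrable_zero _ _ _
    · refine Integrable.const_mul ?_ _
      have h1 := integrableOn_Ioi hg (h.pos i hi)
      exact ((integrable_indicator_iff measurableSet_Ici).mpr h1).integrableOn
  have hFi : ∀ i, ∫ t in Ioi (0 : ℝ), F i t = a i * ∫ t in Ioi (ν i), g t := by
    intro i
    by_cases hi : a i = 0
    · simp only [hF, hi, zero_mul, integral_zero]
    · simp only [hF]
      rw [integral_const_mul, integral_indicator measurableSet_Ici,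
        Measure.restrict_restrict measurableSet_Ici]
      congr 1
      have h2 : Ici (ν i) ∩ Ioi 0 = Ici (ν i) := by
        apply inter_eq_left.mpr
        intro t (ht : ν i ≤ t)
        exact lt_of_lt_of_le (h.pos i hi) ht
      rw [h2, integral_Ici_eq_integral_Ioi]
  have hnF : ∀ i, ∀ t ∈ Ioi (0 : ℝ), ‖F i t‖ = (if ν i ≤ t then ‖a i‖ else 0) * ‖g t‖ := by
    intro i t _
    simp only [hF, norm_mul]
    by_cases h3 : ν i ≤ t
    · rw [if_pos h3, indicator_of_mem (show t ∈ Ici (ν i) from h3)]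
    · rw [if_neg h3, indicator_of_notMem (show t ∉ Ici (ν i) from h3)]; simp
  have hsum : Summable fun i => ∫ t in Ioi (0 : ℝ), ‖F i t‖ := by
    refine summable_of_sum_le (c := ∫ t in Ioi (0 : ℝ), K * ‖(t : ℂ) * g t‖)
      (fun i => integral_nonneg fun t => norm_nonneg _) fun T => ?_
    rw [← integral_finsetSum _ fun i _ => (hint i).norm]
    refine setIntegral_mono_on (integrable_finsetSum _ fun i _ => (hint i).norm)
      (hg.norm.const_mul K) measurableSet_Ioi fun t ht => ?_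
    have ht0 : (0 : ℝ) < t := ht
    rw [Finset.sum_congr rfl fun i _ => hnF i t ht, ← Finset.sum_mul, norm_mul, Complex.norm_real,
      Real.norm_of_nonneg ht0.le, ← mul_assoc]
    exact mul_le_mul_of_nonneg_right (sum_filter_le h T ht0) (norm_nonneg _)
  have hmain := hasSum_integral_of_summable_integral_norm hint hsum
  have htsum : ∀ t ∈ Ioi (0 : ℝ), ∑' i, F i t = (∑ i ∈ s t, a i) * g t := by
    intro t _
    rw [tsum_eq_sum (s := s t)]
    · rw [Finset.sum_mul]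
      refine Finset.sum_congr rfl fun i hi => ?_
      by_cases hi0 : a i = 0
      · simp [hF, hi0]
      · simp only [hF]
        rw [indicator_of_mem (show t ∈ Ici (ν i) from (h.mem i hi0 t).mp hi)]
    · intro i hi
      by_cases hi0 : a i = 0
      · simp [hF, hi0]
      · simp only [hF]
        rw [indicator_of_notMem (show t ∉ Ici (ν i) from fun h' => hi ((h.mem i hi0 t).mpr h')),
          mul_zero]
  refine ⟨?_, ?_, ?_⟩
  · rw [setIntegral_congr_fun measurableSet_Ioi htsum] at hmain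
    simpa only [hFi] using hmain
  · refine hsum.of_nonneg_of_le (fun i => norm_nonneg _) fun i => ?_
    rw [← hFi i]
    exact norm_integral_le_integral_norm _
  · have hm : AEStronglyMeasurable (fun t => ∑' i, F i t) (volume.restrict (Ioi (0 : ℝ))) :=
      AEStronglyMeasurable.tsum fun i => (hint i).aestronglyMeasurable
    have hm2 : AEStronglyMeasurable (fun t => (∑ i ∈ s t, a i) * g t)
        (volume.restrict (Ioi (0 : ℝ))) := by
      refine hm.congr ?_
      filter_upwards [ae_restrict_mem measurableSet_Ioi] with t ht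
      exact htsum t ht
    refine (hg.norm.const_mul K).mono' hm2 ?_
    filter_upwards [ae_restrict_mem measurableSet_Ioi] with t ht
    have ht0 : (0 : ℝ) < t := ht
    rw [norm_mul, norm_mul, Complex.norm_real, Real.norm_of_nonneg ht0.le, ← mul_assoc]
    exact mul_le_mul_of_nonneg_right ((norm_sum_le _ _).trans (h.bound t ht0)) (norm_nonneg _)

/-- Fubini: `∫_0^∞ ∫_y^∞ g = ∫_0^∞ t g(t) dt`. -/
theorem integral_tail {g : ℝ → ℂ} (hg : IntegrableOn (fun t : ℝ => (t : ℂ) * g t) (Ioi 0)) :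
    IntegrableOn (fun y => ∫ t in Ioi y, g t) (Ioi 0) ∧
    ∫ y in Ioi (0 : ℝ), ∫ t in Ioi y, g t = ∫ t in Ioi (0 : ℝ), (t : ℂ) * g t := by
  set μ : Measure ℝ := volume.restrict (Ioi 0) with hμ
  set H : ℝ × ℝ → ℂ := {p : ℝ × ℝ | p.1 < p.2}.indicator (fun p => g p.2) with hH
  have hmeas : MeasurableSet {p : ℝ × ℝ | p.1 < p.2} :=
    measurableSet_lt measurable_fst measurable_snd
  have h1 : AEStronglyMeasurable H (μ.prod μ) :=
    ((aesm_of_mul hg).comp_snd).indicator hmeas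
  have hval : ∀ y t : ℝ, H (y, t) = (Iio t).indicator (fun _ => g t) y := by
    intro y t
    simp only [hH, indicator, mem_ofPred_eq, mem_Iio]
  have hval2 : ∀ y t : ℝ, H (y, t) = (Ioi y).indicator g t := by
    intro y t
    simp only [hH, indicator, mem_ofPred_eq, mem_Ioi]
  have hvol : ∀ t : ℝ, 0 < t → μ (Iio t) = ENNReal.ofReal t := by
    intro t _
    rw [hμ, Measure.restrict_apply measurableSet_Iio]
    have : Iio t ∩ Ioi 0 = Ioo 0 t := by ext; simp [and_comm]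
    rw [this, Real.volume_Ioo, sub_zero]
  have h2 : Integrable H (μ.prod μ) := by
    rw [integrable_prod_iff' h1]
    constructor
    · rw [hμ]
      filter_upwards [ae_restrict_mem measurableSet_Ioi] with t ht
      have ht0 : (0 : ℝ) < t := ht
      simp only [hval]
      rw [integrable_indicator_iff measurableSet_Iio]
      refine integrableOn_const ?_ 
      have := hvol t ht0
      rw [hμ] at this
      rw [this]
      exact ENNReal.ofReal_ne_top
    · refine (hg.norm).congr ?_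
      filter_upwards [ae_restrict_mem measurableSet_Ioi] with t ht
      have ht0 : (0 : ℝ) < t := ht
      have e : ∀ y, ‖H (y, t)‖ = (Iio t).indicator (fun _ => ‖g t‖) y := by
        intro y
        rw [hval, norm_indicator_eq_indicator_norm]
      simp only [e]
      rw [integral_indicator measurableSet_Iio, integral_const, norm_mul, Complex.norm_real,
        Real.norm_of_nonneg ht0.le, measureReal_restrict_apply_univ, measureReal_def,
        hvol t ht0, ENNReal.toReal_ofReal ht0.le, smul_eq_mul]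
  have h3 := integral_integral_swap (f := fun y t => H (y, t)) h2
  have h4 : ∀ y ∈ Ioi (0 : ℝ), ∫ t, H (y, t) ∂μ = ∫ t in Ioi y, g t := by
    intro y hy
    simp only [hval2]
    rw [integral_indicator measurableSet_Ioi, hμ, Measure.restrict_restrict measurableSet_Ioi]
    congr 2
    exact inter_eq_left.mpr fun t (ht : y < t) => lt_trans hy ht
  constructor
  · have h5 := h2.integral_prod_left
    refine h5.congr ?_
    rw [hμ]
    filter_upwards [ae_restrict_mem measurableSet_Ioi] with y hy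
    exact h4 y hy
  · have h6 : ∫ y in Ioi (0 : ℝ), ∫ t in Ioi y, g t = ∫ y, ∫ t, H (y, t) ∂μ ∂μ := by
      rw [hμ]
      refine setIntegral_congr_fun measurableSet_Ioi fun y hy => ?_
      exact (h4 y hy).symm
    rw [h6, h3]
    rw [hμ]
    refine setIntegral_congr_fun measurableSet_Ioi fun t ht => ?_
    have ht0 : (0 : ℝ) < t := ht
    simp only [hval]
    rw [integral_indicator measurableSet_Iio, integral_const, measureReal_restrict_apply_univ,
      measureReal_def]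
    have := hvol t ht0
    rw [hμ] at this
    rw [this, ENNReal.toReal_ofReal ht0.le, Complex.real_smul]

/-- **Abel summation.** -/
theorem abel_main (h : Data a ν s K) {κ : ℂ} {Er : ℝ → ℝ}
    (hEr : ∀ Y, 0 < Y → ‖∑ i ∈ s Y, a i - κ * Y‖ ≤ Er Y) {g f : ℝ → ℂ}
    (hg : IntegrableOn (fun t : ℝ => (t : ℂ) * g t) (Ioi 0))
    (hg2 : IntegrableOn (fun t => Er t * ‖g t‖) (Ioi 0))
    (hf : ∀ y, 0 < y → f y = - ∫ t in Ioi y, g t) :
    Summable (fun i => ‖a i * f (ν i)‖) ∧ IntegrableOn f (Ioi 0) ∧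
    ‖∑' i, a i * f (ν i) - κ * ∫ y in Ioi (0 : ℝ), f y‖ ≤ ∫ t in Ioi (0 : ℝ), Er t * ‖g t‖ := by
  obtain ⟨h1, h2, hA⟩ := hasSum_abel h hg
  obtain ⟨h3, h4⟩ := integral_tail hg
  have e1 : ∀ i, a i * f (ν i) = - (a i * ∫ t in Ioi (ν i), g t) := by
    intro i
    by_cases hi : a i = 0
    · simp [hi]
    · rw [hf _ (h.pos i hi)]; ring
  have e2 : ∫ y in Ioi (0 : ℝ), f y = - ∫ t in Ioi (0 : ℝ), (t : ℂ) * g t := by
    rw [setIntegral_congr_fun measurableSet_Ioi fun y hy => hf y hy, integral_neg, h4]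
  refine ⟨?_, ?_, ?_⟩
  · simpa only [e1, norm_neg] using h2
  · exact h3.neg.congr_fun (fun y hy => (hf y hy).symm) measurableSet_Ioi
  · simp only [e1]
    rw [tsum_neg, h1.tsum_eq, e2]
    have e3 : -(∫ t in Ioi (0 : ℝ), (∑ i ∈ s t, a i) * g t) -
        κ * -∫ t in Ioi (0 : ℝ), (t : ℂ) * g t =
        - ∫ t in Ioi (0 : ℝ), ((∑ i ∈ s t, a i) - κ * t) * g t := by
      rw [← sub_eq_zero]
      have : ∫ t in Ioi (0 : ℝ), ((∑ i ∈ s t, a i) - κ * t) * g t =
          (∫ t in Ioi (0 : ℝ), (∑ i ∈ s t, a i) * g t) - κ * ∫ t in Ioi (0 : ℝ), (t : ℂ) * g t := by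
        rw [← integral_const_mul, ← integral_sub hA (hg.const_mul κ)]
        refine setIntegral_congr_fun measurableSet_Ioi fun t _ => ?_
        ring
      rw [this]; ring
    rw [e3, norm_neg]
    refine norm_integral_le_of_norm_le hg2 ?_
    filter_upwards [ae_restrict_mem measurableSet_Ioi] with t ht
    rw [norm_mul]
    exact mul_le_mul_of_nonneg_right (hEr t ht) (norm_nonneg _)

/-- Abel summation for a function with a derivative, tending to `0` at infinity. -/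
theorem abel_deriv (h : Data a ν s K) {κ : ℂ} {Er : ℝ → ℝ}
    (hEr : ∀ Y, 0 < Y → ‖∑ i ∈ s Y, a i - κ * Y‖ ≤ Er Y) {f f' : ℝ → ℂ}
    (hf : ∀ y, 0 < y → HasDerivAt f (f' y) y) (h0 : Tendsto f atTop (𝓝 0))
    (hg : IntegrableOn (fun t : ℝ => (t : ℂ) * f' t) (Ioi 0))
    (hg2 : IntegrableOn (fun t => Er t * ‖f' t‖) (Ioi 0)) :
    Summable (fun i => ‖a i * f (ν i)‖) ∧ IntegrableOn f (Ioi 0) ∧
    ‖∑' i, a i * f (ν i) - κ * ∫ y in Ioi (0 : ℝ), f y‖ ≤ ∫ t in Ioi (0 : ℝ), Er t * ‖f' t‖ := by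
  refine abel_main h hEr hg hg2 fun y hy => ?_
  have h1 := integral_Ioi_of_hasDerivAt_of_tendsto'
    (fun x (hx : y ≤ x) => hf x (lt_of_lt_of_le hy hx))
    ((integrableOn_Ioi hg hy).mono_set Ioi_subset_Ici_self) h0
  rw [h1]; ring

omit [Countable ι] in
/-- Sharp cut-off: `∑_{ν i ≤ Y} a i * f (ν i)`, for `f` possibly singular at `0`. -/
theorem abel_sharp [Countable ι] (h : Data a ν s K) {κ : ℂ} {Er : ℝ → ℝ}
    (hEr : ∀ Y, 0 < Y → ‖∑ i ∈ s Y, a i - κ * Y‖ ≤ Er Y) {f f' : ℝ → ℂ}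
    {Y : ℝ} (hY : 0 < Y)
    (hf : ∀ y, 0 < y → HasDerivAt f (f' y) y)
    (hfc : ContinuousOn f' (Ioc 0 Y))
    (hg : IntegrableOn (fun t : ℝ => (t : ℂ) * f' t) (Ioc 0 Y))
    (hg2 : IntegrableOn (fun t => Er t * ‖f' t‖) (Ioc 0 Y)) :
    ‖∑ i ∈ s Y, a i * f (ν i) - κ * ∫ y in Ioc 0 Y, f y‖ ≤
      (∫ t in Ioc 0 Y, Er t * ‖f' t‖) + Er Y * ‖f Y‖ := by
  classical
  set g : ℝ → ℂ := (Ioc 0 Y).indicator f' with hgdef
  set F : ℝ → ℂ := fun y => - ∫ t in Ioi y, g t with hF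
  have hgi : IntegrableOn (fun t : ℝ => (t : ℂ) * g t) (Ioi 0) := by
    have e : (fun t : ℝ => (t : ℂ) * g t) = (Ioc 0 Y).indicator (fun t : ℝ => (t : ℂ) * f' t) := by
      ext t
      simp only [hgdef, indicator]
      split_ifs <;> simp
    rw [e]
    exact ((integrable_indicator_iff measurableSet_Ioc).mpr hg).integrableOn
  have hgi2 : IntegrableOn (fun t => Er t * ‖g t‖) (Ioi 0) := by
    have e : (fun t => Er t * ‖g t‖) = (Ioc 0 Y).indicator (fun t => Er t * ‖f' t‖) := by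
      ext t
      simp only [hgdef, indicator]
      split_ifs <;> simp
    rw [e]
    exact ((integrable_indicator_iff measurableSet_Ioc).mpr hg2).integrableOn
  obtain ⟨_, h2, h3⟩ := abel_main h hEr hgi hgi2 (f := F) (fun y _ => rfl)
  have e1 : ∫ t in Ioi (0 : ℝ), Er t * ‖g t‖ = ∫ t in Ioc 0 Y, Er t * ‖f' t‖ := by
    have e : (fun t => Er t * ‖g t‖) = (Ioc 0 Y).indicator (fun t => Er t * ‖f' t‖) := by
      ext t
      simp only [hgdef, indicator]
      split_ifs <;> simp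
    rw [e, setIntegral_indicator measurableSet_Ioc]
    congr 2
    exact inter_eq_right.mpr fun t ht => ht.1
  -- values of `F`
  have hFv : ∀ y, 0 < y → F y = if y ≤ Y then f y - f Y else 0 := by
    intro y hy
    simp only [hF, hgdef]
    rw [setIntegral_indicator measurableSet_Ioc]
    split_ifs with hyY
    · have e2 : Ioi y ∩ Ioc 0 Y = Ioc y Y := by
        ext t
        simp only [mem_inter_iff, mem_Ioi, mem_Ioc]
        constructor
        · rintro ⟨h1, _, h2⟩; exact ⟨h1, h2⟩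
        · rintro ⟨h1, h2⟩; exact ⟨h1, hy.trans h1, h2⟩
      rw [e2, ← intervalIntegral.integral_of_le hyY]
      rw [intervalIntegral.integral_eq_sub_of_hasDerivAt]
      · ring
      · intro x hx
        rw [uIcc_of_le hyY] at hx
        exact hf x (lt_of_lt_of_le hy hx.1)
      · refine ContinuousOn.intervalIntegrable ?_
        rw [uIcc_of_le hyY]
        exact hfc.mono fun x hx => ⟨lt_of_lt_of_le hy hx.1, hx.2⟩
    · have e2 : Ioi y ∩ Ioc 0 Y = ∅ := by
        ext t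
        simp only [mem_inter_iff, mem_Ioi, mem_Ioc, mem_empty_iff_false, iff_false, not_and,
          not_le]
        intro h1 _
        push Not at hyY
        exact hyY.trans h1
      rw [e2]; simp
  have e3 : ∑' i, a i * F (ν i) = ∑ i ∈ s Y, a i * (f (ν i) - f Y) := by
    rw [tsum_eq_sum (s := s Y)]
    · refine Finset.sum_congr rfl fun i hi => ?_
      by_cases hi0 : a i = 0
      · simp [hi0]
      · rw [hFv _ (h.pos i hi0), if_pos ((h.mem i hi0 Y).mp hi)]
    · intro i hi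
      by_cases hi0 : a i = 0
      · simp [hi0]
      · rw [hFv _ (h.pos i hi0), if_neg (fun h' => hi ((h.mem i hi0 Y).mpr h')), mul_zero]
  have e4 : ∫ y in Ioi (0 : ℝ), F y = ∫ y in Ioc 0 Y, (f y - f Y) := by
    have e : ∀ y ∈ Ioi (0 : ℝ), F y = (Ioc 0 Y).indicator (fun y => f y - f Y) y := by
      intro y hy
      rw [hFv y hy]
      by_cases hyY : y ≤ Y
      · rw [if_pos hyY, indicator_of_mem (show y ∈ Ioc 0 Y from ⟨hy, hyY⟩)]
      · rw [if_neg hyY, indicator_of_notMem (fun h' : y ∈ Ioc 0 Y => hyY h'.2)]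
    rw [setIntegral_congr_fun measurableSet_Ioi e, setIntegral_indicator measurableSet_Ioc]
    congr 2
    exact inter_eq_right.mpr fun t ht => ht.1
  have hint : IntegrableOn (fun y => f y - f Y) (Ioc 0 Y) := by
    have := h2.mono_set (show Ioc 0 Y ⊆ Ioi 0 from fun t ht => ht.1)
    refine this.congr_fun (fun y hy => ?_) measurableSet_Ioc
    rw [hFv y hy.1, if_pos hy.2]
  have hfi : IntegrableOn f (Ioc 0 Y) := by
    have := hint.add (integrableOn_const (s := Ioc 0 Y) (C := f Y) (by simp))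
    refine this.congr_fun (fun y _ => ?_) measurableSet_Ioc
    simp
  have e5 : ∫ y in Ioc 0 Y, (f y - f Y) = (∫ y in Ioc 0 Y, f y) - Y * f Y := by
    rw [integral_sub hfi (integrableOn_const (by simp))]
    simp [hY.le]
  rw [e3, e4, e5, e1] at h3
  have e6 : ∑ i ∈ s Y, a i * f (ν i) - κ * ∫ y in Ioc 0 Y, f y =
      (∑ i ∈ s Y, a i * (f (ν i) - f Y) - κ * ((∫ y in Ioc 0 Y, f y) - Y * f Y)) +
      (∑ i ∈ s Y, a i - κ * Y) * f Y := by
    simp only [mul_sub, Finset.sum_sub_distrib, ← Finset.sum_mul]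
    ring
  rw [e6]
  refine (norm_add_le _ _).trans (add_le_add h3 ?_)
  rw [norm_mul]
  exact mul_le_mul_of_nonneg_right (hEr Y hY) (norm_nonneg _)

end Crest.Agent.R012.Abel705
end
end

-- ▼ part R012/Model_705
section

/-!
# Row 12: the model side of Type I sums

* `dataSf`, `dataCop`, `dataPb` : Abel data for squarefree / coprime / all primary elements.
* `abel_wt` : `∑ a_i ν_i^(-σ+iτ) v(ν_i / X) = κ mellin v (1-σ+iτ) X^(1-σ+iτ) + O((1+|τ|) X^(1/2-σ) ..)`
* `model_typeI` : the model analogue of `M49.TypeI`, pointwise in the modulus.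
-/

set_option autoImplicit false

noncomputable section

open MeasureTheory Set Filter Topology

namespace Crest.Agent.R012.Model705

open Crest.Agent.R012 Crest.Agent.R012.Eis Crest.Agent.R012.Mob705 Crest.Agent.R012.Abel705
open Crest.Agent.R012.Lat277 Crest.Agent.R012.Div277

/-! ### Abel data -/

open Classical in
/-- indicator of the squarefree primary elements coprime to `a` -/
def iSf (a b : Eis) : ℂ := if IsPrim b ∧ IsCoprime b a ∧ Squarefree b then 1 else 0

open Classical in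
/-- indicator of the primary elements coprime to `a` -/
def iCop (a b : Eis) : ℂ := if IsPrim b ∧ IsCoprime b a then 1 else 0

lemma sum_iSf (a : Eis) (Y : ℝ) : ∑ b ∈ sfc a Y, iSf a b = ((sfc a Y).card : ℂ) := by
  rw [Finset.card_eq_sum_ones]
  push_cast
  refine Finset.sum_congr rfl fun b hb => ?_
  rw [mem_sfc] at hb
  rw [iSf, if_pos ⟨hb.1.2, hb.2⟩]

lemma sum_iCop (a : Eis) (Y : ℝ) : ∑ b ∈ cop a Y, iCop a b = ((cop a Y).card : ℂ) := by
  rw [Finset.card_eq_sum_ones]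
  push_cast
  refine Finset.sum_congr rfl fun b hb => ?_
  rw [mem_cop] at hb
  rw [iCop, if_pos ⟨hb.1.2, hb.2⟩]

lemma dataSf (a : Eis) : Data (iSf a) (fun b => (nm b : ℝ)) (sfc a) 100 where
  pos b hb := by
    unfold iSf at hb
    split_ifs at hb with h
    · exact lt_of_lt_of_le one_pos (one_le_nm_of_isPrim h.1)
    · exact absurd rfl hb
  mem b hb Y := by
    unfold iSf at hb
    split_ifs at hb with h
    · rw [mem_sfc]
      exact ⟨fun h' => h'.1.1, fun h' => ⟨⟨h', h.1⟩, h.2⟩⟩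
    · exact absurd rfl hb
  bound Y hY := by
    have h1 : ∑ b ∈ sfc a Y, ‖iSf a b‖ = ((sfc a Y).card : ℝ) := by
      rw [Finset.card_eq_sum_ones]
      push_cast
      refine Finset.sum_congr rfl fun b hb => ?_
      rw [mem_sfc] at hb
      rw [iSf, if_pos ⟨hb.1.2, hb.2⟩, norm_one]
    rw [h1]
    refine le_trans ?_ (card_pb_le Y hY.le)
    exact_mod_cast Finset.card_le_card ((sfc_subset a Y).trans (cop_subset a Y))

lemma dataCop (a : Eis) : Data (iCop a) (fun b => (nm b : ℝ)) (cop a) 100 where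
  pos b hb := by
    unfold iCop at hb
    split_ifs at hb with h
    · exact lt_of_lt_of_le one_pos (one_le_nm_of_isPrim h.1)
    · exact absurd rfl hb
  mem b hb Y := by
    unfold iCop at hb
    split_ifs at hb with h
    · rw [mem_cop]
      exact ⟨fun h' => h'.1.1, fun h' => ⟨⟨h', h.1⟩, h.2⟩⟩
    · exact absurd rfl hb
  bound Y hY := by
    have h1 : ∑ b ∈ cop a Y, ‖iCop a b‖ = ((cop a Y).card : ℝ) := by
      rw [Finset.card_eq_sum_ones]
      push_cast
      refine Finset.sum_congr rfl fun b hb => ?_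
      rw [mem_cop] at hb
      rw [iCop, if_pos ⟨hb.1.2, hb.2⟩, norm_one]
    rw [h1]
    refine le_trans ?_ (card_pb_le Y hY.le)
    exact_mod_cast Finset.card_le_card (cop_subset a Y)

/-- the error function -/
def er (Y : ℝ) : ℝ := Real.sqrt Y * (1 + Real.log (1 + Y))

lemma er_nonneg {Y : ℝ} (hY : 0 ≤ Y) : 0 ≤ er Y := by
  have : 0 ≤ Real.log (1 + Y) := Real.log_nonneg (by linarith)
  unfold er; positivity


lemma errSf {a : Eis} (ha : a ≠ 0) (Y : ℝ) (hY : 0 < Y) :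
    ‖∑ b ∈ sfc a Y, iSf a b - ((kap 1 * LF a : ℝ) : ℂ) * Y‖ ≤ 12800 * sig a * er Y := by
  rw [sum_iSf]
  have h := card_sfc' ha hY.le
  have e : ((sfc a Y).card : ℂ) - ((kap 1 * LF a : ℝ) : ℂ) * Y =
      (((sfc a Y).card - kap 1 * LF a * Y : ℝ) : ℂ) := by push_cast; ring
  rw [e, Complex.norm_real, Real.norm_eq_abs]
  unfold er
  linarith

lemma errCop {a : Eis} (ha : a ≠ 0) (Y : ℝ) (hY : 0 < Y) :
    ‖∑ b ∈ cop a Y, iCop a b - ((kap0 * PE a : ℝ) : ℂ) * Y‖ ≤ 61 * sig a * er Y := by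
  rw [sum_iCop]
  have h := card_cop ha hY.le
  have e : ((cop a Y).card : ℂ) - ((kap0 * PE a : ℝ) : ℂ) * Y =
      (((cop a Y).card - kap0 * PE a * Y : ℝ) : ℂ) := by push_cast; ring
  rw [e, Complex.norm_real, Real.norm_eq_abs]
  refine h.trans ?_
  unfold er
  have h1 : 0 ≤ Real.log (1 + Y) := Real.log_nonneg (by linarith)
  have h2 := sig_pos a
  have h3 := Real.sqrt_nonneg Y
  have : 0 ≤ 61 * sig a * Real.sqrt Y * Real.log (1 + Y) := by positivity
  nlinarith

/-! ### Smooth weights -/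

lemma log_aux {c X : ℝ} (hc : 0 ≤ c) (hX : 0 ≤ X) :
    1 + Real.log (1 + c * X) ≤ (1 + Real.log (1 + c)) * (1 + Real.log (1 + X)) := by
  have h1 : 0 ≤ Real.log (1 + c) := Real.log_nonneg (by linarith)
  have h2 : 0 ≤ Real.log (1 + X) := Real.log_nonneg (by linarith)
  have h3 : Real.log (1 + c * X) ≤ Real.log ((1 + c) * (1 + X)) :=
    Real.log_le_log (by positivity) (by nlinarith)
  rw [Real.log_mul (by positivity) (by positivity)] at h3
  nlinarith


/-! ### Sharp cut-off -/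

/-- `∑_{ν_i ≤ Y} a_i ν_i^z = κ Y^(z+1)/(z+1) + O(E (1+|z|) Y^(1/2-σ) (1+log(1+Y)))`, `z = -σ+iτ`,
`σ < 1/2`. -/
theorem abel_pow {ι : Type*} [Countable ι] {a : ι → ℂ} {ν : ι → ℝ} {s : ℝ → Finset ι} {K : ℝ}
    {κ : ℂ} {E : ℝ} (h : Data a ν s K) (hE : 0 ≤ E)
    (hEr : ∀ Y, 0 < Y → ‖∑ i ∈ s Y, a i - κ * Y‖ ≤ E * er Y) {z : ℂ} (hz : -(1 / 2) < z.re)
    {Y : ℝ} (hY : 0 < Y) :
    ‖∑ i ∈ s Y, a i * (ν i : ℂ) ^ z - κ * ((Y : ℂ) ^ (z + 1) / (z + 1))‖ ≤
      E * (1 + ‖z‖ / (1 / 2 + z.re)) * (Y ^ z.re * er Y) := by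
  have hlY : 0 ≤ Real.log (1 + Y) := Real.log_nonneg (by linarith)
  have hderiv : ∀ t : ℝ, 0 < t → HasDerivAt (fun t : ℝ => (t : ℂ) ^ z) (z * (t : ℂ) ^ (z - 1)) t := by
    intro t ht
    have h := ((hasDerivAt_id (t : ℂ)).cpow_const (c := z) (Or.inl (by simpa using ht))).comp_ofReal
    simpa using h
  have hcont : ∀ w : ℂ, ContinuousOn (fun t : ℝ => (t : ℂ) ^ w) (Ioi 0) := by
    intro w t ht
    have ht' : (0 : ℝ) < t := ht
    exact (Complex.continuousAt_ofReal_cpow_const t w (Or.inr ht'.ne')).continuousWithinAt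
  have hnorm : ∀ t : ℝ, 0 < t → ‖z * (t : ℂ) ^ (z - 1)‖ = ‖z‖ * t ^ (z.re - 1) := by
    intro t ht
    rw [norm_mul, Complex.norm_cpow_eq_rpow_re_of_pos ht]; simp
  -- integrability of powers
  have hpow : ∀ r : ℝ, -1 < r → IntegrableOn (fun t : ℝ => t ^ r) (Ioc 0 Y) := by
    intro r hr
    exact (intervalIntegrable_iff_integrableOn_Ioc_of_le hY.le).mp
      (intervalIntegral.intervalIntegrable_rpow' hr)
  have hsubset : Ioc 0 Y ⊆ Ioi (0 : ℝ) := fun t ht => ht.1
  have hc1 : ContinuousOn (fun t : ℝ => z * (t : ℂ) ^ (z - 1)) (Ioi 0) :=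
    continuousOn_const.mul (hcont _)
  have hg : IntegrableOn (fun t : ℝ => (t : ℂ) * (z * (t : ℂ) ^ (z - 1))) (Ioc 0 Y) := by
    refine ((hpow z.re (by linarith)).const_mul ‖z‖).mono' ?_ ?_
    · refine ContinuousOn.aestronglyMeasurable ?_ measurableSet_Ioc
      exact (Complex.continuous_ofReal.continuousOn).mul (hc1.mono hsubset)
    · filter_upwards [ae_restrict_mem measurableSet_Ioc] with t ht
      rw [norm_mul, hnorm t ht.1, Complex.norm_real, Real.norm_of_nonneg ht.1.le]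
      have : t ^ z.re = t ^ (z.re - 1) * t := by
        rw [← Real.rpow_add_one ht.1.ne']; congr 1; ring
      rw [this]
      exact le_of_eq (by ring)
  have her : ∀ t ∈ Ioc 0 Y, (E * er t) * ‖z * (t : ℂ) ^ (z - 1)‖ ≤
      (E * ‖z‖ * (1 + Real.log (1 + Y))) * t ^ (z.re - 1 / 2) := by
    intro t ht
    rw [hnorm t ht.1]
    have h1 : er t ≤ t ^ ((1 : ℝ) / 2) * (1 + Real.log (1 + Y)) := by
      unfold er
      rw [Real.sqrt_eq_rpow]
      have : Real.log (1 + t) ≤ Real.log (1 + Y) :=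
        Real.log_le_log (by linarith [ht.1]) (by linarith [ht.2])
      exact mul_le_mul_of_nonneg_left (by linarith) (by have := ht.1; positivity)
    have h2 : t ^ (z.re - 1 / 2) = t ^ (z.re - 1) * t ^ ((1 : ℝ) / 2) := by
      rw [← Real.rpow_add ht.1]; congr 1; ring
    rw [h2]
    have h3 : 0 ≤ t ^ (z.re - 1) := by have := ht.1; positivity
    calc (E * er t) * (‖z‖ * t ^ (z.re - 1)) ≤
        (E * (t ^ ((1 : ℝ) / 2) * (1 + Real.log (1 + Y)))) * (‖z‖ * t ^ (z.re - 1)) := by gcongr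
      _ = _ := by ring
  have hercont : ContinuousOn er (Ioi 0) := by
    unfold er
    refine ContinuousOn.mul Real.continuous_sqrt.continuousOn ?_
    refine continuousOn_const.add ?_
    refine ContinuousOn.log (by fun_prop) ?_
    intro t ht
    have : (0 : ℝ) < t := ht
    positivity
  have hpi := hpow (z.re - 1 / 2) (by linarith)
  have hg2 : IntegrableOn (fun t => (E * er t) * ‖z * (t : ℂ) ^ (z - 1)‖) (Ioc 0 Y) := by
    refine (hpi.const_mul (E * ‖z‖ * (1 + Real.log (1 + Y)))).mono' ?_ ?_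
    · refine ContinuousOn.aestronglyMeasurable ?_ measurableSet_Ioc
      exact (continuousOn_const.mul (hercont.mono hsubset)).mul (hc1.mono hsubset).norm
    · filter_upwards [ae_restrict_mem measurableSet_Ioc] with t ht
      rw [Real.norm_of_nonneg]
      · exact her t ht
      · have := er_nonneg ht.1.le
        positivity
  have hmain := abel_sharp h (Er := fun t => E * er t) hEr hY hderiv (hc1.mono hsubset) hg hg2
  have e1 : ∫ y in Ioc 0 Y, ((y : ℝ) : ℂ) ^ z = (Y : ℂ) ^ (z + 1) / (z + 1) := by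
    rw [← intervalIntegral.integral_of_le hY.le, integral_cpow (Or.inl (by linarith))]
    have hz1 : z + 1 ≠ 0 := by
      intro h0
      have := congrArg Complex.re h0
      simp at this
      linarith
    simp [Complex.zero_cpow hz1]
  have e2 : ∫ t in Ioc 0 Y, (fun t => E * er t) t * ‖z * (t : ℂ) ^ (z - 1)‖ ≤
      (E * ‖z‖ * (1 + Real.log (1 + Y))) * (Y ^ (z.re + 1 / 2) / (z.re + 1 / 2)) := by
    have h1 : ∫ t in Ioc 0 Y, (E * ‖z‖ * (1 + Real.log (1 + Y))) * t ^ (z.re - 1 / 2) =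
        (E * ‖z‖ * (1 + Real.log (1 + Y))) * (Y ^ (z.re + 1 / 2) / (z.re + 1 / 2)) := by
      rw [integral_const_mul, ← intervalIntegral.integral_of_le hY.le,
        integral_rpow (Or.inl (by linarith))]
      have h2 : z.re - 1 / 2 + 1 = z.re + 1 / 2 := by ring
      rw [h2, Real.zero_rpow (by linarith), sub_zero]
    rw [← h1]
    exact setIntegral_mono_on hg2 (hpi.const_mul _) measurableSet_Ioc her
  rw [e1] at hmain
  refine hmain.trans ?_
  have n1 : ‖(Y : ℂ) ^ z‖ = Y ^ z.re := Complex.norm_cpow_eq_rpow_re_of_pos hY z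
  have n2 : Y ^ (z.re + 1 / 2) * (1 + Real.log (1 + Y)) = Y ^ z.re * er Y := by
    unfold er
    rw [Real.rpow_add hY, Real.sqrt_eq_rpow]; ring
  calc _ ≤ (E * ‖z‖ * (1 + Real.log (1 + Y))) * (Y ^ (z.re + 1 / 2) / (z.re + 1 / 2)) +
        (E * er Y) * Y ^ z.re := by
          rw [← n1]; exact add_le_add e2 le_rfl
    _ = E * (‖z‖ / (z.re + 1 / 2)) * (Y ^ (z.re + 1 / 2) * (1 + Real.log (1 + Y))) +
        E * (Y ^ z.re * er Y) := by ring
    _ = _ := by rw [n2, add_comm z.re (1 / 2)]; ring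

/-- Sharp sums over squarefree primary elements coprime to `a`. -/
theorem sum_sfc_pow {a : Eis} (ha : a ≠ 0) {z : ℂ} (hz : -(1 / 2) < z.re) {Y : ℝ} (hY : 0 < Y) :
    ‖∑ b ∈ sfc a Y, ((nm b : ℝ) : ℂ) ^ z - ((kap 1 * LF a : ℝ) : ℂ) * ((Y : ℂ) ^ (z + 1) / (z + 1))‖ ≤
      12800 * sig a * (1 + ‖z‖ / (1 / 2 + z.re)) * (Y ^ z.re * er Y) := by
  have h := abel_pow (dataSf a) (E := 12800 * sig a) (by have := sig_pos a; positivity)
    (errSf ha) hz hY
  have e : ∑ b ∈ sfc a Y, iSf a b * ((nm b : ℝ) : ℂ) ^ z = ∑ b ∈ sfc a Y, ((nm b : ℝ) : ℂ) ^ z := by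
    refine Finset.sum_congr rfl fun b hb => ?_
    rw [mem_sfc] at hb
    rw [iSf, if_pos ⟨hb.1.2, hb.2⟩, one_mul]
  rwa [e] at h


/-- The sharp model sum with exponent `-1/6` (real form). -/
theorem sum_sfc_sixth {a : Eis} (ha : a ≠ 0) {Y : ℝ} (hY : 0 ≤ Y) :
    |∑ b ∈ sfc a Y, (nm b : ℝ) ^ (-(1 : ℝ) / 6) - kap 1 * LF a * ((6 / 5) * Y ^ ((5 : ℝ) / 6))| ≤
      19200 * sig a * (Y ^ ((1 : ℝ) / 3) * (1 + Real.log (1 + Y))) := by
  rcases hY.eq_or_lt with h0 | hY'
  · rw [← h0]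
    have : sfc a 0 = ∅ := by
      apply Finset.subset_empty.mp
      refine ((sfc_subset a 0).trans (cop_subset a 0)).trans ?_
      rw [pb_eq_empty (by norm_num)]
    rw [this]
    rw [Real.zero_rpow (by norm_num), Real.zero_rpow (by norm_num)]
    simp
  have h := sum_sfc_pow ha (z := ((-(1 : ℝ) / 6 : ℝ) : ℂ)) (by
    rw [Complex.ofReal_re]; norm_num) hY'
  have e1 : ∑ b ∈ sfc a Y, ((nm b : ℝ) : ℂ) ^ ((-(1 : ℝ) / 6 : ℝ) : ℂ) -
      ((kap 1 * LF a : ℝ) : ℂ) * ((Y : ℂ) ^ (((-(1 : ℝ) / 6 : ℝ) : ℂ) + 1) / (((-(1 : ℝ) / 6 : ℝ) : ℂ) + 1)) =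
      ((∑ b ∈ sfc a Y, (nm b : ℝ) ^ (-(1 : ℝ) / 6) - kap 1 * LF a * ((6 / 5) * Y ^ ((5 : ℝ) / 6)) : ℝ) : ℂ) := by
    have e2 : ((-(1 : ℝ) / 6 : ℝ) : ℂ) + 1 = (((5 : ℝ) / 6 : ℝ) : ℂ) := by
      rw [← Complex.ofReal_one, ← Complex.ofReal_add]; norm_num
    rw [e2, ← Complex.ofReal_cpow hY]
    push_cast
    congr 1
    · refine Finset.sum_congr rfl fun b _ => ?_
      rw [Complex.ofReal_cpow (by positivity)]
      push_cast; rfl
    · ring
  rw [e1, Complex.norm_real, Real.norm_eq_abs] at h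
  refine h.trans (le_of_eq ?_)
  rw [Complex.ofReal_re, Complex.norm_real]
  have e3 : Y ^ (-(1 : ℝ) / 6) * er Y = Y ^ ((1 : ℝ) / 3) * (1 + Real.log (1 + Y)) := by
    unfold er
    rw [Real.sqrt_eq_rpow, ← mul_assoc, ← Real.rpow_add hY']
    norm_num
  have e4 : 1 + ‖(-(1 : ℝ) / 6 : ℝ)‖ / (1 / 2 + -(1 : ℝ) / 6) = 3 / 2 := by
    rw [Real.norm_eq_abs]; norm_num [abs_of_pos]
  rw [e3, e4]
  ring

end Crest.Agent.R012.Model705
end
end

-- ▼ part R012/ModelExp_705
section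

/-!
# Row 12: Abel summation with the weight `t^z exp(-t/Y)`
-/

set_option autoImplicit false

noncomputable section

open MeasureTheory Set Filter Topology

namespace Crest.Agent.R012.Model705

open Crest.Agent.R012 Crest.Agent.R012.Eis Crest.Agent.R012.Mob705 Crest.Agent.R012.Abel705
open Crest.Agent.R012.Lat277 Crest.Agent.R012.Div277

/-- The integrals `∫ t^(s-1) exp(-t/Y) = Y^s Γ(s)`. -/
lemma integral_exp {s Y : ℝ} (hs : 0 < s) (hY : 0 < Y) :
    IntegrableOn (fun t : ℝ => t ^ (s - 1) * Real.exp (-(t / Y))) (Ioi 0) ∧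
    ∫ t in Ioi (0 : ℝ), t ^ (s - 1) * Real.exp (-(t / Y)) = Y ^ s * Real.Gamma s := by
  constructor
  · have h := integrableOn_rpow_mul_exp_neg_mul_rpow (p := 1) (s := s - 1) (b := 1 / Y)
      (by linarith) one_pos (by positivity)
    refine h.congr_fun (fun t _ => ?_) measurableSet_Ioi
    simp only [Real.rpow_one]
    congr 2; ring
  · have h := Real.integral_rpow_mul_exp_neg_mul_Ioi (a := s) (r := 1 / Y) hs (by positivity)
    have e : ∀ t ∈ Ioi (0 : ℝ), t ^ (s - 1) * Real.exp (-(t / Y)) =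
        t ^ (s - 1) * Real.exp (-(1 / Y * t)) := by
      intro t _; congr 2; ring
    rw [setIntegral_congr_fun measurableSet_Ioi e, h, one_div_one_div]

/-- The constant in `abel_exp`. -/
def cExp (r : ℝ) : ℝ := Real.Gamma (r + 1 / 2) + Real.Gamma (r + 3 / 2) + Real.Gamma (r + 5 / 2)

/-- Abel summation with the weight `t^z exp(-t/Y)`, `Re z > -1/2`. -/
theorem abel_exp {ι : Type*} [Countable ι] {a : ι → ℂ} {ν : ι → ℝ} {s : ℝ → Finset ι} {K : ℝ}
    {κ : ℂ} {E : ℝ} (h : Data a ν s K) (hE : 0 ≤ E)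
    (hEr : ∀ Y, 0 < Y → ‖∑ i ∈ s Y, a i - κ * Y‖ ≤ E * er Y) {z : ℂ} (hz : -(1 / 2) < z.re)
    {Y : ℝ} (hY : 0 < Y) :
    Summable (fun i => ‖a i * ((ν i : ℂ) ^ z * (Real.exp (-(ν i / Y)) : ℂ))‖) ∧
    ‖∑' i, a i * ((ν i : ℂ) ^ z * (Real.exp (-(ν i / Y)) : ℂ)) -
      κ * ((Y : ℂ) ^ (z + 1) * Complex.Gamma (z + 1))‖ ≤
      E * (cExp z.re * (1 + ‖z‖)) * (Y ^ z.re * er Y) := by
  set r := z.re with hr
  have hlY : 0 ≤ Real.log (1 + Y) := Real.log_nonneg (by linarith)
  set f : ℝ → ℂ := fun t => (t : ℂ) ^ z * (Real.exp (-(t / Y)) : ℂ) with hf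
  set f' : ℝ → ℂ := fun t => z * (t : ℂ) ^ (z - 1) * (Real.exp (-(t / Y)) : ℂ) +
    (t : ℂ) ^ z * ((Real.exp (-(t / Y)) * (-(1 / Y)) : ℝ) : ℂ) with hf'
  have hderiv : ∀ t : ℝ, 0 < t → HasDerivAt f (f' t) t := by
    intro t ht
    have h1 : HasDerivAt (fun t : ℝ => (t : ℂ) ^ z) (z * (t : ℂ) ^ (z - 1)) t := by
      have h := ((hasDerivAt_id (t : ℂ)).cpow_const (c := z) (Or.inl (by simpa using ht))).comp_ofReal
      simpa using h
    have h2 : HasDerivAt (fun t : ℝ => Real.exp (-(t / Y))) (Real.exp (-(t / Y)) * (-(1 / Y))) t :=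
      (((hasDerivAt_id t).div_const Y).neg).exp
    exact h1.mul h2.ofReal_comp
  have hcont : ∀ w : ℂ, ContinuousOn (fun t : ℝ => (t : ℂ) ^ w) (Ioi 0) := by
    intro w t ht
    have ht' : (0 : ℝ) < t := ht
    exact (Complex.continuousAt_ofReal_cpow_const t w (Or.inr ht'.ne')).continuousWithinAt
  have hcexp : Continuous (fun t : ℝ => ((Real.exp (-(t / Y)) : ℝ) : ℂ)) := by fun_prop
  have hcexp2 : Continuous (fun t : ℝ => ((Real.exp (-(t / Y)) * (-(1 / Y)) : ℝ) : ℂ)) := by fun_prop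
  have hc1 : ContinuousOn f' (Ioi 0) :=
    ((continuousOn_const.mul (hcont _)).mul hcexp.continuousOn).add
      ((hcont _).mul hcexp2.continuousOn)
  have hnorm : ∀ t : ℝ, 0 < t → ‖f' t‖ ≤
      (‖z‖ * t ^ (r - 1) + t ^ r / Y) * Real.exp (-(t / Y)) := by
    intro t ht
    simp only [hf']
    refine (norm_add_le _ _).trans (le_of_eq ?_)
    rw [norm_mul, norm_mul, norm_mul, Complex.norm_cpow_eq_rpow_re_of_pos ht,
      Complex.norm_cpow_eq_rpow_re_of_pos ht, Complex.norm_real, Complex.norm_real, norm_mul,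
      norm_neg, Real.norm_of_nonneg (Real.exp_pos _).le, Real.norm_of_nonneg (by positivity)]
    simp only [Complex.sub_re, Complex.one_re, ← hr]
    ring
  -- the majorant
  set L : ℝ := 1 + Real.log (1 + Y) with hL
  have hI1 := integral_exp (s := r + 1 / 2) (by linarith) hY
  have hI2 := integral_exp (s := r + 3 / 2) (by linarith) hY
  have hI3 := integral_exp (s := r + 5 / 2) (by linarith) hY
  set B : ℝ → ℝ := fun t => (E * L * ‖z‖) * (t ^ (r + 1 / 2 - 1) * Real.exp (-(t / Y))) +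
    (E * L * (‖z‖ + 1) / Y) * (t ^ (r + 3 / 2 - 1) * Real.exp (-(t / Y))) +
    (E * L / Y ^ 2) * (t ^ (r + 5 / 2 - 1) * Real.exp (-(t / Y))) with hB
  have hBi : IntegrableOn B (Ioi 0) :=
    ((hI1.1.const_mul _).add (hI2.1.const_mul _)).add (hI3.1.const_mul _)
  have hBv : ∫ t in Ioi (0 : ℝ), B t ≤ E * (cExp r * (1 + ‖z‖)) * (Y ^ r * er Y) := by
    have i12 : IntegrableOn (fun t : ℝ => (E * L * ‖z‖) * (t ^ (r + 1 / 2 - 1) * Real.exp (-(t / Y))) +
      (E * L * (‖z‖ + 1) / Y) * (t ^ (r + 3 / 2 - 1) * Real.exp (-(t / Y)))) (Ioi 0) :=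
      (hI1.1.const_mul _).add (hI2.1.const_mul _)
    simp only [hB]
    rw [integral_add i12 (hI3.1.const_mul _), integral_add (hI1.1.const_mul _) (hI2.1.const_mul _),
      integral_const_mul, integral_const_mul, integral_const_mul, hI1.2, hI2.2, hI3.2]
    have p1 : Y ^ (r + 3 / 2) = Y ^ (r + 1 / 2) * Y := by
      rw [← Real.rpow_add_one hY.ne']; congr 1; ring
    have p2 : Y ^ (r + 5 / 2) = Y ^ (r + 1 / 2) * Y ^ 2 := by
      rw [← Real.rpow_natCast, ← Real.rpow_add hY]; congr 1; push_cast; ring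
    have p3 : Y ^ r * er Y = Y ^ (r + 1 / 2) * L := by
      unfold er
      rw [Real.rpow_add hY, Real.sqrt_eq_rpow]; ring
    rw [p1, p2, p3]
    have g1 : 0 ≤ Real.Gamma (r + 1 / 2) := (Real.Gamma_pos_of_pos (by linarith)).le
    have g2 : 0 ≤ Real.Gamma (r + 3 / 2) := (Real.Gamma_pos_of_pos (by linarith)).le
    have g3 : 0 ≤ Real.Gamma (r + 5 / 2) := (Real.Gamma_pos_of_pos (by linarith)).le
    have e1 : E * L * ‖z‖ * (Y ^ (r + 1 / 2) * Real.Gamma (r + 1 / 2)) +
        E * L * (‖z‖ + 1) / Y * (Y ^ (r + 1 / 2) * Y * Real.Gamma (r + 3 / 2)) +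
        E * L / Y ^ 2 * (Y ^ (r + 1 / 2) * Y ^ 2 * Real.Gamma (r + 5 / 2)) =
        E * (Y ^ (r + 1 / 2) * L) * (‖z‖ * Real.Gamma (r + 1 / 2) +
          (‖z‖ + 1) * Real.Gamma (r + 3 / 2) + Real.Gamma (r + 5 / 2)) := by
      field_simp
    rw [e1]
    have e2 : ‖z‖ * Real.Gamma (r + 1 / 2) +
          (‖z‖ + 1) * Real.Gamma (r + 3 / 2) + Real.Gamma (r + 5 / 2) ≤ cExp r * (1 + ‖z‖) := by
      unfold cExp
      have := norm_nonneg z
      nlinarith [mul_nonneg this g3]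
    have e3 : 0 ≤ E * (Y ^ (r + 1 / 2) * L) := by positivity
    calc _ ≤ E * (Y ^ (r + 1 / 2) * L) * (cExp r * (1 + ‖z‖)) :=
          mul_le_mul_of_nonneg_left e2 e3
      _ = _ := by ring
  have hle : ∀ t ∈ Ioi (0 : ℝ), (E * er t) * ‖f' t‖ ≤ B t := by
    intro t ht
    have ht0 : (0 : ℝ) < t := ht
    have h1 : er t ≤ t ^ ((1 : ℝ) / 2) * (L * (1 + t / Y)) := by
      unfold er
      rw [Real.sqrt_eq_rpow]
      have h2 := log_aux (c := t / Y) (X := Y) (by positivity) hY.le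
      have h3 : t / Y * Y = t := by field_simp
      rw [h3] at h2
      have h4 := Real.log_le_sub_one_of_pos (x := 1 + t / Y) (by positivity)
      have h5 : (1 + Real.log (1 + t / Y)) * (1 + Real.log (1 + Y)) ≤ L * (1 + t / Y) := by
        rw [mul_comm]
        exact mul_le_mul_of_nonneg_left (by linarith) (by positivity)
      exact mul_le_mul_of_nonneg_left (h2.trans h5) (by positivity)
    have h6 := hnorm t ht0
    have h7 : (E * er t) * ‖f' t‖ ≤ (E * (t ^ ((1 : ℝ) / 2) * (L * (1 + t / Y)))) *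
        ((‖z‖ * t ^ (r - 1) + t ^ r / Y) * Real.exp (-(t / Y))) := by
      have := er_nonneg ht0.le
      gcongr
    refine h7.trans (le_of_eq ?_)
    simp only [hB]
    have q1 : t ^ (r + 1 / 2 - 1) = t ^ ((1 : ℝ) / 2) * t ^ (r - 1) := by
      rw [← Real.rpow_add ht0]; congr 1; ring
    have q2 : t ^ (r + 3 / 2 - 1) = t ^ ((1 : ℝ) / 2) * t ^ (r - 1) * t := by
      rw [← q1, ← Real.rpow_add_one ht0.ne']; congr 1; ring
    have q3 : t ^ (r + 5 / 2 - 1) = t ^ ((1 : ℝ) / 2) * t ^ (r - 1) * t * t := by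
      rw [← q2, ← Real.rpow_add_one ht0.ne']; congr 1; ring
    have q4 : t ^ r = t ^ (r - 1) * t := by
      rw [← Real.rpow_add_one ht0.ne']; congr 1; ring
    rw [q1, q2, q3, q4]
    field_simp
    ring
  have hercont : ContinuousOn er (Ioi 0) := by
    unfold er
    refine ContinuousOn.mul Real.continuous_sqrt.continuousOn ?_
    refine continuousOn_const.add ?_
    refine ContinuousOn.log (by fun_prop) ?_
    intro t ht
    have : (0 : ℝ) < t := ht
    positivity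
  have hg2 : IntegrableOn (fun t => (E * er t) * ‖f' t‖) (Ioi 0) := by
    refine hBi.mono' ?_ ?_
    · refine ContinuousOn.aestronglyMeasurable ?_ measurableSet_Ioi
      exact (continuousOn_const.mul hercont).mul hc1.norm
    · filter_upwards [ae_restrict_mem measurableSet_Ioi] with t ht
      have ht0 : (0 : ℝ) < t := ht
      have := er_nonneg ht0.le
      rw [Real.norm_of_nonneg (by positivity)]
      exact hle t ht
  have hg : IntegrableOn (fun t : ℝ => (t : ℂ) * f' t) (Ioi 0) := by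
    have hJ1 := integral_exp (s := r + 1) (by linarith) hY
    have hJ2 := integral_exp (s := r + 2) (by linarith) hY
    refine ((hJ1.1.const_mul ‖z‖).add (hJ2.1.const_mul (1 / Y))).mono' ?_ ?_
    · refine ContinuousOn.aestronglyMeasurable ?_ measurableSet_Ioi
      exact (Complex.continuous_ofReal.continuousOn).mul hc1
    · filter_upwards [ae_restrict_mem measurableSet_Ioi] with t ht
      have ht0 : (0 : ℝ) < t := ht
      rw [norm_mul, Complex.norm_real, Real.norm_of_nonneg ht0.le]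
      have h6 := hnorm t ht0
      refine (mul_le_mul_of_nonneg_left h6 ht0.le).trans (le_of_eq ?_)
      have q4 : t ^ (r + 1 - 1) = t ^ (r - 1) * t := by
        rw [← Real.rpow_add_one ht0.ne']; congr 1; ring
      have q5 : t ^ (r + 2 - 1) = t ^ (r - 1) * t * t := by
        rw [← Real.rpow_add_one ht0.ne', ← Real.rpow_add_one ht0.ne']; congr 1; ring
      have q6 : t ^ r = t ^ (r - 1) * t := by
        rw [← Real.rpow_add_one ht0.ne']; congr 1; ring
      simp only [Pi.add_apply]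
      rw [q4, q5, q6]
      ring
  have hlim : Tendsto f atTop (𝓝 0) := by
    rw [tendsto_zero_iff_norm_tendsto_zero]
    have h1 : Tendsto (fun t : ℝ => t ^ r * Real.exp (-(1 / Y) * t)) atTop (𝓝 0) :=
      tendsto_rpow_mul_exp_neg_mul_atTop_nhds_zero r (1 / Y) (by positivity)
    refine h1.congr' ?_
    filter_upwards [eventually_gt_atTop 0] with t ht
    simp only [hf]
    rw [norm_mul, Complex.norm_cpow_eq_rpow_re_of_pos ht, Complex.norm_real,
      Real.norm_of_nonneg (Real.exp_pos _).le]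
    congr 2; ring
  obtain ⟨r1, r2, r3⟩ := abel_deriv h (Er := fun t => E * er t) hEr hderiv hlim hg hg2
  refine ⟨r1, ?_⟩
  have hint : ∫ y in Ioi (0 : ℝ), f y = (Y : ℂ) ^ (z + 1) * Complex.Gamma (z + 1) := by
    have h1 := Complex.integral_cpow_mul_exp_neg_mul_Ioi (a := z + 1) (r := 1 / Y)
      (by simp; linarith) (by positivity)
    have e1 : ∀ t ∈ Ioi (0 : ℝ), f t =
        (t : ℂ) ^ (z + 1 - 1) * Complex.exp (-(((1 / Y : ℝ) : ℂ) * t)) := by
      intro t _
      simp only [hf, add_sub_cancel_right, Complex.ofReal_exp]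
      congr 2
      push_cast
      ring
    rw [setIntegral_congr_fun measurableSet_Ioi e1, h1]
    congr 1
    push_cast
    rw [one_div_one_div]
  rw [hint] at r3
  refine r3.trans (le_trans ?_ hBv)
  exact setIntegral_mono_on hg2 hBi measurableSet_Ioi hle

end Crest.Agent.R012.Model705
end
end

-- ▼ part R012/ModelAng_705
section

/-!
# Row 12: sums of `χ(b)` over squarefree primary elements coprime to `a` (no main term)

`χ` completely multiplicative on primary elements with `‖∑_{N b ≤ Y} χ b‖ ≤ E √Y`; the case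
`χ = ang l`, `l ≠ 0`.
-/

set_option autoImplicit false

noncomputable section

open MeasureTheory Set Filter Topology

namespace Crest.Agent.R012.Model705

open Crest.Agent.R012 Crest.Agent.R012.Eis Crest.Agent.R012.Mob705 Crest.Agent.R012.Abel705
open Crest.Agent.R012.Lat277 Crest.Agent.R012.Div277

/-- `χ` is completely multiplicative on primary elements, bounded by `1`, with square root
cancellation in the partial sums (constant `E`). -/
structure Chi (χ : Eis → ℂ) (E : ℝ) : Prop where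
  nonneg : 0 ≤ E
  mul : ∀ a b, IsPrim a → IsPrim b → χ (a * b) = χ a * χ b
  le_one : ∀ a, IsPrim a → ‖χ a‖ ≤ 1
  sum_le : ∀ Y, 0 ≤ Y → ‖∑ b ∈ pb Y, χ b‖ ≤ E * Real.sqrt Y

variable {χ : Eis → ℂ} {E : ℝ}

lemma sum_cop_eq (h : Chi χ E) {a : Eis} (ha : a ≠ 0) (Y : ℝ) :
    ∑ b ∈ cop a Y, χ b = ∑ d ∈ dvs a, (muE d : ℂ) * (χ d * ∑ b ∈ pb (Y / nm d), χ b) := by
  classical
  have h1 : ∑ b ∈ cop a Y, χ b = ∑ b ∈ pb Y, (if IsCoprime b a then (1 : ℂ) else 0) * χ b := by
    unfold cop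
    rw [Finset.sum_filter]
    refine Finset.sum_congr rfl fun b _ => ?_
    split_ifs <;> simp
  rw [h1]
  have h2 : ∀ b ∈ pb Y, (if IsCoprime b a then (1 : ℂ) else 0) * χ b =
      ∑ d ∈ dvs a, (if d ∣ b then (muE d : ℂ) * χ b else 0) := by
    intro b hb
    have h := sum_muE_coprime (mem_pb.mp hb).2 ha
    have h' := congrArg (Int.cast : ℤ → ℂ) h
    push_cast at h'
    rw [← h', Finset.sum_mul]
    refine Finset.sum_congr rfl fun d _ => ?_
    split_ifs <;> simp
  rw [Finset.sum_congr rfl h2, Finset.sum_comm]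
  refine Finset.sum_congr rfl fun d hd => ?_
  have hdp := isPrim_of_mem_dvs hd
  rw [← Finset.sum_filter, pb_filter_dvd Y hdp, Finset.sum_map, Finset.mul_sum, Finset.mul_sum]
  refine Finset.sum_congr rfl fun b hb => ?_
  rw [mulEmb_apply, h.mul d b hdp (mem_pb.mp hb).2]

/-- Sums over primary elements coprime to `a`. -/
theorem norm_sum_cop_le (h : Chi χ E) {a : Eis} (ha : a ≠ 0) {Y : ℝ} (hY : 0 ≤ Y) :
    ‖∑ b ∈ cop a Y, χ b‖ ≤ E * sig a * Real.sqrt Y := by
  rw [sum_cop_eq h ha, sig_eq_sum ha, Finset.mul_sum, Finset.sum_mul]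
  refine (norm_sum_le _ _).trans (Finset.sum_le_sum fun d hd => ?_)
  have hdp := isPrim_of_mem_dvs hd
  have h1 := h.sum_le (Y / nm d) (by positivity)
  have h2 : ‖(muE d : ℂ)‖ = |(muE d : ℝ)| := by
    rw [← Complex.ofReal_intCast, Complex.norm_real, Real.norm_eq_abs]
  rw [norm_mul, norm_mul, h2]
  have h3 := h.le_one d hdp
  have hE := h.nonneg
  calc |(muE d : ℝ)| * (‖χ d‖ * ‖∑ b ∈ pb (Y / nm d), χ b‖)
      ≤ |(muE d : ℝ)| * (1 * (E * Real.sqrt (Y / nm d))) := by gcongr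
    _ = E * (|(muE d : ℝ)| * (1 / Real.sqrt (nm d))) * Real.sqrt Y := by
        rw [Real.sqrt_div hY]; ring

lemma sum_sfc_eq (h : Chi χ E) (a : Eis) (Y : ℝ) :
    ∑ b ∈ sfc a Y, χ b =
      ∑ d ∈ cop a (Real.sqrt Y), (muE d : ℂ) * (χ (d ^ 2) * ∑ b ∈ cop a (Y / (nm d : ℝ) ^ 2), χ b) := by
  classical
  have h1 : ∑ b ∈ sfc a Y, χ b = ∑ b ∈ cop a Y, (if Squarefree b then (1 : ℂ) else 0) * χ b := by
    unfold sfc
    rw [Finset.sum_filter]
    refine Finset.sum_congr rfl fun b _ => ?_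
    split_ifs <;> simp
  rw [h1]
  have h2 : ∀ b ∈ cop a Y, (if Squarefree b then (1 : ℂ) else 0) * χ b =
      ∑ d ∈ cop a (Real.sqrt Y), (if d ^ 2 ∣ b then (muE d : ℂ) * χ b else 0) := by
    intro b hb
    rw [mem_cop] at hb
    have h := sum_muE_sq hb.1.2
    have h' := congrArg (Int.cast : ℤ → ℂ) h
    push_cast at h'
    rw [← h', Finset.sum_mul]
    have e : ∀ d ∈ dvs b, (if d ^ 2 ∣ b then (muE d : ℂ) else 0) * χ b =
        if d ^ 2 ∣ b then (muE d : ℂ) * χ b else 0 := by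
      intro d _; split_ifs <;> simp
    rw [Finset.sum_congr rfl e, ← Finset.sum_filter, ← Finset.sum_filter]
    refine Finset.sum_congr ?_ fun _ _ => rfl
    ext d
    rw [Finset.mem_filter, Finset.mem_filter, mem_dvs hb.1.2.ne_zero, mem_cop]
    constructor
    · rintro ⟨⟨h3, h4⟩, h5⟩
      refine ⟨⟨⟨?_, h3⟩, IsCoprime.of_isCoprime_of_dvd_left hb.2 h4⟩, h5⟩
      have h6 := nm_le_of_dvd hb.1.2.ne_zero h5
      rw [nm_pow] at h6
      have h7 : (nm d : ℝ) ^ 2 ≤ nm b := by exact_mod_cast h6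
      exact Real.le_sqrt_of_sq_le (h7.trans hb.1.1)
    · rintro ⟨⟨⟨_, h3⟩, _⟩, h5⟩
      exact ⟨⟨h3, (dvd_pow_self d two_ne_zero).trans h5⟩, h5⟩
  rw [Finset.sum_congr rfl h2, Finset.sum_comm]
  refine Finset.sum_congr rfl fun d hd => ?_
  rw [mem_cop] at hd
  rw [← Finset.sum_filter, cop_filter_dvd a Y (hd.1.2.pow 2) hd.2.pow_left, Finset.sum_map,
    Finset.mul_sum, Finset.mul_sum, nm_pow]
  push_cast
  refine Finset.sum_congr rfl fun b hb => ?_
  rw [mem_cop] at hb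
  rw [mulEmb_apply, h.mul (d ^ 2) b (hd.1.2.pow 2) hb.1.2]

/-- Sums over squarefree primary elements coprime to `a`. -/
theorem norm_sum_sfc_le (h : Chi χ E) {a : Eis} (ha : a ≠ 0) {Y : ℝ} (hY : 0 ≤ Y) :
    ‖∑ b ∈ sfc a Y, χ b‖ ≤ 200 * E * sig a * er Y := by
  rw [sum_sfc_eq h]
  have hE := h.nonneg
  have hsig := sig_pos a
  have hs := Real.sqrt_nonneg Y
  have h1 : ∀ d ∈ cop a (Real.sqrt Y),
      ‖(muE d : ℂ) * (χ (d ^ 2) * ∑ b ∈ cop a (Y / (nm d : ℝ) ^ 2), χ b)‖ ≤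
        E * sig a * Real.sqrt Y * (1 / (nm d : ℝ)) := by
    intro d hd
    rw [mem_cop] at hd
    have h2 := norm_sum_cop_le h ha (Y := Y / (nm d : ℝ) ^ 2) (by positivity)
    have h4 : Real.sqrt (Y / (nm d : ℝ) ^ 2) = Real.sqrt Y * (1 / (nm d : ℝ)) := by
      rw [Real.sqrt_div hY, Real.sqrt_sq (by positivity)]; ring
    rw [h4] at h2
    rw [norm_mul, norm_mul]
    have h5 := norm_muE_le d
    have h6 := h.le_one (d ^ 2) (hd.1.2.pow 2)
    calc _ ≤ 1 * (1 * (E * sig a * (Real.sqrt Y * (1 / (nm d : ℝ))))) := by gcongr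
      _ = _ := by ring
  refine (norm_sum_le _ _).trans ((Finset.sum_le_sum h1).trans ?_)
  rw [← Finset.mul_sum]
  have h5 : ∑ d ∈ cop a (Real.sqrt Y), (1 : ℝ) / nm d ≤ 100 * (1 + Real.log (1 + Real.sqrt Y)) := by
    refine le_trans ?_ (sum_inv_nm_le hs)
    exact Finset.sum_le_sum_of_subset_of_nonneg (cop_subset _ _) fun _ _ _ => by positivity
  have h6 : 1 + Real.log (1 + Real.sqrt Y) ≤ 2 * (1 + Real.log (1 + Y)) := by
    have h9 : 0 ≤ Real.log (1 + Y) := Real.log_nonneg (by linarith)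
    rcases le_or_gt Y 1 with h7 | h7
    · have h3 : Real.sqrt Y ≤ 1 := by
        rw [show (1 : ℝ) = Real.sqrt 1 by simp]; exact Real.sqrt_le_sqrt h7
      have h8 := Real.log_le_sub_one_of_pos (x := 1 + Real.sqrt Y) (by linarith)
      linarith
    · have h3 : Real.sqrt Y ≤ Y := by
        rw [Real.sqrt_le_left hY]; nlinarith
      have h8 : Real.log (1 + Real.sqrt Y) ≤ Real.log (1 + Y) :=
        Real.log_le_log (by linarith) (by linarith)
      linarith
  calc _ ≤ E * sig a * Real.sqrt Y * (100 * (2 * (1 + Real.log (1 + Y)))) := by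
        refine mul_le_mul_of_nonneg_left (h5.trans ?_) (by positivity)
        linarith
    _ = _ := by unfold er; ring

/-! ### Abel data with a twist -/

lemma dataSfChi (h : Chi χ E) (a : Eis) :
    Data (fun b => iSf a b * χ b) (fun b => (nm b : ℝ)) (sfc a) 100 where
  pos b hb := (dataSf a).pos b (left_ne_zero_of_mul hb)
  mem b hb := (dataSf a).mem b (left_ne_zero_of_mul hb)
  bound Y hY := by
    refine le_trans (Finset.sum_le_sum fun b hb => ?_) ((dataSf a).bound Y hY)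
    rw [norm_mul]
    rw [mem_sfc] at hb
    exact mul_le_of_le_one_right (norm_nonneg _) (h.le_one b hb.1.2)

lemma sum_iSf_chi (χ : Eis → ℂ) (a : Eis) (Y : ℝ) :
    ∑ b ∈ sfc a Y, iSf a b * χ b = ∑ b ∈ sfc a Y, χ b := by
  refine Finset.sum_congr rfl fun b hb => ?_
  rw [mem_sfc] at hb
  rw [iSf, if_pos ⟨hb.1.2, hb.2⟩, one_mul]

lemma errSfChi (h : Chi χ E) {a : Eis} (ha : a ≠ 0) (Y : ℝ) (hY : 0 < Y) :
    ‖∑ b ∈ sfc a Y, iSf a b * χ b - 0 * Y‖ ≤ 200 * E * sig a * er Y := by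
  rw [zero_mul, sub_zero, sum_iSf_chi]
  exact norm_sum_sfc_le h ha hY.le

/-- Sharp twisted sums. -/
theorem sum_sfc_chi_pow (h : Chi χ E) {a : Eis} (ha : a ≠ 0) {z : ℂ} (hz : -(1 / 2) < z.re)
    {Y : ℝ} (hY : 0 < Y) :
    ‖∑ b ∈ sfc a Y, χ b * ((nm b : ℝ) : ℂ) ^ z‖ ≤
      200 * E * sig a * (1 + ‖z‖ / (1 / 2 + z.re)) * (Y ^ z.re * er Y) := by
  have hE := h.nonneg
  have h1 := abel_pow (dataSfChi h a) (E := 200 * E * sig a) (by have := sig_pos a; positivity)
    (errSfChi h ha) hz hY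
  have e : ∑ b ∈ sfc a Y, iSf a b * χ b * ((nm b : ℝ) : ℂ) ^ z =
      ∑ b ∈ sfc a Y, χ b * ((nm b : ℝ) : ℂ) ^ z := by
    refine Finset.sum_congr rfl fun b hb => ?_
    rw [mem_sfc] at hb
    rw [iSf, if_pos ⟨hb.1.2, hb.2⟩, one_mul]
  rw [e] at h1
  simpa using h1

/-! ### The angular characters -/

/-- `ang l`, `l ≠ 0`. -/
theorem chi_ang {l : ℤ} (hl : l ≠ 0) : ∃ E : ℝ, Chi (ang l) E := by
  obtain ⟨C, hC, h⟩ := P355.C2_prim l
  refine ⟨C * (3 : ℕ), by positivity, fun a b _ _ => P355.ang_mul l a b,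
    fun a _ => P355.norm_ang_le l a, fun Y hY => ?_⟩
  have h1 := h 3 (fun _ => 1) (by norm_num) (dvd_refl 3) (fun _ _ => by simp)
    (fun _ _ _ _ _ => rfl) (fun h0 => absurd h0 hl) ⌊Y⌋₊
  simp only [one_mul] at h1
  unfold pb
  refine h1.trans ?_
  refine mul_le_mul_of_nonneg_left ?_ (by positivity)
  exact Real.sqrt_le_sqrt (Nat.floor_le hY)

/-- The sharp model sum with an angular character. -/
theorem sum_sfc_ang_sixth {l : ℤ} (hl : l ≠ 0) : ∃ C : ℝ, 0 ≤ C ∧ ∀ {a : Eis}, a ≠ 0 → ∀ {Y : ℝ},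
    0 ≤ Y → ‖∑ b ∈ sfc a Y, ang l b * (((nm b : ℝ) ^ (-(1 : ℝ) / 6) : ℝ) : ℂ)‖ ≤
      C * sig a * (Y ^ ((1 : ℝ) / 3) * (1 + Real.log (1 + Y))) := by
  obtain ⟨E, hE⟩ := chi_ang hl
  have hE0 := hE.nonneg
  refine ⟨300 * E, by positivity, fun {a} ha {Y} hY => ?_⟩
  rcases hY.eq_or_lt with h0 | hY'
  · rw [← h0]
    have : sfc a 0 = ∅ := by
      apply Finset.subset_empty.mp
      refine ((sfc_subset a 0).trans (cop_subset a 0)).trans ?_
      rw [pb_eq_empty (by norm_num)]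
    rw [this]
    have := sig_pos a
    simp
  have h := sum_sfc_chi_pow hE ha (z := ((-(1 : ℝ) / 6 : ℝ) : ℂ)) (by
    rw [Complex.ofReal_re]; norm_num) hY'
  have e1 : ∑ b ∈ sfc a Y, ang l b * ((nm b : ℝ) : ℂ) ^ ((-(1 : ℝ) / 6 : ℝ) : ℂ) =
      ∑ b ∈ sfc a Y, ang l b * (((nm b : ℝ) ^ (-(1 : ℝ) / 6) : ℝ) : ℂ) := by
    refine Finset.sum_congr rfl fun b _ => ?_
    rw [Complex.ofReal_cpow (by positivity)]
  rw [e1] at h
  refine h.trans (le_of_eq ?_)
  rw [Complex.ofReal_re, Complex.norm_real]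
  have e3 : Y ^ (-(1 : ℝ) / 6) * er Y = Y ^ ((1 : ℝ) / 3) * (1 + Real.log (1 + Y)) := by
    unfold er
    rw [Real.sqrt_eq_rpow, ← mul_assoc, ← Real.rpow_add hY']
    norm_num
  have e4 : 1 + ‖(-(1 : ℝ) / 6 : ℝ)‖ / (1 / 2 + -(1 : ℝ) / 6) = 3 / 2 := by
    rw [Real.norm_eq_abs]; norm_num [abs_of_pos]
  rw [e3, e4]
  ring

end Crest.Agent.R012.Model705
end
end

-- ▼ part R012/ModelFin_705

/-!
# Row 12: the model side of the sharp Type I sums, in the normalisation of `SpecM_49`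

* `kap_one_eq_Dsf : kap 1 = M49.Dsf`
* `ga_eq_LF : M49.ga a = LF a` for `a` primary squarefree
* `model_typeI` : sharp Type I sum of the model, all `l`.
-/

set_option autoImplicit false

noncomputable section

open MeasureTheory Set Filter Topology

namespace Crest.Agent.R012.Model705

open Crest.Agent.R012 Crest.Agent.R012.Eis Crest.Agent.R012.Mob705 Crest.Agent.R012.Abel705
open Crest.Agent.R012.Lat277 Crest.Agent.R012.Div277

lemma Z2_one_eq : T3_85.Z2 1 = M49.zeta2 := by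
  unfold T3_85.Z2 M49.zeta2
  refine tsum_congr fun m => ?_
  unfold T3_85.z2
  by_cases hm : IsPrim m
  · rw [if_pos ⟨hm, isCoprime_one_right⟩]
    rw [if_pos hm]
  · rw [if_neg (fun h => hm h.1)]
    rw [if_neg hm]

/-- The density of squarefree primary elements is `M49.Dsf`. -/
theorem kap_one_eq_Dsf : kap 1 = M49.Dsf := by
  have h1 := T3_85.kap_mul_Z2 1
  have h2 := T3_85.Z2_pos 1
  rw [PE_one, mul_one] at h1
  unfold M49.Dsf
  rw [← Z2_one_eq, eq_div_iff h2.ne', h1]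
  rfl

theorem Dsf_pos : 0 < M49.Dsf := by
  rw [← kap_one_eq_Dsf]; exact kap_one_pos

/-- `M49.ga = LF` on squarefree primary elements. -/
theorem ga_eq_LF {a : Eis} (ha : IsPrim a) (hs : Squarefree a) : M49.ga a = LF a := by
  have h1 : Multiset.Rel Associated (UniqueFactorizationMonoid.factors a) (pp a).val := by
    refine UniqueFactorizationMonoid.factors_unique
      (fun x hx => UniqueFactorizationMonoid.irreducible_of_factor x hx)
      (fun x hx => (isPP_of_mem_pp (Finset.mem_def.mpr hx)).prime.irreducible) ?_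
    have h2 : (pp a).val.prod = a := by
      have := prod_pp ha hs
      rwa [Finset.prod_eq_multiset_prod, Multiset.map_id'] at this
    rw [h2]
    exact UniqueFactorizationMonoid.factors_prod ha.ne_zero
  unfold M49.ga LF
  rw [Finset.prod_eq_multiset_prod]
  congr 1
  have h3 : Multiset.Rel Eq
      ((UniqueFactorizationMonoid.factors a).map (fun p => (1 + 1 / (nm p : ℝ))⁻¹))
      ((pp a).val.map (fun p => (1 + 1 / (nm p : ℝ))⁻¹)) := by
    rw [Multiset.rel_map]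
    refine h1.mono fun x _ y _ hxy => ?_
    rw [nm_eq_of_associated hxy]
  exact Multiset.rel_eq.mp h3

/-- Reindexing the sum over multiples of `d`. -/
lemma model_reindex (l : ℤ) {d : Eis} (hd : IsPrim d) (hds : Squarefree d) {X Y : ℕ} (hXY : Y ≤ X) :
    open Classical in
    ∑ m ∈ (primBall X).filter (fun m => nm (d * m) ≤ Y), (if Squarefree (d * m) then
        ang l (d * m) * ((pC * (nm (d * m) : ℝ) ^ (-(1 : ℝ) / 6) : ℝ) : ℂ) else 0) =
      ang l d * ((pC * (nm d : ℝ) ^ (-(1 : ℝ) / 6) : ℝ) : ℂ) *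
        ∑ m ∈ sfc d ((Y : ℝ) / nm d), ang l m * (((nm m : ℝ) ^ (-(1 : ℝ) / 6) : ℝ) : ℂ) := by
  classical
  have hdp : (0 : ℝ) < nm d := by exact_mod_cast nm_pos.mpr hd.ne_zero
  rw [← Finset.sum_filter, Finset.mul_sum]
  refine Finset.sum_congr ?_ fun m _ => ?_
  · ext m
    rw [Finset.mem_filter, Finset.mem_filter, mem_primBall, mem_sfc]
    constructor
    · rintro ⟨⟨⟨_, h2⟩, h3⟩, h4⟩
      have h5 := squarefree_mul_iff.mp h4
      refine ⟨⟨?_, h2⟩, h5.1.isCoprime.symm, h5.2.2⟩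
      rw [le_div_iff₀ hdp, mul_comm]
      rw [nm_mul] at h3
      exact_mod_cast h3
    · rintro ⟨⟨h1, h2⟩, h3, h4⟩
      rw [le_div_iff₀ hdp, mul_comm] at h1
      have h5 : nm (d * m) ≤ Y := by rw [nm_mul]; exact_mod_cast h1
      refine ⟨⟨⟨?_, h2⟩, h5⟩, squarefree_mul_iff.mpr ⟨h3.symm.isRelPrime, hds, h4⟩⟩
      refine le_trans ?_ (h5.trans hXY)
      rw [nm_mul]
      exact Nat.le_mul_of_pos_left _ (nm_pos.mpr hd.ne_zero)
  · rw [P355.ang_mul, nm_mul]
    push_cast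
    rw [Real.mul_rpow (by positivity) (by positivity)]
    push_cast
    ring

lemma pC_pos : 0 < pC := by
  unfold pC
  have : 0 < Real.Gamma (2 / 3) := Real.Gamma_pos_of_pos (by norm_num)
  positivity

open Classical in
/-- **Model side of the sharp Type I sums.** -/
theorem model_typeI (l : ℤ) : ∃ C : ℝ, 0 ≤ C ∧ ∀ (d : Eis) (X Y : ℕ), IsPrim d → Squarefree d →
    Y ≤ X →
    ‖(∑ m ∈ (primBall X).filter (fun m => nm (d * m) ≤ Y), (if Squarefree (d * m) then
        ang l (d * m) * ((pC * (nm (d * m) : ℝ) ^ (-(1 : ℝ) / 6) : ℝ) : ℂ) else 0)) -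
      (if l = 0 then ((pC * M49.Dsf * M49.ga d * (nm d : ℝ) ^ (-(1 : ℝ) / 6) *
        ((6 / 5) * ((Y : ℝ) / nm d) ^ ((5 : ℝ) / 6)) : ℝ) : ℂ) else 0)‖ ≤
      C * sig d * (nm d : ℝ) ^ (-(1 : ℝ) / 6) *
        (((Y : ℝ) / nm d) ^ ((1 : ℝ) / 3) * (1 + Real.log (1 + Y))) := by
  have hlogY : ∀ (d : Eis) (Y : ℕ), IsPrim d →
      Real.log (1 + (Y : ℝ) / nm d) ≤ Real.log (1 + Y) := by
    intro d Y hd
    have h1 := one_le_nm_of_isPrim hd
    refine Real.log_le_log (by positivity) ?_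
    have : (Y : ℝ) / nm d ≤ Y := div_le_self (by positivity) h1
    linarith
  have hpC := pC_pos
  by_cases hl : l = 0
  · subst hl
    refine ⟨pC * 19200, by positivity, fun d X Y hd hds hXY => ?_⟩
    rw [model_reindex 0 hd hds hXY, if_pos rfl, ga_eq_LF hd hds, ← kap_one_eq_Dsf]
    have h1 := sum_sfc_sixth hd.ne_zero (Y := (Y : ℝ) / nm d) (by positivity)
    have e1 : ang 0 d * ((pC * (nm d : ℝ) ^ (-(1 : ℝ) / 6) : ℝ) : ℂ) *
        ∑ m ∈ sfc d ((Y : ℝ) / nm d), ang 0 m * (((nm m : ℝ) ^ (-(1 : ℝ) / 6) : ℝ) : ℂ) -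
        ((pC * kap 1 * LF d * (nm d : ℝ) ^ (-(1 : ℝ) / 6) *
        ((6 / 5) * ((Y : ℝ) / nm d) ^ ((5 : ℝ) / 6)) : ℝ) : ℂ) =
        ((pC * (nm d : ℝ) ^ (-(1 : ℝ) / 6) * (∑ b ∈ sfc d ((Y : ℝ) / nm d),
          (nm b : ℝ) ^ (-(1 : ℝ) / 6) - kap 1 * LF d * ((6 / 5) * ((Y : ℝ) / nm d) ^ ((5 : ℝ) / 6))) : ℝ) : ℂ) := by
      simp only [P355.ang_zero, one_mul]
      push_cast
      ring
    rw [e1, Complex.norm_real, Real.norm_eq_abs, abs_mul, abs_of_nonneg (by positivity)]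
    have h2 := hlogY d Y hd
    have hsig := sig_pos d
    calc pC * (nm d : ℝ) ^ (-(1 : ℝ) / 6) * _ ≤ pC * (nm d : ℝ) ^ (-(1 : ℝ) / 6) *
          (19200 * sig d * (((Y : ℝ) / nm d) ^ ((1 : ℝ) / 3) * (1 + Real.log (1 + (Y : ℝ) / nm d)))) :=
          mul_le_mul_of_nonneg_left h1 (by positivity)
      _ ≤ pC * (nm d : ℝ) ^ (-(1 : ℝ) / 6) *
          (19200 * sig d * (((Y : ℝ) / nm d) ^ ((1 : ℝ) / 3) * (1 + Real.log (1 + Y)))) := by
          gcongr
      _ = _ := by ring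
  · obtain ⟨C, hC, h⟩ := sum_sfc_ang_sixth hl
    refine ⟨pC * C, by positivity, fun d X Y hd hds hXY => ?_⟩
    rw [model_reindex l hd hds hXY, if_neg hl, sub_zero, norm_mul, norm_mul, Complex.norm_real,
      Real.norm_of_nonneg (by positivity)]
    have h1 := h hd.ne_zero (Y := (Y : ℝ) / nm d) (by positivity)
    have h2 := hlogY d Y hd
    have h3 := P355.norm_ang_le l d
    have hsig := sig_pos d
    calc ‖ang l d‖ * (pC * (nm d : ℝ) ^ (-(1 : ℝ) / 6)) * _ ≤
          1 * (pC * (nm d : ℝ) ^ (-(1 : ℝ) / 6)) *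
          (C * sig d * (((Y : ℝ) / nm d) ^ ((1 : ℝ) / 3) * (1 + Real.log (1 + (Y : ℝ) / nm d)))) := by
            refine mul_le_mul (mul_le_mul_of_nonneg_right h3 (by positivity)) h1
              (norm_nonneg _) (by positivity)
      _ ≤ 1 * (pC * (nm d : ℝ) ^ (-(1 : ℝ) / 6)) *
          (C * sig d * (((Y : ℝ) / nm d) ^ ((1 : ℝ) / 3) * (1 + Real.log (1 + Y)))) := by
          gcongr
      _ = _ := by ring

end Crest.Agent.R012.Model705
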