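import Mathlib

-- ▼ part R012/Eis_666
section

/-!
# Row 12: the Eisenstein integers as a concrete ring

`Eis = ℤ[ω]`, `ω² = -1 - ω`, realised as `QuadraticAlgebra ℤ (-1) (-1)`:
an element is `⟨re, im⟩ = re + im·ω`.

* `Eis.w` : `ω`
* `Eis.nm z : ℕ` : the norm `re² - re·im + im²`
* `Eis.emb : Eis →+* ℂ` : the embedding `ω ↦ exp(2πi/3)`
* Euclidean domain instance, classification of units, the prime `lam = 1 - ω`, primary elements.
-/

set_option autoImplicit false
set_option linter.unusedSimpArgs false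
set_option linter.unusedVariables false

noncomputable section

namespace Crest.Agent.R012

/-- The Eisenstein integers `re + im·ω`, `ω² = -1 - ω`. -/
abbrev Eis : Type := QuadraticAlgebra ℤ (-1) (-1)

namespace Eis

/-- `ω`. -/
def w : Eis := ⟨0, 1⟩

@[simp] lemma w_re : w.re = 0 := rfl
@[simp] lemma w_im : w.im = 1 := rfl
@[simp] lemma one_re' : (1 : Eis).re = 1 := rfl
@[simp] lemma one_im' : (1 : Eis).im = 0 := rfl

lemma ext' {x y : Eis} (h1 : x.re = y.re) (h2 : x.im = y.im) : x = y := by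
  cases x; cases y; simp_all

lemma re_mul' (x y : Eis) : (x * y).re = x.re * y.re - x.im * y.im := by
  simp [QuadraticAlgebra.re_mul]; ring

lemma im_mul' (x y : Eis) : (x * y).im = x.re * y.im + x.im * y.re - x.im * y.im := by
  simp [QuadraticAlgebra.im_mul]; ring

lemma w_sq : w ^ 2 = -1 - w := by
  rw [pow_two]
  apply ext' <;> simp [re_mul', im_mul']

lemma w_cube : w ^ 3 = 1 := by
  rw [pow_succ, w_sq]
  apply ext' <;> simp [re_mul', im_mul']

lemma one_add_w_add : 1 + w + w ^ 2 = 0 := by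
  rw [w_sq]; ring

lemma eq_re_add (z : Eis) : z = (z.re : Eis) + (z.im : Eis) * w := by
  apply ext' <;> simp [re_mul', im_mul']

/-! ### Norm -/

/-- The norm, as a natural number. -/
def nm (z : Eis) : ℕ := (z.re ^ 2 - z.re * z.im + z.im ^ 2).natAbs

lemma form_nonneg (a b : ℤ) : 0 ≤ a ^ 2 - a * b + b ^ 2 := by
  nlinarith [sq_nonneg (a - b), sq_nonneg a, sq_nonneg b, sq_nonneg (a + b)]

lemma nm_cast (z : Eis) : (nm z : ℤ) = z.re ^ 2 - z.re * z.im + z.im ^ 2 := by
  unfold nm
  exact Int.natAbs_of_nonneg (form_nonneg _ _)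

lemma norm_eq_nm (z : Eis) : QuadraticAlgebra.norm z = (nm z : ℤ) := by
  rw [nm_cast, QuadraticAlgebra.norm_def]; ring

lemma nm_mul (x y : Eis) : nm (x * y) = nm x * nm y := by
  have : (nm (x * y) : ℤ) = nm x * nm y := by
    simp only [nm_cast, re_mul', im_mul']; ring
  exact_mod_cast this

@[simp] lemma nm_one : nm 1 = 1 := by simp [nm]
@[simp] lemma nm_zero : nm 0 = 0 := by simp [nm]
@[simp] lemma nm_w : nm w = 1 := by simp [nm]
@[simp] lemma nm_neg (x : Eis) : nm (-x) = nm x := by
  have : (nm (-x) : ℤ) = nm x := by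
    simp only [nm_cast, QuadraticAlgebra.re_neg, QuadraticAlgebra.im_neg]; ring
  exact_mod_cast this

lemma nm_pow (x : Eis) (n : ℕ) : nm (x ^ n) = nm x ^ n := by
  induction n with
  | zero => simp
  | succ n ih => rw [pow_succ, nm_mul, ih, pow_succ]

/-- The norm as a monoid homomorphism. -/
def nmHom : Eis →*₀ ℕ where
  toFun := nm
  map_zero' := nm_zero
  map_one' := nm_one
  map_mul' := nm_mul

@[simp] lemma nmHom_apply (x : Eis) : nmHom x = nm x := rfl

lemma nm_eq_zero {z : Eis} : nm z = 0 ↔ z = 0 := by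
  constructor
  · intro h
    have h' : (nm z : ℤ) = 0 := by exact_mod_cast h
    rw [nm_cast] at h'
    have h1 : z.re = 0 := by nlinarith [sq_nonneg (z.re - 2 * z.im), sq_nonneg z.re]
    have h2 : z.im = 0 := by rw [h1] at h'; nlinarith
    exact ext' (by simpa using h1) (by simpa using h2)
  · rintro rfl; simp

lemma nm_pos {z : Eis} : 0 < nm z ↔ z ≠ 0 := by
  rw [Nat.pos_iff_ne_zero, Ne, nm_eq_zero]

lemma nm_natCast (n : ℕ) : nm (n : Eis) = n ^ 2 := by
  have : (nm (n : Eis) : ℤ) = n ^ 2 := by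
    rw [nm_cast]; simp
  exact_mod_cast this

lemma nm_intCast (n : ℤ) : (nm (n : Eis) : ℤ) = n ^ 2 := by
  rw [nm_cast]; simp

/-- Conjugation. -/
def conj (z : Eis) : Eis := ⟨z.re - z.im, -z.im⟩

@[simp] lemma conj_re (z : Eis) : (conj z).re = z.re - z.im := rfl
@[simp] lemma conj_im (z : Eis) : (conj z).im = -z.im := rfl

lemma mul_conj (z : Eis) : z * conj z = (nm z : Eis) := by
  apply ext'
  · rw [re_mul', QuadraticAlgebra.re_natCast, nm_cast]; simp; ring
  · rw [im_mul', QuadraticAlgebra.im_natCast]; simp; ring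

/-- Conjugation as a ring automorphism. -/
def conjHom : Eis →+* Eis where
  toFun := conj
  map_zero' := by apply ext' <;> simp
  map_one' := by apply ext' <;> simp
  map_add' x y := by apply ext' <;> simp <;> ring
  map_mul' x y := by apply ext' <;> simp [re_mul', im_mul'] <;> ring

@[simp] lemma conjHom_apply (z : Eis) : conjHom z = conj z := rfl
@[simp] lemma conj_conj (z : Eis) : conj (conj z) = z := by apply ext' <;> simp
lemma conj_mul (x y : Eis) : conj (x * y) = conj x * conj y := conjHom.map_mul x y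
lemma conj_add (x y : Eis) : conj (x + y) = conj x + conj y := conjHom.map_add x y
lemma conj_sub (x y : Eis) : conj (x - y) = conj x - conj y := conjHom.map_sub x y
@[simp] lemma conj_one : conj 1 = 1 := conjHom.map_one
@[simp] lemma conj_zero : conj 0 = 0 := conjHom.map_zero
@[simp] lemma conj_w : conj w = w ^ 2 := by
  rw [w_sq]; apply ext' <;> simp
@[simp] lemma nm_conj (z : Eis) : nm (conj z) = nm z := by
  have : (nm (conj z) : ℤ) = nm z := by simp only [nm_cast, conj_re, conj_im]; ring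
  exact_mod_cast this

lemma conj_dvd_conj {x y : Eis} (h : x ∣ y) : conj x ∣ conj y := by
  obtain ⟨t, rfl⟩ := h; exact ⟨conj t, conj_mul _ _⟩

instance : IsDomain Eis := by
  have : NoZeroDivisors Eis := ⟨by
    intro a b h
    have h2 : nm a * nm b = 0 := by rw [← nm_mul, h, nm_zero]
    rcases Nat.mul_eq_zero.mp h2 with h | h
    · exact Or.inl (nm_eq_zero.mp h)
    · exact Or.inr (nm_eq_zero.mp h)⟩
  exact NoZeroDivisors.to_isDomain Eis

instance : CharZero Eis := by
  refine ⟨fun a b h => ?_⟩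
  have := congrArg QuadraticAlgebra.re h
  simpa using this

/-! ### Units -/

lemma isUnit_iff {z : Eis} : IsUnit z ↔ nm z = 1 := by
  constructor
  · rintro ⟨u, rfl⟩
    have : nm (u : Eis) * nm ((u⁻¹ : Eisˣ) : Eis) = 1 := by
      rw [← nm_mul]; simp
    exact Nat.eq_one_of_mul_eq_one_right this
  · intro h
    have := mul_conj z
    rw [h, Nat.cast_one] at this
    exact IsUnit.of_mul_eq_one _ this

lemma isUnit_cases {z : Eis} (h : IsUnit z) :
    z = 1 ∨ z = -1 ∨ z = w ∨ z = -w ∨ z = w ^ 2 ∨ z = -w ^ 2 := by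
  have h1 : (nm z : ℤ) = 1 := by rw [isUnit_iff.mp h]; rfl
  rw [nm_cast] at h1
  obtain ⟨a, b⟩ := z
  simp only at h1
  have ha : a ^ 2 ≤ 1 := by nlinarith [sq_nonneg (a - 2 * b)]
  have hb : b ^ 2 ≤ 1 := by nlinarith [sq_nonneg (2 * a - b)]
  have ha1 : -1 ≤ a := by nlinarith
  have ha2 : a ≤ 1 := by nlinarith
  have hb1 : -1 ≤ b := by nlinarith
  have hb2 : b ≤ 1 := by nlinarith
  have e2 : w ^ 2 = (⟨-1, -1⟩ : Eis) := by
    rw [w_sq]; apply ext' <;> simp
  rw [e2]
  interval_cases a <;> interval_cases b <;> simp at h1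
  · right; right; right; right; left; rfl
  · right; left; apply ext' <;> simp
  · right; right; right; left; apply ext' <;> simp
  · right; right; left; rfl
  · left; rfl
  · right; right; right; right; right; apply ext' <;> simp

lemma isUnit_w : IsUnit w := isUnit_iff.mpr nm_w

/-- `ω` as a unit. -/
def wU : Eisˣ := isUnit_w.unit
@[simp] lemma wU_val : (wU : Eis) = w := rfl

/-- Every unit is `± ω^k`. -/
lemma isUnit_exists {z : Eis} (h : IsUnit z) :
    ∃ k : ℕ, k < 3 ∧ (z = w ^ k ∨ z = -w ^ k) := by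
  rcases isUnit_cases h with rfl | rfl | rfl | rfl | rfl | rfl
  · exact ⟨0, by norm_num, Or.inl (by simp)⟩
  · exact ⟨0, by norm_num, Or.inr (by simp)⟩
  · exact ⟨1, by norm_num, Or.inl (by simp)⟩
  · exact ⟨1, by norm_num, Or.inr (by simp)⟩
  · exact ⟨2, by norm_num, Or.inl rfl⟩
  · exact ⟨2, by norm_num, Or.inr rfl⟩

/-! ### Euclidean structure -/

/-- Rounded quotient. -/
def quo (x y : Eis) : Eis :=
  let t := x * conj y
  let n : ℤ := ((nm y : ℕ) : ℤ)
  ⟨(2 * t.re + n) / (2 * n), (2 * t.im + n) / (2 * n)⟩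

lemma round_bound (a n : ℤ) (hn : 0 < n) :
    4 * (a - n * ((2 * a + n) / (2 * n))) ^ 2 ≤ n ^ 2 := by
  have h1 := Int.emod_add_mul_ediv (2 * a + n) (2 * n)
  have h2 := Int.emod_nonneg (2 * a + n) (show 2 * n ≠ 0 by omega)
  have h3 := Int.emod_lt_of_pos (2 * a + n) (show 0 < 2 * n by omega)
  set q := (2 * a + n) / (2 * n)
  set r := (2 * a + n) % (2 * n)
  have h4 : 2 * (a - n * q) = r - n := by linarith
  have h5 : 4 * (a - n * q) ^ 2 = (r - n) ^ 2 := by rw [← h4]; ring
  rw [h5]
  nlinarith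

lemma nm_sub_quo_lt (x : Eis) {y : Eis} (hy : y ≠ 0) : nm (x - y * quo x y) < nm y := by
  have hn : 0 < (nm y : ℤ) := by exact_mod_cast nm_pos.mpr hy
  set t := x * conj y with ht
  set n : ℤ := ((nm y : ℕ) : ℤ) with hndef
  set q := quo x y with hq
  have key : (nm (x - y * q) : ℤ) * n = nm (t - (n : Eis) * q) := by
    have : (x - y * q) * conj y = t - (n : Eis) * q := by
      have := mul_conj y
      rw [sub_mul, ← ht]
      congr 1
      have h2 : ((n : ℤ) : Eis) = ((nm y : ℕ) : Eis) := by rw [hndef]; simp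
      rw [h2, ← this]; ring
    rw [← this, nm_mul, nm_conj]; push_cast; rfl
  have hre : (t - (n : Eis) * q).re = t.re - n * ((2 * t.re + n) / (2 * n)) := by
    simp [re_mul', hq, quo, ← ht, ← hndef]
  have him : (t - (n : Eis) * q).im = t.im - n * ((2 * t.im + n) / (2 * n)) := by
    simp [im_mul', hq, quo, ← ht, ← hndef]
  have b1 := round_bound t.re n hn
  have b2 := round_bound t.im n hn
  rw [← hre] at b1
  rw [← him] at b2
  set u := (t - (n : Eis) * q).re
  set v := (t - (n : Eis) * q).im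
  have hnm : (nm (t - (n : Eis) * q) : ℤ) = u ^ 2 - u * v + v ^ 2 := nm_cast _
  have h6 : (nm (x - y * q) : ℤ) * n < n * n := by
    rw [key, hnm]
    nlinarith [sq_nonneg (u + v), sq_nonneg (u - v)]
  have h7 : (nm (x - y * q) : ℤ) < n := lt_of_mul_lt_mul_right h6 hn.le
  rw [hndef] at h7
  exact Int.ofNat_lt.mp h7

instance instEuclideanDomain : EuclideanDomain Eis :=
  { (inferInstance : CommRing Eis), (inferInstance : Nontrivial Eis) with
    quotient := quo
    quotient_zero := fun x => by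
      unfold quo; apply ext' <;> simp
    remainder := fun x y => x - y * quo x y
    quotient_mul_add_remainder_eq := fun x y => by ring
    r := fun x y => nm x < nm y
    r_wellFounded := (measure nm).wf
    remainder_lt := fun x {y} hy => nm_sub_quo_lt x hy
    mul_left_not_lt := fun x {y} hy h => by
      rw [nm_mul] at h
      have := nm_pos.mpr hy
      nlinarith [Nat.zero_le (nm x)] }


end Eis

end Crest.Agent.R012
end
end

-- ▼ part R012/Defs

/-!
# Row 12: common definitions  (everybody imports this file)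

`Eis = {re, im : ℤ}`, `ω² = -1 - ω`  (see `Eis_666.lean`), and then

* `toC : Eis →+* ℂ`, `ω ↦ wC = exp(2πi/3)`
* `nm z : ℕ` norm, `‖toC z‖² = nm z`
* `IsPrim z` : `z ≡ 1 (mod 3)`
* `eC z = exp(2πi (z + z̄))`
* `sy0 x p` : cubic residue symbol of `x` modulo a prime `p` with values in `ℂ`
* `sy x c = (x/c)_3` : product of `sy0 x p` over the prime factors `p` of `c`
* `sumMod c f` : sum of `f` over a complete residue system mod `c`
* `gs r c = Σ_{x mod c} (x/c)_3 e(r x / c)`, `G c = gs 1 c / √N(c)`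
* `ang l z = (z/|z|)^l`
* `ball X` : the finite set of `z` with `nm z ≤ X`, `primBall X` its primary elements.
-/

set_option autoImplicit false

noncomputable section

open Complex

namespace Crest.Agent.R012

open Eis

/-- `exp(2πi/3) = -1/2 + (√3/2) i`. -/
def wC : ℂ := ⟨-1 / 2, Real.sqrt 3 / 2⟩

lemma wC_sq : wC ^ 2 = -1 - wC := by
  have h3 : Real.sqrt 3 * Real.sqrt 3 = 3 := Real.mul_self_sqrt (by norm_num)
  apply Complex.ext
  · simp [wC, pow_two]; nlinarith
  · simp [wC, pow_two]; ring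

lemma wC_cube : wC ^ 3 = 1 := by
  rw [pow_succ, wC_sq]
  have := wC_sq
  linear_combination (-1 : ℂ) * this

lemma wC_ne_zero : wC ≠ 0 := by
  intro h
  have := congrArg Complex.re h
  simp [wC] at this

/-- The embedding `re + im ω ↦ re + im wC` of the Eisenstein integers in `ℂ`. -/
def toC : Eis →+* ℂ where
  toFun z := (z.re : ℂ) + (z.im : ℂ) * wC
  map_zero' := by simp
  map_one' := by simp
  map_add' x y := by simp; ring
  map_mul' x y := by
    simp only [re_mul', im_mul']
    push_cast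
    have := wC_sq
    linear_combination (-(x.im : ℂ) * y.im) * this

lemma toC_apply (z : Eis) : toC z = (z.re : ℂ) + (z.im : ℂ) * wC := rfl

lemma toC_re (z : Eis) : (toC z).re = z.re - z.im / 2 := by
  simp [toC_apply, wC]; ring

lemma toC_im (z : Eis) : (toC z).im = z.im * Real.sqrt 3 / 2 := by
  simp [toC_apply, wC]; ring

@[simp] lemma toC_w : toC w = wC := by simp [toC_apply]

lemma normSq_toC (z : Eis) : Complex.normSq (toC z) = nm z := by
  have h3 : Real.sqrt 3 * Real.sqrt 3 = 3 := Real.mul_self_sqrt (by norm_num)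
  rw [Complex.normSq_apply, toC_re, toC_im]
  have h : ((nm z : ℕ) : ℝ) = ((nm z : ℤ) : ℝ) := by norm_cast
  rw [h, nm_cast]
  push_cast
  linear_combination ((z.im : ℝ) ^ 2 / 4) * h3

lemma norm_toC_sq (z : Eis) : ‖toC z‖ ^ 2 = nm z := by
  rw [← Complex.normSq_eq_norm_sq, normSq_toC]

lemma norm_toC (z : Eis) : ‖toC z‖ = Real.sqrt (nm z) := by
  rw [← norm_toC_sq, Real.sqrt_sq (norm_nonneg _)]

lemma toC_injective : Function.Injective toC := by
  rw [injective_iff_map_eq_zero]
  intro z hz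
  have := normSq_toC z
  rw [hz, map_zero] at this
  exact nm_eq_zero.mp (by exact_mod_cast this.symm)

@[simp] lemma toC_eq_zero {z : Eis} : toC z = 0 ↔ z = 0 :=
  map_eq_zero_iff toC toC_injective

lemma toC_conj (z : Eis) : toC (Eis.conj z) = (starRingEnd ℂ) (toC z) := by
  apply Complex.ext
  · rw [toC_re, Complex.conj_re, toC_re]; simp; ring
  · rw [toC_im, Complex.conj_im, toC_im]; simp; ring

/-- Primary: congruent to `1` modulo `3`. -/
def IsPrim (z : Eis) : Prop := (3 : Eis) ∣ z - 1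

/-- The additive character `e(z) = exp(2πi (z + z̄))` of `ℂ`. -/
def eC (z : ℂ) : ℂ := Complex.exp (2 * Real.pi * Complex.I * (z + (starRingEnd ℂ) z))

open Classical in
/-- The cubic residue symbol `(x/p)_3` for a prime `p` not dividing `3`, as a complex number. -/
def sy0 (x p : Eis) : ℂ :=
  if p ∣ x then 0
  else if p ∣ x ^ ((nm p - 1) / 3) - 1 then 1
  else if p ∣ x ^ ((nm p - 1) / 3) - w then wC
  else wC ^ 2

/-- The cubic residue symbol `(x/c)_3` (for `c` prime to `3`): the product of `sy0 x p` over the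
prime factors `p` of `c`, with multiplicity. -/
def sy (x c : Eis) : ℂ :=
  ((UniqueFactorizationMonoid.factors c).map (fun p => sy0 x p)).prod

/-- Sum of `f` over a complete residue system modulo `c` (`c ≠ 0`). -/
def sumMod (c : Eis) (f : Eis → ℂ) : ℂ :=
  ∑ᶠ q : Eis ⧸ Ideal.span ({c} : Set Eis), f (Quotient.out q)

/-- The Gauss sum `g(r, c) = Σ_{x mod c} (x/c)_3 e(r x / c)`. -/
def gs (r c : Eis) : ℂ :=
  sumMod c (fun x => sy x c * eC (toC r * toC x / toC c))

/-- The normalised Gauss sum `G(c) = g(1, c) / √N(c)`. -/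
def G (c : Eis) : ℂ := gs 1 c / (Real.sqrt (nm c) : ℂ)

/-- The angular character `(z/|z|)^l`. -/
def ang (l : ℤ) (z : Eis) : ℂ := (toC z / (‖toC z‖ : ℂ)) ^ l

/-- `c = (2π)^(2/3) / (3 Γ(2/3))`. -/
def pC : ℝ := (2 * Real.pi) ^ ((2 : ℝ) / 3) / (3 * Real.Gamma (2 / 3))

/-- All Eisenstein integers of norm at most `X`. -/
def ball (X : ℕ) : Finset Eis :=
  ((Finset.Icc (-(X : ℤ)) X ×ˢ Finset.Icc (-(X : ℤ)) X).image
    (fun ab => (⟨ab.1, ab.2⟩ : Eis))).filter (fun z => nm z ≤ X)

lemma mem_ball {X : ℕ} {z : Eis} : z ∈ ball X ↔ nm z ≤ X := by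
  unfold ball
  simp only [Finset.mem_filter, Finset.mem_image, Finset.mem_product, Finset.mem_Icc,
    Prod.exists, and_iff_right_iff_imp]
  intro h
  refine ⟨z.re, z.im, ?_, rfl⟩
  have h1 : (nm z : ℤ) ≤ X := by exact_mod_cast h
  rw [nm_cast] at h1
  have key : ∀ a b : ℤ, a ^ 2 - a * b + b ^ 2 ≤ X → -(X : ℤ) ≤ a ∧ a ≤ X := by
    intro a b hab
    have hX : (0 : ℤ) ≤ X := Int.natCast_nonneg X
    have h3 : 3 * a ^ 2 ≤ 4 * X := by nlinarith [sq_nonneg (a - 2 * b)]
    constructor
    · by_contra hc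
      push Not at hc
      have h4 : (X : ℤ) + 1 ≤ -a := by omega
      have h5 : ((X : ℤ) + 1) ^ 2 ≤ a ^ 2 := by nlinarith
      nlinarith
    · by_contra hc
      push Not at hc
      have h4 : (X : ℤ) + 1 ≤ a := by omega
      have h5 : ((X : ℤ) + 1) ^ 2 ≤ a ^ 2 := by nlinarith
      nlinarith
  have k1 := key z.re z.im h1
  have k2 := key z.im z.re (by linarith [h1])
  exact ⟨k1, k2⟩

open Classical in
/-- All primary Eisenstein integers of norm at most `X`. -/
def primBall (X : ℕ) : Finset Eis := (ball X).filter IsPrim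

lemma mem_primBall {X : ℕ} {z : Eis} : z ∈ primBall X ↔ nm z ≤ X ∧ IsPrim z := by
  simp [primBall, mem_ball]

end Crest.Agent.R012
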