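import Mathlib
import Crest.Agent.R012.Defs

-- ▼ part R012/PoissonPi_581
section

/-!
# Poisson summation on `ℤ² ⊂ ℝ²`
-/

set_option autoImplicit false

noncomputable section

open MeasureTheory Complex

namespace Crest.Agent.R012.Po

/-- integer vector as a real vector -/
def zc (n : Fin 2 → ℤ) : Fin 2 → ℝ := fun i => (n i : ℝ)

lemma zc_norm (n : Fin 2 → ℤ) : ‖zc n‖ = ‖n‖ := by
  unfold zc
  rw [Pi.norm_def, Pi.norm_def]
  congr 1

/-- the additive character `exp(2πi k·v)` of `ℝ²`. -/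
def eP (k : Fin 2 → ℤ) (v : Fin 2 → ℝ) : ℂ :=
  Complex.exp (2 * Real.pi * I * ((k 0 : ℂ) * (v 0 : ℂ) + (k 1 : ℂ) * (v 1 : ℂ)))

lemma eP_norm (k : Fin 2 → ℤ) (v : Fin 2 → ℝ) : ‖eP k v‖ = 1 := by
  unfold eP
  rw [show (2 * Real.pi * I * ((k 0 : ℂ) * (v 0 : ℂ) + (k 1 : ℂ) * (v 1 : ℂ)))
    = ((2 * Real.pi * ((k 0 : ℝ) * v 0 + (k 1 : ℝ) * v 1) : ℝ) : ℂ) * I by push_cast; ring]
  exact Complex.norm_exp_ofReal_mul_I _

lemma eP_add (k : Fin 2 → ℤ) (v w : Fin 2 → ℝ) : eP k (v + w) = eP k v * eP k w := by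
  unfold eP
  rw [← Complex.exp_add]
  congr 1
  simp only [Pi.add_apply]
  push_cast
  ring

lemma eP_int (k n : Fin 2 → ℤ) : eP k (zc n) = 1 := by
  unfold eP zc
  rw [show (2 * Real.pi * I * ((k 0 : ℂ) * (((n 0 : ℤ) : ℝ) : ℂ) + (k 1 : ℂ) * (((n 1 : ℤ) : ℝ) : ℂ)))
    = ((k 0 * n 0 + k 1 * n 1 : ℤ) : ℂ) * (2 * Real.pi * I) by push_cast; ring]
  exact Complex.exp_int_mul_two_pi_mul_I _

lemma eP_cont (k : Fin 2 → ℤ) : Continuous (eP k) := by
  unfold eP
  fun_prop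

lemma eP_neg (k : Fin 2 → ℤ) (v : Fin 2 → ℝ) : eP (-k) v = (eP k v)⁻¹ := by
  unfold eP
  rw [← Complex.exp_neg]
  congr 1
  simp only [Pi.neg_apply]
  push_cast
  ring

lemma mFourier_eq (k : Fin 2 → ℤ) (v : Fin 2 → ℝ) :
    UnitAddTorus.mFourier k (fun i => (v i : UnitAddCircle)) = eP k v := by
  simp only [UnitAddTorus.mFourier, ContinuousMap.coe_mk, Fin.prod_univ_two, fourier_coe_apply]
  unfold eP
  rw [← Complex.exp_add]
  congr 1
  push_cast
  ring

lemma summable_pow3 : Summable (fun n : Fin 2 → ℤ => (1 / (1 + ‖n‖) ^ 3 : ℝ)) := by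
  have h := EisensteinSeries.summable_one_div_norm_rpow (k := 3) (by norm_num)
  refine Summable.of_norm_bounded_eventually (g := fun n : Fin 2 → ℤ => ‖n‖ ^ (-(3 : ℝ))) h ?_
  have hf : {n : Fin 2 → ℤ | n = 0}.Finite := Set.finite_singleton 0
  filter_upwards [hf.compl_mem_cofinite] with n hn
  have hn0 : n ≠ 0 := hn
  have hpos : 0 < ‖n‖ := norm_pos_iff.mpr hn0
  rw [Real.norm_of_nonneg (by positivity), Real.rpow_neg hpos.le]
  rw [one_div]
  apply inv_anti₀ (by positivity)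
  rw [show ((3 : ℝ)) = ((3 : ℕ) : ℝ) by norm_num, Real.rpow_natCast]
  gcongr
  linarith

lemma one_add_bound (x : Fin 2 → ℝ) (n : Fin 2 → ℤ) :
    1 + ‖n‖ ≤ (1 + ‖x + zc n‖) * (1 + ‖x‖) := by
  have h1 : ‖zc n‖ ≤ ‖x + zc n‖ + ‖x‖ := by
    calc ‖zc n‖ = ‖(x + zc n) - x‖ := by rw [add_sub_cancel_left]
      _ ≤ ‖x + zc n‖ + ‖x‖ := norm_sub_le _ _
  rw [zc_norm] at h1
  nlinarith [norm_nonneg (x + zc n), norm_nonneg x, mul_nonneg (norm_nonneg (x + zc n)) (norm_nonneg x)]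

variable {g : (Fin 2 → ℝ) → ℂ} {C : ℝ}

lemma term_bound (hC : ∀ v, ‖g v‖ ≤ C / (1 + ‖v‖) ^ 3) (x : Fin 2 → ℝ) (n : Fin 2 → ℤ) :
    ‖g (x + zc n)‖ ≤ C * (1 + ‖x‖) ^ 3 * (1 / (1 + ‖n‖) ^ 3) := by
  have hC0 : 0 ≤ C := by
    have := (norm_nonneg _).trans (hC 0)
    simpa using this
  refine (hC _).trans ?_
  rw [mul_one_div, div_le_div_iff₀ (by positivity) (by positivity)]
  have := one_add_bound x n
  calc C * (1 + ‖n‖) ^ 3 ≤ C * ((1 + ‖x + zc n‖) * (1 + ‖x‖)) ^ 3 := by gcongr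
    _ = C * (1 + ‖x‖) ^ 3 * (1 + ‖x + zc n‖) ^ 3 := by ring


lemma continuous_per (hg : Continuous g) (hC : ∀ v, ‖g v‖ ≤ C / (1 + ‖v‖) ^ 3) :
    Continuous (fun x : Fin 2 → ℝ => ∑' n : Fin 2 → ℤ, g (x + zc n)) := by
  have hC0 : 0 ≤ C := by
    have := (norm_nonneg _).trans (hC 0)
    simpa using this
  rw [continuous_iff_continuousAt]
  intro x
  have hon : ContinuousOn (fun x : Fin 2 → ℝ => ∑' n : Fin 2 → ℤ, g (x + zc n))
      (Metric.ball 0 (‖x‖ + 1)) := by
    refine continuousOn_tsum (fun n => ?_)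
      (summable_pow3.mul_left (C * (1 + (‖x‖ + 1)) ^ 3)) (fun n y hy => ?_)
    · exact (hg.comp (continuous_id.add continuous_const)).continuousOn
    · have hy' : ‖y‖ < ‖x‖ + 1 := by simpa using hy
      refine (term_bound hC y n).trans ?_
      gcongr
  apply hon.continuousAt
  apply Metric.isOpen_ball.mem_nhds
  simp

lemma integrable_of_decay (hg : Continuous g) (hC : ∀ v, ‖g v‖ ≤ C / (1 + ‖v‖) ^ 3) :
    Integrable g := by
  have h : Integrable (fun x : Fin 2 → ℝ => C * (1 + ‖x‖) ^ (-(3 : ℝ))) :=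
    (integrable_one_add_norm (E := Fin 2 → ℝ) (r := 3) (by simp; norm_num)).const_mul C
  refine h.mono' hg.aestronglyMeasurable (Filter.Eventually.of_forall fun v => ?_)
  refine (hC v).trans (le_of_eq ?_)
  rw [Real.rpow_neg (by positivity), show ((3 : ℝ)) = ((3 : ℕ) : ℝ) by norm_num,
    Real.rpow_natCast, div_eq_mul_inv]

/-- unit box at integer position `n` -/
def box (n : Fin 2 → ℤ) : Set (Fin 2 → ℝ) := {v | ∀ i, v i ∈ Set.Ioc (n i : ℝ) (n i + 1)}

lemma box_meas (n : Fin 2 → ℤ) : MeasurableSet (box n) :=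
  MeasurableSet.univ_pi' (fun _ => measurableSet_Ioc)

lemma box_disj : Pairwise (Function.onFun Disjoint box) := by
  intro m n hmn
  rw [Function.onFun, Set.disjoint_left]
  intro v hm hn
  apply hmn
  funext i
  have h1 := hm i
  have h2 := hn i
  have a1 : (m i : ℝ) < n i + 1 := lt_of_lt_of_le h1.1 h2.2
  have a2 : (n i : ℝ) < m i + 1 := lt_of_lt_of_le h2.1 h1.2
  have b1 : m i < n i + 1 := by exact_mod_cast a1
  have b2 : n i < m i + 1 := by exact_mod_cast a2
  omega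

lemma box_union : (⋃ n, box n) = Set.univ := by
  ext v
  simp only [Set.mem_iUnion, Set.mem_univ, iff_true]
  refine ⟨fun i => ⌈v i⌉ - 1, fun i => ⟨?_, ?_⟩⟩
  · have := Int.ceil_lt_add_one (v i)
    push_cast
    linarith
  · have := Int.le_ceil (v i)
    push_cast
    linarith

lemma integral_box {E : Type*} [NormedAddCommGroup E] [NormedSpace ℝ E]
    (h : (Fin 2 → ℝ) → E) (n : Fin 2 → ℤ) :
    ∫ v in box n, h v = ∫ v in box 0, h (v + zc n) := by
  rw [← integral_indicator (box_meas n), ← integral_indicator (box_meas 0),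
    ← integral_add_right_eq_self _ (zc n)]
  congr 1
  funext v
  have hiff : v + zc n ∈ box n ↔ v ∈ box 0 := by
    unfold box zc
    simp only [Set.mem_ofPred_eq, Pi.add_apply, Set.mem_Ioc, Pi.zero_apply, Int.cast_zero]
    refine forall_congr' fun i => ?_
    constructor
    · rintro ⟨h1, h2⟩; exact ⟨by linarith, by linarith⟩
    · rintro ⟨h1, h2⟩; exact ⟨by linarith, by linarith⟩
  by_cases hv : v ∈ box 0
  · rw [Set.indicator_of_mem (hiff.mpr hv), Set.indicator_of_mem hv]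
  · rw [Set.indicator_of_notMem (fun h' => hv (hiff.mp h')), Set.indicator_of_notMem hv]

lemma hasSum_box {h : (Fin 2 → ℝ) → ℂ} (hi : Integrable h) :
    HasSum (fun n => ∫ v in box 0, h (v + zc n)) (∫ v, h v) := by
  have := hasSum_integral_iUnion (f := h) (μ := volume) box_meas box_disj
    (by rw [box_union]; exact hi.integrableOn)
  rw [box_union, setIntegral_univ] at this
  convert! this using 1
  funext n
  exact (integral_box h n).symm

lemma summable_box_norm {h : (Fin 2 → ℝ) → ℂ} (hi : Integrable h) :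
    Summable (fun n => ∫ v in box 0, ‖h (v + zc n)‖) := by
  have := hasSum_integral_iUnion (f := fun v => ‖h v‖) (μ := volume) box_meas box_disj
    (by rw [box_union]; exact hi.norm.integrableOn)
  have h2 := this.summable
  convert! h2 using 1
  funext n
  exact (integral_box (fun v => ‖h v‖) n).symm

/-- **unfolding**: integral of a periodisation over the unit box. -/
lemma integral_box_tsum {h : (Fin 2 → ℝ) → ℂ} (hi : Integrable h) :
    ∫ v in box 0, ∑' n, h (v + zc n) = ∫ v, h v := by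
  rw [← (hasSum_box hi).tsum_eq]
  symm
  apply integral_tsum_of_summable_integral_norm
  · intro n
    exact (hi.comp_add_right (zc n)).integrableOn
  · exact summable_box_norm hi

/-- Fourier integral on `ℝ²`. -/
def fhP (g : (Fin 2 → ℝ) → ℂ) (k : Fin 2 → ℤ) : ℂ := ∫ v, eP (-k) v * g v

/-- **Poisson summation formula on `ℤ²`.** -/
theorem poisson_pi (hg : Continuous g) (hC : ∀ v, ‖g v‖ ≤ C / (1 + ‖v‖) ^ 3)
    (hs : Summable (fhP g)) (x : Fin 2 → ℝ) :
    ∑' n : Fin 2 → ℤ, g (x + zc n) = ∑' k : Fin 2 → ℤ, fhP g k * eP k x := by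
  set P : (Fin 2 → ℝ) → ℂ := fun x => ∑' n : Fin 2 → ℤ, g (x + zc n) with hP
  have hPper : ∀ (x : Fin 2 → ℝ) (m : Fin 2 → ℤ), P (x + zc m) = P x := by
    intro x m
    simp only [hP]
    rw [← (Equiv.addLeft m).tsum_eq (fun n => g (x + zc n))]
    refine tsum_congr fun n => ?_
    congr 1
    funext i
    simp [zc, add_assoc]
  let π : (Fin 2 → ℝ) → UnitAddTorus (Fin 2) := fun v i => (v i : UnitAddCircle)
  have hπq : IsOpenQuotientMap π := by
    have := IsOpenQuotientMap.piMap (f := fun _ : Fin 2 => ((↑) : ℝ → UnitAddCircle))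
      (fun _ => QuotientAddGroup.isOpenQuotientMap_mk)
    exact this
  let F0 : UnitAddTorus (Fin 2) → ℂ := fun t => P (fun i => Quotient.out (t i))
  have hF0 : ∀ v, F0 (π v) = P v := by
    intro v
    have : ∃ m : Fin 2 → ℤ, (fun i => Quotient.out (π v i)) = v + zc m := by
      have h1 : ∀ i, ∃ m : ℤ, Quotient.out (π v i) = v i + m := by
        intro i
        have h2 : ((Quotient.out (π v i) : ℝ) : UnitAddCircle) = (v i : UnitAddCircle) :=
          Quotient.out_eq' _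
        rw [QuotientAddGroup.eq] at h2
        rw [AddSubgroup.mem_zmultiples_iff] at h2
        obtain ⟨k, hk⟩ := h2
        refine ⟨-k, ?_⟩
        simp only [zsmul_eq_mul, mul_one] at hk
        push_cast
        linarith
      choose m hm using h1
      exact ⟨m, funext fun i => by simp [hm i, zc]⟩
    obtain ⟨m, hm⟩ := this
    simp only [F0]
    rw [hm, hPper]
  have hcF : Continuous F0 := by
    rw [hπq.isQuotientMap.continuous_iff]
    have : F0 ∘ π = P := funext hF0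
    rw [this]
    exact continuous_per hg hC
  let F : C(UnitAddTorus (Fin 2), ℂ) := ⟨F0, hcF⟩
  have hgi : Integrable g := integrable_of_decay hg hC
  have hcoef : ∀ k, UnitAddTorus.mFourierCoeff F k = fhP g k := by
    intro k
    rw [UnitAddTorus.mFourierCoeff_eq_integral (F : UnitAddTorus (Fin 2) → ℂ) k (fun _ => 0)]
    have hbox : {x : Fin 2 → ℝ | ∀ i, x i ∈ Set.Ioc ((fun _ => (0:ℝ)) i) ((fun _ => (0:ℝ)) i + 1)}
        = box 0 := by
      ext v; simp [box]
    rw [hbox]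
    have hint : Integrable (fun v => eP (-k) v * g v) := by
      refine hgi.norm.mono' ((eP_cont _).mul hg).aestronglyMeasurable
        (Filter.Eventually.of_forall fun v => ?_)
      rw [norm_mul, eP_norm, one_mul]
    unfold fhP
    rw [← integral_box_tsum hint]
    refine setIntegral_congr_fun (box_meas 0) fun v _ => ?_
    show UnitAddTorus.mFourier (-k) (fun i => (v i : UnitAddCircle)) • F0 (π v) = _
    rw [hF0, mFourier_eq, smul_eq_mul]
    simp only [hP]
    rw [← tsum_mul_left]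
    refine tsum_congr fun n => ?_
    rw [eP_add, eP_int, mul_one]
  have hsum : Summable (UnitAddTorus.mFourierCoeff F) := by
    convert! hs using 1
    funext k
    exact hcoef k
  have key := (UnitAddTorus.hasSum_mFourier_series_apply_of_summable hsum (π x)).tsum_eq
  have h1 : (F : UnitAddTorus (Fin 2) → ℂ) (π x) = P x := hF0 x
  rw [h1] at key
  show P x = _
  rw [← key]
  refine tsum_congr fun k => ?_
  rw [hcoef, smul_eq_mul]
  congr 1
  exact mFourier_eq k x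

end Crest.Agent.R012.Po
end
end

-- ▼ part R012/Poisson_581
section

/-!
# Poisson summation over the Eisenstein integers

`fC f ξ = ∫ f(z) e(-ξ z) dz` with `e(z) = exp(2πi (z + z̄))`, `dl k = k/(i√3)` (dual lattice).
-/

set_option autoImplicit false

noncomputable section

open MeasureTheory Complex
open scoped FourierTransform

namespace Crest.Agent.R012.Po581

open Eis

/-! ### the character `eC` -/

lemma eC_eq (z : ℂ) : eC z = Complex.exp (((2 * Real.pi * (2 * z.re) : ℝ) : ℂ) * I) := by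
  unfold eC
  congr 1
  have : z + (starRingEnd ℂ) z = ((2 * z.re : ℝ) : ℂ) := by
    rw [Complex.add_conj]
  rw [this]; push_cast; ring

lemma eC_norm (z : ℂ) : ‖eC z‖ = 1 := by
  rw [eC_eq]; exact Complex.norm_exp_ofReal_mul_I _

lemma eC_add' (z w : ℂ) : eC (z + w) = eC z * eC w := by
  unfold eC
  rw [← Complex.exp_add, map_add]
  congr 1; ring

lemma eC_neg' (z : ℂ) : eC (-z) = (eC z)⁻¹ := by
  unfold eC
  rw [← Complex.exp_neg, map_neg]
  congr 1; ring

lemma eC_zero' : eC 0 = 1 := by simp [eC]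






/-- `√-3 = 1 + 2ω` -/
def sq3 : Eis := ⟨1, 2⟩

/-- `i √3` -/
def iS3 : ℂ := I * (Real.sqrt 3 : ℂ)

lemma toC_sq3 : toC sq3 = iS3 := by
  apply Complex.ext
  · rw [toC_re]; simp [sq3, iS3]
  · rw [toC_im]; simp [sq3, iS3]

lemma iS3_sq : iS3 ^ 2 = -3 := by
  unfold iS3
  rw [mul_pow, I_sq, ← ofReal_pow, Real.sq_sqrt (by norm_num)]
  push_cast; ring

lemma iS3_ne_zero : iS3 ≠ 0 := by
  intro h
  have := iS3_sq
  rw [h] at this
  norm_num at this

lemma norm_iS3 : ‖iS3‖ = Real.sqrt 3 := by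
  unfold iS3
  rw [norm_mul, Complex.norm_I, one_mul, Complex.norm_real, Real.norm_of_nonneg (Real.sqrt_nonneg _)]

/-- dual lattice element `k/(i√3)` -/
def dl (k : Eis) : ℂ := toC k / iS3

lemma dl_re (k : Eis) : (dl k).re = (k.im : ℝ) / 2 := by
  have h3 : Real.sqrt 3 * Real.sqrt 3 = 3 := Real.mul_self_sqrt (by norm_num)
  have h0 : Real.sqrt 3 ≠ 0 := by positivity
  unfold dl
  have : toC k / iS3 = (((toC k).im / Real.sqrt 3 : ℝ) : ℂ) + ((-(toC k).re / Real.sqrt 3 : ℝ) : ℂ) * I := by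
    rw [div_eq_iff iS3_ne_zero]
    unfold iS3
    have h0' : (Real.sqrt 3 : ℂ) ≠ 0 := by exact_mod_cast h0
    push_cast
    field_simp
    apply Complex.ext
    · simp
    · simp
  rw [this]
  simp only [add_re, ofReal_re, mul_re, I_re, mul_zero, ofReal_im, I_im, mul_one, sub_self, add_zero]
  rw [toC_im]
  field_simp

/-- the pairing between `E` and the dual lattice is integral -/
lemma eC_dl_mul (k x : Eis) : eC (dl k * toC x) = 1 := by
  have h : dl k * toC x = dl (k * x) := by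
    unfold dl; rw [map_mul]; ring
  rw [h, eC_eq, dl_re]
  rw [show (((2 * Real.pi * (2 * (((k * x).im : ℝ) / 2)) : ℝ)) : ℂ) * I
    = (((k * x).im : ℤ) : ℂ) * (2 * Real.pi * I) by push_cast; ring]
  exact Complex.exp_int_mul_two_pi_mul_I _


/-! ### the lattice map -/

/-- `v ↦ v₀ + v₁ ω` -/
def Lf (v : Fin 2 → ℝ) : ℂ := (v 0 : ℂ) + (v 1 : ℂ) * wC

lemma Lf_re (v : Fin 2 → ℝ) : (Lf v).re = v 0 - v 1 / 2 := by
  simp [Lf, wC]; ring

lemma Lf_im (v : Fin 2 → ℝ) : (Lf v).im = v 1 * Real.sqrt 3 / 2 := by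
  simp [Lf, wC]; ring


lemma Lf_continuous : Continuous Lf := by unfold Lf; fun_prop

/-- integer vectors as Eisenstein integers -/
def eZ : (Fin 2 → ℤ) ≃ Eis where
  toFun n := ⟨n 0, n 1⟩
  invFun x := ![x.re, x.im]
  left_inv n := by funext i; fin_cases i <;> rfl
  right_inv x := by rfl

lemma Lf_zc (n : Fin 2 → ℤ) : Lf (Po.zc n) = toC (eZ n) := by
  rw [toC_apply]
  rfl

/-- parametrisation of the dual lattice -/
def eD : (Fin 2 → ℤ) ≃ Eis where
  toFun n := ⟨n 0 + n 1, n 0⟩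
  invFun x := ![x.im, x.re - x.im]
  left_inv n := by funext i; fin_cases i <;> simp
  right_inv x := by
    apply Eis.ext'
    · simp
    · simp

lemma dl_eD_pair (k : Fin 2 → ℤ) (v : Fin 2 → ℝ) : eC (dl (eD k) * Lf v) = Po.eP k v := by
  have h1 : (dl (eD k)).re = (k 0 : ℝ) / 2 := by rw [dl_re]; rfl
  have h2 : (dl (eD k) * wC).re = (k 1 : ℝ) / 2 := by
    have : dl (eD k) * wC = dl (eD k * w) := by
      unfold dl; rw [map_mul, toC_w]; ring
    rw [this, dl_re]
    congr 1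
    simp [eD]
  rw [eC_eq]
  have h3 : (dl (eD k) * Lf v).re = v 0 * ((k 0 : ℝ) / 2) + v 1 * ((k 1 : ℝ) / 2) := by
    unfold Lf
    rw [mul_add, add_re, show dl (eD k) * ((v 1 : ℂ) * wC) = (v 1 : ℂ) * (dl (eD k) * wC) by ring,
      mul_comm (dl (eD k)) (v 0 : ℂ), Complex.re_ofReal_mul, Complex.re_ofReal_mul, h1, h2]
  rw [h3]
  unfold Po.eP
  congr 1
  push_cast
  ring

/-- the homeomorphism `ℝ² ≃ ℂ` given by the basis `1, ω`. -/
def LH : (Fin 2 → ℝ) ≃ₜ ℂ where
  toFun := Lf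
  invFun z := ![z.re + z.im / Real.sqrt 3, 2 * z.im / Real.sqrt 3]
  left_inv v := by
    have h0 : Real.sqrt 3 ≠ 0 := by positivity
    funext i
    fin_cases i
    · simp [Lf_re, Lf_im]; field_simp; ring
    · simp [Lf_im]; field_simp
  right_inv z := by
    have h0 : Real.sqrt 3 ≠ 0 := by positivity
    apply Complex.ext
    · rw [Lf_re]; simp; field_simp; ring
    · rw [Lf_im]; simp
  continuous_toFun := Lf_continuous
  continuous_invFun := by fun_prop

lemma Lf_symm_norm (z : ℂ) : ‖LH.symm z‖ ≤ 2 * ‖z‖ := by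
  have h0 : (1:ℝ) ≤ Real.sqrt 3 := by
    rw [show (1:ℝ) = Real.sqrt 1 by simp]
    exact Real.sqrt_le_sqrt (by norm_num)
  have h1 : |z.im| / Real.sqrt 3 ≤ ‖z‖ := by
    rw [div_le_iff₀ (by positivity)]
    calc |z.im| ≤ ‖z‖ := Complex.abs_im_le_norm z
      _ ≤ ‖z‖ * Real.sqrt 3 := by nlinarith [norm_nonneg z]
  rw [pi_norm_le_iff_of_nonneg (by positivity)]
  intro i
  fin_cases i
  · show ‖z.re + z.im / Real.sqrt 3‖ ≤ _
    rw [Real.norm_eq_abs]
    calc |z.re + z.im / Real.sqrt 3| ≤ |z.re| + |z.im / Real.sqrt 3| := abs_add_le _ _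
      _ = |z.re| + |z.im| / Real.sqrt 3 := by
          rw [abs_div, abs_of_nonneg (Real.sqrt_nonneg 3)]
      _ ≤ ‖z‖ + ‖z‖ := add_le_add (Complex.abs_re_le_norm z) h1
      _ = 2 * ‖z‖ := by ring
  · show ‖2 * z.im / Real.sqrt 3‖ ≤ _
    rw [Real.norm_eq_abs, abs_div, abs_mul, abs_of_nonneg (Real.sqrt_nonneg 3), abs_two, mul_div_assoc]
    linarith

lemma norm_le_Lf (v : Fin 2 → ℝ) : ‖v‖ ≤ 2 * ‖Lf v‖ := by
  have := Lf_symm_norm (Lf v)
  rwa [show LH.symm (Lf v) = v from LH.left_inv v] at this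

lemma map_Lf : Measure.map Lf (volume : Measure (Fin 2 → ℝ)) =
    ENNReal.ofReal (2 / Real.sqrt 3) • (volume : Measure ℂ) := by
  let M : Matrix (Fin 2) (Fin 2) ℝ := !![1, -1/2; 0, Real.sqrt 3 / 2]
  have hdet : M.det = Real.sqrt 3 / 2 := by
    simp [M, Matrix.det_fin_two_of]
  have hne : M.det ≠ 0 := by rw [hdet]; positivity
  have h1 := Real.map_matrix_volume_pi_eq_smul_volume_pi hne
  have h2 : Lf = (fun p => Complex.measurableEquivPi.symm p) ∘ (Matrix.toLin' M) := by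
    funext v
    apply Complex.ext
    · rw [Lf_re]
      simp [M, Matrix.toLin'_apply, Matrix.mulVec, dotProduct, Fin.sum_univ_two]
      ring
    · rw [Lf_im]
      simp [M, Matrix.toLin'_apply, Matrix.mulVec, dotProduct, Fin.sum_univ_two]
      ring
  rw [h2, ← Measure.map_map Complex.measurableEquivPi.symm.measurable
    (LinearMap.continuous_of_finiteDimensional _).measurable, h1, Measure.map_smul]
  have h3 := Complex.volume_preserving_equiv_pi.symm.map_eq
  rw [h3, hdet]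
  congr 2
  rw [abs_of_nonneg (by positivity)]
  rw [inv_div]

lemma integral_Lf {E : Type*} [NormedAddCommGroup E] [NormedSpace ℝ E] (h : ℂ → E) :
    ∫ v : Fin 2 → ℝ, h (Lf v) = (2 / Real.sqrt 3) • ∫ z, h z := by
  have h1 : MeasurableEmbedding Lf := LH.toMeasurableEquiv.measurableEmbedding
  rw [← h1.integral_map, map_Lf, integral_smul_measure, ENNReal.toReal_ofReal (by positivity)]

lemma integral_comp_affine {E : Type*} [NormedAddCommGroup E] [NormedSpace ℝ E] (h : ℂ → E)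
    {q : ℂ} (hq : q ≠ 0) (t : ℂ) :
    ∫ z, h (q * z + t) = (‖q‖ ^ 2)⁻¹ • ∫ z, h z := by
  have hdet : LinearMap.det (LinearMap.mulLeft ℝ q) = ‖q‖ ^ 2 := by
    have := Algebra.norm_complex_apply q
    rw [Algebra.norm_apply, Complex.normSq_eq_norm_sq] at this
    exact this
  have hne : LinearMap.det (LinearMap.mulLeft ℝ q) ≠ 0 := by
    rw [hdet]; positivity
  have h1 := Measure.map_linearMap_addHaar_eq_smul_addHaar (volume : Measure ℂ) hne
  have h2 : ∫ z, h (q * z + t) = ∫ z, (fun y => h (y + t)) (q * z) := rfl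
  rw [h2]
  have hemb : MeasurableEmbedding (fun z : ℂ => q * z) :=
    (Homeomorph.mulLeft₀ q hq).toMeasurableEquiv.measurableEmbedding
  rw [← hemb.integral_map (fun y => h (y + t))]
  have h3 : Measure.map (fun z : ℂ => q * z) volume = ENNReal.ofReal (|(‖q‖ ^ 2)⁻¹|) • volume := by
    rw [← hdet]; exact h1
  rw [h3, integral_smul_measure, ENNReal.toReal_ofReal (abs_nonneg _), abs_of_nonneg (by positivity),
    integral_add_right_eq_self]

/-! ### the Fourier transform -/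

/-- Fourier transform with respect to the character `e(z) = exp(2πi (z + z̄))`. -/
def fC (f : ℂ → ℂ) (ξ : ℂ) : ℂ := ∫ z, f z * eC (-(ξ * z))

lemma fC_affine (f : ℂ → ℂ) {q : ℂ} (hq : q ≠ 0) (t ξ : ℂ) :
    fC (fun z => f (q * z + t)) ξ = (((‖q‖ ^ 2)⁻¹ : ℝ) : ℂ) * (eC (ξ / q * t) * fC f (ξ / q)) := by
  unfold fC
  have h1 : ∀ z, f (q * z + t) * eC (-(ξ * z)) =
      (fun y => f y * eC (-(ξ / q * y)) * eC (ξ / q * t)) (q * z + t) := by
    intro z
    simp only
    rw [mul_assoc, ← eC_add']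
    congr 2
    field_simp
    ring
  rw [integral_congr_ae (Filter.Eventually.of_forall h1),
    integral_comp_affine (fun y => f y * eC (-(ξ / q * y)) * eC (ξ / q * t)) hq t,
    integral_mul_const, Complex.real_smul]
  ring

lemma fC_eq_fourier (f : ℂ → ℂ) (ξ : ℂ) : fC f ξ = 𝓕 f (2 * (starRingEnd ℂ) ξ) := by
  unfold fC
  rw [Real.fourier_eq']
  congr 1
  funext z
  rw [smul_eq_mul, mul_comm]
  congr 1
  rw [eC_eq]
  congr 1
  rw [Complex.inner]
  simp
  ring

/-- decay hypothesis used for Poisson summation -/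
lemma lattice_decay {f : ℂ → ℂ} {C : ℝ} (hC : ∀ z, ‖f z‖ ≤ C / (1 + ‖z‖) ^ 3)
    {q : ℂ} (hq : q ≠ 0) (t : ℂ) (v : Fin 2 → ℝ) :
    ‖f (q * Lf v + t)‖ ≤ (C * ((1 + 2 / ‖q‖) * (1 + ‖t‖)) ^ 3) / (1 + ‖v‖) ^ 3 := by
  have hC0 : 0 ≤ C := by
    have := (norm_nonneg _).trans (hC 0)
    simpa using this
  have hq' : 0 < ‖q‖ := norm_pos_iff.mpr hq
  refine (hC _).trans ?_
  rw [div_le_div_iff₀ (by positivity) (by positivity)]
  have key : 1 + ‖v‖ ≤ ((1 + 2 / ‖q‖) * (1 + ‖t‖)) * (1 + ‖q * Lf v + t‖) := by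
    have h1 := norm_le_Lf v
    have h2 : ‖Lf v‖ ≤ (‖q * Lf v + t‖ + ‖t‖) / ‖q‖ := by
      rw [le_div_iff₀ hq']
      calc ‖Lf v‖ * ‖q‖ = ‖(q * Lf v + t) - t‖ := by rw [add_sub_cancel_right, norm_mul, mul_comm]
        _ ≤ ‖q * Lf v + t‖ + ‖t‖ := norm_sub_le _ _
    set a := ‖q * Lf v + t‖
    set b := ‖t‖
    have ha : 0 ≤ a := norm_nonneg _
    have hb : 0 ≤ b := norm_nonneg _
    have h3 : 1 + ‖v‖ ≤ 1 + 2 / ‖q‖ * (a + b) := by
      calc 1 + ‖v‖ ≤ 1 + 2 * ((a + b) / ‖q‖) := by linarith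
        _ = 1 + 2 / ‖q‖ * (a + b) := by ring
    refine h3.trans ?_
    have h4 : 0 ≤ 2 / ‖q‖ := by positivity
    nlinarith [mul_nonneg ha hb, mul_nonneg h4 (mul_nonneg ha hb), mul_nonneg h4 ha, mul_nonneg h4 hb]
  calc C * (1 + ‖v‖) ^ 3 ≤ C * (((1 + 2 / ‖q‖) * (1 + ‖t‖)) * (1 + ‖q * Lf v + t‖)) ^ 3 := by gcongr
    _ = C * ((1 + 2 / ‖q‖) * (1 + ‖t‖)) ^ 3 * (1 + ‖q * Lf v + t‖) ^ 3 := by ring

lemma fhP_eq (f : ℂ → ℂ) {q : ℂ} (hq : q ≠ 0) (t : ℂ) (k : Fin 2 → ℤ) :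
    Po.fhP (fun v => f (q * Lf v + t)) k =
      ((2 / (Real.sqrt 3 * ‖q‖ ^ 2) : ℝ) : ℂ) *
        (fC f (dl (eD k) / q) * eC (dl (eD k) / q * t)) := by
  unfold Po.fhP
  have h1 : ∀ v : Fin 2 → ℝ, Po.eP (-k) v * f (q * Lf v + t) =
      (fun z => f (q * z + t) * eC (-(dl (eD k) * z))) (Lf v) := by
    intro v
    simp only
    rw [Po.eP_neg, ← dl_eD_pair, eC_neg', mul_comm]
  rw [integral_congr_ae (Filter.Eventually.of_forall h1),
    integral_Lf (fun z => f (q * z + t) * eC (-(dl (eD k) * z)))]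
  have h2 := fC_affine f hq t (dl (eD k))
  unfold fC at h2 ⊢
  rw [h2, Complex.real_smul]
  push_cast
  have h0 : (Real.sqrt 3 : ℂ) ≠ 0 := by
    have : Real.sqrt 3 ≠ 0 := by positivity
    exact_mod_cast this
  have hq' : (‖q‖ : ℂ) ≠ 0 := by
    have : ‖q‖ ≠ 0 := norm_ne_zero_iff.mpr hq
    exact_mod_cast this
  field_simp

/-- **Poisson summation over the lattice `q E + t`**, general form. -/
theorem poisson_eis {f : ℂ → ℂ} {C : ℝ} (hf : Continuous f)
    (hC : ∀ z, ‖f z‖ ≤ C / (1 + ‖z‖) ^ 3) {q : ℂ} (hq : q ≠ 0)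
    (hs : Summable (fun k : Eis => fC f (dl k / q))) (t : ℂ) :
    ∑' x : Eis, f (q * toC x + t) =
      ((2 / (Real.sqrt 3 * ‖q‖ ^ 2) : ℝ) : ℂ) *
        ∑' k : Eis, fC f (dl k / q) * eC (dl k / q * t) := by
  have hs' : Summable (fun k : Eis => fC f (dl k / q) * eC (dl k / q * t)) := by
    apply Summable.of_norm
    convert! hs.norm using 1
    funext k
    rw [norm_mul, eC_norm, mul_one]
  have hg : Continuous (fun v : Fin 2 → ℝ => f (q * Lf v + t)) :=
    hf.comp ((continuous_const.mul Lf_continuous).add continuous_const)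
  have hsP : Summable (Po.fhP (fun v => f (q * Lf v + t))) := by
    have h1 : Summable (fun k : Fin 2 → ℤ => ((2 / (Real.sqrt 3 * ‖q‖ ^ 2) : ℝ) : ℂ) *
        (fC f (dl (eD k) / q) * eC (dl (eD k) / q * t))) :=
      ((eD.summable_iff (f := fun k : Eis => fC f (dl k / q) * eC (dl k / q * t))).mpr hs').mul_left _
    convert! h1 using 1
    funext k
    exact fhP_eq f hq t k
  have key := Po.poisson_pi hg (fun v => lattice_decay hC hq t v) hsP 0
  have h1 : ∑' n : Fin 2 → ℤ, f (q * Lf (0 + Po.zc n) + t) = ∑' x : Eis, f (q * toC x + t) := by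
    rw [← eZ.tsum_eq]
    refine tsum_congr fun n => ?_
    rw [zero_add, Lf_zc]
  rw [← h1, key, ← tsum_mul_left, ← eD.tsum_eq]
  refine tsum_congr fun k => ?_
  rw [fhP_eq f hq t k]
  rw [show Po.eP k 0 = 1 by simp [Po.eP], mul_one]

end Crest.Agent.R012.Po581
end
end

-- ▼ part R012/PoissonS_581

/-!
# Poisson summation over the Eisenstein integers: Schwartz functions, residue classes, characters
-/

set_option autoImplicit false

noncomputable section

open MeasureTheory Complex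
open scoped FourierTransform SchwartzMap

namespace Crest.Agent.R012.Po581

open Eis

/-! ### summability over `Eis` -/

lemma toC_norm_ge (x : Eis) : ‖eZ.symm x‖ ≤ 2 * ‖toC x‖ := by
  have h := norm_le_Lf (Po.zc (eZ.symm x))
  rw [Po.zc_norm, Lf_zc, Equiv.apply_symm_apply] at h
  exact h

/-- `∑ 1/(1+|x|)^3 < ∞` over `Eis`. -/
lemma summable_eis_pow3 : Summable (fun x : Eis => (1 / (1 + ‖toC x‖) ^ 3 : ℝ)) := by
  rw [← eZ.summable_iff]
  refine Summable.of_nonneg_of_le (fun n => by simp only [Function.comp]; positivity) (fun n => ?_)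
    (Po.summable_pow3.mul_left 8)
  have h := toC_norm_ge (eZ n)
  rw [Equiv.symm_apply_apply] at h
  simp only [Function.comp]
  rw [mul_one_div, div_le_div_iff₀ (by positivity) (by positivity)]
  have h2 : (1 + ‖n‖) ^ 3 ≤ (2 * (1 + ‖toC (eZ n)‖)) ^ 3 := by
    gcongr
    linarith
  nlinarith

/-- decaying functions are summable along an affine image of `Eis` -/
lemma summable_affine {f : ℂ → ℂ} {C : ℝ} (hC : ∀ z, ‖f z‖ ≤ C / (1 + ‖z‖) ^ 3)
    {q : ℂ} (hq : q ≠ 0) (t : ℂ) : Summable (fun x : Eis => f (q * toC x + t)) := by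
  rw [← eZ.summable_iff]
  refine Summable.of_norm_bounded (g := fun n : Fin 2 → ℤ =>
    (C * ((1 + 2 / ‖q‖) * (1 + ‖t‖)) ^ 3) * (1 / (1 + ‖n‖) ^ 3))
    (Po.summable_pow3.mul_left _) (fun n => ?_)
  have h := lattice_decay hC hq t (Po.zc n)
  rw [Lf_zc, Po.zc_norm] at h
  rw [mul_one_div]
  exact h

/-- Schwartz functions decay like `(1+|z|)^{-3}`. -/
lemma schwartz_decay (f : 𝓢(ℂ, ℂ)) : ∃ C : ℝ, ∀ z, ‖f z‖ ≤ C / (1 + ‖z‖) ^ 3 := by
  refine ⟨2 ^ 3 * (Finset.Iic (3, 0)).sup (fun m => SchwartzMap.seminorm ℝ m.1 m.2) f, fun z => ?_⟩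
  have h := SchwartzMap.one_add_le_sup_seminorm_apply (𝕜 := ℝ) (m := (3, 0)) (k := 3) (n := 0)
    le_rfl le_rfl f z
  rw [norm_iteratedFDeriv_zero] at h
  rw [le_div_iff₀ (by positivity), mul_comm]
  exact h

/-- Schwartz functions decay like `(1+|z|)^{-k}`. -/
lemma schwartz_decay' (f : 𝓢(ℂ, ℂ)) (k : ℕ) : ∃ C : ℝ, 0 ≤ C ∧ ∀ z, ‖f z‖ ≤ C / (1 + ‖z‖) ^ k := by
  refine ⟨2 ^ k * (Finset.Iic (k, 0)).sup (fun m => SchwartzMap.seminorm ℝ m.1 m.2) f,
    by positivity, fun z => ?_⟩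
  have h := SchwartzMap.one_add_le_sup_seminorm_apply (𝕜 := ℝ) (m := (k, 0)) (k := k) (n := 0)
    le_rfl le_rfl f z
  rw [norm_iteratedFDeriv_zero] at h
  rw [le_div_iff₀ (by positivity), mul_comm]
  exact h

/-- `fC f` decays fast for Schwartz `f`. -/
lemma fC_decay (f : 𝓢(ℂ, ℂ)) (k : ℕ) : ∃ C : ℝ, 0 ≤ C ∧ ∀ ξ, ‖fC f ξ‖ ≤ C / (1 + ‖ξ‖) ^ k := by
  obtain ⟨C, hC0, hC⟩ := schwartz_decay' (𝓕 f) k
  refine ⟨C, hC0, fun ξ => ?_⟩
  rw [fC_eq_fourier]
  have h := hC (2 * (starRingEnd ℂ) ξ)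
  rw [SchwartzMap.fourier_coe] at h
  refine h.trans ?_
  have h2 : ‖(2 : ℂ) * (starRingEnd ℂ) ξ‖ = 2 * ‖ξ‖ := by
    rw [norm_mul, Complex.norm_conj]; norm_num
  rw [h2]
  gcongr
  linarith [norm_nonneg ξ]

lemma fC_continuous (f : 𝓢(ℂ, ℂ)) : Continuous (fC f) := by
  have h : fC f = fun ξ => (𝓕 f) (2 * (starRingEnd ℂ) ξ) := by
    funext ξ
    rw [fC_eq_fourier, SchwartzMap.fourier_coe]
  rw [h]
  exact (𝓕 f).continuous.comp (continuous_const.mul Complex.continuous_conj)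

lemma fC_summable (f : 𝓢(ℂ, ℂ)) {q : ℂ} (hq : q ≠ 0) :
    Summable (fun k : Eis => fC f (dl k / q)) := by
  obtain ⟨C, hC0, hC⟩ := fC_decay f 3
  have h := summable_affine hC (q := (iS3 * q)⁻¹) (inv_ne_zero (mul_ne_zero iS3_ne_zero hq)) 0
  convert! h using 1
  funext k
  congr 1
  unfold dl
  field_simp
  ring

/-- **Poisson summation over `E` for Schwartz functions**, lattice `q E + t`. -/
theorem poisson_schwartz (f : 𝓢(ℂ, ℂ)) {q : ℂ} (hq : q ≠ 0) (t : ℂ) :
    ∑' x : Eis, f (q * toC x + t) =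
      ((2 / (Real.sqrt 3 * ‖q‖ ^ 2) : ℝ) : ℂ) *
        ∑' k : Eis, fC f (dl k / q) * eC (dl k / q * t) := by
  obtain ⟨C, hC⟩ := schwartz_decay f
  exact poisson_eis f.continuous hC hq (fC_summable f hq) t

lemma summable_schwartz (f : 𝓢(ℂ, ℂ)) {q : ℂ} (hq : q ≠ 0) (t : ℂ) :
    Summable (fun x : Eis => f (q * toC x + t)) := by
  obtain ⟨C, hC⟩ := schwartz_decay f
  exact summable_affine hC hq t

lemma summable_schwartz_one (f : 𝓢(ℂ, ℂ)) : Summable (fun x : Eis => f (toC x)) := by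
  have := summable_schwartz f one_ne_zero 0
  simpa using this


/-! ### residue classes -/

instance finite_quot (c : Eis) [NeZero c] : Finite (Eis ⧸ Ideal.span ({c} : Set Eis)) := by
  have hc : c ≠ 0 := NeZero.ne c
  have hn : (nm c : ℤ) ≠ 0 := by
    have : nm c ≠ 0 := fun h => hc (nm_eq_zero.mp h)
    exact_mod_cast this
  -- map `(a, b) ∈ {0..N-1}²` onto the quotient
  let N : ℕ := nm c
  have hN : N ≠ 0 := fun h => hc (nm_eq_zero.mp h)
  have hdvd : c ∣ ((N : ℤ) : Eis) := by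
    refine ⟨Eis.conj c, ?_⟩
    apply toC_injective
    rw [map_mul, toC_conj, Complex.mul_conj, normSq_toC]
    simp [N]
  let φ : Fin N × Fin N → Eis ⧸ Ideal.span ({c} : Set Eis) :=
    fun p => Ideal.Quotient.mk _ (⟨(p.1 : ℤ), (p.2 : ℤ)⟩ : Eis)
  refine Finite.of_surjective φ ?_
  intro y
  obtain ⟨x, rfl⟩ := Ideal.Quotient.mk_surjective y
  have hNpos : (0 : ℤ) < N := by exact_mod_cast Nat.pos_of_ne_zero hN
  have h1 := Int.emod_nonneg x.re hNpos.ne'
  have h2 := Int.emod_lt_of_pos x.re hNpos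
  have h3 := Int.emod_nonneg x.im hNpos.ne'
  have h4 := Int.emod_lt_of_pos x.im hNpos
  refine ⟨(⟨(x.re % N).toNat, by omega⟩, ⟨(x.im % N).toNat, by omega⟩), ?_⟩
  simp only [φ]
  rw [Ideal.Quotient.eq, Ideal.mem_span_singleton]
  refine hdvd.trans ?_
  refine ⟨-⟨x.re / N, x.im / N⟩, ?_⟩
  have e1 : ((x.re % N).toNat : ℤ) = x.re % N := Int.toNat_of_nonneg h1
  have e2 : ((x.im % N).toNat : ℤ) = x.im % N := Int.toNat_of_nonneg h3
  have d1 := Int.emod_add_mul_ediv x.re N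
  have d2 := Int.emod_add_mul_ediv x.im N
  apply Eis.ext'
  · simp [e1]; linarith
  · simp [e2]; linarith

lemma finite_quot' {c : Eis} (hc : c ≠ 0) : Finite (Eis ⧸ Ideal.span ({c} : Set Eis)) :=
  haveI : NeZero c := ⟨hc⟩
  finite_quot c

/-- decomposition of `Eis` into residue classes: `x = out r + c y` -/
def resEquiv {c : Eis} (hc : c ≠ 0) : (Eis ⧸ Ideal.span ({c} : Set Eis)) × Eis ≃ Eis where
  toFun p := Quotient.out p.1 + c * p.2
  invFun x := (Ideal.Quotient.mk _ x,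
    (x - Quotient.out (Ideal.Quotient.mk (Ideal.span ({c} : Set Eis)) x)) / c)
  left_inv := by
    rintro ⟨r, y⟩
    have h0 : Ideal.Quotient.mk (Ideal.span ({c} : Set Eis)) (Quotient.out r + c * y) = r := by
      rw [map_add]
      have h1 : Ideal.Quotient.mk (Ideal.span ({c} : Set Eis)) (c * y) = 0 := by
        rw [Ideal.Quotient.eq_zero_iff_mem, Ideal.mem_span_singleton]
        exact dvd_mul_right _ _
      rw [h1, add_zero]
      exact Quotient.out_eq' r
    simp only [h0]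
    rw [add_sub_cancel_left, mul_div_cancel_left₀ _ hc]
  right_inv := by
    intro x
    simp only
    have h1 : c ∣ x - Quotient.out (Ideal.Quotient.mk (Ideal.span ({c} : Set Eis)) x) := by
      rw [← Ideal.mem_span_singleton, ← Ideal.Quotient.eq]
      exact (Quotient.out_eq' _).symm
    rw [EuclideanDomain.mul_div_cancel' hc h1]
    ring

/-- `χ` is periodic modulo `c`. -/
def PerMod (c : Eis) (χ : Eis → ℂ) : Prop := ∀ x y, χ (x + c * y) = χ x

lemma tsum_res {c : Eis} (hc : c ≠ 0) {F : Eis → ℂ} (hF : Summable F) :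
    ∑' x : Eis, F x = sumMod c (fun a => ∑' y : Eis, F (a + c * y)) := by
  have := finite_quot' hc
  have := Fintype.ofFinite (Eis ⧸ Ideal.span ({c} : Set Eis))
  unfold sumMod
  rw [finsum_eq_sum_of_fintype, ← (resEquiv hc).tsum_eq]
  have h := Summable.tsum_prod ((resEquiv hc).summable_iff.mpr hF)
  refine h.trans ?_
  rw [tsum_fintype]
  rfl

lemma toC_ne_zero {c : Eis} (hc : c ≠ 0) : toC c ≠ 0 := fun h => hc (toC_eq_zero.mp h)

/-- **Poisson summation in a residue class** `x ≡ a (mod c)`. -/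
theorem poisson_class (f : 𝓢(ℂ, ℂ)) {c : Eis} (hc : c ≠ 0) (a : Eis) :
    ∑' y : Eis, f (toC (a + c * y)) =
      ((2 / (Real.sqrt 3 * nm c) : ℝ) : ℂ) *
        ∑' k : Eis, fC f (dl k / toC c) * eC (dl k / toC c * toC a) := by
  have h := poisson_schwartz f (toC_ne_zero hc) (toC a)
  rw [norm_toC_sq] at h
  rw [← h]
  refine tsum_congr fun y => ?_
  rw [map_add, map_mul, add_comm]

/-- finite character sum on the dual side -/
def dualSum (c : Eis) (χ : Eis → ℂ) (k : Eis) : ℂ :=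
  sumMod c (fun a => χ a * eC (dl k / toC c * toC a))


lemma perMod_bdd {c : Eis} (hc : c ≠ 0) {χ : Eis → ℂ} (hχ : PerMod c χ) :
    ∃ B : ℝ, 0 ≤ B ∧ ∀ x, ‖χ x‖ ≤ B := by
  have := finite_quot' hc
  have := Fintype.ofFinite (Eis ⧸ Ideal.span ({c} : Set Eis))
  refine ⟨∑ r : Eis ⧸ Ideal.span ({c} : Set Eis), ‖χ (Quotient.out r)‖,
    Finset.sum_nonneg (fun _ _ => norm_nonneg _), fun x => ?_⟩
  obtain ⟨⟨r, y⟩, rfl⟩ := (resEquiv hc).surjective x
  show ‖χ (Quotient.out r + c * y)‖ ≤ _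
  rw [hχ]
  exact Finset.single_le_sum (f := fun r : Eis ⧸ Ideal.span ({c} : Set Eis) => ‖χ (Quotient.out r)‖)
    (fun _ _ => norm_nonneg _) (Finset.mem_univ r)

lemma summable_mul_bdd {χ : Eis → ℂ} {B : ℝ} (hB : ∀ x, ‖χ x‖ ≤ B) {F : Eis → ℂ}
    (hF : Summable F) : Summable (fun x => χ x * F x) := by
  refine Summable.of_norm_bounded (hF.norm.mul_left B) (fun x => ?_)
  rw [norm_mul]
  exact mul_le_mul_of_nonneg_right (hB x) (norm_nonneg _)

/-- **Poisson summation with a periodic weight** `χ` modulo `c`. -/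
theorem poisson_periodic (f : 𝓢(ℂ, ℂ)) {c : Eis} (hc : c ≠ 0) {χ : Eis → ℂ} (hχ : PerMod c χ) :
    ∑' x : Eis, χ x * f (toC x) =
      ((2 / (Real.sqrt 3 * nm c) : ℝ) : ℂ) *
        ∑' k : Eis, dualSum c χ k * fC f (dl k / toC c) := by
  have := finite_quot' hc
  have := Fintype.ofFinite (Eis ⧸ Ideal.span ({c} : Set Eis))
  obtain ⟨B, hB0, hB⟩ := perMod_bdd hc hχ
  have hs : Summable (fun x : Eis => χ x * f (toC x)) :=
    summable_mul_bdd hB (summable_schwartz_one f)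
  rw [tsum_res hc hs]
  unfold dualSum sumMod
  rw [finsum_eq_sum_of_fintype]
  simp_rw [finsum_eq_sum_of_fintype]
  have h1 : ∀ r : Eis ⧸ Ideal.span ({c} : Set Eis),
      ∑' y : Eis, χ (Quotient.out r + c * y) * f (toC (Quotient.out r + c * y)) =
      ((2 / (Real.sqrt 3 * nm c) : ℝ) : ℂ) * ∑' k : Eis, χ (Quotient.out r) *
        eC (dl k / toC c * toC (Quotient.out r)) * fC f (dl k / toC c) := by
    intro r
    have h2 : ∀ y, χ (Quotient.out r + c * y) = χ (Quotient.out r) := fun y => hχ _ _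
    simp_rw [h2]
    rw [tsum_mul_left, poisson_class f hc]
    rw [mul_left_comm, ← tsum_mul_left]
    congr 1
    refine tsum_congr fun k => ?_
    ring
  simp_rw [h1]
  rw [← Finset.mul_sum]
  congr 1
  rw [← Summable.tsum_finsetSum]
  · refine tsum_congr fun k => ?_
    rw [Finset.sum_mul]
  · intro r _
    have := summable_mul_bdd (χ := fun k => χ (Quotient.out r) * eC (dl k / toC c * toC (Quotient.out r)))
      (B := ‖χ (Quotient.out r)‖) (fun k => by rw [norm_mul, eC_norm, mul_one])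
      (fC_summable f (toC_ne_zero hc))
    exact this



/-! ### the Gaussian -/

/-- Gaussian transform: `∫ exp(-π a |z|²) e(-ξ z) dz = a⁻¹ exp(-4π|ξ|²/a)`. -/
lemma fC_gauss {a : ℝ} (ha : 0 < a) (ξ : ℂ) :
    fC (fun z => (Real.exp (-(Real.pi * a * ‖z‖ ^ 2)) : ℂ)) ξ =
      ((a⁻¹ * Real.exp (-(4 * Real.pi * ‖ξ‖ ^ 2 / a)) : ℝ) : ℂ) := by
  rw [fC_eq_fourier]
  have h := fourier_gaussian_innerProductSpace (V := ℂ) (b := ((Real.pi * a : ℝ) : ℂ))
    (by rw [Complex.ofReal_re]; positivity) (2 * (starRingEnd ℂ) ξ)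
  have h1 : (fun z : ℂ => (Real.exp (-(Real.pi * a * ‖z‖ ^ 2)) : ℂ)) =
      fun v : ℂ => cexp (-((Real.pi * a : ℝ) : ℂ) * (‖v‖ : ℂ) ^ 2) := by
    funext z
    rw [Complex.ofReal_exp]
    congr 1
    push_cast
    ring
  rw [h1, h]
  have hpi : (Real.pi : ℂ) ≠ 0 := by exact_mod_cast Real.pi_ne_zero
  have hac : (a : ℂ) ≠ 0 := by exact_mod_cast ha.ne'
  have h2 : ‖(2 : ℂ) * (starRingEnd ℂ) ξ‖ = 2 * ‖ξ‖ := by
    rw [norm_mul, Complex.norm_conj]; norm_num
  rw [h2, Complex.finrank_real_complex]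
  have h3 : ((Real.pi : ℂ) / ((Real.pi * a : ℝ) : ℂ)) = (a : ℂ)⁻¹ := by
    push_cast; field_simp
  rw [h3]
  have h4 : ((2 : ℕ) / 2 : ℂ) = 1 := by norm_num
  rw [h4, Complex.cpow_one]
  push_cast
  congr 2
  field_simp
  ring

end Crest.Agent.R012.Po581
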