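import Crest.Agent.R012.PsiRel_283
import Crest.Agent.R012.SpecM_49

-- ▼ part R012/ResAlg_785
section

/-!
# Row 12, item MR / H1: residue relations (algebraic part)

For a family of weights `f X : Eis → ℂ` with `f X (p c) = N(p)^{-a} f (X/N p) c` (finite support),
and `κ = 4/3 - a`, assume

* (i)  `Psi h (f X) / X^κ → R h` for all `h`,
* (ii) `PsiP p h (f X) / X^κ → N/(N+1) * R h` for all primary primes `p` and all `h`.

Then (`Rel785`) `R (h p) = N^{-2/3} conj (gs h p) R h`, `R (h p^2) = 0` (`p ∤ h`) and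
`R (h p^3) = R h` (all `h`).

Output in terms of `SpecM_49`: `rhoRel_of_tendsto : ... → RhoRel ρ`,
`rhoRel_of_MS1 : MS1 ρ → STp → RhoRel ρ`; consequences of `RhoRel`: `RhoRel.sqfree`,
`RhoRel.cube`, `RhoRel.zero`.
-/

set_option autoImplicit false
set_option linter.unusedSimpArgs false
set_option linter.unusedVariables false

noncomputable section

open Complex Filter Topology

namespace Crest.Agent.R012.Res785

open Crest.Agent.R012 Crest.Agent.R012.Eis Crest.Agent.R012.GaussLoc283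

/-! ### Abstract families -/

/-- a family of weights which scales well. -/
structure Fam (f : ℝ → Eis → ℂ) (a : ℝ) : Prop where
  fin : ∀ X : ℝ, 0 < X → (Function.support (f X)).Finite
  scale : ∀ X : ℝ, 0 < X → ∀ p c : Eis, p ≠ 0 →
    f X (p * c) = (((nm p : ℝ) ^ (-a) : ℝ) : ℂ) * f (X / nm p) c

variable {f : ℝ → Eis → ℂ} {a κ : ℝ} {R : Eis → ℂ}

lemma Fam.summable (hf : Fam f a) {X : ℝ} (hX : 0 < X) (h : Eis) : Summable (psiT h (f X)) :=
  summable_psiT_of_finite (hf.fin X hX)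

lemma PsiP_mul_left (p h : Eis) (α : ℂ) (g : Eis → ℂ) :
    PsiP p h (fun c => α * g c) = α * PsiP p h g := by
  classical
  unfold PsiP
  rw [← tsum_mul_left]
  apply tsum_congr
  intro c
  unfold psiPT
  split_ifs
  · ring
  · simp

lemma Fam.PsiP_scale (hf : Fam f a) {X : ℝ} (hX : 0 < X) (p h : Eis) {q : Eis} (hq : q ≠ 0) :
    PsiP p h (fun c => f X (q * c)) = (((nm q : ℝ) ^ (-a) : ℝ) : ℂ) * PsiP p h (f (X / nm q)) := by
  rw [← PsiP_mul_left]
  congr 1
  funext c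
  exact hf.scale X hX q c hq

/-- limit of a rescaled sum. -/
lemma tendsto_scale {F : ℝ → ℂ} {L : ℂ} (n : ℝ) (hn : 0 < n)
    (hF : Tendsto (fun X : ℝ => F X / ((X ^ κ : ℝ) : ℂ)) atTop (𝓝 L)) :
    Tendsto (fun X : ℝ => F (X / n) / ((X ^ κ : ℝ) : ℂ)) atTop
      (𝓝 (((n ^ (-κ) : ℝ) : ℂ) * L)) := by
  have h1 : Tendsto (fun X : ℝ => X / n) atTop atTop := tendsto_id.atTop_div_const hn
  have h2 := (hF.comp h1).const_mul (((n ^ (-κ) : ℝ) : ℂ))
  refine h2.congr' ?_
  filter_upwards [eventually_gt_atTop (0 : ℝ)] with X hX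
  simp only [Function.comp]
  have h3 : ((X / n) ^ κ : ℝ) = X ^ κ * n ^ (-κ) := by
    rw [Real.div_rpow hX.le hn.le, Real.rpow_neg hn.le, div_eq_mul_inv]
  have h4 : (n ^ (-κ) : ℝ) ≠ 0 := (Real.rpow_pos_of_pos hn _).ne'
  have h5 : (X ^ κ : ℝ) ≠ 0 := (Real.rpow_pos_of_pos hX _).ne'
  rw [h3]
  have h4' : (((n ^ (-κ) : ℝ)) : ℂ) ≠ 0 := by exact_mod_cast h4
  have h5' : (((X ^ κ : ℝ)) : ℂ) ≠ 0 := by exact_mod_cast h5
  push_cast
  field_simp

/-- the hypotheses (i), (ii). -/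
structure Lim (f : ℝ → Eis → ℂ) (κ : ℝ) (R : Eis → ℂ) : Prop where
  one : ∀ h : Eis, Tendsto (fun X : ℝ => Psi h (f X) / ((X ^ κ : ℝ) : ℂ)) atTop (𝓝 (R h))
  lev : ∀ p : Eis, Prime p → IsPrim p → ∀ h : Eis,
    Tendsto (fun X : ℝ => PsiP p h (f X) / ((X ^ κ : ℝ) : ℂ)) atTop
      (𝓝 (((nm p : ℂ) / (nm p + 1)) * R h))

lemma Fam.lev_scale (hf : Fam f a) (hL : Lim f κ R) {p : Eis} (hpp : Prime p) (hp : IsPrim p)
    (h : Eis) {q : Eis} (hq : q ≠ 0) :
    Tendsto (fun X : ℝ => PsiP p h (fun c => f X (q * c)) / ((X ^ κ : ℝ) : ℂ)) atTop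
      (𝓝 ((((nm q : ℝ) ^ (-(a + κ)) : ℝ) : ℂ) * (((nm p : ℂ) / (nm p + 1)) * R h))) := by
  have hn : (0 : ℝ) < nm q := by exact_mod_cast nm_pos.mpr hq
  have h1 := (tendsto_scale (κ := κ) (nm q : ℝ) hn (hL.lev p hpp hp h)).const_mul
    ((((nm q : ℝ) ^ (-a) : ℝ) : ℂ))
  have h2 : (((nm q : ℝ) ^ (-a) : ℝ) : ℂ) * ((((nm q : ℝ) ^ (-κ) : ℝ) : ℂ) *
      (((nm p : ℂ) / (nm p + 1)) * R h)) =
      (((nm q : ℝ) ^ (-(a + κ)) : ℝ) : ℂ) * (((nm p : ℂ) / (nm p + 1)) * R h) := by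
    rw [← mul_assoc, ← Complex.ofReal_mul, ← Real.rpow_add hn]
    congr 3
    ring
  rw [h2] at h1
  refine h1.congr' ?_
  filter_upwards [eventually_gt_atTop (0 : ℝ)] with X hX
  rw [hf.PsiP_scale hX p h hq]
  ring

/-- the relations between the limits. -/
structure Rel785 (R : Eis → ℂ) : Prop where
  one_p : ∀ p h : Eis, Prime p → IsPrim p → ¬ p ∣ h →
    R (h * p) = (((nm p : ℝ) ^ (-(2 : ℝ) / 3) : ℝ) : ℂ) * (starRingEnd ℂ) (gs h p) * R h
  two_p : ∀ p h : Eis, Prime p → IsPrim p → ¬ p ∣ h → R (h * p ^ 2) = 0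
  three_p : ∀ p h : Eis, Prime p → IsPrim p → R (h * p ^ 3) = R h

lemma nm_prime_pos {p : Eis} (hp : IsPrim p) : (0 : ℝ) < nm p := by
  exact_mod_cast nm_pos.mpr hp.ne_zero

/-- **Residue relations.** -/
theorem rel_of_lim (hf : Fam f a) (haκ : a + κ = 4 / 3) (hL : Lim f κ R) : Rel785 R := by
  refine ⟨?_, ?_, ?_⟩
  · intro p h hpp hp hh
    have hN : (0 : ℝ) < nm p := nm_prime_pos hp
    have hN1 : ((nm p : ℂ) + 1) ≠ 0 := by
      have : ((nm p : ℝ) + 1 : ℝ) ≠ 0 := by positivity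
      exact_mod_cast this
    have hNc : (nm p : ℂ) ≠ 0 := by
      have : (nm p : ℝ) ≠ 0 := hN.ne'
      exact_mod_cast this
    have h1 := hL.one h
    have h2 := hL.lev p hpp hp h
    have h3 := (hf.lev_scale hL hpp hp (h * p) hp.ne_zero).const_mul (gs h p)
    have h4 := h2.add h3
    have h5 : R h = ((nm p : ℂ) / (nm p + 1)) * R h + gs h p *
        ((((nm p : ℝ) ^ (-(a + κ)) : ℝ) : ℂ) * (((nm p : ℂ) / (nm p + 1)) * R (h * p))) := by
      refine tendsto_nhds_unique h1 (h4.congr' ?_)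
      filter_upwards [eventually_gt_atTop (0 : ℝ)] with X hX
      rw [Psi_zero hp hpp hh (hf.summable hX h)]
      ring
    rw [haκ] at h5
    -- `N^{-4/3} * N = N^{-1/3}`
    have h6 := gs_prime_mul_conj syAx hp hpp hh
    have h7 : (((nm p : ℝ) ^ (-(4 / 3 : ℝ)) : ℝ) : ℂ) * (((nm p : ℝ) ^ ((2 : ℝ) / 3) : ℝ) : ℂ) *
        (((nm p : ℝ) ^ ((2 : ℝ) / 3) : ℝ) : ℂ) = 1 := by
      rw [← Complex.ofReal_mul, ← Complex.ofReal_mul, ← Real.rpow_add hN, ← Real.rpow_add hN]
      norm_num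
    have h8 : (((nm p : ℝ) ^ (-(2 : ℝ) / 3) : ℝ) : ℂ) * (((nm p : ℝ) ^ ((2 : ℝ) / 3) : ℝ) : ℂ)
        = 1 := by
      rw [← Complex.ofReal_mul, ← Real.rpow_add hN]
      norm_num
    have h9 : (((nm p : ℝ) ^ ((2 : ℝ) / 3) : ℝ) : ℂ) ≠ 0 := by
      intro h0; rw [h0, mul_zero] at h8; exact zero_ne_one h8
    -- `R h = gs h p * N^{-4/3} * N * R (h p)`
    have h10 : R h = gs h p * ((((nm p : ℝ) ^ (-(4 / 3 : ℝ)) : ℝ) : ℂ) *
        ((nm p : ℂ) * R (h * p))) := by
      field_simp at h5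
      linear_combination h5
    -- multiply by `conj (gs h p)`
    have h11 : (starRingEnd ℂ) (gs h p) * R h =
        (nm p : ℂ) * ((((nm p : ℝ) ^ (-(4 / 3 : ℝ)) : ℝ) : ℂ) * ((nm p : ℂ) * R (h * p))) := by
      rw [h10, ← h6]; ring
    have h12 : (nm p : ℂ) * (nm p : ℂ) * (((nm p : ℝ) ^ (-(4 / 3 : ℝ)) : ℝ) : ℂ) =
        (((nm p : ℝ) ^ ((2 : ℝ) / 3) : ℝ) : ℂ) := by
      have : ((nm p : ℝ)) * (nm p : ℝ) * (nm p : ℝ) ^ (-(4 / 3 : ℝ)) =
          (nm p : ℝ) ^ ((2 : ℝ) / 3) := by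
        have e : (nm p : ℝ) * (nm p : ℝ) = (nm p : ℝ) ^ (2 : ℝ) := by
          rw [Real.rpow_two]; ring
        rw [e, ← Real.rpow_add hN]; norm_num
      rw [← this]; push_cast; ring
    have h13 : (starRingEnd ℂ) (gs h p) * R h =
        (((nm p : ℝ) ^ ((2 : ℝ) / 3) : ℝ) : ℂ) * R (h * p) := by
      rw [h11, ← h12]; ring
    rw [mul_assoc, h13, ← mul_assoc, h8, one_mul]
  · intro p h hpp hp hh
    have hN : (0 : ℝ) < nm p := nm_prime_pos hp
    have hN1 : ((nm p : ℂ) + 1) ≠ 0 := by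
      have : ((nm p : ℝ) + 1 : ℝ) ≠ 0 := by positivity
      exact_mod_cast this
    have hNc : (nm p : ℂ) ≠ 0 := by
      have : (nm p : ℝ) ≠ 0 := hN.ne'
      exact_mod_cast this
    have hp3 : p ^ 3 ≠ 0 := pow_ne_zero 3 hp.ne_zero
    have h1 := hL.one (h * p ^ 2)
    have h2 := hL.lev p hpp hp (h * p ^ 2)
    have h3 := (hf.lev_scale hL hpp hp (h * p ^ 2) hp3).const_mul ((nm p : ℂ) ^ 2)
    have h4 := h2.sub h3
    have h5 : R (h * p ^ 2) = ((nm p : ℂ) / (nm p + 1)) * R (h * p ^ 2) - (nm p : ℂ) ^ 2 *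
        ((((nm (p ^ 3) : ℝ) ^ (-(a + κ)) : ℝ) : ℂ) *
          (((nm p : ℂ) / (nm p + 1)) * R (h * p ^ 2))) := by
      refine tendsto_nhds_unique h1 (h4.congr' ?_)
      filter_upwards [eventually_gt_atTop (0 : ℝ)] with X hX
      rw [Psi_two hp hpp hh (hf.summable hX _)]
      ring
    rw [haκ] at h5
    have h7 : (((nm (p ^ 3) : ℝ) ^ (-(4 / 3 : ℝ)) : ℝ) : ℂ) * (nm p : ℂ) ^ 4 = 1 := by
      have : ((nm (p ^ 3) : ℝ) ^ (-(4 / 3 : ℝ)) : ℝ) * (nm p : ℝ) ^ 4 = 1 := by
        rw [nm_pow]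
        push_cast
        rw [← Real.rpow_natCast (nm p : ℝ) 3, ← Real.rpow_mul hN.le,
          ← Real.rpow_natCast (nm p : ℝ) 4, ← Real.rpow_add hN]
        norm_num
      exact_mod_cast this
    set r := R (h * p ^ 2) with hr
    set y := (((nm (p ^ 3) : ℝ) ^ (-(4 / 3 : ℝ)) : ℝ) : ℂ) with hy
    -- multiply by `N+1` and `N`
    have h8 : r * ((nm p : ℂ) + 1) = (nm p : ℂ) * r - (nm p : ℂ) ^ 3 * y * r := by
      field_simp at h5
      linear_combination h5
    have h9 : r * (1 + (nm p : ℂ) ^ 3 * y) = 0 := by linear_combination h8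
    have h10 : r * ((nm p : ℂ) + 1) = 0 := by
      linear_combination (nm p : ℂ) * h9 - r * h7
    exact (mul_eq_zero.mp h10).resolve_right hN1
  · intro p h hpp hp
    have hN : (0 : ℝ) < nm p := nm_prime_pos hp
    have hN1 : ((nm p : ℂ) + 1) ≠ 0 := by
      have : ((nm p : ℝ) + 1 : ℝ) ≠ 0 := by positivity
      exact_mod_cast this
    have hNc : (nm p : ℂ) ≠ 0 := by
      have : (nm p : ℝ) ≠ 0 := hN.ne'
      exact_mod_cast this
    have h1 := hL.lev p hpp hp (h * p ^ 3)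
    have h2 := hL.lev p hpp hp h
    simp only [PsiP_cube hpp] at h1
    have h3 := tendsto_nhds_unique h1 h2
    have h4 : (nm p : ℂ) / (nm p + 1) ≠ 0 := div_ne_zero hNc hN1
    exact mul_left_cancel₀ h4 h3

end Crest.Agent.R012.Res785
end
end

-- ▼ part R012/ResOut_785

/-!
# Row 12, item MR / H1: residue relations, output in the form of `SpecM_49`

* `Rel785.rhoRel` : `Rel785 (fun h => ρ h * m)`, `m ≠ 0`, gives `RhoRel ρ`
* `fam_norm`, `fam_unnorm` : the weights `v(N c/X)/√N c` (`a = 1/2`) and `v(N c/X)` (`a = 0`)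
* `SS_eq`, `SSp_eq` : `SS`, `SSp` in terms of `Psi`, `PsiP`
* `rhoRel_of_tendsto` : limits of `SS 0 0 v h X / X^(5/6)` and `SSp p v h X / X^(5/6) → 0`
* `rhoRel_of_unnorm` : the same from the unnormalised sums, `B^(4/3)`
* `exists_Wt` : a smooth weight with `mellin v s ≠ 0` for all real `s`
* `rhoRel_of_MS1 : MS1 ρ → STp → RhoRel ρ`
* consequences of `RhoRel`: `RhoRel.sqfree`, `RhoRel.cube`, `RhoRel.zero`
-/

set_option autoImplicit false
set_option linter.unusedSimpArgs false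
set_option linter.unusedVariables false

noncomputable section

open Complex Filter Topology

namespace Crest.Agent.R012.Res785

open Crest.Agent.R012 Crest.Agent.R012.Eis Crest.Agent.R012.GaussLoc283 Crest.Agent.R012.M49

/-! ### From `Rel785` to `RhoRel` -/

theorem Rel785.rhoRel {ρ : Eis → ℂ} {m : ℂ} (hm : m ≠ 0)
    (hR : Rel785 (fun h => ρ h * m)) : RhoRel ρ := by
  refine ⟨?_, ?_, ?_⟩
  · intro p h hpp hp hh
    have hN : (0 : ℝ) < nm p := nm_prime_pos hp
    have h1 := hR.one_p p h hpp hp hh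
    have h2 : ρ (h * p) = (((nm p : ℝ) ^ (-(2 : ℝ) / 3) : ℝ) : ℂ) *
        (starRingEnd ℂ) (gs h p) * ρ h := by
      apply mul_right_cancel₀ hm
      rw [h1]; ring
    rw [h2, map_div₀, Complex.conj_ofReal, Real.sqrt_eq_rpow]
    have h3 : ((nm p : ℝ) ^ (-(2 : ℝ) / 3)) =
        (nm p : ℝ) ^ (-(1 : ℝ) / 6) * ((nm p : ℝ) ^ ((1 : ℝ) / 2))⁻¹ := by
      rw [← Real.rpow_neg hN.le, ← Real.rpow_add hN]; norm_num
    rw [h3]
    push_cast
    ring
  · intro p h hpp hp hh
    have h1 := hR.two_p p h hpp hp hh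
    exact (mul_eq_zero.mp h1).resolve_right hm
  · intro p h hpp hp
    exact mul_right_cancel₀ hm (hR.three_p p h hpp hp)

/-! ### The two families of weights -/

/-- `v(N c / X) N(c)^{-a}`. -/
def fwt (v : ℝ → ℂ) (a : ℝ) (X : ℝ) (c : Eis) : ℂ :=
  v (nm c / X) * (((nm c : ℝ) ^ (-a) : ℝ) : ℂ)

lemma finite_nm_le (Y : ℝ) : {c : Eis | (nm c : ℝ) ≤ Y}.Finite := by
  refine (ball ⌊Y⌋₊).finite_toSet.subset ?_
  intro c hc
  simp only [Set.mem_setOf_eq] at hc
  rw [Finset.mem_coe, mem_ball]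
  exact Nat.le_floor hc

theorem fam_fwt {v : ℝ → ℂ} {b : ℝ} (hv : ∀ x, b < x → v x = 0) (a : ℝ) : Fam (fwt v a) a := by
  constructor
  · intro X hX
    refine (finite_nm_le (b * X)).subset ?_
    intro c hc
    simp only [Function.mem_support, fwt] at hc
    simp only [Set.mem_setOf_eq]
    by_contra hcon
    push Not at hcon
    apply hc
    rw [hv, zero_mul]
    rwa [lt_div_iff₀ hX]
  · intro X hX p c hp
    have hN : (0 : ℝ) < nm p := by exact_mod_cast nm_pos.mpr hp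
    unfold fwt
    rw [nm_mul]
    push_cast
    rw [Real.mul_rpow hN.le (Nat.cast_nonneg _)]
    have h1 : (nm p : ℝ) * (nm c : ℝ) / X = (nm c : ℝ) / (X / nm p) := by
      field_simp
    rw [h1]
    push_cast
    ring

lemma SS_eq (v : ℝ → ℂ) (h : Eis) (X : ℝ) : SS 0 0 v h X = Psi h (fwt v (1 / 2) X) := by
  unfold SS Psi
  apply tsum_congr
  intro d
  unfold psiT fwt
  split_ifs with h1
  · have hN : (0 : ℝ) < nm d := by exact_mod_cast nm_pos.mpr h1.ne_zero
    rw [Real.rpow_neg hN.le, ← Real.sqrt_eq_rpow]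
    simp only [ang, zpow_zero, Complex.ofReal_zero, zero_mul, Complex.cpow_zero, mul_one]
    push_cast
    ring
  · rfl

lemma SSp_eq {p : Eis} (hp0 : p ≠ 0) {v : ℝ → ℂ} {b : ℝ} (hv : ∀ x, b < x → v x = 0) (h : Eis)
    {X : ℝ} (hX : 0 < X) :
    SSp p v h X = Psi h (fwt v (1 / 2) X) -
      (1 + 1 / (nm p : ℂ)) * PsiP p h (fwt v (1 / 2) X) := by
  classical
  have hs := (fam_fwt hv (1 / 2)).summable hX h
  unfold SSp Psi PsiP
  rw [← tsum_mul_left, ← Summable.tsum_sub hs ((summable_psiPT hs).mul_left _)]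
  apply tsum_congr
  intro d
  unfold psiT psiPT fwt aP
  by_cases h1 : IsPrim d
  · have hN : (0 : ℝ) < nm d := by exact_mod_cast nm_pos.mpr h1.ne_zero
    rw [Real.rpow_neg hN.le, ← Real.sqrt_eq_rpow]
    by_cases h2 : p ∣ d
    · simp only [h1, h2, if_true, not_true_eq_false, and_false, if_false, mul_zero, sub_zero]
      push_cast
      ring
    · simp only [h1, h2, if_true, not_false_eq_true, and_true, if_false]
      push_cast
      ring
  · simp [h1]

/-- **Residue relations from limits of normalised sums.** -/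
theorem rhoRel_of_tendsto {ρ : Eis → ℂ} {v : ℝ → ℂ} {b : ℝ} (hv : ∀ x, b < x → v x = 0) {m : ℂ}
    (hm : m ≠ 0)
    (h1 : ∀ h : Eis, Tendsto (fun X : ℝ => SS 0 0 v h X / ((X ^ ((5 : ℝ) / 6) : ℝ) : ℂ)) atTop
      (𝓝 (ρ h * m)))
    (h2 : ∀ p : Eis, Prime p → IsPrim p → ∀ h : Eis,
      Tendsto (fun X : ℝ => SSp p v h X / ((X ^ ((5 : ℝ) / 6) : ℝ) : ℂ)) atTop (𝓝 0)) :
    RhoRel ρ := by
  refine Rel785.rhoRel hm (rel_of_lim (κ := 5 / 6) (fam_fwt hv (1 / 2)) (by norm_num) ?_)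
  refine ⟨?_, ?_⟩
  · intro h
    refine (h1 h).congr ?_
    intro X
    rw [SS_eq]
  · intro p hpp hp h
    have hN : (0 : ℝ) < nm p := nm_prime_pos hp
    have hN1 : ((nm p : ℂ) + 1) ≠ 0 := by
      have : ((nm p : ℝ) + 1 : ℝ) ≠ 0 := by positivity
      exact_mod_cast this
    have hNc : (nm p : ℂ) ≠ 0 := by
      have : (nm p : ℝ) ≠ 0 := hN.ne'
      exact_mod_cast this
    have h3 := ((h1 h).sub (h2 p hpp hp h)).const_mul ((nm p : ℂ) / (nm p + 1))
    rw [sub_zero] at h3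
    refine h3.congr' ?_
    filter_upwards [eventually_gt_atTop (0 : ℝ)] with X hX
    rw [SSp_eq hp.ne_zero hv h hX, SS_eq]
    field_simp
    ring


/-! ### A weight with non-vanishing Mellin transform -/

/-- there is a smooth weight supported in `[1,3]` whose Mellin transform does not vanish on the
real axis. -/
theorem exists_Wt : ∃ v : ℝ → ℂ, Wt v ∧ ∀ s : ℝ, mellin v (s : ℂ) ≠ 0 := by
  let φ : ContDiffBump (2 : ℝ) := ⟨1 / 2, 1, by norm_num, by norm_num⟩
  refine ⟨fun x => ((φ x : ℝ) : ℂ), ⟨?_, 1, 3, by norm_num, by norm_num, ?_⟩, ?_⟩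
  · exact Complex.ofRealCLM.contDiff.comp φ.contDiff
  · intro x hx
    have : φ x = 0 := by
      apply φ.zero_of_le_dist
      rw [Real.dist_eq]
      change (1 : ℝ) ≤ |x - 2|
      rcases hx with hx | hx
      · rw [abs_of_nonpos (by linarith)]; linarith
      · rw [abs_of_nonneg (by linarith)]; linarith
    simp [this]
  · intro s
    have h0 : ∀ x, φ x ≠ 0 → 1 < x ∧ x < 3 := by
      intro x hx
      have hx' : x ∈ Function.support φ := hx
      rw [φ.support_eq] at hx'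
      rw [Metric.mem_ball, Real.dist_eq] at hx'
      have : |x - 2| < 1 := hx'
      rw [abs_lt] at this
      constructor <;> linarith
    -- the integrand as a real function
    have h1 : mellin (fun x => ((φ x : ℝ) : ℂ)) (s : ℂ) =
        ((∫ x in Set.Ioi (0 : ℝ), x ^ (s - 1) * φ x : ℝ) : ℂ) := by
      rw [mellin, ← integral_complex_ofReal]
      apply MeasureTheory.setIntegral_congr_fun measurableSet_Ioi
      intro x hx
      simp only [Set.mem_Ioi] at hx
      simp only [smul_eq_mul]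
      rw [show ((s : ℂ) - 1) = ((s - 1 : ℝ) : ℂ) by push_cast; ring,
        ← Complex.ofReal_cpow hx.le]
      push_cast
      ring
    rw [h1]
    have h2 : 0 < ∫ x in Set.Ioi (0 : ℝ), x ^ (s - 1) * φ x := by
      have hcont : ContinuousOn (fun x : ℝ => x ^ (s - 1) * φ x) (Set.Icc 1 3) := by
        apply ContinuousOn.mul
        · intro x hx
          exact (Real.continuousAt_rpow_const x _ (Or.inl (by linarith [hx.1]))).continuousWithinAt
        · exact φ.continuous.continuousOn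
      have hint : MeasureTheory.IntegrableOn (fun x : ℝ => x ^ (s - 1) * φ x) (Set.Ioi 0) := by
        have h3 : MeasureTheory.IntegrableOn (fun x : ℝ => x ^ (s - 1) * φ x) (Set.Icc 1 3) :=
          hcont.integrableOn_Icc
        apply h3.of_forall_diff_eq_zero measurableSet_Ioi
        intro x hx
        have : φ x = 0 := by
          by_contra hne
          have := h0 x hne
          exact hx.2 ⟨this.1.le, this.2.le⟩
        rw [this, mul_zero]
      rw [MeasureTheory.setIntegral_pos_iff_support_of_nonneg_ae]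
      · refine lt_of_lt_of_le ?_ (MeasureTheory.measure_mono (s := Set.Ioo 1 3) ?_)
        · simp
        · intro x hx
          refine ⟨?_, ?_⟩
          · simp only [Function.mem_support]
            apply mul_ne_zero
            · exact (Real.rpow_pos_of_pos (by linarith [hx.1]) _).ne'
            · have : x ∈ Function.support φ := by
                rw [φ.support_eq, Metric.mem_ball, Real.dist_eq]
                change |x - 2| < 1
                rw [abs_lt]; constructor <;> linarith [hx.1, hx.2]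
              exact this
          · simp only [Set.mem_Ioi]; linarith [hx.1]
      · refine (MeasureTheory.ae_restrict_iff' measurableSet_Ioi).mpr (Filter.Eventually.of_forall ?_)
        intro x hx
        simp only [Set.mem_Ioi] at hx
        simp only [Pi.zero_apply]
        exact mul_nonneg (Real.rpow_nonneg hx.le _) φ.nonneg
      · exact hint
    exact_mod_cast h2.ne'

/-! ### From the mean-square theorem -/

/-- **`MS1 ρ → STp → RhoRel ρ`.** -/
theorem rhoRel_of_MS1 {ρ : Eis → ℂ} (hMS : MS1 ρ) (hST : STp) : RhoRel ρ := by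
  classical
  obtain ⟨v, hv, hm⟩ := exists_Wt
  obtain ⟨a, b, ha, hab, hsupp⟩ := hv.supp
  have hb : ∀ x, b < x → v x = 0 := fun x hx => hsupp x (Or.inr hx)
  refine rhoRel_of_tendsto (v := v) hb (m := mellin v (((5 / 6 : ℝ) : ℂ))) (hm _) ?_ ?_
  · intro h
    obtain ⟨C, hC⟩ := hMS 0 v hv (1 / 6) (by norm_num)
    set N : ℕ := nm h + 1 with hN
    have hN1 : 1 ≤ N := by omega
    have hmem : h ∈ ball N := by rw [mem_ball]; omega
    have hNpos : (0 : ℝ) < N := by exact_mod_cast hN1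
    -- pointwise bound
    have key : ∀ X : ℝ, 1 ≤ X →
        ‖SS 0 0 v h X / ((X ^ ((5 : ℝ) / 6) : ℝ) : ℂ) - ρ h * mellin v (((5 / 6 : ℝ) : ℂ))‖ ^ 2 ≤
          (C * (N : ℝ) ^ (1 / 6 : ℝ) * N) * X ^ (-(1 / 2 : ℝ)) := by
      intro X hX
      have hX0 : 0 < X := by linarith
      have h1 := hC N X 0 hN1 hX
      have h2 := (Finset.single_le_sum (f := fun h : Eis =>
        ‖SS 0 0 v h X - (if (0 : ℤ) = 0 then
          ρ h * mellin v ((5 : ℂ) / 6 + ((0 : ℝ) : ℂ) * Complex.I) *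
            (X : ℂ) ^ ((5 : ℂ) / 6 + ((0 : ℝ) : ℂ) * Complex.I)
          else 0)‖ ^ 2) (fun _ _ => sq_nonneg _) hmem).trans h1
      simp only [if_true, Complex.ofReal_zero, zero_mul, add_zero] at h2
      have e1 : ((5 : ℂ) / 6) = (((5 / 6 : ℝ)) : ℂ) := by push_cast; ring
      rw [e1, ← Complex.ofReal_cpow hX0.le] at h2
      have hpos : (0 : ℝ) < X ^ (5 / 6 : ℝ) := Real.rpow_pos_of_pos hX0 _
      have hne : (((X ^ (5 / 6 : ℝ) : ℝ)) : ℂ) ≠ 0 := by exact_mod_cast hpos.ne'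
      have e2 : SS 0 0 v h X / ((X ^ ((5 : ℝ) / 6) : ℝ) : ℂ) -
          ρ h * mellin v (((5 / 6 : ℝ) : ℂ)) =
          (SS 0 0 v h X - ρ h * mellin v (((5 / 6 : ℝ) : ℂ)) * ((X ^ (5 / 6 : ℝ) : ℝ) : ℂ)) /
            ((X ^ (5 / 6 : ℝ) : ℝ) : ℂ) := by
        field_simp
      rw [e2, norm_div, div_pow, Complex.norm_real, Real.norm_of_nonneg hpos.le,
        div_le_iff₀ (by positivity)]
      refine h2.trans (le_of_eq ?_)
      simp only [abs_zero, add_zero, one_mul]
      rw [Real.mul_rpow hX0.le hNpos.le]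
      have e3 : X ^ (1 / 6 : ℝ) * X = X ^ (-(1 / 2 : ℝ)) * (X ^ (5 / 6 : ℝ)) ^ 2 := by
        rw [← Real.rpow_natCast (X ^ (5 / 6 : ℝ)) 2, ← Real.rpow_mul hX0.le,
          ← Real.rpow_add hX0]
        nth_rewrite 2 [← Real.rpow_one X]
        rw [← Real.rpow_add hX0]
        norm_num
      have e4 : ((0 : ℝ) ^ 2) = 0 := by norm_num
      rw [e4, add_zero]
      calc C * (X ^ (1 / 6 : ℝ) * (N : ℝ) ^ (1 / 6 : ℝ)) * (N * X)
          = C * (N : ℝ) ^ (1 / 6 : ℝ) * N * (X ^ (1 / 6 : ℝ) * X) := by ring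
        _ = _ := by rw [e3]; ring
    rw [tendsto_iff_norm_sub_tendsto_zero]
    have hlim : Tendsto (fun X : ℝ =>
        (C * (N : ℝ) ^ (1 / 6 : ℝ) * N) * X ^ (-(1 / 2 : ℝ))) atTop (𝓝 0) := by
      have := (tendsto_rpow_neg_atTop (y := 1 / 2) (by norm_num)).const_mul
        (C * (N : ℝ) ^ (1 / 6 : ℝ) * N)
      simpa using this
    have hsq : Tendsto (fun X : ℝ => ‖SS 0 0 v h X / ((X ^ ((5 : ℝ) / 6) : ℝ) : ℂ) -
        ρ h * mellin v (((5 / 6 : ℝ) : ℂ))‖ ^ 2) atTop (𝓝 0) := by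
      refine squeeze_zero' (Filter.Eventually.of_forall fun _ => sq_nonneg _) ?_ hlim
      filter_upwards [eventually_ge_atTop (1 : ℝ)] with X hX using key X hX
    have := hsq.sqrt
    simpa [Real.sqrt_sq_eq_abs] using this
  · intro p hpp hp h
    obtain ⟨C, hC⟩ := hST v hv p hpp hp h
    rw [tendsto_zero_iff_norm_tendsto_zero]
    have hlim : Tendsto (fun X : ℝ => C * X ^ (-(1 / 12 : ℝ))) atTop (𝓝 0) := by
      have := (tendsto_rpow_neg_atTop (y := 1 / 12) (by norm_num)).const_mul C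
      simpa using this
    refine squeeze_zero' (Filter.Eventually.of_forall fun _ => norm_nonneg _) ?_ hlim
    filter_upwards [eventually_ge_atTop (1 : ℝ)] with X hX
    have hX0 : 0 < X := by linarith
    have hpos : (0 : ℝ) < X ^ ((5 : ℝ) / 6) := Real.rpow_pos_of_pos hX0 _
    rw [norm_div, Complex.norm_real, Real.norm_of_nonneg hpos.le, div_le_iff₀ hpos]
    refine (hC X hX).trans (le_of_eq ?_)
    rw [mul_assoc, ← Real.rpow_add hX0]
    norm_num

/-! ### Consequences of the relations -/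

/-- induction over primary elements, one primary prime at a time. -/
theorem isPrim_induction {P : Eis → Prop} (h1 : P 1)
    (hp : ∀ p a : Eis, Prime p → IsPrim p → IsPrim a → P a → P (a * p)) {a : Eis}
    (ha : IsPrim a) : P a := by
  have key : ∀ x : Eis, x ≠ 0 → ¬ lam ∣ x → P (prim x) := by
    intro x
    induction x using UniqueFactorizationMonoid.induction_on_prime with
    | h₁ => intro h; exact absurd rfl h
    | h₂ x hx =>
      intro _ hl
      have e : prim x = 1 := by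
        refine (prim_isPrim hl).eq_of_associated isPrim_one ?_
        exact (prim_associated x).symm.trans (associated_one_iff_isUnit.mpr hx)
      rw [e]; exact h1
    | h₃ b p hb hpp ih =>
      intro _ hl
      have hlp : ¬ lam ∣ p := fun h => hl (h.mul_right b)
      have hlb : ¬ lam ∣ b := fun h => hl (h.mul_left p)
      have e : prim (p * b) = prim b * prim p := by
        rw [prim_mul hlp hlb, mul_comm]
      rw [e]
      refine hp _ _ ?_ (prim_isPrim hlp) (prim_isPrim hlb) (ih hb hlb)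
      exact (prim_associated p).prime hpp
  have := key a ha.ne_zero ha.not_lam_dvd
  rwa [ha.prim_eq] at this

/-- `ρ (h k^3) = ρ h` for primary `k`. -/
theorem _root_.Crest.Agent.R012.M49.RhoRel.cube {ρ : Eis → ℂ} (hρ : RhoRel ρ) (h : Eis)
    {k : Eis} (hk : IsPrim k) : ρ (h * k ^ 3) = ρ h := by
  revert h
  refine isPrim_induction (P := fun k => ∀ h, ρ (h * k ^ 3) = ρ h) ?_ ?_ hk
  · intro h; simp
  · intro p a hpp hp ha ih h
    have : h * (a * p) ^ 3 = (h * a ^ 3) * p ^ 3 := by ring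
    rw [this, hρ.three_p p _ hpp hp, ih]

/-- `ρ (h a) = conj(g(h,a)/√N a) N(a)^{-1/6} ρ h` for primary squarefree `a` coprime to `h`. -/
theorem _root_.Crest.Agent.R012.M49.RhoRel.sqfree {ρ : Eis → ℂ} (hρ : RhoRel ρ)
    {a : Eis} (ha : IsPrim a) : ∀ h : Eis, Squarefree a → IsCoprime h a →
    ρ (h * a) = (starRingEnd ℂ) (gs h a / ((Real.sqrt (nm a) : ℝ) : ℂ)) *
        (((nm a : ℝ) ^ (-(1 : ℝ) / 6) : ℝ) : ℂ) * ρ h := by
  refine isPrim_induction (P := fun a => ∀ h : Eis, Squarefree a → IsCoprime h a →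
    ρ (h * a) = (starRingEnd ℂ) (gs h a / ((Real.sqrt (nm a) : ℝ) : ℂ)) *
        (((nm a : ℝ) ^ (-(1 : ℝ) / 6) : ℝ) : ℂ) * ρ h) ?_ ?_ ha
  · intro h _ _
    rw [gs_one_right syAx h]
    simp
  · intro p a hpp hp ha ih h hsq hcop
    have hsqa : Squarefree a := hsq.squarefree_of_dvd (dvd_mul_right a p)
    have hcopa : IsCoprime h a := hcop.of_mul_right_left
    have hcopp : IsCoprime h p := hcop.of_mul_right_right
    have hpa : ¬ p ∣ a := by
      intro hd
      have : p * p ∣ a * p := mul_dvd_mul_right hd p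
      exact hpp.not_unit (hsq p this)
    have hap : IsCoprime a p := (isCoprime_iff_not_dvd hpp a).mpr hpa
    have hph : ¬ p ∣ h * a := by
      rw [hpp.dvd_mul]
      rintro (h1 | h1)
      · exact (isCoprime_iff_not_dvd hpp h).mp hcopp h1
      · exact hpa h1
    have hNp : (0 : ℝ) ≤ nm p := Nat.cast_nonneg _
    have hNa : (0 : ℝ) ≤ nm a := Nat.cast_nonneg _
    rw [← mul_assoc, hρ.one_p p (h * a) hpp hp hph, ih h hsqa hcopa]
    have e1 : gs h (a * p) = gs h a * gs (h * a) p := by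
      have := gs_mul' syAx h ha hp hap
      exact this
    rw [e1, nm_mul]
    push_cast
    rw [Real.sqrt_mul hNa, Real.mul_rpow hNa hNp]
    push_cast
    simp only [map_div₀, map_mul, Complex.conj_ofReal]
    ring

/-- `ρ (h p^2) = 0` if the exponent of the primary prime `p` is `≡ 2 (mod 3)`. -/
theorem _root_.Crest.Agent.R012.M49.RhoRel.zero {ρ : Eis → ℂ} (hρ : RhoRel ρ)
    {p h : Eis} (hpp : Prime p) (hp : IsPrim p) (hh : ¬ p ∣ h) (n : ℕ) :
    ρ (h * p ^ (3 * n + 2)) = 0 := by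
  have : h * p ^ (3 * n + 2) = (h * p ^ 2) * (p ^ n) ^ 3 := by ring
  rw [this, hρ.cube _ (hp.pow n), hρ.two_p p h hpp hp hh]


end Crest.Agent.R012.Res785
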