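import Crest.Agent.R012.Mob_705
import Crest.Agent.R012.LS2Spec_381
import Crest.Agent.R012.AddChar_666

/-!
# Row 12, part (T): dispersion (Type II) — definitions and interface Props (helper411)

* `SqP n`      : primary and squarefree
* `mdl n`      : the model `c N(n)^(-1/6)` on squarefree `n`, `F n = G n - mdl n`
* `Cls w B 𝓑 β`: `𝓑` a finite set of squarefree primary `b`, `B < nm b ≤ 2B`, primes `≥ w`, `|β| ≤ 1`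
* `SS A 𝓑 β`   : `∑_{a squarefree primary} exp(-nm a / A) |∑_{b ∈ 𝓑} β b F(ab)|²`
* `tws 𝓑 β h u`: `∑_{b ∈ 𝓑} β b nm(b)^{iu} sy h b`
* `NC H`       : nonzero noncubes of norm `≤ H`;  `Ker H` : cubefree kernels of norm `≤ H`
* `TMain`      : the dispersion bound, `β` arbitrary;  `TIIsharp` : the final Type II estimate.
* pieces: `T0` (proved in `TDec_411`), `T1x`, `T1c`, `T1d`, `T3`, `T6`, `T13`, `TNXN`, `TNXC`.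
-/

set_option autoImplicit false

noncomputable section

namespace Crest.Agent.R012.T411

open Eis Mob705 Div277

/-- squarefree primary -/
def SqP (n : Eis) : Prop := IsPrim n ∧ Squarefree n

open Classical in
/-- the model `c N(n)^(-1/6)` on squarefree `n` -/
def mdl (n : Eis) : ℝ := if Squarefree n then pC * (nm n : ℝ) ^ (-(1 / 6) : ℝ) else 0

/-- `F(n) = G(n) - c μ²(n) N(n)^(-1/6)` -/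
def F (n : Eis) : ℂ := G n - (mdl n : ℂ)

/-- nonzero and not a cube (`-1` is a cube, so sign does not matter) -/
def NCube (h : Eis) : Prop := h ≠ 0 ∧ ∀ m : Eis, h ≠ m ^ 3

open Classical in
/-- nonzero noncubes of norm `≤ H` -/
def NC (H : ℝ) : Finset Eis := (LS2.bl H).filter NCube

/-- kernel `w^i lam^j k₁ k₂²` of a tuple -/
def kv (q : ℕ × ℕ × Eis × Eis) : Eis := w ^ q.1 * lam ^ q.2.1 * q.2.2.1 * q.2.2.2 ^ 2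

open Classical in
/-- cubefree kernels `w^i lam^j k₁ k₂²`, `i, j < 3`, `k₁, k₂` coprime squarefree primary, of norm
`≤ H` -/
def Ker (H : ℝ) : Finset (ℕ × ℕ × Eis × Eis) :=
  (Finset.range 3 ×ˢ Finset.range 3 ×ˢ LS2.S H ×ˢ LS2.S H).filter
    (fun q => IsCoprime q.2.2.1 q.2.2.2 ∧ (nm (kv q) : ℝ) ≤ H)

/-- the class of coefficients at scale `B` -/
structure Cls (w B : ℝ) (𝓑 : Finset Eis) (β : Eis → ℂ) : Prop where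
  sq : ∀ b ∈ 𝓑, SqP b
  lo : ∀ b ∈ 𝓑, B < nm b
  hi : ∀ b ∈ 𝓑, (nm b : ℝ) ≤ 2 * B
  rough : ∀ b ∈ 𝓑, ∀ p, IsPP p → p ∣ b → w ≤ nm p
  le : ∀ b, ‖β b‖ ≤ 1

/-- twisted sums of `β` -/
def tws (𝓑 : Finset Eis) (β : Eis → ℂ) (h : Eis) (u : ℝ) : ℂ :=
  ∑ b ∈ 𝓑, β b * (nm b : ℂ) ^ ((u : ℂ) * Complex.I) * sy h b

open Classical in
/-- the sum to be bounded (`a` squarefree primary) -/
def SS (A : ℝ) (𝓑 : Finset Eis) (β : Eis → ℂ) : ℝ :=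
  ∑' a : Eis, if SqP a then Real.exp (-(nm a : ℝ) / A) * ‖∑ b ∈ 𝓑, β b * F (a * b)‖ ^ 2 else 0

/-- `w = exp((log X)^(2/3))` -/
def ww (X : ℝ) : ℝ := Real.exp (Real.log X ^ ((2 : ℝ) / 3))

/-- **(T-MAIN), non-critical range** `B^(1+e0) ≤ A`: no structure of `β` is used. -/
def TMainN : Prop := ∀ e0 K : ℝ, 0 < e0 → 0 < K → ∃ C : ℝ, 0 < C ∧ ∀ X A B : ℝ, 2 ≤ X →
  X ^ ((1 : ℝ) / 4) ≤ B → B ^ (1 + e0) ≤ A → A ≤ X → ∀ (𝓑 : Finset Eis) (β : Eis → ℂ),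
  Cls (ww X) B 𝓑 β →
  SS A 𝓑 β ≤ C * (A * B * Real.log X ^ C + A ^ ((2 : ℝ) / 3) * B ^ ((5 : ℝ) / 3) * Real.log X ^ (-K)
    + A ^ ((2 : ℝ) / 3) * B ^ (-(1 : ℝ) / 3) * Real.log X ^ C *
      ∑ h ∈ NC (Real.log X ^ C), ∫ u : ℝ, (1 + u ^ 2)⁻¹ * ‖tws 𝓑 β h u‖ ^ 2)

/-- **(T-MAIN), critical range** `B^(1-e0/2) ≤ A ≤ B^(1+e0)`, all primes of `b` at least
`X^d1`. -/
def TMainC : Prop := ∀ e0 d1 K : ℝ, 0 < e0 → e0 ≤ 1 / 10 → 0 < d1 → e0 ≤ d1 → 0 < K →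
  ∃ C : ℝ, 0 < C ∧ ∀ X A B : ℝ, 2 ≤ X →
  X ^ ((1 : ℝ) / 4) ≤ B → A ≤ B ^ (1 + e0) → B ^ (1 - e0 / 2) ≤ A → A ≤ X →
  ∀ (𝓑 : Finset Eis) (β : Eis → ℂ), Cls (X ^ d1) B 𝓑 β →
  SS A 𝓑 β ≤ C * (A * B * Real.log X ^ C + A ^ ((2 : ℝ) / 3) * B ^ ((5 : ℝ) / 3) * Real.log X ^ (-K)
    + A ^ ((2 : ℝ) / 3) * B ^ (-(1 : ℝ) / 3) * Real.log X ^ C *
      (∑ h ∈ NC (Real.log X ^ C), ∫ u : ℝ, (1 + u ^ 2)⁻¹ * ‖tws 𝓑 β h u‖ ^ 2)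
    + A ^ ((2 : ℝ) / 3) * B ^ (-(1 : ℝ) / 3) * B ^ (-(1 - 2 * e0) / 3) * Real.log X ^ C *
      ∑ q ∈ Ker (B ^ (1 + e0)), ∫ u : ℝ, (1 + u ^ 2)⁻¹ * ‖tws 𝓑 β (kv q) u‖ ^ 2)

/-! ### Pieces of (T-MAIN) -/

/-- the constant of the main term `M(b₁,b₂)` -/
def cM : ℝ := pC ^ 2 * (2 * Real.pi / (9 * Real.sqrt 3)) * Real.Gamma (2 / 3)

/-- the main term of a pair (only depends on `b = b₁b₂`) -/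
def MM (A : ℝ) (b₁ b₂ : Eis) : ℝ :=
  cM * A ^ ((2 : ℝ) / 3) * PE (b₁ * b₂) * ((nm b₁ : ℝ) * nm b₂) ^ (-(1 : ℝ) / 6)

open Classical in
/-- the pair sum of `S1` -/
def P1 (A : ℝ) (b₁ b₂ : Eis) : ℂ :=
  ∑' a : Eis, if IsPrim a then (Real.exp (-(nm a : ℝ) / A) : ℂ) *
    (G b₁ * (starRingEnd ℂ) (sy a b₁) * (starRingEnd ℂ) (G b₂ * (starRingEnd ℂ) (sy a b₂))) else 0

open Classical in
/-- the dual sum over `h` in a set `H` of the pair `b₁ = e k₁`, `b₂ = e k₂` -/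
def dualP (A : ℝ) (e k₁ k₂ : Eis) (H : Eis → Eis → Prop) : ℂ :=
  ((2 * Real.pi * A / (9 * Real.sqrt 3) / Real.sqrt ((nm k₁ : ℝ) * nm k₂) : ℝ) : ℂ) *
    ∑ f ∈ dvs e, ((muE f : ℝ) / nm f : ℝ) *
      ∑' h : Eis, if H f h then
        eC (toC h / (3 * toC sq3)) *
        (Real.exp (-(4 * Real.pi ^ 2 * A * nm h / (27 * nm f * nm k₁ * nm k₂))) : ℂ) *
        (sy h k₁ * (starRingEnd ℂ) (sy (f * e) k₁)) *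
        (starRingEnd ℂ) (sy h k₂ * (starRingEnd ℂ) (sy (f * e) k₂)) else 0

/-- the cubes of the dual sum: `h = f e m³`, `m ≠ 0` -/
def isCubeE (e f h : Eis) : Prop := ∃ m : Eis, m ≠ 0 ∧ h = f * e * m ^ 3

/-- the noncubes of the dual sum -/
def isNonCubeE (e f h : Eis) : Prop := h ≠ 0 ∧ ¬ isCubeE e f h

/-- gcd of two squarefree primary elements -/
def gE (b₁ b₂ : Eis) : Eis := ∏ p ∈ pp b₁ ∩ pp b₂, p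

/-- cofactor `b₁ / gE b₁ b₂` -/
def kE (b₁ b₂ : Eis) : Eis := ∏ p ∈ pp b₁ \ pp b₂, p

/-- cube part of a pair -/
def CP (A : ℝ) (b₁ b₂ : Eis) : ℂ :=
  dualP A (gE b₁ b₂) (kE b₁ b₂) (kE b₂ b₁) (fun f h => isCubeE (gE b₁ b₂) f h)

/-- noncube part of a pair -/
def NP (A : ℝ) (b₁ b₂ : Eis) : ℂ :=
  dualP A (gE b₁ b₂) (kE b₁ b₂) (kE b₂ b₁) (fun f h => isNonCubeE (gE b₁ b₂) f h)

/-- (T1x) exact dual identity for a pair, `b₁ ≠ b₂` (helper671) -/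
def T1x : Prop := ∀ (A : ℝ) (b₁ b₂ : Eis), 0 < A → SqP b₁ → SqP b₂ → b₁ ≠ b₂ →
  P1 A b₁ b₂ = CP A b₁ b₂ + NP A b₁ b₂

/-- (T1c) the cubes (helper666) -/
def T1c : Prop := ∃ (C : ℝ) (k : ℕ), ∀ (A : ℝ) (b₁ b₂ : Eis), 1 ≤ A → SqP b₁ → SqP b₂ →
  b₁ ≠ b₂ →
  ‖CP A b₁ b₂ - (MM A b₁ b₂ : ℂ)‖ ≤
    C * A * (tau (b₁ * b₂) : ℝ) ^ k * nm (gE b₁ b₂) / Real.sqrt ((nm b₁ : ℝ) * nm b₂)

/-- weight of the separated noncube terms -/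
def om (K : ℝ) (h : Eis) : ℝ := min ((K / nm h) ^ ((1 : ℝ) / 4)) ((K / nm h) ^ (2 : ℝ))

open Classical in
/-- the separated noncube terms -/
def RHSd (A B : ℝ) (𝓑 : Finset Eis) (β : Eis → ℂ) : ℝ :=
  ∑ e ∈ 𝓑.biUnion dvs, ∑ f ∈ dvs e, ∑ g ∈ (𝓑.biUnion dvs).filter (IsCoprime · e),
    A * nm e / (B * nm f) * ∫ u : ℝ, (1 + u ^ 2)⁻¹ *
      ∑' h : Eis, if isNonCubeE e f h then
        om (nm f * B ^ 2 / ((nm e : ℝ) ^ 2 * A)) h *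
        ‖∑ n ∈ (𝓑.biUnion dvs).filter (fun n => e * g * n ∈ 𝓑),
          β (e * g * n) * (starRingEnd ℂ) (sy (f * e) n) * sy h n *
            (nm n : ℂ) ^ ((u : ℂ) * Complex.I)‖ ^ 2 else 0

open Classical in
/-- (T1d) the noncubes of all pairs `b₁ ≠ b₂`, variables separated (helper671/810) -/
def T1d : Prop := ∃ C : ℝ, 0 < C ∧ ∀ (A B : ℝ) (𝓑 : Finset Eis) (β : Eis → ℂ),
  1 ≤ A → 1 ≤ B → Cls 1 B 𝓑 β →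
  ‖∑ b₁ ∈ 𝓑, ∑ b₂ ∈ 𝓑.erase b₁, β b₁ * (starRingEnd ℂ) (β b₂) * NP A b₁ b₂‖ ≤
  C * ∑ b ∈ 𝓑, ‖β b‖ ^ 2 * (tau b : ℝ) ^ 2 + C * RHSd A B 𝓑 β

/-- (TNX), non-critical (helper52): from `RHSd` to the noncube term of `TMainN` -/
def TNXN : Prop := ∀ e0 K : ℝ, 0 < e0 → 0 < K → ∃ C : ℝ, 0 < C ∧ ∀ X A B : ℝ, 2 ≤ X →
  X ^ ((1 : ℝ) / 4) ≤ B → B ^ (1 + e0) ≤ A → A ≤ X → ∀ (𝓑 : Finset Eis) (β : Eis → ℂ),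
  Cls (ww X) B 𝓑 β →
  RHSd A B 𝓑 β ≤ C * (A * B * Real.log X ^ C +
    A ^ ((2 : ℝ) / 3) * B ^ ((5 : ℝ) / 3) * Real.log X ^ (-K)
    + A ^ ((2 : ℝ) / 3) * B ^ (-(1 : ℝ) / 3) * Real.log X ^ C *
      ∑ h ∈ NC (Real.log X ^ C), ∫ u : ℝ, (1 + u ^ 2)⁻¹ * ‖tws 𝓑 β h u‖ ^ 2)

/-- (TNX), critical (helper52) -/
def TNXC : Prop := ∀ e0 d1 K : ℝ, 0 < e0 → e0 ≤ 1 / 10 → 0 < d1 → e0 ≤ d1 → 0 < K →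
  ∃ C : ℝ, 0 < C ∧ ∀ X A B : ℝ, 2 ≤ X →
  X ^ ((1 : ℝ) / 4) ≤ B → A ≤ B ^ (1 + e0) → B ^ (1 - e0 / 2) ≤ A → A ≤ X →
  ∀ (𝓑 : Finset Eis) (β : Eis → ℂ), Cls (X ^ d1) B 𝓑 β →
  RHSd A B 𝓑 β ≤ C * (A * B * Real.log X ^ C +
    A ^ ((2 : ℝ) / 3) * B ^ ((5 : ℝ) / 3) * Real.log X ^ (-K)
    + A ^ ((2 : ℝ) / 3) * B ^ (-(1 : ℝ) / 3) * Real.log X ^ C *
      (∑ h ∈ NC (Real.log X ^ C), ∫ u : ℝ, (1 + u ^ 2)⁻¹ * ‖tws 𝓑 β h u‖ ^ 2)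
    + A ^ ((2 : ℝ) / 3) * B ^ (-(1 : ℝ) / 3) * B ^ (-(1 - 2 * e0) / 3) * Real.log X ^ C *
      ∑ q ∈ Ker (B ^ (1 + e0)), ∫ u : ℝ, (1 + u ^ 2)⁻¹ * ‖tws 𝓑 β (kv q) u‖ ^ 2)

open Classical in
/-- the pair sum of `S3` for `b = b₁b₂`: sum over `a = a₀ m³` coprime to `b` -/
def P3 (A : ℝ) (b : Eis) : ℝ :=
  ∑' q : Eis × Eis, if SqP q.1 ∧ IsPrim q.2 ∧ IsCoprime (q.1 * q.2) b then
      Real.exp (-((nm q.1 : ℝ) * (nm q.2 : ℝ) ^ 3) / A) * (nm q.1 : ℝ) ^ (-(1 : ℝ) / 3) else 0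

/-- (T3) (helper85) -/
def T3 : Prop := ∃ (C : ℝ) (k : ℕ), ∀ (A : ℝ) (b : Eis), 1 ≤ A → IsPrim b →
  |P3 A b - 2 * Real.pi / (9 * Real.sqrt 3) * Real.Gamma (2 / 3) * PE b * A ^ ((2 : ℝ) / 3)| ≤
    C * (tau b : ℝ) ^ k * A ^ ((1 : ℝ) / 3) * (1 + Real.log A)

open Classical in
/-- the type I input of (T6): mean square over moduli (941) -/
def TIf : Prop := ∀ ε : ℝ, 0 < ε → ∃ C : ℝ, 0 < C ∧ ∀ R Y : ℝ, 1 ≤ R → 1 ≤ Y →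
  ∑ r ∈ LS2.S R, ‖∑' c : Eis, if IsPrim c then
    ((((nm c : ℝ) / Y) ^ (-(1 : ℝ) / 6) * Real.exp (-(nm c : ℝ) / Y) : ℝ) : ℂ) * F (r * c)
      else 0‖ ^ 2 ≤ C * (R * Y) ^ (1 + ε)

open Classical in
/-- the triple sum of `S2 - S3` for a pair: over `a = a₀ m³`, `(m, b₁b₂) = 1`, `(a₀, b₂) = 1` -/
def P23 (A : ℝ) (b₁ b₂ : Eis) : ℂ :=
  ∑' q : Eis × Eis, if SqP q.1 ∧ IsPrim q.2 ∧ IsCoprime q.2 (b₁ * b₂) ∧ IsCoprime q.1 b₂ then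
    ((Real.exp (-((nm q.1 : ℝ) * (nm q.2 : ℝ) ^ 3) / A) * (nm q.1 : ℝ) ^ (-(1 : ℝ) / 6) : ℝ) : ℂ) *
      F (q.1 * b₁) else 0

open Classical in
/-- (T6) bound of `S2 - S3` (helper869), from `TIf` -/
def T6 : Prop := ∀ ε : ℝ, 0 < ε → ∃ C : ℝ, 0 < C ∧ ∀ (A B : ℝ) (𝓑 : Finset Eis) (β : Eis → ℂ),
  1 ≤ A → 1 ≤ B → Cls 1 B 𝓑 β →
  ‖∑ b₁ ∈ 𝓑, ∑ b₂ ∈ 𝓑, β b₁ * (starRingEnd ℂ) (β b₂) * ((nm b₂ : ℝ) ^ (-(1 : ℝ) / 6) : ℝ) *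
    P23 A b₁ b₂‖ ≤ C * (A * B) ^ ε * A ^ ((1 : ℝ) / 3) * B ^ ((11 : ℝ) / 6)

/-- (T13) combination `S1 - S3` (helper671): main terms cancel -/
def T13 : Prop := ∃ C k : ℝ, 0 < C ∧ 0 ≤ k ∧ ∀ (A B : ℝ) (𝓑 : Finset Eis) (β : Eis → ℂ),
  1 ≤ A → 1 ≤ B → Cls 1 B 𝓑 β →
  ‖∑ b₁ ∈ 𝓑, ∑ b₂ ∈ 𝓑, β b₁ * (starRingEnd ℂ) (β b₂) * (P1 A b₁ b₂ -
      ((pC ^ 2 * ((nm b₁ : ℝ) * nm b₂) ^ (-(1 : ℝ) / 6) * P3 A (b₁ * b₂) : ℝ) : ℂ))‖ ≤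
  C * (1 + Real.log (A * B)) ^ k *
    (A * B + A ^ ((2 : ℝ) / 3) * B ^ ((2 : ℝ) / 3) + A ^ ((1 : ℝ) / 3) * B ^ ((5 : ℝ) / 3)) +
  C * RHSd A B 𝓑 β

/-- (T0) the exact decomposition `S = (S1 - S3) - 2 Re (S2 - S3)` as an inequality for `SS`
(helper411). -/
def T0 : Prop := ∀ (A B : ℝ) (𝓑 : Finset Eis) (β : Eis → ℂ), 1 ≤ A → 1 ≤ B → Cls 1 B 𝓑 β →
  SS A 𝓑 β ≤ (∑ b₁ ∈ 𝓑, ∑ b₂ ∈ 𝓑, β b₁ * (starRingEnd ℂ) (β b₂) * (P1 A b₁ b₂ -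
      ((pC ^ 2 * ((nm b₁ : ℝ) * nm b₂) ^ (-(1 : ℝ) / 6) * P3 A (b₁ * b₂) : ℝ) : ℂ))).re -
    2 * (pC * ∑ b₁ ∈ 𝓑, ∑ b₂ ∈ 𝓑, β b₁ * (starRingEnd ℂ) (β b₂) *
      ((nm b₂ : ℝ) ^ (-(1 : ℝ) / 6) : ℝ) * P23 A b₁ b₂).re

/-! ### The final Type II estimate (T7a, helper54) -/









end Crest.Agent.R012.T411
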