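import Crest.Agent.R012.TypeI5_941
import Crest.Agent.R012.ResOut_785
import Crest.Agent.R012.Spec_T_411
import Crest.Agent.R012.MSgenE_49
import Crest.Agent.R012.ModelFin_705
import Crest.Agent.R012.Mob_705
import Crest.Agent.R012.LScount_448
import Crest.Agent.R012.LS2Spec_381
import Crest.Agent.R012.GaussInst_880
import Crest.Agent.R012.Div_277
import Crest.Agent.R012.PoissonS_581
import Crest.Agent.R012.TauDef_85

-- ▼ part R012/TypeI6_941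
section

/-!
# Row 12, item TI (part 6): from `M49.MS` to the base mean square, and `M49.TypeI`
-/

set_option autoImplicit false

noncomputable section

open Complex
open scoped ENNReal

namespace Crest.Agent.R012.TypeI941

open Crest.Agent.R012 Eis LS2 Mob705 GaussLoc283

variable {ρ : Eis → ℂ}

/-- `Ef` at the empty set is the summand of `M49.MS`. -/
lemma Ef_empty (l : ℤ) (τ : ℝ) (v : ℝ → ℂ) (h : Eis) (Y : ℝ) :
    Ef l τ v ρ h ∅ Y = M49.SS l τ v h Y - (if l = 0 then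
        ρ h * mellin v ((5 : ℂ) / 6 + τ * Complex.I) * (Y : ℂ) ^ ((5 : ℂ) / 6 + τ * Complex.I)
        else 0) := by
  unfold Ef
  congr 1
  · unfold U M49.SS
    refine tsum_congr fun b => ?_
    have hc : cop ∅ b := fun p hp => absurd hp (Finset.notMem_empty p)
    by_cases hb : IsPrim b
    · simp only [hb, hc, and_self, if_true]
      unfold gt ch
      ring
    · simp [hb]
  · unfold Mt dens se
    simp

lemma SS_zero {v : ℝ → ℂ} {b : ℝ} (hv : ∀ x, b < x → v x = 0) (l : ℤ) (τ : ℝ) (h : Eis) {Y : ℝ}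
    (hY : 0 < Y) (hYb : Y * b < 1) : M49.SS l τ v h Y = 0 := by
  unfold M49.SS
  have h0 : ∀ d : Eis, (open Classical in if IsPrim d then
    gs h d / ((Real.sqrt (nm d) : ℝ) : ℂ) * ang l d * v (nm d / Y) *
      (nm d : ℂ) ^ ((τ : ℂ) * Complex.I) else 0) = 0 := by
    intro d
    split_ifs with hd
    · have h1 : (1 : ℝ) ≤ nm d := by exact_mod_cast nm_pos.mpr hd.ne_zero
      have : v ((nm d : ℝ) / Y) = 0 := by
        apply hv
        rw [lt_div_iff₀ hY]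
        nlinarith
      rw [this]; ring
    · rfl
  simp only [h0, tsum_zero]

/-- `M49.MS` with exponent `Y^{1+δ}` for all `Y > 0`. -/
theorem MS_strong (hMS : M49.MS ρ) (l : ℤ) {v : ℝ → ℂ} (hv : M49.Wt v) {δ : ℝ} (hδ : 0 < δ)
    (hδ1 : δ ≤ 2 / 3) : ∃ C : ℝ, 0 ≤ C ∧ ∀ (N : ℕ) (Y τ : ℝ), 1 ≤ N → 0 < Y →
      ∑ h ∈ ball N, ‖Ef l τ v ρ h ∅ Y‖ ^ 2 ≤
        C * ((1 + |τ|) * N) ^ δ * (N + τ ^ 2) * Y ^ (1 + δ) := by
  obtain ⟨C, hC⟩ := hMS l v hv δ hδ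
  obtain ⟨a, b, ha, hab, hsup⟩ := hv.supp
  set b1 : ℝ := max b 1 with hb1
  have hb1' : 1 ≤ b1 := le_max_right _ _
  have hbb1 : b ≤ b1 := le_max_left _ _
  have hC0 : 0 ≤ |C| := abs_nonneg C
  set X0 : ℝ := 1 / (2 * b1) with hX0
  have hX0p : 0 < X0 := by positivity
  have hX01 : X0 ≤ 1 := by rw [hX0, div_le_one (by positivity)]; linarith
  set A : ℝ := |C| * 2 ^ δ * (b1 ^ δ + X0 * X0⁻¹ ^ ((5 : ℝ) / 3)) with hA
  have hA0 : 0 ≤ A := by positivity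
  refine ⟨A, hA0, fun N Y τ hN hY => ?_⟩
  have hN' : (1 : ℝ) ≤ N := by exact_mod_cast hN
  have hT : 1 ≤ 1 + |τ| := by linarith [abs_nonneg τ]
  have hbase : 0 < (1 + |τ|) * N := by positivity
  have hms : ∀ Y, 0 < Y → ∑ h ∈ ball N, ‖Ef l τ v ρ h ∅ Y‖ ^ 2 ≤
      |C| * ((1 + |τ|) * (1 + Y) * N) ^ δ * ((N + τ ^ 2) * Y) := by
    intro Y hY
    simp only [Ef_empty]
    refine (hC N Y τ hN hY).trans ?_
    gcongr
    exact le_abs_self C
  have hpow : ∀ Y, 0 < Y → Y ≤ 1 → ((1 + |τ|) * (1 + Y) * N) ^ δ ≤ 2 ^ δ * ((1 + |τ|) * N) ^ δ := by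
    intro Y hY hY1
    rw [← Real.mul_rpow (by norm_num) hbase.le]
    apply Real.rpow_le_rpow (by positivity) _ hδ.le
    have : (1 + |τ|) * (1 + Y) * N = (1 + Y) * ((1 + |τ|) * N) := by ring
    rw [this]
    gcongr
    linarith
  by_cases hY1 : 1 ≤ Y
  · -- large Y
    refine (hms Y hY).trans ?_
    have h1 : ((1 + |τ|) * (1 + Y) * N) ^ δ ≤ 2 ^ δ * ((1 + |τ|) * N) ^ δ * Y ^ δ := by
      rw [← Real.mul_rpow (by norm_num) hbase.le, ← Real.mul_rpow (by positivity) hY.le]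
      apply Real.rpow_le_rpow (by positivity) _ hδ.le
      have : (1 + |τ|) * (1 + Y) * N = (1 + Y) * ((1 + |τ|) * N) := by ring
      rw [this]
      have : 2 * ((1 + |τ|) * N) * Y = (2 * Y) * ((1 + |τ|) * N) := by ring
      rw [this]
      gcongr
      linarith
    calc |C| * ((1 + |τ|) * (1 + Y) * N) ^ δ * ((N + τ ^ 2) * Y)
        ≤ |C| * (2 ^ δ * ((1 + |τ|) * N) ^ δ * Y ^ δ) * ((N + τ ^ 2) * Y) := by gcongr
      _ = (|C| * 2 ^ δ) * ((1 + |τ|) * N) ^ δ * (N + τ ^ 2) * (Y ^ (1 : ℝ) * Y ^ δ) := by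
          rw [Real.rpow_one]; ring
      _ = (|C| * 2 ^ δ) * ((1 + |τ|) * N) ^ δ * (N + τ ^ 2) * Y ^ (1 + δ) := by
          rw [← Real.rpow_add hY]
      _ ≤ _ := by
          gcongr
          rw [hA]
          have h2 : 1 ≤ b1 ^ δ := Real.one_le_rpow hb1' hδ.le
          have h3 : 0 ≤ X0 * X0⁻¹ ^ ((5 : ℝ) / 3) := by positivity
          have h4 : 0 ≤ |C| * 2 ^ δ := by positivity
          nlinarith
  · push Not at hY1
    by_cases hYb : Y * b1 < 1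
    · -- tiny Y : only the main term
      have hE : ∀ h, ∀ Z, 0 < Z → Z * b1 < 1 → ‖Ef l τ v ρ h ∅ Z‖ ^ 2 =
          (if l = 0 then ‖ρ h * mellin v (se τ)‖ ^ 2 else 0) * Z ^ ((5 : ℝ) / 3) := by
        intro h Z hZ hZb
        rw [Ef_empty, SS_zero (b := b1) (fun x hx => hsup x (Or.inr (lt_of_le_of_lt hbb1 hx)))
          l τ h hZ hZb, zero_sub, norm_neg]
        split_ifs with hl
        · rw [norm_mul, mul_pow, Complex.norm_cpow_eq_rpow_re_of_pos hZ]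
          have e : ((5 : ℂ) / 6 + τ * Complex.I).re = 5 / 6 := by simp
          rw [e]
          congr 1
          rw [← Real.rpow_natCast, ← Real.rpow_mul hZ.le]
          norm_num
        · simp
      have hX0b : X0 * b1 < 1 := by
        rw [hX0]; field_simp; norm_num
      have h5 := hms X0 hX0p
      rw [Finset.sum_congr rfl (fun h _ => hE h X0 hX0p hX0b), ← Finset.sum_mul] at h5
      rw [Finset.sum_congr rfl (fun h _ => hE h Y hY hYb), ← Finset.sum_mul]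
      set R : ℝ := ∑ h ∈ ball N, (if l = 0 then ‖ρ h * mellin v (se τ)‖ ^ 2 else 0) with hR
      have hR0 : 0 ≤ R := Finset.sum_nonneg fun h _ => by split_ifs <;> positivity
      have h6 : R ≤ |C| * 2 ^ δ * (X0 * X0⁻¹ ^ ((5 : ℝ) / 3)) * ((1 + |τ|) * N) ^ δ * (N + τ ^ 2) := by
        have h7 : R * X0 ^ ((5 : ℝ) / 3) * X0⁻¹ ^ ((5 : ℝ) / 3) = R := by
          rw [mul_assoc, ← Real.mul_rpow hX0p.le (by positivity), mul_inv_cancel₀ hX0p.ne',
            Real.one_rpow, mul_one]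
        rw [← h7]
        calc R * X0 ^ ((5 : ℝ) / 3) * X0⁻¹ ^ ((5 : ℝ) / 3)
            ≤ (|C| * ((1 + |τ|) * (1 + X0) * N) ^ δ * ((N + τ ^ 2) * X0)) *
              X0⁻¹ ^ ((5 : ℝ) / 3) := by gcongr
          _ ≤ (|C| * (2 ^ δ * ((1 + |τ|) * N) ^ δ) * ((N + τ ^ 2) * X0)) *
              X0⁻¹ ^ ((5 : ℝ) / 3) := by
              gcongr
              exact hpow X0 hX0p hX01
          _ = _ := by ring
      calc R * Y ^ ((5 : ℝ) / 3)
          ≤ (|C| * 2 ^ δ * (X0 * X0⁻¹ ^ ((5 : ℝ) / 3)) * ((1 + |τ|) * N) ^ δ * (N + τ ^ 2)) *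
            Y ^ (1 + δ) := by
            apply mul_le_mul h6 _ (by positivity) (by positivity)
            apply Real.rpow_le_rpow_of_exponent_ge hY hY1.le
            linarith
        _ ≤ _ := by
            gcongr
            rw [hA]
            have h2 : 0 ≤ b1 ^ δ := by positivity
            have h4 : 0 ≤ |C| * 2 ^ δ := by positivity
            nlinarith
    · push Not at hYb
      refine (hms Y hY).trans ?_
      have h8 : (1 : ℝ) ≤ b1 ^ δ * Y ^ δ := by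
        rw [← Real.mul_rpow (by positivity) hY.le, mul_comm b1]
        exact Real.one_le_rpow hYb hδ.le
      calc |C| * ((1 + |τ|) * (1 + Y) * N) ^ δ * ((N + τ ^ 2) * Y)
          ≤ |C| * (2 ^ δ * ((1 + |τ|) * N) ^ δ) * ((N + τ ^ 2) * Y) := by
            gcongr
            exact hpow Y hY hY1.le
        _ = (|C| * 2 ^ δ * ((1 + |τ|) * N) ^ δ * (N + τ ^ 2) * Y) * 1 := by ring
        _ ≤ (|C| * 2 ^ δ * ((1 + |τ|) * N) ^ δ * (N + τ ^ 2) * Y) * (b1 ^ δ * Y ^ δ) := by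
            gcongr
        _ = (|C| * 2 ^ δ * b1 ^ δ) * ((1 + |τ|) * N) ^ δ * (N + τ ^ 2) * (Y ^ (1 : ℝ) * Y ^ δ) := by
            rw [Real.rpow_one]; ring
        _ = (|C| * 2 ^ δ * b1 ^ δ) * ((1 + |τ|) * N) ^ δ * (N + τ ^ 2) * Y ^ (1 + δ) := by
            rw [← Real.rpow_add hY]
        _ ≤ _ := by
            gcongr
            rw [hA]
            have h3 : 0 ≤ X0 * X0⁻¹ ^ ((5 : ℝ) / 3) := by positivity
            have h4 : 0 ≤ |C| * 2 ^ δ := by positivity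
            nlinarith

/-- the hypothesis `hM` of `Rec.meanSq`. -/
theorem base_meanSq (hMS : M49.MS ρ) (l : ℤ) {v : ℝ → ℂ} (hv : M49.Wt v) {δ : ℝ} (hδ : 0 < δ)
    (hδ1 : δ ≤ 2 / 3) : ∃ C : ℝ, 0 ≤ C ∧ ∀ (s0 : Eis) (τ : ℝ), s0 ≠ 0 →
      ∀ H : ℝ, 1 ≤ H → ∀ Y : ℝ, 0 < Y →
      ∑ h ∈ S H, ‖Ef l τ v ρ (s0 * h) ∅ Y‖ₑ ^ 2 ≤
        ENNReal.ofReal ((C * (1 + |τ|) ^ δ * (nm s0 : ℝ) ^ (1 + δ)) * (H + τ ^ 2) * H ^ δ) *
          ENNReal.ofReal (Y ^ (1 + δ)) := by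
  classical
  obtain ⟨C, hC0, hC⟩ := MS_strong hMS l hv hδ hδ1
  refine ⟨C, hC0, fun s0 τ hs0 H hH Y hY => ?_⟩
  have hn0 : (1 : ℝ) ≤ nm s0 := by exact_mod_cast nm_pos.mpr hs0
  have hHp : 0 < H := by linarith
  set N : ℕ := ⌊(nm s0 : ℝ) * H⌋₊ with hN
  have hNle : (N : ℝ) ≤ nm s0 * H := Nat.floor_le (by positivity)
  have hN1 : 1 ≤ N := by
    rw [hN]
    apply Nat.le_floor
    push_cast
    nlinarith
  have hN1' : (1 : ℝ) ≤ N := by exact_mod_cast hN1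
  have hinj : Set.InjOn (fun h : Eis => s0 * h) (S H) := fun x _ y _ h => mul_left_cancel₀ hs0 h
  have h1 : ∑ h ∈ S H, ‖Ef l τ v ρ (s0 * h) ∅ Y‖ₑ ^ 2 ≤ ∑ h ∈ ball N, ‖Ef l τ v ρ h ∅ Y‖ₑ ^ 2 := by
    rw [← Finset.sum_image (f := fun h => ‖Ef l τ v ρ h ∅ Y‖ₑ ^ 2) hinj]
    apply Finset.sum_le_sum_of_subset
    intro x hx
    obtain ⟨h, hh, rfl⟩ := Finset.mem_image.mp hx
    rw [mem_S hHp.le] at hh
    rw [mem_ball, nm_mul]
    apply Nat.le_floor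
    push_cast
    gcongr
    exact hh.1
  have h2 : ∑ h ∈ ball N, ‖Ef l τ v ρ h ∅ Y‖ₑ ^ 2 =
      ENNReal.ofReal (∑ h ∈ ball N, ‖Ef l τ v ρ h ∅ Y‖ ^ 2) := by
    rw [ENNReal.ofReal_sum_of_nonneg (fun _ _ => by positivity)]
    refine Finset.sum_congr rfl fun h _ => ?_
    rw [ENNReal.ofReal_pow (norm_nonneg _), ofReal_norm]
  refine h1.trans ?_
  rw [h2, ← ENNReal.ofReal_mul (by positivity)]
  apply ENNReal.ofReal_le_ofReal
  refine (hC N Y τ hN1 hY).trans ?_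
  have h3 : ((1 + |τ|) * N) ^ δ ≤ (1 + |τ|) ^ δ * ((nm s0 : ℝ) ^ δ * H ^ δ) := by
    rw [← Real.mul_rpow (by positivity) hHp.le, ← Real.mul_rpow (by positivity) (by positivity)]
    gcongr
  have h4 : (N : ℝ) + τ ^ 2 ≤ nm s0 * (H + τ ^ 2) := by nlinarith [sq_nonneg τ]
  calc C * ((1 + |τ|) * N) ^ δ * (N + τ ^ 2) * Y ^ (1 + δ)
      ≤ C * ((1 + |τ|) ^ δ * ((nm s0 : ℝ) ^ δ * H ^ δ)) * (nm s0 * (H + τ ^ 2)) * Y ^ (1 + δ) := by
        gcongr
    _ = _ := by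
        rw [Real.rpow_add (by linarith : (0 : ℝ) < nm s0), Real.rpow_one]; ring

/-- divisor bound for `2 ^ #(pp d)`. -/
lemma two_pow_card_pp_le {d : Eis} (hd : d ≠ 0) : (2 : ℝ) ^ (pp d).card ≤ Div277.tau d := by
  classical
  unfold Div277.tau
  rw [← Nat.cast_ofNat, ← Nat.cast_pow, ← Finset.card_powerset]
  norm_cast
  refine Finset.card_le_card_of_injOn (fun T => ∏ q ∈ T, q) ?_ ?_
  · intro T hT
    have hT' : T ⊆ pp d := Finset.mem_powerset.mp hT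
    have hTP : PPSet T := (ppSet_pp d).subset hT'
    show (∏ q ∈ T, q) ∈ Div277.dvs d
    rw [Div277.mem_dvs hd]
    refine ⟨hTP.isPrim_prod, (hTP.prod_dvd).mpr fun q hq => dvd_of_mem_pp (hT' hq)⟩
  · intro T hT T' hT' h
    have h1 : PPSet T := (ppSet_pp d).subset (Finset.mem_powerset.mp hT)
    have h2 : PPSet T' := (ppSet_pp d).subset (Finset.mem_powerset.mp hT')
    have := congrArg pp h
    simp only at this
    rwa [h1.pp_prod, h2.pp_prod] at this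

end Crest.Agent.R012.TypeI941
end
end

-- ▼ part R012/TypeI8_941
section

/-!
# Row 12, item TI (part 7): `M49.TypeI`

* `typeI_of_MS : MS ρ → RhoRel ρ → RhoOne ρ → M49.TypeI`
-/

set_option autoImplicit false

noncomputable section

open Complex
open scoped ENNReal

namespace Crest.Agent.R012.TypeI941

open Crest.Agent.R012 Eis LS2 Mob705 GaussLoc283

variable {ρ : Eis → ℂ}

lemma G_eq_gt (c : Eis) : G c = gt 1 c := rfl

lemma norm_gt_one {a : Eis} (ha : IsPrim a) (hs : Squarefree a) : ‖gt 1 a‖ = 1 :=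
  Gauss880.norm_G Gauss880.syG ha hs

lemma map_eq_of_rel {β : Type*} {f : Eis → β} (hf : ∀ a b, Associated a b → f a = f b)
    {s t : Multiset Eis} (h : Multiset.Rel Associated s t) : s.map f = t.map f := by
  induction h with
  | zero => rfl
  | cons hab _ ih => rw [Multiset.map_cons, Multiset.map_cons, ih, hf _ _ hab]

lemma nm_eq_of_associated {a b : Eis} (h : Associated a b) : nm a = nm b := by
  obtain ⟨u, rfl⟩ := h
  rw [nm_mul]
  have h1 : nm (u : Eis) * nm ((u⁻¹ : Eisˣ) : Eis) = 1 := by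
    rw [← nm_mul, Units.mul_inv, nm_one]
  have h2 : nm (u : Eis) = 1 := Nat.eq_one_of_mul_eq_one_right h1
  rw [h2, mul_one]

lemma dens_pp_eq_ga {a : Eis} (ha : IsPrim a) (hs : Squarefree a) :
    dens (pp a) = ((M49.ga a : ℝ) : ℂ) := by
  have h1 : Multiset.Rel Associated (UniqueFactorizationMonoid.factors a) (pp a).val := by
    refine UniqueFactorizationMonoid.factors_unique
      (fun x hx => UniqueFactorizationMonoid.irreducible_of_factor x hx)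
      (fun x hx => (isPP_of_mem_pp (Finset.mem_def.mpr hx)).prime.irreducible) ?_
    have h2 : (pp a).val.prod = a := by
      have := prod_pp ha hs
      rwa [Finset.prod_eq_multiset_prod, Multiset.map_id'] at this
    rw [h2]
    exact UniqueFactorizationMonoid.factors_prod ha.ne_zero
  unfold M49.ga
  rw [map_eq_of_rel (f := fun p => (1 + 1 / (nm p : ℝ))⁻¹)
    (fun a b hab => by simp only [nm_eq_of_associated hab]) h1]
  have h3 : (Multiset.map (fun p => (1 + 1 / (nm p : ℝ))⁻¹) (pp a).val).prod =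
      ∏ p ∈ pp a, (1 + 1 / (nm p : ℝ))⁻¹ := rfl
  rw [h3]
  unfold dens
  push_cast
  rfl

lemma cop_pp_iff {a b : Eis} (ha : IsPrim a) : cop (pp a) b ↔ IsCoprime a b := by
  rw [isCoprime_iff_pp ha]
  unfold cop
  constructor
  · intro h p hp hpa
    exact h p ((mem_pp ha.ne_zero).mpr ⟨hp, hpa⟩)
  · intro h p hp
    exact h p (isPP_of_mem_pp hp) (dvd_of_mem_pp hp)

lemma G_mul_zero {a b : Eis} (ha : IsPrim a) (hb : IsPrim b) (h : ¬ cop (pp a) b) :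
    G (a * b) = 0 := by
  unfold cop at h
  push Not at h
  obtain ⟨p, hp, hpb⟩ := h
  have hpp := isPP_of_mem_pp hp
  rw [G_eq_gt]
  refine localGauss.vanish0 hpp ?_ (ha.mul hb) ?_
  · intro h1
    exact hpp.prime.not_isUnit (isUnit_of_dvd_one h1)
  · rw [pow_two]
    exact mul_dvd_mul (dvd_of_mem_pp hp) hpb

lemma TT_eq (l : ℤ) (τ : ℝ) (v : ℝ → ℂ) {a : Eis} (ha : IsPrim a) (X : ℝ) :
    M49.TT l τ v a X = gt 1 a * U gt (ch l τ) v a (pp a) X := by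
  unfold M49.TT U
  rw [← tsum_mul_left]
  refine tsum_congr fun b => ?_
  by_cases hb : IsPrim b
  swap
  · simp [hb]
  by_cases hc : cop (pp a) b
  · simp only [hb, hc, and_self, if_true]
    rw [G_eq_gt, gt_mul ha hb ((cop_pp_iff ha).mp hc), one_mul]
    unfold ch; ring
  · simp [hb, hc, G_mul_zero ha hb hc]

lemma main_eq (hR : M49.RhoRel ρ) (h1 : M49.RhoOne ρ) (l : ℤ) (τ : ℝ) (v : ℝ → ℂ) {a : Eis}
    (ha : IsPrim a) (hs : Squarefree a) (X : ℝ) :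
    (if l = 0 then
        ((pC * M49.Dsf * M49.ga a * (nm a : ℝ) ^ (-(1 : ℝ) / 6) : ℝ) : ℂ) *
        mellin v ((5 : ℂ) / 6 + τ * Complex.I) * (X : ℂ) ^ ((5 : ℂ) / 6 + τ * Complex.I)
        else 0) = gt 1 a * Mt l τ v ρ a (pp a) X := by
  unfold Mt
  by_cases hl : l = 0
  swap
  · simp [hl]
  simp only [hl, if_true]
  have h2 := hR.sqfree (h := 1) ha hs isCoprime_one_left
  rw [one_mul] at h2
  have h3 : gt 1 a * (starRingEnd ℂ) (gt 1 a) = 1 := by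
    rw [Complex.mul_conj, Complex.normSq_eq_norm_sq, norm_gt_one ha hs]; simp
  have h4 : (starRingEnd ℂ) (gs 1 a / ((Real.sqrt (nm a) : ℝ) : ℂ)) = (starRingEnd ℂ) (gt 1 a) := rfl
  rw [h2, h4, dens_pp_eq_ga ha hs, h1]
  have h5 : gt 1 a * ((starRingEnd ℂ) (gt 1 a) * (((nm a : ℝ) ^ (-(1 : ℝ) / 6) : ℝ) : ℂ) *
      ((pC * M49.Dsf : ℝ) : ℂ) * ((M49.ga a : ℝ) : ℂ) * mellin v (se τ) * (X : ℂ) ^ se τ) =
      (gt 1 a * (starRingEnd ℂ) (gt 1 a)) * ((((nm a : ℝ) ^ (-(1 : ℝ) / 6) : ℝ) : ℂ) *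
      ((pC * M49.Dsf : ℝ) : ℂ) * ((M49.ga a : ℝ) : ℂ) * mellin v (se τ) * (X : ℂ) ^ se τ) := by ring
  rw [h5, h3, one_mul]
  unfold se
  push_cast
  ring

/-- **Type I in mean square.** -/
theorem typeI_of_MS (hMS : M49.MS ρ) (hR : M49.RhoRel ρ) (h1 : M49.RhoOne ρ) : M49.TypeI := by
  classical
  intro l v hv δ hδ
  set δ0 : ℝ := min (δ / 2) (2 / 3) with hδ0
  have hδ0p : 0 < δ0 := lt_min (by positivity) (by norm_num)
  have hδ0a : δ0 ≤ δ / 2 := min_le_left _ _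
  have hδ0b : δ0 ≤ 2 / 3 := min_le_right _ _
  obtain ⟨C0, hC0, hB⟩ := base_meanSq hMS l hv hδ0p hδ0b
  obtain ⟨Ct, hCt, hT⟩ := Div277.tau_le_rpow (ε := δ / 2) (by positivity)
  refine ⟨(Z δ0 ^ 7).toReal * (Ct * C0), fun N X τ hN hX => ?_⟩
  have hN' : (1 : ℝ) ≤ N := by exact_mod_cast hN
  have hNp : (0 : ℝ) < N := by linarith
  have hZ : Z δ0 ^ 7 ≠ ⊤ := ENNReal.pow_ne_top (Z_lt_top hδ0p).ne
  have hT1 : 1 ≤ 1 + |τ| := by linarith [abs_nonneg τ]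
  have key := Rec.meanSq (rec_Ef hR hv l τ) (P1 := ∅) (P2 := ∅) (P3 := ∅)
    (fun p hp => absurd hp (Finset.notMem_empty p)) (fun p hp => absurd hp (Finset.notMem_empty p))
    (fun p hp => absurd hp (Finset.notMem_empty p)) (Finset.disjoint_empty_left _)
    (Finset.disjoint_empty_left _) (Finset.disjoint_empty_left _) (r0 := 1)
    (fun p hp h => hp.prime.not_isUnit (isUnit_of_dvd_one h)) (ε := δ0)
    (K := C0 * (1 + |τ|) ^ δ0) (τ := τ ^ 2) (Λ := Ct * (N : ℝ) ^ (δ / 2)) (D := (N : ℝ)) hδ0p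
    (by positivity) (sq_nonneg τ) hN' ?_ ?_ hX
  · simp only [Finset.union_empty, Finset.prod_empty, one_pow, mul_one,
      one_mul, Finset.card_empty, pow_zero, nm_one, Nat.cast_one] at key
    have hS : (S (N : ℝ)) = (primBall N).filter Squarefree := by
      unfold S
      rw [Nat.floor_natCast]
    have h2 : ∑ a ∈ (primBall N).filter (fun a => Squarefree a),
        ‖M49.TT l τ v a X - (if l = 0 then
          ((pC * M49.Dsf * M49.ga a * (nm a : ℝ) ^ (-(1 : ℝ) / 6) : ℝ) : ℂ) *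
          mellin v ((5 : ℂ) / 6 + τ * Complex.I) * (X : ℂ) ^ ((5 : ℂ) / 6 + τ * Complex.I)
          else 0)‖ ^ 2 = ∑ a ∈ S (N : ℝ), ‖Ef l τ v ρ a (pp a) X‖ ^ 2 := by
      have h3 : ∀ a ∈ S (N : ℝ), ‖M49.TT l τ v a X - (if l = 0 then
          ((pC * M49.Dsf * M49.ga a * (nm a : ℝ) ^ (-(1 : ℝ) / 6) : ℝ) : ℂ) *
          mellin v ((5 : ℂ) / 6 + τ * Complex.I) * (X : ℂ) ^ ((5 : ℂ) / 6 + τ * Complex.I)
          else 0)‖ ^ 2 = ‖Ef l τ v ρ a (pp a) X‖ ^ 2 := by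
        intro a ha
        rw [mem_S hNp.le] at ha
        rw [TT_eq l τ v ha.2.1, main_eq hR h1 l τ v ha.2.1 ha.2.2, ← mul_sub, norm_mul,
          norm_gt_one ha.2.1 ha.2.2, one_mul]
        rfl
      rw [← Finset.sum_congr rfl h3, hS]
    rw [h2]
    have h4 : ENNReal.ofReal (∑ a ∈ S (N : ℝ), ‖Ef l τ v ρ a (pp a) X‖ ^ 2) =
        ∑ a ∈ S (N : ℝ), ‖Ef l τ v ρ a (pp a) X‖ₑ ^ 2 := by
      rw [ENNReal.ofReal_sum_of_nonneg (fun _ _ => by positivity)]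
      refine Finset.sum_congr rfl fun h _ => ?_
      rw [ENNReal.ofReal_pow (norm_nonneg _), ofReal_norm]
    have h5 : ∑ a ∈ S (N : ℝ), ‖Ef l τ v ρ a (pp a) X‖ₑ ^ 2 ≤ Z δ0 ^ 7 * ENNReal.ofReal
        (Ct * (N : ℝ) ^ (δ / 2) * (C0 * (1 + |τ|) ^ δ0 * (N : ℝ) ^ δ0 * (N + τ ^ 2) *
          X ^ (1 + δ0))) := by
      refine le_trans (le_of_eq ?_) key
      have hf : (S (N : ℝ)).filter (fun d => ∀ p ∈ (∅ : Finset Eis), ¬ p ∣ d) = S (N : ℝ) := by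
        apply Finset.filter_true_of_mem
        intro d _ p hp
        exact absurd hp (Finset.notMem_empty p)
      refine (Finset.sum_congr (by convert hf) fun d hd => ?_).symm
      rw [mem_S hNp.le] at hd
      rw [prod_pp hd.2.1 hd.2.2]
    rw [← ENNReal.ofReal_toReal hZ, ← ENNReal.ofReal_mul ENNReal.toReal_nonneg, ← h4] at h5
    have h6 := (ENNReal.ofReal_le_ofReal_iff (by positivity)).mp h5
    refine h6.trans ?_
    have e1 : (N : ℝ) ^ (δ / 2) * (N : ℝ) ^ δ0 ≤ (N : ℝ) ^ δ := by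
      rw [← Real.rpow_add hNp]
      apply Real.rpow_le_rpow_of_exponent_le hN'
      linarith
    have e2 : (1 + |τ|) ^ δ0 ≤ (1 + |τ|) ^ δ :=
      Real.rpow_le_rpow_of_exponent_le hT1 (by linarith)
    have e3 : X ^ (1 + δ0) ≤ X * (1 + X) ^ δ := by
      rw [Real.rpow_add hX, Real.rpow_one]
      gcongr
      calc X ^ δ0 ≤ (1 + X) ^ δ0 := by gcongr; linarith
        _ ≤ (1 + X) ^ δ := Real.rpow_le_rpow_of_exponent_le (by linarith) (by linarith)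
    have e4 : ((1 + |τ|) * (1 + X) * N) ^ δ = (1 + |τ|) ^ δ * (1 + X) ^ δ * (N : ℝ) ^ δ := by
      rw [Real.mul_rpow (by positivity) (by positivity), Real.mul_rpow (by positivity)
        (by positivity)]
    rw [e4]
    calc (Z δ0 ^ 7).toReal * (Ct * (N : ℝ) ^ (δ / 2) * (C0 * (1 + |τ|) ^ δ0 * (N : ℝ) ^ δ0 *
          (N + τ ^ 2) * X ^ (1 + δ0)))
        = (Z δ0 ^ 7).toReal * (Ct * C0) * (((N : ℝ) ^ (δ / 2) * (N : ℝ) ^ δ0) * (1 + |τ|) ^ δ0 *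
          (N + τ ^ 2) * X ^ (1 + δ0)) := by ring
      _ ≤ (Z δ0 ^ 7).toReal * (Ct * C0) * ((N : ℝ) ^ δ * (1 + |τ|) ^ δ *
          (N + τ ^ 2) * (X * (1 + X) ^ δ)) := by
          gcongr
      _ = _ := by ring
  · intro d hd
    rw [mem_S hNp.le] at hd
    refine (two_pow_card_pp_le hd.2.1.ne_zero).trans ((hT d hd.2.1.ne_zero).trans ?_)
    gcongr
    exact_mod_cast hd.1
  · intro H hH Y hY
    have hf : (S H).filter (fun h => ∀ p ∈ (∅ : Finset Eis), ¬ p ∣ h) ⊆ S H :=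
      Finset.filter_subset _ _
    refine (Finset.sum_le_sum_of_subset (by convert hf)).trans ?_
    have := hB 1 τ one_ne_zero H hH Y hY
    simp only [Finset.prod_empty, one_pow, mul_one]
    simpa using this

end Crest.Agent.R012.TypeI941
end
end

-- ▼ part R012/TIf_645
section

/-!
# Row 12, `tif_of_typeI : M49.TypeI → T411.TIf` (helper645)

`F = G - model`.  The `G` part is `MSgen49.TypeI_gen` (helper49) with the weight
`x^(-1/6) e^(-x)`, the model part is Abel summation (`Model705.abel_exp`, helper705); the two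
main terms agree.
-/

set_option autoImplicit false

noncomputable section

open MeasureTheory Set Filter Topology Complex

namespace Crest.Agent.R012.TIf645

open Crest.Agent.R012 Crest.Agent.R012.Eis

/-- the weight `x^(-1/6) e^(-x)`. -/
def WE (x : ℝ) : ℂ := ((x ^ (-(1 : ℝ) / 6) * Real.exp (-x) : ℝ) : ℂ)

lemma WE_exp (u : ℝ) : WE (Real.exp u) = ((MSgen49.pe (1 / 6) u : ℝ) : ℂ) := by
  unfold WE MSgen49.pe
  congr 1
  rw [← Real.exp_mul, ← Real.exp_add]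
  congr 1
  ring

lemma logW_WE : MSgen49.LogW (fun u => WE (Real.exp u)) 2000 := by
  have h := MSgen49.logW_pe (a := 1 / 6) (by norm_num) (by norm_num)
  have e : (fun u => WE (Real.exp u)) = fun u => ((MSgen49.pe (1 / 6) u : ℝ) : ℂ) := by
    ext u; exact WE_exp u
  rw [e]; exact h

lemma mellin_WE : mellin WE ((5 : ℂ) / 6 + ((0 : ℝ) : ℂ) * Complex.I) = Complex.Gamma (2 / 3) := by
  rw [Complex.Gamma_eq_integral (by norm_num), Complex.GammaIntegral]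
  unfold mellin WE
  refine setIntegral_congr_fun measurableSet_Ioi fun x hx => ?_
  have hx0 : (0 : ℝ) < x := hx
  have hxc : (x : ℂ) ≠ 0 := by exact_mod_cast hx0.ne'
  simp only [smul_eq_mul]
  push_cast
  rw [Complex.ofReal_cpow hx0.le]
  have e : (x : ℂ) ^ ((5 : ℂ) / 6 + 0 * Complex.I - 1) * (x : ℂ) ^ (((-1 / 6 : ℝ)) : ℂ) =
      (x : ℂ) ^ ((2 : ℂ) / 3 - 1) := by
    rw [← Complex.cpow_add _ _ hxc]
    congr 1
    push_cast
    ring
  calc (x : ℂ) ^ ((5 : ℂ) / 6 + 0 * Complex.I - 1) *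
        ((x : ℂ) ^ (((-1 / 6 : ℝ)) : ℂ) * Complex.exp (-x)) =
        ((x : ℂ) ^ ((5 : ℂ) / 6 + 0 * Complex.I - 1) * (x : ℂ) ^ (((-1 / 6 : ℝ)) : ℂ)) *
        Complex.exp (-x) := by ring
    _ = _ := by rw [e]; ring

open Classical in
lemma summable_WE {Y : ℝ} (hY : 0 < Y) :
    Summable (fun c : Eis => if IsPrim c then ‖WE (nm c / Y)‖ else 0) := by
  obtain ⟨h, -⟩ := Model705.abel_exp (Model705.dataCop 1) (E := 61 * Mob705.sig 1)
    (by have := Mob705.sig_pos (1 : Eis); positivity)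
    (fun Y hY => Model705.errCop one_ne_zero Y hY) (z := ((-(1 / 6) : ℝ) : ℂ))
    (by rw [Complex.ofReal_re]; norm_num) hY
  refine (h.mul_left (Y ^ ((1 : ℝ) / 6))).congr fun c => ?_
  by_cases hc : IsPrim c
  · have hn : (0 : ℝ) < nm c := by exact_mod_cast nm_pos.mpr hc.ne_zero
    rw [if_pos hc]
    unfold Model705.iCop WE
    rw [if_pos ⟨hc, isCoprime_one_right⟩, one_mul, norm_mul, Complex.norm_real, Complex.norm_real,
      Real.norm_of_nonneg (Real.exp_pos _).le, Real.norm_of_nonneg (by positivity),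
      Complex.norm_cpow_eq_rpow_re_of_pos hn, Complex.ofReal_re,
      Real.div_rpow hn.le hY.le]
    have e : Y ^ ((1 : ℝ) / 6) = (Y ^ (-(1 : ℝ) / 6))⁻¹ := by
      rw [← Real.rpow_neg hY.le]; congr 1; ring
    rw [e]
    have e2 : (-(1 : ℝ) / 6) = -(1 / 6) := by ring
    rw [e2]
    field_simp
  · rw [if_neg hc]
    unfold Model705.iCop
    rw [if_neg (fun h => hc h.1)]
    simp

open Classical in
/-- the model sum with the weight `WE`. -/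
def MOe (r : Eis) (Y : ℝ) : ℂ :=
  ∑' c : Eis, if IsPrim c then ((T411.mdl (r * c) : ℝ) : ℂ) * WE (nm c / Y) else 0

open Classical in
lemma tif_split {Y : ℝ} (hY : 0 < Y) {r : Eis} (hr : IsPrim r) :
    (∑' c : Eis, if IsPrim c then
    ((((nm c : ℝ) / Y) ^ (-(1 : ℝ) / 6) * Real.exp (-(nm c : ℝ) / Y) : ℝ) : ℂ) * T411.F (r * c)
      else 0) = M49.TT 0 0 WE r Y - MOe r Y := by
  have hs := summable_WE hY
  unfold M49.TT MOe
  rw [← Summable.tsum_sub]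
  · refine tsum_congr fun c => ?_
    by_cases hc : IsPrim c
    · simp only [hc, if_true]
      unfold T411.F ang WE
      simp only [zpow_zero, Complex.ofReal_zero, zero_mul, Complex.cpow_zero, neg_div]
      ring
    · simp [hc]
  · refine Summable.of_norm_bounded hs fun c => ?_
    by_cases hc : IsPrim c
    · simp only [hc, if_true]
      unfold ang
      simp only [zpow_zero, Complex.ofReal_zero, zero_mul, Complex.cpow_zero, mul_one]
      rw [norm_mul]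
      have := Gauss880.norm_G_le Gauss880.syG (hr.mul hc)
      exact mul_le_of_le_one_left (norm_nonneg _) this
    · simp [hc]
  · refine Summable.of_norm_bounded (hs.mul_left pC) fun c => ?_
    by_cases hc : IsPrim c
    · simp only [hc, if_true]
      rw [norm_mul, Complex.norm_real]
      have h1 : ‖T411.mdl (r * c)‖ ≤ pC := by
        unfold T411.mdl
        split_ifs
        · have h2 : (1 : ℝ) ≤ nm (r * c) := Mob705.one_le_nm_of_isPrim (hr.mul hc)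
          have h3 : (nm (r * c) : ℝ) ^ (-(1 / 6) : ℝ) ≤ 1 :=
            Real.rpow_le_one_of_one_le_of_nonpos h2 (by norm_num)
          have h4 := Model705.pC_pos
          rw [Real.norm_of_nonneg (by positivity)]
          exact mul_le_of_le_one_right h4.le h3
        · simpa using Model705.pC_pos.le
      gcongr
    · simp [hc]

/-- the main term -/
def MTe (r : Eis) (Y : ℝ) : ℂ :=
  ((pC * M49.Dsf * M49.ga r * (nm r : ℝ) ^ (-(1 : ℝ) / 6) : ℝ) : ℂ) *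
    Complex.Gamma (2 / 3) * (Y : ℂ) ^ ((5 : ℂ) / 6)

lemma MOe_eq {r : Eis} (hr : IsPrim r) (hrs : Squarefree r) {Y : ℝ} (hY : 0 < Y) :
    MOe r Y = ((pC * (nm r : ℝ) ^ (-(1 : ℝ) / 6) * Y ^ ((1 : ℝ) / 6) : ℝ) : ℂ) *
      ∑' b : Eis, Model705.iSf r b * (((nm b : ℝ) : ℂ) ^ (((-(1 / 3) : ℝ)) : ℂ) *
        (Real.exp (-((nm b : ℝ) / Y)) : ℂ)) := by
  classical
  unfold MOe
  rw [← tsum_mul_left]
  refine tsum_congr fun b => ?_
  by_cases hb : IsPrim b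
  · rw [if_pos hb]
    unfold Model705.iSf T411.mdl
    by_cases hs : Squarefree (r * b)
    · have h5 := squarefree_mul_iff.mp hs
      have hbr : IsCoprime b r := h5.1.isCoprime.symm
      rw [if_pos hs, if_pos ⟨hb, hbr, h5.2.2⟩]
      have hb0 : (0 : ℝ) < nm b := by exact_mod_cast nm_pos.mpr hb.ne_zero
      rw [← Complex.ofReal_cpow hb0.le]
      unfold WE
      rw [one_mul, ← Complex.ofReal_mul, ← Complex.ofReal_mul, ← Complex.ofReal_mul]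
      congr 1
      have e1 : ((nm (r * b) : ℝ)) ^ (-(1 / 6) : ℝ) =
          (nm r : ℝ) ^ (-(1 : ℝ) / 6) * (nm b : ℝ) ^ (-(1 / 6) : ℝ) := by
        rw [nm_mul]
        push_cast
        rw [Real.mul_rpow (by positivity) (by positivity)]
        congr 2; norm_num
      have e2 : ((nm b : ℝ) / Y) ^ (-(1 : ℝ) / 6) = (nm b : ℝ) ^ (-(1 / 6) : ℝ) * Y ^ ((1 : ℝ) / 6) := by
        rw [Real.div_rpow hb0.le hY.le, div_eq_mul_inv, ← Real.rpow_neg hY.le]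
        congr 2 <;> ring
      have e3 : (nm b : ℝ) ^ (-(1 / 3) : ℝ) = (nm b : ℝ) ^ (-(1 / 6) : ℝ) * (nm b : ℝ) ^ (-(1 / 6) : ℝ) := by
        rw [← Real.rpow_add hb0]; congr 1; norm_num
      rw [e1, e2, e3]
      ring
    · rw [if_neg hs, if_neg]
      · simp
      · rintro ⟨_, h2, h3⟩
        exact hs (squarefree_mul_iff.mpr ⟨h2.symm.isRelPrime, hrs, h3⟩)
  · rw [if_neg hb]
    unfold Model705.iSf
    rw [if_neg (fun h => hb h.1)]
    simp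

lemma MOe_bound : ∃ C : ℝ, 0 ≤ C ∧ ∀ (r : Eis) (Y : ℝ), IsPrim r → Squarefree r → 1 ≤ Y →
    ‖MOe r Y - MTe r Y‖ ≤ C * Mob705.sig r * (Y ^ ((1 : ℝ) / 3) * (1 + Real.log (1 + Y))) := by
  have hpC := Model705.pC_pos
  set K : ℝ := Model705.cExp (-(1 / 3)) * (1 + 1 / 3) with hK
  have hK0 : 0 ≤ K := by
    rw [hK]
    unfold Model705.cExp
    have h1 : 0 < Real.Gamma (-(1 / 3) + 1 / 2) := Real.Gamma_pos_of_pos (by norm_num)
    have h2 : 0 < Real.Gamma (-(1 / 3) + 3 / 2) := Real.Gamma_pos_of_pos (by norm_num)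
    have h3 : 0 < Real.Gamma (-(1 / 3) + 5 / 2) := Real.Gamma_pos_of_pos (by norm_num)
    positivity
  refine ⟨pC * (12800 * K), by positivity, fun r Y hr hrs hY => ?_⟩
  have hY0 : 0 < Y := by linarith
  have hsig := Mob705.sig_pos r
  obtain ⟨-, h⟩ := Model705.abel_exp (Model705.dataSf r) (E := 12800 * Mob705.sig r)
    (by positivity) (fun Y hY => Model705.errSf hr.ne_zero Y hY) (z := ((-(1 / 3) : ℝ) : ℂ))
    (by rw [Complex.ofReal_re]; norm_num) hY0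
  rw [MOe_eq hr hrs hY0]
  unfold MTe
  rw [Model705.ga_eq_LF hr hrs, ← Model705.kap_one_eq_Dsf]
  have hYc : (Y : ℂ) ≠ 0 := by exact_mod_cast hY0.ne'
  have e1 : ((-(1 / 3) : ℝ) : ℂ) + 1 = (2 : ℂ) / 3 := by push_cast; ring
  rw [e1] at h
  have e3 : (Y : ℂ) ^ ((5 : ℂ) / 6) = ((Y ^ ((1 : ℝ) / 6) : ℝ) : ℂ) * (Y : ℂ) ^ ((2 : ℂ) / 3) := by
    rw [Complex.ofReal_cpow hY0.le, ← Complex.cpow_add _ _ hYc]
    congr 1; push_cast; ring
  have e2 : ((pC * (nm r : ℝ) ^ (-(1 : ℝ) / 6) * Y ^ ((1 : ℝ) / 6) : ℝ) : ℂ) *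
      (∑' b : Eis, Model705.iSf r b * (((nm b : ℝ) : ℂ) ^ (((-(1 / 3) : ℝ)) : ℂ) *
        (Real.exp (-((nm b : ℝ) / Y)) : ℂ))) -
      ((pC * Mob705.kap 1 * Mob705.LF r * (nm r : ℝ) ^ (-(1 : ℝ) / 6) : ℝ) : ℂ) *
        Complex.Gamma (2 / 3) * (Y : ℂ) ^ ((5 : ℂ) / 6) =
      ((pC * (nm r : ℝ) ^ (-(1 : ℝ) / 6) * Y ^ ((1 : ℝ) / 6) : ℝ) : ℂ) *
      ((∑' b : Eis, Model705.iSf r b * (((nm b : ℝ) : ℂ) ^ (((-(1 / 3) : ℝ)) : ℂ) *
        (Real.exp (-((nm b : ℝ) / Y)) : ℂ))) - ((Mob705.kap 1 * Mob705.LF r : ℝ) : ℂ) *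
        ((Y : ℂ) ^ ((2 : ℂ) / 3) * Complex.Gamma (2 / 3))) := by
    rw [e3]; push_cast; ring
  rw [e2, norm_mul, Complex.norm_real, Real.norm_of_nonneg (by positivity)]
  have hr1 : (nm r : ℝ) ^ (-(1 : ℝ) / 6) ≤ 1 := by
    have h1 : (1 : ℝ) ≤ nm r := Mob705.one_le_nm_of_isPrim hr
    exact Real.rpow_le_one_of_one_le_of_nonpos h1 (by norm_num)
  have hre : (((-(1 / 3) : ℝ) : ℂ)).re = -(1 / 3) := Complex.ofReal_re _
  have hnz : ‖(((-(1 / 3) : ℝ) : ℂ))‖ = 1 / 3 := by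
    rw [Complex.norm_real]; norm_num
  rw [hre, hnz, ← hK] at h
  have hlog : 0 ≤ 1 + Real.log (1 + Y) := by
    have := Real.log_nonneg (x := 1 + Y) (by linarith)
    linarith
  have hpow : Y ^ ((1 : ℝ) / 6) * (Y ^ (-(1 / 3) : ℝ) * Real.sqrt Y) = Y ^ ((1 : ℝ) / 3) := by
    rw [Real.sqrt_eq_rpow, ← Real.rpow_add hY0, ← Real.rpow_add hY0]; congr 1; norm_num
  calc pC * (nm r : ℝ) ^ (-(1 : ℝ) / 6) * Y ^ ((1 : ℝ) / 6) * _ ≤ pC * 1 * Y ^ ((1 : ℝ) / 6) *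
        (12800 * Mob705.sig r * K * (Y ^ (-(1 / 3) : ℝ) * Model705.er Y)) := by
        gcongr
    _ = pC * (12800 * K) * Mob705.sig r *
        ((Y ^ ((1 : ℝ) / 6) * (Y ^ (-(1 / 3) : ℝ) * Real.sqrt Y)) * (1 + Real.log (1 + Y))) := by
        unfold Model705.er; ring
    _ = _ := by rw [hpow]

/-- **TIf** -/
theorem tif_of_typeI (hT : M49.TypeI) : T411.TIf := by
  classical
  intro ε hε
  obtain ⟨C1, hC1, h1⟩ := MSgen49.TypeI_gen hT 0 hε
  obtain ⟨C2, hC2, h2⟩ := MOe_bound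
  obtain ⟨Ct, hCt, ht⟩ := Div277.tau_le_rpow (ε := ε / 2) (by positivity)
  set C3 : ℝ := (1 + 2 / ε * 2 ^ (ε / 2)) ^ 2 with hC3
  refine ⟨2 * (C1 * 2000 ^ 2 * 2 ^ ε) + 200 * (C2 ^ 2 * Ct ^ 2 * C3) + 1, by positivity,
    fun R Y hR hY => ?_⟩
  have hR0 : 0 < R := by linarith
  have hY0 : 0 < Y := by linarith
  set N : ℕ := ⌊R⌋₊ with hN
  have hN1 : 1 ≤ N := Nat.le_floor (by simpa using hR)
  have hNR : (N : ℝ) ≤ R := Nat.floor_le hR0.le
  -- G part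
  have g1 : ∑ r ∈ LS2.S R, ‖M49.TT 0 0 WE r Y - MTe r Y‖ ^ 2 ≤
      C1 * 2000 ^ 2 * 2 ^ ε * (R * Y) ^ (1 + ε) := by
    have h := h1 WE 2000 logW_WE N Y 0 hN1 hY0
    have e : ∑ r ∈ LS2.S R, ‖M49.TT 0 0 WE r Y - MTe r Y‖ ^ 2 =
        ∑ a ∈ (by classical exact (primBall N).filter (fun a => Squarefree a)),
        ‖M49.TT 0 0 WE a Y - (if (0 : ℤ) = 0 then
        ((pC * M49.Dsf * M49.ga a * (nm a : ℝ) ^ (-(1 : ℝ) / 6) : ℝ) : ℂ) *
        mellin WE ((5 : ℂ) / 6 + ((0 : ℝ) : ℂ) * Complex.I) *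
          (Y : ℂ) ^ ((5 : ℂ) / 6 + ((0 : ℝ) : ℂ) * Complex.I)
        else 0)‖ ^ 2 := by
      refine Finset.sum_congr ?_ fun r _ => ?_
      · ext r; simp [LS2.S, hN]
      · rw [if_pos rfl, mellin_WE]
        unfold MTe
        simp
    rw [e]
    refine h.trans ?_
    have k1 : (1 + |(0 : ℝ)|) * (1 + Y) * N ≤ 2 * (R * Y) := by
      rw [abs_zero, add_zero, one_mul]
      calc (1 + Y) * N ≤ (2 * Y) * R := by gcongr; linarith
        _ = _ := by ring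
    have k2 : ((N : ℝ) + 0 ^ 2) * Y ≤ R * Y := by
      rw [zero_pow two_ne_zero, add_zero]; gcongr
    calc C1 * 2000 ^ 2 * ((1 + |(0 : ℝ)|) * (1 + Y) * N) ^ ε * (((N : ℝ) + 0 ^ 2) * Y) ≤
          C1 * 2000 ^ 2 * (2 * (R * Y)) ^ ε * (R * Y) := by gcongr
      _ = C1 * 2000 ^ 2 * 2 ^ ε * ((R * Y) * (R * Y) ^ ε) := by
          rw [Real.mul_rpow (by norm_num) (by positivity)]; ring
      _ = _ := by rw [Real.rpow_add (by positivity), Real.rpow_one]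
  -- the model part
  have hcard : ((LS2.S R).card : ℝ) ≤ 100 * R := by
    have h := Mob705.card_pb_le R hR0.le
    refine le_trans ?_ h
    exact_mod_cast Finset.card_le_card (Finset.filter_subset _ _)
  have hlog : 1 + Real.log (1 + Y) ≤ (1 + 2 / ε * 2 ^ (ε / 2)) * Y ^ (ε / 2) := by
    have a1 : Real.log (1 + Y) ≤ (1 + Y) ^ (ε / 2) / (ε / 2) :=
      Real.log_le_rpow_div (by linarith) (by positivity)
    have a2 : (1 + Y) ^ (ε / 2) ≤ 2 ^ (ε / 2) * Y ^ (ε / 2) := by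
      rw [← Real.mul_rpow (by norm_num) hY0.le]
      exact Real.rpow_le_rpow (by linarith) (by linarith) (by positivity)
    have a3 : 1 ≤ Y ^ (ε / 2) := Real.one_le_rpow hY (by positivity)
    have a4 : (1 + Y) ^ (ε / 2) / (ε / 2) = (2 / ε) * (1 + Y) ^ (ε / 2) := by field_simp
    rw [a4] at a1
    have a5 : (2 / ε) * (1 + Y) ^ (ε / 2) ≤ (2 / ε) * (2 ^ (ε / 2) * Y ^ (ε / 2)) := by gcongr
    linarith
  have hlog0 : 0 ≤ 1 + Real.log (1 + Y) := by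
    have := Real.log_nonneg (x := 1 + Y) (by linarith)
    linarith
  have g2 : ∑ r ∈ LS2.S R, ‖MOe r Y - MTe r Y‖ ^ 2 ≤
      100 * (C2 ^ 2 * Ct ^ 2 * C3) * (R * Y) ^ (1 + ε) := by
    have k1 : ∀ r ∈ LS2.S R, ‖MOe r Y - MTe r Y‖ ^ 2 ≤
        (C2 ^ 2 * Ct ^ 2 * C3) * (R ^ ε * (Y * Y ^ ε)) := by
      intro r hr
      rw [LS2.mem_S hR0.le] at hr
      obtain ⟨hrR, hrp, hrs⟩ := hr
      have h4 := h2 r Y hrp hrs hY
      have h5 := Mob705.sig_le_tau hrp.ne_zero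
      have h6 := ht r hrp.ne_zero
      have hsq : ∀ Z : ℝ, 0 ≤ Z → (Z ^ (ε / 2)) ^ 2 = Z ^ ε := by
        intro Z hZ
        rw [← Real.rpow_natCast, ← Real.rpow_mul hZ]; congr 1; push_cast; ring
      have h8 : Mob705.sig r ≤ Ct * R ^ (ε / 2) := by
        refine (h5.trans h6).trans ?_
        gcongr
      have hsig := Mob705.sig_pos r
      have h10 : Y ^ ((1 : ℝ) / 3) * (1 + Real.log (1 + Y)) ≤
          Y ^ ((1 : ℝ) / 3) * ((1 + 2 / ε * 2 ^ (ε / 2)) * Y ^ (ε / 2)) := by gcongr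
      have h11 : (Y ^ ((1 : ℝ) / 3)) ^ 2 ≤ Y := by
        rw [← Real.rpow_natCast, ← Real.rpow_mul hY0.le]
        calc Y ^ (1 / 3 * ((2 : ℕ) : ℝ)) ≤ Y ^ (1 : ℝ) :=
              Real.rpow_le_rpow_of_exponent_le hY (by norm_num)
          _ = Y := Real.rpow_one _
      calc ‖MOe r Y - MTe r Y‖ ^ 2 ≤
            (C2 * Mob705.sig r * (Y ^ ((1 : ℝ) / 3) * (1 + Real.log (1 + Y)))) ^ 2 := by
            gcongr
        _ ≤ (C2 * (Ct * R ^ (ε / 2)) *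
              (Y ^ ((1 : ℝ) / 3) * ((1 + 2 / ε * 2 ^ (ε / 2)) * Y ^ (ε / 2)))) ^ 2 := by
            gcongr
        _ = C2 ^ 2 * Ct ^ 2 * (1 + 2 / ε * 2 ^ (ε / 2)) ^ 2 *
              ((R ^ (ε / 2)) ^ 2 * ((Y ^ ((1 : ℝ) / 3)) ^ 2 * (Y ^ (ε / 2)) ^ 2)) := by ring
        _ = C2 ^ 2 * Ct ^ 2 * C3 * (R ^ ε * ((Y ^ ((1 : ℝ) / 3)) ^ 2 * Y ^ ε)) := by
            rw [hsq R hR0.le, hsq Y hY0.le]
        _ ≤ _ := by gcongr
    calc ∑ r ∈ LS2.S R, ‖MOe r Y - MTe r Y‖ ^ 2 ≤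
          ∑ r ∈ LS2.S R, (C2 ^ 2 * Ct ^ 2 * C3) * (R ^ ε * (Y * Y ^ ε)) :=
          Finset.sum_le_sum k1
      _ = (LS2.S R).card * ((C2 ^ 2 * Ct ^ 2 * C3) * (R ^ ε * (Y * Y ^ ε))) := by
          rw [Finset.sum_const, nsmul_eq_mul]
      _ ≤ (100 * R) * ((C2 ^ 2 * Ct ^ 2 * C3) * (R ^ ε * (Y * Y ^ ε))) := by gcongr
      _ = 100 * (C2 ^ 2 * Ct ^ 2 * C3) * ((R * Y) * (R ^ ε * Y ^ ε)) := by ring
      _ = _ := by
          rw [← Real.mul_rpow hR0.le hY0.le, Real.rpow_add (by positivity), Real.rpow_one]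
  -- combine
  have g3 : ∀ r ∈ LS2.S R, ‖∑' c : Eis, if IsPrim c then
      ((((nm c : ℝ) / Y) ^ (-(1 : ℝ) / 6) * Real.exp (-(nm c : ℝ) / Y) : ℝ) : ℂ) * T411.F (r * c)
      else 0‖ ^ 2 ≤
      2 * ‖M49.TT 0 0 WE r Y - MTe r Y‖ ^ 2 + 2 * ‖MOe r Y - MTe r Y‖ ^ 2 := by
    intro r hr
    rw [LS2.mem_S hR0.le] at hr
    rw [tif_split hY0 hr.2.1]
    have e : M49.TT 0 0 WE r Y - MOe r Y =
        (M49.TT 0 0 WE r Y - MTe r Y) - (MOe r Y - MTe r Y) := by ring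
    rw [e]
    have h1 := norm_sub_le (M49.TT 0 0 WE r Y - MTe r Y) (MOe r Y - MTe r Y)
    have h0 := norm_nonneg ((M49.TT 0 0 WE r Y - MTe r Y) - (MOe r Y - MTe r Y))
    nlinarith [sq_nonneg (‖M49.TT 0 0 WE r Y - MTe r Y‖ - ‖MOe r Y - MTe r Y‖),
      mul_self_le_mul_self h0 h1]
  calc _ ≤ ∑ r ∈ LS2.S R,
        (2 * ‖M49.TT 0 0 WE r Y - MTe r Y‖ ^ 2 + 2 * ‖MOe r Y - MTe r Y‖ ^ 2) :=
        Finset.sum_le_sum g3
    _ = 2 * ∑ r ∈ LS2.S R, ‖M49.TT 0 0 WE r Y - MTe r Y‖ ^ 2 +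
        2 * ∑ r ∈ LS2.S R, ‖MOe r Y - MTe r Y‖ ^ 2 := by
        rw [Finset.sum_add_distrib, Finset.mul_sum, Finset.mul_sum]
    _ ≤ 2 * (C1 * 2000 ^ 2 * 2 ^ ε * (R * Y) ^ (1 + ε)) +
        2 * (100 * (C2 ^ 2 * Ct ^ 2 * C3) * (R * Y) ^ (1 + ε)) := by
        gcongr
    _ ≤ _ := by
        have : 0 ≤ (R * Y) ^ (1 + ε) := by positivity
        nlinarith

end Crest.Agent.R012.TIf645
end
end

-- ▼ part R012/CrossA_869
section

/-!
# Row 12 (T6): the cross term of the dispersion, part A (algebra and counting)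

* `n6 n = N(n)^(-1/6)`, `summable_nm s` : `Σ N(n)^(-s) < ∞` for `s > 1`
* `fm n = G n - pC μ²(n) N(n)^(-1/6)` (the model error, `l = 0`)
* `tau a = conj (G a0) N(a0)^(-1/6)` for `a = a0 m³` (`a0` squarefree primary, `m` primary), `0` if
  there is no such decomposition; `tau_eq`.
* `key_eq` : `(G b conj (sy a b) - pC tau a N(b)^(-1/6)) conj (tau a) = N(a0)^(-1/6) fm (a0 b)`.
-/

set_option autoImplicit false

noncomputable section

open Finset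

namespace Crest.Agent.R012.Cross869

open Crest.Agent.R012 Crest.Agent.R012.Eis

/-! ### Norm powers -/

/-- `N(n)^(-1/6)` -/
def n6 (n : Eis) : ℝ := (nm n : ℝ) ^ (-(1 / 6 : ℝ))

lemma n6_nonneg (n : Eis) : 0 ≤ n6 n := Real.rpow_nonneg (Nat.cast_nonneg _) _

lemma n6_mul (a b : Eis) : n6 (a * b) = n6 a * n6 b := by
  unfold n6
  rw [nm_mul, Nat.cast_mul, Real.mul_rpow (Nat.cast_nonneg _) (Nat.cast_nonneg _)]

lemma n6_le_one (n : Eis) : n6 n ≤ 1 := by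
  unfold n6
  rcases Nat.eq_zero_or_pos (nm n) with h | h
  · rw [h, Nat.cast_zero, Real.zero_rpow (by norm_num)]; norm_num
  · exact Real.rpow_le_one_of_one_le_of_nonpos (by exact_mod_cast h) (by norm_num)

lemma summable_nm {s : ℝ} (hs : 1 < s) : Summable (fun x : Eis => (nm x : ℝ) ^ (-s)) := by
  have h := EisensteinSeries.summable_one_div_norm_rpow (k := 2 * s) (by linarith)
  rw [← Po581.eZ.summable_iff]
  refine Summable.of_nonneg_of_le (fun n => by simp only [Function.comp]; positivity) (fun n => ?_)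
    (h.mul_left ((4 : ℝ) ^ s))
  simp only [Function.comp]
  have h1 := Po581.toC_norm_ge (Po581.eZ n)
  rw [Equiv.symm_apply_apply] at h1
  have h2 : ‖n‖ ^ 2 ≤ 4 * (nm (Po581.eZ n) : ℝ) := by
    have h3 := norm_toC_sq (Po581.eZ n)
    nlinarith [norm_nonneg n, norm_nonneg (toC (Po581.eZ n))]
  rcases eq_or_ne (nm (Po581.eZ n)) 0 with h0 | h0
  · rw [h0, Nat.cast_zero, Real.zero_rpow (by linarith)]
    positivity
  · have hn0 : (0 : ℝ) < nm (Po581.eZ n) := by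
      exact_mod_cast Nat.pos_of_ne_zero h0
    have hn1 : 0 < ‖n‖ := by
      rw [norm_pos_iff]
      rintro rfl
      apply h0
      rw [nm_eq_zero]
      rfl
    have e1 : ‖n‖ ^ (-(2 * s)) = (‖n‖ ^ 2) ^ (-s) := by
      rw [← Real.rpow_natCast ‖n‖ 2, ← Real.rpow_mul hn1.le]
      congr 1
      push_cast
      ring
    have e2 : (4 : ℝ) ^ s * (‖n‖ ^ 2) ^ (-s) = (‖n‖ ^ 2 / 4) ^ (-s) := by
      rw [Real.div_rpow (by positivity) (by norm_num), Real.rpow_neg (by norm_num : (0 : ℝ) ≤ 4) s]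
      field_simp
    rw [e1, e2]
    exact Real.rpow_le_rpow_of_nonpos (by positivity) (by linarith) (by linarith)

/-! ### The model error -/

open Classical in
/-- `fm n = G n - pC μ²(n) N(n)^(-1/6)`. -/
def fm (n : Eis) : ℂ := G n - (if Squarefree n then ((pC * n6 n : ℝ) : ℂ) else 0)

/-- bound for `fm` -/
def Kf : ℝ := 1 + |pC|

lemma Kf_pos : 0 < Kf := by unfold Kf; positivity

lemma norm_fm_le {n : Eis} (hn : IsPrim n) : ‖fm n‖ ≤ Kf := by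
  unfold fm Kf
  refine (norm_sub_le _ _).trans (add_le_add (Gauss880.norm_G_le Gauss880.syG hn) ?_)
  split_ifs
  · rw [Complex.norm_real, Real.norm_eq_abs, abs_mul, abs_of_nonneg (n6_nonneg n)]
    exact mul_le_of_le_one_right (abs_nonneg _) (n6_le_one n)
  · simp

lemma fm_eq_zero {n : Eis} (hn : IsPrim n) (h : ¬ Squarefree n) : fm n = 0 := by
  unfold fm
  rw [Gauss880.G_eq_zero Gauss880.syG hn h, if_neg h, sub_zero]

/-! ### The sums `U` -/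

open Classical in
/-- `U W r Y = Σ_{c primary} N(c)^(-1/6) W(N(c)/Y) fm(r c)`. -/
def U (W : ℝ → ℝ) (r : Eis) (Y : ℝ) : ℂ :=
  ∑' c : Eis, if IsPrim c then ((n6 c * W (nm c / Y) : ℝ) : ℂ) * fm (r * c) else 0

/-- hypothesis on the weight: `|W x| x² ≤ K` for `x > 0`. -/
def WB (W : ℝ → ℝ) (K : ℝ) : Prop := 0 ≤ K ∧ ∀ x : ℝ, 0 < x → |W x| * x ^ 2 ≤ K

lemma WB.le {W : ℝ → ℝ} {K : ℝ} (h : WB W K) {x : ℝ} (hx : 0 < x) : |W x| ≤ K / x ^ 2 := by
  rw [le_div_iff₀ (by positivity)]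
  exact h.2 x hx

/-- the constant `Σ N(c)^(-2)` -/
def Z2 : ℝ := ∑' c : Eis, (nm c : ℝ) ^ (-(2 : ℝ))

lemma Z2_nonneg : 0 ≤ Z2 := tsum_nonneg fun _ => by positivity

open Classical in
lemma norm_U_term_le {W : ℝ → ℝ} {K : ℝ} (h : WB W K) {r : Eis} (hr : IsPrim r) {Y : ℝ}
    (hY : 0 < Y) (c : Eis) :
    ‖(if IsPrim c then ((n6 c * W (nm c / Y) : ℝ) : ℂ) * fm (r * c) else 0)‖
      ≤ (K * Kf * Y ^ 2) * (nm c : ℝ) ^ (-(2 : ℝ)) := by
  have hK := h.1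
  have hKf := Kf_pos.le
  split_ifs with hc
  · have hc0 : (0 : ℝ) < nm c := by exact_mod_cast nm_pos.mpr hc.ne_zero
    rw [norm_mul, Complex.norm_real, Real.norm_eq_abs, abs_mul, abs_of_nonneg (n6_nonneg c)]
    have h1 : |W (nm c / Y)| ≤ K * Y ^ 2 * (nm c : ℝ) ^ (-(2 : ℝ)) := by
      refine (h.le (div_pos hc0 hY)).trans (le_of_eq ?_)
      rw [Real.rpow_neg hc0.le, show ((2 : ℝ)) = ((2 : ℕ) : ℝ) by norm_num, Real.rpow_natCast]
      field_simp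
    calc n6 c * |W (nm c / Y)| * ‖fm (r * c)‖
        ≤ 1 * (K * Y ^ 2 * (nm c : ℝ) ^ (-(2 : ℝ))) * Kf := by
          gcongr
          · exact n6_le_one c
          · exact norm_fm_le (hr.mul hc)
      _ = _ := by ring
  · rw [norm_zero]; positivity

open Classical in
lemma summable_U {W : ℝ → ℝ} {K : ℝ} (h : WB W K) {r : Eis} (hr : IsPrim r) {Y : ℝ}
    (hY : 0 < Y) :
    Summable fun c : Eis =>
      (if IsPrim c then ((n6 c * W (nm c / Y) : ℝ) : ℂ) * fm (r * c) else 0) :=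
  Summable.of_norm_bounded ((summable_nm (s := 2) (by norm_num)).mul_left _)
    (norm_U_term_le h hr hY)

lemma norm_U_le {W : ℝ → ℝ} {K : ℝ} (h : WB W K) {r : Eis} (hr : IsPrim r) {Y : ℝ}
    (hY : 0 < Y) : ‖U W r Y‖ ≤ K * Kf * Z2 * Y ^ 2 := by
  have h1 := (summable_nm (s := 2) (by norm_num)).hasSum.mul_left (K * Kf * Y ^ 2)
  refine (tsum_of_norm_bounded h1 (norm_U_term_le h hr hY)).trans (le_of_eq ?_)
  unfold Z2
  ring

open Classical in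
lemma U_eq_zero (W : ℝ → ℝ) {r : Eis} (hr : IsPrim r) (h : ¬ Squarefree r) (Y : ℝ) :
    U W r Y = 0 := by
  unfold U
  have h1 : (fun c : Eis => if IsPrim c then ((n6 c * W (nm c / Y) : ℝ) : ℂ) * fm (r * c) else 0)
      = fun _ => 0 := by
    funext c
    split_ifs with hc
    · rw [fm_eq_zero (hr.mul hc) (fun hs => h (hs.squarefree_of_dvd (Dvd.intro _ rfl))), mul_zero]
    · rfl
  rw [h1, tsum_zero]

/-! ### Removal of the coprimality condition -/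

open Classical in
/-- `Σ_{a, (a,b)=1} N(a)^(-1/6) W(N(a) t) fm(a b1)` -/
def V (W : ℝ → ℝ) (b1 b : Eis) (t : ℝ) : ℂ :=
  ∑' a : Eis, if IsPrim a ∧ IsCoprime a b then ((n6 a * W (nm a * t) : ℝ) : ℂ) * fm (a * b1) else 0

open Classical in
lemma tsum_mul_left_dvd {d : Eis} (hd : IsPrim d) (h : Eis → ℂ) :
    ∑' a : Eis, (if IsPrim a ∧ d ∣ a then h a else 0)
      = ∑' c : Eis, (if IsPrim c then h (d * c) else 0) := by
  have hinj : Function.Injective (fun c : Eis => d * c) := mul_right_injective₀ hd.ne_zero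
  have := hinj.tsum_eq (f := fun a : Eis => (if IsPrim a ∧ d ∣ a then h a else 0)) ?_
  · rw [← this]
    refine tsum_congr fun c => ?_
    by_cases hc : IsPrim c
    · rw [if_pos ⟨hd.mul hc, Dvd.intro _ rfl⟩, if_pos hc]
    · rw [if_neg hc, if_neg]
      rintro ⟨h1, _⟩
      exact hc (h1.of_mul_left hd)
  · intro a ha
    rw [Function.mem_support] at ha
    by_cases h1 : IsPrim a ∧ d ∣ a
    · obtain ⟨c, rfl⟩ := h1.2
      exact ⟨c, rfl⟩
    · rw [if_neg h1] at ha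
      exact absurd rfl ha

open Classical in
/-- Möbius inversion of the coprimality condition. -/
theorem V_eq {W : ℝ → ℝ} {K : ℝ} (h : WB W K) {b1 b : Eis} (hb1 : IsPrim b1) (hb : IsPrim b)
    {t : ℝ} (ht : 0 < t) :
    V W b1 b t = ∑ d ∈ Div277.dvs b, (muE d : ℂ) * ((n6 d : ℂ) * U W (d * b1) (1 / (t * nm d))) := by
  have hterm : ∀ a : Eis, (if IsPrim a ∧ IsCoprime a b then
      ((n6 a * W (nm a * t) : ℝ) : ℂ) * fm (a * b1) else 0)
      = ∑ d ∈ Div277.dvs b, (muE d : ℂ) *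
        (if IsPrim a ∧ d ∣ a then ((n6 a * W (nm a * t) : ℝ) : ℂ) * fm (a * b1) else 0) := by
    intro a
    by_cases ha : IsPrim a
    · have h1 := Mob705.sum_muE_coprime ha hb.ne_zero
      have h2 : (((∑ d ∈ Div277.dvs b, (if d ∣ a then muE d else 0) : ℤ) : ℂ))
          = (((if IsCoprime a b then 1 else 0 : ℤ) : ℂ)) := by rw [h1]
      rw [show (if IsPrim a ∧ IsCoprime a b then
        ((n6 a * W (nm a * t) : ℝ) : ℂ) * fm (a * b1) else 0)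
        = (((if IsCoprime a b then 1 else 0 : ℤ) : ℂ)) *
          (((n6 a * W (nm a * t) : ℝ) : ℂ) * fm (a * b1)) by
          by_cases hc : IsCoprime a b
          · rw [if_pos ⟨ha, hc⟩, if_pos hc]; simp
          · rw [if_neg (fun h => hc h.2), if_neg hc]; simp]
      rw [← h2, Int.cast_sum, Finset.sum_mul]
      refine Finset.sum_congr rfl fun d _ => ?_
      by_cases hd : d ∣ a
      · rw [if_pos hd, if_pos ⟨ha, hd⟩]
      · rw [if_neg hd, if_neg (fun h => hd h.2)]; simp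
    · rw [if_neg (fun h => ha h.1)]
      symm
      apply Finset.sum_eq_zero
      intro d _
      rw [if_neg (fun h => ha h.1), mul_zero]
  have hsum : ∀ d ∈ Div277.dvs b, Summable fun a : Eis => (muE d : ℂ) *
        (if IsPrim a ∧ d ∣ a then ((n6 a * W (nm a * t) : ℝ) : ℂ) * fm (a * b1) else 0) := by
    intro d _
    apply Summable.mul_left
    have h1 := summable_U h hb1 (Y := 1 / t) (by positivity)
    refine Summable.of_norm_bounded h1.norm fun a => ?_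
    by_cases ha : IsPrim a ∧ d ∣ a
    · rw [if_pos ha, if_pos ha.1, mul_comm a b1]
      rw [show (nm a : ℝ) / (1 / t) = nm a * t by field_simp]
    · rw [if_neg ha, norm_zero]; exact norm_nonneg _
  unfold V
  rw [tsum_congr hterm, Summable.tsum_finsetSum hsum]
  refine Finset.sum_congr rfl fun d hd => ?_
  have hdp : IsPrim d := Div277.isPrim_of_mem_dvs hd
  have hd0 : (0 : ℝ) < nm d := by exact_mod_cast nm_pos.mpr hdp.ne_zero
  rw [tsum_mul_left, tsum_mul_left_dvd hdp (fun a => ((n6 a * W (nm a * t) : ℝ) : ℂ) * fm (a * b1))]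
  congr 1
  unfold U
  rw [← tsum_mul_left]
  refine tsum_congr fun c => ?_
  by_cases hc : IsPrim c
  · rw [if_pos hc, if_pos hc, n6_mul, nm_mul]
    rw [show (nm c : ℝ) / (1 / (t * nm d)) = ((nm d * nm c : ℕ) : ℝ) * t by
      push_cast; field_simp]
    rw [show d * c * b1 = d * b1 * c by ring]
    push_cast
    ring
  · rw [if_neg hc, if_neg hc, mul_zero]

end Crest.Agent.R012.Cross869
end
end

-- ▼ part R012/CrossB_869
section

/-!
# Row 12 (T6): the cross term of the dispersion, part B (the identity)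

* `key_eq` : `(G b conj (sy a b) - pC τ(a) N(b)^(-1/6)) conj (τ a) = N(a0)^(-1/6) fm (a0 b)`,
  `a = a0 m³`, `(a, b) = 1`.
* `X6 W A S β = Σ_a W(N(a)/A) D(a) conj (τ(a) E(a))`
* `X6_eq` : `X6 = Σ_m Σ_{b1,b2} β1 conj β2 N(b2)^(-1/6) V b1 b2 (N(m)³/A)`.
-/

set_option autoImplicit false

noncomputable section

open Finset

namespace Crest.Agent.R012.Cross869

open Crest.Agent.R012 Crest.Agent.R012.Eis Crest.Agent.R012.Tau85

/-- the summand of `D(a)` without `β` -/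
def Du (a b : Eis) : ℂ := G b * (starRingEnd ℂ) (sy a b) - (pC : ℂ) * tauE a * (n6 b : ℂ)

open Classical in
/-- `D(a) = Σ_{b ∈ S, (a,b)=1} β_b (G b conj (sy a b) - pC τ(a) N(b)^(-1/6))` -/
def Dd (S : Finset Eis) (β : Eis → ℂ) (a : Eis) : ℂ :=
  ∑ b ∈ S, if IsCoprime a b then β b * Du a b else 0

open Classical in
/-- `E(a) = Σ_{b ∈ S, (a,b)=1} β_b N(b)^(-1/6)` -/
def Ee (S : Finset Eis) (β : Eis → ℂ) (a : Eis) : ℂ :=
  ∑ b ∈ S, if IsCoprime a b then β b * (n6 b : ℂ) else 0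

open Classical in
/-- the cross term -/
def X6 (W : ℝ → ℝ) (A : ℝ) (S : Finset Eis) (β : Eis → ℂ) : ℂ :=
  ∑' a : Eis, if IsPrim a then
    (W (nm a / A) : ℂ) * (Dd S β a * (starRingEnd ℂ) (tauE a * Ee S β a)) else 0

lemma squarefree_mul_of {a b : Eis} (h : IsCoprime a b) (ha : Squarefree a) (hb : Squarefree b) :
    Squarefree (a * b) := (squarefree_mul_iff).mpr ⟨h.isRelPrime, ha, hb⟩

lemma not_squarefree_mul {a b : Eis} (ha : a ≠ 0) (h : ¬ IsCoprime a b) : ¬ Squarefree (a * b) := by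
  intro hsf
  apply h
  refine isCoprime_of_prime_dvd (fun h => ha h.1) (fun p hp hpa hpb => ?_)
  exact hp.not_isUnit (hsf p (mul_dvd_mul hpa hpb))

theorem key_eq {q : Eis × Eis} (hq : q ∈ TP) {b : Eis} (hb : IsPrim b) (hbs : Squarefree b)
    (hc : IsCoprime (cp q) b) :
    Du (cp q) b * (starRingEnd ℂ) (tauE (cp q)) = (n6 q.1 : ℂ) * fm (q.1 * b) := by
  obtain ⟨a, m⟩ := q
  obtain ⟨ha, has, hm⟩ := hq
  simp only at ha has hm ⊢
  rw [isCoprime_cp] at hc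
  obtain ⟨hc1, hc2⟩ := hc
  simp only at hc1 hc2
  have e1 : tauE (cp (a, m)) = (starRingEnd ℂ) (G a) * (n6 a : ℂ) := tauE_mul ha has hm
  have e2 : sy (cp (a, m)) b = sy a b := by
    have h1 : cp (a, m) = a * m ^ 3 := rfl
    rw [h1, Gauss880.syG.mul_left _ _ _ hb, show m ^ 3 = m * m * m by ring,
      Gauss880.syG.mul_left _ _ _ hb, Gauss880.syG.mul_left _ _ _ hb]
    have h2 := Gauss880.syG.cube m b hb hc2
    rw [show sy m b * sy m b * sy m b = sy m b ^ 3 by ring, h2, mul_one]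
  have e3 := Gauss880.G_mul_all Gauss880.syG ha hb
  have e4 := Gauss880.G_mul_conj Gauss880.syG ha has
  unfold Du fm
  rw [if_pos (squarefree_mul_of hc1 has hbs), n6_mul, e1, e2, e3, map_mul, Complex.conj_conj,
    Complex.conj_ofReal]
  push_cast
  linear_combination (-(pC : ℂ) * (n6 b : ℂ) * (n6 a : ℂ) ^ 2) * e4

/-- the terms of the pair sum -/
def Pt (W : ℝ → ℝ) (b1 : Eis) (t : ℝ) (a : Eis) : ℂ :=
  ((n6 a * W (nm a * t) : ℝ) : ℂ) * fm (a * b1)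

lemma norm_Pt_le {W : ℝ → ℝ} {K : ℝ} (h : WB W K) {b1 : Eis} (hb1 : IsPrim b1) {t : ℝ}
    (ht : 0 < t) {a : Eis} (ha : IsPrim a) :
    ‖Pt W b1 t a‖ ≤ (K * Kf * (1 / t) ^ 2) * (nm a : ℝ) ^ (-(2 : ℝ)) := by
  have h1 := norm_U_term_le h hb1 (Y := 1 / t) (by positivity) a
  rw [if_pos ha, show (nm a : ℝ) / (1 / t) = nm a * t by field_simp] at h1
  unfold Pt
  rwa [mul_comm a b1]

open Classical in
lemma summable_V {W : ℝ → ℝ} {K : ℝ} (h : WB W K) {b1 : Eis} (hb1 : IsPrim b1) (b : Eis) {t : ℝ}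
    (ht : 0 < t) : Summable fun a : Eis => if IsPrim a ∧ IsCoprime a b then Pt W b1 t a else 0 := by
  have hK := h.1
  have hKf := Kf_pos.le
  refine Summable.of_norm_bounded
    ((summable_nm (s := 2) (by norm_num)).mul_left (K * Kf * (1 / t) ^ 2)) fun a => ?_
  split_ifs with h1
  · exact norm_Pt_le h hb1 ht h1.1
  · rw [norm_zero]; positivity

open Classical in
/-- the function of the pair `(a0, m)` -/
def gP (W : ℝ → ℝ) (A : ℝ) (S : Finset Eis) (β : Eis → ℂ) (q : Eis × Eis) : ℂ :=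
  if q ∈ TP then ∑ b1 ∈ S, ∑ b2 ∈ S, (if IsCoprime q.2 b1 ∧ IsCoprime q.2 b2 then
    (β b1 * (starRingEnd ℂ) (β b2) * (n6 b2 : ℂ)) *
      (if IsCoprime q.1 b2 then Pt W b1 ((nm q.2 : ℝ) ^ 3 / A) q.1 else 0) else 0) else 0

open Classical in
lemma term_eq (W : ℝ → ℝ) (A : ℝ) {S : Finset Eis} (hS : ∀ b ∈ S, IsPrim b ∧ Squarefree b)
    (β : Eis → ℂ) {q : Eis × Eis} (hq : q ∈ TP) :
    (W (nm (cp q) / A) : ℂ) * (Dd S β (cp q) * (starRingEnd ℂ) (tauE (cp q) * Ee S β (cp q)))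
      = gP W A S β q := by
  have hW : (nm q.1 : ℝ) * ((nm q.2 : ℝ) ^ 3 / A) = nm (cp q) / A := by
    rw [nm_cp]; push_cast; ring
  unfold gP Dd Ee
  rw [if_pos hq, map_mul, map_sum, Finset.mul_sum, Finset.sum_mul_sum, Finset.mul_sum]
  refine Finset.sum_congr rfl fun b1 hb1 => ?_
  rw [Finset.mul_sum]
  refine Finset.sum_congr rfl fun b2 hb2 => ?_
  obtain ⟨h1p, h1s⟩ := hS b1 hb1
  obtain ⟨h2p, h2s⟩ := hS b2 hb2
  unfold Pt
  rw [hW]
  by_cases c1 : IsCoprime (cp q) b1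
  · rw [if_pos c1]
    have k1 := key_eq hq h1p h1s c1
    rw [isCoprime_cp] at c1
    by_cases c2 : IsCoprime (cp q) b2
    · rw [if_pos c2]
      rw [isCoprime_cp] at c2
      rw [if_pos ⟨c1.2, c2.2⟩, if_pos c2.1, map_mul, Complex.conj_ofReal]
      push_cast
      linear_combination ((W (nm (cp q) / A) : ℂ) * β b1 * (starRingEnd ℂ) (β b2) * (n6 b2 : ℂ)) * k1
    · rw [if_neg c2, map_zero, mul_zero, mul_zero, mul_zero]
      by_cases c3 : IsCoprime q.2 b1 ∧ IsCoprime q.2 b2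
      · have c5 : ¬ IsCoprime q.1 b2 := fun c4 => c2 (isCoprime_cp.mpr ⟨c4, c3.2⟩)
        rw [if_pos c3, if_neg c5, mul_zero]
      · rw [if_neg c3]
  · rw [if_neg c1, zero_mul, mul_zero]
    by_cases c3 : IsCoprime q.2 b1 ∧ IsCoprime q.2 b2
    · rw [if_pos c3]
      by_cases c4 : IsCoprime q.1 b2
      · rw [if_pos c4, fm_eq_zero (hq.1.mul h1p), mul_zero, mul_zero]
        apply not_squarefree_mul hq.1.ne_zero
        intro c5
        exact c1 (isCoprime_cp.mpr ⟨c5, c3.1⟩)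
      · rw [if_neg c4, mul_zero]
    · rw [if_neg c3]

open Classical in
lemma X6_eq_pairs (W : ℝ → ℝ) (A : ℝ) {S : Finset Eis} (hS : ∀ b ∈ S, IsPrim b ∧ Squarefree b)
    (β : Eis → ℂ) : X6 W A S β = ∑' q : Eis × Eis, gP W A S β q := by
  unfold X6
  rw [tsum_TP' (fun a : Eis => if IsPrim a then
    (W (nm a / A) : ℂ) * (Dd S β a * (starRingEnd ℂ) (tauE a * Ee S β a)) else 0)]
  · refine tsum_congr fun q => ?_
    by_cases hq : q ∈ TP
    · rw [if_pos hq, if_pos (cp_isPrim hq)]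
      exact term_eq W A hS β hq
    · rw [if_neg hq]
      unfold gP
      rw [if_neg hq]
  · intro a ha
    rw [tauE_eq_zero ha]
    simp

open Classical in
lemma norm_gP_le {W : ℝ → ℝ} {K : ℝ} (h : WB W K) {A : ℝ} (hA : 0 < A) {S : Finset Eis}
    (hS : ∀ b ∈ S, IsPrim b ∧ Squarefree b) {β : Eis → ℂ} {M : ℝ} (hM : ∀ b ∈ S, ‖β b‖ ≤ M)
    (hM0 : 0 ≤ M) (q : Eis × Eis) :
    ‖gP W A S β q‖ ≤ ((#S : ℝ) ^ 2 * M ^ 2 * (K * Kf * A ^ 2)) *
      ((nm q.1 : ℝ) ^ (-(2 : ℝ)) * (nm q.2 : ℝ) ^ (-(2 : ℝ))) := by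
  have hK := h.1
  have hKf := Kf_pos.le
  unfold gP
  split_ifs with hq
  · have hm0 : (1 : ℝ) ≤ nm q.2 := by exact_mod_cast nm_pos.mpr hq.2.2.ne_zero
    have ht : (0 : ℝ) < (nm q.2 : ℝ) ^ 3 / A := by positivity
    refine (norm_sum_le _ _).trans ?_
    have hb : ∀ b1 ∈ S, ‖∑ b2 ∈ S, (if IsCoprime q.2 b1 ∧ IsCoprime q.2 b2 then
      (β b1 * (starRingEnd ℂ) (β b2) * (n6 b2 : ℂ)) *
      (if IsCoprime q.1 b2 then Pt W b1 ((nm q.2 : ℝ) ^ 3 / A) q.1 else 0) else 0)‖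
        ≤ #S • (M ^ 2 * (K * Kf * A ^ 2) *
          ((nm q.1 : ℝ) ^ (-(2 : ℝ)) * (nm q.2 : ℝ) ^ (-(2 : ℝ)))) := by
      intro b1 hb1
      refine (norm_sum_le _ _).trans (Finset.sum_le_card_nsmul _ _ _ fun b2 hb2 => ?_)
      have hP := norm_Pt_le h (hS b1 hb1).1 ht hq.1
      have h3 : (1 / ((nm q.2 : ℝ) ^ 3 / A)) ^ 2 ≤ A ^ 2 * (nm q.2 : ℝ) ^ (-(2 : ℝ)) := by
        rw [Real.rpow_neg (by positivity), show ((2 : ℝ)) = ((2 : ℕ) : ℝ) by norm_num,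
          Real.rpow_natCast, one_div_div, div_pow, div_eq_mul_inv]
        gcongr
        nlinarith [pow_le_pow_right₀ hm0 (show 1 ≤ 3 by norm_num), pow_pos (show (0 : ℝ) < nm q.2 by linarith) 3]
      have h4 : ‖Pt W b1 ((nm q.2 : ℝ) ^ 3 / A) q.1‖ ≤ (K * Kf * A ^ 2) *
          ((nm q.1 : ℝ) ^ (-(2 : ℝ)) * (nm q.2 : ℝ) ^ (-(2 : ℝ))) := by
        refine hP.trans ?_
        calc K * Kf * (1 / ((nm q.2 : ℝ) ^ 3 / A)) ^ 2 * (nm q.1 : ℝ) ^ (-(2 : ℝ))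
            ≤ K * Kf * (A ^ 2 * (nm q.2 : ℝ) ^ (-(2 : ℝ))) * (nm q.1 : ℝ) ^ (-(2 : ℝ)) := by
              gcongr
          _ = _ := by ring
      split_ifs with c1 c2
      · rw [norm_mul, norm_mul, norm_mul, RCLike.norm_conj, Complex.norm_real, Real.norm_eq_abs,
          abs_of_nonneg (n6_nonneg b2)]
        calc ‖β b1‖ * ‖β b2‖ * n6 b2 * ‖Pt W b1 ((nm q.2 : ℝ) ^ 3 / A) q.1‖
            ≤ M * M * 1 * ((K * Kf * A ^ 2) *
          ((nm q.1 : ℝ) ^ (-(2 : ℝ)) * (nm q.2 : ℝ) ^ (-(2 : ℝ)))) := by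
              have := hM b1 hb1
              have := hM b2 hb2
              have := n6_le_one b2
              have := n6_nonneg b2
              gcongr
          _ = _ := by ring
      · rw [mul_zero, norm_zero]; positivity
      · rw [norm_zero]; positivity
    refine (Finset.sum_le_card_nsmul _ _ _ hb).trans (le_of_eq ?_)
    simp only [nsmul_eq_mul]
    ring
  · rw [norm_zero]; positivity

lemma summable_gP {W : ℝ → ℝ} {K : ℝ} (h : WB W K) {A : ℝ} (hA : 0 < A) {S : Finset Eis}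
    (hS : ∀ b ∈ S, IsPrim b ∧ Squarefree b) (β : Eis → ℂ) :
    Summable (fun q : Eis × Eis => gP W A S β q) := by
  obtain ⟨M, hM0, hM⟩ : ∃ M : ℝ, 0 ≤ M ∧ ∀ b ∈ S, ‖β b‖ ≤ M :=
    ⟨∑ b ∈ S, ‖β b‖, by positivity, fun b hb =>
      Finset.single_le_sum (f := fun b => ‖β b‖) (fun _ _ => norm_nonneg _) hb⟩
  have h2 := summable_nm (s := 2) (by norm_num)
  refine Summable.of_norm_bounded ((h2.mul_of_nonneg h2 (fun _ => by positivity)
    (fun _ => by positivity)).mul_left _) (norm_gP_le h hA hS hM hM0)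

open Classical in
/-- the inner sum for fixed `m` -/
def Im (W : ℝ → ℝ) (A : ℝ) (S : Finset Eis) (β : Eis → ℂ) (m : Eis) : ℂ :=
  ∑ b1 ∈ S, ∑ b2 ∈ S, (if IsCoprime m b1 ∧ IsCoprime m b2 then
    (β b1 * (starRingEnd ℂ) (β b2) * (n6 b2 : ℂ)) * V W b1 b2 ((nm m : ℝ) ^ 3 / A) else 0)

open Classical in
lemma gP_eq {W : ℝ → ℝ} {A : ℝ} {S : Finset Eis} (hS : ∀ b ∈ S, IsPrim b ∧ Squarefree b)
    (β : Eis → ℂ) {m : Eis} (hm : IsPrim m) (a : Eis) :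
    gP W A S β (a, m) = ∑ b1 ∈ S, ∑ b2 ∈ S, (if IsCoprime m b1 ∧ IsCoprime m b2 then
    (β b1 * (starRingEnd ℂ) (β b2) * (n6 b2 : ℂ)) *
      (if IsPrim a ∧ IsCoprime a b2 then Pt W b1 ((nm m : ℝ) ^ 3 / A) a else 0) else 0) := by
  unfold gP
  by_cases ha : IsPrim a
  · by_cases has : Squarefree a
    · rw [if_pos (show (a, m) ∈ TP from ⟨ha, has, hm⟩)]
      simp only [ha, true_and]
    · rw [if_neg (fun h : (a, m) ∈ TP => has h.2.1)]
      symm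
      refine Finset.sum_eq_zero fun b1 hb1 => Finset.sum_eq_zero fun b2 _ => ?_
      have : Pt W b1 ((nm m : ℝ) ^ 3 / A) a = 0 := by
        unfold Pt
        rw [fm_eq_zero (ha.mul (hS b1 hb1).1)
          (fun hs => has (hs.squarefree_of_dvd (Dvd.intro _ rfl))), mul_zero]
      rw [this]
      simp
  · rw [if_neg (fun h : (a, m) ∈ TP => ha h.1)]
    symm
    refine Finset.sum_eq_zero fun b1 hb1 => Finset.sum_eq_zero fun b2 _ => ?_
    simp [ha]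

open Classical in
theorem X6_eq {W : ℝ → ℝ} {K : ℝ} (h : WB W K) {A : ℝ} (hA : 0 < A) {S : Finset Eis}
    (hS : ∀ b ∈ S, IsPrim b ∧ Squarefree b) (β : Eis → ℂ) :
    X6 W A S β = ∑' m : Eis, if IsPrim m then Im W A S β m else 0 := by
  have hs := summable_gP h hA hS β
  have hs' : Summable (fun q : Eis × Eis => gP W A S β q.swap) :=
    (Equiv.prodComm Eis Eis).summable_iff.mpr hs
  rw [X6_eq_pairs W A hS β, ← (Equiv.prodComm Eis Eis).tsum_eq]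
  simp only [Equiv.prodComm_apply]
  rw [hs'.tsum_prod]
  refine tsum_congr fun m => ?_
  simp only [Prod.swap_prod_mk]
  by_cases hm : IsPrim m
  · rw [if_pos hm]
    have hm0 : (1 : ℝ) ≤ nm m := by exact_mod_cast nm_pos.mpr hm.ne_zero
    have ht : (0 : ℝ) < (nm m : ℝ) ^ 3 / A := by positivity
    rw [tsum_congr (gP_eq hS β hm)]
    have hsum : ∀ b1 ∈ S, ∀ b2 ∈ S, Summable fun a : Eis =>
        (if IsCoprime m b1 ∧ IsCoprime m b2 then (β b1 * (starRingEnd ℂ) (β b2) * (n6 b2 : ℂ)) *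
      (if IsPrim a ∧ IsCoprime a b2 then Pt W b1 ((nm m : ℝ) ^ 3 / A) a else 0) else 0) := by
      intro b1 hb1 b2 hb2
      by_cases hc : IsCoprime m b1 ∧ IsCoprime m b2
      · simp only [if_pos hc]
        exact (summable_V h (hS b1 hb1).1 b2 ht).mul_left _
      · simp only [if_neg hc]
        exact summable_zero
    rw [Summable.tsum_finsetSum (fun b1 hb1 => summable_sum (hsum b1 hb1))]
    refine Finset.sum_congr rfl fun b1 hb1 => ?_
    rw [Summable.tsum_finsetSum (hsum b1 hb1)]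
    refine Finset.sum_congr rfl fun b2 hb2 => ?_
    by_cases hc : IsCoprime m b1 ∧ IsCoprime m b2
    · simp only [if_pos hc]
      rw [tsum_mul_left]
      rfl
    · simp only [if_neg hc]
      rw [tsum_zero]
  · rw [if_neg hm]
    have : (fun a => gP W A S β (a, m)) = fun _ => 0 := by
      funext a
      unfold gP
      rw [if_neg (fun h : (a, m) ∈ TP => hm h.2.2)]
    rw [this, tsum_zero]

end Crest.Agent.R012.Cross869
end
end

-- ▼ part R012/CrossC_869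
section

/-!
# Row 12 (T6): the cross term of the dispersion, part C (the bound)

* `TIW W` : `Σ_{r ∈ S(R)} ‖U W r Y‖² ≤ C R Y^(2/3) (RY)^ε` for all `R, Y ≥ 1`
  (Type I estimate with general level, from the metaplectic part).
* `norm_X6_le` : `‖X6‖ ≤ C M² B^(11/6) A^(1/3) (AB)^ε`.
-/

set_option autoImplicit false

noncomputable section

open Finset

namespace Crest.Agent.R012.Cross869

open Crest.Agent.R012 Crest.Agent.R012.Eis Crest.Agent.R012.Tau85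

/-- Type I estimate in mean square over the squarefree level. -/
def TIW (W : ℝ → ℝ) : Prop := ∀ ε : ℝ, 0 < ε → ∃ C : ℝ, 0 ≤ C ∧ ∀ R Y : ℝ, 1 ≤ R → 1 ≤ Y →
  ∑ r ∈ LS2.S R, ‖U W r Y‖ ^ 2 ≤ C * (R * Y ^ (2 / 3 : ℝ)) * (R * Y) ^ ε

lemma card_S_le {B : ℝ} (hB : 1 ≤ B) {S : Finset Eis} (hS : S ⊆ LS2.S B) :
    (#S : ℝ) ≤ 16 * B := by
  have h1 : #S ≤ #(ball ⌊B⌋₊) := by
    refine Finset.card_le_card (hS.trans ?_)
    intro x hx
    rw [LS2.mem_S (by linarith)] at hx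
    rw [mem_ball, Nat.le_floor_iff (by linarith)]
    exact hx.1
  have h2 : #(ball ⌊B⌋₊) ≤ 16 * ⌊B⌋₊ := LS448.card_ball_le (Nat.one_le_floor_iff B |>.mpr hB)
  have h3 : ((⌊B⌋₊ : ℕ) : ℝ) ≤ B := Nat.floor_le (by linarith)
  calc (#S : ℝ) ≤ ((16 * ⌊B⌋₊ : ℕ) : ℝ) := by exact_mod_cast h1.trans h2
    _ ≤ 16 * B := by push_cast; linarith

/-- `(A/n³)^κ = A^κ n^(-3κ)` -/
lemma rpow_t {A n κ : ℝ} (hA : 0 < A) (hn : 0 < n) :
    (A / n ^ 3) ^ κ = A ^ κ * n ^ (-(3 * κ)) := by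
  rw [Real.div_rpow hA.le (by positivity), ← Real.rpow_natCast n 3, ← Real.rpow_mul hn.le,
    Real.rpow_neg hn.le, div_eq_mul_inv]
  norm_num

lemma sum_sq_le (W : ℝ → ℝ) (Y : ℝ) {B : ℝ} (hB : 1 ≤ B) {S : Finset Eis} (hS : S ⊆ LS2.S B)
    {d : Eis} (hd : IsPrim d) :
    ∑ b ∈ S, ‖U W (d * b) Y‖ ^ 2 ≤ ∑ r ∈ LS2.S (B * nm d), ‖U W r Y‖ ^ 2 := by
  classical
  have hinj : Function.Injective (fun c : Eis => d * c) := mul_right_injective₀ hd.ne_zero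
  have h1 : ∑ b ∈ S, ‖U W (d * b) Y‖ ^ 2
      = ∑ b ∈ S.filter (fun b => Squarefree (d * b)), ‖U W (d * b) Y‖ ^ 2 := by
    rw [Finset.sum_filter]
    refine Finset.sum_congr rfl fun b hb => ?_
    split_ifs with hs
    · rfl
    · have hbp := ((LS2.mem_S (by linarith)).mp (hS hb)).2.1
      rw [U_eq_zero W (hd.mul hbp) hs]
      simp
  rw [h1, ← Finset.sum_image (f := fun r => ‖U W r Y‖ ^ 2) (g := fun b : Eis => d * b)
    (fun x _ y _ h => hinj h)]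
  refine Finset.sum_le_sum_of_subset_of_nonneg ?_ (fun _ _ _ => by positivity)
  intro r hr
  rw [Finset.mem_image] at hr
  obtain ⟨b, hb, rfl⟩ := hr
  rw [Finset.mem_filter] at hb
  have hb1 := (LS2.mem_S (by linarith)).mp (hS hb.1)
  have hd0 : (0 : ℝ) ≤ nm d := Nat.cast_nonneg _
  rw [LS2.mem_S (by positivity)]
  refine ⟨?_, hd.mul hb1.2.1, hb.2⟩
  rw [nm_mul]
  push_cast
  nlinarith [hb1.1]

theorem coreU {W : ℝ → ℝ} {K : ℝ} (h : WB W K) (hT : TIW W) {ε : ℝ} (hε : 0 < ε) {κ : ℝ}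
    (hκ1 : 1 / 3 ≤ κ) (hκ2 : κ ≤ 2) :
    ∃ C : ℝ, 0 ≤ C ∧ ∀ A B : ℝ, 1 ≤ A → 1 ≤ B → ∀ S : Finset Eis, S ⊆ LS2.S B →
      ∀ m d : Eis, IsPrim m → IsPrim d →
      n6 d * ∑ b ∈ S, ‖U W (d * b) (1 / ((nm m : ℝ) ^ 3 / A * nm d))‖
        ≤ C * (B * (A * B) ^ ε) * (A ^ κ * (nm m : ℝ) ^ (-(3 * κ))) := by
  obtain ⟨C1, hC1, hC⟩ := hT (2 * ε) (by linarith)
  have hK := h.1
  have hKf := Kf_pos.le
  have hZ := Z2_nonneg
  refine ⟨16 * (K * Kf * Z2) + 4 * Real.sqrt C1, by positivity, ?_⟩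
  intro A B hA hB S hS m d hm hd
  have hm0 : (1 : ℝ) ≤ nm m := by exact_mod_cast nm_pos.mpr hm.ne_zero
  have hd0 : (1 : ℝ) ≤ nm d := by exact_mod_cast nm_pos.mpr hd.ne_zero
  set n : ℝ := ((nm m : ℕ) : ℝ) with hn
  set D : ℝ := ((nm d : ℕ) : ℝ) with hD
  have hA0 : (0 : ℝ) < A := by linarith
  have hB0 : (0 : ℝ) < B := by linarith
  have hn0 : (0 : ℝ) < n := by linarith
  have hD0 : (0 : ℝ) < D := by linarith
  set Y : ℝ := 1 / (n ^ 3 / A * D) with hY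
  have hYpos : 0 < Y := by positivity
  have hYD : D * Y = A / n ^ 3 := by
    rw [hY]; field_simp
  have hAn : 0 < A / n ^ 3 := by positivity
  have hYle : Y ≤ A / n ^ 3 := by
    rw [← hYD]; nlinarith
  have hAB : 1 ≤ (A * B) ^ ε := Real.one_le_rpow (by nlinarith) hε.le
  have hcard := card_S_le hB hS
  have hprim : ∀ b ∈ S, IsPrim b := fun b hb => ((LS2.mem_S (by linarith)).mp (hS hb)).2.1
  rw [← rpow_t hA0 hn0]
  have hq : 0 < (A / n ^ 3) ^ κ := by positivity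
  rcases lt_or_ge Y 1 with hY1 | hY1
  · have h1 : ∑ b ∈ S, ‖U W (d * b) Y‖ ≤ #S • (K * Kf * Z2 * Y ^ 2) :=
      Finset.sum_le_card_nsmul _ _ _ fun b hb => norm_U_le h (hd.mul (hprim b hb)) hYpos
    have h2 : Y ^ 2 ≤ (A / n ^ 3) ^ κ := by
      calc Y ^ 2 = Y ^ (2 : ℝ) := by rw [show (2 : ℝ) = ((2 : ℕ) : ℝ) by norm_num, Real.rpow_natCast]
        _ ≤ Y ^ κ := Real.rpow_le_rpow_of_exponent_ge hYpos hY1.le hκ2
        _ ≤ _ := Real.rpow_le_rpow hYpos.le hYle (by linarith)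
    calc n6 d * ∑ b ∈ S, ‖U W (d * b) Y‖
        ≤ 1 * (#S • (K * Kf * Z2 * Y ^ 2)) := by
          have := n6_le_one d
          have := n6_nonneg d
          gcongr
      _ = (#S : ℝ) * (K * Kf * Z2 * Y ^ 2) := by rw [nsmul_eq_mul, one_mul]
      _ ≤ (16 * B) * (K * Kf * Z2 * (A / n ^ 3) ^ κ) := by gcongr
      _ = (16 * (K * Kf * Z2)) * (B * 1) * (A / n ^ 3) ^ κ := by ring
      _ ≤ (16 * (K * Kf * Z2) + 4 * Real.sqrt C1) * (B * (A * B) ^ ε) *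
          (A / n ^ 3) ^ κ := by
          gcongr
          have := Real.sqrt_nonneg C1
          linarith
  · have h1 : (∑ b ∈ S, ‖U W (d * b) Y‖) ^ 2 ≤ (16 * B) * (C1 * (B * D * Y ^ (2 / 3 : ℝ)) *
        (A * B) ^ (2 * ε)) := by
      refine (sq_sum_le_card_mul_sum_sq (s := S) (f := fun b => ‖U W (d * b) Y‖)).trans ?_
      have h2 := (sum_sq_le W Y hB hS hd).trans (hC (B * D) Y (by nlinarith) hY1)
      have h3 : (B * D * Y) ^ (2 * ε) ≤ (A * B) ^ (2 * ε) := by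
        refine Real.rpow_le_rpow (by positivity) ?_ (by linarith)
        rw [mul_assoc, hYD, mul_comm A B]
        refine mul_le_mul_of_nonneg_left (div_le_self hA0.le (one_le_pow₀ hm0)) hB0.le
      calc (#S : ℝ) * ∑ b ∈ S, ‖U W (d * b) Y‖ ^ 2
          ≤ (16 * B) * (C1 * (B * D * Y ^ (2 / 3 : ℝ)) * (B * D * Y) ^ (2 * ε)) := by
            gcongr
        _ ≤ _ := by gcongr
    have h4 : ∑ b ∈ S, ‖U W (d * b) Y‖
        ≤ 4 * Real.sqrt C1 * B * D ^ (1 / 2 : ℝ) * Y ^ (1 / 3 : ℝ) * (A * B) ^ ε := by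
      refine (sq_le_sq₀ (Finset.sum_nonneg fun _ _ => norm_nonneg _) (by positivity)).mp
        (h1.trans (le_of_eq ?_))
      have e1 : (D ^ (1 / 2 : ℝ)) ^ 2 = D := by
        rw [← Real.rpow_natCast, ← Real.rpow_mul hD0.le]; norm_num
      have e2 : (Y ^ (1 / 3 : ℝ)) ^ 2 = Y ^ (2 / 3 : ℝ) := by
        rw [← Real.rpow_natCast, ← Real.rpow_mul hYpos.le]; norm_num
      have e3 : ((A * B) ^ ε) ^ 2 = (A * B) ^ (2 * ε) := by
        rw [← Real.rpow_natCast, ← Real.rpow_mul (by positivity)]; norm_num [mul_comm]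
      have e4 : Real.sqrt C1 ^ 2 = C1 := Real.sq_sqrt hC1
      rw [mul_pow, mul_pow, mul_pow, mul_pow, mul_pow, e1, e2, e3, e4]
      ring
    have h5 : n6 d * (D ^ (1 / 2 : ℝ) * Y ^ (1 / 3 : ℝ)) ≤ (A / n ^ 3) ^ κ := by
      have e1 : n6 d * (D ^ (1 / 2 : ℝ) * Y ^ (1 / 3 : ℝ)) = (A / n ^ 3) ^ (1 / 3 : ℝ) := by
        rw [← hYD, Real.mul_rpow hD0.le hYpos.le]
        unfold n6
        rw [← hD, ← mul_assoc, ← Real.rpow_add hD0]
        norm_num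
      rw [e1]
      refine Real.rpow_le_rpow_of_exponent_le ?_ hκ1
      rw [← hYD]; nlinarith
    calc n6 d * ∑ b ∈ S, ‖U W (d * b) Y‖
        ≤ n6 d * (4 * Real.sqrt C1 * B * D ^ (1 / 2 : ℝ) * Y ^ (1 / 3 : ℝ) * (A * B) ^ ε) :=
          mul_le_mul_of_nonneg_left h4 (n6_nonneg d)
      _ = 4 * Real.sqrt C1 * (B * (A * B) ^ ε) * (n6 d * (D ^ (1 / 2 : ℝ) * Y ^ (1 / 3 : ℝ))) := by
          ring
      _ ≤ 4 * Real.sqrt C1 * (B * (A * B) ^ ε) * (A / n ^ 3) ^ κ := by gcongr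
      _ ≤ _ := by
          gcongr
          have : 0 ≤ K * Kf * Z2 := by positivity
          linarith

/-- `Σ_{b ≤ B} N(b)^(-1/6) τ(b) ≤ C B^(5/6+ε)` -/
lemma sum_n6_tau_le {ε : ℝ} (hε : 0 < ε) : ∃ C : ℝ, 0 ≤ C ∧ ∀ B : ℝ, 1 ≤ B → ∀ S : Finset Eis,
    S ⊆ LS2.S B → ∑ b ∈ S, n6 b * (Div277.tau b : ℝ) ≤ C * (B ^ (5 / 6 : ℝ) * B ^ ε) := by
  obtain ⟨C1, hC1, h1⟩ := Div277.tau_le_rpow (ε := ε / 2) (by linarith)
  obtain ⟨C2, hC2, h2⟩ := LS448.LL_le (ε := ε / 2) (by linarith)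
  refine ⟨C1 * C2, by positivity, ?_⟩
  intro B hB S hS
  have hB0 : 0 < B := by linarith
  have h3 : ∀ b ∈ S, n6 b * (Div277.tau b : ℝ) ≤
      (C1 * B ^ (ε / 2) * B ^ (5 / 6 : ℝ)) * (1 / (nm b : ℝ)) := by
    intro b hb
    have hb1 := (LS2.mem_S (by linarith)).mp (hS hb)
    have hb0 : (0 : ℝ) < nm b := by exact_mod_cast nm_pos.mpr hb1.2.1.ne_zero
    have e1 : n6 b ≤ B ^ (5 / 6 : ℝ) * (1 / (nm b : ℝ)) := by
      unfold n6
      rw [show (-(1 / 6) : ℝ) = 5 / 6 + (-1) by norm_num, Real.rpow_add hb0, Real.rpow_neg_one,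
        one_div]
      gcongr
      exact hb1.1
    have e2 : (Div277.tau b : ℝ) ≤ C1 * B ^ (ε / 2) := by
      refine (h1 b hb1.2.1.ne_zero).trans ?_
      gcongr
      exact hb1.1
    calc n6 b * (Div277.tau b : ℝ) ≤ (B ^ (5 / 6 : ℝ) * (1 / (nm b : ℝ))) * (C1 * B ^ (ε / 2)) := by
          have := n6_nonneg b
          gcongr
      _ = _ := by ring
  have h4 : ∑ b ∈ S, (1 / (nm b : ℝ)) ≤ LS448.LL B := by
    unfold LS448.LL
    refine Finset.sum_le_sum_of_subset_of_nonneg ?_ (fun _ _ _ => by positivity)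
    intro b hb
    have hb1 := (LS2.mem_S (by linarith)).mp (hS hb)
    rw [LS448.mem_nz]
    exact ⟨hb1.2.1.ne_zero, hb1.1⟩
  calc ∑ b ∈ S, n6 b * (Div277.tau b : ℝ)
      ≤ ∑ b ∈ S, (C1 * B ^ (ε / 2) * B ^ (5 / 6 : ℝ)) * (1 / (nm b : ℝ)) := Finset.sum_le_sum h3
    _ = (C1 * B ^ (ε / 2) * B ^ (5 / 6 : ℝ)) * ∑ b ∈ S, (1 / (nm b : ℝ)) := by
        rw [Finset.mul_sum]
    _ ≤ (C1 * B ^ (ε / 2) * B ^ (5 / 6 : ℝ)) * (C2 * B ^ (ε / 2)) := by
        gcongr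
        exact h4.trans (h2 B hB)
    _ = C1 * C2 * (B ^ (5 / 6 : ℝ) * (B ^ (ε / 2) * B ^ (ε / 2))) := by ring
    _ = _ := by rw [← Real.rpow_add hB0, add_halves]

lemma norm_V_le {W : ℝ → ℝ} {K : ℝ} (h : WB W K) {b1 b : Eis} (hb1 : IsPrim b1) (hb : IsPrim b)
    {t : ℝ} (ht : 0 < t) :
    ‖V W b1 b t‖ ≤ ∑ d ∈ Div277.dvs b, n6 d * ‖U W (d * b1) (1 / (t * nm d))‖ := by
  rw [V_eq h hb1 hb ht]
  refine (norm_sum_le _ _).trans (Finset.sum_le_sum fun d _ => ?_)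
  rw [norm_mul, norm_mul, Complex.norm_real, Real.norm_eq_abs, abs_of_nonneg (n6_nonneg d)]
  have := norm_muE_le d
  have h2 : 0 ≤ n6 d * ‖U W (d * b1) (1 / (t * nm d))‖ := mul_nonneg (n6_nonneg _) (norm_nonneg _)
  nlinarith

open Classical in
/-- The bound for the inner sum. -/
theorem norm_Im_le {W : ℝ → ℝ} {K : ℝ} (h : WB W K) (hT : TIW W) {ε : ℝ} (hε : 0 < ε) {κ : ℝ}
    (hκ1 : 1 / 3 ≤ κ) (hκ2 : κ ≤ 2) :
    ∃ C : ℝ, 0 ≤ C ∧ ∀ A B : ℝ, 1 ≤ A → 1 ≤ B → ∀ S : Finset Eis, S ⊆ LS2.S B →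
      ∀ (β : Eis → ℂ) (M : ℝ), 0 ≤ M → (∀ b ∈ S, ‖β b‖ ≤ M) → ∀ m : Eis, IsPrim m →
      ‖Im W A S β m‖ ≤ C * M ^ 2 * (B ^ (11 / 6 : ℝ) * A ^ κ) * (A * B) ^ ε *
        (nm m : ℝ) ^ (-(3 * κ)) := by
  obtain ⟨C1, hC1, h1⟩ := coreU h hT (ε := ε / 2) (by linarith) hκ1 hκ2
  obtain ⟨C2, hC2, h2⟩ := sum_n6_tau_le (ε := ε / 2) (by linarith)
  refine ⟨C1 * C2, by positivity, ?_⟩
  intro A B hA hB S hS β M hM0 hM m hm
  have hm0 : (1 : ℝ) ≤ nm m := by exact_mod_cast nm_pos.mpr hm.ne_zero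
  have hA0 : (0 : ℝ) < A := by linarith
  have hB0 : (0 : ℝ) < B := by linarith
  have ht : 0 < (nm m : ℝ) ^ 3 / A := by positivity
  have hprim : ∀ b ∈ S, IsPrim b := fun b hb => ((LS2.mem_S (by linarith)).mp (hS hb)).2.1
  have s1 : ‖Im W A S β m‖ ≤ ∑ b1 ∈ S, ∑ b2 ∈ S, M ^ 2 * (n6 b2 *
      ‖V W b1 b2 ((nm m : ℝ) ^ 3 / A)‖) := by
    unfold Im
    refine (norm_sum_le _ _).trans (Finset.sum_le_sum fun b1 hb1 => ?_)
    refine (norm_sum_le _ _).trans (Finset.sum_le_sum fun b2 hb2 => ?_)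
    split_ifs
    · rw [norm_mul, norm_mul, norm_mul, RCLike.norm_conj, Complex.norm_real, Real.norm_eq_abs,
          abs_of_nonneg (n6_nonneg b2)]
      calc ‖β b1‖ * ‖β b2‖ * n6 b2 * ‖V W b1 b2 ((nm m : ℝ) ^ 3 / A)‖
          ≤ M * M * n6 b2 * ‖V W b1 b2 ((nm m : ℝ) ^ 3 / A)‖ := by
            have := hM b1 hb1
            have := hM b2 hb2
            have := n6_nonneg b2
            gcongr
        _ = _ := by ring
    · rw [norm_zero]
      have := n6_nonneg b2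
      positivity
  refine s1.trans ?_
  rw [Finset.sum_comm]
  have s2 : ∀ b2 ∈ S, ∑ b1 ∈ S, M ^ 2 * (n6 b2 * ‖V W b1 b2 ((nm m : ℝ) ^ 3 / A)‖)
      ≤ (M ^ 2 * (C1 * (B * (A * B) ^ (ε / 2)) * (A ^ κ *
          (nm m : ℝ) ^ (-(3 * κ))))) * (n6 b2 * (Div277.tau b2 : ℝ)) := by
    intro b2 hb2
    have s3 : ∑ b1 ∈ S, ‖V W b1 b2 ((nm m : ℝ) ^ 3 / A)‖ ≤
        (Div277.tau b2 : ℝ) * (C1 * (B * (A * B) ^ (ε / 2)) * (A ^ κ *
          (nm m : ℝ) ^ (-(3 * κ)))) := by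
      calc ∑ b1 ∈ S, ‖V W b1 b2 ((nm m : ℝ) ^ 3 / A)‖
          ≤ ∑ b1 ∈ S, ∑ d ∈ Div277.dvs b2, n6 d *
            ‖U W (d * b1) (1 / ((nm m : ℝ) ^ 3 / A * nm d))‖ :=
            Finset.sum_le_sum fun b1 hb1 => norm_V_le h (hprim b1 hb1) (hprim b2 hb2) ht
        _ = ∑ d ∈ Div277.dvs b2, n6 d * ∑ b1 ∈ S,
            ‖U W (d * b1) (1 / ((nm m : ℝ) ^ 3 / A * nm d))‖ := by
            rw [Finset.sum_comm]
            refine Finset.sum_congr rfl fun d _ => ?_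
            rw [Finset.mul_sum]
        _ ≤ #(Div277.dvs b2) • (C1 * (B * (A * B) ^ (ε / 2)) * (A ^ κ *
          (nm m : ℝ) ^ (-(3 * κ)))) :=
            Finset.sum_le_card_nsmul _ _ _ fun d hd =>
              h1 A B hA hB S hS m d hm (Div277.isPrim_of_mem_dvs hd)
        _ = _ := by rw [nsmul_eq_mul]; rfl
    rw [← Finset.mul_sum, ← Finset.mul_sum]
    calc M ^ 2 * (n6 b2 * ∑ b1 ∈ S, ‖V W b1 b2 ((nm m : ℝ) ^ 3 / A)‖)
        ≤ M ^ 2 * (n6 b2 * ((Div277.tau b2 : ℝ) * (C1 * (B * (A * B) ^ (ε / 2)) *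
          (A ^ κ * (nm m : ℝ) ^ (-(3 * κ)))))) := by
          have := n6_nonneg b2
          gcongr
      _ = _ := by ring
  refine (Finset.sum_le_sum s2).trans ?_
  rw [← Finset.mul_sum]
  have hBε : B ^ (ε / 2) ≤ (A * B) ^ (ε / 2) :=
    Real.rpow_le_rpow hB0.le (by nlinarith) (by linarith)
  calc M ^ 2 * (C1 * (B * (A * B) ^ (ε / 2)) * (A ^ κ *
          (nm m : ℝ) ^ (-(3 * κ)))) * ∑ b2 ∈ S, (n6 b2 * (Div277.tau b2 : ℝ))
      ≤ M ^ 2 * (C1 * (B * (A * B) ^ (ε / 2)) * (A ^ κ *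
          (nm m : ℝ) ^ (-(3 * κ)))) * (C2 * (B ^ (5 / 6 : ℝ) * (A * B) ^ (ε / 2))) := by
        gcongr
        refine (h2 B hB S hS).trans ?_
        gcongr
    _ = C1 * C2 * M ^ 2 * ((B * B ^ (5 / 6 : ℝ)) * A ^ κ) *
        ((A * B) ^ (ε / 2) * (A * B) ^ (ε / 2)) * (nm m : ℝ) ^ (-(3 * κ)) := by ring
    _ = _ := by
        have e1 : B * B ^ (5 / 6 : ℝ) = B ^ (11 / 6 : ℝ) := by
          rw [show (11 / 6 : ℝ) = 1 + 5 / 6 by norm_num, Real.rpow_add hB0, Real.rpow_one]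
        rw [e1, ← Real.rpow_add (by positivity : 0 < A * B), add_halves]

/-- **T6**: the cross term. -/
theorem norm_X6_le {W : ℝ → ℝ} {K : ℝ} (h : WB W K) (hT : TIW W) {ε : ℝ} (hε : 0 < ε) :
    ∃ C : ℝ, 0 ≤ C ∧ ∀ A B : ℝ, 1 ≤ A → 1 ≤ B → ∀ S : Finset Eis, S ⊆ LS2.S B →
      ∀ (β : Eis → ℂ) (M : ℝ), 0 ≤ M → (∀ b ∈ S, ‖β b‖ ≤ M) →
      ‖X6 W A S β‖ ≤ C * M ^ 2 * (B ^ (11 / 6 : ℝ) * A ^ (1 / 3 : ℝ)) * (A * B) ^ ε := by
  classical
  obtain ⟨δ, hδ0, hδ1, hδ2⟩ : ∃ δ : ℝ, 0 < δ ∧ δ ≤ 1 ∧ δ ≤ ε / 2 :=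
    ⟨min 1 (ε / 2), by positivity, min_le_left _ _, min_le_right _ _⟩
  obtain ⟨C1, hC1, h1⟩ := norm_Im_le h hT (ε := ε / 2) (by linarith) (κ := 1 / 3 + δ)
    (by linarith) (by linarith)
  have hsum := summable_nm (s := 3 * (1 / 3 + δ)) (by linarith)
  refine ⟨C1 * ∑' m : Eis, (nm m : ℝ) ^ (-(3 * (1 / 3 + δ))),
    mul_nonneg hC1 (tsum_nonneg fun _ => by positivity), ?_⟩
  intro A B hA hB S hS β M hM0 hM
  have hS' : ∀ b ∈ S, IsPrim b ∧ Squarefree b := fun b hb =>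
    ((LS2.mem_S (by linarith)).mp (hS hb)).2
  have hA0 : (0 : ℝ) < A := by linarith
  have hB0 : (0 : ℝ) < B := by linarith
  rw [X6_eq h hA0 hS' β]
  have h2 := hsum.hasSum.mul_left (C1 * M ^ 2 * (B ^ (11 / 6 : ℝ) * A ^ (1 / 3 + δ)) *
    (A * B) ^ (ε / 2))
  have h3 : ‖∑' m : Eis, if IsPrim m then Im W A S β m else 0‖ ≤
      (C1 * M ^ 2 * (B ^ (11 / 6 : ℝ) * A ^ (1 / 3 + δ)) * (A * B) ^ (ε / 2)) *
        ∑' m : Eis, (nm m : ℝ) ^ (-(3 * (1 / 3 + δ))) := by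
    refine tsum_of_norm_bounded h2 fun m => ?_
    split_ifs with hm
    · exact h1 A B hA hB S hS β M hM0 hM m hm
    · rw [norm_zero]
      positivity
  refine h3.trans ?_
  have e1 : A ^ (1 / 3 + δ) * (A * B) ^ (ε / 2) ≤ A ^ (1 / 3 : ℝ) * (A * B) ^ ε := by
    rw [Real.rpow_add hA0, mul_assoc]
    gcongr
    calc A ^ δ * (A * B) ^ (ε / 2) ≤ (A * B) ^ (ε / 2) * (A * B) ^ (ε / 2) := by
          gcongr
          calc A ^ δ ≤ (A * B) ^ δ := by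
                refine Real.rpow_le_rpow hA0.le ?_ hδ0.le
                nlinarith
            _ ≤ (A * B) ^ (ε / 2) := Real.rpow_le_rpow_of_exponent_le (by nlinarith) hδ2
      _ = (A * B) ^ ε := by rw [← Real.rpow_add (by positivity), add_halves]
  have hZ : 0 ≤ ∑' m : Eis, (nm m : ℝ) ^ (-(3 * (1 / 3 + δ))) := tsum_nonneg fun _ => by positivity
  calc (C1 * M ^ 2 * (B ^ (11 / 6 : ℝ) * A ^ (1 / 3 + δ)) * (A * B) ^ (ε / 2)) *
        ∑' m : Eis, (nm m : ℝ) ^ (-(3 * (1 / 3 + δ)))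
      = (C1 * ∑' m : Eis, (nm m : ℝ) ^ (-(3 * (1 / 3 + δ)))) * M ^ 2 * B ^ (11 / 6 : ℝ) *
        (A ^ (1 / 3 + δ) * (A * B) ^ (ε / 2)) := by ring
    _ ≤ (C1 * ∑' m : Eis, (nm m : ℝ) ^ (-(3 * (1 / 3 + δ)))) * M ^ 2 * B ^ (11 / 6 : ℝ) *
        (A ^ (1 / 3 : ℝ) * (A * B) ^ ε) := by gcongr
    _ = _ := by ring

end Crest.Agent.R012.Cross869
end
end

-- ▼ part R012/CrossD_869

/-!
# Row 12 (T6): the cross term of the dispersion, part D (form of `Spec_T_411`)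

* `pairSum_eq` : `Σ_{b₁,b₂} β₁ conj β₂ N(b₂)^(-1/6) P23 A b₁ b₂ = X6 exp(-·) A 𝓑 β`
  `= Σ_a [a primary] exp(-N(a)/A) D(a) conj (τ(a) E(a))`  (for `T0`).
* `t6_of_tif : T411.TIf → T411.T6`.
-/

set_option autoImplicit false

noncomputable section

open Finset

namespace Crest.Agent.R012.Cross869

open Crest.Agent.R012 Crest.Agent.R012.Eis Crest.Agent.R012.Tau85

lemma fm_eq_F (n : Eis) : fm n = T411.F n := by
  classical
  unfold fm T411.F T411.mdl n6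
  by_cases h : Squarefree n
  · rw [if_pos h, if_pos h]
  · rw [if_neg h, if_neg h]; simp

/-- the weight `exp(-x)` -/
def We (x : ℝ) : ℝ := Real.exp (-x)

lemma wb_We : WB We 4 := by
  refine ⟨by norm_num, fun x hx => ?_⟩
  unfold We
  rw [abs_of_pos (Real.exp_pos _)]
  have h1 : x / 2 + 1 ≤ Real.exp (x / 2) := Real.add_one_le_exp _
  have h2 : Real.exp (-x) * (Real.exp (x / 2) * Real.exp (x / 2)) = 1 := by
    rw [← Real.exp_add, ← Real.exp_add, ← Real.exp_zero]; congr 1; ring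
  have h3 : x ^ 2 ≤ 4 * (Real.exp (x / 2) * Real.exp (x / 2)) := by nlinarith
  have h4 := Real.exp_pos (-x)
  nlinarith

/-- The pair sum of `T411.T6` is the cross term. -/
theorem pairSum_eq {A : ℝ} (hA : 0 < A) {𝓑 : Finset Eis}
    (hS : ∀ b ∈ 𝓑, IsPrim b ∧ Squarefree b) (β : Eis → ℂ) :
    ∑ b₁ ∈ 𝓑, ∑ b₂ ∈ 𝓑, β b₁ * (starRingEnd ℂ) (β b₂) * ((nm b₂ : ℝ) ^ (-(1 : ℝ) / 6) : ℝ) *
      T411.P23 A b₁ b₂ = X6 We A 𝓑 β := by
  classical
  have hterm : ∀ b₁ b₂ : Eis, ∀ q : Eis × Eis,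
      (if T411.SqP q.1 ∧ IsPrim q.2 ∧ IsCoprime q.2 (b₁ * b₂) ∧ IsCoprime q.1 b₂ then
      ((Real.exp (-((nm q.1 : ℝ) * (nm q.2 : ℝ) ^ 3) / A) * (nm q.1 : ℝ) ^ (-(1 : ℝ) / 6) : ℝ) : ℂ) *
        T411.F (q.1 * b₁) else 0)
      = (if q ∈ TP then (if IsCoprime q.2 b₁ ∧ IsCoprime q.2 b₂ then
        (if IsCoprime q.1 b₂ then Pt We b₁ ((nm q.2 : ℝ) ^ 3 / A) q.1 else 0) else 0) else 0) := by
    intro b₁ b₂ q
    have hP : Pt We b₁ ((nm q.2 : ℝ) ^ 3 / A) q.1 =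
        ((Real.exp (-((nm q.1 : ℝ) * (nm q.2 : ℝ) ^ 3) / A) * (nm q.1 : ℝ) ^ (-(1 : ℝ) / 6) : ℝ) : ℂ) *
        T411.F (q.1 * b₁) := by
      unfold Pt We n6
      rw [fm_eq_F]
      congr 2
      rw [mul_comm, show -((nm q.1 : ℝ) * ((nm q.2 : ℝ) ^ 3 / A))
        = -((nm q.1 : ℝ) * (nm q.2 : ℝ) ^ 3) / A by ring, neg_div 6 (1 : ℝ)]
    rw [← hP]
    by_cases h1 : q ∈ TP
    · rw [if_pos h1]
      have h2 : T411.SqP q.1 := ⟨h1.1, h1.2.1⟩
      have h3 : IsPrim q.2 := h1.2.2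
      by_cases h4 : IsCoprime q.2 b₁ ∧ IsCoprime q.2 b₂
      · rw [if_pos h4]
        by_cases h5 : IsCoprime q.1 b₂
        · rw [if_pos h5, if_pos ⟨h2, h3, IsCoprime.mul_right h4.1 h4.2, h5⟩]
        · rw [if_neg h5, if_neg]
          rintro ⟨_, _, _, h6⟩
          exact h5 h6
      · rw [if_neg h4, if_neg]
        rintro ⟨_, _, h6, _⟩
        exact h4 (IsCoprime.mul_right_iff.mp h6)
    · rw [if_neg h1, if_neg]
      rintro ⟨h2, h3, _, _⟩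
      exact h1 ⟨h2.1, h2.2, h3⟩
  rw [X6_eq_pairs We A hS β]
  have hK := wb_We
  have h2 := summable_nm (s := 2) (by norm_num)
  have hsum : ∀ b₁ ∈ 𝓑, ∀ b₂ : Eis, Summable fun q : Eis × Eis =>
      (if q ∈ TP then (if IsCoprime q.2 b₁ ∧ IsCoprime q.2 b₂ then
        (if IsCoprime q.1 b₂ then Pt We b₁ ((nm q.2 : ℝ) ^ 3 / A) q.1 else 0) else 0) else 0) := by
    intro b₁ hb₁ b₂
    refine Summable.of_norm_bounded ((h2.mul_of_nonneg h2 (fun _ => by positivity)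
      (fun _ => by positivity)).mul_left (4 * Kf * A ^ 2)) fun q => ?_
    have hKf := Kf_pos.le
    split_ifs with hq h3 h4
    · have hm0 : (1 : ℝ) ≤ nm q.2 := by exact_mod_cast nm_pos.mpr hq.2.2.ne_zero
      have ht : (0 : ℝ) < (nm q.2 : ℝ) ^ 3 / A := by positivity
      refine (norm_Pt_le hK (hS b₁ hb₁).1 ht hq.1).trans ?_
      have h3 : (1 / ((nm q.2 : ℝ) ^ 3 / A)) ^ 2 ≤ A ^ 2 * (nm q.2 : ℝ) ^ (-(2 : ℝ)) := by
        rw [Real.rpow_neg (by positivity), show ((2 : ℝ)) = ((2 : ℕ) : ℝ) by norm_num,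
          Real.rpow_natCast, one_div_div, div_pow, div_eq_mul_inv]
        gcongr
        nlinarith [pow_le_pow_right₀ hm0 (show 1 ≤ 3 by norm_num),
          pow_pos (show (0 : ℝ) < nm q.2 by linarith) 3]
      calc 4 * Kf * (1 / ((nm q.2 : ℝ) ^ 3 / A)) ^ 2 * (nm q.1 : ℝ) ^ (-(2 : ℝ))
          ≤ 4 * Kf * (A ^ 2 * (nm q.2 : ℝ) ^ (-(2 : ℝ))) * (nm q.1 : ℝ) ^ (-(2 : ℝ)) := by
            gcongr
        _ = _ := by ring
    all_goals rw [norm_zero]; positivity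
  have h3 : ∀ b₁ ∈ 𝓑, ∀ b₂ ∈ 𝓑, β b₁ * (starRingEnd ℂ) (β b₂) *
      ((nm b₂ : ℝ) ^ (-(1 : ℝ) / 6) : ℝ) * T411.P23 A b₁ b₂ = ∑' q : Eis × Eis,
      (β b₁ * (starRingEnd ℂ) (β b₂) * (n6 b₂ : ℂ)) *
      (if q ∈ TP then (if IsCoprime q.2 b₁ ∧ IsCoprime q.2 b₂ then
        (if IsCoprime q.1 b₂ then Pt We b₁ ((nm q.2 : ℝ) ^ 3 / A) q.1 else 0) else 0) else 0) := by
    intro b₁ _ b₂ _
    rw [tsum_mul_left]
    unfold T411.P23
    rw [tsum_congr (hterm b₁ b₂)]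
    unfold n6
    rw [neg_div 6 (1 : ℝ)]
  rw [Finset.sum_congr rfl fun b₁ hb₁ => Finset.sum_congr rfl fun b₂ hb₂ => h3 b₁ hb₁ b₂ hb₂]
  rw [Finset.sum_congr rfl fun b₁ hb₁ => (Summable.tsum_finsetSum fun b₂ _ =>
    (hsum b₁ hb₁ b₂).mul_left _).symm]
  rw [(Summable.tsum_finsetSum fun b₁ hb₁ => summable_sum fun b₂ _ =>
    (hsum b₁ hb₁ b₂).mul_left _).symm]
  refine tsum_congr fun q => ?_
  unfold gP
  by_cases hq : q ∈ TP
  · rw [if_pos hq]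
    refine Finset.sum_congr rfl fun b₁ _ => Finset.sum_congr rfl fun b₂ _ => ?_
    rw [if_pos hq]
    split_ifs <;> simp
  · rw [if_neg hq]
    refine Finset.sum_eq_zero fun b₁ _ => Finset.sum_eq_zero fun b₂ _ => ?_
    rw [if_neg hq, mul_zero]

lemma tiw_of_tif (h : T411.TIf) : TIW We := by
  classical
  intro ε hε
  obtain ⟨C, hC, h1⟩ := h ε hε
  refine ⟨C, hC.le, ?_⟩
  intro R Y hR hY
  have hY0 : 0 < Y := by linarith
  have hR0 : 0 < R := by linarith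
  have h2 : ∀ r : Eis, U We r Y = ((Y ^ (-(1 / 6) : ℝ) : ℝ) : ℂ) * ∑' c : Eis, if IsPrim c then
    ((((nm c : ℝ) / Y) ^ (-(1 : ℝ) / 6) * Real.exp (-(nm c : ℝ) / Y) : ℝ) : ℂ) * T411.F (r * c)
      else 0 := by
    intro r
    unfold U
    rw [← tsum_mul_left]
    refine tsum_congr fun c => ?_
    split_ifs with hc
    · rw [fm_eq_F, ← mul_assoc, ← Complex.ofReal_mul]
      congr 2
      unfold n6 We
      rw [Real.div_rpow (Nat.cast_nonneg _) hY0.le, neg_div 6 (1 : ℝ), neg_div]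
      field_simp
    · rw [mul_zero]
  have h3 : ∑ r ∈ LS2.S R, ‖U We r Y‖ ^ 2 = (Y ^ (-(1 / 6) : ℝ)) ^ 2 *
      ∑ r ∈ LS2.S R, ‖∑' c : Eis, if IsPrim c then
    ((((nm c : ℝ) / Y) ^ (-(1 : ℝ) / 6) * Real.exp (-(nm c : ℝ) / Y) : ℝ) : ℂ) * T411.F (r * c)
      else 0‖ ^ 2 := by
    rw [Finset.mul_sum]
    refine Finset.sum_congr rfl fun r _ => ?_
    rw [h2, norm_mul, Complex.norm_real, Real.norm_eq_abs, abs_of_nonneg (by positivity), mul_pow]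
  rw [h3]
  have e1 : (Y ^ (-(1 / 6) : ℝ)) ^ 2 = Y ^ (-(1 / 3) : ℝ) := by
    rw [← Real.rpow_natCast, ← Real.rpow_mul hY0.le]; norm_num
  rw [e1]
  calc Y ^ (-(1 / 3) : ℝ) * ∑ r ∈ LS2.S R, ‖∑' c : Eis, if IsPrim c then
    ((((nm c : ℝ) / Y) ^ (-(1 : ℝ) / 6) * Real.exp (-(nm c : ℝ) / Y) : ℝ) : ℂ) * T411.F (r * c)
      else 0‖ ^ 2
      ≤ Y ^ (-(1 / 3) : ℝ) * (C * (R * Y) ^ (1 + ε)) := by
        gcongr
        exact h1 R Y hR hY
    _ = C * (R * (Y ^ (-(1 / 3) : ℝ) * Y)) * (R * Y) ^ ε := by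
        rw [Real.rpow_add (by positivity), Real.rpow_one]; ring
    _ = _ := by
        have e2 : Y ^ (-(1 / 3) : ℝ) * Y = Y ^ (2 / 3 : ℝ) := by
          nth_rw 2 [← Real.rpow_one Y]
          rw [← Real.rpow_add hY0]; norm_num
        rw [e2]

/-- **(T6)** from the type I estimate. -/
theorem t6_of_tif (h : T411.TIf) : T411.T6 := by
  classical
  intro ε hε
  obtain ⟨C, hC, h1⟩ := norm_X6_le wb_We (tiw_of_tif h) hε
  refine ⟨C * (2 ^ (11 / 6 : ℝ) * 2 ^ ε) + 1, by positivity, ?_⟩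
  intro A B 𝓑 β hA hB hcls
  have hA0 : (0 : ℝ) < A := by linarith
  have hB0 : (0 : ℝ) < B := by linarith
  have hS : ∀ b ∈ 𝓑, IsPrim b ∧ Squarefree b := fun b hb => hcls.sq b hb
  have hsub : 𝓑 ⊆ LS2.S (2 * B) := by
    intro b hb
    rw [LS2.mem_S (by linarith)]
    exact ⟨hcls.hi b hb, hS b hb⟩
  rw [pairSum_eq hA0 hS β]
  refine (h1 A (2 * B) hA (by linarith) 𝓑 hsub β 1 zero_le_one fun b _ => hcls.le b).trans ?_
  have e1 : (2 * B) ^ (11 / 6 : ℝ) = 2 ^ (11 / 6 : ℝ) * B ^ (11 / 6 : ℝ) :=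
    Real.mul_rpow (by norm_num) hB0.le
  have e2 : (A * (2 * B)) ^ ε = 2 ^ ε * (A * B) ^ ε := by
    rw [← Real.mul_rpow (by norm_num) (by positivity)]; congr 1; ring
  rw [e1, e2]
  have e3 : 0 ≤ (A * B) ^ ε * A ^ ((1 : ℝ) / 3) * B ^ ((11 : ℝ) / 6) := by positivity
  calc C * 1 ^ 2 * (2 ^ (11 / 6 : ℝ) * B ^ (11 / 6 : ℝ) * A ^ (1 / 3 : ℝ)) * (2 ^ ε * (A * B) ^ ε)
      = (C * (2 ^ (11 / 6 : ℝ) * 2 ^ ε)) *
        ((A * B) ^ ε * A ^ ((1 : ℝ) / 3) * B ^ ((11 : ℝ) / 6)) := by ring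
    _ ≤ (C * (2 ^ (11 / 6 : ℝ) * 2 ^ ε) + 1) *
        ((A * B) ^ ε * A ^ ((1 : ℝ) / 3) * B ^ ((11 : ℝ) / 6)) := by nlinarith
    _ = _ := by ring

end Crest.Agent.R012.Cross869
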