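import Crest.Agent.R012.Poisson_381
import Crest.Agent.R012.Quot_666

/-!
# Row 12: Poisson summation with Gaussian weights, residue classes and periodic functions

* `ftE_gauss`      : transform of `exp(-π t |z|²)`
* `poisson_gauss`  : `∑ₘ exp(-π t nm(q) |z₀ + m|²)`
* `poisson_gauss_class`, `poisson_gauss_periodic`
-/

set_option autoImplicit false

noncomputable section

open MeasureTheory Complex Set Filter Topology

namespace Crest.Agent.R012.Poisson381

open Eis

/-- the Gaussian `exp(-π t |z|²)` -/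
def gau (t : ℝ) (z : ℂ) : ℂ := ((Real.exp (-(Real.pi * t * ‖z‖ ^ 2)) : ℝ) : ℂ)

lemma continuous_gau (t : ℝ) : Continuous (gau t) := by
  unfold gau
  fun_prop

lemma norm_gau (t : ℝ) (z : ℂ) : ‖gau t z‖ = Real.exp (-(Real.pi * t * ‖z‖ ^ 2)) := by
  unfold gau
  rw [Complex.norm_real, Real.norm_of_nonneg (Real.exp_pos _).le]

lemma inner_eq (u z : ℂ) : inner ℝ ((starRingEnd ℂ) u) z = (z * u).re := by
  rw [Complex.inner]
  simp
  try ring

lemma ftE_gau {t : ℝ} (ht : 0 < t) (u : ℂ) :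
    ftE (gau t) u = (t⁻¹ : ℝ) * gau (4 / t) u := by
  have hb : 0 < ((Real.pi * t : ℝ) : ℂ).re := by
    rw [Complex.ofReal_re]; positivity
  have h := GaussianFourier.integral_cexp_neg_mul_sq_norm_add (V := ℂ) hb (-(4 * Real.pi * I))
    ((starRingEnd ℂ) u)
  unfold ftE
  have e1 : ∀ z : ℂ, gau t z * eC (-(z * u)) =
      cexp (-((Real.pi * t : ℝ) : ℂ) * ‖z‖ ^ 2 + -(4 * Real.pi * I) * (inner ℝ ((starRingEnd ℂ) u) z : ℝ)) := by
    intro z
    unfold gau eC
    rw [Complex.ofReal_exp, ← Complex.exp_add]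
    congr 1
    rw [inner_eq, Complex.add_conj]
    push_cast
    simp only [Complex.neg_re]
    push_cast
    ring
  simp_rw [e1]
  rw [h]
  have hfin : (Module.finrank ℝ ℂ : ℂ) / 2 = 1 := by
    rw [Complex.finrank_real_complex]; norm_num
  rw [hfin, Complex.cpow_one]
  unfold gau
  rw [Complex.ofReal_exp]
  have hpi : (Real.pi : ℂ) ≠ 0 := by exact_mod_cast Real.pi_ne_zero
  have ht' : (t : ℂ) ≠ 0 := by exact_mod_cast ht.ne'
  have hn : ‖(starRingEnd ℂ) u‖ = ‖u‖ := by simp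
  rw [hn]
  congr 1
  · push_cast
    field_simp
  · congr 1
    push_cast
    have hI : I ^ 2 = -1 := Complex.I_sq
    field_simp
    linear_combination ((‖u‖ : ℂ) ^ 2) * hI

lemma eqv_norm_le (h : Eis) : ‖eqv h‖ ≤ 2 * ‖toC h‖ := by
  have h1 := norm_le_of_lin (ic (eqv h))
  rwa [lin_ic_eqv, norm_ic] at h1

lemma summable_eis {b : ℝ} (hb : 2 < b) : Summable fun h : Eis => (1 + ‖toC h‖) ^ (-b) := by
  have h0 := (eqv.summable_iff (f := fun m : Z2 => (1 + ‖m‖) ^ (-b))).2 (summable_wt hb)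
  refine Summable.of_nonneg_of_le (fun m => by positivity) (fun m => ?_) (h0.mul_left (2 ^ b))
  simp only [Function.comp]
  have h1 := eqv_norm_le m
  have h2 : 0 < 1 + ‖eqv m‖ := by positivity
  have h3 : 0 < 1 + ‖toC m‖ := by positivity
  rw [Real.rpow_neg h3.le, Real.rpow_neg h2.le, ← div_eq_mul_inv, le_div_iff₀
    (Real.rpow_pos_of_pos h2 b), inv_mul_le_iff₀ (Real.rpow_pos_of_pos h3 b),
    ← Real.mul_rpow h3.le (by norm_num)]
  apply Real.rpow_le_rpow h2.le _ (by linarith)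
  linarith

/-- the decay constant -/
def gaK (t : ℝ) : ℝ := 8 * (1 + 2 / (Real.pi * t) ^ 2)

lemma gaK_pos (t : ℝ) : 0 < gaK t := by unfold gaK; positivity

lemma sq_mul_exp_neg_le {x : ℝ} (hx : 0 ≤ x) : x ^ 2 * Real.exp (-x) ≤ 2 := by
  have h1 := Real.quadratic_le_exp_of_nonneg hx
  rw [Real.exp_neg, ← div_eq_mul_inv, div_le_iff₀ (Real.exp_pos _)]
  nlinarith

lemma dec_gau {t : ℝ} (ht : 0 < t) : DecC (gaK t) 4 (gau t) := by
  intro z
  rw [norm_gau]
  have hr : 0 ≤ ‖z‖ := norm_nonneg z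
  set r := ‖z‖
  have h1 : 0 < 1 + r := by positivity
  rw [Real.rpow_neg h1.le, ← div_eq_mul_inv, le_div_iff₀ (Real.rpow_pos_of_pos h1 4)]
  have h4 : (1 + r) ^ (4 : ℝ) = (1 + r) ^ 4 := by
    rw [← Real.rpow_natCast]; norm_num
  rw [h4]
  have hpt : 0 < Real.pi * t := by positivity
  have h5 : (1 + r) ^ 4 ≤ 8 * (1 + r ^ 4) := by
    nlinarith [sq_nonneg (r - 1), sq_nonneg (r ^ 2 - 1), sq_nonneg (r * (r - 1)),
      mul_nonneg hr (sq_nonneg (r - 1))]
  have h6 : Real.exp (-(Real.pi * t * r ^ 2)) ≤ 1 := by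
    rw [Real.exp_le_one_iff]
    have : 0 ≤ Real.pi * t * r ^ 2 := by positivity
    linarith
  have h7 := sq_mul_exp_neg_le (x := Real.pi * t * r ^ 2) (by positivity)
  have h8 : Real.exp (-(Real.pi * t * r ^ 2)) * r ^ 4 ≤ 2 / (Real.pi * t) ^ 2 := by
    rw [le_div_iff₀ (by positivity)]
    calc Real.exp (-(Real.pi * t * r ^ 2)) * r ^ 4 * (Real.pi * t) ^ 2
        = (Real.pi * t * r ^ 2) ^ 2 * Real.exp (-(Real.pi * t * r ^ 2)) := by ring
      _ ≤ 2 := h7
  unfold gaK
  calc Real.exp (-(Real.pi * t * r ^ 2)) * (1 + r) ^ 4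
      ≤ Real.exp (-(Real.pi * t * r ^ 2)) * (8 * (1 + r ^ 4)) :=
        mul_le_mul_of_nonneg_left h5 (Real.exp_pos _).le
    _ = 8 * (Real.exp (-(Real.pi * t * r ^ 2)) + Real.exp (-(Real.pi * t * r ^ 2)) * r ^ 4) := by
        ring
    _ ≤ _ := by nlinarith

lemma summable_gau {t : ℝ} (ht : 0 < t) (c : ℂ) (hc : c ≠ 0) :
    Summable fun h : Eis => gau t (toC h * c) := by
  refine Summable.of_norm_bounded
    ((summable_eis (b := 4) (by norm_num)).mul_left (gaK (t * ‖c‖ ^ 2))) (fun h => ?_)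
  have hcn : 0 < ‖c‖ := norm_pos_iff.2 hc
  have h1 := dec_gau (t := t * ‖c‖ ^ 2) (by positivity) (toC h)
  have h2 : gau (t * ‖c‖ ^ 2) (toC h) = gau t (toC h * c) := by
    unfold gau
    congr 3
    rw [norm_mul]; ring
  rw [h2] at h1
  exact h1

lemma summable_gau_one {t : ℝ} (ht : 0 < t) : Summable fun h : Eis => gau t (toC h) := by
  simpa using summable_gau ht 1 one_ne_zero

lemma norm_eC (z : ℂ) : ‖eC z‖ = 1 := by
  unfold eC
  rw [Complex.norm_exp]
  have : (2 * Real.pi * Complex.I * (z + (starRingEnd ℂ) z) : ℂ)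
      = ((2 * Real.pi * (2 * z.re) : ℝ) : ℂ) * Complex.I := by
    rw [Complex.add_conj]; push_cast; ring
  rw [this]
  simp

lemma eC_add (z u : ℂ) : eC (z + u) = eC z * eC u := by
  unfold eC
  rw [← Complex.exp_add]
  congr 1
  rw [map_add]; ring

lemma eC_zero : eC 0 = 1 := by simp [eC]


lemma eC_div_s3 (z h : Eis) : eC (toC z * toC h / s3) = 1 := by
  have h1 := eC_pair (ic (eqv z)) h
  rw [lin_ic_eqv, ch_ic] at h1
  exact h1

lemma pmod_eC {q : Eis} (hq : q ≠ 0) (h : Eis) :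
    PMod q (fun a => eC (toC a * toC h / (toC q * s3))) := by
  intro x t
  beta_reduce
  have hqC : toC q ≠ 0 := by rwa [Ne, toC_eq_zero]
  have h3 := s3_ne_zero
  have e1 : toC (x + q * t) * toC h / (toC q * s3) =
      toC x * toC h / (toC q * s3) + toC t * toC h / s3 := by
    rw [map_add, map_mul]
    field_simp
  rw [e1, eC_add, eC_div_s3, mul_one]

/-- Poisson summation for the Gaussian. -/
theorem poisson_gau {t : ℝ} (ht : 0 < t) (z0 : ℂ) :
    HasSum (fun h : Eis => ((2 / Real.sqrt 3 * t⁻¹ : ℝ) : ℂ) *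
        (gau (4 / (3 * t)) (toC h) * eC (z0 * toC h / s3)))
      (∑' m : Eis, gau t (z0 + toC m)) := by
  have hF : ∀ h : Eis, ftE (gau t) (toC h / s3) = (t⁻¹ : ℝ) * gau (4 / (3 * t)) (toC h) := by
    intro h
    rw [ftE_gau ht]
    congr 1
    unfold gau
    congr 3
    rw [norm_div, norm_s3, div_pow, Real.sq_sqrt (by norm_num)]
    field_simp
  have hs : Summable fun h : Eis => ftE (gau t) (toC h / s3) := by
    simp_rw [hF]
    exact (summable_gau_one (by positivity)).mul_left _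
  have h := poissonE (continuous_gau t) (gaK_pos t).le (by norm_num) (dec_gau ht) hs z0
  refine h.congr_fun ?_ |> fun h => h
  intro m
  rw [hF]
  push_cast
  ring

/-- Poisson summation in a residue class. -/
theorem poisson_gau_class {t : ℝ} (ht : 0 < t) {q : Eis} (hq : q ≠ 0) (a : Eis) :
    HasSum (fun h : Eis => ((2 / Real.sqrt 3 * (t * nm q)⁻¹ : ℝ) : ℂ) *
        (gau (4 / (3 * (t * nm q))) (toC h) * eC (toC a * toC h / (toC q * s3))))
      (∑' m : Eis, gau t (toC (a + q * m))) := by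
  have hqn : 0 < (nm q : ℝ) := by exact_mod_cast nm_pos.2 hq
  have hqC : toC q ≠ 0 := by rwa [Ne, toC_eq_zero]
  have h := poisson_gau (t := t * nm q) (by positivity) (toC a / toC q)
  have h1 : ∀ m : Eis, gau (t * nm q) (toC a / toC q + toC m) = gau t (toC (a + q * m)) := by
    intro m
    unfold gau
    congr 3
    rw [map_add, map_mul]
    have : toC a + toC q * toC m = toC q * (toC a / toC q + toC m) := by
      field_simp
    rw [this, norm_mul, mul_pow, norm_toC_sq]
    ring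
  simp_rw [h1] at h
  refine h.congr_fun ?_ |> fun h => h
  intro m
  congr 3
  field_simp

/-- Poisson summation with a periodic factor. -/
theorem poisson_gau_periodic {t : ℝ} (ht : 0 < t) {q : Eis} (hq : q ≠ 0) {f : Eis → ℂ}
    (hf : PMod q f) :
    HasSum (fun h : Eis => ((2 / Real.sqrt 3 * (t * nm q)⁻¹ : ℝ) : ℂ) *
        (gau (4 / (3 * (t * nm q))) (toC h) *
          sumMod q (fun a => f a * eC (toC a * toC h / (toC q * s3)))))
      (∑' m : Eis, f m * gau t (toC m)) := by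
  have hqn : 0 < (nm q : ℝ) := by exact_mod_cast nm_pos.2 hq
  have hbd : ∃ B : ℝ, ∀ x, ‖f x‖ ≤ B := by
    refine ⟨∑ s ∈ crs q, ‖f s‖, fun x => ?_⟩
    obtain ⟨s, ⟨hs, hd⟩, -⟩ := isCRS_crs hq x
    rw [hf.congr hd]
    exact Finset.single_le_sum (f := fun s => ‖f s‖) (fun _ _ => norm_nonneg _) hs
  obtain ⟨B, hB⟩ := hbd
  have hs1 : Summable fun m : Eis => gau t (toC m) := summable_gau_one ht
  have hs2 : Summable fun m : Eis => f m * gau t (toC m) := by
    refine Summable.of_norm_bounded (hs1.norm.mul_left B) (fun m => ?_)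
    rw [norm_mul]
    exact mul_le_mul_of_nonneg_right (hB m) (norm_nonneg _)
  rw [tsum_periodic hq hf hs1 hs2]
  have hp1 : PMod q (fun a => f a * ∑' m : Eis, gau t (toC (a + q * m))) := by
    intro x s
    beta_reduce
    rw [hf]
    congr 1
    rw [← (Equiv.addRight s).tsum_eq (fun m : Eis => gau t (toC (x + q * m)))]
    exact tsum_congr fun m => by simp only [Equiv.coe_addRight]; ring_nf
  rw [sumMod_eq_sum (isCRS_crs hq) hp1]
  have h1 : ∀ h : Eis, sumMod q (fun a => f a * eC (toC a * toC h / (toC q * s3))) =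
      ∑ a ∈ crs q, f a * eC (toC a * toC h / (toC q * s3)) := by
    intro h
    exact sumMod_eq_sum (isCRS_crs hq) (hf.mul (pmod_eC hq h))
  simp_rw [h1]
  have h2 := hasSum_sum (s := crs q) (f := fun a (h : Eis) => f a *
    (((2 / Real.sqrt 3 * (t * nm q)⁻¹ : ℝ) : ℂ) *
        (gau (4 / (3 * (t * nm q))) (toC h) * eC (toC a * toC h / (toC q * s3)))))
    (a := fun a => f a * ∑' m : Eis, gau t (toC (a + q * m)))
    (fun a _ => (poisson_gau_class ht hq a).mul_left (f a))
  refine h2.congr_fun ?_ |> fun h => h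
  intro h
  rw [Finset.mul_sum, Finset.mul_sum]
  refine Finset.sum_congr rfl fun a _ => ?_
  ring

end Crest.Agent.R012.Poisson381
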