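import Crest.Agent.R012.Tau_671
import Crest.Agent.R012.Gauss_880
import Crest.Agent.R012.LS2Spec_381
import Crest.Agent.R012.PoissonG_381
import Crest.Agent.R012.CharSum_852
import Crest.Agent.R012.Mob_705

-- ▼ part R012/LS2Pr_381
section

/-!
# Row 12 (L2): finite sets of primary primes

* `IsPS P` : every element of `P` is a primary prime
* `pr P = ∏ p ∈ P, p`
* `sum_inclexcl` : the inclusion-exclusion identity used in the Poisson step
-/

set_option autoImplicit false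

noncomputable section

namespace Crest.Agent.R012.LS2

open Eis

/-- finite set of primary primes -/
def IsPS (P : Finset Eis) : Prop := ∀ p ∈ P, IsPrim p ∧ Prime p

/-- the product of the elements -/
def pr (P : Finset Eis) : Eis := ∏ p ∈ P, p

lemma IsPS.mono {P Q : Finset Eis} (hQ : IsPS Q) (h : P ⊆ Q) : IsPS P := fun p hp => hQ p (h hp)

@[simp] lemma pr_empty : pr ∅ = 1 := rfl


lemma IsPS.prim {P : Finset Eis} (hP : IsPS P) : IsPrim (pr P) := by
  classical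
  induction P using Finset.induction_on with
  | empty => exact isPrim_one
  | insert a s ha ih =>
    rw [pr, Finset.prod_insert ha]
    exact (hP a (Finset.mem_insert_self a s)).1.mul (ih (hP.mono (Finset.subset_insert a s)))

lemma IsPS.ne_zero {P : Finset Eis} (hP : IsPS P) : pr P ≠ 0 := hP.prim.ne_zero

lemma nm_pr (P : Finset Eis) : nm (pr P) = ∏ p ∈ P, nm p := by
  unfold pr
  exact map_prod nmHom (fun p => p) P

lemma pr_union {P Q : Finset Eis} [DecidableEq Eis] (h : Disjoint P Q) :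
    pr (P ∪ Q) = pr P * pr Q := by
  unfold pr
  exact Finset.prod_union h

lemma isCoprime_of_ne {p q : Eis} (hp : IsPrim p ∧ Prime p) (hq : IsPrim q ∧ Prime q)
    (h : p ≠ q) : IsCoprime p q := by
  rw [hp.2.coprime_iff_not_dvd]
  intro hd
  have := (hp.2.dvd_prime_iff_associated hq.2).1 hd
  exact h (hp.1.eq_of_associated hq.1 this)

lemma IsPS.coprime {P Q : Finset Eis} (hP : IsPS P) (hQ : IsPS Q) (h : Disjoint P Q) :
    IsCoprime (pr P) (pr Q) := by
  unfold pr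
  apply IsCoprime.prod_left
  intro p hp
  apply IsCoprime.prod_right
  intro q hq
  exact isCoprime_of_ne (hP p hp) (hQ q hq) (fun e => Finset.disjoint_left.1 h hp (e ▸ hq))

lemma IsPS.dvd_iff {P : Finset Eis} (hP : IsPS P) {p : Eis} (hp : IsPrim p ∧ Prime p) :
    p ∣ pr P ↔ p ∈ P := by
  constructor
  · intro h
    obtain ⟨q, hq, hd⟩ := (Prime.dvd_finsetProd_iff hp.2 (fun q => q)).1 h
    have := (hp.2.dvd_prime_iff_associated (hP q hq).2).1 hd
    rw [hp.1.eq_of_associated (hP q hq).1 this]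
    exact hq
  · intro h
    exact Finset.dvd_prod_of_mem (fun q => q) h


lemma IsPS.squarefree {P : Finset Eis} (hP : IsPS P) : Squarefree (pr P) := by
  classical
  induction P using Finset.induction_on with
  | empty => exact squarefree_one
  | insert a s ha ih =>
    have h1 := hP a (Finset.mem_insert_self a s)
    have h2 := ih (hP.mono (Finset.subset_insert a s))
    rw [pr, Finset.prod_insert ha]
    have h3 : IsCoprime a (pr s) := by
      rw [h1.2.coprime_iff_not_dvd]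
      intro hd
      exact ha (((hP.mono (Finset.subset_insert a s)).dvd_iff h1).1 hd)
    exact (squarefree_mul_iff).2 ⟨h3.isRelPrime, h1.2.squarefree, h2⟩

/-- `pr E ∣ m` iff every element of `E` divides `m`. -/
lemma IsPS.pr_dvd_iff {E : Finset Eis} (hE : IsPS E) (m : Eis) :
    pr E ∣ m ↔ ∀ p ∈ E, p ∣ m := by
  constructor
  · intro h p hp
    exact ((hE.dvd_iff (hE p hp)).2 hp).trans h
  · intro h
    unfold pr
    apply Finset.prod_dvd_of_coprime
    · intro p hp q hq hne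
      exact isCoprime_of_ne (hE p hp) (hE q hq) hne
    · exact h

lemma IsPS.isCoprime_iff {D : Finset Eis} (hD : IsPS D) (m : Eis) :
    IsCoprime m (pr D) ↔ ∀ p ∈ D, ¬ p ∣ m := by
  unfold pr
  rw [IsCoprime.prod_right_iff]
  constructor
  · intro h p hp hd
    exact ((hD p hp).2.coprime_iff_not_dvd.1 (h p hp).symm) hd
  · intro h p hp
    exact ((hD p hp).2.coprime_iff_not_dvd.2 (h p hp)).symm

open Classical in
/-- the indicator of coprimality by inclusion-exclusion -/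
lemma IsPS.indicator {D : Finset Eis} (hD : IsPS D) (m : Eis) :
    (if IsCoprime m (pr D) then (1 : ℂ) else 0) =
      ∑ E ∈ D.powerset, (-1) ^ E.card * (if pr E ∣ m then 1 else 0) := by
  have h1 : (if IsCoprime m (pr D) then (1 : ℂ) else 0) =
      ∏ p ∈ D, ((-(if p ∣ m then (1 : ℂ) else 0)) + 1) := by
    by_cases h : IsCoprime m (pr D)
    · rw [if_pos h]
      symm
      apply Finset.prod_eq_one
      intro p hp
      rw [if_neg ((hD.isCoprime_iff m).1 h p hp)]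
      simp
    · rw [if_neg h]
      rw [hD.isCoprime_iff] at h
      push Not at h
      obtain ⟨p, hp, hd⟩ := h
      symm
      apply Finset.prod_eq_zero hp
      rw [if_pos hd]; simp
  rw [h1, Finset.prod_add]
  refine Finset.sum_congr rfl fun E hE => ?_
  rw [Finset.prod_const_one, mul_one, Finset.prod_neg]
  congr 1
  have hES := hD.mono (Finset.mem_powerset.1 hE)
  by_cases h : pr E ∣ m
  · rw [if_pos h]
    apply Finset.prod_eq_one
    intro p hp
    rw [if_pos ((hES.pr_dvd_iff m).1 h p hp)]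
  · rw [if_neg h]
    rw [hES.pr_dvd_iff] at h
    push Not at h
    obtain ⟨p, hp, hd⟩ := h
    exact Finset.prod_eq_zero hp (if_neg hd)

open Classical in
/-- `∑_{D, F disjoint, D ∪ F ⊆ Q} (-1)^|F| X(D) = X(Q)`. -/
lemma sum_inclexcl {PS Q : Finset Eis} (hQ : Q ⊆ PS) (X : Finset Eis → ℂ) :
    ∑ D ∈ PS.powerset, ∑ F ∈ (PS \ D).powerset,
      (-1) ^ F.card * (if D ∪ F ⊆ Q then X D else 0) = X Q := by
  have h1 : ∀ D ∈ PS.powerset, ∑ F ∈ (PS \ D).powerset,
      (-1) ^ F.card * (if D ∪ F ⊆ Q then X D else 0) = if D = Q then X Q else 0 := by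
    intro D _
    by_cases hD : D ⊆ Q
    · have h2 : ∑ F ∈ (PS \ D).powerset, (-1) ^ F.card * (if D ∪ F ⊆ Q then X D else 0) =
          ∑ F ∈ (Q \ D).powerset, (-1) ^ F.card * X D := by
        symm
        apply Finset.sum_subset_zero_on_sdiff
        · exact Finset.powerset_mono.2 (Finset.sdiff_subset_sdiff hQ (Finset.Subset.refl D))
        · intro F hF
          rw [Finset.mem_sdiff, Finset.mem_powerset, Finset.mem_powerset] at hF
          rw [if_neg, mul_zero]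
          intro hu
          apply hF.2
          intro x hx
          rw [Finset.mem_sdiff]
          exact ⟨hu (Finset.mem_union_right D hx), (Finset.mem_sdiff.1 (hF.1 hx)).2⟩
        · intro F hF
          rw [Finset.mem_powerset] at hF
          rw [if_pos]
          exact Finset.union_subset hD (hF.trans Finset.sdiff_subset)
      rw [h2, ← Finset.sum_mul]
      have h3 := Finset.sum_powerset_neg_one_pow_card (x := Q \ D)
      have h4 : (∑ F ∈ (Q \ D).powerset, (-1 : ℂ) ^ F.card) =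
          ((∑ F ∈ (Q \ D).powerset, (-1 : ℤ) ^ F.card : ℤ) : ℂ) := by push_cast; rfl
      rw [h4, h3]
      by_cases hDQ : D = Q
      · subst hDQ; simp
      · rw [if_neg hDQ, if_neg]
        · simp
        · intro he
          apply hDQ
          exact Finset.Subset.antisymm hD (Finset.sdiff_eq_empty_iff_subset.1 he)
    · have hne : D ≠ Q := fun e => hD (e ▸ Finset.Subset.refl _)
      rw [if_neg hne]
      apply Finset.sum_eq_zero
      intro F _
      rw [if_neg, mul_zero]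
      exact fun hu => hD (Finset.union_subset_left hu)
  rw [Finset.sum_congr rfl h1, Finset.sum_ite_eq' PS.powerset Q (fun _ => X Q),
    if_pos (Finset.mem_powerset.2 hQ)]

end Crest.Agent.R012.LS2
end
end

-- ▼ part R012/LS2Pair_381
section

/-!
# Row 12 (L2): the exact dual identity (Gaussian weight, all numerators)

* `pair_coprime`  : two coprime squarefree primary moduli
* `pair_formula`  : two prime sets
* `dual_identity` : the full quadratic form
-/

set_option autoImplicit false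

noncomputable section

namespace Crest.Agent.R012.LS2

open Eis CharSum852 Gauss880 Tau671
open Poisson381 (gau norm_gau summable_gau_one summable_gau poisson_gau_periodic s3 s3_eq_toC)

/-- the dual coefficient -/
def U (e h k : Eis) : ℂ :=
  sy e k * sy sq3 k * (starRingEnd ℂ) (sy h k) * gs 1 k / (nm k : ℂ)

lemma toC_sq3 : toC sq3 = s3 := by
  rw [s3_eq_toC]
  congr 1

/-- `|sy m c|^2` -/
lemma sy_mul_conj_ite (H : SyFacts) {c : Eis} (hc : IsPrim c)
    (m : Eis) [Decidable (IsCoprime m c)] :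
    sy m c * (starRingEnd ℂ) (sy m c) = if IsCoprime m c then 1 else 0 := by
  by_cases h : IsCoprime m c
  · rw [if_pos h]
    exact sy_mul_star hc h
  · rw [if_neg h, Tau671.sy_eq_zero hc h, zero_mul]

theorem pair_coprime (H : SyFacts) (H' : SyG) {t : ℝ} (ht : 0 < t) {k1 k2 : Eis}
    (h1 : IsPrim k1) (h2 : IsPrim k2) (s1 : Squarefree k1) (s2 : Squarefree k2)
    (hcop : IsCoprime k1 k2) :
    HasSum (fun h : Eis => ((2 / Real.sqrt 3 * t⁻¹ : ℝ) : ℂ) *
      (gau (4 / (3 * (t * (nm k1 * nm k2)))) (toC h) * (U 1 h k1 * (starRingEnd ℂ) (U 1 h k2))))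
      (∑' m : Eis, (sy m k1 * (starRingEnd ℂ) (sy m k2)) * gau t (toC m)) := by
  have hq : k1 * k2 ≠ 0 := mul_ne_zero h1.ne_zero h2.ne_zero
  have hp : PMod (k1 * k2) (fun a => sy a k1 * (starRingEnd ℂ) (sy a k2)) :=
    ((pmod_sy h1).mono (dvd_mul_right _ _)).mul
      (((pmod_sy h2).comp (starRingEnd ℂ)).mono (dvd_mul_left _ _))
  have h := poisson_gau_periodic ht hq hp
  refine h.congr_fun ?_ |> fun h => h
  intro m
  have e1 : sumMod (k1 * k2) (fun a => sy a k1 * (starRingEnd ℂ) (sy a k2) *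
      eC (toC a * toC m / (toC (k1 * k2) * s3))) =
      sy sq3 k1 * (starRingEnd ℂ) (sy sq3 k2) * (gs m k1 * (starRingEnd ℂ) (gs m k2)) := by
    rw [← tau2_sq3 h1 h2 hcop m]
    refine sumMod_congr fun a => ?_
    rw [toC_sq3, mul_comm (toC a) (toC m), mul_comm (toC (k1 * k2)) s3]
  rw [e1, gs_squarefree H' h1 s1, gs_squarefree H' h2 s2]
  have n1 : (nm k1 : ℂ) ≠ 0 := by exact_mod_cast (nm_pos.2 h1.ne_zero).ne'
  have n2 : (nm k2 : ℂ) ≠ 0 := by exact_mod_cast (nm_pos.2 h2.ne_zero).ne'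
  have ht' : (t : ℂ) ≠ 0 := by exact_mod_cast ht.ne'
  have e2 : ((nm (k1 * k2) : ℕ) : ℝ) = (nm k1 : ℝ) * nm k2 := by rw [nm_mul]; push_cast; rfl
  rw [e2]
  unfold U
  rw [Gauss880.sy_one_left H' h1, Gauss880.sy_one_left H' h2]
  simp only [map_mul, map_div₀, Complex.conj_conj, map_natCast, one_mul]
  push_cast
  have h3 : ((Real.sqrt 3 : ℝ) : ℂ) ≠ 0 := by
    exact_mod_cast (Real.sqrt_pos.2 (by norm_num : (0:ℝ) < 3)).ne'
  field_simp

lemma U_eq (H' : SyG) {k : Eis} (hk : IsPrim k) (e h : Eis) : U e h k = sy e k * U 1 h k := by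
  unfold U
  rw [Gauss880.sy_one_left H' hk]
  ring

lemma gau_mul (t : ℝ) (e m : Eis) : gau t (toC (e * m)) = gau (t * nm e) (toC m) := by
  unfold Poisson381.gau
  congr 3
  rw [map_mul, norm_mul, mul_pow, norm_toC_sq]
  ring

lemma sy_bdd (H : SyFacts) {k1 k2 : Eis} (h1 : IsPrim k1) (h2 : IsPrim k2) (m : Eis) :
    ‖sy m k1 * (starRingEnd ℂ) (sy m k2)‖ ≤ 1 := by
  rw [norm_mul, RCLike.norm_conj]
  exact mul_le_one₀ (Tau671.norm_sy_le h1) (norm_nonneg _) (Tau671.norm_sy_le h2)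

lemma summable_pair (H : SyFacts) {t : ℝ} (ht : 0 < t) {k1 k2 : Eis}
    (h1 : IsPrim k1) (h2 : IsPrim k2) :
    Summable fun m : Eis => (sy m k1 * (starRingEnd ℂ) (sy m k2)) * gau t (toC m) := by
  refine Summable.of_norm_bounded (summable_gau_one ht).norm (fun m => ?_)
  rw [norm_mul]
  exact mul_le_of_le_one_left (norm_nonneg _) (sy_bdd H h1 h2 m)

open Classical in
theorem pair_dvd (H : SyFacts) (H' : SyG) {t : ℝ} (ht : 0 < t) {k1 k2 e : Eis}
    (h1 : IsPrim k1) (h2 : IsPrim k2) (s1 : Squarefree k1) (s2 : Squarefree k2)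
    (hcop : IsCoprime k1 k2) (he : e ≠ 0) :
    HasSum (fun h : Eis => ((2 / Real.sqrt 3 * (t * nm e)⁻¹ : ℝ) : ℂ) *
      (gau (4 / (3 * (t * nm e * (nm k1 * nm k2)))) (toC h) *
        (U e h k1 * (starRingEnd ℂ) (U e h k2))))
      (∑' m : Eis, (if e ∣ m then (1 : ℂ) else 0) *
        ((sy m k1 * (starRingEnd ℂ) (sy m k2)) * gau t (toC m))) := by
  have hne : 0 < (nm e : ℝ) := by exact_mod_cast nm_pos.2 he
  have h := (pair_coprime H H' (t := t * nm e) (by positivity) h1 h2 s1 s2 hcop).mul_left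
    (sy e k1 * (starRingEnd ℂ) (sy e k2))
  have e1 : (∑' m : Eis, (if e ∣ m then (1 : ℂ) else 0) *
        ((sy m k1 * (starRingEnd ℂ) (sy m k2)) * gau t (toC m))) =
      (sy e k1 * (starRingEnd ℂ) (sy e k2)) *
        ∑' m : Eis, (sy m k1 * (starRingEnd ℂ) (sy m k2)) * gau (t * nm e) (toC m) := by
    rw [← tsum_mul_left]
    have hinj : Function.Injective (fun m : Eis => e * m) := fun a b hab =>
      mul_left_cancel₀ he hab
    rw [← hinj.tsum_eq]
    · apply tsum_congr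
      intro m
      rw [if_pos (dvd_mul_right e m), one_mul, gau_mul, H.mul_left _ _ _ h1, H.mul_left _ _ _ h2,
        map_mul]
      ring
    · intro m hm
      by_contra hc
      apply hm
      beta_reduce
      rw [if_neg, zero_mul]
      rintro ⟨x, rfl⟩
      exact hc ⟨x, rfl⟩
  rw [e1]
  refine h.congr_fun ?_ |> fun h => h
  intro m
  rw [U_eq H' h1 e m, U_eq H' h2 e m, map_mul]
  ring

open Classical in
/-- **the pair formula** for two prime sets -/
theorem pair_formula (H : SyFacts) (H' : SyG) {t : ℝ} (ht : 0 < t) {P1 P2 : Finset Eis}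
    (hP1 : IsPS P1) (hP2 : IsPS P2) :
    ∑' m : Eis, (sy m (pr P1) * (starRingEnd ℂ) (sy m (pr P2))) * gau t (toC m) =
      ∑ E ∈ (P1 ∩ P2).powerset, (-1) ^ E.card *
        (((2 / Real.sqrt 3 * (t * nm (pr E))⁻¹ : ℝ) : ℂ) *
          ∑' h : Eis, gau (4 / (3 * (t * nm (pr E) *
              (nm (pr (P1 \ (P1 ∩ P2))) * nm (pr (P2 \ (P1 ∩ P2))))))) (toC h) *
            (U (pr E) h (pr (P1 \ (P1 ∩ P2))) *
              (starRingEnd ℂ) (U (pr E) h (pr (P2 \ (P1 ∩ P2)))))) := by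
  set D := P1 ∩ P2 with hD
  have hDS : IsPS D := hP1.mono Finset.inter_subset_left
  have hK1 : IsPS (P1 \ D) := hP1.mono Finset.sdiff_subset
  have hK2 : IsPS (P2 \ D) := hP2.mono Finset.sdiff_subset
  have hd1 : Disjoint D (P1 \ D) := Finset.disjoint_sdiff
  have hd2 : Disjoint D (P2 \ D) := Finset.disjoint_sdiff
  have hu1 : D ∪ (P1 \ D) = P1 := Finset.union_sdiff_of_subset Finset.inter_subset_left
  have hu2 : D ∪ (P2 \ D) = P2 := Finset.union_sdiff_of_subset Finset.inter_subset_right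
  have h12 : Disjoint (P1 \ D) (P2 \ D) := by
    rw [Finset.disjoint_left]
    intro p hp1 hp2
    rw [Finset.mem_sdiff] at hp1 hp2
    exact hp1.2 (Finset.mem_inter.2 ⟨hp1.1, hp2.1⟩)
  have e1 : ∀ m : Eis, (sy m (pr P1) * (starRingEnd ℂ) (sy m (pr P2))) * gau t (toC m) =
      ∑ E ∈ D.powerset, (-1) ^ E.card * ((if pr E ∣ m then (1 : ℂ) else 0) *
        ((sy m (pr (P1 \ D)) * (starRingEnd ℂ) (sy m (pr (P2 \ D)))) * gau t (toC m))) := by
    intro m
    have e2 := hDS.indicator m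
    rw [← sy_mul_conj_ite H hDS.prim m] at e2
    have e3 : sy m (pr P1) = sy m (pr D) * sy m (pr (P1 \ D)) := by
      rw [← H.mul_right _ _ _ hDS.prim hK1.prim, ← pr_union hd1, hu1]
    have e4 : sy m (pr P2) = sy m (pr D) * sy m (pr (P2 \ D)) := by
      rw [← H.mul_right _ _ _ hDS.prim hK2.prim, ← pr_union hd2, hu2]
    rw [e3, e4, map_mul]
    calc _ = (sy m (pr D) * (starRingEnd ℂ) (sy m (pr D))) *
          ((sy m (pr (P1 \ D)) * (starRingEnd ℂ) (sy m (pr (P2 \ D)))) * gau t (toC m)) := by ring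
      _ = _ := by
        rw [e2, Finset.sum_mul]
        refine Finset.sum_congr rfl fun E _ => by ring
  simp_rw [e1]
  have hsum : ∀ E : Finset Eis, Summable fun m : Eis => (-1 : ℂ) ^ E.card *
      ((if pr E ∣ m then (1 : ℂ) else 0) *
        ((sy m (pr (P1 \ D)) * (starRingEnd ℂ) (sy m (pr (P2 \ D)))) * gau t (toC m))) := by
    intro E
    refine Summable.of_norm_bounded (summable_gau_one ht).norm (fun m => ?_)
    rw [norm_mul, norm_mul, norm_mul, norm_pow, norm_neg, norm_one, one_pow, one_mul]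
    have b1 : ‖(if pr E ∣ m then (1 : ℂ) else 0)‖ ≤ 1 := by split_ifs <;> simp
    have b2 := sy_bdd H hK1.prim hK2.prim m
    calc _ ≤ 1 * (1 * ‖gau t (toC m)‖) := by gcongr
      _ = _ := by ring
  rw [Summable.tsum_finsetSum (fun E _ => hsum E)]
  refine Finset.sum_congr rfl fun E hE => ?_
  have hES : IsPS E := hDS.mono (Finset.mem_powerset.1 hE)
  rw [tsum_mul_left]
  congr 1
  rw [← (pair_dvd H H' ht hK1.prim hK2.prim hK1.squarefree hK2.squarefree
    (hK1.coprime hK2 h12) hES.ne_zero).tsum_eq, tsum_mul_left]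

/-- `∑ c_P sy m (pr P)` -/
def lin1 (PS : Finset Eis) (c : Finset Eis → ℂ) (m : Eis) : ℂ :=
  ∑ P ∈ PS.powerset, c P * sy m (pr P)

open Classical in
/-- the prime sets `P ⊆ PS` containing `D ∪ F` -/
def AA (PS D F : Finset Eis) : Finset (Finset Eis) := PS.powerset.filter (fun P => D ∪ F ⊆ P)

open Classical in
/-- the dual vector -/
def VV (c : Finset Eis → ℂ) (D E : Finset Eis) (h : Eis) (P : Finset Eis) : ℂ :=
  c P * U (pr E) h (pr (P \ D))

open Classical in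
/-- the dual quadratic form at the frequency `h` -/
def QQ (t : ℝ) (PS : Finset Eis) (c : Finset Eis → ℂ) (D F E : Finset Eis) (h : Eis) : ℂ :=
  ∑ P1 ∈ AA PS D F, ∑ P2 ∈ AA PS D F,
    gau (4 / (3 * (t * nm (pr E) * (nm (pr (P1 \ D)) * nm (pr (P2 \ D)))))) (toC h) *
      (VV c D E h P1 * (starRingEnd ℂ) (VV c D E h P2))

lemma norm_U_le (H : SyFacts) (H' : SyG) {k : Eis} (hk : IsPrim k) (hs : Squarefree k) (e h : Eis) :
    ‖U e h k‖ ≤ 1 / Real.sqrt (nm k) := by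
  unfold U
  have hk0 : 0 < (nm k : ℝ) := by exact_mod_cast nm_pos.2 hk.ne_zero
  rw [norm_div, norm_mul, norm_mul, norm_mul, RCLike.norm_conj,
    norm_gs H' hk hs isCoprime_one_left, Complex.norm_natCast]
  have b1 := Tau671.norm_sy_le hk (x := e)
  have b2 := Tau671.norm_sy_le hk (x := sq3)
  have b3 := Tau671.norm_sy_le hk (x := h)
  have hsq : Real.sqrt (nm k) * Real.sqrt (nm k) = nm k := Real.mul_self_sqrt hk0.le
  have hsp : 0 < Real.sqrt (nm k) := Real.sqrt_pos.2 hk0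
  rw [div_le_div_iff₀ hk0 hsp, one_mul]
  have : ‖sy e k‖ * ‖sy sq3 k‖ * ‖sy h k‖ ≤ 1 := by
    have := mul_le_one₀ b1 (norm_nonneg _) b2
    exact mul_le_one₀ this (norm_nonneg _) b3
  calc ‖sy e k‖ * ‖sy sq3 k‖ * ‖sy h k‖ * Real.sqrt (nm k) * Real.sqrt (nm k)
      = (‖sy e k‖ * ‖sy sq3 k‖ * ‖sy h k‖) * (Real.sqrt (nm k) * Real.sqrt (nm k)) := by ring
    _ = (‖sy e k‖ * ‖sy sq3 k‖ * ‖sy h k‖) * (nm k : ℝ) := by rw [hsq]
    _ ≤ 1 * (nm k : ℝ) := by gcongr
    _ = _ := one_mul _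

lemma norm_U_le_one (H : SyFacts) (H' : SyG) {k : Eis} (hk : IsPrim k) (hs : Squarefree k)
    (e h : Eis) : ‖U e h k‖ ≤ 1 := by
  refine (norm_U_le H H' hk hs e h).trans ?_
  have hk1 : (1 : ℝ) ≤ nm k := by exact_mod_cast nm_pos.2 hk.ne_zero
  rw [div_le_one (Real.sqrt_pos.2 (by linarith))]
  exact Real.one_le_sqrt.2 hk1

lemma summable_term (H : SyFacts) (H' : SyG) {t : ℝ} (ht : 0 < t) {k1 k2 : Eis}
    (h1 : IsPrim k1) (h2 : IsPrim k2) (s1 : Squarefree k1) (s2 : Squarefree k2) (e : Eis) (a b : ℂ) :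
    Summable fun h : Eis => gau t (toC h) * ((a * U e h k1) * (starRingEnd ℂ) (b * U e h k2)) := by
  refine Summable.of_norm_bounded ((summable_gau_one ht).norm.mul_right (‖a‖ * ‖b‖)) (fun m => ?_)
  rw [norm_mul, norm_mul, norm_mul, RCLike.norm_conj, norm_mul]
  have b1 := norm_U_le_one H H' h1 s1 e m
  have b2 := norm_U_le_one H H' h2 s2 e m
  have : ‖a‖ * ‖U e m k1‖ * (‖b‖ * ‖U e m k2‖) ≤ ‖a‖ * 1 * (‖b‖ * 1) := by gcongr
  calc _ ≤ ‖gau t (toC m)‖ * (‖a‖ * 1 * (‖b‖ * 1)) := by gcongr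
    _ = _ := by ring

open Classical in
lemma mem_AA {PS D F P : Finset Eis} : P ∈ AA PS D F ↔ P ⊆ PS ∧ D ∪ F ⊆ P := by
  unfold AA
  rw [Finset.mem_filter, Finset.mem_powerset]


open Classical in
/-- **the exact dual identity** -/
theorem dual_identity (H : SyFacts) (H' : SyG) {t : ℝ} (ht : 0 < t) {PS : Finset Eis}
    (hPS : IsPS PS) (c : Finset Eis → ℂ) :
    ∑' m : Eis, ((‖lin1 PS c m‖ ^ 2 : ℝ) : ℂ) * gau t (toC m) =
      ∑ D ∈ PS.powerset, ∑ F ∈ (PS \ D).powerset, ∑ E ∈ D.powerset,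
        (-1) ^ F.card * ((-1) ^ E.card * (((2 / Real.sqrt 3 * (t * nm (pr E))⁻¹ : ℝ) : ℂ) *
          ∑' h : Eis, QQ t PS c D F E h)) := by
  -- the summand for fixed `D, E, P1, P2`
  set Φ : Finset Eis → Finset Eis → Finset Eis → Finset Eis → ℂ := fun D E P1 P2 =>
    ((2 / Real.sqrt 3 * (t * nm (pr E))⁻¹ : ℝ) : ℂ) *
      ∑' h : Eis, gau (4 / (3 * (t * nm (pr E) * (nm (pr (P1 \ D)) * nm (pr (P2 \ D)))))) (toC h) *
        (VV c D E h P1 * (starRingEnd ℂ) (VV c D E h P2)) with hΦ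
  have hsq : ∀ m : Eis, ((‖lin1 PS c m‖ ^ 2 : ℝ) : ℂ) * gau t (toC m) =
      ∑ P1 ∈ PS.powerset, ∑ P2 ∈ PS.powerset, (c P1 * (starRingEnd ℂ) (c P2)) *
        ((sy m (pr P1) * (starRingEnd ℂ) (sy m (pr P2))) * gau t (toC m)) := by
    intro m
    have : ((‖lin1 PS c m‖ ^ 2 : ℝ) : ℂ) = lin1 PS c m * (starRingEnd ℂ) (lin1 PS c m) := by
      rw [Complex.mul_conj, Complex.normSq_eq_norm_sq]
    rw [this]
    unfold lin1
    rw [map_sum, Finset.sum_mul_sum, Finset.sum_mul]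
    refine Finset.sum_congr rfl fun P1 _ => ?_
    rw [Finset.sum_mul]
    refine Finset.sum_congr rfl fun P2 _ => ?_
    rw [map_mul]; ring
  simp_rw [hsq]
  have hs : ∀ P1 ∈ PS.powerset, ∀ P2 ∈ PS.powerset, Summable fun m : Eis =>
      (c P1 * (starRingEnd ℂ) (c P2)) *
        ((sy m (pr P1) * (starRingEnd ℂ) (sy m (pr P2))) * gau t (toC m)) := by
    intro P1 h1 P2 h2
    exact (summable_pair H ht (hPS.mono (Finset.mem_powerset.1 h1)).prim
      (hPS.mono (Finset.mem_powerset.1 h2)).prim).mul_left _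
  rw [Summable.tsum_finsetSum (fun P1 h1 => summable_sum fun P2 h2 => hs P1 h1 P2 h2)]
  have e1 : ∀ P1 ∈ PS.powerset, ∑' m : Eis, ∑ P2 ∈ PS.powerset,
      (c P1 * (starRingEnd ℂ) (c P2)) *
        ((sy m (pr P1) * (starRingEnd ℂ) (sy m (pr P2))) * gau t (toC m)) =
      ∑ P2 ∈ PS.powerset, ∑ E ∈ (P1 ∩ P2).powerset, (-1) ^ E.card * Φ (P1 ∩ P2) E P1 P2 := by
    intro P1 h1
    rw [Summable.tsum_finsetSum (fun P2 h2 => hs P1 h1 P2 h2)]
    refine Finset.sum_congr rfl fun P2 h2 => ?_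
    rw [tsum_mul_left, pair_formula H H' ht (hPS.mono (Finset.mem_powerset.1 h1))
      (hPS.mono (Finset.mem_powerset.1 h2)), Finset.mul_sum]
    refine Finset.sum_congr rfl fun E hE => ?_
    rw [hΦ]
    simp only
    rw [← tsum_mul_left, ← tsum_mul_left, ← tsum_mul_left, ← tsum_mul_left, ← tsum_mul_left]
    apply tsum_congr
    intro m
    unfold VV
    rw [map_mul]
    ring
  rw [Finset.sum_congr rfl e1]
  -- inclusion-exclusion
  have e2 : ∀ P1 ∈ PS.powerset, ∀ P2 ∈ PS.powerset,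
      ∑ E ∈ (P1 ∩ P2).powerset, (-1) ^ E.card * Φ (P1 ∩ P2) E P1 P2 =
      ∑ D ∈ PS.powerset, ∑ F ∈ (PS \ D).powerset,
        (-1) ^ F.card * (if D ∪ F ⊆ P1 ∩ P2 then
          ∑ E ∈ D.powerset, (-1) ^ E.card * Φ D E P1 P2 else 0) := by
    intro P1 h1 P2 h2
    rw [sum_inclexcl (Q := P1 ∩ P2)
      (Finset.inter_subset_left.trans (Finset.mem_powerset.1 h1))
      (fun D => ∑ E ∈ D.powerset, (-1) ^ E.card * Φ D E P1 P2)]
  rw [Finset.sum_congr rfl fun P1 h1 => Finset.sum_congr rfl fun P2 h2 => e2 P1 h1 P2 h2]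
  rw [Finset.sum_congr rfl fun P1 _ => Finset.sum_comm]
  rw [Finset.sum_comm]
  refine Finset.sum_congr rfl fun D hD => ?_
  rw [Finset.sum_congr rfl fun P1 _ => Finset.sum_comm]
  rw [Finset.sum_comm]
  refine Finset.sum_congr rfl fun F hF => ?_
  -- both sides
  have e3 : ∀ E ∈ D.powerset, ∑' h : Eis, QQ t PS c D F E h =
      ∑ P1 ∈ AA PS D F, ∑ P2 ∈ AA PS D F, ∑' h : Eis,
        gau (4 / (3 * (t * nm (pr E) * (nm (pr (P1 \ D)) * nm (pr (P2 \ D)))))) (toC h) *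
          (VV c D E h P1 * (starRingEnd ℂ) (VV c D E h P2)) := by
    intro E hE
    have hES : IsPS E := hPS.mono ((Finset.mem_powerset.1 hE).trans (Finset.mem_powerset.1 hD))
    unfold QQ
    have hs2 : ∀ P1 ∈ AA PS D F, ∀ P2 ∈ AA PS D F, Summable fun h : Eis =>
        gau (4 / (3 * (t * nm (pr E) * (nm (pr (P1 \ D)) * nm (pr (P2 \ D)))))) (toC h) *
          (VV c D E h P1 * (starRingEnd ℂ) (VV c D E h P2)) := by
      intro P1 h1 P2 h2
      have hk1 : IsPS (P1 \ D) := hPS.mono (Finset.sdiff_subset.trans (mem_AA.1 h1).1)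
      have hk2 : IsPS (P2 \ D) := hPS.mono (Finset.sdiff_subset.trans (mem_AA.1 h2).1)
      have n1 : 0 < (nm (pr (P1 \ D)) : ℝ) := by exact_mod_cast nm_pos.2 hk1.ne_zero
      have n2 : 0 < (nm (pr (P2 \ D)) : ℝ) := by exact_mod_cast nm_pos.2 hk2.ne_zero
      have n3 : 0 < (nm (pr E) : ℝ) := by exact_mod_cast nm_pos.2 hES.ne_zero
      exact summable_term H H' (by positivity) hk1.prim hk2.prim hk1.squarefree hk2.squarefree
        _ _ _
    rw [Summable.tsum_finsetSum (fun P1 h1 => summable_sum fun P2 h2 => hs2 P1 h1 P2 h2)]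
    refine Finset.sum_congr rfl fun P1 h1 => ?_
    rw [Summable.tsum_finsetSum (fun P2 h2 => hs2 P1 h1 P2 h2)]
  have e4 : ∀ P1 P2 : Finset Eis, (D ∪ F ⊆ P1 ∩ P2) ↔ (D ∪ F ⊆ P1 ∧ D ∪ F ⊆ P2) := fun P1 P2 =>
    Finset.subset_inter_iff
  calc ∑ P1 ∈ PS.powerset, ∑ P2 ∈ PS.powerset, (-1) ^ F.card * (if D ∪ F ⊆ P1 ∩ P2 then
          ∑ E ∈ D.powerset, (-1) ^ E.card * Φ D E P1 P2 else 0)
      = ∑ P1 ∈ AA PS D F, ∑ P2 ∈ AA PS D F, (-1) ^ F.card *
          ∑ E ∈ D.powerset, (-1) ^ E.card * Φ D E P1 P2 := by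
        unfold AA
        rw [Finset.sum_filter]
        refine Finset.sum_congr rfl fun P1 _ => ?_
        by_cases h1 : D ∪ F ⊆ P1
        · rw [if_pos h1, Finset.sum_filter]
          refine Finset.sum_congr rfl fun P2 _ => ?_
          by_cases h2 : D ∪ F ⊆ P2
          · rw [if_pos h2, if_pos ((e4 P1 P2).2 ⟨h1, h2⟩)]
          · rw [if_neg h2, if_neg (fun h => h2 ((e4 P1 P2).1 h).2), mul_zero]
        · rw [if_neg h1]
          apply Finset.sum_eq_zero
          intro P2 _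
          rw [if_neg (fun h => h1 ((e4 P1 P2).1 h).1), mul_zero]
    _ = ∑ E ∈ D.powerset, ∑ P1 ∈ AA PS D F, ∑ P2 ∈ AA PS D F, (-1) ^ F.card *
          ((-1) ^ E.card * Φ D E P1 P2) := by
        rw [Finset.sum_comm' (s := D.powerset) (t := fun _ => AA PS D F)
          (t' := AA PS D F) (s' := fun _ => D.powerset) (by intros; tauto)]
        refine Finset.sum_congr rfl fun P1 _ => ?_
        rw [Finset.sum_comm]
        refine Finset.sum_congr rfl fun P2 _ => ?_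
        rw [Finset.mul_sum]
    _ = _ := by
        refine Finset.sum_congr rfl fun E hE => ?_
        rw [e3 E hE, Finset.mul_sum, Finset.mul_sum, Finset.mul_sum]
        refine Finset.sum_congr rfl fun P1 _ => ?_
        rw [Finset.mul_sum, Finset.mul_sum, Finset.mul_sum]

end Crest.Agent.R012.LS2
end
end

-- ▼ part R012/LS2Elt_381
section

/-!
# Row 12 (L2): the exact dual identity, element form

`dual_identity_elt` : for `w : Eis → ℂ`, `X, Z > 0`,
`∑' n, exp(-nm n/Z) ‖∑ h ∈ S X, w h sy n h‖² = ∑ d ∈ S X, ∑ e ∈ pdiv d, ∑ f ∈ S X,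
  mu e mu f (2πZ/(√3 nm e)) ∑' l, qf ...`.
-/

set_option autoImplicit false

noncomputable section

namespace Crest.Agent.R012.LS2

open Eis CharSum852 Gauss880 Tau671 Mob705
open Poisson381 (gau norm_gau summable_gau_one summable_gau poisson_gau_periodic s3 s3_eq_toC)

open Classical in
/-- primary primes of norm at most `X` -/
def PX (X : ℝ) : Finset Eis := (primBall ⌊X⌋₊).filter Prime

lemma mem_PX {X : ℝ} (hX : 0 ≤ X) {p : Eis} : p ∈ PX X ↔ (nm p : ℝ) ≤ X ∧ IsPrim p ∧ Prime p := by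
  classical
  unfold PX
  rw [Finset.mem_filter, mem_primBall, Nat.le_floor_iff hX]
  tauto

lemma isPS_PX {X : ℝ} (hX : 0 ≤ X) : IsPS (PX X) := fun _ hp => ((mem_PX hX).1 hp).2

lemma isPS_pp (h : Eis) : IsPS (pp h) := fun _ hp => isPP_of_mem_pp hp

lemma pp_subset_PX {X : ℝ} (hX : 0 ≤ X) {h : Eis} (hh : h ∈ S X) : pp h ⊆ PX X := by
  intro p hp
  rw [mem_S hX] at hh
  rw [mem_PX hX]
  refine ⟨le_trans ?_ hh.1, isPP_of_mem_pp hp⟩
  exact_mod_cast Div277.nm_le_of_dvd hh.2.1.ne_zero (dvd_of_mem_pp hp)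

lemma pr_pp {X : ℝ} (hX : 0 ≤ X) {h : Eis} (hh : h ∈ S X) : pr (pp h) = h := by
  rw [mem_S hX] at hh
  exact prod_pp hh.2.1 hh.2.2

lemma pr_pp' {h : Eis} (h1 : IsPrim h) (h2 : Squarefree h) : pr (pp h) = h := prod_pp h1 h2

lemma pp_pr {P : Finset Eis} (hP : IsPS P) : pp (pr P) = P := PPSet.pp_prod (S := P) hP

lemma pr_mem_S {X : ℝ} (hX : 0 ≤ X) {P : Finset Eis} (hP : IsPS P) :
    pr P ∈ S X ↔ (nm (pr P) : ℝ) ≤ X := by
  rw [mem_S hX]
  exact ⟨fun h => h.1, fun h => ⟨h, hP.prim, hP.squarefree⟩⟩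

/-- sums over prime sets as sums over squarefree primary elements -/
lemma sum_powerset_S {X : ℝ} (hX : 0 ≤ X) (g : Finset Eis → ℂ)
    (hg : ∀ P ⊆ PX X, X < (nm (pr P) : ℝ) → g P = 0) :
    ∑ P ∈ (PX X).powerset, g P = ∑ h ∈ S X, g (pp h) := by
  classical
  have h1 : ∑ P ∈ (PX X).powerset, g P =
      ∑ P ∈ (PX X).powerset.filter (fun P => pr P ∈ S X), g P := by
    symm
    apply Finset.sum_filter_of_ne
    intro P hP hne
    rw [Finset.mem_powerset] at hP
    rw [pr_mem_S hX ((isPS_PX hX).mono hP)]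
    by_contra hc
    exact hne (hg P hP (not_le.1 hc))
  rw [h1]
  refine Finset.sum_nbij' (fun P => pr P) (fun h => pp h) ?_ ?_ ?_ ?_ ?_
  · intro P hP
    exact (Finset.mem_filter.1 hP).2
  · intro h hh
    rw [Finset.mem_filter, Finset.mem_powerset]
    exact ⟨pp_subset_PX hX hh, by rw [pr_pp hX hh]; exact hh⟩
  · intro P hP
    rw [Finset.mem_filter, Finset.mem_powerset] at hP
    exact pp_pr ((isPS_PX hX).mono hP.1)
  · intro h hh
    exact pr_pp hX hh
  · intro P hP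
    rw [Finset.mem_filter, Finset.mem_powerset] at hP
    rw [pp_pr ((isPS_PX hX).mono hP.1)]

open Classical in
/-- `w` restricted to `S X` -/
def ws (w : Eis → ℂ) (X : ℝ) (h : Eis) : ℂ := if h ∈ S X then w h else 0

/-- element form of the dual coefficient -/
def Ue (e l k : Eis) : ℂ :=
  sy (e * sq3) k * (starRingEnd ℂ) (sy l k) * G k * (nm k : ℂ) ^ (-(1 / 2) : ℂ)

lemma Ue_eq (H : SyG) {k : Eis} (hk : IsPrim k) (e l : Eis) : Ue e l k = U e l k := by
  unfold Ue U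
  have hn : 0 < (nm k : ℝ) := by exact_mod_cast nm_pos.2 hk.ne_zero
  rw [H.mul_left _ _ _ hk, gs_one_eq hk]
  have h1 : ((nm k : ℕ) : ℂ) ^ (-(1 / 2) : ℂ) = ((Real.sqrt (nm k) : ℝ) : ℂ) / (nm k : ℂ) := by
    have e1 : ((nm k : ℕ) : ℂ) = (((nm k : ℕ) : ℝ) : ℂ) := by push_cast; rfl
    rw [e1]
    have e2 : (-(1 / 2) : ℂ) = ((-(1 / 2) : ℝ) : ℂ) := by push_cast; rfl
    rw [e2, ← Complex.ofReal_cpow hn.le, ← Complex.ofReal_div]
    congr 1
    rw [Real.rpow_neg hn.le, ← Real.sqrt_eq_rpow]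
    have h3 : Real.sqrt (nm k) * Real.sqrt (nm k) = nm k := Real.mul_self_sqrt hn.le
    have h4 : 0 < Real.sqrt (nm k) := Real.sqrt_pos.2 hn
    rw [inv_eq_one_div, div_eq_div_iff h4.ne' hn.ne', one_mul, h3]
  rw [h1]
  ring

open Classical in
/-- the dual quadratic form -/
def qf (w : Eis → ℂ) (X Z : ℝ) (d e f l : Eis) : ℂ :=
  ∑ k1 ∈ S X, ∑ k2 ∈ S X, ws w X (d * f * k1) * (starRingEnd ℂ) (ws w X (d * f * k2)) *
    (Ue e l (f * k1) * (starRingEnd ℂ) (Ue e l (f * k2))) *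
    ((Real.exp (-(4 * Real.pi ^ 2 * Z * nm l) / (3 * nm e * nm (f * k1) * nm (f * k2))) : ℝ) : ℂ)

lemma sum_AA {X : ℝ} (hX : 0 ≤ X) {d f : Eis} (hd : d ∈ S X) (hf : f ∈ S X)
    (hdf : Disjoint (pp d) (pp f)) (g : Finset Eis → ℂ)
    (hg : ∀ P ⊆ PX X, X < (nm (pr P) : ℝ) → g P = 0) [DecidablePred fun k => d * f * k ∈ S X] :
    ∑ P ∈ AA (PX X) (pp d) (pp f), g P =
      ∑ k ∈ S X, if d * f * k ∈ S X then g (pp (d * f * k)) else 0 := by
  classical
  unfold AA
  rw [Finset.sum_filter, sum_powerset_S hX]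
  swap
  · intro P hP h
    split_ifs
    · exact hg P hP h
    · rfl
  rw [← Finset.sum_filter, ← Finset.sum_filter]
  symm
  have hd' := (mem_S hX).1 hd
  have hf' := (mem_S hX).1 hf
  have hdf0 : d * f ≠ 0 := mul_ne_zero hd'.2.1.ne_zero hf'.2.1.ne_zero
  refine Finset.sum_bij (fun k _ => d * f * k) ?_ ?_ ?_ ?_
  · intro k hk
    rw [Finset.mem_filter] at hk ⊢
    refine ⟨hk.2, ?_⟩
    have h0 := ((mem_S hX).1 hk.2).2.1.ne_zero
    apply Finset.union_subset
    · exact pp_mono h0 ⟨f * k, by ring⟩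
    · exact pp_mono h0 ⟨d * k, by ring⟩
  · intro a _ b _ hab
    exact mul_left_cancel₀ hdf0 hab
  · intro h hh
    rw [Finset.mem_filter] at hh
    have hh' := (mem_S hX).1 hh.1
    have hdvd : d * f ∣ h := by
      have e1 : d * f = pr (pp d ∪ pp f) := by
        rw [pr_union hdf, pr_pp hX hd, pr_pp hX hf]
      have e2 : pr (pp h) = h := pr_pp hX hh.1
      rw [e1, ← e2]
      exact Finset.prod_dvd_prod_of_subset _ _ _ hh.2
    obtain ⟨k, hk⟩ := hdvd
    refine ⟨k, ?_, hk.symm⟩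
    rw [Finset.mem_filter, ← hk]
    refine ⟨?_, hh.1⟩
    rw [mem_S hX]
    have hkp : IsPrim k := IsPrim.of_mul_left (hk ▸ hh'.2.1) (hd'.2.1.mul hf'.2.1)
    refine ⟨le_trans ?_ hh'.1, hkp, hh'.2.2.squarefree_of_dvd ⟨d * f, by rw [hk]; ring⟩⟩
    exact_mod_cast Div277.nm_le_of_dvd hh'.2.1.ne_zero ⟨d * f, by rw [hk]; ring⟩
  · intro k _
    rfl

lemma pr_sdiff_pp {X : ℝ} (hX : 0 ≤ X) {d m : Eis} (h : d * m ∈ S X) (hd : IsPrim d)
    (hm : IsPrim m) : pr (pp (d * m) \ pp d) = m := by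
  have hh := (mem_S hX).1 h
  have hs := squarefree_mul_iff.1 hh.2.2
  have hcop : IsCoprime d m := by
    rw [isCoprime_iff_pp hd]
    intro p hp h1 h2
    exact hp.2.not_isUnit (hs.1 h1 h2)
  have e1 : pp (d * m) \ pp d = pp m := by
    rw [pp_mul hd.ne_zero hm.ne_zero, Finset.union_sdiff_left, Finset.sdiff_eq_self_of_disjoint]
    exact (pp_disjoint hcop).symm
  rw [e1]
  exact pr_pp' hm hs.2.2

lemma ws_of_not_mem {w : Eis → ℂ} {X : ℝ} {h : Eis} (hh : h ∉ S X) : ws w X h = 0 := if_neg hh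

lemma gau_eq_exp (t : ℝ) (m : Eis) : gau t (toC m) = ((Real.exp (-(Real.pi * t * nm m)) : ℝ) : ℂ) := by
  unfold Poisson381.gau
  rw [norm_toC_sq]

/-- translation of the quadratic form -/
lemma QQ_eq_qf (H : SyG) {X Z : ℝ} (hX : 0 ≤ X) (hZ : 0 < Z) (w : Eis → ℂ) {d f : Eis}
    (hd : d ∈ S X) (hf : f ∈ S X) (hdf : Disjoint (pp d) (pp f)) {E : Finset Eis} (hE : IsPS E)
    (l : Eis) :
    QQ (1 / (Real.pi * Z)) (PX X) (fun P => ws w X (pr P)) (pp d) (pp f) E l =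
      qf w X Z d (pr E) f l := by
  classical
  have hd' := (mem_S hX).1 hd
  have hf' := (mem_S hX).1 hf
  have hc0 : ∀ P ⊆ PX X, X < (nm (pr P) : ℝ) → ws w X (pr P) = 0 := by
    intro P hP h
    apply ws_of_not_mem
    rw [pr_mem_S hX ((isPS_PX hX).mono hP)]
    exact not_le.2 h
  unfold QQ qf
  rw [sum_AA hX hd hf hdf]
  swap
  · intro P hP h
    apply Finset.sum_eq_zero
    intro P2 _
    unfold VV
    beta_reduce
    rw [hc0 P hP h]; ring
  refine Finset.sum_congr rfl fun k1 hk1 => ?_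
  have hk1' := (mem_S hX).1 hk1
  by_cases h1 : d * f * k1 ∈ S X
  swap
  · rw [if_neg h1, ws_of_not_mem h1]
    simp
  rw [if_pos h1, sum_AA hX hd hf hdf]
  swap
  · intro P hP h
    unfold VV
    beta_reduce
    rw [hc0 P hP h]; simp
  refine Finset.sum_congr rfl fun k2 hk2 => ?_
  have hk2' := (mem_S hX).1 hk2
  by_cases h2 : d * f * k2 ∈ S X
  swap
  · rw [if_neg h2, ws_of_not_mem h2]
    simp
  rw [if_pos h2]
  have q1 : pr (pp (d * f * k1) \ pp d) = f * k1 := by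
    rw [mul_assoc]; rw [mul_assoc] at h1
    exact pr_sdiff_pp hX h1 hd'.2.1 (hf'.2.1.mul hk1'.2.1)
  have q2 : pr (pp (d * f * k2) \ pp d) = f * k2 := by
    rw [mul_assoc]; rw [mul_assoc] at h2
    exact pr_sdiff_pp hX h2 hd'.2.1 (hf'.2.1.mul hk2'.2.1)
  unfold VV
  beta_reduce
  rw [q1, q2, pr_pp hX h1, pr_pp hX h2, Ue_eq H (hf'.2.1.mul hk1'.2.1),
    Ue_eq H (hf'.2.1.mul hk2'.2.1), gau_eq_exp]
  have n1 : 0 < (nm (f * k1) : ℝ) := by exact_mod_cast nm_pos.2 (hf'.2.1.mul hk1'.2.1).ne_zero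
  have n2 : 0 < (nm (f * k2) : ℝ) := by exact_mod_cast nm_pos.2 (hf'.2.1.mul hk2'.2.1).ne_zero
  have n3 : 0 < (nm (pr E) : ℝ) := by exact_mod_cast nm_pos.2 hE.ne_zero
  have e1 : -(Real.pi * (4 / (3 * (1 / (Real.pi * Z) * nm (pr E) *
      (nm (f * k1) * nm (f * k2))))) * nm l) =
      -(4 * Real.pi ^ 2 * Z * nm l) / (3 * nm (pr E) * nm (f * k1) * nm (f * k2)) := by
    have hpi := Real.pi_pos
    field_simp
  rw [e1, map_mul]
  ring

lemma qf_eq_zero {X Z : ℝ} (w : Eis → ℂ) {d e f l : Eis}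
    (h : ∀ k, d * f * k ∉ S X) : qf w X Z d e f l = 0 := by
  unfold qf
  apply Finset.sum_eq_zero
  intro k1 _
  apply Finset.sum_eq_zero
  intro k2 _
  rw [ws_of_not_mem (h k1)]
  ring

lemma mu_eq_of_mem_S {X : ℝ} (hX : 0 ≤ X) {f : Eis} (hf : f ∈ S X) :
    ((mu f : ℤ) : ℂ) = (-1) ^ (pp f).card := by
  rw [show mu f = _ from muE_eq ((mem_S hX).1 hf).2.1 ((mem_S hX).1 hf).2.2]
  push_cast
  rfl

/-- **the exact dual identity, element form** -/
theorem dual_identity_elt (H : SyFacts) (H' : SyG) {X Z : ℝ} (hX : 0 ≤ X) (hZ : 0 < Z)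
    (w : Eis → ℂ) :
    ∑' n : Eis, ((Real.exp (-(nm n : ℝ) / Z) : ℝ) : ℂ) *
        ((‖∑ h ∈ S X, w h * sy n h‖ ^ 2 : ℝ) : ℂ) =
      ∑ d ∈ S X, ∑ e ∈ pdiv d, ∑ f ∈ S X, (mu e : ℂ) * (mu f : ℂ) *
        ((2 * Real.pi * Z / (Real.sqrt 3 * nm e) : ℝ) : ℂ) * ∑' l : Eis, qf w X Z d e f l := by
  classical
  set c : Finset Eis → ℂ := fun P => ws w X (pr P) with hc
  set t : ℝ := 1 / (Real.pi * Z) with ht
  have htpos : 0 < t := by rw [ht]; positivity
  have hPS := isPS_PX hX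
  have hc0 : ∀ P ⊆ PX X, X < (nm (pr P) : ℝ) → c P = 0 := by
    intro P hP h
    apply ws_of_not_mem
    rw [pr_mem_S hX (hPS.mono hP)]
    exact not_le.2 h
  have key := dual_identity H H' htpos hPS c
  have hL : ∀ m : Eis, ((‖lin1 (PX X) c m‖ ^ 2 : ℝ) : ℂ) * gau t (toC m) =
      ((Real.exp (-(nm m : ℝ) / Z) : ℝ) : ℂ) * ((‖∑ h ∈ S X, w h * sy m h‖ ^ 2 : ℝ) : ℂ) := by
    intro m
    have e1 : lin1 (PX X) c m = ∑ h ∈ S X, w h * sy m h := by
      unfold lin1
      rw [sum_powerset_S hX]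
      · refine Finset.sum_congr rfl fun h hh => ?_
        rw [hc]
        simp only
        rw [pr_pp hX hh]
        unfold ws
        rw [if_pos hh]
      · intro P hP h
        rw [hc0 P hP h, zero_mul]
    rw [e1, gau_eq_exp, mul_comm]
    congr 3
    rw [ht]
    have hpi := Real.pi_pos
    field_simp
  simp_rw [hL] at key
  rw [key]
  -- vanishing of `QQ` when `pr D` or `pr F` is large
  have hQ0 : ∀ D F E : Finset Eis, ∀ l, (∀ P ∈ AA (PX X) D F, c P = 0) →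
      QQ t (PX X) c D F E l = 0 := by
    intro D F E l h
    unfold QQ
    apply Finset.sum_eq_zero
    intro P hP
    apply Finset.sum_eq_zero
    intro P2 _
    unfold VV
    rw [h P hP]; ring
  have hbig : ∀ D F : Finset Eis, ∀ Q : Finset Eis, Q ⊆ D ∪ F → X < (nm (pr Q) : ℝ) →
      ∀ P ∈ AA (PX X) D F, c P = 0 := by
    intro D F Q hQ hX' P hP
    rw [mem_AA] at hP
    apply hc0 P hP.1
    refine lt_of_lt_of_le hX' ?_
    have hd : pr Q ∣ pr P := Finset.prod_dvd_prod_of_subset _ _ _ (hQ.trans hP.2)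
    exact_mod_cast Div277.nm_le_of_dvd (hPS.mono hP.1).ne_zero hd
  rw [sum_powerset_S hX]
  swap
  · intro D hD hDX
    apply Finset.sum_eq_zero
    intro F _
    apply Finset.sum_eq_zero
    intro E _
    have : ∀ h, QQ t (PX X) c D F E h = 0 := fun h =>
      hQ0 D F E h (hbig D F D Finset.subset_union_left hDX)
    simp [this]
  refine Finset.sum_congr rfl fun d hd => ?_
  have hd' := (mem_S hX).1 hd
  rw [Finset.sum_comm (s := pdiv d) (t := S X)]
  -- the sum over `F`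
  have e2 : ∑ F ∈ (PX X \ pp d).powerset, ∑ E ∈ (pp d).powerset,
      (-1) ^ F.card * ((-1) ^ E.card * (((2 / Real.sqrt 3 * (t * nm (pr E))⁻¹ : ℝ) : ℂ) *
          ∑' h : Eis, QQ t (PX X) c (pp d) F E h)) =
      ∑ F ∈ (PX X).powerset, if Disjoint F (pp d) then ∑ E ∈ (pp d).powerset,
      (-1) ^ F.card * ((-1) ^ E.card * (((2 / Real.sqrt 3 * (t * nm (pr E))⁻¹ : ℝ) : ℂ) *
          ∑' h : Eis, QQ t (PX X) c (pp d) F E h)) else 0 := by
    rw [← Finset.sum_filter]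
    apply Finset.sum_congr _ fun _ _ => rfl
    ext F
    rw [Finset.mem_filter, Finset.mem_powerset, Finset.mem_powerset, Finset.subset_sdiff]
  rw [e2, sum_powerset_S hX]
  swap
  · intro F hF hFX
    split_ifs
    · apply Finset.sum_eq_zero
      intro E _
      have : ∀ h, QQ t (PX X) c (pp d) F E h = 0 := fun h =>
        hQ0 (pp d) F E h (hbig (pp d) F F Finset.subset_union_right hFX)
      simp [this]
    · rfl
  refine Finset.sum_congr rfl fun f hf => ?_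
  have hf' := (mem_S hX).1 hf
  by_cases hdf : Disjoint (pp f) (pp d)
  · rw [if_pos hdf]
    have e3 : ∀ e : Eis, (mu e : ℂ) * (mu f : ℂ) *
        ((2 * Real.pi * Z / (Real.sqrt 3 * nm e) : ℝ) : ℂ) * ∑' l : Eis, qf w X Z d e f l =
        (mu e : ℂ) * ((mu f : ℂ) *
        (((2 * Real.pi * Z / (Real.sqrt 3 * nm e) : ℝ) : ℂ) * ∑' l : Eis, qf w X Z d e f l)) := by
      intro e; ring
    rw [Finset.sum_congr rfl fun e _ => e3 e]
    rw [sum_pdiv_mu hd'.2.1.ne_zero]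
    refine Finset.sum_congr rfl fun E hE => ?_
    have hES : IsPS E := (isPS_pp d).mono (Finset.mem_powerset.1 hE)
    rw [mu_eq_of_mem_S hX hf]
    have e4 : ∀ l, QQ t (PX X) c (pp d) (pp f) E l = qf w X Z d (pr E) f l := fun l =>
      QQ_eq_qf H' hX hZ w hd hf hdf.symm hES l
    simp_rw [e4]
    have n3 : 0 < (nm (pr E) : ℝ) := by exact_mod_cast nm_pos.2 hES.ne_zero
    have e5 : (2 / Real.sqrt 3 * (t * nm (pr E))⁻¹ : ℝ) =
        2 * Real.pi * Z / (Real.sqrt 3 * nm (pr E)) := by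
      rw [ht]
      have hpi := Real.pi_pos
      have h3 : 0 < Real.sqrt 3 := Real.sqrt_pos.2 (by norm_num)
      field_simp
    rw [e5]
    unfold pr
    ring
  · rw [if_neg hdf]
    symm
    apply Finset.sum_eq_zero
    intro e _
    have hno : ∀ k, d * f * k ∉ S X := by
      intro k hk
      rw [mem_S hX] at hk
      apply hdf
      rw [Finset.disjoint_left]
      intro p hp1 hp2
      have hp := isPP_of_mem_pp hp1
      have hsq : p * p ∣ d * f * k :=
        (mul_dvd_mul (dvd_of_mem_pp hp2) (dvd_of_mem_pp hp1)).trans (dvd_mul_right _ _)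
      exact hp.2.not_isUnit (hk.2.2 p hsq)
    have : ∀ l, qf w X Z d e f l = 0 := fun l => qf_eq_zero w hno
    simp [this]

end Crest.Agent.R012.LS2
end
end

-- ▼ part R012/LS2Ineq_381

/-!
# Row 12 (L2): the dual inequality with the zero frequency evaluated

* `norm_Ue_le`, `summable_qf`, `qf_zero`
* `dual_ineq`
-/

set_option autoImplicit false

noncomputable section

namespace Crest.Agent.R012.LS2

open Eis CharSum852 Gauss880 Tau671 Mob705
open Poisson381 (gau norm_gau summable_gau_one summable_gau)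

lemma cpow_neg_half {k : Eis} (hk : IsPrim k) :
    (nm k : ℂ) ^ (-(1 / 2) : ℂ) = ((((nm k : ℝ) ^ (-(1 / 2) : ℝ)) : ℝ) : ℂ) := by
  have hn : 0 < (nm k : ℝ) := by exact_mod_cast nm_pos.2 hk.ne_zero
  have e1 : ((nm k : ℕ) : ℂ) = (((nm k : ℕ) : ℝ) : ℂ) := by push_cast; rfl
  have e2 : (-(1 / 2) : ℂ) = ((-(1 / 2) : ℝ) : ℂ) := by push_cast; rfl
  rw [e1, e2, ← Complex.ofReal_cpow hn.le]

lemma norm_Ue_le (H : SyG) {k : Eis} (hk : IsPrim k) (e l : Eis) :
    ‖Ue e l k‖ ≤ (nm k : ℝ) ^ (-(1 / 2) : ℝ) := by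
  have hn : 0 < (nm k : ℝ) := by exact_mod_cast nm_pos.2 hk.ne_zero
  unfold Ue
  rw [cpow_neg_half hk, norm_mul, norm_mul, norm_mul, RCLike.norm_conj, Complex.norm_real,
    Real.norm_of_nonneg (Real.rpow_nonneg hn.le _)]
  have b1 := Gauss880.norm_sy_le H hk (x := e * sq3)
  have b2 := Gauss880.norm_sy_le H hk (x := l)
  have b3 := norm_G_le H hk
  have : ‖sy (e * sq3) k‖ * ‖sy l k‖ * ‖G k‖ ≤ 1 :=
    mul_le_one₀ (mul_le_one₀ b1 (norm_nonneg _) b2) (norm_nonneg _) b3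
  exact mul_le_of_le_one_left (Real.rpow_nonneg hn.le _) this

lemma norm_Ue_le_one (H : SyG) {k : Eis} (hk : IsPrim k) (e l : Eis) : ‖Ue e l k‖ ≤ 1 := by
  refine (norm_Ue_le H hk e l).trans ?_
  have hn : 1 ≤ (nm k : ℝ) := by exact_mod_cast nm_pos.2 hk.ne_zero
  exact Real.rpow_le_one_of_one_le_of_nonpos hn (by norm_num)

lemma summable_exp_nm {a : ℝ} (ha : 0 < a) : Summable fun l : Eis => Real.exp (-(a * nm l)) := by
  have h := (summable_gau_one (t := a / Real.pi) (by positivity)).norm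
  refine h.congr fun l => ?_
  rw [norm_gau, norm_toC_sq]
  congr 2
  field_simp

lemma summable_qf (H : SyG) {X Z : ℝ} (hX : 0 ≤ X) (hZ : 0 < Z) (w : Eis → ℂ) {d e f : Eis}
    (he : e ≠ 0) (hf : f ∈ S X) : Summable fun l : Eis => qf w X Z d e f l := by
  classical
  unfold qf
  have hf' := (mem_S hX).1 hf
  refine summable_sum fun k1 h1 => summable_sum fun k2 h2 => ?_
  have hk1 := (mem_S hX).1 h1
  have hk2 := (mem_S hX).1 h2
  have p1 := hf'.2.1.mul hk1.2.1
  have p2 := hf'.2.1.mul hk2.2.1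
  have n1 : 0 < (nm (f * k1) : ℝ) := by exact_mod_cast nm_pos.2 p1.ne_zero
  have n2 : 0 < (nm (f * k2) : ℝ) := by exact_mod_cast nm_pos.2 p2.ne_zero
  have n3 : 0 < (nm e : ℝ) := by exact_mod_cast nm_pos.2 he
  set a : ℝ := 4 * Real.pi ^ 2 * Z / (3 * nm e * nm (f * k1) * nm (f * k2)) with ha
  have hapos : 0 < a := by rw [ha]; positivity
  set b : ℝ := ‖ws w X (d * f * k1) * (starRingEnd ℂ) (ws w X (d * f * k2))‖ with hb
  refine Summable.of_norm_bounded ((summable_exp_nm hapos).mul_left b) (fun l => ?_)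
  rw [norm_mul, norm_mul, ← hb, Complex.norm_real, Real.norm_of_nonneg (Real.exp_pos _).le]
  have e1 : -(4 * Real.pi ^ 2 * Z * nm l) / (3 * nm e * nm (f * k1) * nm (f * k2)) =
      -(a * nm l) := by rw [ha]; ring
  rw [e1]
  have b1 : ‖Ue e l (f * k1) * (starRingEnd ℂ) (Ue e l (f * k2))‖ ≤ 1 := by
    rw [norm_mul, RCLike.norm_conj]
    exact mul_le_one₀ (norm_Ue_le_one H p1 e l) (norm_nonneg _) (norm_Ue_le_one H p2 e l)
  have hb0 : 0 ≤ b := norm_nonneg _
  calc b * ‖Ue e l (f * k1) * (starRingEnd ℂ) (Ue e l (f * k2))‖ * Real.exp (-(a * nm l))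
      ≤ b * 1 * Real.exp (-(a * nm l)) := by gcongr
    _ = _ := by ring

lemma Ue_zero (H : SyG) {k : Eis} (hk : IsPrim k) (h1 : k ≠ 1) (e : Eis) : Ue e 0 k = 0 := by
  unfold Ue
  have : sy 0 k = 0 := by
    rw [H.eq_zero 0 k hk]
    intro h
    rw [isCoprime_zero_left] at h
    exact h1 (isPrim_eq_one_of_isUnit hk h)
  rw [this]
  simp

lemma one_mem_S {X : ℝ} (hX : 1 ≤ X) : (1 : Eis) ∈ S X := by
  rw [mem_S (by linarith)]
  refine ⟨?_, isPrim_one, squarefree_one⟩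
  have : nm (1 : Eis) = 1 := by
    have := nm_mul 1 1
    rw [mul_one] at this
    have h0 : 0 < nm (1 : Eis) := nm_pos.2 one_ne_zero
    nlinarith
  rw [this]
  exact_mod_cast hX

lemma norm_Ue_one (H : SyG) (e : Eis) : ‖Ue e 0 1‖ = 1 := by
  unfold Ue
  have h1 : ∀ x : Eis, ‖sy x 1‖ = 1 := fun x =>
    Gauss880.norm_sy H isPrim_one isCoprime_one_right
  have h2 : nm (1 : Eis) = 1 := by
    have := nm_mul 1 1
    rw [mul_one] at this
    have h0 : 0 < nm (1 : Eis) := nm_pos.2 one_ne_zero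
    nlinarith
  rw [norm_mul, norm_mul, norm_mul, RCLike.norm_conj, h1, h1, norm_G H isPrim_one squarefree_one,
    h2]
  simp

/-- the zero frequency -/
lemma qf_zero (H : SyG) {X Z : ℝ} (hX : 1 ≤ X) (w : Eis → ℂ) {d e f : Eis}
    (hd : d ∈ S X) (hf : f ∈ S X) [Decidable (f = 1)] :
    qf w X Z d e f 0 = if f = 1 then ((‖w d‖ ^ 2 : ℝ) : ℂ) else 0 := by
  classical
  have hX0 : 0 ≤ X := by linarith
  have hf' := (mem_S hX0).1 hf
  have h0 : nm (0 : Eis) = 0 := nm_eq_zero.2 rfl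
  have hfk : ∀ k ∈ S X, f * k = 1 → f = 1 ∧ k = 1 := by
    intro k hk h
    have hk' := (mem_S hX0).1 hk
    have hu : IsUnit f := IsUnit.of_mul_eq_one k h
    have h1 := isPrim_eq_one_of_isUnit hf'.2.1 hu
    rw [h1, one_mul] at h
    exact ⟨h1, h⟩
  by_cases hf1 : f = 1
  · rw [if_pos hf1]
    unfold qf
    rw [Finset.sum_eq_single_of_mem 1 (one_mem_S hX)]
    · rw [Finset.sum_eq_single_of_mem 1 (one_mem_S hX)]
      · rw [hf1, mul_one, mul_one, mul_one, h0]
        unfold ws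
        rw [if_pos hd]
        have : Ue e 0 1 * (starRingEnd ℂ) (Ue e 0 1) = 1 := by
          rw [Complex.mul_conj, Complex.normSq_eq_norm_sq, norm_Ue_one H]; simp
        rw [this]
        simp only [Nat.cast_zero, mul_zero, neg_zero, zero_div, Real.exp_zero, Complex.ofReal_one,
          mul_one]
        rw [Complex.mul_conj, Complex.normSq_eq_norm_sq]
      · intro k hk hk1
        have hk' := (mem_S hX0).1 hk
        have : Ue e 0 (f * k) = 0 := by
          apply Ue_zero H (hf'.2.1.mul hk'.2.1)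
          intro h
          exact hk1 (hfk k hk h).2
        rw [this]; simp
    · intro k hk hk1
      apply Finset.sum_eq_zero
      intro k2 _
      have hk' := (mem_S hX0).1 hk
      have : Ue e 0 (f * k) = 0 := by
        apply Ue_zero H (hf'.2.1.mul hk'.2.1)
        intro h
        exact hk1 (hfk k hk h).2
      rw [this]; simp
  · rw [if_neg hf1]
    unfold qf
    apply Finset.sum_eq_zero
    intro k hk
    apply Finset.sum_eq_zero
    intro k2 _
    have hk' := (mem_S hX0).1 hk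
    have : Ue e 0 (f * k) = 0 := by
      apply Ue_zero H (hf'.2.1.mul hk'.2.1)
      intro h
      exact hf1 (hfk k hk h).1
    rw [this]; simp

lemma sum_mu_div (d : Eis) (hd : d ≠ 0) :
    ∑ e ∈ pdiv d, (mu e : ℝ) * (1 / (nm e : ℝ)) = ∏ p ∈ pp d, (1 - 1 / (nm p : ℝ)) := by
  apply sum_pdiv_mu_mul hd
  intro S hS
  have : (nm (∏ p ∈ S, p) : ℝ) = ∏ p ∈ S, (nm p : ℝ) := by
    have := nm_pr S
    unfold pr at this
    rw [this]
    push_cast
    rfl
  rw [this, one_div, ← Finset.prod_inv_distrib]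
  refine Finset.prod_congr rfl fun p _ => by rw [one_div]

lemma sum_mu_div_bounds (d : Eis) (hd : d ≠ 0) :
    0 ≤ ∑ e ∈ pdiv d, (mu e : ℝ) * (1 / (nm e : ℝ)) ∧
      ∑ e ∈ pdiv d, (mu e : ℝ) * (1 / (nm e : ℝ)) ≤ 1 := by
  rw [sum_mu_div d hd]
  have h1 : ∀ p ∈ pp d, 0 ≤ 1 - 1 / (nm p : ℝ) ∧ 1 - 1 / (nm p : ℝ) ≤ 1 := by
    intro p hp
    have h2 : (1 : ℝ) < nm p := by exact_mod_cast (isPP_of_mem_pp hp).one_lt_nm
    have h3 : 1 / (nm p : ℝ) ≤ 1 := by
      rw [div_le_one (by linarith)]; exact h2.le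
    have h4 : 0 ≤ 1 / (nm p : ℝ) := by positivity
    constructor <;> linarith
  exact ⟨Finset.prod_nonneg fun p hp => (h1 p hp).1,
    Finset.prod_le_one (fun p hp => (h1 p hp).1) (fun p hp => (h1 p hp).2)⟩

lemma summable_lhs (H : SyFacts) {X Z : ℝ} (hX : 0 ≤ X) (hZ : 0 < Z) (w : Eis → ℂ) :
    Summable fun n : Eis => Real.exp (-(nm n : ℝ) / Z) * ‖∑ h ∈ S X, w h * sy n h‖ ^ 2 := by
  have h1 := (summable_exp_nm (a := 1 / Z) (by positivity)).mul_right
    ((∑ h ∈ S X, ‖w h‖) ^ 2)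
  refine Summable.of_nonneg_of_le (fun n => by positivity) (fun n => ?_) h1
  have e1 : -(nm n : ℝ) / Z = -(1 / Z * nm n) := by ring
  rw [e1]
  refine mul_le_mul_of_nonneg_left ?_ (Real.exp_pos _).le
  apply pow_le_pow_left₀ (norm_nonneg _)
  refine (norm_sum_le _ _).trans (Finset.sum_le_sum fun h hh => ?_)
  rw [norm_mul]
  exact mul_le_of_le_one_right (norm_nonneg _) (Tau671.norm_sy_le ((mem_S hX).1 hh).2.1)

open Classical in
/-- **the dual inequality** -/
theorem dual_ineq (H : SyFacts) (H' : SyG) {X Z : ℝ} (hX : 1 ≤ X) (hZ : 0 < Z) (w : Eis → ℂ) :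
    ∑' n : Eis, Real.exp (-(nm n : ℝ) / Z) * ‖∑ h ∈ S X, w h * sy n h‖ ^ 2 ≤
      2 * Real.pi * Z / Real.sqrt 3 * ∑ h ∈ S X, ‖w h‖ ^ 2 +
      ∑ d ∈ S X, ∑ e ∈ pdiv d, ∑ f ∈ S X, 2 * Real.pi * Z / (Real.sqrt 3 * nm e) *
        ‖∑' l : Eis, if l = 0 then 0 else qf w X Z d e f l‖ := by
  have hX0 : 0 ≤ X := by linarith
  have key := dual_identity_elt H H' hX0 hZ w
  have hs3 : 0 < Real.sqrt 3 := Real.sqrt_pos.2 (by norm_num)
  have hpi := Real.pi_pos
  -- the left side as a real number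
  have hL : ((∑' n : Eis, Real.exp (-(nm n : ℝ) / Z) * ‖∑ h ∈ S X, w h * sy n h‖ ^ 2 : ℝ) : ℂ) =
      ∑' n : Eis, ((Real.exp (-(nm n : ℝ) / Z) : ℝ) : ℂ) *
        ((‖∑ h ∈ S X, w h * sy n h‖ ^ 2 : ℝ) : ℂ) := by
    rw [Complex.ofReal_tsum]
    apply tsum_congr
    intro n
    push_cast
    rfl
  -- split off the zero frequency
  have hsplit : ∀ d ∈ S X, ∀ e ∈ pdiv d, ∀ f ∈ S X, ∑' l : Eis, qf w X Z d e f l =
      (if f = 1 then ((‖w d‖ ^ 2 : ℝ) : ℂ) else 0) +
        ∑' l : Eis, if l = 0 then 0 else qf w X Z d e f l := by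
    intro d hd e he f hf
    have hd' := (mem_S hX0).1 hd
    have he' := (mem_pdiv hd'.2.1.ne_zero).1 he
    have hs := summable_qf H' hX0 hZ w (d := d) he'.1.ne_zero hf
    rw [hs.tsum_eq_add_tsum_ite 0, qf_zero H' hX w hd hf]
  have key2 : ((∑' n : Eis, Real.exp (-(nm n : ℝ) / Z) * ‖∑ h ∈ S X, w h * sy n h‖ ^ 2 : ℝ) : ℂ) =
      (((2 * Real.pi * Z / Real.sqrt 3) * ∑ d ∈ S X, ‖w d‖ ^ 2 *
        ∑ e ∈ pdiv d, (mu e : ℝ) * (1 / (nm e : ℝ)) : ℝ) : ℂ) +
      ∑ d ∈ S X, ∑ e ∈ pdiv d, ∑ f ∈ S X, (mu e : ℂ) * (mu f : ℂ) *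
        ((2 * Real.pi * Z / (Real.sqrt 3 * nm e) : ℝ) : ℂ) *
          ∑' l : Eis, if l = 0 then 0 else qf w X Z d e f l := by
    rw [hL, key]
    have e1 : ∀ d ∈ S X, ∑ e ∈ pdiv d, ∑ f ∈ S X, (mu e : ℂ) * (mu f : ℂ) *
        ((2 * Real.pi * Z / (Real.sqrt 3 * nm e) : ℝ) : ℂ) * ∑' l : Eis, qf w X Z d e f l =
        (∑ e ∈ pdiv d, (mu e : ℂ) * ((2 * Real.pi * Z / (Real.sqrt 3 * nm e) : ℝ) : ℂ) *
          ((‖w d‖ ^ 2 : ℝ) : ℂ)) +
        ∑ e ∈ pdiv d, ∑ f ∈ S X, (mu e : ℂ) * (mu f : ℂ) *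
        ((2 * Real.pi * Z / (Real.sqrt 3 * nm e) : ℝ) : ℂ) *
          ∑' l : Eis, if l = 0 then 0 else qf w X Z d e f l := by
      intro d hd
      rw [← Finset.sum_add_distrib]
      refine Finset.sum_congr rfl fun e he => ?_
      rw [Finset.sum_congr rfl fun f hf => by rw [hsplit d hd e he f hf, mul_add]]
      rw [Finset.sum_add_distrib]
      congr 1
      rw [Finset.sum_eq_single_of_mem 1 (one_mem_S hX)]
      · have hmu1 : mu 1 = 1 := muE_one
        rw [if_pos rfl, hmu1]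
        push_cast; ring
      · intro f _ hf1
        rw [if_neg hf1, mul_zero]
    rw [Finset.sum_congr rfl e1, Finset.sum_add_distrib]
    congr 1
    rw [Finset.mul_sum]
    push_cast
    refine Finset.sum_congr rfl fun d hd => ?_
    rw [Finset.mul_sum, Finset.mul_sum]
    refine Finset.sum_congr rfl fun e he => ?_
    have hd' := (mem_S hX0).1 hd
    have he' := (mem_pdiv hd'.2.1.ne_zero).1 he
    have hn : (nm e : ℂ) ≠ 0 := by exact_mod_cast (nm_pos.2 he'.1.ne_zero).ne'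
    have hs3' : ((Real.sqrt 3 : ℝ) : ℂ) ≠ 0 := by exact_mod_cast hs3.ne'
    field_simp
  -- take norms
  set A : ℝ := ∑' n : Eis, Real.exp (-(nm n : ℝ) / Z) * ‖∑ h ∈ S X, w h * sy n h‖ ^ 2 with hA
  set B : ℝ := (2 * Real.pi * Z / Real.sqrt 3) * ∑ d ∈ S X, ‖w d‖ ^ 2 *
        ∑ e ∈ pdiv d, (mu e : ℝ) * (1 / (nm e : ℝ)) with hB
  set R : ℂ := ∑ d ∈ S X, ∑ e ∈ pdiv d, ∑ f ∈ S X, (mu e : ℂ) * (mu f : ℂ) *
        ((2 * Real.pi * Z / (Real.sqrt 3 * nm e) : ℝ) : ℂ) *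
          ∑' l : Eis, if l = 0 then 0 else qf w X Z d e f l with hR
  have h1 : A ≤ B + ‖R‖ := by
    have h2 : ((A - B : ℝ) : ℂ) = R := by
      push_cast
      rw [key2]; ring
    have h3 : |A - B| = ‖R‖ := by rw [← h2, Complex.norm_real, Real.norm_eq_abs]
    have := le_abs_self (A - B)
    linarith
  have hBle : B ≤ 2 * Real.pi * Z / Real.sqrt 3 * ∑ h ∈ S X, ‖w h‖ ^ 2 := by
    rw [hB]
    refine mul_le_mul_of_nonneg_left ?_ (by positivity)
    refine Finset.sum_le_sum fun d hd => ?_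
    have hd' := (mem_S hX0).1 hd
    have := (sum_mu_div_bounds d hd'.2.1.ne_zero).2
    calc ‖w d‖ ^ 2 * _ ≤ ‖w d‖ ^ 2 * 1 := by gcongr
      _ = _ := mul_one _
  have hRle : ‖R‖ ≤ ∑ d ∈ S X, ∑ e ∈ pdiv d, ∑ f ∈ S X, 2 * Real.pi * Z / (Real.sqrt 3 * nm e) *
        ‖∑' l : Eis, if l = 0 then 0 else qf w X Z d e f l‖ := by
    rw [hR]
    refine (norm_sum_le _ _).trans (Finset.sum_le_sum fun d hd => ?_)
    refine (norm_sum_le _ _).trans (Finset.sum_le_sum fun e he => ?_)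
    refine (norm_sum_le _ _).trans (Finset.sum_le_sum fun f hf => ?_)
    rw [norm_mul, norm_mul, norm_mul, Complex.norm_real]
    have m1 : ‖((mu e : ℤ) : ℂ)‖ ≤ 1 := by
      rw [Complex.norm_intCast]
      exact_mod_cast abs_mu_le_one e
    have m2 : ‖((mu f : ℤ) : ℂ)‖ ≤ 1 := by
      rw [Complex.norm_intCast]
      exact_mod_cast abs_mu_le_one f
    have m3 : ‖((mu e : ℤ) : ℂ)‖ * ‖((mu f : ℤ) : ℂ)‖ ≤ 1 := mul_le_one₀ m1 (norm_nonneg _) m2
    have hpos : 0 ≤ 2 * Real.pi * Z / (Real.sqrt 3 * nm e) := by positivity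
    rw [Real.norm_of_nonneg hpos]
    calc ‖((mu e : ℤ) : ℂ)‖ * ‖((mu f : ℤ) : ℂ)‖ * (2 * Real.pi * Z / (Real.sqrt 3 * nm e)) * _
        ≤ 1 * (2 * Real.pi * Z / (Real.sqrt 3 * nm e)) *
          ‖∑' l : Eis, if l = 0 then 0 else qf w X Z d e f l‖ := by gcongr
      _ = _ := by ring
  linarith

end Crest.Agent.R012.LS2
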