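import Crest.Agent.R012.LSbc_448
import Crest.Agent.R012.LScount_448
import Crest.Agent.R012.LS2Spec_381
import Crest.Agent.R012.Sym4_645
import Crest.Agent.R012.CR2Spec_180
import Crest.Agent.R012.PoissonG_381
import Crest.Agent.R012.GaussInst_880
import Mathlib
import Crest.Agent.R012.Defs
import Crest.Agent.R012.LS2Ineq_381
import Crest.Agent.R012.Sym6_645

-- ▼ part R012/LSnum_448
section

/-!
# Row 12: from squarefree primary numerators to all numerators (STEP 1 of (L2))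

For a `SymLike` function `φ` (like the cubic residue symbol):
`Bf φ M N`, `Bdy φ M N`, `B2f φ K N` : best large sieve constants, and

`B2f_le : K ≤ N T → (∀ A ∈ [1,K], Bf A N ≤ G (N + (A N)^(2/3))) →
   B2f K N ≤ cT * T * G * K^(1/3) * N * LL K ^ 2`.
-/

set_option autoImplicit false

noncomputable section

open Finset

namespace Crest.Agent.R012.LS448

open Crest.Agent.R012 Crest.Agent.R012.Eis

/-- Squarefree primary elements of norm at most `X`. -/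
def SF (X : ℝ) : Finset Eis := open Classical in (nz X).filter (fun z => IsPrim z ∧ Squarefree z)

/-- Squarefree primary elements with norm in `(X/2, X]`. -/
def SFdy (X : ℝ) : Finset Eis := open Classical in (SF X).filter (fun z => X / 2 < (nm z : ℝ))

lemma mem_SF {X : ℝ} {z : Eis} : z ∈ SF X ↔ (nm z : ℝ) ≤ X ∧ IsPrim z ∧ Squarefree z := by
  classical
  unfold SF
  rw [mem_filter, mem_nz]
  constructor
  · rintro ⟨⟨_, h1⟩, h2⟩; exact ⟨h1, h2⟩
  · rintro ⟨h1, h2⟩; exact ⟨⟨h2.1.ne_zero, h1⟩, h2⟩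

lemma mem_SFdy {X : ℝ} {z : Eis} :
    z ∈ SFdy X ↔ X / 2 < (nm z : ℝ) ∧ (nm z : ℝ) ≤ X ∧ IsPrim z ∧ Squarefree z := by
  classical
  unfold SFdy
  rw [mem_filter, mem_SF, and_comm]

lemma SF_subset_nz (X : ℝ) : SF X ⊆ nz X := by
  classical
  exact filter_subset _ _

lemma SF_mono {X Y : ℝ} (h : X ≤ Y) : SF X ⊆ SF Y := fun z hz => by
  rw [mem_SF] at hz ⊢; exact ⟨hz.1.trans h, hz.2⟩

lemma SFdy_subset (X : ℝ) : SFdy X ⊆ SF X := by
  classical
  exact filter_subset _ _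


/-- The properties of the cubic residue symbol used in the large sieve induction. -/
structure SymLike (φ : Eis → Eis → ℂ) : Prop where
  mul : ∀ x y n, IsPrim n → φ (x * y) n = φ x n * φ y n
  val : ∀ x n, IsPrim n → φ x n = 0 ∨ φ x n ^ 3 = 1
  symm : ∀ m n, IsPrim m → IsPrim n → φ m n = φ n m

variable {φ : Eis → Eis → ℂ}

lemma SymLike.norm_le (h : SymLike φ) (x : Eis) {n : Eis} (hn : IsPrim n) : ‖φ x n‖ ≤ 1 := by
  rcases h.val x n hn with h0 | h1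
  · rw [h0, norm_zero]; exact zero_le_one
  · have : ‖φ x n‖ ^ 3 = 1 := by rw [← norm_pow, h1, norm_one]
    exact le_of_eq ((pow_eq_one_iff_of_nonneg (norm_nonneg _) (by norm_num)).mp this)

lemma SymLike.sq (h : SymLike φ) (x : Eis) {n : Eis} (hn : IsPrim n) :
    φ x n ^ 2 = (starRingEnd ℂ) (φ x n) := by
  rcases h.val x n hn with h0 | h1
  · rw [h0]; simp
  · have hn1 : ‖φ x n‖ = 1 := by
      have : ‖φ x n‖ ^ 3 = 1 := by rw [← norm_pow, h1, norm_one]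
      exact (pow_eq_one_iff_of_nonneg (norm_nonneg _) (by norm_num)).mp this
    have h2 : φ x n * (starRingEnd ℂ) (φ x n) = 1 := by
      rw [Complex.mul_conj, Complex.normSq_eq_norm_sq, hn1]; norm_num
    have h3 : φ x n * φ x n ^ 2 = 1 := by rw [← h1]; ring
    have h4 : φ x n ≠ 0 := by
      intro h0; rw [h0] at h1; norm_num at h1
    exact mul_left_cancel₀ h4 (h3.trans h2.symm)

/-- Best constants. -/
def Bf (φ : Eis → Eis → ℂ) (M N : ℝ) : ℝ := bc (SF M) (SF N) φ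
/-- Best constants, dyadic columns. -/
def Bdy (φ : Eis → Eis → ℂ) (M N : ℝ) : ℝ := bc (SF M) (SFdy N) φ
/-- Best constants, all nonzero numerators. -/
def B2f (φ : Eis → Eis → ℂ) (K N : ℝ) : ℝ := bc (nz K) (SF N) φ

lemma B2f_nonneg (M N : ℝ) : 0 ≤ B2f φ M N := bc_nonneg _ _ _

lemma Bf_mono {M M' N N' : ℝ} (hM : M ≤ M') (hN : N ≤ N') : Bf φ M N ≤ Bf φ M' N' :=
  bc_mono (SF_mono hM) (SF_mono hN) _

lemma Bf_symm (h : SymLike φ) (M N : ℝ) : Bf φ M N = Bf φ N M := by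
  unfold Bf
  rw [bc_dual]
  refine bc_congr fun a ha b hb => ?_
  rw [mem_SF] at ha hb
  exact h.symm _ _ hb.2.1 ha.2.1

lemma B2f_eq_zero {K : ℝ} (N : ℝ) (h : K < 1) : B2f φ K N = 0 := by
  unfold B2f; rw [nz_eq_empty h, bc_empty_left]

lemma B2f_trivial (h : SymLike φ) (K N : ℝ) (hK : 0 ≤ K) :
    B2f φ K N ≤ (K * LL K) * (N * LL N) := by
  refine (bc_le_card _ _ fun a _ b hb => ?_).trans ?_
  · rw [mem_SF] at hb; exact h.norm_le a hb.2.1
  · refine mul_le_mul (card_nz_le K) ?_ (by positivity) (mul_nonneg hK (LL_nonneg K))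
    exact le_trans (by exact_mod_cast card_le_card (SF_subset_nz N)) (card_nz_le N)

/-! ### The decomposition of the sum over all numerators -/

/-- Tuples `(t, c, b, a)`. -/
def Pset (K : ℝ) : Finset (Eis × Eis × Eis × Eis) := open Classical in
  ((nz 27) ×ˢ (nz K) ×ˢ (SF K) ×ˢ (SF K)).filter
    (fun p => (nm p.2.1 : ℝ) ^ 3 * (nm p.2.2.1 : ℝ) ^ 2 * (nm p.2.2.2 : ℝ) ≤ K)

lemma sum_nz_le_Pset {F : Eis → ℝ} (hF : ∀ h, 0 ≤ F h) (K : ℝ) :
    ∑ h ∈ nz K, F h ≤ ∑ p ∈ Pset K, F (p.1 * p.2.2.2 * p.2.2.1 ^ 2 * p.2.1 ^ 3) := by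
  classical
  have hex : ∀ h : Eis, ∃ p : Eis × Eis × Eis × Eis, h ∈ nz K →
      (p ∈ Pset K ∧ h = p.1 * p.2.2.2 * p.2.2.1 ^ 2 * p.2.1 ^ 3) := by
    intro h
    by_cases hh : h ∈ nz K
    · rw [mem_nz] at hh
      obtain ⟨t, a, b, c, e, ht0, ht, ha, ha', hb, hb', hc⟩ := exists_decomp hh.1
      refine ⟨(t, c, b, a), fun _ => ⟨?_, e⟩⟩
      have hN : (nm h : ℝ) = nm t * nm a * (nm b : ℝ) ^ 2 * (nm c : ℝ) ^ 3 := by
        rw [e, nm_mul, nm_mul, nm_mul, nm_pow, nm_pow]; push_cast; ring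
      have hK := hh.2
      rw [hN] at hK
      have t1 := one_le_nm' ht0
      have a1 := one_le_nm' ha.ne_zero
      have b1 := one_le_nm' hb.ne_zero
      have c1 := one_le_nm' hc
      have b2 : (1 : ℝ) ≤ (nm b : ℝ) ^ 2 := one_le_pow₀ b1
      have c3 : (1 : ℝ) ≤ (nm c : ℝ) ^ 3 := one_le_pow₀ c1
      have hb3 : (nm b : ℝ) ≤ (nm b : ℝ) ^ 2 := by nlinarith
      have hc3 : (nm c : ℝ) ≤ (nm c : ℝ) ^ 3 := le_self_pow₀ c1 (by norm_num)
      have hcba : (nm c : ℝ) ^ 3 * (nm b : ℝ) ^ 2 * (nm a : ℝ) ≤ K := by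
        refine le_trans ?_ hK
        have : (nm c : ℝ) ^ 3 * (nm b : ℝ) ^ 2 * (nm a : ℝ) =
          1 * ((nm a : ℝ) * (nm b : ℝ) ^ 2 * (nm c : ℝ) ^ 3) := by ring
        rw [this]
        calc 1 * ((nm a : ℝ) * (nm b : ℝ) ^ 2 * (nm c : ℝ) ^ 3)
            ≤ nm t * ((nm a : ℝ) * (nm b : ℝ) ^ 2 * (nm c : ℝ) ^ 3) := by gcongr
          _ = _ := by ring
      rw [Pset, mem_filter]
      simp only [mem_product, mem_nz, mem_SF]
      refine ⟨⟨⟨ht0, by exact_mod_cast ht⟩, ⟨hc, ?_⟩, ⟨?_, hb, hb'⟩, ⟨?_, ha, ha'⟩⟩, hcba⟩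
      · calc (nm c : ℝ) ≤ (nm c : ℝ) ^ 3 * 1 * 1 := by linarith
          _ ≤ (nm c : ℝ) ^ 3 * (nm b : ℝ) ^ 2 * (nm a : ℝ) := by gcongr
          _ ≤ K := hcba
      · calc (nm b : ℝ) ≤ 1 * (nm b : ℝ) ^ 2 * 1 := by linarith
          _ ≤ (nm c : ℝ) ^ 3 * (nm b : ℝ) ^ 2 * (nm a : ℝ) := by gcongr
          _ ≤ K := hcba
      · calc (nm a : ℝ) = 1 * 1 * (nm a : ℝ) := by ring
          _ ≤ (nm c : ℝ) ^ 3 * (nm b : ℝ) ^ 2 * (nm a : ℝ) := by gcongr
          _ ≤ K := hcba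
    · exact ⟨(0, 0, 0, 0), fun h' => absurd h' hh⟩
  choose g hg using hex
  have hinj : Set.InjOn g (nz K : Set Eis) := by
    intro h1 hh1 h2 hh2 he
    rw [(hg h1 hh1).2, (hg h2 hh2).2, he]
  calc ∑ h ∈ nz K, F h
      = ∑ h ∈ nz K, F ((g h).1 * (g h).2.2.2 * (g h).2.2.1 ^ 2 * (g h).2.1 ^ 3) :=
        sum_congr rfl fun h hh => by rw [← (hg h hh).2]
    _ = ∑ p ∈ (nz K).image g, F (p.1 * p.2.2.2 * p.2.2.1 ^ 2 * p.2.1 ^ 3) := by
        rw [sum_image hinj]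
    _ ≤ _ := by
        refine sum_le_sum_of_subset_of_nonneg ?_ fun _ _ _ => hF _
        intro p hp
        rw [mem_image] at hp
        obtain ⟨h, hh, rfl⟩ := hp
        exact (hg h hh).1

/-- Sum over `a` for fixed `t, b, c`. -/
lemma sum_a_le (hφ : SymLike φ) {A N B : ℝ} (hB : 0 ≤ B) (h : Bf φ A N ≤ B) (t b c : Eis)
    (x : Eis → ℂ) :
    ∑ a ∈ SF A, ‖∑ n ∈ SF N, x n * φ (t * a * b ^ 2 * c ^ 3) n‖ ^ 2 ≤
      B * ∑ n ∈ SF N, ‖x n‖ ^ 2 := by
  have h1 := sum_twist_le hB (adm_of_bc_le h)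
    (ψ := fun n => φ t n * (φ b n ^ 2 * φ c n ^ 3)) (fun n hn => by
      rw [mem_SF] at hn
      have hp := hn.2.1
      rw [norm_mul, norm_mul, norm_pow, norm_pow]
      have e1 := hφ.norm_le t hp
      have e2 : ‖φ b n‖ ^ 2 ≤ 1 := pow_le_one₀ (norm_nonneg _) (hφ.norm_le b hp)
      have e3 : ‖φ c n‖ ^ 3 ≤ 1 := pow_le_one₀ (norm_nonneg _) (hφ.norm_le c hp)
      exact mul_le_one₀ e1 (by positivity) (mul_le_one₀ e2 (by positivity) e3)) x
  refine le_trans (le_of_eq ?_) h1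
  refine sum_congr rfl fun a _ => ?_
  congr 2
  refine sum_congr rfl fun n hn => ?_
  rw [mem_SF] at hn
  have hp := hn.2.1
  have hpow : ∀ (y : Eis) (k : ℕ), k ≠ 0 → φ (y ^ k) n = φ y n ^ k := by
    intro y k hk
    induction k with
    | zero => exact absurd rfl hk
    | succ k ih =>
      rcases Nat.eq_zero_or_pos k with h0 | h0
      · subst h0; simp
      · rw [pow_succ, hφ.mul _ _ _ hp, ih h0.ne', pow_succ]
  rw [hφ.mul _ _ _ hp, hφ.mul _ _ _ hp, hφ.mul _ _ _ hp, hpow b 2 (by norm_num),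
    hpow c 3 (by norm_num)]
  ring

/-- Sum over `b` for fixed `t, a, c`. -/
lemma sum_b_le (hφ : SymLike φ) {A N B : ℝ} (hB : 0 ≤ B) (h : Bf φ A N ≤ B) (t a c : Eis)
    (x : Eis → ℂ) :
    ∑ b ∈ SF A, ‖∑ n ∈ SF N, x n * φ (t * a * b ^ 2 * c ^ 3) n‖ ^ 2 ≤
      B * ∑ n ∈ SF N, ‖x n‖ ^ 2 := by
  have h1 := sum_twist_le hB (adm_of_bc_le h).conj
    (ψ := fun n => φ t n * (φ a n * φ c n ^ 3)) (fun n hn => by
      rw [mem_SF] at hn
      have hp := hn.2.1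
      rw [norm_mul, norm_mul, norm_pow]
      have e1 := hφ.norm_le t hp
      have e2 := hφ.norm_le a hp
      have e3 : ‖φ c n‖ ^ 3 ≤ 1 := pow_le_one₀ (norm_nonneg _) (hφ.norm_le c hp)
      exact mul_le_one₀ e1 (by positivity) (mul_le_one₀ e2 (by positivity) e3)) x
  refine le_trans (le_of_eq ?_) h1
  refine sum_congr rfl fun b _ => ?_
  congr 2
  refine sum_congr rfl fun n hn => ?_
  rw [mem_SF] at hn
  have hp := hn.2.1
  have hpow : ∀ (y : Eis) (k : ℕ), k ≠ 0 → φ (y ^ k) n = φ y n ^ k := by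
    intro y k hk
    induction k with
    | zero => exact absurd rfl hk
    | succ k ih =>
      rcases Nat.eq_zero_or_pos k with h0 | h0
      · subst h0; simp
      · rw [pow_succ, hφ.mul _ _ _ hp, ih h0.ne', pow_succ]
  rw [hφ.mul _ _ _ hp, hφ.mul _ _ _ hp, hφ.mul _ _ _ hp, hpow b 2 (by norm_num),
    hpow c 3 (by norm_num), hφ.sq b hp]
  ring

/-- The two size regimes. -/
lemma sum_Pset_le {F : Eis → ℝ} (hF : ∀ h, 0 ≤ F h) (K : ℝ) :
    ∑ p ∈ Pset K, F (p.1 * p.2.2.2 * p.2.2.1 ^ 2 * p.2.1 ^ 3) ≤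
      ∑ t ∈ nz 27, ∑ c ∈ nz K,
        ((∑ b ∈ nz K, if (nm b : ℝ) ^ 3 ≤ K / (nm c : ℝ) ^ 3 then
          ∑ a ∈ SF (K / (nm c : ℝ) ^ 3 / (nm b : ℝ) ^ 2), F (t * a * b ^ 2 * c ^ 3) else 0) +
        (∑ a ∈ nz K, if (nm a : ℝ) ^ 3 ≤ K / (nm c : ℝ) ^ 3 then
          ∑ b ∈ SF (Real.sqrt (K / (nm c : ℝ) ^ 3 / (nm a : ℝ))),
            F (t * a * b ^ 2 * c ^ 3) else 0)) := by
  classical
  rw [Pset, sum_filter, sum_product]
  refine sum_le_sum fun t _ => ?_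
  rw [sum_product]
  refine sum_le_sum fun c hc => ?_
  rw [sum_product]
  simp only
  rw [mem_nz] at hc
  have c1 := one_le_nm' hc.1
  have c3 : (0 : ℝ) < (nm c : ℝ) ^ 3 := by positivity
  set D : ℝ := K / (nm c : ℝ) ^ 3 with hD
  have hsplit : ∀ b ∈ SF K, ∀ a ∈ SF K,
      (if (nm c : ℝ) ^ 3 * (nm b : ℝ) ^ 2 * (nm a : ℝ) ≤ K then F (t * a * b ^ 2 * c ^ 3) else 0) ≤
      (if (nm b : ℝ) ^ 3 ≤ D then
        (if (nm b : ℝ) ^ 2 * (nm a : ℝ) ≤ D then F (t * a * b ^ 2 * c ^ 3) else 0) else 0) +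
      (if (nm a : ℝ) ^ 3 ≤ D then
        (if (nm b : ℝ) ^ 2 * (nm a : ℝ) ≤ D then F (t * a * b ^ 2 * c ^ 3) else 0) else 0) := by
    intro b hb a ha
    rw [mem_SF] at hb ha
    have b1 := one_le_nm' hb.2.1.ne_zero
    have a1 := one_le_nm' ha.2.1.ne_zero
    have hnn := hF (t * a * b ^ 2 * c ^ 3)
    by_cases h : (nm c : ℝ) ^ 3 * (nm b : ℝ) ^ 2 * (nm a : ℝ) ≤ K
    · have h' : (nm b : ℝ) ^ 2 * (nm a : ℝ) ≤ D := by
        rw [hD, le_div_iff₀ c3]; linarith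
      rw [if_pos h, if_pos h']
      rcases le_total (nm b : ℝ) (nm a) with hba | hab
      · have : (nm b : ℝ) ^ 3 ≤ D := by
          refine le_trans ?_ h'
          rw [pow_succ]; gcongr
        rw [if_pos this]
        have : 0 ≤ (if (nm a : ℝ) ^ 3 ≤ D then F (t * a * b ^ 2 * c ^ 3) else 0) := by
          split_ifs <;> simp [hnn]
        linarith
      · have : (nm a : ℝ) ^ 3 ≤ D := by
          refine le_trans ?_ h'
          rw [pow_succ]; gcongr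
        rw [if_pos this]
        have : 0 ≤ (if (nm b : ℝ) ^ 3 ≤ D then F (t * a * b ^ 2 * c ^ 3) else 0) := by
          split_ifs <;> simp [hnn]
        linarith
    · rw [if_neg h]
      have : ∀ P Q : Prop, ∀ [Decidable P] [Decidable Q], 0 ≤
          (if P then (if Q then F (t * a * b ^ 2 * c ^ 3) else 0) else 0) := by
        intro P Q _ _
        split_ifs <;> simp [hnn]
      exact add_nonneg (this _ _) (this _ _)
  refine (sum_le_sum fun b hb => sum_le_sum fun a ha => hsplit b hb a ha).trans ?_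
  simp_rw [sum_add_distrib]
  refine add_le_add ?_ ?_
  · refine le_trans ?_ (sum_le_sum_of_subset_of_nonneg (SF_subset_nz K) fun b _ _ => ?_)
    · refine sum_le_sum fun b hb => ?_
      rw [mem_SF] at hb
      have b1 := one_le_nm' hb.2.1.ne_zero
      by_cases hb3 : (nm b : ℝ) ^ 3 ≤ D
      · simp only [hb3, if_true]
        rw [← sum_filter]
        refine sum_le_sum_of_subset_of_nonneg ?_ fun _ _ _ => hF _
        intro a ha
        rw [mem_filter, mem_SF] at ha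
        rw [mem_SF]
        refine ⟨?_, ha.1.2⟩
        rw [le_div_iff₀ (by positivity)]
        linarith [ha.2]
      · simp only [hb3, if_false, sum_const_zero]; exact le_rfl
    · split_ifs
      · exact sum_nonneg fun _ _ => hF _
      · exact le_rfl
  · rw [sum_comm]
    refine le_trans ?_ (sum_le_sum_of_subset_of_nonneg (SF_subset_nz K) fun b _ _ => ?_)
    · refine sum_le_sum fun a ha => ?_
      rw [mem_SF] at ha
      have a1 := one_le_nm' ha.2.1.ne_zero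
      by_cases ha3 : (nm a : ℝ) ^ 3 ≤ D
      · simp only [ha3, if_true]
        rw [← sum_filter]
        refine sum_le_sum_of_subset_of_nonneg ?_ fun _ _ _ => hF _
        intro b hb
        rw [mem_filter, mem_SF] at hb
        rw [mem_SF]
        refine ⟨?_, hb.1.2⟩
        apply Real.le_sqrt_of_sq_le
        rw [le_div_iff₀ (by positivity)]
        exact hb.2
      · simp only [ha3, if_false, sum_const_zero]; exact le_rfl
    · split_ifs
      · exact sum_nonneg fun _ _ => hF _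
      · exact le_rfl

/-- Size computation in the first regime. -/
lemma size1 {N D T b : ℝ} (hN : 1 ≤ N) (hT : 1 ≤ T) (hD : D ≤ N * T) (hb : 1 ≤ b)
    (hbD : b ^ 3 ≤ D) :
    N + (D / b ^ 2 * N) ^ ((2 : ℝ) / 3) ≤ 2 * T * D ^ ((1 : ℝ) / 3) * N / b := by
  have hb0 : 0 < b := by linarith
  have hD0 : 0 < D := lt_of_lt_of_le (by positivity) hbD
  have hbD' : b ≤ D ^ ((1 : ℝ) / 3) := by
    calc b = (b ^ 3) ^ ((1 : ℝ) / 3) := by
          rw [← Real.rpow_natCast, ← Real.rpow_mul hb0.le]; norm_num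
      _ ≤ _ := by gcongr
  set d : ℝ := D ^ ((1 : ℝ) / 3) with hd
  have hd0 : 0 < d := by positivity
  have hd3 : d ^ 3 = D := by
    rw [hd, ← Real.rpow_natCast, ← Real.rpow_mul hD0.le]; norm_num
  have h1 : N ≤ T * d * N / b := by
    rw [le_div_iff₀ hb0]
    calc N * b ≤ N * d := by gcongr
      _ = 1 * d * N := by ring
      _ ≤ T * d * N := by gcongr
  have h2 : (D / b ^ 2 * N) ^ ((2 : ℝ) / 3) ≤ T * d * N / b := by
    have hpos : 0 ≤ T * d * N / b := by positivity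
    have hrw : T * d * N / b = ((T * d * N / b) ^ ((3 : ℝ) / 2)) ^ ((2 : ℝ) / 3) := by
      rw [← Real.rpow_mul hpos]; norm_num
    rw [hrw]
    refine Real.rpow_le_rpow (by positivity) ?_ (by norm_num)
    -- D/b² N ≤ (T d N/b)^{3/2}; square both sides
    have hsq : (D / b ^ 2 * N) ^ 2 ≤ (T * d * N / b) ^ 3 := by
      rw [← hd3] at hD ⊢
      -- d^6/b^4 N^2 ≤ T^3 d^3 N^3 / b^3
      rw [div_mul_eq_mul_div, div_pow, div_pow, div_le_div_iff₀ (by positivity) (by positivity)]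
      have e1 : (d ^ 3 * N) ^ 2 * b ^ 3 = (d ^ 3 * N ^ 2 * b ^ 3) * d ^ 3 := by ring
      have e2 : (T * d * N) ^ 3 * (b ^ 2) ^ 2 = (d ^ 3 * N ^ 2 * b ^ 3) * (N * T * (T ^ 2 * b)) := by
        ring
      rw [e1, e2]
      refine mul_le_mul_of_nonneg_left (hD.trans ?_) (by positivity)
      have : 1 ≤ T ^ 2 * b := one_le_mul_of_one_le_of_one_le (one_le_pow₀ hT) hb
      exact le_mul_of_one_le_right (by positivity) this
    have hgen : ∀ y : ℝ, 0 ≤ y → y = (y ^ 2) ^ ((1 : ℝ) / 2) := fun y hy => by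
      rw [← Real.rpow_natCast, ← Real.rpow_mul hy]; norm_num
    calc D / b ^ 2 * N = ((D / b ^ 2 * N) ^ 2) ^ ((1 : ℝ) / 2) := hgen _ (by positivity)
      _ ≤ ((T * d * N / b) ^ 3) ^ ((1 : ℝ) / 2) := by gcongr
      _ = (T * d * N / b) ^ ((3 : ℝ) / 2) := by
          rw [← Real.rpow_natCast, ← Real.rpow_mul (by positivity)]; norm_num
  calc _ ≤ T * d * N / b + T * d * N / b := add_le_add h1 h2
    _ = _ := by ring

/-- Size computation in the second regime. -/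
lemma size2 {N D T a : ℝ} (hN : 1 ≤ N) (hT : 1 ≤ T) (hD : D ≤ N * T) (ha : 1 ≤ a)
    (haD : a ^ 3 ≤ D) :
    N + (Real.sqrt (D / a) * N) ^ ((2 : ℝ) / 3) ≤ 2 * T * D ^ ((1 : ℝ) / 3) * N / a := by
  have ha0 : 0 < a := by linarith
  have hD0 : 0 < D := lt_of_lt_of_le (by positivity) haD
  have haD' : a ≤ D ^ ((1 : ℝ) / 3) := by
    calc a = (a ^ 3) ^ ((1 : ℝ) / 3) := by
          rw [← Real.rpow_natCast, ← Real.rpow_mul ha0.le]; norm_num
      _ ≤ _ := by gcongr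
  set d : ℝ := D ^ ((1 : ℝ) / 3) with hd
  have hd0 : 0 < d := by positivity
  have hd3 : d ^ 3 = D := by
    rw [hd, ← Real.rpow_natCast, ← Real.rpow_mul hD0.le]; norm_num
  have h1 : N ≤ T * d * N / a := by
    rw [le_div_iff₀ ha0]
    calc N * a ≤ N * d := by gcongr
      _ = 1 * d * N := by ring
      _ ≤ T * d * N := by gcongr
  have h2 : (Real.sqrt (D / a) * N) ^ ((2 : ℝ) / 3) ≤ T * d * N / a := by
    have hpos : 0 ≤ T * d * N / a := by positivity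
    have hsq : (Real.sqrt (D / a) * N) ^ 2 ≤ (T * d * N / a) ^ 3 := by
      rw [mul_pow, Real.sq_sqrt (by positivity)]
      rw [← hd3] at hD ⊢
      -- d^3 / a * N^2 ≤ T^3 d^3 N^3 / a^3
      rw [div_mul_eq_mul_div, div_pow, div_le_div_iff₀ (by positivity) (by positivity)]
      have e1 : (d ^ 3 * N ^ 2) * a ^ 3 = (d ^ 3 * N ^ 2 * a) * a ^ 2 := by ring
      have e2 : (T * d * N) ^ 3 * a = (d ^ 3 * N ^ 2 * a) * (T ^ 3 * N) := by ring
      rw [e1, e2]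
      refine mul_le_mul_of_nonneg_left ?_ (by positivity)
      -- a^2 ≤ a^3 ≤ D ≤ N T ≤ T^3 N
      rw [hd3] at hD
      calc a ^ 2 ≤ a ^ 3 := pow_le_pow_right₀ ha (by norm_num)
        _ ≤ D := haD
        _ ≤ N * T := hD
        _ ≤ N * T ^ 3 := by gcongr; exact le_self_pow₀ hT (by norm_num)
        _ = _ := by ring
    calc (Real.sqrt (D / a) * N) ^ ((2 : ℝ) / 3)
        = ((Real.sqrt (D / a) * N) ^ 2) ^ ((1 : ℝ) / 3) := by
          rw [← Real.rpow_natCast, ← Real.rpow_mul (by positivity)]; norm_num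
      _ ≤ ((T * d * N / a) ^ 3) ^ ((1 : ℝ) / 3) := by gcongr
      _ = T * d * N / a := by
          rw [← Real.rpow_natCast, ← Real.rpow_mul (by positivity)]; norm_num
  calc _ ≤ T * d * N / a + T * d * N / a := add_le_add h1 h2
    _ = _ := by ring

/-- The constant. -/
def cT : ℝ := 4 * #(nz 27)

lemma cT_nonneg : 0 ≤ cT := by unfold cT; positivity

/-- STEP 1 (+ the size computation of STEP 3): all numerators. -/
theorem B2f_le (hφ : SymLike φ) {K N T G : ℝ} (hN : 1 ≤ N) (hT : 1 ≤ T) (hK1 : 1 ≤ K)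
    (hK : K ≤ N * T) (hG : 0 ≤ G)
    (hB : ∀ A : ℝ, 1 ≤ A → A ≤ K → Bf φ A N ≤ G * (N + (A * N) ^ ((2 : ℝ) / 3))) :
    B2f φ K N ≤ cT * T * G * K ^ ((1 : ℝ) / 3) * N * LL K ^ 2 := by
  have hK0 : 0 < K := by linarith
  refine bc_le (by have := cT_nonneg; have := LL_nonneg K; positivity) fun x => ?_
  set X : ℝ := ∑ n ∈ SF N, ‖x n‖ ^ 2 with hX
  have hX0 : 0 ≤ X := by positivity
  refine (sum_nz_le_Pset (F := fun h => ‖∑ n ∈ SF N, x n * φ h n‖ ^ 2)
    (fun _ => by positivity) K).trans ?_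
  refine (sum_Pset_le (F := fun h => ‖∑ n ∈ SF N, x n * φ h n‖ ^ 2)
    (fun _ => by positivity) K).trans ?_
  have hinner : ∀ t : Eis, ∀ c ∈ nz K,
      ((∑ b ∈ nz K, if (nm b : ℝ) ^ 3 ≤ K / (nm c : ℝ) ^ 3 then
          ∑ a ∈ SF (K / (nm c : ℝ) ^ 3 / (nm b : ℝ) ^ 2),
            ‖∑ n ∈ SF N, x n * φ (t * a * b ^ 2 * c ^ 3) n‖ ^ 2 else 0) +
        (∑ a ∈ nz K, if (nm a : ℝ) ^ 3 ≤ K / (nm c : ℝ) ^ 3 then
          ∑ b ∈ SF (Real.sqrt (K / (nm c : ℝ) ^ 3 / (nm a : ℝ))),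
            ‖∑ n ∈ SF N, x n * φ (t * a * b ^ 2 * c ^ 3) n‖ ^ 2 else 0)) ≤
      (4 * T * G * K ^ ((1 : ℝ) / 3) * N * LL K * X) * (1 / (nm c : ℝ)) := by
    intro t c hc
    rw [mem_nz] at hc
    have c1 := one_le_nm' hc.1
    have c0 : (0 : ℝ) < nm c := by linarith
    set D : ℝ := K / (nm c : ℝ) ^ 3 with hD
    have hDK : D ≤ K := div_le_self hK0.le (one_le_pow₀ c1)
    have hD0 : 0 < D := by positivity
    have hDr : D ^ ((1 : ℝ) / 3) = K ^ ((1 : ℝ) / 3) / nm c := by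
      rw [hD, Real.div_rpow hK0.le (by positivity)]
      congr 1
      rw [← Real.rpow_natCast, ← Real.rpow_mul c0.le]; norm_num
    have hs1 : (∑ b ∈ nz K, if (nm b : ℝ) ^ 3 ≤ D then
          ∑ a ∈ SF (D / (nm b : ℝ) ^ 2),
            ‖∑ n ∈ SF N, x n * φ (t * a * b ^ 2 * c ^ 3) n‖ ^ 2 else 0) ≤
        ∑ b ∈ nz K, (2 * T * G * D ^ ((1 : ℝ) / 3) * N * X) * (1 / (nm b : ℝ)) := by
      refine sum_le_sum fun b hb => ?_
      rw [mem_nz] at hb
      have b1 := one_le_nm' hb.1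
      have b0 : (0 : ℝ) < nm b := by linarith
      split_ifs with h3
      · have hA1 : 1 ≤ D / (nm b : ℝ) ^ 2 := by
          rw [le_div_iff₀ (by positivity)]
          calc 1 * (nm b : ℝ) ^ 2 ≤ (nm b : ℝ) ^ 3 := by
                rw [one_mul]; exact pow_le_pow_right₀ b1 (by norm_num)
            _ ≤ D := h3
        have hA2 : D / (nm b : ℝ) ^ 2 ≤ K :=
          (div_le_self hD0.le (one_le_pow₀ b1)).trans hDK
        have hsz := size1 hN hT (hDK.trans hK) b1 h3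
        have hBA : Bf φ (D / (nm b : ℝ) ^ 2) N ≤
            G * (2 * T * D ^ ((1 : ℝ) / 3) * N / nm b) :=
          (hB _ hA1 hA2).trans (mul_le_mul_of_nonneg_left hsz hG)
        refine (sum_a_le hφ (by positivity) hBA t b c x).trans (le_of_eq ?_)
        rw [← hX]; ring
      · positivity
    have hs2 : (∑ a ∈ nz K, if (nm a : ℝ) ^ 3 ≤ D then
          ∑ b ∈ SF (Real.sqrt (D / (nm a : ℝ))),
            ‖∑ n ∈ SF N, x n * φ (t * a * b ^ 2 * c ^ 3) n‖ ^ 2 else 0) ≤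
        ∑ a ∈ nz K, (2 * T * G * D ^ ((1 : ℝ) / 3) * N * X) * (1 / (nm a : ℝ)) := by
      refine sum_le_sum fun a ha => ?_
      rw [mem_nz] at ha
      have a1 := one_le_nm' ha.1
      have a0 : (0 : ℝ) < nm a := by linarith
      split_ifs with h3
      · have hA1 : 1 ≤ Real.sqrt (D / (nm a : ℝ)) := by
          rw [Real.one_le_sqrt, le_div_iff₀ a0]
          calc 1 * (nm a : ℝ) ≤ (nm a : ℝ) ^ 3 := by
                rw [one_mul]; exact le_self_pow₀ a1 (by norm_num)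
            _ ≤ D := h3
        have hA2 : Real.sqrt (D / (nm a : ℝ)) ≤ K := by
          rw [Real.sqrt_le_left (by linarith)]
          calc D / (nm a : ℝ) ≤ D := div_le_self hD0.le a1
            _ ≤ K := hDK
            _ ≤ K ^ 2 := le_self_pow₀ hK1 (by norm_num)
        have hsz := size2 hN hT (hDK.trans hK) a1 h3
        have hBA : Bf φ (Real.sqrt (D / (nm a : ℝ))) N ≤
            G * (2 * T * D ^ ((1 : ℝ) / 3) * N / nm a) :=
          (hB _ hA1 hA2).trans (mul_le_mul_of_nonneg_left hsz hG)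
        refine (sum_b_le hφ (by positivity) hBA t a c x).trans (le_of_eq ?_)
        rw [← hX]; ring
      · positivity
    refine (add_le_add hs1 hs2).trans (le_of_eq ?_)
    rw [← mul_sum, hDr]
    have : ∑ b ∈ nz K, (1 : ℝ) / (nm b : ℝ) = LL K := rfl
    rw [this]
    ring
  calc _ ≤ ∑ t ∈ nz 27, ∑ c ∈ nz K,
        (4 * T * G * K ^ ((1 : ℝ) / 3) * N * LL K * X) * (1 / (nm c : ℝ)) :=
        sum_le_sum fun t _ => sum_le_sum fun c hc => hinner t c hc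
    _ = _ := by
        rw [← mul_sum, sum_const, nsmul_eq_mul]
        have : ∑ b ∈ nz K, (1 : ℝ) / (nm b : ℝ) = LL K := rfl
        rw [this, cT]
        ring

end Crest.Agent.R012.LS448
end
end

-- ▼ part R012/LS2ind_448
section

/-!
# Row 12: the induction in Heath-Brown's cubic large sieve (STEP 3 and STEP 4 of (L2))

`hbLS_of_step2` : from the output `Step2 φ` of the Poisson step,
`Bf φ M N ≤ C (MN)^ε (M + N + (MN)^(2/3))`.
-/

set_option autoImplicit false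

noncomputable section

open Finset

namespace Crest.Agent.R012.LS448

open Crest.Agent.R012 Crest.Agent.R012.Eis

variable {φ : Eis → Eis → ℂ}

/-- The output of the Poisson step. -/
def Step2 (φ : Eis → Eis → ℂ) : Prop :=
  ∀ ε : ℝ, 0 < ε → ∃ C : ℝ, 0 < C ∧ ∀ M N G : ℝ, 1 ≤ M → 1 ≤ N → 0 ≤ G →
    (∀ d e : ℝ, 1 ≤ e → e ≤ d → d ≤ N →
      M * d / (e * N) * B2f φ (e * N ^ 2 * (M * N) ^ ε / (d ^ 2 * M)) (N / d) ≤ G) →
    Bdy φ M N ≤ C * (M * N) ^ ε * (M + G)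

/-- The statement `Q_j` for `x = x_j`. -/
def PP (φ : Eis → Eis → ℂ) (x : ℝ) : Prop :=
  ∀ ε : ℝ, 0 < ε → ∃ C : ℝ, 0 < C ∧ ∀ M N : ℝ, 1 ≤ M → 1 ≤ N → N ^ x ≤ M →
    Bf φ M N ≤ C * (M * N) ^ ε * (M + (M * N) ^ ((2 : ℝ) / 3))

/-- Dyadic decomposition of the columns. -/
lemma Bf_le_of_Bdy {M N Y : ℝ} (hN : 1 ≤ N) (hY : 0 ≤ Y)
    (h : ∀ N' : ℝ, 1 ≤ N' → N' ≤ N → Bdy φ M N' ≤ Y) :
    Bf φ M N ≤ ((Nat.log 2 ⌊N⌋₊ : ℝ) + 1) * Y := by
  classical
  set L := Nat.log 2 ⌊N⌋₊ with hL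
  have hN0 : 0 < N := by linarith
  have hpow : (2 : ℝ) ^ L ≤ N := by
    have h2 : 2 ^ L ≤ ⌊N⌋₊ := Nat.pow_log_le_self 2 (Nat.floor_pos.mpr hN).ne'
    calc (2 : ℝ) ^ L ≤ (⌊N⌋₊ : ℝ) := by exact_mod_cast h2
      _ ≤ N := Nat.floor_le hN0.le
  have hsub : SF N ⊆ (range (L + 1)).biUnion (fun i => SFdy (N / 2 ^ i)) := by
    intro n hn
    rw [mem_SF] at hn
    have n1 := one_le_nm' hn.2.1.ne_zero
    have n0 : (0 : ℝ) < nm n := by linarith
    rw [mem_biUnion]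
    set i := Nat.log 2 ⌊N / nm n⌋₊ with hi
    have hfl : 0 < ⌊N / nm n⌋₊ := Nat.floor_pos.mpr (by rw [le_div_iff₀ n0]; linarith [hn.1])
    have h1 : 2 ^ i ≤ ⌊N / nm n⌋₊ := Nat.pow_log_le_self 2 hfl.ne'
    have h2 : ⌊N / nm n⌋₊ < 2 ^ (i + 1) := Nat.lt_pow_succ_log_self (by norm_num) _
    have h1' : (2 : ℝ) ^ i ≤ N / nm n := by
      calc (2 : ℝ) ^ i ≤ (⌊N / nm n⌋₊ : ℝ) := by exact_mod_cast h1
        _ ≤ _ := Nat.floor_le (by positivity)
    have h2' : N / nm n < (2 : ℝ) ^ (i + 1) := by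
      have := (Nat.floor_lt (by positivity)).mp h2
      exact_mod_cast this
    refine ⟨i, ?_, ?_⟩
    · rw [mem_range, Nat.lt_succ_iff]
      exact Nat.log_mono_right (Nat.floor_le_floor (div_le_self hN0.le n1))
    · rw [mem_SFdy]
      refine ⟨?_, ?_, hn.2⟩
      · rw [div_div, ← pow_succ, div_lt_iff₀ (by positivity)]
        rw [div_lt_iff₀ n0] at h2'
        linarith
      · rw [le_div_iff₀ (by positivity)]
        rw [le_div_iff₀ n0] at h1'
        linarith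
  have hdisj : ((range (L + 1) : Finset ℕ) : Set ℕ).PairwiseDisjoint
      (fun i => SFdy (N / 2 ^ i)) := by
    have key : ∀ i j : ℕ, i < j → Disjoint (SFdy (N / 2 ^ i)) (SFdy (N / 2 ^ j)) := by
      intro i j hij
      rw [Finset.disjoint_left]
      intro n hn hn'
      rw [mem_SFdy] at hn hn'
      have h1 := hn.1
      have h2 := hn'.2.1
      rw [div_div, ← pow_succ] at h1
      have h3 : N / 2 ^ j ≤ N / 2 ^ (i + 1) := by
        apply div_le_div_of_nonneg_left hN0.le (by positivity)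
        exact pow_le_pow_right₀ (by norm_num) hij
      linarith
    intro i _ j _ hij
    rcases lt_or_gt_of_ne hij with h | h
    · exact key i j h
    · exact (key j i h).symm
  calc Bf φ M N ≤ bc (SF M) ((range (L + 1)).biUnion (fun i => SFdy (N / 2 ^ i))) φ :=
        bc_mono_right _ hsub _
    _ ≤ #(range (L + 1)) * Y := by
        refine bc_biUnion_right_le _ _ _ hdisj _ hY fun i hi => ?_
        rw [mem_range, Nat.lt_succ_iff] at hi
        refine h _ ?_ (div_le_self hN0.le (one_le_pow₀ (by norm_num)))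
        rw [le_div_iff₀ (by positivity), one_mul]
        exact (pow_le_pow_right₀ (by norm_num) hi).trans hpow
    _ = _ := by rw [card_range]; push_cast; ring

/-- From dyadic columns to all columns. -/
lemma PP_of_dy {x : ℝ} (hx : 0 ≤ x)
    (h : ∀ ε : ℝ, 0 < ε → ∃ C : ℝ, 0 < C ∧ ∀ M N : ℝ, 1 ≤ M → 1 ≤ N → N ^ x ≤ M →
      Bdy φ M N ≤ C * (M * N) ^ ε * (M + (M * N) ^ ((2 : ℝ) / 3))) : PP φ x := by
  intro ε hε
  obtain ⟨C, hC, hb⟩ := h (ε / 2) (by positivity)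
  obtain ⟨C', hC', hl⟩ := log2_floor_le (ε := ε / 2) (by positivity)
  refine ⟨C' * C, by positivity, fun M N hM hN hx' => ?_⟩
  have hM0 : 0 < M := by linarith
  have hN0 : 0 < N := by linarith
  set Y : ℝ := C * (M * N) ^ (ε / 2) * (M + (M * N) ^ ((2 : ℝ) / 3)) with hY
  have hY0 : 0 ≤ Y := by positivity
  have h1 : ∀ N' : ℝ, 1 ≤ N' → N' ≤ N → Bdy φ M N' ≤ Y := by
    intro N' h1' h2'
    have h0' : 0 < N' := by linarith
    refine (hb M N' hM h1' ((Real.rpow_le_rpow h0'.le h2' hx).trans hx')).trans ?_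
    rw [hY]; gcongr
  refine (Bf_le_of_Bdy hN hY0 h1).trans ?_
  calc ((Nat.log 2 ⌊N⌋₊ : ℝ) + 1) * Y ≤ (C' * N ^ (ε / 2)) * Y := by gcongr; exact hl N hN
    _ ≤ (C' * (M * N) ^ (ε / 2)) * Y := by
        gcongr
        exact le_mul_of_one_le_left hN0.le hM
    _ = C' * C * ((M * N) ^ (ε / 2) * (M * N) ^ (ε / 2)) * (M + (M * N) ^ ((2 : ℝ) / 3)) := by
        rw [hY]; ring
    _ = _ := by
        rw [← Real.rpow_add (by positivity)]; congr 3; ring

/-- Using `PP` slightly outside its range. -/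
lemma PP.ext {x : ℝ} (h : PP φ x) {ε : ℝ} (hε : 0 < ε) :
    ∃ C : ℝ, 0 < C ∧ ∀ M N T : ℝ, 1 ≤ M → 1 ≤ N → 1 ≤ T → N ^ x ≤ M * T →
      Bf φ M N ≤ C * (M * N * T) ^ ε * T * (M + (M * N) ^ ((2 : ℝ) / 3)) := by
  obtain ⟨C, hC, hb⟩ := h ε hε
  refine ⟨C, hC, fun M N T hM hN hT hx => ?_⟩
  have hM0 : 0 < M := by linarith
  have hN0 : 0 < N := by linarith
  have hT0 : 0 < T := by linarith
  have h1 := hb (M * T) N (one_le_mul_of_one_le_of_one_le hM hT) hN hx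
  refine (Bf_mono (le_mul_of_one_le_right hM0.le hT) le_rfl).trans (h1.trans ?_)
  have e1 : M * T * N = M * N * T := by ring
  rw [e1]
  have h2 : (M * N * T) ^ ((2 : ℝ) / 3) ≤ T * (M * N) ^ ((2 : ℝ) / 3) := by
    rw [Real.mul_rpow (by positivity) hT0.le, mul_comm]
    gcongr
    calc T ^ ((2 : ℝ) / 3) ≤ T ^ (1 : ℝ) := Real.rpow_le_rpow_of_exponent_le hT (by norm_num)
      _ = T := Real.rpow_one T
  calc C * (M * N * T) ^ ε * (M * T + (M * N * T) ^ ((2 : ℝ) / 3))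
      ≤ C * (M * N * T) ^ ε * (M * T + T * (M * N) ^ ((2 : ℝ) / 3)) := by gcongr
    _ = _ := by ring

/-- `PP 2`. -/
lemma PP_two (hφ : SymLike φ) (h2 : Step2 φ) : PP φ 2 := by
  refine PP_of_dy (by norm_num) fun ε hε => ?_
  set δ : ℝ := min ε 1 / 4 with hδ
  have hδ0 : 0 < δ := by positivity
  have hδ1 : δ ≤ 1 := by have := min_le_right ε 1; rw [hδ]; linarith
  have hδε : 4 * δ ≤ ε := by have := min_le_left ε 1; rw [hδ]; linarith
  obtain ⟨C, hC, hs⟩ := h2 δ hδ0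
  obtain ⟨C', hC', hl⟩ := LL_le hδ0
  refine ⟨C * (1 + C' ^ 2), by positivity, fun M N hM hN hx => ?_⟩
  have hM0 : 0 < M := by linarith
  have hN0 : 0 < N := by linarith
  have hMN : 1 ≤ M * N := one_le_mul_of_one_le_of_one_le hM hN
  rw [Real.rpow_two] at hx
  set p : ℝ := (M * N) ^ δ with hp
  have hp1 : 1 ≤ p := Real.one_le_rpow hMN hδ0.le
  have hpP : p ≤ M * N := by
    calc p ≤ (M * N) ^ (1 : ℝ) := Real.rpow_le_rpow_of_exponent_le hMN hδ1
      _ = _ := Real.rpow_one _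
  have hp0 : 0 < p := by linarith
  have hG : ∀ d e : ℝ, 1 ≤ e → e ≤ d → d ≤ N →
      M * d / (e * N) * B2f φ (e * N ^ 2 * p / (d ^ 2 * M)) (N / d) ≤ M * C' ^ 2 * p ^ 3 := by
    intro d e he hed hdN
    have he0 : 0 < e := by linarith
    have hd1 : 1 ≤ d := he.trans hed
    have hd0 : 0 < d := by linarith
    have hK : e * N ^ 2 * p / (d ^ 2 * M) ≤ p := by
      rw [div_le_iff₀ (by positivity)]
      have h1 : e ≤ d ^ 2 := hed.trans (le_self_pow₀ hd1 (by norm_num))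
      calc e * N ^ 2 * p ≤ d ^ 2 * M * p := by gcongr
        _ = _ := by ring
    have hL1 : LL (e * N ^ 2 * p / (d ^ 2 * M)) ≤ C' * p :=
      (LL_mono (hK.trans hpP)).trans (hl _ hMN)
    have hL2 : LL (N / d) ≤ C' * p := by
      refine (LL_mono ?_).trans (hl _ hMN)
      exact (div_le_self hN0.le hd1).trans (le_mul_of_one_le_left hN0.le hM)
    have hKn : 0 ≤ e * N ^ 2 * p / (d ^ 2 * M) := by positivity
    have h3 := B2f_trivial hφ (e * N ^ 2 * p / (d ^ 2 * M)) (N / d) hKn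
    calc M * d / (e * N) * B2f φ (e * N ^ 2 * p / (d ^ 2 * M)) (N / d)
        ≤ M * d / (e * N) * ((e * N ^ 2 * p / (d ^ 2 * M) * (C' * p)) * (N / d * (C' * p))) := by
          refine mul_le_mul_of_nonneg_left (h3.trans ?_) (by positivity)
          have := LL_nonneg (N / d)
          gcongr
      _ = N ^ 2 / d ^ 2 * C' ^ 2 * p ^ 3 := by field_simp
      _ ≤ M * C' ^ 2 * p ^ 3 := by
          gcongr
          exact (div_le_self (by positivity) (one_le_pow₀ hd1)).trans hx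
  refine (hs M N (M * C' ^ 2 * p ^ 3) hM hN (by positivity) hG).trans ?_
  have hp4 : p ^ 4 ≤ (M * N) ^ ε := by
    rw [hp, ← Real.rpow_natCast, ← Real.rpow_mul (by positivity)]
    refine Real.rpow_le_rpow_of_exponent_le hMN ?_
    push_cast; linarith
  have hp3 : 1 ≤ p ^ 3 := one_le_pow₀ hp1
  calc C * p * (M + M * C' ^ 2 * p ^ 3)
      ≤ C * p * (M * p ^ 3 + M * C' ^ 2 * p ^ 3) := by
        gcongr
        exact le_mul_of_one_le_right hM0.le hp3
    _ = C * (1 + C' ^ 2) * p ^ 4 * M := by ring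
    _ ≤ C * (1 + C' ^ 2) * (M * N) ^ ε * (M + (M * N) ^ ((2 : ℝ) / 3)) := by
        gcongr
        have : 0 ≤ (M * N) ^ ((2 : ℝ) / 3) := by positivity
        linarith

/-- The induction step. -/
lemma PP_step (hφ : SymLike φ) (h2 : Step2 φ) {x : ℝ} (hx1 : 1 ≤ x) (hx2 : x ≤ 2)
    (hP : PP φ x) : PP φ (2 - 1 / x) := by
  have hx0 : 0 < x := by linarith
  have hxi : 1 / x ≤ 1 := by rw [div_le_one hx0]; exact hx1
  have hxi0 : 0 < 1 / x := by positivity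
  have hx' : 1 ≤ 2 - 1 / x := by linarith
  refine PP_of_dy (by linarith) fun ε hε => ?_
  set δ : ℝ := min ε 1 / 100 with hδ
  have hδ0 : 0 < δ := by positivity
  have hδ1 : 100 * δ ≤ 1 := by have := min_le_right ε 1; rw [hδ]; linarith
  have hδε : 100 * δ ≤ ε := by have := min_le_left ε 1; rw [hδ]; linarith
  obtain ⟨C₁, hC₁, hb⟩ := hP.ext hδ0
  obtain ⟨C₂, hC₂, hl⟩ := LL_le hδ0
  obtain ⟨C₃, hC₃, hs⟩ := h2 δ hδ0
  have hcT := cT_nonneg
  refine ⟨C₃ * (1 + cT * C₁ * C₂ ^ 2), by positivity, fun M N hM hN hxM => ?_⟩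
  have hM0 : 0 < M := by linarith
  have hN0 : 0 < N := by linarith
  have hMN : 1 ≤ M * N := one_le_mul_of_one_le_of_one_le hM hN
  have hpε : (M * N) ^ (26 * δ) ≤ (M * N) ^ ε :=
    Real.rpow_le_rpow_of_exponent_le hMN (by linarith)
  have hQ0 : 0 < (M * N) ^ ((2 : ℝ) / 3) := by positivity
  rcases lt_or_ge (N ^ 3) M with hbig | hsmall
  · -- M large: no dual terms
    have hM1 : 1 < M := lt_of_le_of_lt (one_le_pow₀ hN) hbig
    have hG : ∀ d e : ℝ, 1 ≤ e → e ≤ d → d ≤ N →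
        M * d / (e * N) * B2f φ (e * N ^ 2 * (M * N) ^ δ / (d ^ 2 * M)) (N / d) ≤ 0 := by
      intro d e he hed hdN
      have he0 : 0 < e := by linarith
      have hd1 : 1 ≤ d := he.trans hed
      have hd0 : 0 < d := by linarith
      rw [B2f_eq_zero, mul_zero]
      rw [div_lt_one (by positivity)]
      have h1 : e ≤ d ^ 2 := hed.trans (le_self_pow₀ hd1 (by norm_num))
      have h3 : N ≤ M ^ ((1 : ℝ) / 3) := by
        calc N = (N ^ 3) ^ ((1 : ℝ) / 3) := by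
              rw [← Real.rpow_natCast, ← Real.rpow_mul hN0.le]; norm_num
          _ ≤ M ^ ((1 : ℝ) / 3) := by gcongr
      have h4 : (M * N) ^ δ ≤ M ^ (2 * δ) := by
        calc (M * N) ^ δ ≤ (M * M) ^ δ := by
              have : N ≤ M := by
                calc N ≤ N ^ 3 := le_self_pow₀ hN (by norm_num)
                  _ ≤ M := hbig.le
              gcongr
          _ = M ^ (2 * δ) := by
              rw [Real.mul_rpow hM0.le hM0.le, ← Real.rpow_add hM0]; ring_nf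
      have h5 : N ^ 2 * (M * N) ^ δ < M := by
        calc N ^ 2 * (M * N) ^ δ ≤ (M ^ ((1 : ℝ) / 3)) ^ 2 * M ^ (2 * δ) := by gcongr
          _ = M ^ ((2 : ℝ) / 3 + 2 * δ) := by
              rw [← Real.rpow_natCast, ← Real.rpow_mul hM0.le, ← Real.rpow_add hM0]
              norm_num
          _ < M ^ (1 : ℝ) := Real.rpow_lt_rpow_of_exponent_lt hM1 (by linarith)
          _ = M := Real.rpow_one M
      calc e * N ^ 2 * (M * N) ^ δ ≤ d ^ 2 * (N ^ 2 * (M * N) ^ δ) := by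
            rw [mul_assoc]; gcongr
        _ < d ^ 2 * M := by gcongr
    refine (hs M N 0 hM hN le_rfl hG).trans ?_
    have h6 : (M * N) ^ δ ≤ (M * N) ^ ε := Real.rpow_le_rpow_of_exponent_le hMN (by linarith)
    calc C₃ * (M * N) ^ δ * (M + 0) ≤ C₃ * (M * N) ^ ε * (M + (M * N) ^ ((2 : ℝ) / 3)) := by
          gcongr
      _ ≤ _ := by
          gcongr
          have : 0 ≤ cT * C₁ * C₂ ^ 2 := by positivity
          nlinarith
  · -- M ≤ N³
    set y : ℝ := N ^ δ with hy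
    have hy1 : 1 ≤ y := Real.one_le_rpow hN hδ0.le
    have hy0 : 0 < y := by linarith
    have hypow : ∀ k : ℕ, y ^ k = N ^ (k * δ) := by
      intro k
      rw [hy, ← Real.rpow_natCast, ← Real.rpow_mul hN0.le, mul_comm]
    have hyk : ∀ k : ℕ, (k : ℝ) * δ ≤ 1 → (y ^ k) ^ δ ≤ y := by
      intro k hk
      rw [hypow, ← Real.rpow_mul hN0.le]
      exact Real.rpow_le_rpow_of_exponent_le hN (by nlinarith)
    have hMNδ : (M * N) ^ δ ≤ y ^ 4 := by
      rw [hypow]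
      calc (M * N) ^ δ ≤ (N ^ 3 * N) ^ δ := by gcongr
        _ = (N ^ (4 : ℝ)) ^ δ := by
            congr 1
            rw [show N ^ 3 * N = N ^ (4 : ℕ) by ring, ← Real.rpow_natCast]; norm_num
        _ = N ^ (((4 : ℕ) : ℝ) * δ) := by rw [← Real.rpow_mul hN0.le]; norm_num
    set T : ℝ := y ^ 8 with hT
    have hT1 : 1 ≤ T := one_le_pow₀ hy1
    have hT0 : 0 < T := by linarith
    -- N² ≤ N^{1/x} M
    have hN2 : N ^ 2 ≤ N ^ (1 / x) * M := by
      calc N ^ 2 = N ^ (1 / x) * N ^ (2 - 1 / x) := by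
            rw [← Real.rpow_add hN0, ← Real.rpow_natCast]; norm_num
        _ ≤ N ^ (1 / x) * M := by gcongr
    have hG : ∀ d e : ℝ, 1 ≤ e → e ≤ d → d ≤ N →
        M * d / (e * N) * B2f φ (e * N ^ 2 * (M * N) ^ δ / (d ^ 2 * M)) (N / d) ≤
          cT * C₁ * C₂ ^ 2 * y ^ 25 * (M * N) ^ ((2 : ℝ) / 3) := by
      intro d e he hed hdN
      have he0 : 0 < e := by linarith
      have hd1 : 1 ≤ d := he.trans hed
      have hd0 : 0 < d := by linarith
      set K : ℝ := e * N ^ 2 * (M * N) ^ δ / (d ^ 2 * M) with hK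
      have hK0 : 0 ≤ K := by positivity
      rcases lt_or_ge K 1 with hK1 | hK1
      · rw [B2f_eq_zero _ hK1, mul_zero]; positivity
      have hKe : K ≤ e * N ^ 2 * y ^ 4 / (d ^ 2 * M) := by
        rw [hK]; gcongr
      have hKx : K ≤ N ^ (1 / x) * (y ^ 4 / d) := by
        refine hKe.trans ?_
        rw [div_le_iff₀ (by positivity)]
        calc e * N ^ 2 * y ^ 4 ≤ d * (N ^ (1 / x) * M) * y ^ 4 := by gcongr
          _ = N ^ (1 / x) * (y ^ 4 / d) * (d ^ 2 * M) := by field_simp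
      have hN' : 1 ≤ N / d := by rw [le_div_iff₀ hd0, one_mul]; exact hdN
      have hN'0 : 0 < N / d := by linarith
      have hKT : K ≤ N / d * T := by
        refine hKx.trans ?_
        calc N ^ (1 / x) * (y ^ 4 / d) ≤ N ^ (1 : ℝ) * (y ^ 4 / d) := by
              gcongr
          _ ≤ N ^ (1 : ℝ) * (T / d) := by
              gcongr
              exact pow_le_pow_right₀ hy1 (by norm_num)
          _ = N / d * T := by rw [Real.rpow_one]; ring
      have hKNT : K ≤ N * T := hKT.trans (by gcongr; exact div_le_self hN0.le hd1)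
      -- the induction hypothesis
      have hBA : ∀ A : ℝ, 1 ≤ A → A ≤ K →
          Bf φ A (N / d) ≤ C₁ * y ^ 11 * (N / d + (A * (N / d)) ^ ((2 : ℝ) / 3)) := by
        intro A hA hAK
        have hA0 : 0 < A := by linarith
        have hAx : A ^ x ≤ N / d * T := by
          have h1 : A ^ x ≤ (N ^ (1 / x) * (y ^ 4 / d)) ^ x :=
            Real.rpow_le_rpow hA0.le (hAK.trans hKx) hx0.le
          refine h1.trans ?_
          rw [Real.mul_rpow (by positivity) (by positivity), ← Real.rpow_mul hN0.le,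
            one_div_mul_cancel hx0.ne', Real.rpow_one,
            Real.div_rpow (by positivity) hd0.le]
          have h3 : (y ^ 4) ^ x ≤ T := by
            calc (y ^ 4) ^ x ≤ (y ^ 4) ^ (2 : ℝ) :=
                  Real.rpow_le_rpow_of_exponent_le (one_le_pow₀ hy1) hx2
              _ = T := by rw [Real.rpow_two, hT]; ring
          have h4 : d ≤ d ^ x := by
            calc d = d ^ (1 : ℝ) := (Real.rpow_one d).symm
              _ ≤ d ^ x := Real.rpow_le_rpow_of_exponent_le hd1 hx1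
          calc N * ((y ^ 4) ^ x / d ^ x) ≤ N * (T / d) := by gcongr
            _ = N / d * T := by ring
        have h5 := hb (N / d) A T hN' hA hT1 hAx
        rw [Bf_symm hφ]
        refine h5.trans ?_
        have h6 : (N / d * A * T) ^ δ ≤ y ^ 3 := by
          have h7 : N / d * A * T ≤ N ^ 2 * y ^ 16 := by
            calc N / d * A * T ≤ N * (N * T) * T := by
                  gcongr
                  · exact div_le_self hN0.le hd1
                  · exact hAK.trans hKNT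
              _ = N ^ 2 * y ^ 16 := by rw [hT]; ring
          calc (N / d * A * T) ^ δ ≤ (N ^ 2 * y ^ 16) ^ δ := by gcongr
            _ = (N ^ 2) ^ δ * (y ^ 16) ^ δ := Real.mul_rpow (by positivity) (by positivity)
            _ ≤ y ^ 2 * y := by
                gcongr
                · rw [hypow, ← Real.rpow_natCast, ← Real.rpow_mul hN0.le]
                · exact hyk 16 (by push_cast; linarith)
            _ = y ^ 3 := by ring
        calc C₁ * (N / d * A * T) ^ δ * T * (N / d + (N / d * A) ^ ((2 : ℝ) / 3))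
            ≤ C₁ * y ^ 3 * y ^ 8 * (N / d + (N / d * A) ^ ((2 : ℝ) / 3)) := by
              rw [hT] at h6 ⊢
              gcongr
          _ = _ := by rw [mul_comm (N / d) A]; ring
      have hmain := B2f_le hφ hN' hT1 hK1 hKT (by positivity) hBA
      have hLL : LL K ≤ C₂ * y ^ 2 := by
        calc LL K ≤ LL (N * T) := LL_mono hKNT
          _ ≤ C₂ * (N * T) ^ δ := hl _ (one_le_mul_of_one_le_of_one_le hN hT1)
          _ = C₂ * (y * (y ^ 8) ^ δ) := by rw [Real.mul_rpow hN0.le hT0.le]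
          _ ≤ C₂ * (y * y) := by
              gcongr
              exact hyk 8 (by push_cast; linarith)
          _ = C₂ * y ^ 2 := by ring
      have hK3 : M / e * K ^ ((1 : ℝ) / 3) ≤ y ^ 2 * (M * N) ^ ((2 : ℝ) / 3) := by
        have hcube : (M / e) ^ 3 * K ≤ (y ^ 2) ^ 3 * (M * N) ^ 2 := by
          calc (M / e) ^ 3 * K ≤ (M / e) ^ 3 * (e * N ^ 2 * y ^ 4 / (d ^ 2 * M)) := by gcongr
            _ = (M * N) ^ 2 * y ^ 4 / (e ^ 2 * d ^ 2) := by field_simp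
            _ ≤ (M * N) ^ 2 * y ^ 4 := by
                apply div_le_self (by positivity)
                exact one_le_mul_of_one_le_of_one_le (one_le_pow₀ he) (one_le_pow₀ hd1)
            _ ≤ (M * N) ^ 2 * y ^ 6 := by
                gcongr
                norm_num
            _ = _ := by ring
        have hgen : ∀ z : ℝ, 0 ≤ z → z = (z ^ 3) ^ ((1 : ℝ) / 3) := fun z hz => by
          rw [← Real.rpow_natCast, ← Real.rpow_mul hz]; norm_num
        calc M / e * K ^ ((1 : ℝ) / 3) = ((M / e) ^ 3) ^ ((1 : ℝ) / 3) * K ^ ((1 : ℝ) / 3) := by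
              rw [← hgen _ (by positivity)]
          _ = ((M / e) ^ 3 * K) ^ ((1 : ℝ) / 3) := by
              rw [Real.mul_rpow (by positivity) hK0]
          _ ≤ ((y ^ 2) ^ 3 * (M * N) ^ 2) ^ ((1 : ℝ) / 3) := by gcongr
          _ = y ^ 2 * (M * N) ^ ((2 : ℝ) / 3) := by
              rw [Real.mul_rpow (by positivity) (by positivity), ← hgen _ (by positivity)]
              congr 1
              rw [← Real.rpow_natCast, ← Real.rpow_mul (by positivity)]; norm_num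
      calc M * d / (e * N) * B2f φ K (N / d)
          ≤ M * d / (e * N) * (cT * T * (C₁ * y ^ 11) * K ^ ((1 : ℝ) / 3) * (N / d) *
              LL K ^ 2) := by gcongr
        _ ≤ M * d / (e * N) * (cT * T * (C₁ * y ^ 11) * K ^ ((1 : ℝ) / 3) * (N / d) *
              (C₂ * y ^ 2) ^ 2) := by
            have := LL_nonneg K
            gcongr
        _ = cT * C₁ * C₂ ^ 2 * y ^ 23 * (M / e * K ^ ((1 : ℝ) / 3)) := by
            rw [hT]; field_simp
        _ ≤ cT * C₁ * C₂ ^ 2 * y ^ 23 * (y ^ 2 * (M * N) ^ ((2 : ℝ) / 3)) := by gcongr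
        _ = _ := by ring
    refine (hs M N _ hM hN (by positivity) hG).trans ?_
    have hyMN : y ≤ (M * N) ^ δ := by
      rw [hy]; gcongr
      exact le_mul_of_one_le_left hN0.le hM
    have hy25 : 1 ≤ y ^ 25 := one_le_pow₀ hy1
    calc C₃ * (M * N) ^ δ * (M + cT * C₁ * C₂ ^ 2 * y ^ 25 * (M * N) ^ ((2 : ℝ) / 3))
        ≤ C₃ * (M * N) ^ δ * ((1 + cT * C₁ * C₂ ^ 2) * y ^ 25 *
            (M + (M * N) ^ ((2 : ℝ) / 3))) := by
          gcongr
          have hc : 0 ≤ cT * C₁ * C₂ ^ 2 := by positivity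
          have e1 : (1 + cT * C₁ * C₂ ^ 2) * y ^ 25 * (M + (M * N) ^ ((2 : ℝ) / 3)) =
            M * y ^ 25 + y ^ 25 * (M * N) ^ ((2 : ℝ) / 3) +
              cT * C₁ * C₂ ^ 2 * y ^ 25 * (M * N) ^ ((2 : ℝ) / 3) +
              cT * C₁ * C₂ ^ 2 * y ^ 25 * M := by ring
          rw [e1]
          have t1 : M ≤ M * y ^ 25 := le_mul_of_one_le_right hM0.le hy25
          have t2 : 0 ≤ y ^ 25 * (M * N) ^ ((2 : ℝ) / 3) := by positivity
          have t3 : 0 ≤ cT * C₁ * C₂ ^ 2 * y ^ 25 * M := by positivity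
          linarith
      _ ≤ C₃ * (M * N) ^ δ * ((1 + cT * C₁ * C₂ ^ 2) * ((M * N) ^ δ) ^ 25 *
            (M + (M * N) ^ ((2 : ℝ) / 3))) := by gcongr
      _ = C₃ * (1 + cT * C₁ * C₂ ^ 2) * ((M * N) ^ δ) ^ 26 * (M + (M * N) ^ ((2 : ℝ) / 3)) := by
          ring
      _ ≤ _ := by
          gcongr
          rw [← Real.rpow_natCast, ← Real.rpow_mul (by positivity)]
          refine Real.rpow_le_rpow_of_exponent_le hMN ?_
          push_cast; linarith

/-- `Q_j` for all `j`. -/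
lemma PP_all (hφ : SymLike φ) (h2 : Step2 φ) (j : ℕ) : PP φ (1 + 1 / ((j : ℝ) + 1)) := by
  induction j with
  | zero =>
    have : (1 + 1 / (((0 : ℕ) : ℝ) + 1)) = 2 := by norm_num
    rw [this]; exact PP_two hφ h2
  | succ j ih =>
    have hj : (0 : ℝ) ≤ j := Nat.cast_nonneg j
    have h1 : 1 / ((j : ℝ) + 1) ≤ 1 := by
      rw [div_le_one (by linarith)]; linarith
    have h0 : 0 < 1 / ((j : ℝ) + 1) := by positivity
    have := PP_step hφ h2 (by linarith) (by linarith) ih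
    have e : 2 - 1 / (1 + 1 / ((j : ℝ) + 1)) = 1 + 1 / (((j + 1 : ℕ) : ℝ) + 1) := by
      push_cast; field_simp; ring
    rwa [e] at this

/-- Heath-Brown's cubic large sieve, from the output of the Poisson step. -/
theorem hbLS_of_step2 (hφ : SymLike φ) (h2 : Step2 φ) {ε : ℝ} (hε : 0 < ε) :
    ∃ C : ℝ, 0 < C ∧ ∀ M N : ℝ, 1 ≤ M → 1 ≤ N →
      Bf φ M N ≤ C * (M * N) ^ ε * (M + N + (M * N) ^ ((2 : ℝ) / 3)) := by
  set δ : ℝ := ε / 3 with hδ
  have hδ0 : 0 < δ := by positivity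
  obtain ⟨j, hj⟩ := exists_nat_one_div_lt hδ0
  obtain ⟨C, hC, hb⟩ := (PP_all hφ h2 j).ext hδ0
  refine ⟨C, hC, ?_⟩
  have key : ∀ M N : ℝ, 1 ≤ M → 1 ≤ N → N ≤ M →
      Bf φ M N ≤ C * (M * N) ^ ε * (M + N + (M * N) ^ ((2 : ℝ) / 3)) := by
    intro M N hM hN hNM
    have hM0 : 0 < M := by linarith
    have hN0 : 0 < N := by linarith
    have hMN : 1 ≤ M * N := one_le_mul_of_one_le_of_one_le hM hN
    set T : ℝ := N ^ (1 / ((j : ℝ) + 1)) with hT
    have hT1 : 1 ≤ T := Real.one_le_rpow hN (by positivity)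
    have hT0 : 0 < T := by linarith
    have hTδ : T ≤ (M * N) ^ δ := by
      calc T ≤ N ^ δ := Real.rpow_le_rpow_of_exponent_le hN hj.le
        _ ≤ (M * N) ^ δ := by
            gcongr
            exact le_mul_of_one_le_left hN0.le hM
    have hTN : T ≤ N := by
      calc T ≤ N ^ (1 : ℝ) := by
            refine Real.rpow_le_rpow_of_exponent_le hN ?_
            rw [div_le_one (by positivity)]
            linarith [(Nat.cast_nonneg j : (0 : ℝ) ≤ j)]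
        _ = N := Real.rpow_one N
    have hcond : N ^ (1 + 1 / ((j : ℝ) + 1)) ≤ M * T := by
      rw [Real.rpow_add hN0, Real.rpow_one]
      gcongr
    refine (hb M N T hM hN hT1 hcond).trans ?_
    have hMNT : (M * N * T) ^ δ ≤ (M * N) ^ δ * (M * N) ^ δ := by
      rw [← Real.mul_rpow (by positivity) (by positivity)]
      gcongr
      exact hTN.trans (le_mul_of_one_le_left hN0.le hM)
    calc C * (M * N * T) ^ δ * T * (M + (M * N) ^ ((2 : ℝ) / 3))
        ≤ C * ((M * N) ^ δ * (M * N) ^ δ) * (M * N) ^ δ * (M + (M * N) ^ ((2 : ℝ) / 3)) := by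
          gcongr
      _ = C * (M * N) ^ ε * (M + (M * N) ^ ((2 : ℝ) / 3)) := by
          rw [mul_assoc C, ← Real.rpow_add (by positivity), ← Real.rpow_add (by positivity)]
          congr 3
          rw [hδ]; ring
      _ ≤ _ := by
          gcongr
          linarith
  intro M N hM hN
  rcases le_total N M with h | h
  · exact key M N hM hN h
  · have := key N M hN hM h
    rw [Bf_symm hφ, mul_comm M N, add_comm M N]
    exact this


end Crest.Agent.R012.LS448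
end
end

-- ▼ part R012/LS2final_448
section

/-!
# Row 12 (L2): `LS2.Step2 → LS2.Final`

* `symLike_sy : SymLike sy`
* `final_of_step2 : LS2.Step2 → LS2.Final`
-/

set_option autoImplicit false

noncomputable section

open Finset

namespace Crest.Agent.R012.LS448

open Crest.Agent.R012 Crest.Agent.R012.Eis

lemma symLike_sy : SymLike sy where
  mul x y n hn := Sym645.sy_mul_left (Sym645.prim_nm_mod hn) x y
  val x n hn := by
    by_cases h : IsCoprime x n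
    · exact Or.inr (Sym645.sy_cube (Sym645.prim_nm_mod hn) h)
    · exact Or.inl ((Sym645.sy_eq_zero_iff (Sym645.prim_nm_mod hn)).mpr h)
  symm m n hm hn := Sym645.sy_reciprocity hm hn

lemma S_eq (X : ℝ) (hX : 0 ≤ X) : LS2.S X = SF X := by
  ext n
  rw [LS2.mem_S hX, mem_SF]

lemma Sd_eq (X : ℝ) (hX : 0 ≤ X) : LS2.Sd X = SFdy X := by
  ext n
  rw [LS2.mem_Sd hX, mem_SFdy]

lemma bl_eq (X : ℝ) : LS2.bl X = nz X := rfl

lemma HB_iff {M N C : ℝ} (hM : 0 ≤ M) (hN : 0 ≤ N) :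
    LS2.HB M N C ↔ Adm (SF M) (SF N) sy C := by
  unfold LS2.HB Adm
  rw [S_eq M hM, S_eq N hN]

lemma HBd_iff {M N C : ℝ} (hM : 0 ≤ M) (hN : 0 ≤ N) :
    LS2.HBd M N C ↔ Adm (SF M) (SFdy N) sy C := by
  unfold LS2.HBd Adm
  rw [S_eq M hM, Sd_eq N hN]

lemma HB2_iff {K N C : ℝ} (hN : 0 ≤ N) :
    LS2.HB2 K N C ↔ Adm (nz K) (SF N) sy C := by
  unfold LS2.HB2 Adm
  rw [S_eq N hN, bl_eq]

/-- The two formulations of STEP 2. -/
lemma step2_of (h : LS2.Step2) : Step2 sy := by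
  intro ε hε
  obtain ⟨C, hC, hs⟩ := h ε hε
  refine ⟨C, hC, fun M N G hM hN hG hd => ?_⟩
  have hM0 : 0 < M := by linarith
  have hN0 : 0 < N := by linarith
  refine bc_le (by positivity) ?_
  rw [← HBd_iff hM0.le hN0.le]
  refine hs M N hM hN G hG fun d e he hed hdN => ?_
  have he0 : 0 < e := by linarith
  have hd0 : 0 < d := by linarith
  refine ⟨B2f sy (e * N ^ 2 * (M * N) ^ ε / (d ^ 2 * M)) (N / d), B2f_nonneg _ _, ?_,
    hd d e he hed hdN⟩
  rw [HB2_iff (by positivity)]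
  have e1 : e * N ^ 2 / (d ^ 2 * M) * (M * N) ^ ε = e * N ^ 2 * (M * N) ^ ε / (d ^ 2 * M) := by
    ring
  rw [e1]
  exact bc_spec _ _ _

/-- Heath-Brown's cubic large sieve from the Poisson step. -/
theorem final_of_step2 (h : LS2.Step2) : LS2.Final := by
  intro ε hε
  obtain ⟨C, hC, hb⟩ := hbLS_of_step2 symLike_sy (step2_of h) hε
  refine ⟨C, hC, fun M N hM hN => ?_⟩
  rw [HB_iff (by linarith) (by linarith)]
  exact adm_of_bc_le (hb M N hM hN)

end Crest.Agent.R012.LS448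
end
end

-- ▼ part R012/LS2fromDual_448
section

/-!
# Row 12 (L2): the dual inequality implies the Poisson step

`step2_of_dualIneq : CR2.DualIneq → LS2.Step2`, hence `final_of_dualIneq : CR2.DualIneq → LS2.Final`.
-/

set_option autoImplicit false

noncomputable section

open Finset

namespace Crest.Agent.R012.LS448

open Crest.Agent.R012 Crest.Agent.R012.Eis

/-! ### Preliminaries -/

lemma summable_exp_nm {Z : ℝ} (hZ : 0 < Z) :
    Summable fun n : Eis => Real.exp (-(nm n : ℝ) / Z) := by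
  have h := (Poisson381.summable_gau_one (t := 1 / (Real.pi * Z)) (by positivity)).norm
  refine h.congr fun n => ?_
  rw [Poisson381.norm_gau]
  congr 1
  rw [norm_toC_sq]
  have := Real.pi_pos
  field_simp

open Classical in
/-- Sums over multiples. -/
lemma sum_mul_le {W : Eis → ℝ} (hW : ∀ n, 0 ≤ W n) {N : ℝ} (hsupp : ∀ n, W n ≠ 0 → n ∈ SF N)
    {g : Eis} (hg : g ≠ 0) :
    ∑ k ∈ SF N, W (g * k) ≤ ∑ n ∈ SF N, if g ∣ n then W n else 0 := by
  have hinj : Set.InjOn (fun k => g * k) (SF N : Set Eis) := fun a _ b _ h =>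
    mul_left_cancel₀ hg h
  have hnn : ∀ m, 0 ≤ (if g ∣ m then W m else 0) := fun m => by
    split_ifs
    · exact hW m
    · exact le_rfl
  calc ∑ k ∈ SF N, W (g * k) = ∑ m ∈ (SF N).image (fun k => g * k), W m := by
        rw [sum_image hinj]
    _ = ∑ m ∈ (SF N).image (fun k => g * k), (if g ∣ m then W m else 0) := by
        refine sum_congr rfl fun m hm => ?_
        rw [mem_image] at hm
        obtain ⟨k, _, rfl⟩ := hm
        rw [if_pos (dvd_mul_right g k)]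
    _ = ∑ m ∈ ((SF N).image (fun k => g * k)).filter (fun m => W m ≠ 0),
          (if g ∣ m then W m else 0) := by
        rw [sum_filter_of_ne]
        intro m _ hm h0
        rw [h0] at hm
        simp at hm
    _ ≤ ∑ n ∈ SF N, if g ∣ n then W n else 0 := by
        refine sum_le_sum_of_subset_of_nonneg ?_ fun m _ _ => hnn m
        intro m hm
        rw [mem_filter] at hm
        exact hsupp m hm.2

open Classical in
/-- The divisor-weighted sum over `(d, e, f, k)`. -/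
lemma sum_defk_le {W : Eis → ℝ} (hW : ∀ n, 0 ≤ W n) {N : ℝ}
    (hsupp : ∀ n, W n ≠ 0 → n ∈ SF N) {T : ℝ} (hT : 0 ≤ T)
    (htau : ∀ n ∈ SF N, (Div277.tau n : ℝ) ≤ T) :
    ∑ d ∈ SF N, ∑ _e ∈ (SF N).filter (· ∣ d), ∑ f ∈ SF N, ∑ k ∈ SF N,
      W (d * f * k) ≤ T ^ 3 * ∑ n ∈ SF N, W n := by
  have hcard : ∀ n ∈ SF N, (#((SF N).filter (· ∣ n)) : ℝ) ≤ T := by
    intro n hn
    refine le_trans ?_ (htau n hn)
    unfold Div277.tau
    have hn' := hn
    rw [mem_SF] at hn'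
    exact_mod_cast card_le_card fun d hd => by
      rw [mem_filter, mem_SF] at hd
      rw [Div277.mem_dvs hn'.2.1.ne_zero]
      exact ⟨hd.1.2.1, hd.2⟩
  have hnn : ∀ d f n, 0 ≤ (if d ∣ n then (if f ∣ n then W n else 0) else 0) := fun d f n => by
    split_ifs
    · exact hW n
    · exact le_rfl
    · exact le_rfl
  have h1 : ∀ d ∈ SF N, ∀ f ∈ SF N, ∑ k ∈ SF N, W (d * f * k) ≤
      ∑ n ∈ SF N, if d ∣ n then (if f ∣ n then W n else 0) else 0 := by
    intro d hd f hf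
    rw [mem_SF] at hd hf
    refine (sum_mul_le hW hsupp (mul_ne_zero hd.2.1.ne_zero hf.2.1.ne_zero)).trans ?_
    refine sum_le_sum fun n _ => ?_
    by_cases h : d * f ∣ n
    · rw [if_pos h, if_pos ((dvd_mul_right d f).trans h), if_pos ((dvd_mul_left f d).trans h)]
    · rw [if_neg h]
      exact hnn d f n
  calc ∑ d ∈ SF N, ∑ _e ∈ (SF N).filter (· ∣ d), ∑ f ∈ SF N, ∑ k ∈ SF N, W (d * f * k)
      ≤ ∑ d ∈ SF N, ∑ _e ∈ (SF N).filter (· ∣ d), ∑ f ∈ SF N,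
          ∑ n ∈ SF N, (if d ∣ n then (if f ∣ n then W n else 0) else 0) :=
        sum_le_sum fun d hd => sum_le_sum fun e _ => sum_le_sum fun f hf => h1 d hd f hf
    _ = ∑ d ∈ SF N, (#((SF N).filter (· ∣ d)) : ℝ) * ∑ f ∈ SF N,
          ∑ n ∈ SF N, (if d ∣ n then (if f ∣ n then W n else 0) else 0) := by
        refine sum_congr rfl fun d _ => ?_
        rw [sum_const, nsmul_eq_mul]
    _ ≤ ∑ d ∈ SF N, T * ∑ f ∈ SF N,
          ∑ n ∈ SF N, (if d ∣ n then (if f ∣ n then W n else 0) else 0) := by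
        refine sum_le_sum fun d hd => ?_
        refine mul_le_mul_of_nonneg_right (hcard d hd) ?_
        exact sum_nonneg fun f _ => sum_nonneg fun n _ => hnn d f n
    _ = T * ∑ n ∈ SF N, ∑ d ∈ SF N, ∑ f ∈ SF N,
          (if d ∣ n then (if f ∣ n then W n else 0) else 0) := by
        rw [← mul_sum]
        congr 1
        rw [sum_comm]
        have : ∀ d ∈ SF N, ∑ f ∈ SF N, ∑ n ∈ SF N,
          (if d ∣ n then (if f ∣ n then W n else 0) else 0) = ∑ n ∈ SF N, ∑ f ∈ SF N,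
          (if d ∣ n then (if f ∣ n then W n else 0) else 0) := fun d _ => sum_comm
        rw [sum_comm, sum_congr rfl this, sum_comm]
    _ ≤ T * ∑ n ∈ SF N, T * (T * W n) := by
        refine mul_le_mul_of_nonneg_left (sum_le_sum fun n hn => ?_) hT
        have h2 : ∀ d ∈ SF N, ∑ f ∈ SF N, (if d ∣ n then (if f ∣ n then W n else 0) else 0) =
            (if d ∣ n then (#((SF N).filter (· ∣ n)) : ℝ) * W n else 0) := by
          intro d _
          split_ifs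
          · rw [← sum_filter, sum_const, nsmul_eq_mul]
          · rw [sum_const_zero]
        rw [sum_congr rfl h2, ← sum_filter, sum_const, nsmul_eq_mul]
        have h3 := hcard n hn
        have h4 := hW n
        gcongr
    _ = _ := by
        simp only [mul_sum]
        refine sum_congr rfl fun n _ => ?_
        ring

/-! ### The dual sums -/

/-- The factor in front of the dual form. -/
lemma dsum_form_le {N : ℝ} (hN : 1 ≤ N) {w : Eis → ℂ} (hw : ∀ h, w h ≠ 0 → h ∈ SFdy N)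
    {d e f : Eis} (hd : d ∈ SF N) (hf : f ∈ SF N) {L D₁ σ : ℝ} (hD : 0 ≤ D₁)
    (hA : Adm (nz L) (SF (N / nm d)) sy D₁) (hσ0 : 0 < σ) (hσ : σ ≤ 1 / 2) (t : ℝ) :
    ∑ l ∈ nz L, (nm l : ℝ) ^ (-σ) * ‖CR2.dsum w N d e f l (σ + t * Complex.I)‖ ^ 2 ≤
      D₁ * (2 * (N / (nm d * nm f)) ^ (2 * σ - 1) * ∑ k ∈ SF N, ‖w (d * f * k)‖ ^ 2) := by
  have hN0 : 0 < N := by linarith
  rw [mem_SF] at hd hf
  have d1 := one_le_nm' hd.2.1.ne_zero
  have f1 := one_le_nm' hf.2.1.ne_zero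
  have d0 : (0 : ℝ) < nm d := by linarith
  have f0 : (0 : ℝ) < nm f := by linarith
  set s : ℂ := σ + t * Complex.I with hs
  set a : Eis → ℂ := fun k => w (d * f * k) * (sy (e * sq3) k * (starRingEnd ℂ) (sy f k) * G k) *
    (nm k : ℂ) ^ (s - 1 / 2) with ha
  have hsupp : ∀ k, w (d * f * k) ≠ 0 → k ∈ SF N → k ∈ SF (N / nm d) ∧
      N / (nm d * nm f) / 2 < nm k := by
    intro k hk hkN
    have h1 := hw _ hk
    rw [mem_SFdy, nm_mul, nm_mul] at h1
    rw [mem_SF] at hkN ⊢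
    have k1 := one_le_nm' hkN.2.1.ne_zero
    push_cast at h1
    refine ⟨⟨?_, hkN.2⟩, ?_⟩
    · rw [le_div_iff₀ d0]
      calc (nm k : ℝ) * nm d = nm d * 1 * nm k := by ring
        _ ≤ nm d * nm f * nm k := by gcongr
        _ ≤ N := h1.2.1
    · rw [div_div, div_lt_iff₀ (by positivity)]
      have := h1.1
      rw [div_lt_iff₀ (by norm_num)] at this
      linarith
  have hds : ∀ l, CR2.dsum w N d e f l s =
      ∑ k ∈ SF (N / nm d), a k * (starRingEnd ℂ) (sy l k) := by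
    intro l
    unfold CR2.dsum
    rw [S_eq N hN0.le]
    have hsub : SF (N / nm d) ⊆ SF N := SF_mono (div_le_self hN0.le d1)
    have h2 : ∀ k ∈ SF N, w (d * f * k) *
        (sy (e * sq3) k * (starRingEnd ℂ) (sy (f * l) k) * G k) * (nm k : ℂ) ^ (s - 1 / 2) =
        a k * (starRingEnd ℂ) (sy l k) := by
      intro k hk
      rw [mem_SF] at hk
      rw [symLike_sy.mul f l k hk.2.1, ha, map_mul]
      ring
    rw [sum_congr rfl h2]
    refine (sum_subset hsub fun k hk hk' => ?_).symm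
    have h3 : w (d * f * k) = 0 := by
      by_contra h0
      exact hk' (hsupp k h0 hk).1
    rw [ha]
    simp only [h3, zero_mul]
  have hterm : ∀ k ∈ SF (N / nm d), ‖a k‖ ^ 2 ≤
      2 * (N / (nm d * nm f)) ^ (2 * σ - 1) * ‖w (d * f * k)‖ ^ 2 := by
    intro k hk
    have hkN : k ∈ SF N := SF_mono (div_le_self hN0.le d1) hk
    by_cases h0 : w (d * f * k) = 0
    · rw [ha]; simp [h0]
    · have h1 := (hsupp k h0 hkN).2
      rw [mem_SF] at hk
      have k1 := one_le_nm' hk.2.1.ne_zero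
      have k0 : (0 : ℝ) < nm k := by linarith
      have h2 : ‖sy (e * sq3) k * (starRingEnd ℂ) (sy f k) * G k‖ ≤ 1 := by
        rw [norm_mul, norm_mul, Complex.norm_conj]
        exact mul_le_one₀ (mul_le_one₀ (symLike_sy.norm_le _ hk.2.1) (norm_nonneg _)
          (symLike_sy.norm_le _ hk.2.1)) (norm_nonneg _)
          (Gauss880.norm_G_le Gauss880.syG hk.2.1)
      have h3 : ‖(nm k : ℂ) ^ (s - 1 / 2)‖ = (nm k : ℝ) ^ (σ - 1 / 2) := by
        have : (nm k : ℂ) = ((nm k : ℝ) : ℂ) := by push_cast; rfl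
        rw [this, Complex.norm_cpow_eq_rpow_re_of_pos k0]
        congr 1
        rw [hs]; simp
      have h4 : ((nm k : ℝ) ^ (σ - 1 / 2)) ^ 2 = (nm k : ℝ) ^ (2 * σ - 1) := by
        rw [← Real.rpow_natCast, ← Real.rpow_mul k0.le]; congr 1; push_cast; ring
      have hy0 : 0 < N / (nm d * nm f : ℝ) := by positivity
      have h5 : (nm k : ℝ) ^ (2 * σ - 1) ≤ 2 * (N / (nm d * nm f)) ^ (2 * σ - 1) := by
        calc (nm k : ℝ) ^ (2 * σ - 1) ≤ (N / (nm d * nm f) / 2) ^ (2 * σ - 1) :=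
              Real.rpow_le_rpow_of_nonpos (by positivity) h1.le (by linarith)
          _ = (N / (nm d * nm f)) ^ (2 * σ - 1) * (2 ^ (2 * σ - 1))⁻¹ := by
              rw [Real.div_rpow hy0.le (by norm_num), div_eq_mul_inv]
          _ ≤ (N / (nm d * nm f)) ^ (2 * σ - 1) * 2 := by
              gcongr
              rw [← Real.rpow_neg (by norm_num)]
              calc (2 : ℝ) ^ (-(2 * σ - 1)) ≤ (2 : ℝ) ^ (1 : ℝ) :=
                    Real.rpow_le_rpow_of_exponent_le (by norm_num) (by linarith)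
                _ = 2 := Real.rpow_one 2
          _ = _ := by ring
      calc ‖a k‖ ^ 2 = ‖w (d * f * k)‖ ^ 2 *
            ‖sy (e * sq3) k * (starRingEnd ℂ) (sy f k) * G k‖ ^ 2 * (nm k : ℝ) ^ (2 * σ - 1) := by
            rw [ha]
            simp only [norm_mul (w (d * f * k) * _), norm_mul (w (d * f * k)), h3]
            rw [← h4]; ring
        _ ≤ ‖w (d * f * k)‖ ^ 2 * 1 * (2 * (N / (nm d * nm f)) ^ (2 * σ - 1)) := by
            gcongr
            exact pow_le_one₀ (norm_nonneg _) h2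
        _ = _ := by ring
  calc ∑ l ∈ nz L, (nm l : ℝ) ^ (-σ) * ‖CR2.dsum w N d e f l s‖ ^ 2
      ≤ ∑ l ∈ nz L, ‖∑ k ∈ SF (N / nm d), a k * (starRingEnd ℂ) (sy l k)‖ ^ 2 := by
        refine sum_le_sum fun l hl => ?_
        rw [mem_nz] at hl
        rw [hds l]
        refine mul_le_of_le_one_left (by positivity) ?_
        exact Real.rpow_le_one_of_one_le_of_nonpos (one_le_nm' hl.1) (by linarith)
    _ ≤ D₁ * ∑ k ∈ SF (N / nm d), ‖a k‖ ^ 2 := hA.conj a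
    _ ≤ D₁ * ∑ k ∈ SF (N / nm d),
          2 * (N / (nm d * nm f)) ^ (2 * σ - 1) * ‖w (d * f * k)‖ ^ 2 := by
        gcongr with k hk
        exact hterm k hk
    _ ≤ D₁ * ∑ k ∈ SF N, 2 * (N / (nm d * nm f)) ^ (2 * σ - 1) * ‖w (d * f * k)‖ ^ 2 := by
        refine mul_le_mul_of_nonneg_left ?_ hD
        exact sum_le_sum_of_subset_of_nonneg (SF_mono (div_le_self hN0.le d1))
          fun _ _ _ => by positivity
    _ = _ := by rw [← mul_sum]

/-- `(M/(ef)) (e f²/M)^σ · 2 (N/(df))^(2σ-1) = 2 (M d/(e N)) (e N²/(d² M))^σ`. -/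
lemma factor_eq {M N d e f σ : ℝ} (hM : 0 < M) (hN : 0 < N) (hd : 0 < d) (he : 0 < e)
    (hf : 0 < f) :
    M / (e * f) * (e * f ^ 2 / M) ^ σ * (2 * (N / (d * f)) ^ (2 * σ - 1)) =
      2 * (M * d / (e * N)) * (e * N ^ 2 / (d ^ 2 * M)) ^ σ := by
  have h1 : (N / (d * f)) ^ (2 * σ - 1) = ((N / (d * f)) ^ 2) ^ σ * (d * f / N) := by
    rw [Real.rpow_sub (by positivity), Real.rpow_one, Real.rpow_mul (by positivity),
      Real.rpow_two]
    field_simp
  rw [h1]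
  have h2 : (e * f ^ 2 / M) ^ σ * ((N / (d * f)) ^ 2) ^ σ = (e * N ^ 2 / (d ^ 2 * M)) ^ σ := by
    rw [← Real.mul_rpow (by positivity) (by positivity)]
    congr 1
    field_simp
  calc M / (e * f) * (e * f ^ 2 / M) ^ σ * (2 * (((N / (d * f)) ^ 2) ^ σ * (d * f / N)))
      = (M / (e * f) * 2 * (d * f / N)) * ((e * f ^ 2 / M) ^ σ * ((N / (d * f)) ^ 2) ^ σ) := by
        ring
    _ = _ := by
        rw [h2]
        congr 1
        field_simp

/-- Comparison of the sharp sum with the smooth one. -/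
lemma sharp_le_smooth {M N : ℝ} (hM : 1 ≤ M) (w : Eis → ℂ) :
    ∑ m ∈ SF M, ‖∑ n ∈ SF N, w n * sy m n‖ ^ 2 ≤
      Real.exp 1 * ∑' m : Eis, Real.exp (-(nm m : ℝ) / M) * ‖∑ n ∈ SF N, w n * sy m n‖ ^ 2 := by
  have hM0 : 0 < M := by linarith
  have hb : ∀ m : Eis, ‖∑ n ∈ SF N, w n * sy m n‖ ^ 2 ≤ (∑ n ∈ SF N, ‖w n‖) ^ 2 := by
    intro m
    gcongr
    refine (norm_sum_le _ _).trans (sum_le_sum fun n hn => ?_)
    rw [mem_SF] at hn
    rw [norm_mul]
    exact mul_le_of_le_one_right (norm_nonneg _) (symLike_sy.norm_le _ hn.2.1)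
  have hsum : Summable fun m : Eis =>
      Real.exp (-(nm m : ℝ) / M) * ‖∑ n ∈ SF N, w n * sy m n‖ ^ 2 := by
    refine Summable.of_nonneg_of_le (fun m => by positivity) (fun m => ?_)
      ((summable_exp_nm hM0).mul_right ((∑ n ∈ SF N, ‖w n‖) ^ 2))
    exact mul_le_mul_of_nonneg_left (hb m) (Real.exp_pos _).le
  calc ∑ m ∈ SF M, ‖∑ n ∈ SF N, w n * sy m n‖ ^ 2
      ≤ ∑ m ∈ SF M, Real.exp 1 *
          (Real.exp (-(nm m : ℝ) / M) * ‖∑ n ∈ SF N, w n * sy m n‖ ^ 2) := by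
        refine sum_le_sum fun m hm => ?_
        rw [mem_SF] at hm
        rw [← mul_assoc, ← Real.exp_add]
        refine le_mul_of_one_le_left (by positivity) ?_
        refine Real.one_le_exp ?_
        have h1 : (nm m : ℝ) / M ≤ 1 := by rw [div_le_one hM0]; exact hm.1
        rw [neg_div]; linarith
    _ = Real.exp 1 * ∑ m ∈ SF M,
          (Real.exp (-(nm m : ℝ) / M) * ‖∑ n ∈ SF N, w n * sy m n‖ ^ 2) := by rw [mul_sum]
    _ ≤ _ := by
        refine mul_le_mul_of_nonneg_left ?_ (Real.exp_pos _).le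
        exact hsum.sum_le_tsum _ fun m _ => by positivity

/-- The admissible constant in the dual sum, `K < 1` (trivial bound). -/
lemma adm_small {M N K p η CL : ℝ} (hN : 1 ≤ N) (hNP : N ≤ M * N) (hp : p = (M * N) ^ η)
    (hp1 : 1 ≤ p) (hη1 : η ≤ 1) (hCL : 0 < CL)
    (hL : ∀ X : ℝ, 1 ≤ X → LL X ≤ CL * X ^ η) {d : ℝ} (hd : 1 ≤ d)
    (hK0 : 0 < K) (hK1 : K < 1) :
    Adm (nz (p * (1 + K))) (SF (N / d)) sy (4 * CL ^ 2 * p ^ 3 * (N / d)) := by
  have hN0 : 0 < N := by linarith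
  have hp0 : 0 < p := by linarith
  have hd0 : 0 < d := by linarith
  have hMN : 1 ≤ M * N := hN.trans hNP
  have hLsmall : p * (1 + K) ≤ 2 * p := by nlinarith
  refine adm_of_bc_le ?_
  have h3 := B2f_trivial symLike_sy (p * (1 + K)) (N / d) (by positivity)
  have h2p : (1 : ℝ) ≤ 2 * p := by linarith
  have h4 : LL (p * (1 + K)) ≤ CL * (2 * p) := by
    calc LL (p * (1 + K)) ≤ LL (2 * p) := LL_mono hLsmall
      _ ≤ CL * (2 * p) ^ η := hL _ h2p
      _ ≤ CL * (2 * p) ^ (1 : ℝ) := by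
          refine mul_le_mul_of_nonneg_left ?_ hCL.le
          exact Real.rpow_le_rpow_of_exponent_le h2p hη1
      _ = CL * (2 * p) := by rw [Real.rpow_one]
  have h5 : LL (N / d) ≤ CL * p := by
    rw [hp]
    refine (LL_mono ?_).trans (hL _ hMN)
    exact (div_le_self hN0.le hd).trans hNP
  calc bc (nz (p * (1 + K))) (SF (N / d)) sy
      ≤ (p * (1 + K) * LL (p * (1 + K))) * (N / d * LL (N / d)) := h3
    _ ≤ (2 * p * (CL * (2 * p))) * (N / d * (CL * p)) := by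
        have := LL_nonneg (p * (1 + K))
        have := LL_nonneg (N / d)
        gcongr
    _ = _ := by ring

lemma integral_inv_le {F : ℝ → ℝ} {Q : ℝ} (h0 : ∀ t, 0 ≤ F t) (h1 : ∀ t, F t ≤ Q) :
    ∫ t : ℝ, (1 + t ^ 2)⁻¹ * F t ≤ Real.pi * Q := by
  calc ∫ t : ℝ, (1 + t ^ 2)⁻¹ * F t ≤ ∫ t : ℝ, (1 + t ^ 2)⁻¹ * Q := by
        refine MeasureTheory.integral_mono_of_nonneg
          (Filter.Eventually.of_forall fun t => ?_)
          (integrable_inv_one_add_sq.mul_const Q)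
          (Filter.Eventually.of_forall fun t => ?_)
        · exact mul_nonneg (by positivity) (h0 t)
        · exact mul_le_mul_of_nonneg_left (h1 t) (by positivity)
    _ = Real.pi * Q := by
        rw [MeasureTheory.integral_mul_const, integral_univ_inv_one_add_sq]

/-- One dual term. -/
lemma term_le {M N : ℝ} (hM : 1 ≤ M) (hN : 1 ≤ N) {w : Eis → ℂ}
    (hws : ∀ h, w h ≠ 0 → h ∈ SFdy N)
    {d e f : Eis} (hd : d ∈ SF N) (he : e ∈ SF N) (hf : f ∈ SF N) {L D₁ η R P2 : ℝ}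
    (hD₁0 : 0 ≤ D₁) (hA : Adm (nz L) (SF (N / nm d)) sy D₁) (hη0 : 0 < η) (hη : η ≤ 1 / 2)
    (hD₁ : M * nm d / (nm e * N) * D₁ ≤ R)
    (hK : (nm e * N ^ 2 / ((nm d : ℝ) ^ 2 * M)) ^ η ≤ P2) :
    M / (nm e * nm f) * (nm e * (nm f : ℝ) ^ 2 / M) ^ η *
          ∫ t : ℝ, (1 + t ^ 2)⁻¹ * ∑ l ∈ nz L,
            (nm l : ℝ) ^ (-η) * ‖CR2.dsum w N d e f l (η + t * Complex.I)‖ ^ 2 ≤
        2 * Real.pi * (R * P2) * ∑ k ∈ SF N, ‖w (d * f * k)‖ ^ 2 := by
  have hM0 : 0 < M := by linarith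
  have hN0 : 0 < N := by linarith
  have hd' := hd
  have he' := he
  have hf' := hf
  rw [mem_SF] at hd' he' hf'
  have d1 := one_le_nm' hd'.2.1.ne_zero
  have e1 := one_le_nm' he'.2.1.ne_zero
  have f1 := one_le_nm' hf'.2.1.ne_zero
  have d0 : (0 : ℝ) < nm d := by linarith
  have e0 : (0 : ℝ) < nm e := by linarith
  have f0 : (0 : ℝ) < nm f := by linarith
  set S2 : ℝ := ∑ k ∈ SF N, ‖w (d * f * k)‖ ^ 2 with hS2
  have hS20 : 0 ≤ S2 := by positivity
  set Q : ℝ := D₁ * (2 * (N / (nm d * nm f)) ^ (2 * η - 1) * S2) with hQ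
  have hint : ∫ t : ℝ, (1 + t ^ 2)⁻¹ * ∑ l ∈ nz L,
        (nm l : ℝ) ^ (-η) * ‖CR2.dsum w N d e f l (η + t * Complex.I)‖ ^ 2 ≤
      Real.pi * Q :=
    integral_inv_le
      (fun t => sum_nonneg fun l _ => mul_nonneg (Real.rpow_nonneg (Nat.cast_nonneg _) _)
        (sq_nonneg _))
      (fun t => dsum_form_le hN hws hd hf hD₁0 hA hη0 hη t)
  have hR0 : 0 ≤ M * nm d / (nm e * N) * D₁ := by positivity
  have hR : 0 ≤ R := hR0.trans hD₁
  refine (mul_le_mul_of_nonneg_left hint (by positivity)).trans ?_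
  calc M / (nm e * nm f) * (nm e * (nm f : ℝ) ^ 2 / M) ^ η * (Real.pi * Q) = Real.pi * D₁ * S2 * (M / (nm e * nm f) * (nm e * (nm f : ℝ) ^ 2 / M) ^ η *
          (2 * (N / (nm d * nm f)) ^ (2 * η - 1))) := by rw [hQ]; ring
    _ = Real.pi * D₁ * S2 * (2 * (M * nm d / (nm e * N)) *
          (nm e * N ^ 2 / ((nm d : ℝ) ^ 2 * M)) ^ η) := by
        rw [factor_eq hM0 hN0 d0 e0 f0]
    _ = 2 * Real.pi * ((M * nm d / (nm e * N) * D₁) *
          (nm e * N ^ 2 / ((nm d : ℝ) ^ 2 * M)) ^ η) * S2 := by ring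
    _ ≤ 2 * Real.pi * (R * P2) * S2 := by gcongr

set_option maxHeartbeats 1000000 in
/-- The main range of the Poisson step. -/
lemma step2_main {ε η C₀ CL Cτ : ℝ} (hη0 : 0 < η) (hη1 : 8 * η ≤ 1) (hηε : 8 * η ≤ ε)
    (hC₀ : 0 < C₀)
    (hD : open Classical in ∀ (X Z : ℝ), 1 ≤ X → 1 ≤ Z → ∀ (w : Eis → ℂ),
      (∀ (h : Eis), w h ≠ 0 → h ∈ LS2.S X) →
      ∑' n : Eis, Real.exp (-(nm n : ℝ) / Z) * ‖∑ h ∈ LS2.S X, w h * sy n h‖ ^ 2 ≤
      C₀ * Z * ∑ h ∈ LS2.S X, ‖w h‖ ^ 2 +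
      C₀ * ∑ d ∈ LS2.S X, ∑ e ∈ (LS2.S X).filter (· ∣ d), ∑ f ∈ LS2.S X,
        Z / (nm e * nm f) * (nm e * (nm f : ℝ) ^ 2 / Z) ^ η *
          ∫ t : ℝ, (1 + t ^ 2)⁻¹ * ∑ l ∈ LS2.bl (CR2.Lde X Z η d e),
            (nm l : ℝ) ^ (-η) * ‖CR2.dsum w X d e f l (η + t * Complex.I)‖ ^ 2)
    (hCL : 0 < CL) (hL : ∀ X : ℝ, 1 ≤ X → LL X ≤ CL * X ^ η)
    (hCτ : 1 ≤ Cτ) (hτ : ∀ n : Eis, n ≠ 0 → (Div277.tau n : ℝ) ≤ Cτ * (nm n : ℝ) ^ η)
    {M N D : ℝ} (hM : 1 ≤ M) (hN : 1 ≤ N) (hD0 : 0 ≤ D)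
    (hH : ∀ d e : ℝ, 1 ≤ e → e ≤ d → d ≤ N → ∃ D1 : ℝ, 0 ≤ D1 ∧
      LS2.HB2 (e * N ^ 2 / (d ^ 2 * M) * (M * N) ^ ε) (N / d) D1 ∧ M * d / (e * N) * D1 ≤ D)
    (hbig : 2 ≤ (M * N) ^ (ε / 2)) :
    Bdy sy M N ≤ Real.exp 1 * (C₀ + C₀ * (2 * Real.pi * (1 + 4 * CL ^ 2) * Cτ ^ 3)) *
      (M * N) ^ ε * (M + D) := by
  classical
  set C1 : ℝ := Real.exp 1 * (C₀ + C₀ * (2 * Real.pi * (1 + 4 * CL ^ 2) * Cτ ^ 3)) with hC1
  have hCτ0 : 0 < Cτ := by linarith
  have hC10 : 0 < C1 := by positivity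
  have hM0 : 0 < M := by linarith
  have hN0 : 0 < N := by linarith
  have hMN : 1 ≤ M * N := one_le_mul_of_one_le_of_one_le hM hN
  have hNP : N ≤ M * N := le_mul_of_one_le_left hN0.le hM
  set p : ℝ := (M * N) ^ η with hp
  have hp1 : 1 ≤ p := Real.one_le_rpow hMN hη0.le
  have hp0 : 0 < p := by linarith
  have hp8 : p ^ 8 ≤ (M * N) ^ ε := by
    rw [hp, ← Real.rpow_natCast, ← Real.rpow_mul (by positivity)]
    refine Real.rpow_le_rpow_of_exponent_le hMN ?_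
    push_cast; linarith
  have hp' : 2 * p ≤ (M * N) ^ ε := by
    calc 2 * p ≤ (M * N) ^ (ε / 2) * (M * N) ^ (ε / 2) := by
          refine mul_le_mul hbig ?_ hp0.le (by positivity)
          rw [hp]
          exact Real.rpow_le_rpow_of_exponent_le hMN (by linarith)
      _ = (M * N) ^ ε := by
          rw [← Real.rpow_add (by positivity)]; congr 1; ring
  refine bc_le (by positivity) fun c => ?_
  obtain ⟨w, hws, hsumw, hnw⟩ : ∃ w : Eis → ℂ, (∀ n, w n ≠ 0 → n ∈ SFdy N) ∧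
      (∀ m : Eis, ∑ n ∈ SFdy N, c n * sy m n = ∑ n ∈ SF N, w n * sy m n) ∧
      ∑ n ∈ SF N, ‖w n‖ ^ 2 = ∑ n ∈ SFdy N, ‖c n‖ ^ 2 := by
    refine ⟨fun n => if n ∈ SFdy N then c n else 0, ?_, ?_, ?_⟩
    · intro n hn
      by_contra h0
      simp [h0] at hn
    · intro m
      rw [← sum_subset (SFdy_subset N)
        (f := fun n => (if n ∈ SFdy N then c n else 0) * sy m n)]
      · exact sum_congr rfl fun n hn => by simp [hn]
      · intro n _ hn
        simp [hn]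
    · rw [← sum_subset (SFdy_subset N)
        (f := fun n => ‖(if n ∈ SFdy N then c n else 0)‖ ^ 2)]
      · exact sum_congr rfl fun n hn => by simp [hn]
      · intro n _ hn
        simp [hn]
  simp_rw [hsumw]
  rw [← hnw]
  set W2 : ℝ := ∑ n ∈ SF N, ‖w n‖ ^ 2 with hW2
  have hW20 : 0 ≤ W2 := by positivity
  refine (sharp_le_smooth hM w).trans ?_
  have hdual := hD N M hN hM w (fun n hn => by
    rw [S_eq N hN0.le]; exact SFdy_subset N (hws n hn))
  rw [S_eq N hN0.le] at hdual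
  -- the dual terms
  set R : ℝ := D + 4 * CL ^ 2 * p ^ 3 * M with hR
  have hR0 : 0 ≤ R := by positivity
  set Y : ℝ := 2 * Real.pi * (R * p ^ 2) with hY
  have hY0 : 0 ≤ Y := by positivity
  have hterm : ∀ d ∈ SF N, ∀ e ∈ (SF N).filter (· ∣ d), ∀ f ∈ SF N,
      M / (nm e * nm f) * (nm e * (nm f : ℝ) ^ 2 / M) ^ η *
        ∫ t : ℝ, (1 + t ^ 2)⁻¹ * ∑ l ∈ LS2.bl (CR2.Lde N M η d e),
          (nm l : ℝ) ^ (-η) * ‖CR2.dsum w N d e f l (η + t * Complex.I)‖ ^ 2 ≤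
      Y * ∑ k ∈ SF N, ‖w (d * f * k)‖ ^ 2 := by
    intro d hd e he f hf
    rw [mem_filter] at he
    have hd' := hd
    have he' := he.1
    rw [mem_SF] at hd' he'
    have d1 := one_le_nm' hd'.2.1.ne_zero
    have e1 := one_le_nm' he'.2.1.ne_zero
    have d0 : (0 : ℝ) < nm d := by linarith
    have e0 : (0 : ℝ) < nm e := by linarith
    have hed : (nm e : ℝ) ≤ nm d := by
      exact_mod_cast nm_le_of_dvd he.2 hd'.2.1.ne_zero
    set K : ℝ := nm e * N ^ 2 / ((nm d : ℝ) ^ 2 * M) with hK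
    have hK0 : 0 < K := by positivity
    have hKN : K ≤ N ^ 2 := by
      rw [hK, div_le_iff₀ (by positivity)]
      have : (nm e : ℝ) ≤ (nm d : ℝ) ^ 2 * M := by
        calc (nm e : ℝ) ≤ nm d := hed
          _ ≤ (nm d : ℝ) ^ 2 := le_self_pow₀ d1 (by norm_num)
          _ ≤ (nm d : ℝ) ^ 2 * M := le_mul_of_one_le_right (by positivity) hM
      calc (nm e : ℝ) * N ^ 2 ≤ ((nm d : ℝ) ^ 2 * M) * N ^ 2 := by gcongr
        _ = _ := by ring
    have hKη : K ^ η ≤ p ^ 2 := by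
      calc K ^ η ≤ (N ^ 2) ^ η := by gcongr
        _ = (N ^ η) ^ 2 := by
            rw [← Real.rpow_natCast, ← Real.rpow_mul hN0.le, ← Real.rpow_natCast,
              ← Real.rpow_mul hN0.le, mul_comm]
        _ ≤ p ^ 2 := by rw [hp]; gcongr
    have hLde : CR2.Lde N M η d e = p * (1 + K) := by
      rw [CR2.Lde, hp, hK, mul_comm N M]
    rw [bl_eq, hLde]
    rcases lt_or_ge K 1 with hK1 | hK1
    · refine term_le hM hN hws hd he.1 hf (by positivity)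
        (adm_small hN hNP hp hp1 (by linarith) hCL hL d1 hK0 hK1) hη0 (by linarith) ?_ hKη
      have : M * nm d / (nm e * N) * (4 * CL ^ 2 * p ^ 3 * (N / nm d)) =
          4 * CL ^ 2 * p ^ 3 * M / nm e := by field_simp
      rw [this]
      have h6 : 4 * CL ^ 2 * p ^ 3 * M / nm e ≤ 4 * CL ^ 2 * p ^ 3 * M :=
        div_le_self (by positivity) e1
      linarith
    · obtain ⟨D₁, h1, h2, h3⟩ := hH (nm d) (nm e) e1 hed hd'.1
      rw [HB2_iff (by positivity)] at h2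
      refine term_le hM hN hws hd he.1 hf h1 ?_ hη0 (by linarith)
        (h3.trans ?_) hKη
      · intro x
        refine le_trans ?_ (h2 x)
        refine sum_le_sum_of_subset_of_nonneg (nz_mono ?_) fun _ _ _ => by positivity
        calc p * (1 + K) ≤ p * (K + K) := by gcongr
          _ = K * (2 * p) := by ring
          _ ≤ K * (M * N) ^ ε := by gcongr
      · have : 0 ≤ 4 * CL ^ 2 * p ^ 3 * M := by positivity
        linarith
  have htau : ∀ n ∈ SF N, (Div277.tau n : ℝ) ≤ Cτ * p := by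
    intro n hn
    rw [mem_SF] at hn
    refine (hτ n hn.2.1.ne_zero).trans ?_
    rw [hp]
    gcongr
    exact hn.1.trans hNP
  have hall : ∑ d ∈ SF N, ∑ e ∈ (SF N).filter (· ∣ d), ∑ f ∈ SF N,
      M / (nm e * nm f) * (nm e * (nm f : ℝ) ^ 2 / M) ^ η *
        ∫ t : ℝ, (1 + t ^ 2)⁻¹ * ∑ l ∈ LS2.bl (CR2.Lde N M η d e),
          (nm l : ℝ) ^ (-η) * ‖CR2.dsum w N d e f l (η + t * Complex.I)‖ ^ 2 ≤
      Y * ((Cτ * p) ^ 3 * W2) := by
    refine (sum_le_sum fun d hd => sum_le_sum fun e he => sum_le_sum fun f hf =>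
      hterm d hd e he f hf).trans ?_
    have e3 : ∑ d ∈ SF N, ∑ e ∈ (SF N).filter (· ∣ d), ∑ f ∈ SF N,
          Y * ∑ k ∈ SF N, ‖w (d * f * k)‖ ^ 2 = Y * ∑ d ∈ SF N, ∑ e ∈ (SF N).filter (· ∣ d),
          ∑ f ∈ SF N, ∑ k ∈ SF N, ‖w (d * f * k)‖ ^ 2 := by simp only [mul_sum]
    rw [e3]
    refine mul_le_mul_of_nonneg_left ?_ hY0
    refine sum_defk_le (W := fun n => ‖w n‖ ^ 2) (fun n => by positivity) ?_
      (by positivity) htau
    intro n hn
    refine SFdy_subset N (hws n ?_)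
    intro h0
    simp [h0] at hn
  have hp3 : 1 ≤ p ^ 3 := one_le_pow₀ hp1
  have hp8' : 1 ≤ p ^ 8 := one_le_pow₀ hp1
  have t1 : M ≤ p ^ 8 * (M + D) := by nlinarith
  have t2 : R ≤ (1 + 4 * CL ^ 2) * p ^ 3 * (M + D) := by
    have e2 : (1 + 4 * CL ^ 2) * p ^ 3 * (M + D) = D * p ^ 3 + M * p ^ 3 +
      4 * CL ^ 2 * p ^ 3 * M + 4 * CL ^ 2 * p ^ 3 * D := by ring
    rw [e2, hR]
    have t3 : D ≤ D * p ^ 3 := le_mul_of_one_le_right hD0 hp3
    have t4 : 0 ≤ M * p ^ 3 := by positivity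
    have t5 : 0 ≤ 4 * CL ^ 2 * p ^ 3 * D := by positivity
    linarith
  calc Real.exp 1 * ∑' m : Eis, Real.exp (-(nm m : ℝ) / M) *
        ‖∑ n ∈ SF N, w n * sy m n‖ ^ 2
      ≤ Real.exp 1 * (C₀ * M * W2 + C₀ * (Y * ((Cτ * p) ^ 3 * W2))) := by
        refine mul_le_mul_of_nonneg_left (hdual.trans ?_) (Real.exp_pos _).le
        exact add_le_add le_rfl (mul_le_mul_of_nonneg_left hall hC₀.le)
    _ = Real.exp 1 * (C₀ * M + C₀ * (2 * Real.pi * R * Cτ ^ 3 * p ^ 5)) * W2 := by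
        rw [hY]; ring
    _ ≤ Real.exp 1 * (C₀ * (p ^ 8 * (M + D)) + C₀ * (2 * Real.pi *
          ((1 + 4 * CL ^ 2) * p ^ 3 * (M + D)) * Cτ ^ 3 * p ^ 5)) * W2 := by
        gcongr
    _ = C1 * p ^ 8 * (M + D) * W2 := by rw [hC1]; ring
    _ ≤ C1 * (M * N) ^ ε * (M + D) * W2 := by gcongr

/-- The trivial range of the Poisson step. -/
lemma step2_trivial {ε η CL : ℝ} (hε : 0 < ε) (hη0 : 0 < η) (hη1 : 8 * η ≤ 1)
    (hCL : 0 < CL) (hL : ∀ X : ℝ, 1 ≤ X → LL X ≤ CL * X ^ η)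
    {M N D : ℝ} (hM : 1 ≤ M) (hN : 1 ≤ N) (hD0 : 0 ≤ D)
    (hsmall : (M * N) ^ (ε / 2) < 2) :
    Bdy sy M N ≤ (2 : ℝ) ^ (2 / ε * 2) * CL ^ 2 * (M * N) ^ ε * (M + D) := by
  have hM0 : 0 < M := by linarith
  have hN0 : 0 < N := by linarith
  have hMN : 1 ≤ M * N := one_le_mul_of_one_le_of_one_le hM hN
  have hNP : N ≤ M * N := le_mul_of_one_le_left hN0.le hM
  have hMP : M ≤ M * N := le_mul_of_one_le_right hM0.le hN
  have hPε1 : 1 ≤ (M * N) ^ ε := Real.one_le_rpow hMN hε.le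
  have hPs : M * N ≤ (2 : ℝ) ^ (2 / ε) := by
    calc M * N = ((M * N) ^ (ε / 2)) ^ (2 / ε) := by
          rw [← Real.rpow_mul (by positivity)]
          rw [show ε / 2 * (2 / ε) = 1 by field_simp, Real.rpow_one]
      _ ≤ _ := by gcongr
  have hLM : LL M ≤ CL * (M * N) ^ η := (LL_mono hMP).trans (hL _ hMN)
  have hLN : LL N ≤ CL * (M * N) ^ η := (LL_mono hNP).trans (hL _ hMN)
  have htriv : Bdy sy M N ≤ (M * LL M) * (N * LL N) := by
    refine (bc_le_card _ _ fun a _ b hb => ?_).trans ?_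
    · rw [mem_SFdy] at hb; exact symLike_sy.norm_le a hb.2.2.1
    · refine mul_le_mul ?_ ?_ (by positivity) (mul_nonneg hM0.le (LL_nonneg M))
      · have h3 : (#(SF M) : ℝ) ≤ #(nz M) := by exact_mod_cast card_le_card (SF_subset_nz M)
        exact h3.trans (card_nz_le M)
      · have h4 := card_le_card ((SFdy_subset N).trans (SF_subset_nz N))
        have h3 : (#(SFdy N) : ℝ) ≤ #(nz N) := by exact_mod_cast h4
        exact h3.trans (card_nz_le N)
  have h2pos : (1 : ℝ) ≤ (2 : ℝ) ^ (2 / ε) := Real.one_le_rpow (by norm_num) (by positivity)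
  have h2η : ((M * N) ^ η) ^ 2 ≤ (2 : ℝ) ^ (2 / ε) := by
    calc ((M * N) ^ η) ^ 2 = (M * N) ^ (η * 2) := by
            rw [← Real.rpow_natCast, ← Real.rpow_mul (by positivity)]; norm_num
        _ ≤ (M * N) ^ (1 : ℝ) := Real.rpow_le_rpow_of_exponent_le hMN (by linarith)
        _ = M * N := Real.rpow_one _
        _ ≤ _ := hPs
  calc Bdy sy M N ≤ (M * LL M) * (N * LL N) := htriv
    _ ≤ (M * (CL * (M * N) ^ η)) * (N * (CL * (M * N) ^ η)) := by
        have := LL_nonneg N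
        have := LL_nonneg M
        gcongr
    _ = M * N * ((M * N) ^ η) ^ 2 * CL ^ 2 := by ring
    _ ≤ M * (2 : ℝ) ^ (2 / ε) * ((2 : ℝ) ^ (2 / ε)) * CL ^ 2 := by
        gcongr
        exact hNP.trans hPs
    _ = (2 : ℝ) ^ (2 / ε * 2) * CL ^ 2 * 1 * M := by
        rw [Real.rpow_mul (by norm_num), Real.rpow_two]; ring
    _ ≤ (2 : ℝ) ^ (2 / ε * 2) * CL ^ 2 * (M * N) ^ ε * (M + D) := by
        gcongr
        linarith

/-- **The dual inequality implies the Poisson step.** -/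
theorem step2_of_dualIneq (h : CR2.DualIneq) : LS2.Step2 := by
  intro ε hε
  set η : ℝ := min ε 1 / 8 with hη
  have hη0 : 0 < η := by positivity
  have hη1 : 8 * η ≤ 1 := by have := min_le_right ε 1; rw [hη]; linarith
  have hηε : 8 * η ≤ ε := by have := min_le_left ε 1; rw [hη]; linarith
  obtain ⟨C₀, hC₀, hD⟩ := h η η hη0 (by linarith) hη0
  obtain ⟨CL, hCL, hL⟩ := LL_le hη0
  obtain ⟨Cτ, hCτ, hτ⟩ := Div277.tau_le_rpow hη0
  have hCτ0 : 0 < Cτ := by linarith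
  set C1 : ℝ := Real.exp 1 * (C₀ + C₀ * (2 * Real.pi * (1 + 4 * CL ^ 2) * Cτ ^ 3)) with hC1
  set C2 : ℝ := (2 : ℝ) ^ (2 / ε * 2) * CL ^ 2 with hC2
  have hC10 : 0 < C1 := by positivity
  have hC20 : 0 < C2 := by positivity
  refine ⟨C1 + C2, by positivity, fun M N hM hN D hD0 hH => ?_⟩
  have hM0 : 0 < M := by linarith
  have hN0 : 0 < N := by linarith
  have hPε0 : 0 < (M * N) ^ ε := by positivity
  rw [HBd_iff hM0.le hN0.le]
  refine adm_of_bc_le ?_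
  rcases lt_or_ge ((M * N) ^ (ε / 2)) 2 with hsmall | hbig
  · refine (step2_trivial hε hη0 hη1 hCL hL hM hN hD0 hsmall).trans ?_
    rw [← hC2]
    gcongr
    linarith
  · refine (step2_main hη0 hη1 hηε hC₀ hD hCL hL hCτ hτ hM hN hD0 hH hbig).trans ?_
    rw [← hC1]
    gcongr
    linarith

/-- Heath-Brown's cubic large sieve from the dual inequality. -/
theorem final_of_dualIneq (h : CR2.DualIneq) : LS2.Final := final_of_step2 (step2_of_dualIneq h)

end Crest.Agent.R012.LS448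
end
end

-- ▼ part R012/MellinExp_448
section

/-!
# Row 12: Mellin inversion for `exp (-x)` (helper448)

* `norm_Gamma_le` : `‖Γ(σ+it)‖ ≤ Γ(σ+2) / (‖σ+it‖ ‖σ+1+it‖)`
* `norm_Gamma_le'` : `‖Γ(σ+it)‖ ≤ Γ(σ+2) / (σ² + t²)`
* `integrable_Gamma_vertical`, `integrable_norm_Gamma_vertical`
* `exp_neg_eq_integral` : `exp(-x) = (1/2π) ∫ Γ(σ+it) x^{-(σ+it)} dt`
-/

set_option autoImplicit false

noncomputable section

open MeasureTheory Complex

namespace Crest.Agent.R012.MellinExp448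

/-- trivial bound for `Γ` on vertical lines -/
lemma norm_Gamma_le_re {s : ℂ} (hs : 0 < s.re) : ‖Complex.Gamma s‖ ≤ Real.Gamma s.re := by
  rw [Complex.Gamma_eq_integral hs, Complex.GammaIntegral, Real.Gamma_eq_integral hs]
  refine (norm_integral_le_integral_norm _).trans (le_of_eq ?_)
  refine setIntegral_congr_fun measurableSet_Ioi (fun x hx => ?_)
  have hx' : (0 : ℝ) < x := hx
  simp only [norm_mul, Complex.norm_real, Real.norm_eq_abs, abs_of_pos (Real.exp_pos _)]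
  rw [Complex.norm_cpow_eq_rpow_re_of_pos hx']
  simp

lemma Gamma_eq_div {s : ℂ} (hs : 0 < s.re) :
    Complex.Gamma s = Complex.Gamma (s + 2) / (s * (s + 1)) := by
  have h0 : s ≠ 0 := by
    rintro rfl; simp at hs
  have h1 : s + 1 ≠ 0 := by
    intro h
    have := congrArg Complex.re h
    simp at this
    linarith
  have e1 := Complex.Gamma_add_one s h0
  have e2 := Complex.Gamma_add_one (s + 1) h1
  have e3 : s + 2 = s + 1 + 1 := by ring
  rw [e3, e2, e1]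
  field_simp

lemma norm_Gamma_le {σ : ℝ} (hσ : 0 < σ) (t : ℝ) :
    ‖Complex.Gamma (σ + t * I)‖ ≤
      Real.Gamma (σ + 2) / (‖(σ : ℂ) + t * I‖ * ‖(σ : ℂ) + t * I + 1‖) := by
  have hre : ((σ : ℂ) + t * I).re = σ := by simp
  have hs : 0 < ((σ : ℂ) + t * I).re := by rw [hre]; exact hσ
  rw [Gamma_eq_div hs, norm_div, norm_mul]
  have h2 : ‖Complex.Gamma ((σ : ℂ) + t * I + 2)‖ ≤ Real.Gamma (σ + 2) := by
    have hre2 : ((σ : ℂ) + t * I + 2).re = σ + 2 := by simp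
    have := norm_Gamma_le_re (s := (σ : ℂ) + t * I + 2) (by rw [hre2]; linarith)
    rwa [hre2] at this
  gcongr

lemma norm_sq_ge (σ t : ℝ) : ‖(σ : ℂ) + t * I‖ ^ 2 = σ ^ 2 + t ^ 2 := by
  rw [← Complex.normSq_eq_norm_sq, Complex.normSq_apply]
  simp; ring

lemma norm_add_one_ge {σ : ℝ} (hσ : 0 < σ) (t : ℝ) :
    ‖(σ : ℂ) + t * I‖ ≤ ‖(σ : ℂ) + t * I + 1‖ := by
  have h1 : ‖(σ : ℂ) + t * I + 1‖ ^ 2 = (σ + 1) ^ 2 + t ^ 2 := by
    have := norm_sq_ge (σ + 1) t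
    rw [← this]
    congr 2
    push_cast; ring
  have h2 := norm_sq_ge σ t
  refine le_of_sq_le_sq ?_ (norm_nonneg _)
  rw [h1, h2]
  nlinarith

/-- `‖Γ(σ+it)‖ ≤ Γ(σ+2) / (σ² + t²)` -/
lemma norm_Gamma_le' {σ : ℝ} (hσ : 0 < σ) (t : ℝ) :
    ‖Complex.Gamma (σ + t * I)‖ ≤ Real.Gamma (σ + 2) / (σ ^ 2 + t ^ 2) := by
  refine (norm_Gamma_le hσ t).trans ?_
  have hG : 0 < Real.Gamma (σ + 2) := Real.Gamma_pos_of_pos (by linarith)
  have hpos : 0 < σ ^ 2 + t ^ 2 := by positivity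
  have h1 : σ ^ 2 + t ^ 2 ≤ ‖(σ : ℂ) + t * I‖ * ‖(σ : ℂ) + t * I + 1‖ := by
    rw [← norm_sq_ge, pow_two]
    exact mul_le_mul_of_nonneg_left (norm_add_one_ge hσ t) (norm_nonneg _)
  exact div_le_div_of_nonneg_left hG.le hpos h1

lemma continuous_Gamma_vertical {σ : ℝ} (hσ : 0 < σ) :
    Continuous (fun t : ℝ => Complex.Gamma ((σ : ℂ) + t * I)) := by
  rw [continuous_iff_continuousAt]
  intro t
  have hd : DifferentiableAt ℂ Complex.Gamma ((σ : ℂ) + t * I) := by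
    apply Complex.differentiableAt_Gamma
    intro m h
    have := congrArg Complex.re h
    simp at this
    have hm : (0 : ℝ) ≤ m := Nat.cast_nonneg m
    linarith
  exact ContinuousAt.comp (f := fun t : ℝ => (σ : ℂ) + t * I) hd.continuousAt (by fun_prop)

lemma integrable_inv_sq_add {σ : ℝ} (hσ : 0 < σ) :
    Integrable (fun t : ℝ => Real.Gamma (σ + 2) / (σ ^ 2 + t ^ 2)) := by
  have h := (integrable_inv_one_add_sq).comp_div (ne_of_gt hσ)
  have h2 := h.const_mul (Real.Gamma (σ + 2) / σ ^ 2)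
  refine h2.congr (Filter.Eventually.of_forall fun t => ?_)
  simp only
  have hσ' : σ ≠ 0 := ne_of_gt hσ
  have h3 : σ ^ 2 + t ^ 2 ≠ 0 := by positivity
  have h4 : 1 + (t / σ) ^ 2 ≠ 0 := by positivity
  field_simp

lemma integrable_Gamma_vertical {σ : ℝ} (hσ : 0 < σ) :
    Integrable (fun t : ℝ => Complex.Gamma ((σ : ℂ) + t * I)) := by
  refine (integrable_inv_sq_add hσ).mono' (continuous_Gamma_vertical hσ).aestronglyMeasurable
    (Filter.Eventually.of_forall fun t => norm_Gamma_le' hσ t)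


lemma mellin_exp_neg {s : ℂ} (hs : 0 < s.re) :
    mellin (fun x : ℝ => ((Real.exp (-x) : ℝ) : ℂ)) s = Complex.Gamma s := by
  rw [Complex.Gamma_eq_integral hs, Complex.GammaIntegral_eq_mellin]

/-- Mellin inversion: `exp(-x) = (1/2π) ∫ Γ(σ+it) x^{-(σ+it)} dt`. -/
theorem exp_neg_eq_integral {σ x : ℝ} (hσ : 0 < σ) (hx : 0 < x) :
    ((Real.exp (-x) : ℝ) : ℂ) =
      (1 / (2 * Real.pi) : ℝ) *
        ∫ t : ℝ, Complex.Gamma ((σ : ℂ) + t * I) * (x : ℂ) ^ (-((σ : ℂ) + t * I)) := by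
  have hconv : MellinConvergent (fun x : ℝ => ((Real.exp (-x) : ℝ) : ℂ)) (σ : ℂ) := by
    have := Complex.GammaIntegral_convergent (s := (σ : ℂ)) (by simpa using hσ)
    refine this.congr_fun (fun x hx => ?_) measurableSet_Ioi
    simp [mul_comm]
  have hv : VerticalIntegrable (mellin (fun x : ℝ => ((Real.exp (-x) : ℝ) : ℂ))) σ := by
    unfold VerticalIntegrable
    refine (integrable_Gamma_vertical hσ).congr (Filter.Eventually.of_forall fun t => ?_)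
    simp only
    rw [mellin_exp_neg (by simpa using hσ)]
  have hc : ContinuousAt (fun x : ℝ => ((Real.exp (-x) : ℝ) : ℂ)) x := by fun_prop
  have key := mellinInv_mellin_eq σ (fun x : ℝ => ((Real.exp (-x) : ℝ) : ℂ)) hx hconv hv hc
  rw [← key, mellinInv]
  simp only [Complex.real_smul, smul_eq_mul]
  congr 1
  refine integral_congr_ae (Filter.Eventually.of_forall fun t => ?_)
  simp only
  rw [mellin_exp_neg (by simpa using hσ)]
  ring

/-- the integrand of `exp_neg_eq_integral` is integrable -/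
lemma integrable_integrand {σ x : ℝ} (hσ : 0 < σ) (hx : 0 < x) :
    Integrable (fun t : ℝ => Complex.Gamma ((σ : ℂ) + t * I) * (x : ℂ) ^ (-((σ : ℂ) + t * I))) := by
  have hx0 : (x : ℂ) ≠ 0 := by exact_mod_cast ne_of_gt hx
  have hcont : Continuous (fun t : ℝ => (x : ℂ) ^ (-((σ : ℂ) + t * I))) := by
    refine Continuous.const_cpow (by fun_prop) (Or.inl hx0)
  refine (integrable_Gamma_vertical hσ).mul_bdd (c := x ^ (-σ)) hcont.aestronglyMeasurable ?_
  refine Filter.Eventually.of_forall fun t => ?_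
  rw [Complex.norm_cpow_eq_rpow_re_of_pos hx]
  simp

end Crest.Agent.R012.MellinExp448
end
end

-- ▼ part R012/MelSep_811
section

/-!
# Row 12: Mellin separation of `exp (-y / (nm k₁ nm k₂))`

* `dp K β s = Σ_{k ∈ K} β k (nm k)^(s - 1/2)`
* `mellin_sep`: for `0 < σ ≤ 1`, `0 < y`, `K` a finite set of nonzero elements
  `‖Σ_{k₁,k₂ ∈ K} β k₁ (nm k₁)^(-1/2) conj (β k₂ (nm k₂)^(-1/2)) exp (-y/(nm k₁ nm k₂))‖
     ≤ csig σ * y^(-σ) * ∫ (1+t²)⁻¹ ‖dp K β (σ+it)‖² dt`.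
-/

set_option autoImplicit false

noncomputable section

open MeasureTheory Complex Finset
open scoped ComplexConjugate

namespace Crest.Agent.R012.MelSep811

open Eis

/-- Dirichlet polynomial `Σ_{k ∈ K} β k (nm k)^(s - 1/2)`. -/
def dp (K : Finset Eis) (β : Eis → ℂ) (s : ℂ) : ℂ := ∑ k ∈ K, β k * (nm k : ℂ) ^ (s - 1 / 2)

/-- The constant of `mellin_sep`. -/
def csig (σ : ℝ) : ℝ := (2 * Real.pi)⁻¹ * (Real.Gamma (σ + 2) / σ ^ 2)

lemma csig_pos {σ : ℝ} (hσ : 0 < σ) : 0 < csig σ := by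
  have : 0 < Real.Gamma (σ + 2) := Real.Gamma_pos_of_pos (by linarith)
  unfold csig; positivity

lemma norm_Gamma_le_inv {σ : ℝ} (hσ : 0 < σ) (hσ1 : σ ≤ 1) (t : ℝ) :
    ‖Complex.Gamma (σ + t * I)‖ ≤ Real.Gamma (σ + 2) / σ ^ 2 * (1 + t ^ 2)⁻¹ := by
  refine (MellinExp448.norm_Gamma_le' hσ t).trans ?_
  have hG : 0 < Real.Gamma (σ + 2) := Real.Gamma_pos_of_pos (by linarith)
  rw [← div_eq_mul_inv, div_div]
  apply div_le_div_of_nonneg_left hG.le (by positivity)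
  have : σ ^ 2 * t ^ 2 ≤ 1 * t ^ 2 := by
    apply mul_le_mul_of_nonneg_right _ (sq_nonneg t)
    nlinarith
  nlinarith

lemma natCast_arg_ne_pi (n : ℕ) : ((n : ℕ) : ℂ).arg ≠ Real.pi := by
  rw [Complex.natCast_arg]; exact Real.pi_ne_zero.symm

lemma conj_natCast_cpow (n : ℕ) (z : ℂ) : conj ((n : ℂ) ^ z) = (n : ℂ) ^ (conj z) := by
  have := Complex.cpow_conj (n : ℂ) z (natCast_arg_ne_pi n)
  rw [this, Complex.conj_natCast]

lemma div_cpow_neg {y : ℝ} (hy : 0 < y) {m n : ℕ} (hm : 0 < m) (hn : 0 < n) (s : ℂ) :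
    (((y / ((m : ℝ) * (n : ℝ)) : ℝ)) : ℂ) ^ (-s) = (y : ℂ) ^ (-s) * (m : ℂ) ^ s * (n : ℂ) ^ s := by
  have e : (((y / ((m : ℝ) * (n : ℝ)) : ℝ)) : ℂ) =
      (y : ℂ) * (((m : ℝ)⁻¹ : ℝ) : ℂ) * (((n : ℝ)⁻¹ : ℝ) : ℂ) := by
    push_cast; field_simp
  have hm' : (0 : ℝ) < (m : ℝ)⁻¹ := by positivity
  have hn' : (0 : ℝ) < (n : ℝ)⁻¹ := by positivity
  rw [e, show (y : ℂ) * (((m : ℝ)⁻¹ : ℝ) : ℂ) = ((y * (m : ℝ)⁻¹ : ℝ) : ℂ) by push_cast; ring,
    Complex.mul_cpow_ofReal_nonneg (by positivity) hn'.le]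
  rw [show ((y * (m : ℝ)⁻¹ : ℝ) : ℂ) = (y : ℂ) * (((m : ℝ)⁻¹ : ℝ) : ℂ) by push_cast; ring,
    Complex.mul_cpow_ofReal_nonneg hy.le hm'.le]
  have key : ∀ k : ℕ, 0 < k → (((k : ℝ)⁻¹ : ℝ) : ℂ) ^ (-s) = (k : ℂ) ^ s := by
    intro k hk
    rw [Complex.ofReal_inv, Complex.ofReal_natCast,
      Complex.inv_cpow _ _ (natCast_arg_ne_pi k), Complex.cpow_neg, inv_inv]
  rw [key m hm, key n hn]

lemma continuous_dp (K : Finset Eis) (β : Eis → ℂ) (hK : ∀ k ∈ K, k ≠ 0) (σ : ℝ) :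
    Continuous (fun t : ℝ => dp K β ((σ : ℂ) + t * I)) := by
  unfold dp
  apply continuous_finsetSum
  intro k hk
  have h0 : ((nm k : ℕ) : ℂ) ≠ 0 := by
    have := nm_pos.mpr (hK k hk)
    exact_mod_cast this.ne'
  apply Continuous.mul continuous_const
  exact Continuous.const_cpow (by fun_prop) (Or.inl h0)

lemma norm_dp_le (K : Finset Eis) (β : Eis → ℂ) (hK : ∀ k ∈ K, k ≠ 0) (σ t : ℝ) :
    ‖dp K β ((σ : ℂ) + t * I)‖ ≤ ∑ k ∈ K, ‖β k‖ * (nm k : ℝ) ^ (σ - 1 / 2) := by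
  unfold dp
  refine (norm_sum_le _ _).trans ?_
  apply Finset.sum_le_sum
  intro k hk
  have hpos := nm_pos.mpr (hK k hk)
  rw [norm_mul, Complex.norm_natCast_cpow_of_pos hpos]
  simp

lemma integrable_dp_sq (K : Finset Eis) (β : Eis → ℂ) (hK : ∀ k ∈ K, k ≠ 0) (σ : ℝ) :
    Integrable (fun t : ℝ => (1 + t ^ 2)⁻¹ * ‖dp K β ((σ : ℂ) + t * I)‖ ^ 2) := by
  refine (integrable_inv_one_add_sq).mul_bdd
    (c := (∑ k ∈ K, ‖β k‖ * (nm k : ℝ) ^ (σ - 1 / 2)) ^ 2)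
    (((continuous_dp K β hK σ).norm.pow 2).aestronglyMeasurable)
    (Filter.Eventually.of_forall fun t => ?_)
  rw [Real.norm_eq_abs, abs_of_nonneg (by positivity)]
  gcongr
  exact norm_dp_le K β hK σ t

/-- exact formula -/
lemma mellin_exact (K : Finset Eis) (β : Eis → ℂ) (hK : ∀ k ∈ K, k ≠ 0) {σ y : ℝ} (hσ : 0 < σ)
    (hy : 0 < y) :
    ∑ k1 ∈ K, ∑ k2 ∈ K, (β k1 * (nm k1 : ℂ) ^ (-(1 / 2) : ℂ)) *
        conj (β k2 * (nm k2 : ℂ) ^ (-(1 / 2) : ℂ)) *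
        ((Real.exp (-(y / ((nm k1 : ℝ) * (nm k2 : ℝ)))) : ℝ) : ℂ) =
      (1 / (2 * Real.pi) : ℝ) * ∫ t : ℝ, Complex.Gamma ((σ : ℂ) + t * I) *
        (y : ℂ) ^ (-((σ : ℂ) + t * I)) *
          (dp K β ((σ : ℂ) + t * I) * conj (dp K β ((σ : ℂ) + (-t : ℝ) * I))) := by
  have hpos : ∀ k ∈ K, 0 < nm k := fun k hk => nm_pos.mpr (hK k hk)
  have h1 : ∀ k1 ∈ K, ∀ k2 ∈ K, (β k1 * (nm k1 : ℂ) ^ (-(1 / 2) : ℂ)) *
        conj (β k2 * (nm k2 : ℂ) ^ (-(1 / 2) : ℂ)) *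
        ((Real.exp (-(y / ((nm k1 : ℝ) * (nm k2 : ℝ)))) : ℝ) : ℂ) =
      (1 / (2 * Real.pi) : ℝ) * ∫ t : ℝ, Complex.Gamma ((σ : ℂ) + t * I) *
        (y : ℂ) ^ (-((σ : ℂ) + t * I)) *
          ((β k1 * (nm k1 : ℂ) ^ ((σ : ℂ) + t * I - 1 / 2)) *
            conj (β k2 * (nm k2 : ℂ) ^ ((σ : ℂ) + (-t : ℝ) * I - 1 / 2))) := by
    intro k1 hk1 k2 hk2
    have p1 := hpos k1 hk1
    have p2 := hpos k2 hk2
    have q1 : ((nm k1 : ℕ) : ℂ) ≠ 0 := by exact_mod_cast p1.ne'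
    have q2 : ((nm k2 : ℕ) : ℂ) ≠ 0 := by exact_mod_cast p2.ne'
    have hx : 0 < y / ((nm k1 : ℝ) * (nm k2 : ℝ)) := by
      have : (0 : ℝ) < nm k1 := by exact_mod_cast p1
      have : (0 : ℝ) < nm k2 := by exact_mod_cast p2
      positivity
    rw [MellinExp448.exp_neg_eq_integral hσ hx, mul_left_comm, ← integral_const_mul]
    congr 2
    funext t
    rw [div_cpow_neg hy p1 p2]
    simp only [map_mul, conj_natCast_cpow]
    have e1 : conj (-(1 / 2) : ℂ) = -(1 / 2) := by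
      rw [map_neg, map_div₀, map_one, map_ofNat]
    have e2 : conj ((σ : ℂ) + (-t : ℝ) * I - 1 / 2) = (σ : ℂ) + t * I - 1 / 2 := by
      simp only [map_sub, map_add, map_mul, map_div₀, map_one, map_ofNat, Complex.conj_ofReal,
        Complex.conj_I]
      push_cast; ring
    rw [e1, e2, show (σ : ℂ) + t * I - 1 / 2 = ((σ : ℂ) + t * I) + (-(1 / 2)) by ring,
      Complex.cpow_add ((σ : ℂ) + t * I) (-(1 / 2)) q1,
      Complex.cpow_add ((σ : ℂ) + t * I) (-(1 / 2)) q2]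
    ring
  have hint : ∀ k1 ∈ K, ∀ k2 ∈ K, Integrable (fun t : ℝ => Complex.Gamma ((σ : ℂ) + t * I) *
        (y : ℂ) ^ (-((σ : ℂ) + t * I)) *
          ((β k1 * (nm k1 : ℂ) ^ ((σ : ℂ) + t * I - 1 / 2)) *
            conj (β k2 * (nm k2 : ℂ) ^ ((σ : ℂ) + (-t : ℝ) * I - 1 / 2)))) := by
    intro k1 hk1 k2 hk2
    have p1 := hpos k1 hk1
    have p2 := hpos k2 hk2
    have q1 : ((nm k1 : ℕ) : ℂ) ≠ 0 := by exact_mod_cast p1.ne'
    have q2 : ((nm k2 : ℕ) : ℂ) ≠ 0 := by exact_mod_cast p2.ne'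
    refine (MellinExp448.integrable_integrand hσ hy).mul_bdd
      (c := ‖β k1‖ * (nm k1 : ℝ) ^ (σ - 1 / 2) * (‖β k2‖ * (nm k2 : ℝ) ^ (σ - 1 / 2))) ?_ ?_
    · apply Continuous.aestronglyMeasurable
      apply Continuous.mul
      · exact Continuous.mul continuous_const (Continuous.const_cpow (by fun_prop) (Or.inl q1))
      · apply Complex.continuous_conj.comp
        refine Continuous.mul continuous_const (Continuous.const_cpow ?_ (Or.inl q2))
        push_cast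
        fun_prop
    · refine Filter.Eventually.of_forall fun t => le_of_eq ?_
      rw [norm_mul, RCLike.norm_conj, norm_mul, norm_mul, Complex.norm_natCast_cpow_of_pos p1,
        Complex.norm_natCast_cpow_of_pos p2]
      simp
  rw [Finset.sum_congr rfl (fun k1 hk1 => Finset.sum_congr rfl (fun k2 hk2 => h1 k1 hk1 k2 hk2))]
  simp_rw [← Finset.mul_sum]
  congr 1
  rw [← Finset.sum_congr rfl (fun k1 hk1 => integral_finsetSum K (hint k1 hk1)),
    ← integral_finsetSum K (fun k1 hk1 => integrable_finsetSum K (hint k1 hk1))]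
  congr 1
  funext t
  simp only [dp, map_sum]
  rw [Finset.sum_mul_sum, Finset.mul_sum]
  apply Finset.sum_congr rfl; intro k1 _
  rw [Finset.mul_sum]

/-- **Mellin separation.** -/
theorem mellin_sep (K : Finset Eis) (β : Eis → ℂ) (hK : ∀ k ∈ K, k ≠ 0) {σ y : ℝ} (hσ : 0 < σ)
    (hσ1 : σ ≤ 1) (hy : 0 < y) :
    ‖∑ k1 ∈ K, ∑ k2 ∈ K, (β k1 * (nm k1 : ℂ) ^ (-(1 / 2) : ℂ)) *
        conj (β k2 * (nm k2 : ℂ) ^ (-(1 / 2) : ℂ)) *
        ((Real.exp (-(y / ((nm k1 : ℝ) * (nm k2 : ℝ)))) : ℝ) : ℂ)‖ ≤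
      csig σ * y ^ (-σ) * ∫ t : ℝ, (1 + t ^ 2)⁻¹ * ‖dp K β ((σ : ℂ) + t * I)‖ ^ 2 := by
  rw [mellin_exact K β hK hσ hy, norm_mul]
  have hG : 0 < Real.Gamma (σ + 2) := Real.Gamma_pos_of_pos (by linarith)
  set g : ℝ → ℝ := fun t => (1 + t ^ 2)⁻¹ * ‖dp K β ((σ : ℂ) + t * I)‖ ^ 2 with hg
  have hgi : Integrable g := integrable_dp_sq K β hK σ
  have hgn : Integrable (fun t => g (-t)) := hgi.comp_neg
  have hbd : ∀ t : ℝ, ‖Complex.Gamma ((σ : ℂ) + t * I) * (y : ℂ) ^ (-((σ : ℂ) + t * I)) *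
          (dp K β ((σ : ℂ) + t * I) * conj (dp K β ((σ : ℂ) + (-t : ℝ) * I)))‖ ≤
      (Real.Gamma (σ + 2) / σ ^ 2 * y ^ (-σ) / 2) * (g t + g (-t)) := by
    intro t
    rw [norm_mul, norm_mul, norm_mul, RCLike.norm_conj, Complex.norm_cpow_eq_rpow_re_of_pos hy]
    have hre : (-((σ : ℂ) + t * I)).re = -σ := by simp
    rw [hre]
    set A := ‖dp K β ((σ : ℂ) + t * I)‖
    set B := ‖dp K β ((σ : ℂ) + (-t : ℝ) * I)‖ with hB
    have hAB : A * B ≤ (A ^ 2 + B ^ 2) / 2 := by nlinarith [sq_nonneg (A - B)]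
    have h1 := norm_Gamma_le_inv hσ hσ1 t
    have hgB : g (-t) = (1 + t ^ 2)⁻¹ * B ^ 2 := by
      simp only [hg, hB]; rw [neg_sq]
    have hgA : g t = (1 + t ^ 2)⁻¹ * A ^ 2 := rfl
    have hy0 : 0 ≤ y ^ (-σ) := by positivity
    calc ‖Complex.Gamma ((σ : ℂ) + t * I)‖ * y ^ (-σ) * (A * B)
        ≤ (Real.Gamma (σ + 2) / σ ^ 2 * (1 + t ^ 2)⁻¹) * y ^ (-σ) * ((A ^ 2 + B ^ 2) / 2) := by
          gcongr
      _ = _ := by rw [hgA, hgB]; ring
  have h2 : ‖∫ t : ℝ, Complex.Gamma ((σ : ℂ) + t * I) * (y : ℂ) ^ (-((σ : ℂ) + t * I)) *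
          (dp K β ((σ : ℂ) + t * I) * conj (dp K β ((σ : ℂ) + (-t : ℝ) * I)))‖ ≤
      Real.Gamma (σ + 2) / σ ^ 2 * y ^ (-σ) * ∫ t, g t := by
    refine (norm_integral_le_of_norm_le ((hgi.add hgn).const_mul _)
      (Filter.Eventually.of_forall hbd)).trans (le_of_eq ?_)
    rw [integral_const_mul]
    have : ∫ t, (g + fun t => g (-t)) t = (∫ t, g t) + ∫ t, g (-t) := integral_add hgi hgn
    rw [this, integral_neg_eq_self]
    ring
  have h3 : ‖(((1 / (2 * Real.pi) : ℝ)) : ℂ)‖ = (2 * Real.pi)⁻¹ := by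
    rw [Complex.norm_real, Real.norm_eq_abs, abs_of_pos (by positivity), one_div]
  rw [h3]
  calc (2 * Real.pi)⁻¹ * _ ≤ (2 * Real.pi)⁻¹ *
        (Real.Gamma (σ + 2) / σ ^ 2 * y ^ (-σ) * ∫ t, g t) := by gcongr
    _ = _ := by unfold csig; ring

end Crest.Agent.R012.MelSep811
end
end

-- ▼ part R012/DualIneq_811
section

/-!
# Row 12 (CR2-PD): the dual inequality `CR2.DualIneq`

From `LS2.dual_ineq` (helper381: Poisson and Moebius, all numerators, Gaussian-free weight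
`exp (-nm n / Z)`), `MelSep811.mellin_sep` and the tail estimate.
-/

set_option autoImplicit false

noncomputable section

open MeasureTheory Finset
open scoped ComplexConjugate

namespace Crest.Agent.R012.DualIneq811

open Eis LS2 Mob705 CR2 MelSep811
open Gauss880 (syG)

/-- the coefficients of the dual sum -/
def bet (w : Eis → ℂ) (d e f l k : Eis) : ℂ :=
  w (d * f * k) * (sy (e * sq3) k * conj (sy (f * l) k) * G k)

lemma dsum_eq (w : Eis → ℂ) (X : ℝ) (d e f l : Eis) (s : ℂ) :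
    dsum w X d e f l s = dp (S X) (bet w d e f l) s := rfl

lemma nm_cpow_half (k : Eis) : (nm k : ℂ) ^ (-(1 / 2) : ℂ) = ((Real.sqrt (nm k))⁻¹ : ℝ) := by
  have h1 : (nm k : ℂ) = ((nm k : ℝ) : ℂ) := by push_cast; rfl
  have h2 : (-(1 / 2) : ℂ) = ((-(1 / 2) : ℝ) : ℂ) := by push_cast; rfl
  rw [h1, h2, ← Complex.ofReal_cpow (by positivity), Real.rpow_neg (by positivity),
    Real.sqrt_eq_rpow]

lemma Ue_mul (e l : Eis) {f k : Eis} (hf : IsPrim f) (hk : IsPrim k) :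
    Ue e l (f * k) = Ue e l f *
      ((sy (e * sq3) k * conj (sy (f * l) k) * G k) * (nm k : ℂ) ^ (-(1 / 2) : ℂ)) := by
  unfold Ue
  rw [syG.mul_right _ _ _ hf hk, syG.mul_right l _ _ hf hk, Gauss880.G_mul_all syG hf hk,
    syG.mul_left f l _ hk, nm_cpow_half, nm_cpow_half, nm_cpow_half, nm_mul, Nat.cast_mul,
    Real.sqrt_mul (by positivity), mul_inv]
  simp only [map_mul]
  push_cast
  ring

lemma norm_Ue_sq_le (e l : Eis) {f : Eis} (hf : IsPrim f) : ‖Ue e l f‖ ^ 2 ≤ (nm f : ℝ)⁻¹ := by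
  have h := norm_Ue_le syG hf e l
  have hn : 0 < (nm f : ℝ) := by exact_mod_cast nm_pos.2 hf.ne_zero
  calc ‖Ue e l f‖ ^ 2 ≤ ((nm f : ℝ) ^ (-(1 / 2) : ℝ)) ^ 2 := by gcongr
    _ = (nm f : ℝ)⁻¹ := by
      rw [← Real.rpow_natCast, ← Real.rpow_mul hn.le]
      norm_num
      rw [Real.rpow_neg_one]

/-- the Mellin variable -/
def yy (Z : ℝ) (e f l : Eis) : ℝ := 4 * Real.pi ^ 2 * Z * nm l / (3 * nm e * (nm f : ℝ) ^ 2)

lemma ws_eq {w : Eis → ℂ} {X : ℝ} (hw : ∀ h, w h ≠ 0 → h ∈ S X) (h : Eis) : ws w X h = w h := by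
  unfold ws
  split_ifs with h1
  · rfl
  · by_contra h2
    exact h1 (hw h (fun h3 => h2 h3.symm))

lemma qf_eq {X Z : ℝ} (hX : 0 ≤ X) {w : Eis → ℂ} (hw : ∀ h, w h ≠ 0 → h ∈ S X) {d e f : Eis}
    (he : e ≠ 0) (hf : f ∈ S X) (l : Eis) :
    qf w X Z d e f l = ((‖Ue e l f‖ ^ 2 : ℝ) : ℂ) * ∑ k1 ∈ S X, ∑ k2 ∈ S X,
      (bet w d e f l k1 * (nm k1 : ℂ) ^ (-(1 / 2) : ℂ)) *
        conj (bet w d e f l k2 * (nm k2 : ℂ) ^ (-(1 / 2) : ℂ)) *
        ((Real.exp (-(yy Z e f l / ((nm k1 : ℝ) * (nm k2 : ℝ)))) : ℝ) : ℂ) := by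
  unfold qf
  have hf' := (mem_S hX).1 hf
  rw [Finset.mul_sum]
  refine Finset.sum_congr rfl fun k1 h1 => ?_
  rw [Finset.mul_sum]
  refine Finset.sum_congr rfl fun k2 h2 => ?_
  have hk1 := (mem_S hX).1 h1
  have hk2 := (mem_S hX).1 h2
  rw [ws_eq hw, ws_eq hw, Ue_mul e l hf'.2.1 hk1.2.1, Ue_mul e l hf'.2.1 hk2.2.1]
  have e1 : (-(4 * Real.pi ^ 2 * Z * nm l) / (3 * nm e * nm (f * k1) * nm (f * k2)) : ℝ) =
      -(yy Z e f l / ((nm k1 : ℝ) * (nm k2 : ℝ))) := by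
    unfold yy
    have n0 : (nm e : ℝ) ≠ 0 := by exact_mod_cast (nm_pos.2 he).ne'
    have n1 : (nm f : ℝ) ≠ 0 := by exact_mod_cast (nm_pos.2 hf'.2.1.ne_zero).ne'
    have n2 : (nm k1 : ℝ) ≠ 0 := by exact_mod_cast (nm_pos.2 hk1.2.1.ne_zero).ne'
    have n3 : (nm k2 : ℝ) ≠ 0 := by exact_mod_cast (nm_pos.2 hk2.2.1.ne_zero).ne'
    rw [nm_mul, nm_mul]
    push_cast
    field_simp
  rw [e1]
  have e2 : ((‖Ue e l f‖ ^ 2 : ℝ) : ℂ) = Ue e l f * conj (Ue e l f) := by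
    rw [Complex.mul_conj, Complex.normSq_eq_norm_sq]
  rw [e2]
  unfold bet
  simp only [map_mul]
  ring

/-- the small frequencies -/
lemma norm_qf_le {X Z σ : ℝ} (hX : 0 ≤ X) (hZ : 0 < Z) (hσ : 0 < σ) (hσ1 : σ ≤ 1) {w : Eis → ℂ}
    (hw : ∀ h, w h ≠ 0 → h ∈ S X) {d e f l : Eis} (he : e ≠ 0) (hf : f ∈ S X) (hl : l ≠ 0) :
    ‖qf w X Z d e f l‖ ≤ csig σ * ((nm f : ℝ)⁻¹ * (nm e * (nm f : ℝ) ^ 2 / Z) ^ σ) *
      ((nm l : ℝ) ^ (-σ) *
        ∫ t : ℝ, (1 + t ^ 2)⁻¹ * ‖dsum w X d e f l (σ + t * Complex.I)‖ ^ 2) := by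
  have hf' := (mem_S hX).1 hf
  have ne : (0 : ℝ) < nm e := by exact_mod_cast nm_pos.2 he
  have nf : (0 : ℝ) < nm f := by exact_mod_cast nm_pos.2 hf'.2.1.ne_zero
  have nl : (0 : ℝ) < nm l := by exact_mod_cast nm_pos.2 hl
  have hy : 0 < yy Z e f l := by unfold yy; positivity
  rw [qf_eq hX hw he hf l, norm_mul, Complex.norm_real, Real.norm_eq_abs,
    abs_of_nonneg (by positivity)]
  have h1 := mellin_sep (S X) (bet w d e f l) (fun k hk => ((mem_S hX).1 hk).2.1.ne_zero) hσ hσ1 hy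
  have h2 : yy Z e f l ^ (-σ) ≤ (nm e * (nm f : ℝ) ^ 2 / Z) ^ σ * (nm l : ℝ) ^ (-σ) := by
    have e1 : yy Z e f l = (4 * Real.pi ^ 2 / 3) * ((nm e * (nm f : ℝ) ^ 2 / Z)⁻¹ * nm l) := by
      unfold yy; field_simp
    rw [e1, Real.mul_rpow (by positivity) (by positivity),
      Real.mul_rpow (by positivity) (by positivity), Real.inv_rpow (by positivity),
      Real.rpow_neg (by positivity) σ, Real.rpow_neg (x := nm e * (nm f : ℝ) ^ 2 / Z)
      (by positivity), inv_inv]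
    have h3 : (4 * Real.pi ^ 2 / 3) ^ σ ≥ 1 := by
      apply Real.one_le_rpow _ hσ.le
      have := Real.pi_gt_three
      nlinarith
    have h4 : ((4 * Real.pi ^ 2 / 3) ^ σ)⁻¹ ≤ 1 := inv_le_one_of_one_le₀ h3
    calc ((4 * Real.pi ^ 2 / 3) ^ σ)⁻¹ * ((nm e * (nm f : ℝ) ^ 2 / Z) ^ σ * (nm l : ℝ) ^ (-σ))
        ≤ 1 * ((nm e * (nm f : ℝ) ^ 2 / Z) ^ σ * (nm l : ℝ) ^ (-σ)) := by gcongr
      _ = _ := one_mul _
  have hI : 0 ≤ ∫ t : ℝ, (1 + t ^ 2)⁻¹ * ‖dp (S X) (bet w d e f l) ((σ : ℂ) + t * Complex.I)‖ ^ 2 :=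
    integral_nonneg fun t => by positivity
  have hc := csig_pos hσ
  calc ‖Ue e l f‖ ^ 2 * _ ≤ (nm f : ℝ)⁻¹ * (csig σ * yy Z e f l ^ (-σ) *
        ∫ t : ℝ, (1 + t ^ 2)⁻¹ * ‖dp (S X) (bet w d e f l) ((σ : ℂ) + t * Complex.I)‖ ^ 2) := by
        gcongr
        · exact norm_Ue_sq_le e l hf'.2.1
    _ ≤ (nm f : ℝ)⁻¹ * (csig σ * ((nm e * (nm f : ℝ) ^ 2 / Z) ^ σ * (nm l : ℝ) ^ (-σ)) *
        ∫ t : ℝ, (1 + t ^ 2)⁻¹ * ‖dp (S X) (bet w d e f l) ((σ : ℂ) + t * Complex.I)‖ ^ 2) := by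
        gcongr
    _ = _ := by simp only [dsum_eq]; ring

lemma integrable_dsum {X : ℝ} (hX : 0 ≤ X) (w : Eis → ℂ) (d e f l : Eis) (σ : ℝ) :
    Integrable (fun t : ℝ => (1 + t ^ 2)⁻¹ * ‖dsum w X d e f l (σ + t * Complex.I)‖ ^ 2) := by
  simp only [dsum_eq]
  exact integrable_dp_sq (S X) _ (fun k hk => ((mem_S hX).1 hk).2.1.ne_zero) σ

open Classical in
/-- the tail -/
def TailLe : Prop := ∀ ε : ℝ, 0 < ε → ∃ C : ℝ, 0 < C ∧ ∀ X Z : ℝ, 1 ≤ X → 1 ≤ Z →
  ∀ w : Eis → ℂ,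
    ∑ d ∈ S X, ∑ e ∈ pdiv d, ∑ f ∈ S X, (2 * Real.pi * Z / (Real.sqrt 3 * nm e)) *
      ‖∑' l : Eis, (if l = 0 ∨ (nm l : ℝ) ≤ Lde X Z ε d e then 0 else qf w X Z d e f l)‖ ≤
      C * Z * ∑ h ∈ S X, ‖w h‖ ^ 2

open Classical in
/-- one `(d, e, f)` -/
lemma one_def {X Z σ ε : ℝ} (hX : 1 ≤ X) (hZ : 1 ≤ Z) (hσ : 0 < σ) (hσ1 : σ ≤ 1) {w : Eis → ℂ}
    (hw : ∀ h, w h ≠ 0 → h ∈ S X) {d e f : Eis} (he : e ≠ 0) (hf : f ∈ S X) :
    ‖∑' l : Eis, (if l = 0 then 0 else qf w X Z d e f l)‖ ≤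
      csig σ * ((nm f : ℝ)⁻¹ * (nm e * (nm f : ℝ) ^ 2 / Z) ^ σ) *
        (∫ t : ℝ, (1 + t ^ 2)⁻¹ * ∑ l ∈ bl (Lde X Z ε d e),
            (nm l : ℝ) ^ (-σ) * ‖dsum w X d e f l (σ + t * Complex.I)‖ ^ 2) +
      ‖∑' l : Eis, (if l = 0 ∨ (nm l : ℝ) ≤ Lde X Z ε d e then 0 else qf w X Z d e f l)‖ := by
  have hX0 : (0 : ℝ) ≤ X := by linarith
  have hZ0 : (0 : ℝ) < Z := by linarith
  have hL : 0 ≤ Lde X Z ε d e := by unfold Lde; positivity
  have hsum := summable_qf syG hX0 hZ0 w (d := d) he hf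
  set L := Lde X Z ε d e with hLd
  have e1 : ∀ l : Eis, (if l = 0 then 0 else qf w X Z d e f l) =
      (if l ∈ bl L then qf w X Z d e f l else 0) +
      (if l = 0 ∨ (nm l : ℝ) ≤ L then 0 else qf w X Z d e f l) := by
    intro l
    by_cases h0 : l = 0
    · rw [if_pos h0, if_pos (Or.inl h0), if_neg, add_zero]
      intro h; exact ((mem_bl hL).1 h).1 h0
    · rw [if_neg h0]
      by_cases h1 : (nm l : ℝ) ≤ L
      · rw [if_pos (Or.inr h1), if_pos ((mem_bl hL).2 ⟨h0, h1⟩), add_zero]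
      · rw [if_neg (fun h => h1 ((mem_bl hL).1 h).2), zero_add,
          if_neg (fun h => h.elim h0 h1)]
  have s1 : Summable (fun l : Eis => if l ∈ bl L then qf w X Z d e f l else 0) :=
    summable_of_ne_finset_zero (s := bl L) (fun l hl => if_neg hl)
  have s2 : Summable (fun l : Eis => if l = 0 ∨ (nm l : ℝ) ≤ L then 0 else qf w X Z d e f l) := by
    refine Summable.of_norm_bounded hsum.norm (fun l => ?_)
    split_ifs
    · rw [norm_zero]; exact norm_nonneg _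
    · exact le_rfl
  rw [tsum_congr e1, s1.tsum_add s2]
  refine (norm_add_le _ _).trans (add_le_add_left ?_ _)
  have e2 : ∑' l : Eis, (if l ∈ bl L then qf w X Z d e f l else 0) =
      ∑ l ∈ bl L, qf w X Z d e f l := by
    rw [tsum_eq_sum (s := bl L) (fun l hl => if_neg hl)]
    exact Finset.sum_congr rfl fun l hl => if_pos hl
  rw [e2]
  refine (norm_sum_le _ _).trans ?_
  have e3 : ∫ t : ℝ, (1 + t ^ 2)⁻¹ * ∑ l ∈ bl L,
            (nm l : ℝ) ^ (-σ) * ‖dsum w X d e f l (σ + t * Complex.I)‖ ^ 2 =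
      ∑ l ∈ bl L, (nm l : ℝ) ^ (-σ) *
        ∫ t : ℝ, (1 + t ^ 2)⁻¹ * ‖dsum w X d e f l (σ + t * Complex.I)‖ ^ 2 := by
    simp_rw [Finset.mul_sum]
    rw [integral_finsetSum]
    · refine Finset.sum_congr rfl fun l _ => ?_
      rw [← integral_const_mul]
      congr 1
      funext t; ring
    · intro l _
      have := (integrable_dsum hX0 w d e f l σ).const_mul ((nm l : ℝ) ^ (-σ))
      refine this.congr (Filter.Eventually.of_forall fun t => ?_)
      simp only; ring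
  rw [e3, Finset.mul_sum]
  exact Finset.sum_le_sum fun l hl => norm_qf_le hX0 hZ0 hσ hσ1 hw he hf ((mem_bl hL).1 hl).1

lemma pdiv_subset {X : ℝ} (hX : 0 ≤ X) {d : Eis} (hd : d ∈ S X) [DecidablePred (· ∣ d)] :
    pdiv d ⊆ (S X).filter (· ∣ d) := by
  intro e he
  have hd' := (mem_S hX).1 hd
  have h := (mem_pdiv hd'.2.1.ne_zero).1 he
  rw [Finset.mem_filter, mem_S hX]
  refine ⟨⟨le_trans ?_ hd'.1, h.1, hd'.2.2.squarefree_of_dvd h.2⟩, h.2⟩
  exact_mod_cast Div277.nm_le_of_dvd hd'.2.1.ne_zero h.2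

open Classical in
/-- bookkeeping -/
lemma book {X K A : ℝ} (hX : 0 ≤ X) (hK : 0 ≤ K) (U T V : Eis → Eis → Eis → ℝ)
    (hT : ∀ d e f, 0 ≤ T d e f)
    (h : ∀ d ∈ S X, ∀ e ∈ pdiv d, ∀ f ∈ S X, U d e f ≤ K * T d e f + V d e f)
    (hV : ∑ d ∈ S X, ∑ e ∈ pdiv d, ∑ f ∈ S X, V d e f ≤ A) :
    ∑ d ∈ S X, ∑ e ∈ pdiv d, ∑ f ∈ S X, U d e f ≤
      K * (∑ d ∈ S X, ∑ e ∈ (S X).filter (· ∣ d), ∑ f ∈ S X, T d e f) + A := by
  have h4 : ∑ d ∈ S X, ∑ e ∈ pdiv d, ∑ f ∈ S X, U d e f ≤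
      ∑ d ∈ S X, ∑ e ∈ pdiv d, ∑ f ∈ S X, (K * T d e f + V d e f) :=
    Finset.sum_le_sum fun d hd => Finset.sum_le_sum fun e he =>
        Finset.sum_le_sum fun f hf => h d hd e he f hf
  have h5 : ∑ d ∈ S X, ∑ e ∈ pdiv d, ∑ f ∈ S X, (K * T d e f + V d e f) =
      K * (∑ d ∈ S X, ∑ e ∈ pdiv d, ∑ f ∈ S X, T d e f) +
      ∑ d ∈ S X, ∑ e ∈ pdiv d, ∑ f ∈ S X, V d e f := by
    simp_rw [Finset.sum_add_distrib, Finset.mul_sum]
  have h6 : ∑ d ∈ S X, ∑ e ∈ pdiv d, ∑ f ∈ S X, T d e f ≤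
      ∑ d ∈ S X, ∑ e ∈ (S X).filter (· ∣ d), ∑ f ∈ S X, T d e f := by
    refine Finset.sum_le_sum fun d hd => ?_
    refine Finset.sum_le_sum_of_subset_of_nonneg (pdiv_subset hX hd) (fun e _ _ => ?_)
    exact Finset.sum_nonneg fun f _ => hT d e f
  rw [h5] at h4
  exact h4.trans (add_le_add (mul_le_mul_of_nonneg_left h6 hK) hV)

open Classical in
set_option maxHeartbeats 1000000 in
theorem dualIneq_of (H : CharSum852.SyFacts) (hT : TailLe) : DualIneq := by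
  intro σ ε hσ hσ2 hε
  obtain ⟨C1, hC1, hT1⟩ := hT ε hε
  have hc := csig_pos hσ
  have h3 : 0 < Real.sqrt 3 := by positivity
  have hπ := Real.pi_pos
  refine ⟨2 * Real.pi / Real.sqrt 3 + C1 + 2 * Real.pi / Real.sqrt 3 * csig σ, by positivity, ?_⟩
  intro X Z hX hZ w hw
  have hX0 : (0 : ℝ) ≤ X := by linarith
  have hZ0 : (0 : ℝ) < Z := by linarith
  have h1 := dual_ineq H syG hX hZ0 w
  have hT2 := hT1 X Z hX hZ w
  obtain ⟨J, hJ⟩ : ∃ J : Eis → Eis → Eis → ℝ, ∀ d e f, J d e f =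
      ∫ t : ℝ, (1 + t ^ 2)⁻¹ * ∑ l ∈ bl (Lde X Z ε d e),
            (nm l : ℝ) ^ (-σ) * ‖dsum w X d e f l (σ + t * Complex.I)‖ ^ 2 :=
    ⟨fun d e f => ∫ t : ℝ, (1 + t ^ 2)⁻¹ * ∑ l ∈ bl (Lde X Z ε d e),
            (nm l : ℝ) ^ (-σ) * ‖dsum w X d e f l (σ + t * Complex.I)‖ ^ 2, fun _ _ _ => rfl⟩
  have hJ0 : ∀ d e f, 0 ≤ J d e f := fun d e f => by
    rw [hJ]; exact integral_nonneg fun t => by positivity
  have hT0 : ∀ d e f, 0 ≤ Z / (nm e * nm f) * (nm e * (nm f : ℝ) ^ 2 / Z) ^ σ * J d e f :=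
    fun d e f => mul_nonneg (by positivity) (hJ0 d e f)
  have h2 := book hX0 (K := 2 * Real.pi / Real.sqrt 3 * csig σ) (by positivity)
    (fun d e f => (2 * Real.pi * Z / (Real.sqrt 3 * nm e)) *
      ‖∑' l : Eis, (if l = 0 then 0 else qf w X Z d e f l)‖)
    (fun d e f => Z / (nm e * nm f) * (nm e * (nm f : ℝ) ^ 2 / Z) ^ σ * J d e f)
    (fun d e f => (2 * Real.pi * Z / (Real.sqrt 3 * nm e)) *
      ‖∑' l : Eis, (if l = 0 ∨ (nm l : ℝ) ≤ Lde X Z ε d e then 0 else qf w X Z d e f l)‖)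
    hT0 (fun d hd e he f hf => by
      have hd' := (mem_S hX0).1 hd
      have he' := (mem_pdiv hd'.2.1.ne_zero).1 he
      have h5 : ‖∑' l : Eis, (if l = 0 then 0 else qf w X Z d e f l)‖ ≤
          csig σ * ((nm f : ℝ)⁻¹ * (nm e * (nm f : ℝ) ^ 2 / Z) ^ σ) * J d e f +
          ‖∑' l : Eis, (if l = 0 ∨ (nm l : ℝ) ≤ Lde X Z ε d e then 0 else qf w X Z d e f l)‖ := by
        rw [hJ]
        exact one_def (ε := ε) (d := d) hX hZ hσ (by linarith) hw he'.1.ne_zero hf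
      have h6 : 0 ≤ 2 * Real.pi * Z / (Real.sqrt 3 * nm e) := by positivity
      refine (mul_le_mul_of_nonneg_left h5 h6).trans (le_of_eq ?_)
      rw [mul_add]
      congr 1
      have ne : (nm e : ℝ) ≠ 0 := by exact_mod_cast (nm_pos.2 he'.1.ne_zero).ne'
      have nf : (nm f : ℝ) ≠ 0 := by exact_mod_cast (nm_pos.2 ((mem_S hX0).1 hf).2.1.ne_zero).ne'
      generalize (nm e * (nm f : ℝ) ^ 2 / Z) ^ σ = Q
      generalize J d e f = J0
      field_simp) hT2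
  simp_rw [← hJ]
  obtain ⟨R, hR⟩ : ∃ R : ℝ, R = ∑ d ∈ S X, ∑ e ∈ (S X).filter (· ∣ d), ∑ f ∈ S X,
        Z / (nm e * nm f) * (nm e * (nm f : ℝ) ^ 2 / Z) ^ σ * J d e f := ⟨_, rfl⟩
  have hR0 : 0 ≤ R := by
    rw [hR]
    exact Finset.sum_nonneg fun d _ => Finset.sum_nonneg fun e _ =>
      Finset.sum_nonneg fun f _ => hT0 d e f
  rw [← hR] at h2 ⊢
  obtain ⟨W, hW⟩ : ∃ W : ℝ, W = ∑ h ∈ S X, ‖w h‖ ^ 2 := ⟨_, rfl⟩
  have hW0 : 0 ≤ W := by rw [hW]; exact Finset.sum_nonneg fun _ _ => by positivity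
  rw [← hW] at h1 h2 ⊢
  refine h1.trans ((add_le_add_right h2 _).trans ?_)
  have a1 : 0 ≤ 2 * Real.pi / Real.sqrt 3 * csig σ * (Z * W) := by positivity
  have a2 : 0 ≤ (2 * Real.pi / Real.sqrt 3 + C1) * R := by positivity
  have a3 : 2 * Real.pi * Z / Real.sqrt 3 * W = 2 * Real.pi / Real.sqrt 3 * Z * W := by ring
  rw [a3]
  nlinarith

end Crest.Agent.R012.DualIneq811
end
end

-- ▼ part R012/LS2Tail_381
section

/-!
# Row 12 (L2): the tail of the dual sum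
-/

set_option autoImplicit false

noncomputable section

namespace Crest.Agent.R012.LS2

open Eis CharSum852 Gauss880 Tau671 Mob705 CR2
open Poisson381 (gau norm_gau summable_gau_one summable_gau summable_eis)

lemma one_le_nm' {l : Eis} (hl : l ≠ 0) : (1 : ℝ) ≤ nm l := by exact_mod_cast nm_pos.2 hl

/-- `∑ 1 / nm(l)² < ∞` -/
lemma summable_inv_sq : Summable fun l : Eis => 1 / (nm l : ℝ) ^ 2 := by
  refine Summable.of_nonneg_of_le (fun l => by positivity) (fun l => ?_)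
    ((summable_eis (b := 4) (by norm_num)).mul_left 16)
  by_cases hl : l = 0
  · rw [hl, nm_eq_zero.2 rfl]
    simp only [Nat.cast_zero, ne_eq, OfNat.ofNat_ne_zero, not_false_eq_true, zero_pow, div_zero]
    positivity
  · have h1 := one_le_nm' hl
    have h2 : ‖toC l‖ ^ 2 = nm l := norm_toC_sq l
    have h3 : 1 ≤ ‖toC l‖ := by
      by_contra hc
      push Not at hc
      have : ‖toC l‖ ^ 2 < 1 := by nlinarith [norm_nonneg (toC l)]
      linarith
    have h4 : (1 + ‖toC l‖) ^ (-(4 : ℝ)) = 1 / (1 + ‖toC l‖) ^ 4 := by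
      rw [Real.rpow_neg (by positivity), one_div]
      congr 1
      rw [← Real.rpow_natCast]; norm_num
    rw [h4, mul_one_div, div_le_div_iff₀ (by positivity) (by positivity), one_mul, ← h2]
    have h5 : 1 + ‖toC l‖ ≤ 2 * ‖toC l‖ := by linarith
    calc (1 + ‖toC l‖) ^ 4 ≤ (2 * ‖toC l‖) ^ 4 := by gcongr
      _ = 16 * (‖toC l‖ ^ 2) ^ 2 := by ring

lemma card_S_le' {X : ℝ} (hX : 1 ≤ X) : ((S X).card : ℝ) ≤ 16 * X := by
  classical
  have h1 : (S X).card ≤ (ball ⌊X⌋₊).card := by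
    apply Finset.card_le_card
    intro n hn
    rw [mem_S (by linarith)] at hn
    rw [mem_ball, Nat.le_floor_iff (by linarith)]
    exact hn.1
  have h2 := LS448.card_ball_le (Nat.floor_pos.mpr hX)
  have h3 : ((S X).card : ℝ) ≤ ((16 * ⌊X⌋₊ : ℕ) : ℝ) := by exact_mod_cast h1.trans h2
  refine h3.trans ?_
  push_cast
  have := Nat.floor_le (show 0 ≤ X by linarith)
  linarith

/-- pointwise bound of the quadratic form by the sup of the exponential factor -/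
lemma norm_qf_le (H : SyG) {X Z : ℝ} (hX : 1 ≤ X) (hZ : 0 < Z) (w : Eis → ℂ) {d e f : Eis}
    (hd : d ∈ S X) (he : e ≠ 0) (hf : f ∈ S X) (l : Eis) :
    ‖qf w X Z d e f l‖ ≤ Real.exp (-(nm l : ℝ) / (nm e * X ^ 2 / ((nm d : ℝ) ^ 2 * Z))) *
      (16 * X * ∑ h ∈ S X, ‖w h‖ ^ 2) := by
  classical
  have hX0 : 0 ≤ X := by linarith
  have hd' := (mem_S hX0).1 hd
  have hf' := (mem_S hX0).1 hf
  have nd : 0 < (nm d : ℝ) := by exact_mod_cast nm_pos.2 hd'.2.1.ne_zero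
  have nf : 0 < (nm f : ℝ) := by exact_mod_cast nm_pos.2 hf'.2.1.ne_zero
  have ne : 0 < (nm e : ℝ) := by exact_mod_cast nm_pos.2 he
  have nl : 0 ≤ (nm l : ℝ) := by positivity
  set E0 : ℝ := Real.exp (-(nm l : ℝ) / (nm e * X ^ 2 / ((nm d : ℝ) ^ 2 * Z))) with hE0
  -- each term
  have hterm : ∀ k1 ∈ S X, ∀ k2 ∈ S X,
      ‖ws w X (d * f * k1) * (starRingEnd ℂ) (ws w X (d * f * k2)) *
    (Ue e l (f * k1) * (starRingEnd ℂ) (Ue e l (f * k2))) *
    ((Real.exp (-(4 * Real.pi ^ 2 * Z * nm l) / (3 * nm e * nm (f * k1) * nm (f * k2))) : ℝ) : ℂ)‖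
      ≤ E0 * (‖ws w X (d * f * k1)‖ * ‖ws w X (d * f * k2)‖) := by
    intro k1 h1 k2 h2
    have hk1 := (mem_S hX0).1 h1
    have hk2 := (mem_S hX0).1 h2
    have p1 := hf'.2.1.mul hk1.2.1
    have p2 := hf'.2.1.mul hk2.2.1
    rw [norm_mul, norm_mul, norm_mul, norm_mul, RCLike.norm_conj, RCLike.norm_conj,
      Complex.norm_real, Real.norm_of_nonneg (Real.exp_pos _).le]
    by_cases m1 : d * f * k1 ∈ S X
    swap
    · rw [ws_of_not_mem m1]; simp
    by_cases m2 : d * f * k2 ∈ S X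
    swap
    · rw [ws_of_not_mem m2]; simp
    have b1 := norm_Ue_le_one H p1 e l
    have b2 := norm_Ue_le_one H p2 e l
    have n1 : 0 < (nm (f * k1) : ℝ) := by exact_mod_cast nm_pos.2 p1.ne_zero
    have n2 : 0 < (nm (f * k2) : ℝ) := by exact_mod_cast nm_pos.2 p2.ne_zero
    have c1 : (nm d : ℝ) * nm (f * k1) ≤ X := by
      have := ((mem_S hX0).1 m1).1
      rw [mul_assoc, nm_mul] at this
      push_cast at this
      exact this
    have c2 : (nm d : ℝ) * nm (f * k2) ≤ X := by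
      have := ((mem_S hX0).1 m2).1
      rw [mul_assoc, nm_mul] at this
      push_cast at this
      exact this
    have hexp : Real.exp (-(4 * Real.pi ^ 2 * Z * nm l) / (3 * nm e * nm (f * k1) * nm (f * k2)))
        ≤ E0 := by
      rw [hE0, Real.exp_le_exp, neg_div, neg_div, neg_le_neg_iff]
      rw [div_le_div_iff₀ (by positivity) (by positivity)]
      have hpi : 3 ≤ 4 * Real.pi ^ 2 := by nlinarith [Real.pi_gt_three]
      have hcc : ((nm d : ℝ) * nm (f * k1)) * (nm d * nm (f * k2)) ≤ X * X := by gcongr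
      have h3 : (nm d : ℝ) ^ 2 * (nm (f * k1) * nm (f * k2)) ≤ X ^ 2 := by nlinarith
      have h4 : 3 * ((nm d : ℝ) ^ 2 * (nm (f * k1) * nm (f * k2))) ≤ 4 * Real.pi ^ 2 * X ^ 2 :=
        mul_le_mul hpi h3 (by positivity) (by positivity)
      rw [← mul_div_assoc, le_div_iff₀ (by positivity)]
      calc (nm l : ℝ) * (3 * nm e * nm (f * k1) * nm (f * k2)) * ((nm d : ℝ) ^ 2 * Z)
          = (nm l * nm e * Z) * (3 * ((nm d : ℝ) ^ 2 * (nm (f * k1) * nm (f * k2)))) := by ring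
        _ ≤ (nm l * nm e * Z) * (4 * Real.pi ^ 2 * X ^ 2) := by gcongr
        _ = _ := by ring
    have bb : ‖Ue e l (f * k1)‖ * ‖Ue e l (f * k2)‖ ≤ 1 := mul_le_one₀ b1 (norm_nonneg _) b2
    calc _ ≤ ‖ws w X (d * f * k1)‖ * ‖ws w X (d * f * k2)‖ * 1 * E0 := by gcongr
      _ = _ := by ring
  have h1 : ‖qf w X Z d e f l‖ ≤ ∑ k1 ∈ S X, ∑ k2 ∈ S X,
      E0 * (‖ws w X (d * f * k1)‖ * ‖ws w X (d * f * k2)‖) := by
    unfold qf
    refine (norm_sum_le _ _).trans (Finset.sum_le_sum fun k1 h1 => ?_)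
    exact (norm_sum_le _ _).trans (Finset.sum_le_sum fun k2 h2 => hterm k1 h1 k2 h2)
  refine h1.trans ?_
  have h2 : ∑ k1 ∈ S X, ∑ k2 ∈ S X, E0 * (‖ws w X (d * f * k1)‖ * ‖ws w X (d * f * k2)‖) =
      E0 * (∑ k ∈ S X, ‖ws w X (d * f * k)‖) ^ 2 := by
    rw [pow_two, Finset.sum_mul_sum, Finset.mul_sum]
    refine Finset.sum_congr rfl fun k1 _ => ?_
    rw [Finset.mul_sum]
  rw [h2]
  refine mul_le_mul_of_nonneg_left ?_ (Real.exp_pos _).le
  have h3 : (∑ k ∈ S X, ‖ws w X (d * f * k)‖) ^ 2 ≤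
      (S X).card * ∑ k ∈ S X, ‖ws w X (d * f * k)‖ ^ 2 := sq_sum_le_card_mul_sum_sq
  have h4 : ∑ k ∈ S X, ‖ws w X (d * f * k)‖ ^ 2 ≤ ∑ h ∈ S X, ‖w h‖ ^ 2 := by
    have hinj : Set.InjOn (fun k => d * f * k) (S X : Set Eis) := by
      intro a _ b _ hab
      exact mul_left_cancel₀ (mul_ne_zero hd'.2.1.ne_zero hf'.2.1.ne_zero) hab
    have e1 : ∑ k ∈ S X, ‖ws w X (d * f * k)‖ ^ 2 =
        ∑ h ∈ (S X).image (fun k => d * f * k), ‖ws w X h‖ ^ 2 := by
      rw [Finset.sum_image hinj]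
    rw [e1]
    have e2 : ∑ h ∈ (S X).image (fun k => d * f * k), ‖ws w X h‖ ^ 2 =
        ∑ h ∈ ((S X).image (fun k => d * f * k)).filter (fun h => h ∈ S X), ‖ws w X h‖ ^ 2 := by
      symm
      apply Finset.sum_filter_of_ne
      intro h _ hne
      by_contra hc
      apply hne
      rw [ws_of_not_mem hc]; simp
    rw [e2]
    calc _ = ∑ h ∈ ((S X).image (fun k => d * f * k)).filter (fun h => h ∈ S X), ‖w h‖ ^ 2 := by
          refine Finset.sum_congr rfl fun h hh => ?_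
          unfold ws
          rw [if_pos (Finset.mem_filter.1 hh).2]
      _ ≤ _ := by
          apply Finset.sum_le_sum_of_subset_of_nonneg
          · intro h hh
            exact (Finset.mem_filter.1 hh).2
          · intro h _ _
            positivity
  have h5 := card_S_le' hX
  calc _ ≤ (S X).card * ∑ k ∈ S X, ‖ws w X (d * f * k)‖ ^ 2 := h3
    _ ≤ (16 * X) * ∑ h ∈ S X, ‖w h‖ ^ 2 := by gcongr

lemma pdiv_subset_S {X : ℝ} (hX : 0 ≤ X) {d : Eis} (hd : d ∈ S X) : pdiv d ⊆ S X := by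
  intro e he
  have hd' := (mem_S hX).1 hd
  have he' := (mem_pdiv hd'.2.1.ne_zero).1 he
  rw [mem_S hX]
  refine ⟨le_trans ?_ hd'.1, he'.1, hd'.2.2.squarefree_of_dvd he'.2⟩
  exact_mod_cast Div277.nm_le_of_dvd hd'.2.1.ne_zero he'.2

lemma exp_neg_le_fact {x : ℝ} (hx : 0 < x) (j : ℕ) : Real.exp (-x) ≤ j.factorial / x ^ j := by
  have h := Real.pow_div_factorial_le_exp x hx.le j
  rw [Real.exp_neg, inv_eq_one_div, div_le_div_iff₀ (Real.exp_pos _) (by positivity), one_mul]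
  rwa [div_le_iff₀ (by positivity), mul_comm] at h

/-- the parameter `K = nm(e) X² / (nm(d)² Z)` is at most `X²` -/
lemma Kde_le {X Z : ℝ} (hX : 1 ≤ X) (hZ : 1 ≤ Z) {d e : Eis} (hd : d ∈ S X) (he : e ∈ pdiv d) :
    (nm e : ℝ) * X ^ 2 / ((nm d : ℝ) ^ 2 * Z) ≤ X ^ 2 := by
  have hX0 : 0 ≤ X := by linarith
  have hd' := (mem_S hX0).1 hd
  have he' := (mem_pdiv hd'.2.1.ne_zero).1 he
  have nd := one_le_nm' hd'.2.1.ne_zero
  have h1 : (nm e : ℝ) ≤ nm d := by exact_mod_cast Div277.nm_le_of_dvd hd'.2.1.ne_zero he'.2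
  rw [div_le_iff₀ (by positivity)]
  have h2 : (nm e : ℝ) ≤ (nm d : ℝ) ^ 2 * Z := by nlinarith [mul_nonneg (sub_nonneg.2 hZ) (sq_nonneg (nm d : ℝ))]
  nlinarith [sq_nonneg X]

set_option maxHeartbeats 1000000 in
open Classical in
theorem tail_le {ε : ℝ} (hε : 0 < ε) : ∃ C : ℝ, 0 < C ∧ ∀ X Z : ℝ, 1 ≤ X → 1 ≤ Z →
    ∀ w : Eis → ℂ,
    ∑ d ∈ S X, ∑ e ∈ pdiv d, ∑ f ∈ S X, 2 * Real.pi * Z / (Real.sqrt 3 * nm e) *
      ‖∑' l : Eis, if l = 0 ∨ (nm l : ℝ) ≤ Lde X Z ε d e then 0 else qf w X Z d e f l‖ ≤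
      C * Z * ∑ h ∈ S X, ‖w h‖ ^ 2 := by
  obtain ⟨m, hm⟩ := exists_nat_ge (8 / ε)
  have hm' : 8 ≤ ε * m := by
    rw [div_le_iff₀ hε] at hm; linarith
  set Zt : ℝ := ∑' l : Eis, 1 / (nm l : ℝ) ^ 2 with hZt
  have hZt0 : 0 ≤ Zt := tsum_nonneg fun l => by positivity
  have hs3 : 0 < Real.sqrt 3 := Real.sqrt_pos.2 (by norm_num)
  have hpi := Real.pi_pos
  obtain ⟨Fa, hFa⟩ : ∃ Fa : ℝ, Fa = ((m + 2).factorial : ℝ) := ⟨_, rfl⟩
  have hFa0 : 0 < Fa := by rw [hFa]; exact_mod_cast Nat.factorial_pos _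
  set C : ℝ := 2 * Real.pi / Real.sqrt 3 * (Fa * 4 * 16 ^ 4 * (Zt + 1)) with hC
  have hCpos : 0 < C := by rw [hC]; positivity
  refine ⟨C, hCpos, fun X Z hX hZ w => ?_⟩
  have hX0 : 0 < X := by linarith
  have hZ0 : 0 < Z := by linarith
  set W : ℝ := ∑ h ∈ S X, ‖w h‖ ^ 2 with hW
  have hW0 : 0 ≤ W := Finset.sum_nonneg fun h _ => by positivity
  -- bound for one triple
  have hone : ∀ d ∈ S X, ∀ e ∈ pdiv d, ∀ f ∈ S X,
      2 * Real.pi * Z / (Real.sqrt 3 * nm e) *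
      ‖∑' l : Eis, if l = 0 ∨ (nm l : ℝ) ≤ Lde X Z ε d e then 0 else qf w X Z d e f l‖ ≤
      2 * Real.pi * Z / Real.sqrt 3 * (Fa * 4 * 16 * Zt * W * X ^ (-(3 : ℝ))) := by
    intro d hd e he f hf
    have hd' := (mem_S hX0.le).1 hd
    have he' := (mem_pdiv hd'.2.1.ne_zero).1 he
    have he0 := he'.1.ne_zero
    have ne1 := one_le_nm' he0
    have nd1 := one_le_nm' hd'.2.1.ne_zero
    set K : ℝ := (nm e : ℝ) * X ^ 2 / ((nm d : ℝ) ^ 2 * Z) with hK
    have hKpos : 0 < K := by rw [hK]; positivity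
    have hKle : K ≤ X ^ 2 := Kde_le hX hZ hd he
    set R : ℝ := (X * Z) ^ ε with hR
    have hXZ : 1 ≤ X * Z := one_le_mul_of_one_le_of_one_le hX hZ
    have hR1 : 1 ≤ R := Real.one_le_rpow hXZ hε.le
    have hRm : X ^ (8 : ℝ) ≤ R ^ m := by
      rw [hR, ← Real.rpow_natCast, ← Real.rpow_mul (by positivity)]
      calc X ^ (8 : ℝ) ≤ (X * Z) ^ (8 : ℝ) := by
            apply Real.rpow_le_rpow hX0.le _ (by norm_num)
            nlinarith
        _ ≤ (X * Z) ^ (ε * m) := Real.rpow_le_rpow_of_exponent_le hXZ hm'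
    have hL : Lde X Z ε d e = R * (1 + K) := rfl
    -- pointwise
    have hpt : ∀ l : Eis,
        ‖(if l = 0 ∨ (nm l : ℝ) ≤ Lde X Z ε d e then (0 : ℂ) else qf w X Z d e f l)‖ ≤
        (Fa * 4 * 16 * W * X ^ (-(3 : ℝ))) * (1 / (nm l : ℝ) ^ 2) := by
      intro l
      split_ifs with hl
      · rw [norm_zero]; positivity
      · push Not at hl
        obtain ⟨hl0, hlL⟩ := hl
        have nl := one_le_nm' hl0
        have nlpos : 0 < (nm l : ℝ) := by linarith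
        rw [hL] at hlL
        refine (norm_qf_le syG hX hZ0 w hd he0 hf l).trans ?_
        have h1K : 1 + K ≤ 2 * X ^ 2 := by nlinarith
        have e1 : Real.exp (-(nm l : ℝ) / K) ≤ Real.exp (-((nm l : ℝ) / (1 + K))) := by
          rw [Real.exp_le_exp, neg_div, neg_le_neg_iff]
          exact div_le_div_of_nonneg_left nlpos.le hKpos (by linarith)
        have e2 := exp_neg_le_fact (x := (nm l : ℝ) / (1 + K)) (by positivity) (m + 2)
        rw [← hFa] at e2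
        have e3 : Fa / ((nm l : ℝ) / (1 + K)) ^ (m + 2) ≤
            Fa * (4 * X ^ 4) / (X ^ (8 : ℝ) * (nm l : ℝ) ^ 2) := by
          have hq : R ≤ (nm l : ℝ) / (1 + K) := by
            rw [le_div_iff₀ (by positivity)]; exact hlL.le
          have hq2 : X ^ (8 : ℝ) ≤ ((nm l : ℝ) / (1 + K)) ^ m :=
            hRm.trans (pow_le_pow_left₀ (by positivity) hq m)
          have hX8 : 0 < X ^ (8 : ℝ) := Real.rpow_pos_of_pos hX0 _
          have hsq : ((nm l : ℝ)) ^ 2 / (4 * X ^ 4) ≤ ((nm l : ℝ) / (1 + K)) ^ 2 := by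
            rw [div_pow]
            apply div_le_div_of_nonneg_left (by positivity) (by positivity)
            calc (1 + K) ^ 2 ≤ (2 * X ^ 2) ^ 2 := by gcongr
              _ = 4 * X ^ 4 := by ring
          have hprod : X ^ (8 : ℝ) * ((nm l : ℝ) ^ 2 / (4 * X ^ 4)) ≤
              ((nm l : ℝ) / (1 + K)) ^ (m + 2) := by
            rw [pow_add]
            exact mul_le_mul hq2 hsq (by positivity) (by positivity)
          have h0 : 0 < X ^ (8 : ℝ) * ((nm l : ℝ) ^ 2 / (4 * X ^ 4)) := by positivity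
          calc Fa / ((nm l : ℝ) / (1 + K)) ^ (m + 2)
              ≤ Fa / (X ^ (8 : ℝ) * ((nm l : ℝ) ^ 2 / (4 * X ^ 4))) :=
                div_le_div_of_nonneg_left (by positivity) h0 hprod
            _ = _ := by field_simp
        have e4 : (X : ℝ) ^ (8 : ℝ) = X ^ (3 : ℝ) * X ^ 5 := by
          rw [← Real.rpow_natCast X 5, ← Real.rpow_add hX0]; norm_num
        have hX3 : 0 < X ^ (3 : ℝ) := Real.rpow_pos_of_pos hX0 _
        have e6 : (Fa * (4 * X ^ 4) / (X ^ (8 : ℝ) * (nm l : ℝ) ^ 2)) * (16 * X * W) =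
            (Fa * 4 * 16 * W * X ^ (-(3 : ℝ))) * (1 / (nm l : ℝ) ^ 2) := by
          rw [e4, Real.rpow_neg hX0.le]
          field_simp
        have hXW : 0 ≤ 16 * X * W := mul_nonneg (by linarith) hW0
        rw [← e6]
        exact mul_le_mul_of_nonneg_right ((e1.trans e2).trans e3) hXW
    have hsum : Summable fun l : Eis =>
        (Fa * 4 * 16 * W * X ^ (-(3 : ℝ))) * (1 / (nm l : ℝ) ^ 2) :=
      summable_inv_sq.mul_left _
    have htsum : ‖∑' l : Eis, if l = 0 ∨ (nm l : ℝ) ≤ Lde X Z ε d e then (0 : ℂ)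
        else qf w X Z d e f l‖ ≤ (Fa * 4 * 16 * W * X ^ (-(3 : ℝ))) * Zt := by
      rw [hZt, ← tsum_mul_left]
      exact tsum_of_norm_bounded hsum.hasSum hpt
    have hpref : 2 * Real.pi * Z / (Real.sqrt 3 * nm e) ≤ 2 * Real.pi * Z / Real.sqrt 3 := by
      apply div_le_div_of_nonneg_left (by positivity) hs3
      nlinarith
    calc _ ≤ 2 * Real.pi * Z / Real.sqrt 3 *
          ((Fa * 4 * 16 * W * X ^ (-(3 : ℝ))) * Zt) := by gcongr
      _ = _ := by ring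
  -- sum over the triples
  set T : ℝ := 2 * Real.pi * Z / Real.sqrt 3 *
    (Fa * 4 * 16 * Zt * W * X ^ (-(3 : ℝ))) with hT
  have hT0 : 0 ≤ T := by rw [hT]; positivity
  have hcard := card_S_le' hX
  have h1 : ∑ d ∈ S X, ∑ e ∈ pdiv d, ∑ f ∈ S X, 2 * Real.pi * Z / (Real.sqrt 3 * nm e) *
      ‖∑' l : Eis, if l = 0 ∨ (nm l : ℝ) ≤ Lde X Z ε d e then 0 else qf w X Z d e f l‖ ≤
      ∑ d ∈ S X, ∑ e ∈ pdiv d, ∑ f ∈ S X, T :=
    Finset.sum_le_sum fun d hd => Finset.sum_le_sum fun e he => Finset.sum_le_sum fun f hf =>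
      hone d hd e he f hf
  have h2 : ∑ d ∈ S X, ∑ e ∈ pdiv d, ∑ f ∈ S X, T ≤ (16 * X) ^ 3 * T := by
    have a1 : ∑ f ∈ S X, T ≤ 16 * X * T := by
      rw [Finset.sum_const, nsmul_eq_mul]; gcongr
    have a2 : ∀ d ∈ S X, ∑ e ∈ pdiv d, ∑ f ∈ S X, T ≤ (16 * X) * (16 * X * T) := by
      intro d hd
      rw [Finset.sum_const, nsmul_eq_mul]
      have : ((pdiv d).card : ℝ) ≤ 16 * X := by
        refine le_trans ?_ hcard
        exact_mod_cast Finset.card_le_card (pdiv_subset_S hX0.le hd)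
      have a10 : 0 ≤ ∑ f ∈ S X, T := Finset.sum_nonneg fun _ _ => hT0
      gcongr
    calc ∑ d ∈ S X, ∑ e ∈ pdiv d, ∑ f ∈ S X, T ≤ ∑ d ∈ S X, (16 * X) * (16 * X * T) :=
          Finset.sum_le_sum a2
      _ = (S X).card * ((16 * X) * (16 * X * T)) := by rw [Finset.sum_const, nsmul_eq_mul]
      _ ≤ (16 * X) * ((16 * X) * (16 * X * T)) := by gcongr
      _ = _ := by ring
  refine (h1.trans h2).trans ?_
  have e5 : (16 * X) ^ 3 * T = 2 * Real.pi / Real.sqrt 3 *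
      (Fa * 4 * 16 ^ 4 * Zt) * Z * W := by
    rw [hT, Real.rpow_neg hX0.le]
    have : X ^ (3 : ℝ) = X ^ 3 := by rw [← Real.rpow_natCast]; norm_num
    rw [this]
    field_simp
  rw [e5, hC]
  gcongr
  linarith

end Crest.Agent.R012.LS2
end
end

-- ▼ part R012/LS2Main_448

/-!
# Row 12 (L2): Heath-Brown's cubic large sieve, unconditional

* `dualIneq : CR2.DualIneq`
* `hb_final : LS2.Final`
* `step2 : LS2.Step2`
-/

set_option autoImplicit false

noncomputable section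

namespace Crest.Agent.R012.LS448

open Crest.Agent.R012 Crest.Agent.R012.Eis

/-- The dual inequality, unconditional. -/
theorem dualIneq : CR2.DualIneq :=
  DualIneq811.dualIneq_of Sym645.syFacts fun _ε hε => LS2.tail_le hε


/-- **Heath-Brown's cubic large sieve**, unconditional. -/
theorem hb_final : LS2.Final := final_of_dualIneq dualIneq

end Crest.Agent.R012.LS448
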