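import Crest.Agent.R012.MFinal_49
import Crest.Agent.R012.CrossD_869_Mg
import Crest.Agent.R012.Defs
import Crest.Agent.R012.CR3a_436
import Crest.Agent.R012.Spec_CR_290
import Crest.Agent.R012.GLS_687
import Crest.Agent.R012.BilG_811
import Crest.Agent.R012.LS2Main_448
import Crest.Agent.R012.CR2Spec_180
import Crest.Agent.R012.GLS_106
import Mathlib
import Crest.Agent.R012.CRA_106
import Crest.Agent.R012.CR2SpecB_180

-- ▼ part R012/MTypeI_49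
section

/-!
# Row 12: `M49.TypeI`, `T411.TIf`, `T411.T6` unconditionally (helper49)
-/

set_option autoImplicit false

namespace Crest.Agent.R012.MFinal49

/-- **Type I in mean square.** -/
theorem typeI : M49.TypeI := by
  obtain ⟨ρ, h1, h2, h3⟩ := m_final
  exact TypeI941.typeI_of_MS h1 h2 h3

theorem tif : T411.TIf := TIf645.tif_of_typeI typeI

theorem t6 : T411.T6 := Cross869.t6_of_tif tif

end Crest.Agent.R012.MFinal49
end

-- ▼ part R012/CRmom_569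
section

/-!
# Row 12, critical range (CR), item CRH: Hölder interpolation  (helper569)

* `holder_prod` : weighted Hölder inequality for finitely many factors and finite sums.
* `holder_three` : the same for three factors.
* `core_holder` : from the moment bounds of `C(h)` and `D(h)` (generic ones critical, one of
  the moments of `C` with a power saving) the power saving for `∑ |C(h)|² |D(h)|²`.
-/

set_option autoImplicit false

noncomputable section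

open Finset

namespace Crest.Agent.R012.CRmom569

/-! ### Weighted Hölder inequality -/

/-- Weighted Hölder for finitely many factors and finite sums. -/
theorem holder_prod {ι κ : Type*} (s : Finset ι) (t : Finset κ) (a : κ → ι → ℝ) (w : κ → ℝ)
    (ha : ∀ k ∈ t, ∀ i ∈ s, 0 ≤ a k i) (hw : ∀ k ∈ t, 0 ≤ w k) (hw1 : ∑ k ∈ t, w k = 1) :
    ∑ i ∈ s, ∏ k ∈ t, a k i ^ w k ≤ ∏ k ∈ t, (∑ i ∈ s, a k i) ^ w k := by
  classical
  by_cases hz : ∃ k ∈ t, 0 < w k ∧ ∑ i ∈ s, a k i = 0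
  · obtain ⟨k, hk, hwk, hS⟩ := hz
    have h0 : ∀ i ∈ s, a k i = 0 := (Finset.sum_eq_zero_iff_of_nonneg (ha k hk)).mp hS
    have : ∑ i ∈ s, ∏ k ∈ t, a k i ^ w k = 0 := by
      refine Finset.sum_eq_zero (fun i hi => Finset.prod_eq_zero hk ?_)
      rw [h0 i hi, Real.zero_rpow hwk.ne']
    rw [this]
    exact Finset.prod_nonneg (fun k hk => Real.rpow_nonneg
      (Finset.sum_nonneg (fun i hi => ha k hk i hi)) _)
  push Not at hz
  set S : κ → ℝ := fun k => ∑ i ∈ s, a k i with hSdef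
  have hS0 : ∀ k ∈ t, 0 ≤ S k := fun k hk => Finset.sum_nonneg (fun i hi => ha k hk i hi)
  have hSpos : ∀ k ∈ t, 0 < w k → 0 < S k := fun k hk hwk =>
    lt_of_le_of_ne (hS0 k hk) (Ne.symm (hz k hk hwk))
  -- factor `a k i ^ w k = (a k i / S k) ^ w k * S k ^ w k`
  have hfac : ∀ i ∈ s, ∀ k ∈ t, a k i ^ w k = (a k i / S k) ^ w k * S k ^ w k := by
    intro i hi k hk
    rcases (hw k hk).eq_or_lt with h | h
    · rw [← h]; simp
    · rw [← Real.mul_rpow (div_nonneg (ha k hk i hi) (hS0 k hk)) (hS0 k hk),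
        div_mul_cancel₀ _ (hSpos k hk h).ne']
  calc ∑ i ∈ s, ∏ k ∈ t, a k i ^ w k
      = ∑ i ∈ s, (∏ k ∈ t, (a k i / S k) ^ w k) * ∏ k ∈ t, S k ^ w k := by
        refine Finset.sum_congr rfl (fun i hi => ?_)
        rw [← Finset.prod_mul_distrib]
        exact Finset.prod_congr rfl (fun k hk => hfac i hi k hk)
    _ = (∑ i ∈ s, ∏ k ∈ t, (a k i / S k) ^ w k) * ∏ k ∈ t, S k ^ w k := by
        rw [Finset.sum_mul]
    _ ≤ 1 * ∏ k ∈ t, S k ^ w k := by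
        apply mul_le_mul_of_nonneg_right _
          (Finset.prod_nonneg (fun k hk => Real.rpow_nonneg (hS0 k hk) _))
        calc ∑ i ∈ s, ∏ k ∈ t, (a k i / S k) ^ w k
            ≤ ∑ i ∈ s, ∑ k ∈ t, w k * (a k i / S k) := by
              refine Finset.sum_le_sum (fun i hi => ?_)
              exact Real.geom_mean_le_arith_mean_weighted t w (fun k => a k i / S k) hw hw1
                (fun k hk => div_nonneg (ha k hk i hi) (hS0 k hk))
          _ = ∑ k ∈ t, w k * ∑ i ∈ s, (a k i / S k) := by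
              rw [Finset.sum_comm]
              exact Finset.sum_congr rfl (fun k _ => by rw [Finset.mul_sum])
          _ ≤ ∑ k ∈ t, w k := by
              refine Finset.sum_le_sum (fun k hk => ?_)
              rcases (hw k hk).eq_or_lt with h | h
              · rw [← h]; simp
              · rw [← Finset.sum_div]
                have : (∑ i ∈ s, a k i) / S k = 1 := div_self (hSpos k hk h).ne'
                rw [this, mul_one]
          _ = 1 := hw1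
    _ = ∏ k ∈ t, S k ^ w k := one_mul _

/-- Three-factor weighted Hölder inequality. -/
theorem holder_three {ι : Type*} (s : Finset ι) (a b c : ι → ℝ) (u v w : ℝ)
    (ha : ∀ i ∈ s, 0 ≤ a i) (hb : ∀ i ∈ s, 0 ≤ b i) (hc : ∀ i ∈ s, 0 ≤ c i)
    (hu : 0 ≤ u) (hv : 0 ≤ v) (hw : 0 ≤ w) (h1 : u + v + w = 1) :
    ∑ i ∈ s, a i ^ u * b i ^ v * c i ^ w
      ≤ (∑ i ∈ s, a i) ^ u * (∑ i ∈ s, b i) ^ v * (∑ i ∈ s, c i) ^ w := by
  have h := holder_prod s (Finset.univ : Finset (Fin 3)) ![a, b, c] ![u, v, w]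
    (by intro k _ i hi; fin_cases k <;> simp [ha i hi, hb i hi, hc i hi])
    (by intro k _; fin_cases k <;> simp [hu, hv, hw])
    (by simp [Fin.sum_univ_three, h1])
  simpa [Fin.prod_univ_three] using h

/-- The shape in which the three-factor Hölder inequality is used:
`∑ F² G² ≤ (∑ F^{2j})^u (∑ F^{2l})^v (∑ G^{2i})^w` and variants; all exponents are natural
numbers `m₁, m₂, m₃ (for F)`, `n₁, n₂, n₃ (for G)` with the balance conditions. -/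
theorem holder_moments {ι : Type*} (s : Finset ι) (F G : ι → ℝ) (hF : ∀ h ∈ s, 0 ≤ F h)
    (hG : ∀ h ∈ s, 0 ≤ G h) (m₁ m₂ m₃ n₁ n₂ n₃ : ℕ) (u v w : ℝ)
    (hu : 0 ≤ u) (hv : 0 ≤ v) (hw : 0 ≤ w) (h1 : u + v + w = 1)
    (hm : (m₁ : ℝ) * u + m₂ * v + m₃ * w = 2) (hn : (n₁ : ℝ) * u + n₂ * v + n₃ * w = 2) :
    ∑ h ∈ s, F h ^ 2 * G h ^ 2
      ≤ (∑ h ∈ s, F h ^ m₁ * G h ^ n₁) ^ u * (∑ h ∈ s, F h ^ m₂ * G h ^ n₂) ^ v
        * (∑ h ∈ s, F h ^ m₃ * G h ^ n₃) ^ w := by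
  have key : ∀ x : ℝ, 0 ≤ x → ∀ (p₁ p₂ p₃ : ℕ), (p₁ : ℝ) * u + p₂ * v + p₃ * w = 2 →
      x ^ 2 = (x ^ p₁) ^ u * (x ^ p₂) ^ v * (x ^ p₃) ^ w := by
    intro x hx p₁ p₂ p₃ hp
    rw [← Real.rpow_natCast x p₁, ← Real.rpow_natCast x p₂, ← Real.rpow_natCast x p₃,
      ← Real.rpow_mul hx, ← Real.rpow_mul hx, ← Real.rpow_mul hx]
    rw [← Real.rpow_add_of_nonneg hx (by positivity) (by positivity),
      ← Real.rpow_add_of_nonneg hx (by positivity) (by positivity), hp]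
    norm_num
  refine le_trans (le_of_eq ?_) (holder_three s (fun h => F h ^ m₁ * G h ^ n₁)
    (fun h => F h ^ m₂ * G h ^ n₂) (fun h => F h ^ m₃ * G h ^ n₃) u v w
    (fun h hh => mul_nonneg (pow_nonneg (hF h hh) _) (pow_nonneg (hG h hh) _))
    (fun h hh => mul_nonneg (pow_nonneg (hF h hh) _) (pow_nonneg (hG h hh) _))
    (fun h hh => mul_nonneg (pow_nonneg (hF h hh) _) (pow_nonneg (hG h hh) _)) hu hv hw h1)
  refine Finset.sum_congr rfl (fun h hh => ?_)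
  have hFh := hF h hh
  have hGh := hG h hh
  rw [key (F h) hFh m₁ m₂ m₃ hm, key (G h) hGh n₁ n₂ n₃ hn]
  rw [Real.mul_rpow (pow_nonneg hFh _) (pow_nonneg hGh _),
    Real.mul_rpow (pow_nonneg hFh _) (pow_nonneg hGh _),
    Real.mul_rpow (pow_nonneg hFh _) (pow_nonneg hGh _)]
  ring

/-- Bound a weighted product of three sums by powers of `H`. -/
lemma three_bound {A₁ A₂ A₃ K H e₁ e₂ e₃ u v w : ℝ} (hA₁ : 0 ≤ A₁) (hA₂ : 0 ≤ A₂) (hA₃ : 0 ≤ A₃)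
    (hK : 0 ≤ K) (hH : 0 < H) (hu : 0 ≤ u) (hv : 0 ≤ v) (hw : 0 ≤ w) (h1 : u + v + w = 1)
    (b₁ : A₁ ≤ K * H ^ e₁) (b₂ : A₂ ≤ K * H ^ e₂) (b₃ : A₃ ≤ K * H ^ e₃) :
    A₁ ^ u * A₂ ^ v * A₃ ^ w ≤ K * H ^ (e₁ * u + e₂ * v + e₃ * w) := by
  have hp : ∀ A e p : ℝ, 0 ≤ A → 0 ≤ p → A ≤ K * H ^ e → A ^ p ≤ K ^ p * H ^ (e * p) := by
    intro A e p hA hp hb
    calc A ^ p ≤ (K * H ^ e) ^ p := Real.rpow_le_rpow hA hb hp
      _ = K ^ p * H ^ (e * p) := by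
          rw [Real.mul_rpow hK (Real.rpow_nonneg hH.le _), ← Real.rpow_mul hH.le]
  have p1 := hp A₁ e₁ u hA₁ hu b₁
  have p2 := hp A₂ e₂ v hA₂ hv b₂
  have p3 := hp A₃ e₃ w hA₃ hw b₃
  calc A₁ ^ u * A₂ ^ v * A₃ ^ w
      ≤ (K ^ u * H ^ (e₁ * u)) * (K ^ v * H ^ (e₂ * v)) * (K ^ w * H ^ (e₃ * w)) := by
        gcongr
    _ = (K ^ u * K ^ v * K ^ w) * (H ^ (e₁ * u) * H ^ (e₂ * v) * H ^ (e₃ * w)) := by ring
    _ = K * H ^ (e₁ * u + e₂ * v + e₃ * w) := by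
        rw [← Real.rpow_add_of_nonneg hK hu hv, ← Real.rpow_add_of_nonneg hK (by linarith) hw, h1,
          Real.rpow_one, ← Real.rpow_add hH, ← Real.rpow_add hH]

/-- The generic moment bound at `Z = H^z`, `1/2 - e ≤ z ≤ 2 + 2e`, in critical form. -/
lemma generic_crit {H K e z Z A : ℝ} (hH : 1 < H) (hK : 0 ≤ K) (he : 0 ≤ e) (hZ : Z = H ^ z)
    (hz1 : 1 / 2 - e ≤ z) (hz2 : z ≤ 2 + 2 * e)
    (hA : A ≤ K * H ^ e * (H + Z + (H * Z) ^ ((2 : ℝ) / 3)) * Z) :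
    A ≤ 3 * K * H ^ (2 / 3 + 5 / 3 * z + 2 * e) := by
  have hH0 : (0 : ℝ) < H := by linarith
  set g : ℝ := 2 / 3 * (1 + z) + 2 / 3 * e with hg
  have h1 : H ≤ H ^ g := by
    calc H = H ^ (1 : ℝ) := (Real.rpow_one H).symm
      _ ≤ _ := Real.rpow_le_rpow_of_exponent_le hH.le (by rw [hg]; linarith)
  have h2 : Z ≤ H ^ g := by
    rw [hZ]
    exact Real.rpow_le_rpow_of_exponent_le hH.le (by rw [hg]; linarith)
  have h3 : (H * Z) ^ ((2 : ℝ) / 3) ≤ H ^ g := by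
    have : H * Z = H ^ (1 + z) := by rw [hZ, Real.rpow_add hH0, Real.rpow_one]
    rw [this, ← Real.rpow_mul hH0.le]
    exact Real.rpow_le_rpow_of_exponent_le hH.le (by rw [hg]; linarith)
  have hZ0 : 0 ≤ Z := by rw [hZ]; exact Real.rpow_nonneg hH0.le _
  have he0 : 0 ≤ H ^ e := Real.rpow_nonneg hH0.le _
  calc A ≤ K * H ^ e * (H + Z + (H * Z) ^ ((2 : ℝ) / 3)) * Z := hA
    _ ≤ K * H ^ e * (H ^ g + H ^ g + H ^ g) * Z := by gcongr
    _ = 3 * K * (H ^ e * H ^ g * H ^ z) := by rw [hZ]; ring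
    _ = 3 * K * H ^ (e + g + z) := by
        rw [← Real.rpow_add hH0, ← Real.rpow_add hH0]
    _ ≤ 3 * K * H ^ (2 / 3 + 5 / 3 * z + 2 * e) := by
        apply mul_le_mul_of_nonneg_left _ (by linarith)
        exact Real.rpow_le_rpow_of_exponent_le hH.le (by rw [hg]; linarith)

/-- The number of moments needed in `core_holder`. -/
def Jof (ν : ℝ) : ℕ := max (⌈1.15 / ν⌉₊ + 1) 20

set_option maxHeartbeats 1000000 in
/-- **Item CRH.**  `F h = |C(h)|`, `G h = |D(h)|`.  Generic (critical) moment bounds for `C`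
and `D`, and the saved moments of `C` give a power saving for `∑ |C|²|D|²`. -/
theorem core_holder (ν : ℝ) (hν : 0 < ν) (d₂ : ℝ) (hd₂ : 0 < d₂) :
    ∃ d₁ : ℝ, 0 < d₁ ∧ ∃ e₀ : ℝ, 0 < e₀ ∧ e₀ ≤ 1 / 20 ∧
      ∀ {ι : Type*} (s : Finset ι) (F G : ι → ℝ) (H C D K : ℝ),
        (∀ h ∈ s, 0 ≤ F h) → (∀ h ∈ s, 0 ≤ G h) → 1 ≤ H → 0 ≤ K → 0 < C → 0 < D →
        H ^ ν ≤ C → C ≤ H ^ (0.9 : ℝ) → H ^ (1 - e₀) ≤ C * D → C * D ≤ H ^ (1 + e₀) →
        (∀ j : ℕ, 1 ≤ j → j ≤ Jof ν → ∑ h ∈ s, F h ^ (2 * j)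
          ≤ K * H ^ e₀ * (H + C ^ j + (H * C ^ j) ^ ((2 : ℝ) / 3)) * C ^ j) →
        (∀ j : ℕ, 1 ≤ j → j ≤ Jof ν → ∑ h ∈ s, G h ^ (2 * j)
          ≤ K * H ^ e₀ * (H + D ^ j + (H * D ^ j) ^ ((2 : ℝ) / 3)) * D ^ j) →
        (∀ j : ℕ, 2 ≤ j → j ≤ Jof ν → H ^ (1.1 : ℝ) ≤ C ^ j → C ^ j ≤ H ^ (1.8 : ℝ) →
          ∑ h ∈ s, F h ^ (2 * j) ≤ K * (H * C ^ j) ^ ((2 : ℝ) / 3) * C ^ j * H ^ (-d₂)) →
        ∑ h ∈ s, F h ^ 2 * G h ^ 2 ≤ 3 * K * H ^ (7 / 3 - d₁) := by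
  set J₀ : ℕ := ⌈1.15 / ν⌉₊ + 1 with hJ₀def
  have hJ₀ : 1.15 / ν + 1 ≤ J₀ := by
    rw [hJ₀def]; push_cast
    linarith [Nat.le_ceil (1.15 / ν)]
  set J : ℕ := Jof ν with hJdef
  have hJJ : J = max J₀ 20 := rfl
  have hJ20 : 20 ≤ J := by rw [hJJ]; exact le_max_right _ _
  have hJ20' : (20 : ℝ) ≤ J := by exact_mod_cast hJ20
  have hJpos : (0 : ℝ) < J := by linarith
  set e₀ : ℝ := min (d₂ / (8 * J)) (1 / 20) with he₀def
  have he₀ : 0 < e₀ := lt_min (by positivity) (by norm_num)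
  have he₀1 : e₀ ≤ d₂ / (8 * J) := min_le_left _ _
  have he₀2 : e₀ ≤ 1 / 20 := min_le_right _ _
  have hgain : 4 * e₀ ≤ d₂ / J / 2 := by
    have : d₂ / (8 * J) = d₂ / J / 8 := by rw [div_div, mul_comm]
    rw [this] at he₀1; linarith
  refine ⟨d₂ / J / 2, by positivity, e₀, he₀, he₀2, ?_⟩
  intro ι s F G H C D K hF hG hH' hK hC hD hC1 hC2 hCD1 hCD2 hMC hMD hMS
  rcases hH'.eq_or_lt with hH1 | hH
  · -- the degenerate case `H = 1`
    subst hH1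
    simp only [Real.one_rpow] at hC1 hC2 hCD1 hCD2
    have hC' : C = 1 := le_antisymm hC2 hC1
    subst hC'
    have hD' : D = 1 := by rw [one_mul] at hCD1 hCD2; exact le_antisymm hCD2 hCD1
    subst hD'
    have m1 := hMC 2 (by norm_num) (by omega)
    have m2 := hMD 2 (by norm_num) (by omega)
    simp only [Real.one_rpow, one_pow, mul_one] at m1 m2
    norm_num at m1 m2
    have hb := holder_moments s F G hF hG 4 0 0 0 0 4 (1 / 2) 0 (1 / 2)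
      (by norm_num) le_rfl (by norm_num) (by norm_num) (by norm_num) (by norm_num)
    simp only [pow_zero, mul_one, one_mul, Real.rpow_zero] at hb
    refine hb.trans ?_
    have h3K : (0 : ℝ) ≤ 3 * K := by linarith
    have e1 : (∑ h ∈ s, F h ^ 4) ^ ((1 : ℝ) / 2) ≤ (3 * K) ^ ((1 : ℝ) / 2) :=
      Real.rpow_le_rpow (Finset.sum_nonneg (fun h hh => pow_nonneg (hF h hh) _)) (by linarith)
        (by norm_num)
    have e2 : (∑ h ∈ s, G h ^ 4) ^ ((1 : ℝ) / 2) ≤ (3 * K) ^ ((1 : ℝ) / 2) :=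
      Real.rpow_le_rpow (Finset.sum_nonneg (fun h hh => pow_nonneg (hG h hh) _)) (by linarith)
        (by norm_num)
    rw [Real.one_rpow, mul_one]
    calc (∑ h ∈ s, F h ^ 4) ^ ((1 : ℝ) / 2) * (∑ h ∈ s, G h ^ 4) ^ ((1 : ℝ) / 2)
        ≤ (3 * K) ^ ((1 : ℝ) / 2) * (3 * K) ^ ((1 : ℝ) / 2) :=
          mul_le_mul e1 e2 (Real.rpow_nonneg (Finset.sum_nonneg
            (fun h hh => pow_nonneg (hG h hh) _)) _) (Real.rpow_nonneg h3K _)
      _ = 3 * K := by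
          rw [← Real.rpow_add_of_nonneg h3K (by norm_num) (by norm_num)]
          norm_num
  have hH0 : (0 : ℝ) < H := by linarith
  have hL : 0 < Real.log H := Real.log_pos hH
  set k : ℝ := Real.log C / Real.log H with hk
  set t : ℝ := Real.log D / Real.log H with ht
  have hCk : C = H ^ k := by
    rw [hk, Real.rpow_def_of_pos hH0, mul_div_cancel₀ _ hL.ne', Real.exp_log hC]
  have hDt : D = H ^ t := by
    rw [ht, Real.rpow_def_of_pos hH0, mul_div_cancel₀ _ hL.ne', Real.exp_log hD]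
  have hmono : ∀ x y : ℝ, H ^ x ≤ H ^ y → x ≤ y := fun x y h =>
    (Real.rpow_le_rpow_left_iff hH).mp h
  have hk1 : ν ≤ k := hmono _ _ (by rw [← hCk]; exact hC1)
  have hk2 : k ≤ 0.9 := hmono _ _ (by rw [← hCk]; exact hC2)
  have hkt : C * D = H ^ (k + t) := by rw [Real.rpow_add hH0, ← hCk, ← hDt]
  have hkt1 : 1 - e₀ ≤ k + t := hmono _ _ (by rw [← hkt]; exact hCD1)
  have hkt2 : k + t ≤ 1 + e₀ := hmono _ _ (by rw [← hkt]; exact hCD2)
  have hCj : ∀ j : ℕ, C ^ j = H ^ ((j : ℝ) * k) := by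
    intro j
    rw [hCk, ← Real.rpow_natCast, ← Real.rpow_mul hH0.le, mul_comm]
  have hDj : ∀ j : ℕ, D ^ j = H ^ ((j : ℝ) * t) := by
    intro j
    rw [hDt, ← Real.rpow_natCast, ← Real.rpow_mul hH0.le, mul_comm]
  have hFs : ∀ n : ℕ, 0 ≤ ∑ h ∈ s, F h ^ n := fun n =>
    Finset.sum_nonneg (fun h hh => pow_nonneg (hF h hh) _)
  have hGs : ∀ n : ℕ, 0 ≤ ∑ h ∈ s, G h ^ n := fun n =>
    Finset.sum_nonneg (fun h hh => pow_nonneg (hG h hh) _)
  -- critical bounds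
  have critC : ∀ j : ℕ, 1 ≤ j → j ≤ J → 1 / 2 - e₀ ≤ j * k → j * k ≤ 2 + 2 * e₀ →
      ∑ h ∈ s, F h ^ (2 * j) ≤ 3 * K * H ^ (2 / 3 + 5 / 3 * (j * k) + 2 * e₀) :=
    fun j h1 h2 h3 h4 => generic_crit hH hK he₀.le (hCj j) h3 h4 (hMC j h1 h2)
  have critD : ∀ j : ℕ, 1 ≤ j → j ≤ J → 1 / 2 - e₀ ≤ j * t → j * t ≤ 2 + 2 * e₀ →
      ∑ h ∈ s, G h ^ (2 * j) ≤ 3 * K * H ^ (2 / 3 + 5 / 3 * (j * t) + 2 * e₀) :=
    fun j h1 h2 h3 h4 => generic_crit hH hK he₀.le (hDj j) h3 h4 (hMD j h1 h2)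
  have saveC : ∀ j : ℕ, 2 ≤ j → j ≤ J → 1.1 ≤ j * k → j * k ≤ 1.8 →
      ∑ h ∈ s, F h ^ (2 * j) ≤ 3 * K * H ^ (2 / 3 + 5 / 3 * (j * k) - d₂) := by
    intro j h1 h2 h3 h4
    have h5 := hMS j h1 h2 (by rw [hCj]; exact Real.rpow_le_rpow_of_exponent_le hH.le h3)
      (by rw [hCj]; exact Real.rpow_le_rpow_of_exponent_le hH.le h4)
    rw [hCj] at h5
    have h6 : K * (H * H ^ ((j : ℝ) * k)) ^ ((2 : ℝ) / 3) * H ^ ((j : ℝ) * k) * H ^ (-d₂)
        = K * H ^ (2 / 3 + 5 / 3 * (j * k) - d₂) := by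
      have : H * H ^ ((j : ℝ) * k) = H ^ (1 + (j : ℝ) * k) := by
        rw [Real.rpow_add hH0, Real.rpow_one]
      rw [this, ← Real.rpow_mul hH0.le, mul_assoc, mul_assoc, ← Real.rpow_add hH0,
        ← Real.rpow_add hH0]
      congr 2; ring
    rw [h6] at h5
    have h7 : 0 ≤ K * H ^ (2 / 3 + 5 / 3 * (j * k) - d₂) := by positivity
    linarith
  -- final comparison of exponents
  have fin : ∀ E : ℝ, E ≤ 2 / 3 + 5 / 3 * (k + t) + 2 * e₀ - d₂ / J →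
      3 * K * H ^ E ≤ 3 * K * H ^ (7 / 3 - d₂ / J / 2) := by
    intro E hE
    apply mul_le_mul_of_nonneg_left _ (by linarith)
    apply Real.rpow_le_rpow_of_exponent_le hH.le
    linarith
  rcases le_or_gt k (1 / 2) with hkh | hkh
  · -- case A : `k ≤ 1/2`
    have hkpos : 0 < k := by linarith
    set j : ℕ := ⌈1.15 / k⌉₊ with hj
    have hj1 : 1.15 ≤ j * k := by
      have := Nat.le_ceil (1.15 / k)
      rwa [← hj, div_le_iff₀ hkpos] at this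
    have hj2 : j * k ≤ 1.15 + k := by
      have := (Nat.ceil_lt_add_one (show 0 ≤ 1.15 / k by positivity)).le
      rw [← hj] at this
      calc (j : ℝ) * k ≤ (1.15 / k + 1) * k := mul_le_mul_of_nonneg_right this hkpos.le
        _ = 1.15 + k := by field_simp
    have hj3 : 3 ≤ j := by
      by_contra hc
      have h9 : (j : ℝ) ≤ 2 := by exact_mod_cast (show j ≤ 2 by omega)
      have h10 : (j : ℝ) * k ≤ 2 * (1 / 2) := mul_le_mul h9 hkh hkpos.le (by norm_num)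
      norm_num at h10 hj1
      linarith
    have hj3' : (3 : ℝ) ≤ j := by exact_mod_cast hj3
    have hjJ : j ≤ J := by
      have h1 : (j : ℝ) ≤ J₀ := by
        have h2 := (Nat.ceil_lt_add_one (show 0 ≤ 1.15 / k by positivity)).le
        rw [← hj] at h2
        have h3 : 1.15 / k ≤ 1.15 / ν := by
          apply div_le_div_of_nonneg_left (by norm_num) hν hk1
        linarith
      have : j ≤ J₀ := by exact_mod_cast h1
      rw [hJJ]
      exact this.trans (le_max_left _ _)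
    have hjpos : (0 : ℝ) < j := by linarith
    have hb := holder_moments s F G hF hG (2 * j) 0 0 0 2 4 (1 / j) ((j - 2) / j) (1 / j)
      (by positivity) (div_nonneg (by linarith) hjpos.le) (by positivity)
      (by field_simp; ring) (by push_cast; field_simp; ring)
      (by push_cast; field_simp; ring)
    simp only [pow_zero, mul_one, one_mul] at hb
    have hD1 := critD 1 le_rfl (by omega) (by push_cast; linarith) (by push_cast; linarith)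
    have hD2 := critD 2 (by norm_num) (by omega) (by push_cast; linarith) (by push_cast; linarith)
    have hC1' := saveC j (by omega) hjJ (by norm_num at hj1 ⊢; linarith)
      (by norm_num at hj2 ⊢; linarith)
    push_cast at hD1 hD2
    norm_num at hD1 hD2
    refine hb.trans ((three_bound (hFs _) (hGs 2) (hGs 4) (by positivity : 0 ≤ 3 * K) hH0
      (by positivity) (div_nonneg (by linarith) hjpos.le) (by positivity)
      (by field_simp; ring) hC1' hD1 hD2).trans (fin _ ?_))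
    have hid : (2 / 3 + 5 / 3 * (j * k) - d₂) * (1 / j) + (2 / 3 + 5 / 3 * t + 2 * e₀) * ((j - 2) / j)
        + (2 / 3 + 5 / 3 * (2 * t) + 2 * e₀) * (1 / j)
        = 2 / 3 + 5 / 3 * (k + t) + 2 * e₀ * (1 - 1 / j) - d₂ / j := by
      field_simp; ring
    rw [hid]
    have h1 : d₂ / J ≤ d₂ / j :=
      div_le_div_of_nonneg_left hd₂.le hjpos (by exact_mod_cast hjJ)
    have h2 : 2 * e₀ * (1 - 1 / (j : ℝ)) ≤ 2 * e₀ := by
      have h9 : 0 < 1 / (j : ℝ) := by positivity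
      calc 2 * e₀ * (1 - 1 / (j : ℝ)) ≤ 2 * e₀ * 1 :=
            mul_le_mul_of_nonneg_left (by linarith) (by linarith)
        _ = 2 * e₀ := mul_one _
    linarith
  · -- case B : `k > 1/2`
    -- the saved exponent of `C`
    obtain ⟨j, hj2, hj3, hj4, hj5⟩ : ∃ j : ℕ, 2 ≤ j ∧ j ≤ 3 ∧ 1.1 ≤ (j : ℝ) * k ∧
        (j : ℝ) * k ≤ 1.8 := by
      rcases le_or_gt 0.6 k with h | h
      · exact ⟨2, le_rfl, by norm_num, by push_cast; linarith, by push_cast; linarith⟩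
      · exact ⟨3, by norm_num, le_rfl, by push_cast; linarith, by push_cast; linarith⟩
    -- the exponent of `D`
    have htpos : 1 / 20 ≤ t := by norm_num at hk2 ⊢; linarith
    have ht2 : t ≤ 1 / 2 + e₀ := by linarith
    obtain ⟨i, hi2, hi3, hi4, hi5⟩ : ∃ i : ℕ, 2 ≤ i ∧ i ≤ 10 ∧ 1 / 2 ≤ (i : ℝ) * t ∧
        (i : ℝ) * t ≤ 1 + 2 * e₀ := by
      refine ⟨max 2 ⌈1 / (2 * t)⌉₊, le_max_left _ _, ?_, ?_, ?_⟩
      · apply max_le (by norm_num)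
        apply Nat.ceil_le.mpr
        rw [div_le_iff₀ (by linarith)]
        push_cast; linarith
      · have h1 := Nat.le_ceil (1 / (2 * t))
        rw [div_le_iff₀ (by linarith)] at h1
        have h2 : ((⌈1 / (2 * t)⌉₊ : ℕ) : ℝ) ≤ ((max 2 ⌈1 / (2 * t)⌉₊ : ℕ) : ℝ) := by
          exact_mod_cast le_max_right _ _
        have ht0 : 0 ≤ t := by linarith
        have h3 := mul_le_mul_of_nonneg_right h2 ht0
        linarith
      · rcases le_or_gt (⌈1 / (2 * t)⌉₊) 2 with h | h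
        · rw [max_eq_left h]; push_cast; linarith
        · rw [max_eq_right h.le]
          have h1 := (Nat.ceil_lt_add_one (show 0 ≤ 1 / (2 * t) by positivity)).le
          have ht0 : 0 < t := by linarith
          calc ((⌈1 / (2 * t)⌉₊ : ℕ) : ℝ) * t ≤ (1 / (2 * t) + 1) * t :=
                mul_le_mul_of_nonneg_right h1 ht0.le
            _ = 1 / 2 + t := by field_simp
            _ ≤ 1 + 2 * e₀ := by linarith
    have hi2' : (2 : ℝ) ≤ i := by exact_mod_cast hi2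
    have hi3' : (i : ℝ) ≤ 10 := by exact_mod_cast hi3
    have hj2' : (2 : ℝ) ≤ j := by exact_mod_cast hj2
    have hj3' : (j : ℝ) ≤ 3 := by exact_mod_cast hj3
    have hipos : (0 : ℝ) < i := by linarith
    have hj1pos : (0 : ℝ) < j - 1 := by linarith
    set a : ℝ := 1 / (i * (j - 1)) with ha
    have ha0 : 0 < a := by positivity
    have ha1 : a ≤ 1 / i := by
      rw [ha]
      apply div_le_div_of_nonneg_left (by norm_num) hipos
      have h9 : (1 : ℝ) ≤ j - 1 := by linarith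
      calc (i : ℝ) = i * 1 := (mul_one _).symm
        _ ≤ i * (j - 1) := mul_le_mul_of_nonneg_left h9 hipos.le
    have hi12 : 1 / (i : ℝ) ≤ 1 / 2 := by
      apply div_le_div_of_nonneg_left (by norm_num) (by norm_num) hi2'
    have hb0 : 0 ≤ 1 - 1 / (i : ℝ) - a := by linarith
    have ha2 : 1 / 20 ≤ a := by
      rw [ha]
      apply div_le_div_of_nonneg_left (by norm_num) (by positivity)
      have h9 : (j : ℝ) - 1 ≤ 2 := by linarith
      calc (i : ℝ) * (j - 1) ≤ 10 * 2 := mul_le_mul hi3' h9 hj1pos.le (by norm_num)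
        _ = 20 := by norm_num
    have hja : (j - 1) * a = 1 / (i : ℝ) := by
      rw [ha]; field_simp
    have hb := holder_moments s F G hF hG (2 * j) 2 0 0 0 (2 * i) a (1 - 1 / i - a) (1 / i)
      ha0.le hb0 (by positivity) (by ring)
      (by push_cast
          have : (2 * (j : ℝ)) * a + 2 * (1 - 1 / i - a) + 0 * (1 / i)
              = 2 * ((j - 1) * a) + 2 - 2 * (1 / i) := by ring
          rw [this, hja]; ring)
      (by push_cast; field_simp; ring)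
    simp only [pow_zero, mul_one, one_mul] at hb
    have hC1' := saveC j hj2 (by omega) hj4 hj5
    have hC2' := critC 1 le_rfl (by omega) (by push_cast; linarith)
      (by push_cast; norm_num at hk2; linarith)
    have hD' := critD i (by omega) (by omega) (by linarith) (by linarith)
    push_cast at hC2'
    norm_num at hC2'
    refine hb.trans ((three_bound (hFs _) (hFs 2) (hGs _) (by positivity : 0 ≤ 3 * K) hH0
      ha0.le hb0 (by positivity) (by ring) hC1' hC2' hD').trans (fin _ ?_))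
    have hid : (2 / 3 + 5 / 3 * (j * k) - d₂) * a + (2 / 3 + 5 / 3 * k + 2 * e₀) * (1 - 1 / i - a)
        + (2 / 3 + 5 / 3 * (i * t) + 2 * e₀) * (1 / i)
        = 2 / 3 + 5 / 3 * k * ((j - 1) * a + 1 - 1 / i) + 5 / 3 * t * (i * (1 / i))
          + 2 * e₀ * (1 - a) - d₂ * a := by
      ring
    rw [hid, hja, mul_one_div_cancel hipos.ne']
    have h1 : d₂ / J ≤ d₂ * a := by
      calc d₂ / J ≤ d₂ / 20 := div_le_div_of_nonneg_left hd₂.le (by norm_num) hJ20'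
        _ = d₂ * (1 / 20) := by ring
        _ ≤ d₂ * a := mul_le_mul_of_nonneg_left ha2 hd₂.le
    have h2 : 2 * e₀ * (1 - a) ≤ 2 * e₀ := by
      calc 2 * e₀ * (1 - a) ≤ 2 * e₀ * 1 :=
            mul_le_mul_of_nonneg_left (by linarith) (by linarith)
        _ = 2 * e₀ := mul_one _
    have h3 : 5 / 3 * k * (1 / (i : ℝ) + 1 - 1 / i) = 5 / 3 * k := by ring
    rw [h3]
    linarith

end Crest.Agent.R012.CRmom569
end
end

-- ▼ part R012/CR3b_436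
section

/-!
# Row 12, (CRC), part b: sums over admissible tuples `(i, j, k₁, k₂)`
-/

set_option autoImplicit false

noncomputable section

open Finset

namespace Crest.Agent.R012.CR3436

open Eis Div277 CR290

/-- squarefree primary elements of norm `≤ X`. -/
abbrev SFp (X : ℝ) : Finset Eis := LS2.S X

lemma mem_SFp {X : ℝ} {n : Eis} : n ∈ SFp X ↔ (nm n : ℝ) ≤ X ∧ IsPrim n ∧ Squarefree n := by
  rcases le_or_gt 0 X with hX | hX
  · exact LS2.mem_S hX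
  · constructor
    · intro h
      exfalso
      classical
      unfold SFp LS2.S at h
      rw [mem_filter, mem_primBall] at h
      have h1 : ⌊X⌋₊ = 0 := Nat.floor_eq_zero.mpr (by linarith)
      rw [h1] at h
      exact h.1.2.ne_zero (nm_eq_zero.mp (Nat.le_zero.mp h.1.1))
    · rintro ⟨h, _⟩
      exfalso
      have : (0 : ℝ) ≤ nm n := by positivity
      linarith

lemma isSF_SFp (X : ℝ) : IsSF (SFp X) X := fun h hh => by
  rw [mem_SFp] at hh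
  exact ⟨hh.2.1, hh.2.2, hh.1⟩

lemma SFp_eq_empty {X : ℝ} (hX : X < 1) : SFp X = ∅ := by
  apply eq_empty_of_forall_notMem
  intro n hn
  rw [mem_SFp] at hn
  have h1 : (1 : ℝ) ≤ nm n := by
    have := nm_pos.mpr hn.2.1.ne_zero
    exact_mod_cast this
  linarith

lemma nm_lm : nm lm = 3 := by decide

lemma nm_w' : nm w = 1 := by decide

lemma nm_num (x : Tup) : nm (num x) = 3 ^ x.1.2 * nm x.2.1 * nm x.2.2 ^ 2 := by
  unfold num
  rw [nm_mul, nm_mul, nm_mul, nm_pow, nm_pow, nm_pow, nm_lm, nm_w', one_pow, one_mul]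

lemma nm_kk_le {x : Tup} {X : ℝ} (h : (nm (num x) : ℝ) ≤ X) :
    (nm x.2.1 : ℝ) * (nm x.2.2 : ℝ) ^ 2 ≤ X := by
  refine le_trans ?_ h
  rw [nm_num]
  push_cast
  have h3 : (1 : ℝ) ≤ 3 ^ x.1.2 := one_le_pow₀ (by norm_num)
  have h4 : (0 : ℝ) ≤ (nm x.2.1 : ℝ) * (nm x.2.2 : ℝ) ^ 2 := by positivity
  nlinarith

/-- index set of the `(i, j)`. -/
def ij : Finset (ℕ × ℕ) := range 3 ×ˢ range 3

lemma card_ij : #ij = 9 := by simp [ij]

/-- a nonnegative sum over admissible tuples is bounded by the iterated sum. -/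
lemma sum_tup_le {S : Finset Tup} {X : ℝ} (hS : IsTS S X) (KK : Finset Eis)
    (hKK : ∀ x ∈ S, x.2.2 ∈ KK) (G : Tup → ℝ) (hG : ∀ x, 0 ≤ G x) :
    ∑ x ∈ S, G x ≤ ∑ a ∈ ij, ∑ k ∈ KK, ∑ h ∈ (SFp (X / (nm k : ℝ) ^ 2)), G (a, (h, k)) := by
  classical
  have hmaps : ∀ x ∈ S, (x.1, x.2.2) ∈ ij ×ˢ KK := fun x hx => by
    obtain ⟨⟨h1, h2, h3, h4, h5, h6, h7⟩, h8⟩ := hS x hx
    rw [mem_product]
    exact ⟨by simp [ij, h1, h2], hKK x hx⟩
  rw [← sum_product' (f := fun a k => ∑ h ∈ (SFp (X / (nm k : ℝ) ^ 2)), G (a, (h, k))),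
    ← sum_fiberwise_of_maps_to hmaps]
  refine sum_le_sum fun y _ => ?_
  obtain ⟨a, k⟩ := y
  calc ∑ x ∈ S with (x.1, x.2.2) = (a, k), G x
      = ∑ x ∈ S with (x.1, x.2.2) = (a, k), G (a, (x.2.1, k)) := by
        refine sum_congr rfl fun x hx => ?_
        simp only [mem_filter, Prod.mk.injEq] at hx
        rw [← hx.2.1, ← hx.2.2]
    _ = ∑ h ∈ (S.filter (fun x => (x.1, x.2.2) = (a, k))).image (fun x : Tup => x.2.1),
          G (a, (h, k)) := by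
        rw [sum_image]
        intro x hx x' hx' hxx
        simp only [coe_filter, Prod.mk.injEq, Set.mem_ofPred_eq] at hx hx'
        exact Prod.ext (hx.2.1.trans hx'.2.1.symm)
          (Prod.ext hxx (hx.2.2.trans hx'.2.2.symm))
    _ ≤ ∑ h ∈ (SFp (X / (nm k : ℝ) ^ 2)), G (a, (h, k)) := by
        refine sum_le_sum_of_subset_of_nonneg ?_ fun _ _ _ => hG _
        intro h hh
        rw [mem_image] at hh
        obtain ⟨x, hx, rfl⟩ := hh
        simp only [mem_filter, Prod.mk.injEq] at hx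
        obtain ⟨⟨h1, h2, h3, h4, h5, h6, h7⟩, h8⟩ := hS x hx.1
        rw [mem_SFp]
        refine ⟨?_, h3, h5⟩
        have hk : (0 : ℝ) < nm k := by
          rw [← hx.2.2]
          exact_mod_cast nm_pos.mpr h4.ne_zero
        rw [le_div_iff₀ (by positivity), ← hx.2.2]
        exact nm_kk_le h8

lemma one_le_nm_of_prim {k : Eis} (h : IsPrim k) : (1 : ℝ) ≤ nm k := by
  have := nm_pos.mpr h.ne_zero
  exact_mod_cast this

lemma card_SFp_le {L : ℝ} (hL : 0 ≤ L) : (#(SFp L) : ℝ) ≤ 100 * L :=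
  card_le_of_isPB (fun n hn => by rw [mem_SFp] at hn; exact ⟨hn.2.1, hn.1⟩) hL

/-- `∑_{k ∈ SFp L} 1/N(k) ≤ K L^ε`. -/
lemma sum_inv_SFp_le {ε : ℝ} (hε : 0 < ε) : ∃ K : ℝ, 1 ≤ K ∧ ∀ L : ℝ, 1 ≤ L →
    ∑ k ∈ SFp L, 1 / (nm k : ℝ) ≤ K * L ^ ε := by
  refine ⟨100 * (1 + 1 / ε), ?_, fun L hL => ?_⟩
  · have : 0 < 1 / ε := by positivity
    nlinarith
  have h1 : SFp L ⊆ primBall ⌊L⌋₊ := fun n hn => by
    rw [mem_SFp] at hn
    rw [mem_primBall]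
    exact ⟨Nat.le_floor hn.1, hn.2.1⟩
  have hfl : (1 : ℝ) ≤ ⌊L⌋₊ := by
    have : 1 ≤ ⌊L⌋₊ := Nat.le_floor (by simpa using hL)
    exact_mod_cast this
  calc ∑ k ∈ SFp L, 1 / (nm k : ℝ) ≤ ∑ k ∈ primBall ⌊L⌋₊, 1 / (nm k : ℝ) :=
        sum_le_sum_of_subset_of_nonneg h1 fun _ _ _ => by positivity
    _ ≤ 100 * (1 + Real.log ⌊L⌋₊) := sum_inv_primBall_le _
    _ ≤ 100 * (1 + Real.log L) := by
        have := Real.log_le_log (by linarith) (Nat.floor_le (by linarith : (0 : ℝ) ≤ L))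
        linarith
    _ ≤ 100 * (1 + 1 / ε) * L ^ ε := by
        have h2 : Real.log L ≤ L ^ ε / ε := Real.log_le_rpow_div (by linarith) hε
        have h3 : (1 : ℝ) ≤ L ^ ε := Real.one_le_rpow hL hε.le
        have h4 : L ^ ε / ε = 1 / ε * L ^ ε := by ring
        nlinarith

/-- the sum over `k₂ ∈ KK` of a Heath-Brown type bound. -/
lemma sum_hb_le {KK : Finset Eis} {L₀ L X Z W Λ : ℝ} (hL₀ : 1 ≤ L₀) (hX : 0 ≤ X)
    (hZ : 0 ≤ Z) (hW : 0 ≤ W) (hL : 0 ≤ L)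
    (hKK : ∀ k ∈ KK, IsPrim k ∧ Squarefree k ∧ L₀ ≤ (nm k : ℝ) ∧ (nm k : ℝ) ≤ L)
    (hΛ : ∑ k ∈ SFp L, 1 / (nm k : ℝ) ≤ Λ) :
    ∑ k ∈ KK, W * (X / (nm k : ℝ) ^ 2 + Z + (X / (nm k : ℝ) ^ 2 * Z) ^ (2 / 3 : ℝ)) ≤
      W * (X * L₀⁻¹ * Λ + 100 * L * Z + (X * Z) ^ (2 / 3 : ℝ) * L₀ ^ (-(1 / 3) : ℝ) * Λ) := by
  have hsub : KK ⊆ SFp L := fun k hk => mem_SFp.mpr ⟨(hKK k hk).2.2.2, (hKK k hk).1, (hKK k hk).2.1⟩
  have hΛ' : ∑ k ∈ KK, 1 / (nm k : ℝ) ≤ Λ :=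
    (sum_le_sum_of_subset_of_nonneg hsub fun _ _ _ => by positivity).trans hΛ
  have hcard : (#KK : ℝ) ≤ 100 * L :=
    (Nat.cast_le.mpr (card_le_card hsub)).trans (card_SFp_le hL)
  have key : ∀ k ∈ KK, X / (nm k : ℝ) ^ 2 + Z + (X / (nm k : ℝ) ^ 2 * Z) ^ (2 / 3 : ℝ) ≤
      X * L₀⁻¹ * (1 / (nm k : ℝ)) + Z +
        (X * Z) ^ (2 / 3 : ℝ) * L₀ ^ (-(1 / 3) : ℝ) * (1 / (nm k : ℝ)) := by
    intro k hk
    obtain ⟨h1, h2, h3, h4⟩ := hKK k hk
    have hk1 := one_le_nm_of_prim h1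
    have hk0 : (0 : ℝ) < nm k := by linarith
    have e1 : X / (nm k : ℝ) ^ 2 ≤ X * L₀⁻¹ * (1 / (nm k : ℝ)) := by
      have : X / (nm k : ℝ) ^ 2 = X * (nm k : ℝ)⁻¹ * (1 / (nm k : ℝ)) := by
        field_simp
      rw [this]
      gcongr
    have e2 : (X / (nm k : ℝ) ^ 2 * Z) ^ (2 / 3 : ℝ) ≤
        (X * Z) ^ (2 / 3 : ℝ) * L₀ ^ (-(1 / 3) : ℝ) * (1 / (nm k : ℝ)) := by
      have e3 : X / (nm k : ℝ) ^ 2 * Z = (X * Z) * ((nm k : ℝ) ^ (2 : ℝ))⁻¹ := by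
        rw [Real.rpow_two]; field_simp
      rw [e3, Real.mul_rpow (by positivity) (by positivity), ← Real.rpow_neg (by positivity),
        ← Real.rpow_mul (by positivity), mul_assoc]
      apply mul_le_mul_of_nonneg_left _ (by positivity)
      have e4 : (nm k : ℝ) ^ (-2 * (2 / 3) : ℝ) = (nm k : ℝ) ^ (-(1 / 3) : ℝ) * (1 / (nm k : ℝ)) := by
        have e5 : 1 / (nm k : ℝ) = (nm k : ℝ) ^ (-1 : ℝ) := by rw [Real.rpow_neg_one, one_div]
        rw [e5, ← Real.rpow_add hk0]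
        congr 1; norm_num
      rw [e4]
      apply mul_le_mul_of_nonneg_right _ (by positivity)
      exact Real.rpow_le_rpow_of_nonpos (by linarith) h3 (by norm_num)
    linarith
  calc ∑ k ∈ KK, W * (X / (nm k : ℝ) ^ 2 + Z + (X / (nm k : ℝ) ^ 2 * Z) ^ (2 / 3 : ℝ))
      ≤ ∑ k ∈ KK, W * (X * L₀⁻¹ * (1 / (nm k : ℝ)) + Z +
        (X * Z) ^ (2 / 3 : ℝ) * L₀ ^ (-(1 / 3) : ℝ) * (1 / (nm k : ℝ))) :=
        sum_le_sum fun k hk => mul_le_mul_of_nonneg_left (key k hk) hW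
    _ = W * (X * L₀⁻¹ * (∑ k ∈ KK, 1 / (nm k : ℝ)) + #KK * Z +
        (X * Z) ^ (2 / 3 : ℝ) * L₀ ^ (-(1 / 3) : ℝ) * (∑ k ∈ KK, 1 / (nm k : ℝ))) := by
        rw [← mul_sum, sum_add_distrib, sum_add_distrib, ← mul_sum, ← mul_sum, sum_const,
          nsmul_eq_mul]
    _ ≤ _ := by
        gcongr

/-- abstract form of the reduction to fixed `(i, j, k₂)`. -/
lemma part_abs {S : Finset Tup} {X L₀ L Z W Λ : ℝ} (hS : IsTS S X) (hL₀ : 1 ≤ L₀) (hX : 0 ≤ X)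
    (hZ : 0 ≤ Z) (hW : 0 ≤ W) (hL : 0 ≤ L)
    (hk : ∀ x ∈ S, L₀ ≤ (nm x.2.2 : ℝ) ∧ (nm x.2.2 : ℝ) ≤ L)
    (hΛ : ∑ k ∈ SFp L, 1 / (nm k : ℝ) ≤ Λ) (G : Tup → ℝ) (hG : ∀ x, 0 ≤ G x)
    (hb : ∀ a ∈ ij, ∀ k : Eis, IsPrim k → Squarefree k → L₀ ≤ (nm k : ℝ) → (nm k : ℝ) ≤ L →
      1 ≤ X / (nm k : ℝ) ^ 2 → ∑ h ∈ SFp (X / (nm k : ℝ) ^ 2), G (a, (h, k)) ≤
        W * (X / (nm k : ℝ) ^ 2 + Z + (X / (nm k : ℝ) ^ 2 * Z) ^ (2 / 3 : ℝ))) :
    ∑ x ∈ S, G x ≤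
      9 * (W * (X * L₀⁻¹ * Λ + 100 * L * Z + (X * Z) ^ (2 / 3 : ℝ) * L₀ ^ (-(1 / 3) : ℝ) * Λ)) := by
  classical
  set KK : Finset Eis := S.image (fun x => x.2.2) with hKK
  have h1 := sum_tup_le hS KK (fun x hx => mem_image_of_mem _ hx) G hG
  have hKK' : ∀ k ∈ KK, IsPrim k ∧ Squarefree k ∧ L₀ ≤ (nm k : ℝ) ∧ (nm k : ℝ) ≤ L := by
    intro k hk'
    obtain ⟨x, hx, rfl⟩ := mem_image.mp hk'
    obtain ⟨⟨_, _, _, h4, _, h6, _⟩, _⟩ := hS x hx
    exact ⟨h4, h6, (hk x hx).1, (hk x hx).2⟩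
  have h2 := sum_hb_le (Z := Z) hL₀ hX hZ hW hL hKK' hΛ
  refine h1.trans ?_
  calc ∑ a ∈ ij, ∑ k ∈ KK, ∑ h ∈ (SFp (X / (nm k : ℝ) ^ 2)), G (a, (h, k))
      ≤ ∑ a ∈ ij, ∑ k ∈ KK,
          W * (X / (nm k : ℝ) ^ 2 + Z + (X / (nm k : ℝ) ^ 2 * Z) ^ (2 / 3 : ℝ)) := by
        refine sum_le_sum fun a ha => sum_le_sum fun k hk' => ?_
        obtain ⟨g1, g2, g3, g4⟩ := hKK' k hk'
        by_cases hM : 1 ≤ X / (nm k : ℝ) ^ 2
        · exact hb a ha k g1 g2 g3 g4 hM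
        · rw [SFp_eq_empty (not_le.mp hM), sum_empty]
          positivity
    _ = 9 * ∑ k ∈ KK,
          W * (X / (nm k : ℝ) ^ 2 + Z + (X / (nm k : ℝ) ^ 2 * Z) ^ (2 / 3 : ℝ)) := by
        rw [sum_const, card_ij, nsmul_eq_mul]; norm_num
    _ ≤ _ := mul_le_mul_of_nonneg_left h2 (by norm_num)

/-- the fixed factor of the numerator. -/
def uu (a : ℕ × ℕ) (k : Eis) : Eis := w ^ a.1 * lm ^ a.2 * k ^ 2

lemma num_eq (a : ℕ × ℕ) (h k : Eis) : num (a, (h, k)) = uu a k * h := by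
  unfold num uu; ring

/-- Heath-Brown type bound for `k₂` in a range, bounded coefficients. -/
lemma part_gls (hG : GLS) (k : ℕ) {ε : ℝ} (hε : 0 < ε) : ∃ K : ℝ, 0 < K ∧
    ∀ (X Z A L₀ L : ℝ), 1 ≤ X → 1 ≤ Z → 1 ≤ L₀ → 1 ≤ L → ∀ S : Finset Tup, IsTS S X →
    (∀ x ∈ S, L₀ ≤ (nm x.2.2 : ℝ) ∧ (nm x.2.2 : ℝ) ≤ L) → ∀ f : Eis → ℂ, Ex Z A k f →
      ∑ x ∈ S, ‖f (num x)‖ ^ 2 ≤
        K * (X * Z) ^ ε * L ^ ε * (X * L₀⁻¹ + L * Z + (X * Z) ^ (2 / 3 : ℝ) * L₀ ^ (-(1 / 3) : ℝ)) * Z := by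
  obtain ⟨K1, hK1, h1⟩ := gls_ex hG k hε
  obtain ⟨K2, hK2, h2⟩ := sum_inv_SFp_le hε
  refine ⟨9 * K1 * (100 * K2), by positivity, fun X Z A L₀ L hX hZ hL₀ hL S hS hk f hf => ?_⟩
  have h3 := part_abs (W := K1 * (X * Z) ^ ε * Z) (Z := Z) hS hL₀ (by linarith) (by linarith)
    (by positivity) (by linarith) hk (h2 L hL) (fun x => ‖f (num x)‖ ^ 2) (fun _ => by positivity)
    (by
      intro a _ k' hk1 _ _ _ hM
      have hk1' := one_le_nm_of_prim hk1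
      have h4 := h1 (X / (nm k' : ℝ) ^ 2) Z A hM hZ (SFp (X / (nm k' : ℝ) ^ 2)) (isSF_SFp _)
        (fun x => f (uu a k' * x)) (hf.twist _)
      simp only [num_eq]
      refine h4.trans ?_
      have h5 : (X / (nm k' : ℝ) ^ 2 * Z) ^ ε ≤ (X * Z) ^ ε := by
        apply Real.rpow_le_rpow (by positivity) _ hε.le
        apply mul_le_mul_of_nonneg_right _ (by linarith)
        exact div_le_self (by linarith) (one_le_pow₀ hk1')
      calc K1 * (X / (nm k' : ℝ) ^ 2 * Z) ^ ε * (X / (nm k' : ℝ) ^ 2 + Z +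
            (X / (nm k' : ℝ) ^ 2 * Z) ^ (2 / 3 : ℝ)) * Z
          ≤ K1 * (X * Z) ^ ε * (X / (nm k' : ℝ) ^ 2 + Z +
            (X / (nm k' : ℝ) ^ 2 * Z) ^ (2 / 3 : ℝ)) * Z := by gcongr
        _ = _ := by ring)
  refine h3.trans ?_
  have hLε : (1 : ℝ) ≤ L ^ ε := Real.one_le_rpow hL hε.le
  have hΛ1 : K2 * L ^ ε ≤ 100 * K2 * L ^ ε := by nlinarith [mul_pos (by linarith : 0 < K2) (by linarith : 0 < L ^ ε)]
  have hΛ2 : 100 * (L * Z) ≤ 100 * K2 * L ^ ε * (L * Z) := by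
    have : 1 ≤ K2 * L ^ ε := by nlinarith
    nlinarith [mul_pos (by linarith : 0 < L) (by linarith : 0 < Z)]
  calc 9 * (K1 * (X * Z) ^ ε * Z * (X * L₀⁻¹ * (K2 * L ^ ε) + 100 * L * Z +
        (X * Z) ^ (2 / 3 : ℝ) * L₀ ^ (-(1 / 3) : ℝ) * (K2 * L ^ ε)))
      ≤ 9 * (K1 * (X * Z) ^ ε * Z * (X * L₀⁻¹ * (100 * K2 * L ^ ε) + 100 * K2 * L ^ ε * (L * Z) +
        (X * Z) ^ (2 / 3 : ℝ) * L₀ ^ (-(1 / 3) : ℝ) * (100 * K2 * L ^ ε))) := by
        have e : 100 * L * Z = 100 * (L * Z) := by ring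
        rw [e]
        gcongr
    _ = _ := by ring


end Crest.Agent.R012.CR3436
end
end

-- ▼ part R012/CR3_436
section

/-!
# Row 12, (CRC): passage from squarefree to cubefree numerators (helper436)

`coreCubU` : `CoreU u → GLS → OrdLS → CoreCubU u` for `0 < u < 1`, hence
`coreCub  : Core → GLS → OrdLS → CoreCub`.
-/

set_option autoImplicit false

noncomputable section

open Finset

namespace Crest.Agent.R012.CR3436

open Eis Div277 CR290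

/-- `Core` with a general upper exponent `u` for the prime variable. -/
def CoreU (u : ℝ) : Prop := ∀ ν : ℝ, 0 < ν → ∃ δ e₀ K : ℝ, 0 < δ ∧ 0 < e₀ ∧ 0 < K ∧
  ∀ H C D : ℝ, 1 ≤ H → H ^ ν ≤ C → C ≤ H ^ u → 1 ≤ D → C * D ≤ H ^ (1 + e₀) →
  ∀ S P T : Finset Eis, IsSF S H → IsPP P C → IsPB T D →
  ∀ γ ξ : Eis → ℂ, (∀ p ∈ P, ‖γ p‖ ≤ 1) → (∀ d ∈ T, ‖ξ d‖ ≤ 1) →
    ∑ h ∈ S, ‖F P γ h‖ ^ 2 * ‖F T ξ h‖ ^ 2 ≤ K * H ^ (7 / 3 - δ)

/-- `CoreCub` with a general upper exponent `u` for the prime variable. -/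
def CoreCubU (u : ℝ) : Prop := ∀ ν : ℝ, 0 < ν → ∃ δ e₀ K : ℝ, 0 < δ ∧ 0 < e₀ ∧ 0 < K ∧
  ∀ B C D : ℝ, 1 ≤ B → B ^ ν ≤ C → C ≤ B ^ u → 1 ≤ D → C * D ≤ B ^ (1 + e₀) →
  ∀ (S : Finset Tup) (P T : Finset Eis), IsTS S (B ^ (1 + e₀)) → IsPP P C → IsPB T D →
  ∀ γ ξ : Eis → ℂ, (∀ p ∈ P, ‖γ p‖ ≤ 1) → (∀ d ∈ T, ‖ξ d‖ ≤ 1) →
    ∑ x ∈ S, ‖F P γ (num x)‖ ^ 2 * ‖F T ξ (num x)‖ ^ 2 ≤ K * B ^ (7 / 3 - δ)

lemma F_twist {P : Finset Eis} (hP : ∀ p ∈ P, IsPrim p) (γ : Eis → ℂ) (u h : Eis) :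
    F P γ (u * h) = F P (fun c => γ c * sy u c) h := by
  unfold F
  refine sum_congr rfl fun n hn => ?_
  rw [Sym645.sy_mul_left (prim_mod (hP n hn))]
  ring

lemma twist_le {P : Finset Eis} (hP : ∀ p ∈ P, IsPrim p) {γ : Eis → ℂ} (hγ : ∀ p ∈ P, ‖γ p‖ ≤ 1)
    (u : Eis) : ∀ p ∈ P, ‖γ p * sy u p‖ ≤ 1 := fun p hp => by
  rw [norm_mul]
  exact mul_le_one₀ (hγ p hp) (norm_nonneg _) (Sym645.norm_sy_le_one (prim_mod (hP p hp)) _)

/-! ### R1 : small `k₂` -/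

lemma part_core {u : ℝ} (hu : 0 < u) (hCo : CoreU u) {ν : ℝ} (hν : 0 < ν) :
    ∃ d K : ℝ, 0 < d ∧ 0 < K ∧ ∀ a e B C D : ℝ, 0 ≤ a → 0 ≤ e → e ≤ 1 → 1 ≤ B → B ^ ν ≤ C →
      C ≤ B ^ u → 1 ≤ D → C * D ≤ B ^ (1 + e) →
      ∀ (S : Finset Tup) (P T : Finset Eis), IsTS S (B ^ (1 + e)) → IsPP P C → IsPB T D →
      (∀ x ∈ S, (nm x.2.2 : ℝ) ≤ B ^ a) →
      ∀ γ ξ : Eis → ℂ, (∀ p ∈ P, ‖γ p‖ ≤ 1) → (∀ d ∈ T, ‖ξ d‖ ≤ 1) →
        ∑ x ∈ S, ‖F P γ (num x)‖ ^ 2 * ‖F T ξ (num x)‖ ^ 2 ≤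
          K * B ^ ((1 + e) * (7 / 3 - d) + a) := by
  obtain ⟨d, e₀, K, hd, he₀, hK, h⟩ := hCo (ν / 2) (by positivity)
  refine ⟨d, 900 * K, hd, by positivity, ?_⟩
  intro a e B C D ha he he1 hB hBC hCB hD hCD S P T hS hP hT hk γ ξ hγ hξ
  have hB0 : (0 : ℝ) < B := by linarith
  set H : ℝ := B ^ (1 + e) with hH
  have hH1 : 1 ≤ H := Real.one_le_rpow hB (by linarith)
  have hBH : B ≤ H := by
    calc B = B ^ (1 : ℝ) := (Real.rpow_one B).symm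
      _ ≤ H := Real.rpow_le_rpow_of_exponent_le hB (by linarith)
  have h1 : H ^ (ν / 2) ≤ C := by
    refine le_trans ?_ hBC
    rw [hH, ← Real.rpow_mul hB0.le]
    exact Real.rpow_le_rpow_of_exponent_le hB (by nlinarith)
  have h2 : C ≤ H ^ u := hCB.trans (Real.rpow_le_rpow hB0.le hBH hu.le)
  have h3 : C * D ≤ H ^ (1 + e₀) := by
    refine hCD.trans ?_
    calc H = H ^ (1 : ℝ) := (Real.rpow_one H).symm
      _ ≤ _ := Real.rpow_le_rpow_of_exponent_le hH1 (by linarith)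
  have hPp : ∀ p ∈ P, IsPrim p := fun p hp => (hP p hp).1
  have hTp : ∀ p ∈ T, IsPrim p := fun p hp => (hT p hp).1
  have h4 := sum_tup_le hS (SFp (B ^ a)) (fun x hx => mem_SFp.mpr ⟨hk x hx, (hS x hx).1.2.2.2.1,
    (hS x hx).1.2.2.2.2.2.1⟩) (fun x => ‖F P γ (num x)‖ ^ 2 * ‖F T ξ (num x)‖ ^ 2)
    (fun _ => by positivity)
  refine h4.trans ?_
  have h5 : ∀ b ∈ ij, ∀ k ∈ SFp (B ^ a), ∑ h ∈ SFp (H / (nm k : ℝ) ^ 2),
      ‖F P γ (num (b, (h, k)))‖ ^ 2 * ‖F T ξ (num (b, (h, k)))‖ ^ 2 ≤ K * H ^ (7 / 3 - d) := by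
    intro b _ k hk'
    have hk1 := one_le_nm_of_prim (mem_SFp.mp hk').2.1
    simp only [num_eq, F_twist hPp, F_twist hTp]
    refine h H C D hH1 h1 h2 hD h3 _ P T ?_ hP hT _ _ (twist_le hPp hγ _) (twist_le hTp hξ _)
    intro n hn
    obtain ⟨g1, g2, g3⟩ := isSF_SFp _ n hn
    exact ⟨g1, g2, g3.trans (div_le_self (by linarith) (one_le_pow₀ hk1))⟩
  have hcard : (#(SFp (B ^ a)) : ℝ) ≤ 100 * B ^ a := card_SFp_le (by positivity)
  calc ∑ b ∈ ij, ∑ k ∈ SFp (B ^ a), ∑ h ∈ SFp (H / (nm k : ℝ) ^ 2),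
      ‖F P γ (num (b, (h, k)))‖ ^ 2 * ‖F T ξ (num (b, (h, k)))‖ ^ 2
      ≤ ∑ b ∈ ij, ∑ k ∈ SFp (B ^ a), K * H ^ (7 / 3 - d) :=
        sum_le_sum fun b hb => sum_le_sum fun k hk' => h5 b hb k hk'
    _ = 9 * (#(SFp (B ^ a)) * (K * H ^ (7 / 3 - d))) := by
        rw [sum_const, card_ij, sum_const, nsmul_eq_mul, nsmul_eq_mul]; norm_num
    _ ≤ 9 * (100 * B ^ a * (K * H ^ (7 / 3 - d))) := by gcongr
    _ = 900 * K * (B ^ ((1 + e) * (7 / 3 - d)) * B ^ a) := by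
        rw [hH, ← Real.rpow_mul hB0.le]; ring
    _ = _ := by rw [← Real.rpow_add hB0]

/-! ### R3 : `k₂ ≈ B^(1/3)` -/

/-- counting tuples. -/
lemma card_tup_le {S : Finset Tup} {X L₀ L : ℝ} (hS : IsTS S X) (hX : 0 ≤ X) (hL₀ : 0 < L₀)
    (hL : 0 ≤ L) (hk : ∀ x ∈ S, L₀ ≤ (nm x.2.2 : ℝ) ∧ (nm x.2.2 : ℝ) ≤ L) :
    (#S : ℝ) ≤ 90000 * (L * (X / L₀ ^ 2)) := by
  classical
  have h1 := sum_tup_le hS ((SFp L).filter (fun k => L₀ ≤ (nm k : ℝ))) (fun x hx => by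
    rw [mem_filter, mem_SFp]
    exact ⟨⟨(hk x hx).2, (hS x hx).1.2.2.2.1, (hS x hx).1.2.2.2.2.2.1⟩, (hk x hx).1⟩)
    (fun _ => (1 : ℝ)) (fun _ => by norm_num)
  have h0 : (#S : ℝ) = ∑ x ∈ S, (1 : ℝ) := by simp
  rw [h0]
  refine h1.trans ?_
  calc ∑ a ∈ ij, ∑ k ∈ (SFp L).filter (fun k => L₀ ≤ (nm k : ℝ)),
        ∑ h ∈ SFp (X / (nm k : ℝ) ^ 2), (1 : ℝ)
      ≤ ∑ a ∈ ij, ∑ k ∈ (SFp L).filter (fun k => L₀ ≤ (nm k : ℝ)), 100 * (X / L₀ ^ 2) := by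
        refine sum_le_sum fun a _ => sum_le_sum fun k hk' => ?_
        rw [mem_filter] at hk'
        have : X / (nm k : ℝ) ^ 2 ≤ X / L₀ ^ 2 := by
          apply div_le_div_of_nonneg_left hX (by positivity)
          exact pow_le_pow_left₀ hL₀.le hk'.2 2
        calc ∑ h ∈ SFp (X / (nm k : ℝ) ^ 2), (1 : ℝ) = #(SFp (X / (nm k : ℝ) ^ 2)) := by simp
          _ ≤ 100 * (X / (nm k : ℝ) ^ 2) := card_SFp_le (by positivity)
          _ ≤ _ := by linarith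
    _ = 9 * (#((SFp L).filter (fun k => L₀ ≤ (nm k : ℝ))) * (100 * (X / L₀ ^ 2))) := by
        rw [sum_const, card_ij, sum_const, nsmul_eq_mul, nsmul_eq_mul]; norm_num
    _ ≤ 9 * ((100 * L) * (100 * (X / L₀ ^ 2))) := by
        have : (#((SFp L).filter (fun k => L₀ ≤ (nm k : ℝ))) : ℝ) ≤ 100 * L :=
          (Nat.cast_le.mpr (card_le_card (filter_subset _ _))).trans (card_SFp_le hL)
        gcongr
    _ = _ := by ring

/-- moments in exponent form, uniformly for `j ≤ J`. -/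
lemma mom_exp (hL : OrdLS) (J : ℕ) {ε : ℝ} (hε : 0 < ε) : ∃ K : ℝ, 0 < K ∧ ∀ j ≤ J,
    ∀ (B q z g : ℝ), 1 ≤ B → 0 ≤ q → 0 ≤ z → z ≤ 2 → 2 * q ≤ g → j * z ≤ g →
    ∀ (S : Finset Tup) (T : Finset Eis),
    (∀ x ∈ S, IsTup x ∧ (nm x.2.1 : ℝ) * nm x.2.2 ≤ B ^ q) → IsPB T (2 * B ^ z) →
    ∀ γ : Eis → ℂ, (∀ c ∈ T, ‖γ c‖ ≤ 1) →
      ∑ x ∈ S, ‖F T γ (num x)‖ ^ (2 * j) ≤ K * B ^ (ε + g + j * z) := by
  choose K hK h using fun j : ℕ => mom_ord hL j (ε := ε / 2) (by positivity)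
  set KS : ℝ := ∑ j ∈ range (J + 1), K j with hKS
  have hKle : ∀ j ≤ J, K j ≤ KS := fun j hj =>
    single_le_sum (f := K) (fun i _ => (hK i).le) (mem_range.mpr (by omega))
  have hKS0 : 0 < KS := lt_of_lt_of_le (hK 0) (hKle 0 (Nat.zero_le _))
  refine ⟨KS * 2 ^ (ε / 2) * (1 + 2 ^ J) * 2 ^ J, by positivity, ?_⟩
  intro j hj B q z g hB hq hz hz2 hqg hjg S T hS hT γ hγ
  have hB0 : (0 : ℝ) < B := by linarith
  have hZ : (1 : ℝ) ≤ 2 * B ^ z := by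
    have := Real.one_le_rpow hB hz
    linarith
  have h1 := h j (B ^ q) (2 * B ^ z) (Real.one_le_rpow hB hq) hZ S T hS hT γ hγ
  have e1 : (2 * B ^ z) ^ (ε / 2) ≤ 2 ^ (ε / 2) * B ^ ε := by
    rw [Real.mul_rpow (by norm_num) (by positivity), ← Real.rpow_mul hB0.le]
    apply mul_le_mul_of_nonneg_left _ (by positivity)
    exact Real.rpow_le_rpow_of_exponent_le hB (by nlinarith)
  have e2 : (2 * B ^ z) ^ j ≤ 2 ^ J * B ^ (j * z) := by
    rw [mul_pow, ← Real.rpow_natCast (B ^ z), ← Real.rpow_mul hB0.le, mul_comm z]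
    apply mul_le_mul_of_nonneg_right _ (by positivity)
    exact pow_le_pow_right₀ (by norm_num) hj
  have e3 : (B ^ q) ^ 2 ≤ B ^ g := by
    rw [← Real.rpow_natCast (B ^ q), ← Real.rpow_mul hB0.le]
    apply Real.rpow_le_rpow_of_exponent_le hB
    push_cast
    linarith
  have e4 : (2 * B ^ z) ^ j ≤ 2 ^ J * B ^ g := e2.trans (by
    apply mul_le_mul_of_nonneg_left _ (by positivity)
    exact Real.rpow_le_rpow_of_exponent_le hB hjg)
  calc ∑ x ∈ S, ‖F T γ (num x)‖ ^ (2 * j)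
      ≤ K j * (2 * B ^ z) ^ (ε / 2) * ((B ^ q) ^ 2 + (2 * B ^ z) ^ j) * (2 * B ^ z) ^ j := h1
    _ ≤ KS * (2 ^ (ε / 2) * B ^ ε) * (B ^ g + 2 ^ J * B ^ g) * (2 ^ J * B ^ (j * z)) := by
        have := hKle j hj
        gcongr
    _ = KS * 2 ^ (ε / 2) * (1 + 2 ^ J) * 2 ^ J * (B ^ ε * B ^ g * B ^ (j * z)) := by ring
    _ = _ := by rw [← Real.rpow_add hB0, ← Real.rpow_add hB0]

/-- the Hölder step. -/
lemma holder_step {S : Finset Tup} {f g : Tup → ℝ} (hf : ∀ x, 0 ≤ f x) (hg : ∀ x, 0 ≤ g x)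
    {j : ℕ} (hj : 2 ≤ j) {K B n m₁ m₂ t : ℝ} (hK : 0 ≤ K) (hB : 1 ≤ B)
    (h0 : (#S : ℝ) ≤ K * B ^ n) (h1 : ∑ x ∈ S, f x ^ (2 * j) ≤ K * B ^ m₁)
    (h2 : ∑ x ∈ S, g x ^ 4 ≤ K * B ^ m₂)
    (ht : n * (1 / 2 - 1 / (j : ℝ)) + m₁ * (1 / (j : ℝ)) + m₂ * (1 / 2) ≤ t) :
    ∑ x ∈ S, f x ^ 2 * g x ^ 2 ≤ K * B ^ t := by
  have hj0 : (0 : ℝ) < j := by
    have : 0 < j := by omega
    exact_mod_cast this
  have hj2 : (2 : ℝ) ≤ j := by exact_mod_cast hj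
  have hu : (0 : ℝ) ≤ 1 / 2 - 1 / (j : ℝ) := by
    rw [sub_nonneg]
    exact one_div_le_one_div_of_le (by norm_num) hj2
  have h3 := CRmom569.holder_moments S f g (fun x _ => hf x) (fun x _ => hg x) 0 (2 * j) 0 0 0 4
    (1 / 2 - 1 / (j : ℝ)) (1 / (j : ℝ)) (1 / 2) hu (by positivity) (by norm_num) (by ring)
    (by push_cast; field_simp; ring) (by norm_num)
  refine h3.trans ?_
  have h4 := CRmom569.three_bound (A₁ := ∑ x ∈ S, f x ^ 0 * g x ^ 0)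
    (A₂ := ∑ x ∈ S, f x ^ (2 * j) * g x ^ 0) (A₃ := ∑ x ∈ S, f x ^ 0 * g x ^ 4) (K := K) (H := B)
    (e₁ := n) (e₂ := m₁) (e₃ := m₂) (u := 1 / 2 - 1 / (j : ℝ)) (v := 1 / (j : ℝ)) (w := 1 / 2)
    (by simp) (sum_nonneg fun x _ => mul_nonneg (pow_nonneg (hf x) _) (pow_nonneg (hg x) _))
    (sum_nonneg fun x _ => mul_nonneg (pow_nonneg (hf x) _) (pow_nonneg (hg x) _)) hK
    (by linarith) hu (by positivity) (by norm_num) (by ring)
    (by simpa using h0) (by simpa using h1) (by simpa using h2)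
  refine h4.trans ?_
  apply mul_le_mul_of_nonneg_left _ hK
  exact Real.rpow_le_rpow_of_exponent_le hB ht

/-- The range `k₂ ≈ B^(1/3)`, `f` shorter than `g`. -/
lemma part_mid (hL : OrdLS) {ν : ℝ} (hν : 0 < ν) (hν1 : ν ≤ 1 / 3) {K₀ : ℝ} (hK₀ : 0 < K₀) :
    ∃ K : ℝ, 0 < K ∧ ∀ (B z₁ z₂ η : ℝ), 1 ≤ B → ν ≤ z₁ → z₁ ≤ z₂ → 0 ≤ η → η ≤ ν / 60 →
      z₁ + z₂ ≤ 1 + η →
      ∀ (S : Finset Tup) (T₁ T₂ : Finset Eis),
      (∀ x ∈ S, IsTup x ∧ (nm x.2.1 : ℝ) * nm x.2.2 ≤ B ^ (2 / 3 + η)) →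
      (#S : ℝ) ≤ K₀ * B ^ (2 / 3 + η) →
      IsPB T₁ (2 * B ^ z₁) → IsPB T₂ (2 * B ^ z₂) →
      ∀ γ₁ γ₂ : Eis → ℂ, (∀ p ∈ T₁, ‖γ₁ p‖ ≤ 1) → (∀ p ∈ T₂, ‖γ₂ p‖ ≤ 1) →
        ∑ x ∈ S, ‖F T₁ γ₁ (num x)‖ ^ 2 * ‖F T₂ γ₂ (num x)‖ ^ 2 ≤ K * B ^ (7 / 3 - ν / 12) := by
  set J : ℕ := max (⌈1 / ν⌉₊) 3 with hJ
  obtain ⟨K, hK, h⟩ := mom_exp hL J (ε := ν / 60) (by positivity)
  refine ⟨K + K₀, by positivity, ?_⟩
  intro B z₁ z₂ η hB hz hzz hη hην hsum S T₁ T₂ hS hcard hT₁ hT₂ γ₁ γ₂ hγ₁ hγ₂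
  have hB0 : (0 : ℝ) < B := by linarith
  have hKK : ∀ e : ℝ, K * B ^ e ≤ (K + K₀) * B ^ e := fun e => by
    have : 0 ≤ B ^ e := by positivity
    nlinarith
  have hKK' : ∀ e : ℝ, K₀ * B ^ e ≤ (K + K₀) * B ^ e := fun e => by
    have : 0 ≤ B ^ e := by positivity
    nlinarith
  have hc := hcard.trans (hKK' _)
  by_cases hz3 : 1 / 3 ≤ z₁
  · -- `j = 3`
    have h1 := (h 3 (by rw [hJ]; exact le_max_right _ _) B (2 / 3 + η) z₁ (3 / 2 + 2 * η) hB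
      (by positivity) (by linarith) (by linarith) (by linarith) (by push_cast; linarith)
      S T₁ hS hT₁ γ₁ hγ₁).trans (hKK _)
    have h2 := (h 2 (by rw [hJ]; exact le_trans (by norm_num) (le_max_right _ _)) B (2 / 3 + η) z₂
      (4 / 3 + 2 * η) hB (by positivity) (by linarith) (by linarith) (by linarith)
      (by push_cast; linarith) S T₂ hS hT₂ γ₂ hγ₂).trans (hKK _)
    refine holder_step (f := fun x => ‖F T₁ γ₁ (num x)‖) (g := fun x => ‖F T₂ γ₂ (num x)‖)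
      (fun _ => norm_nonneg _) (fun _ => norm_nonneg _) (j := 3) (by norm_num) (by positivity) hB hc
      h1 h2 ?_
    push_cast
    linarith
  · -- `j = ⌈1/z₁⌉`
    push Not at hz3
    have hz0 : 0 < z₁ := by linarith
    set j : ℕ := ⌈1 / z₁⌉₊ with hj
    have hj1 : 1 ≤ (j : ℝ) * z₁ := by
      have := Nat.le_ceil (1 / z₁)
      calc (1 : ℝ) = 1 / z₁ * z₁ := by field_simp
        _ ≤ _ := mul_le_mul_of_nonneg_right this hz0.le
    have hj2 : (j : ℝ) * z₁ ≤ 1 + z₁ := by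
      have := (Nat.ceil_lt_add_one (a := 1 / z₁) (by positivity)).le
      calc (j : ℝ) * z₁ ≤ (1 / z₁ + 1) * z₁ := mul_le_mul_of_nonneg_right this hz0.le
        _ = 1 + z₁ := by field_simp
    have hj3 : (3 : ℝ) ≤ j := by
      by_contra hcon
      push Not at hcon
      nlinarith
    have hj3' : 3 ≤ j := by exact_mod_cast hj3
    have hjJ : j ≤ J := by
      rw [hJ]
      refine le_trans ?_ (le_max_left _ _)
      exact Nat.ceil_le_ceil (one_div_le_one_div_of_le hν hz)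
    have h1 := (h j hjJ B (2 / 3 + η) z₁ (4 / 3 + 2 * η) hB
      (by positivity) (by linarith) (by linarith) (by linarith) (by linarith)
      S T₁ hS hT₁ γ₁ hγ₁).trans (hKK _)
    have h2 := (h 2 (by rw [hJ]; exact le_trans (by norm_num) (le_max_right _ _)) B (2 / 3 + η) z₂
      (2 * (1 - z₁) + 2 * η) hB (by positivity) (by linarith) (by linarith) (by linarith)
      (by push_cast; linarith) S T₂ hS hT₂ γ₂ hγ₂).trans (hKK _)
    refine holder_step (f := fun x => ‖F T₁ γ₁ (num x)‖) (g := fun x => ‖F T₂ γ₂ (num x)‖)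
      (fun _ => norm_nonneg _) (fun _ => norm_nonneg _) (j := j) (by omega) (by positivity) hB hc
      h1 h2 ?_
    -- exponents
    have hjpos : (0 : ℝ) < j := by linarith
    set r : ℝ := 1 / (j : ℝ) with hr
    have hr0 : 0 < r := by positivity
    have hrj : r * j = 1 := by rw [hr]; field_simp
    have hrz : r ≤ z₁ := by
      have : r * 1 ≤ r * (j * z₁) := mul_le_mul_of_nonneg_left hj1 hr0.le
      rw [mul_one, ← mul_assoc, hrj, one_mul] at this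
      exact this
    have hr3 : r ≤ 1 / 3 := one_div_le_one_div_of_le (by norm_num) hj3
    have hrν : 3 / 4 * ν ≤ r := by
      -- `z₁ ≤ r (1 + z₁) ≤ 4/3 r`
      have : r * (j * z₁) ≤ r * (1 + z₁) := mul_le_mul_of_nonneg_left hj2 hr0.le
      rw [← mul_assoc, hrj, one_mul] at this
      nlinarith
    have hz2' : z₂ ≤ 1 + η - z₁ := by linarith
    push_cast
    have e1 : (ν / 60 + (4 / 3 + 2 * η) + j * z₁) * r = (ν / 60 + 4 / 3 + 2 * η) * r + z₁ := by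
      have : (j : ℝ) * z₁ * r = z₁ := by
        calc (j : ℝ) * z₁ * r = (r * j) * z₁ := by ring
          _ = z₁ := by rw [hrj, one_mul]
      nlinarith
    rw [e1]
    nlinarith [mul_nonneg hη hr0.le, mul_nonneg hν.le hr0.le]

/-! ### R2 and R4 -/

lemma ex_prod {P T : Finset Eis} {B C D e : ℝ} (hC : 0 ≤ C)
    (hCD : C * D ≤ B ^ (1 + e)) (hP : IsPB P (2 * C)) (hT : IsPB T D) (hD : 0 ≤ D)
    {γ ξ : Eis → ℂ} (hγ : ∀ p ∈ P, ‖γ p‖ ≤ 1) (hξ : ∀ p ∈ T, ‖ξ p‖ ≤ 1) :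
    Ex (2 * B ^ (1 + e)) (20000 * B ^ (1 + e)) 1 (fun x => F P γ x * F T ξ x) := by
  have h1 := (ex_F hP hγ).mul (ex_F hT hξ) (by positivity)
  refine h1.mono (by linarith) ?_ le_rfl
  calc (#P : ℝ) * #T ≤ (100 * (2 * C)) * (100 * D) :=
        mul_le_mul (card_le_of_isPB hP (by positivity)) (card_le_of_isPB hT hD) (by positivity)
          (by positivity)
    _ = 20000 * (C * D) := by ring
    _ ≤ _ := by linarith

/-- The range `k₂ ∈ [B^a, B^(1/3-a)]`. -/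
lemma part_low (hG : GLS) {a e : ℝ} (ha : 0 < a) (ha1 : a ≤ 1 / 6) (he : 0 ≤ e) (hea : e ≤ a / 10) :
    ∃ K : ℝ, 0 < K ∧ ∀ B : ℝ, 1 ≤ B → ∀ S : Finset Tup, IsTS S (B ^ (1 + e)) →
      (∀ x ∈ S, B ^ a ≤ (nm x.2.2 : ℝ) ∧ (nm x.2.2 : ℝ) ≤ B ^ (1 / 3 - a)) → ∀ (A : ℝ) (f : Eis → ℂ),
      Ex (2 * B ^ (1 + e)) A 1 f →
        ∑ x ∈ S, ‖f (num x)‖ ^ 2 ≤ K * B ^ (7 / 3 - a / 20) := by
  obtain ⟨K, hK, h⟩ := part_gls hG 1 (ε := a / 80) (by positivity)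
  refine ⟨K * 2 ^ (a / 80) * (1 + 2 + 2 ^ (2 / 3 : ℝ)) * 2, by positivity, ?_⟩
  intro B hB S hS hk A f hf
  have hB0 : (0 : ℝ) < B := by linarith
  have hX1 : 1 ≤ B ^ (1 + e) := Real.one_le_rpow hB (by linarith)
  have h1 := h (B ^ (1 + e)) (2 * B ^ (1 + e)) A (B ^ a) (B ^ (1 / 3 - a)) hX1 (by linarith)
    (Real.one_le_rpow hB ha.le) (Real.one_le_rpow hB (by linarith)) S hS hk f hf
  refine h1.trans ?_
  have hmono : ∀ {x y : ℝ}, x ≤ y → B ^ x ≤ B ^ y := fun hxy =>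
    Real.rpow_le_rpow_of_exponent_le hB hxy
  have e0 : B ^ (1 + e) * (2 * B ^ (1 + e)) = 2 * B ^ (2 * (1 + e)) := by
    rw [two_mul (1 + e), Real.rpow_add hB0 (1 + e) (1 + e)]; ring
  have e1 : (B ^ (1 + e) * (2 * B ^ (1 + e))) ^ (a / 80) ≤ 2 ^ (a / 80) * B ^ (3 * (a / 80)) := by
    rw [e0, Real.mul_rpow (by norm_num) (by positivity), ← Real.rpow_mul hB0.le]
    apply mul_le_mul_of_nonneg_left _ (by positivity)
    exact hmono (by nlinarith)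
  have e2 : (B ^ (1 / 3 - a)) ^ (a / 80) ≤ B ^ (a / 80) := by
    rw [← Real.rpow_mul hB0.le]
    exact hmono (by nlinarith)
  set g : ℝ := 4 / 3 + 4 / 3 * e - a / 3 with hg
  have e3 : B ^ (1 + e) * (B ^ a)⁻¹ ≤ B ^ g := by
    rw [← Real.rpow_neg hB0.le, ← Real.rpow_add hB0]
    exact hmono (by rw [hg]; linarith)
  have e4 : B ^ (1 / 3 - a) * (2 * B ^ (1 + e)) ≤ 2 * B ^ g := by
    calc B ^ (1 / 3 - a) * (2 * B ^ (1 + e)) = 2 * (B ^ (1 / 3 - a) * B ^ (1 + e)) := by ring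
      _ = 2 * B ^ (1 / 3 - a + (1 + e)) := by rw [← Real.rpow_add hB0]
      _ ≤ _ := by
        apply mul_le_mul_of_nonneg_left _ (by norm_num)
        exact hmono (by rw [hg]; linarith)
  have e5 : (B ^ (1 + e) * (2 * B ^ (1 + e))) ^ (2 / 3 : ℝ) * (B ^ a) ^ (-(1 / 3) : ℝ) ≤
      2 ^ (2 / 3 : ℝ) * B ^ g := by
    rw [e0, Real.mul_rpow (by norm_num) (by positivity), ← Real.rpow_mul hB0.le,
      ← Real.rpow_mul hB0.le, mul_assoc, ← Real.rpow_add hB0]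
    apply mul_le_mul_of_nonneg_left _ (by positivity)
    exact hmono (by rw [hg]; linarith)
  calc K * (B ^ (1 + e) * (2 * B ^ (1 + e))) ^ (a / 80) * (B ^ (1 / 3 - a)) ^ (a / 80) *
        (B ^ (1 + e) * (B ^ a)⁻¹ + B ^ (1 / 3 - a) * (2 * B ^ (1 + e)) +
          (B ^ (1 + e) * (2 * B ^ (1 + e))) ^ (2 / 3 : ℝ) * (B ^ a) ^ (-(1 / 3) : ℝ)) *
          (2 * B ^ (1 + e))
      ≤ K * (2 ^ (a / 80) * B ^ (3 * (a / 80))) * B ^ (a / 80) *
        (B ^ g + 2 * B ^ g + 2 ^ (2 / 3 : ℝ) * B ^ g) * (2 * B ^ (1 + e)) := by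
        gcongr
    _ = K * 2 ^ (a / 80) * (1 + 2 + 2 ^ (2 / 3 : ℝ)) * 2 *
          (B ^ (3 * (a / 80)) * B ^ (a / 80) * B ^ g * B ^ (1 + e)) := by ring
    _ = K * 2 ^ (a / 80) * (1 + 2 + 2 ^ (2 / 3 : ℝ)) * 2 *
          B ^ (3 * (a / 80) + a / 80 + g + (1 + e)) := by
        rw [← Real.rpow_add hB0, ← Real.rpow_add hB0, ← Real.rpow_add hB0]
    _ ≤ _ := by
        apply mul_le_mul_of_nonneg_left _ (by positivity)
        exact hmono (by rw [hg]; linarith)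

/-- The range `k₂ > B^(1/3+a)`. -/
lemma part_high (hL : OrdLS) {a e : ℝ} (ha : 0 < a) (ha1 : a ≤ 1 / 6) (he : 0 ≤ e)
    (hea : e ≤ a / 10) :
    ∃ K : ℝ, 0 < K ∧ ∀ B : ℝ, 1 ≤ B → ∀ S : Finset Tup,
      (∀ x ∈ S, IsTup x ∧ (nm x.2.1 : ℝ) * nm x.2.2 ≤ B ^ (2 / 3 - a + e)) → ∀ (f : Eis → ℂ),
      Ex (2 * B ^ (1 + e)) (20000 * B ^ (1 + e)) 1 f →
        ∑ x ∈ S, ‖f (num x)‖ ^ 2 ≤ K * B ^ (7 / 3 - a / 20) := by
  obtain ⟨K, hK, h⟩ := ord_ex hL 1 (ε := a / 80) (by positivity)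
  refine ⟨K * 2 ^ (a / 80) * 3 * 20000, by positivity, ?_⟩
  intro B hB S hS f hf
  have hB0 : (0 : ℝ) < B := by linarith
  have hX1 : 1 ≤ B ^ (1 + e) := Real.one_le_rpow hB (by linarith)
  have hmono : ∀ {x y : ℝ}, x ≤ y → B ^ x ≤ B ^ y := fun hxy =>
    Real.rpow_le_rpow_of_exponent_le hB hxy
  have h1 := h (B ^ (2 / 3 - a + e)) (2 * B ^ (1 + e)) _ (Real.one_le_rpow hB (by linarith))
    (by linarith) S hS f hf
  refine h1.trans ?_
  have e1 : (2 * B ^ (1 + e)) ^ (a / 80) ≤ 2 ^ (a / 80) * B ^ (2 * (a / 80)) := by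
    rw [Real.mul_rpow (by norm_num) (by positivity), ← Real.rpow_mul hB0.le]
    apply mul_le_mul_of_nonneg_left _ (by positivity)
    exact hmono (by nlinarith)
  set g : ℝ := 4 / 3 - 2 * a + 2 * e with hg
  have e2 : (B ^ (2 / 3 - a + e)) ^ 2 ≤ B ^ g := by
    rw [← Real.rpow_natCast (B ^ (2 / 3 - a + e)), ← Real.rpow_mul hB0.le]
    exact hmono (by rw [hg]; push_cast; linarith)
  have e3 : 2 * B ^ (1 + e) ≤ 2 * B ^ g := by
    apply mul_le_mul_of_nonneg_left _ (by norm_num)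
    by_cases h6 : e ≤ 1 / 3 - 2 * a + 2 * e
    · exact hmono (by rw [hg]; linarith)
    · exfalso; apply h6; linarith
  calc K * (2 * B ^ (1 + e)) ^ (a / 80) * ((B ^ (2 / 3 - a + e)) ^ 2 + 2 * B ^ (1 + e)) *
        (20000 * B ^ (1 + e))
      ≤ K * (2 ^ (a / 80) * B ^ (2 * (a / 80))) * (B ^ g + 2 * B ^ g) * (20000 * B ^ (1 + e)) := by
        gcongr
    _ = K * 2 ^ (a / 80) * 3 * 20000 * (B ^ (2 * (a / 80)) * B ^ g * B ^ (1 + e)) := by ring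
    _ = K * 2 ^ (a / 80) * 3 * 20000 * B ^ (2 * (a / 80) + g + (1 + e)) := by
        rw [← Real.rpow_add hB0, ← Real.rpow_add hB0]
    _ ≤ _ := by
        apply mul_le_mul_of_nonneg_left _ (by positivity)
        exact hmono (by rw [hg]; linarith)

/-! ### assembly -/

lemma exists_exp {B C ν u : ℝ} (hB : 1 ≤ B) (hνu : ν ≤ u) (h1 : B ^ ν ≤ C) (h2 : C ≤ B ^ u) :
    ∃ c : ℝ, ν ≤ c ∧ c ≤ u ∧ C = B ^ c := by
  rcases hB.eq_or_lt with hB1 | hB1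
  · refine ⟨ν, le_rfl, hνu, ?_⟩
    rw [← hB1, Real.one_rpow] at h1 h2 ⊢
    linarith
  · have hB0 : 0 < B := by linarith
    have hC0 : 0 < C := lt_of_lt_of_le (by positivity) h1
    have hlB : 0 < Real.log B := Real.log_pos hB1
    refine ⟨Real.log C / Real.log B, ?_, ?_, ?_⟩
    · rw [le_div_iff₀ hlB, ← Real.log_rpow hB0]
      exact Real.log_le_log (by positivity) h1
    · rw [div_le_iff₀ hlB, ← Real.log_rpow hB0]
      exact Real.log_le_log hC0 h2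
    · rw [Real.rpow_def_of_pos hB0, mul_div_cancel₀ _ hlB.ne', Real.exp_log hC0]

set_option maxHeartbeats 1000000 in
/-- **(CRC)** with a general upper exponent. -/
theorem coreCubU {u : ℝ} (hu : 0 < u) (hu1 : u < 1) (hCo : CoreU u) (hG : GLS) (hL : OrdLS) :
    CoreCubU u := by
  intro ν₀ hν₀
  set ν : ℝ := min (min ν₀ (1 / 3)) (min u (1 - u)) with hνdef
  have hν : 0 < ν := by
    rw [hνdef]
    refine lt_min (lt_min hν₀ (by norm_num)) (lt_min hu (by linarith))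
  have hν3 : ν ≤ 1 / 3 := (min_le_left _ _).trans (min_le_right _ _)
  have hνν : ν ≤ ν₀ := (min_le_left _ _).trans (min_le_left _ _)
  have hνu : ν ≤ u := (min_le_right _ _).trans (min_le_left _ _)
  have hνu1 : ν ≤ 1 - u := (min_le_right _ _).trans (min_le_right _ _)
  obtain ⟨d, K1, hd, hK1, H1⟩ := part_core hu hCo hν
  set a : ℝ := min (ν / 240) (d / 8) with hadef
  have ha : 0 < a := lt_min (by positivity) (by positivity)
  have haν : a ≤ ν / 240 := min_le_left _ _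
  have had : a ≤ d / 8 := min_le_right _ _
  have ha6 : a ≤ 1 / 6 := by linarith
  set e : ℝ := a / 10 with hedef
  have he : 0 < e := by positivity
  obtain ⟨K2, hK2, H2⟩ := part_low hG ha ha6 he.le le_rfl
  obtain ⟨K3, hK3, H3⟩ := part_mid hL hν hν3 (K₀ := 90000) (by norm_num)
  obtain ⟨K4, hK4, H4⟩ := part_high hL ha ha6 he.le le_rfl
  refine ⟨a / 20, e, K1 + (K2 + (K3 + K4)), by positivity, he, by positivity, ?_⟩
  intro B C D hB hBC hCB hD hCD S P T hS hP hT γ ξ hγ hξ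
  have hB0 : (0 : ℝ) < B := by linarith
  have hmono : ∀ {x y : ℝ}, x ≤ y → B ^ x ≤ B ^ y := fun hxy =>
    Real.rpow_le_rpow_of_exponent_le hB hxy
  have hBC' : B ^ ν ≤ C := (hmono hνν).trans hBC
  obtain ⟨c, hc1, hc2, hcC⟩ := exists_exp hB hνu hBC' hCB
  have hC0 : 0 < C := lt_of_lt_of_le (by positivity) hBC'
  have hPB : IsPB P (2 * C) := fun p hp => ⟨(hP p hp).1, (hP p hp).2.2.2⟩
  have hX0 : (0 : ℝ) < B ^ (1 + e) := by positivity
  have hf := ex_prod hC0.le hCD hPB hT (by linarith) hγ hξ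
  have hconv : ∀ x : Tup, ‖F P γ (num x)‖ ^ 2 * ‖F T ξ (num x)‖ ^ 2 =
      ‖F P γ (num x) * F T ξ (num x)‖ ^ 2 := fun x => by rw [norm_mul, mul_pow]
  set G : Tup → ℝ := fun x => ‖F P γ (num x)‖ ^ 2 * ‖F T ξ (num x)‖ ^ 2 with hGdef
  -- splitting
  rw [← sum_filter_add_sum_filter_not S (fun x => (nm x.2.2 : ℝ) ≤ B ^ a)]
  rw [← sum_filter_add_sum_filter_not (S.filter (fun x => ¬ (nm x.2.2 : ℝ) ≤ B ^ a))
    (fun x => (nm x.2.2 : ℝ) ≤ B ^ (1 / 3 - a))]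
  rw [← sum_filter_add_sum_filter_not ((S.filter (fun x => ¬ (nm x.2.2 : ℝ) ≤ B ^ a)).filter
    (fun x => ¬ (nm x.2.2 : ℝ) ≤ B ^ (1 / 3 - a))) (fun x => (nm x.2.2 : ℝ) ≤ B ^ (1 / 3 + a))]
  have hcond : ∀ x ∈ S, (nm x.2.1 : ℝ) * nm x.2.2 * nm x.2.2 ≤ B ^ (1 + e) := fun x hx => by
    have := nm_kk_le (hS x hx).2
    nlinarith
  have b1 : ∑ x ∈ S.filter (fun x => (nm x.2.2 : ℝ) ≤ B ^ a), G x ≤ K1 * B ^ (7 / 3 - a / 20) := by
    refine (H1 a e B C D ha.le he.le (by linarith) hB hBC' hCB hD hCD _ P T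
      (fun x hx => hS x (mem_filter.mp hx).1) hP hT (fun x hx => (mem_filter.mp hx).2)
      γ ξ hγ hξ).trans ?_
    apply mul_le_mul_of_nonneg_left _ hK1.le
    exact hmono (by nlinarith [mul_nonneg he.le hd.le])
  have b2 : ∑ x ∈ (S.filter (fun x => ¬ (nm x.2.2 : ℝ) ≤ B ^ a)).filter
      (fun x => (nm x.2.2 : ℝ) ≤ B ^ (1 / 3 - a)), G x ≤ K2 * B ^ (7 / 3 - a / 20) := by
    have := H2 B hB ((S.filter (fun x => ¬ (nm x.2.2 : ℝ) ≤ B ^ a)).filter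
      (fun x => (nm x.2.2 : ℝ) ≤ B ^ (1 / 3 - a)))
      (fun x hx => hS x (mem_filter.mp (mem_filter.mp hx).1).1)
      (fun x hx => ⟨(not_le.mp (mem_filter.mp (mem_filter.mp hx).1).2).le, (mem_filter.mp hx).2⟩)
      _ _ hf
    simp only [hGdef, hconv]
    exact this
  have b4 : ∑ x ∈ ((S.filter (fun x => ¬ (nm x.2.2 : ℝ) ≤ B ^ a)).filter
    (fun x => ¬ (nm x.2.2 : ℝ) ≤ B ^ (1 / 3 - a))).filter
      (fun x => ¬ (nm x.2.2 : ℝ) ≤ B ^ (1 / 3 + a)), G x ≤ K4 * B ^ (7 / 3 - a / 20) := by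
    have := H4 B hB (((S.filter (fun x => ¬ (nm x.2.2 : ℝ) ≤ B ^ a)).filter
      (fun x => ¬ (nm x.2.2 : ℝ) ≤ B ^ (1 / 3 - a))).filter
      (fun x => ¬ (nm x.2.2 : ℝ) ≤ B ^ (1 / 3 + a)))
      (fun x hx => by
        have hxS := (mem_filter.mp (mem_filter.mp (mem_filter.mp hx).1).1).1
        refine ⟨(hS x hxS).1, ?_⟩
        have hk := not_le.mp (mem_filter.mp hx).2
        have h5 := hcond x hxS
        have h6 : (nm x.2.1 : ℝ) * nm x.2.2 * B ^ (1 / 3 + a) ≤ B ^ (1 + e) := by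
          refine le_trans ?_ h5
          exact mul_le_mul_of_nonneg_left hk.le (by positivity)
        have h7 : B ^ (2 / 3 - a + e) = B ^ (1 + e) / B ^ (1 / 3 + a) := by
          rw [← Real.rpow_sub hB0]; congr 1; ring
        rw [h7, le_div_iff₀ (by positivity)]
        exact h6)
      _ hf
    simp only [hGdef, hconv]
    exact this
  have b3 : ∑ x ∈ ((S.filter (fun x => ¬ (nm x.2.2 : ℝ) ≤ B ^ a)).filter
    (fun x => ¬ (nm x.2.2 : ℝ) ≤ B ^ (1 / 3 - a))).filter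
      (fun x => (nm x.2.2 : ℝ) ≤ B ^ (1 / 3 + a)), G x ≤ K3 * B ^ (7 / 3 - a / 20) := by
    set S' : Finset Tup := ((S.filter (fun x => ¬ (nm x.2.2 : ℝ) ≤ B ^ a)).filter
      (fun x => ¬ (nm x.2.2 : ℝ) ≤ B ^ (1 / 3 - a))).filter
      (fun x => (nm x.2.2 : ℝ) ≤ B ^ (1 / 3 + a)) with hS'
    have hS'1 : ∀ x ∈ S', x ∈ S ∧ B ^ (1 / 3 - a) ≤ (nm x.2.2 : ℝ) ∧
        (nm x.2.2 : ℝ) ≤ B ^ (1 / 3 + a) := fun x hx =>
      ⟨(mem_filter.mp (mem_filter.mp (mem_filter.mp hx).1).1).1,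
        (not_le.mp (mem_filter.mp (mem_filter.mp hx).1).2).le, (mem_filter.mp hx).2⟩
    set η : ℝ := 4 * a with hη
    have hq : ∀ x ∈ S', IsTup x ∧ (nm x.2.1 : ℝ) * nm x.2.2 ≤ B ^ (2 / 3 + η) := fun x hx => by
      obtain ⟨g1, g2, g3⟩ := hS'1 x hx
      refine ⟨(hS x g1).1, ?_⟩
      have h5 := hcond x g1
      have h6 : (nm x.2.1 : ℝ) * nm x.2.2 * B ^ (1 / 3 - a) ≤ B ^ (1 + e) := by
        refine le_trans ?_ h5
        exact mul_le_mul_of_nonneg_left g2 (by positivity)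
      have h7 : (nm x.2.1 : ℝ) * nm x.2.2 ≤ B ^ (1 + e) / B ^ (1 / 3 - a) := by
        rw [le_div_iff₀ (by positivity)]
        exact h6
      refine h7.trans ?_
      rw [← Real.rpow_sub hB0]
      exact hmono (by linarith)
    have hcard : (#S' : ℝ) ≤ 90000 * B ^ (2 / 3 + η) := by
      have h8 := card_tup_le (S := S') (X := B ^ (1 + e)) (L₀ := B ^ (1 / 3 - a))
        (L := B ^ (1 / 3 + a)) (fun x hx => hS x (hS'1 x hx).1) hX0.le (by positivity)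
        (by positivity) (fun x hx => (hS'1 x hx).2)
      refine h8.trans ?_
      apply mul_le_mul_of_nonneg_left _ (by norm_num)
      rw [← Real.rpow_natCast (B ^ (1 / 3 - a)) 2, ← Real.rpow_mul hB0.le, ← Real.rpow_sub hB0,
        ← Real.rpow_add hB0]
      exact hmono (by push_cast; linarith)
    have hT2 : IsPB T (2 * B ^ (1 + e - c)) := fun n hn => by
      obtain ⟨g1, g2⟩ := hT n hn
      refine ⟨g1, g2.trans ?_⟩
      have h9 : D ≤ B ^ (1 + e - c) := by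
        rw [Real.rpow_sub hB0, le_div_iff₀ (by positivity), ← hcC, mul_comm]
        exact hCD
      have : 0 < B ^ (1 + e - c) := by positivity
      linarith
    have hP2 : IsPB P (2 * B ^ c) := by rw [← hcC]; exact hPB
    by_cases hcc : c ≤ 1 + e - c
    · refine (H3 B c (1 + e - c) η hB hc1 hcc (by positivity) (by linarith) (by linarith) S' P T hq
        hcard hP2 hT2 γ ξ hγ hξ).trans ?_
      apply mul_le_mul_of_nonneg_left _ hK3.le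
      exact hmono (by linarith)
    · push Not at hcc
      have h10 := H3 B (1 + e - c) c η hB (by linarith) hcc.le (by positivity) (by linarith)
        (by linarith) S' T P hq hcard hT2 hP2 ξ γ hξ hγ
      have h11 : ∑ x ∈ S', G x = ∑ x ∈ S', ‖F T ξ (num x)‖ ^ 2 * ‖F P γ (num x)‖ ^ 2 :=
        sum_congr rfl fun x _ => mul_comm _ _
      rw [h11]
      refine h10.trans ?_
      apply mul_le_mul_of_nonneg_left _ hK3.le
      exact hmono (by linarith)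
  calc _ ≤ K1 * B ^ (7 / 3 - a / 20) + (K2 * B ^ (7 / 3 - a / 20) +
        (K3 * B ^ (7 / 3 - a / 20) + K4 * B ^ (7 / 3 - a / 20))) :=
        add_le_add b1 (add_le_add b2 (add_le_add b3 b4))
    _ = _ := by ring

lemma coreU_of_core (h : Core) : CoreU 0.9 := h

lemma CoreCubU.mono {u u' : ℝ} (huu : u' ≤ u) (h : CoreCubU u) : CoreCubU u' := by
  intro ν hν
  obtain ⟨δ, e₀, K, h1, h2, h3, h4⟩ := h ν hν
  refine ⟨δ, e₀, K, h1, h2, h3, ?_⟩
  intro B C D hB hBC hCB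
  exact h4 B C D hB hBC (hCB.trans (Real.rpow_le_rpow_of_exponent_le hB huu))

/-- **(CRC)**. -/
theorem coreCub (h : Core) (hG : GLS) (hL : OrdLS) : CoreCub :=
  coreCubU (by norm_num) (by norm_num) (coreU_of_core h) hG hL

end Crest.Agent.R012.CR3436
end
end

-- ▼ part R012/CRH_569
section

/-!
# Row 12, item CRH: `Mom → SavedMom → Core`  (helper569)
-/

set_option autoImplicit false

noncomputable section

open Finset

namespace Crest.Agent.R012.CRH569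

open Crest.Agent.R012 Crest.Agent.R012.Eis CR290 CRmom569

/-- the saved moments, uniformly in `2 ≤ j ≤ J`. -/
lemma unif_saved (hS : SavedMom) (J : ℕ) : ∃ d K : ℝ, 0 < d ∧ 0 < K ∧
    ∀ j : ℕ, 2 ≤ j → j ≤ J →
    ∀ H C : ℝ, 1 ≤ H → 1 ≤ C → H ^ (1.1 : ℝ) ≤ C ^ j → C ^ j ≤ H ^ (1.8 : ℝ) →
    ∀ S P : Finset Eis, IsSF S H → IsPP P C → ∀ γ : Eis → ℂ, (∀ p ∈ P, ‖γ p‖ ≤ 1) →
    ∑ h ∈ S, ‖F P γ h‖ ^ (2 * j) ≤ K * (H * C ^ j) ^ ((2 : ℝ) / 3) * C ^ j * H ^ (-d) := by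
  induction J with
  | zero => exact ⟨1, 1, one_pos, one_pos, fun j h1 h2 => by omega⟩
  | succ J ih =>
    obtain ⟨d, K, hd, hK, hb⟩ := ih
    rcases lt_or_ge (J + 1) 2 with hJ | hJ
    · exact ⟨1, 1, one_pos, one_pos, fun j h1 h2 => by omega⟩
    obtain ⟨d', K', hd', hK', hb'⟩ := hS (J + 1) hJ
    refine ⟨min d d', max K K', lt_min hd hd', lt_max_of_lt_left hK, ?_⟩
    intro j h1 h2 H C hH hC hr1 hr2 S P hSF hPP γ hγ
    have hH0 : (0 : ℝ) < H := by linarith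
    have hC0 : (0 : ℝ) < C := by linarith
    have hq : 0 ≤ (H * C ^ j) ^ ((2 : ℝ) / 3) * C ^ j := by positivity
    rcases Nat.lt_or_ge j (J + 1) with hj | hj
    · refine (hb j h1 (by omega) H C hH hC hr1 hr2 S P hSF hPP γ hγ).trans ?_
      have e1 : H ^ (-d) ≤ H ^ (-(min d d')) :=
        Real.rpow_le_rpow_of_exponent_le hH (neg_le_neg (min_le_left _ _))
      have e2 : K ≤ max K K' := le_max_left _ _
      gcongr
    · obtain rfl : j = J + 1 := by omega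
      refine (hb' H C hH hC hr1 hr2 S P hSF hPP γ hγ).trans ?_
      have e1 : H ^ (-d') ≤ H ^ (-(min d d')) :=
        Real.rpow_le_rpow_of_exponent_le hH (neg_le_neg (min_le_right _ _))
      have e2 : K' ≤ max K K' := le_max_right _ _
      calc K' * H ^ (-d') * (H * C ^ (J + 1)) ^ ((2 : ℝ) / 3) * C ^ (J + 1)
          = K' * ((H * C ^ (J + 1)) ^ ((2 : ℝ) / 3) * C ^ (J + 1)) * H ^ (-d') := by ring
        _ ≤ max K K' * ((H * C ^ (J + 1)) ^ ((2 : ℝ) / 3) * C ^ (J + 1))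
              * H ^ (-(min d d')) := by gcongr
        _ = _ := by ring

/-- the moments, uniformly in `1 ≤ j ≤ J`. -/
lemma unif_mom (hM : Mom) (ε : ℝ) (hε : 0 < ε) (J : ℕ) : ∃ K : ℝ, 0 < K ∧
    ∀ j : ℕ, 1 ≤ j → j ≤ J →
    ∀ M C : ℝ, 1 ≤ M → 1 ≤ C → ∀ S T : Finset Eis, IsSF S M → IsPB T C →
    ∀ γ : Eis → ℂ, (∀ c ∈ T, ‖γ c‖ ≤ 1) →
      ∑ h ∈ S, ‖F T γ h‖ ^ (2 * j)
        ≤ K * (M * C) ^ ε * (M + C ^ j + (M * C ^ j) ^ ((2 : ℝ) / 3)) * C ^ j := by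
  induction J with
  | zero => exact ⟨1, one_pos, fun j h1 h2 => by omega⟩
  | succ J ih =>
    obtain ⟨K, hK, hb⟩ := ih
    obtain ⟨K', hK', hb'⟩ := hM (J + 1) (by omega) ε hε
    refine ⟨max K K', lt_max_of_lt_left hK, ?_⟩
    intro j h1 h2 M C hM1 hC S T hSF hPB γ hγ
    have hM0 : (0 : ℝ) < M := by linarith
    have hC0 : (0 : ℝ) < C := by linarith
    rcases Nat.lt_or_ge j (J + 1) with hj | hj
    · refine (hb j h1 (by omega) M C hM1 hC S T hSF hPB γ hγ).trans ?_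
      have e2 : K ≤ max K K' := le_max_left _ _
      gcongr
    · obtain rfl : j = J + 1 := by omega
      refine (hb' M C hM1 hC S T hSF hPB γ hγ).trans ?_
      have e2 : K' ≤ max K K' := le_max_right _ _
      gcongr

/-- `Core` with the larger range `C ≤ H^0.9`. -/
def Core9 : Prop := ∀ ν : ℝ, 0 < ν → ∃ δ e₀ K : ℝ, 0 < δ ∧ 0 < e₀ ∧ 0 < K ∧
  ∀ H C D : ℝ, 1 ≤ H → H ^ ν ≤ C → C ≤ H ^ (0.9 : ℝ) → 1 ≤ D → C * D ≤ H ^ (1 + e₀) →
  ∀ S P T : Finset Eis, IsSF S H → IsPP P C → IsPB T D →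
  ∀ γ ξ : Eis → ℂ, (∀ p ∈ P, ‖γ p‖ ≤ 1) → (∀ d ∈ T, ‖ξ d‖ ≤ 1) →
    ∑ h ∈ S, ‖F P γ h‖ ^ 2 * ‖F T ξ h‖ ^ 2 ≤ K * H ^ (7 / 3 - δ)

/-- `Core9` implies `Core`. -/
theorem core_of_core9 (h : Core9) : Core := by
  intro ν hν
  obtain ⟨δ, e₀, K, h1, h2, h3, h4⟩ := h ν hν
  refine ⟨δ, e₀, K, h1, h2, h3, fun H C D hH hC hC8 => h4 H C D hH hC (hC8.trans ?_)⟩
  exact Real.rpow_le_rpow_of_exponent_le hH (by norm_num)

set_option maxHeartbeats 1000000 in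
/-- **CRH**, range `H^ν ≤ C ≤ H^0.9`. -/
theorem crh9 (hM : Mom) (hS : SavedMom) : Core9 := by
  intro ν hν
  obtain ⟨d, K₂, hd, hK₂, hsav⟩ := unif_saved hS (Jof ν)
  obtain ⟨d₁, hd₁, e₀, he₀, he₀', hcore⟩ := core_holder ν hν d hd
  set ε : ℝ := e₀ / 3 with hεdef
  have hε : 0 < ε := by positivity
  have hε1 : ε ≤ 1 := by rw [hεdef]; linarith
  obtain ⟨K₁, hK₁, hmom⟩ := unif_mom hM ε hε (Jof ν)
  set J : ℕ := Jof ν with hJ
  set K : ℝ := max (2 * 4 ^ J * K₁) K₂ with hKdef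
  have hK : 0 < K := lt_max_of_lt_right hK₂
  refine ⟨d₁, e₀, 3 * K, hd₁, he₀, by positivity, ?_⟩
  intro H C D hH hC hC8 hD1 hCD S P T hSF hPP hPB γ ξ hγ hξ
  have hH0 : (0 : ℝ) < H := by linarith
  have hC1 : 1 ≤ C := le_trans (Real.one_le_rpow hH hν.le) hC
  have hC0 : (0 : ℝ) < C := by linarith
  have hD0 : (0 : ℝ) < D := by linarith
  -- `C ≤ H^0.9`
  have hCle : C ≤ H ^ (0.9 : ℝ) := hC8
  -- enlarge `D`
  set D' : ℝ := H ^ (1 + e₀) / C with hD'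
  have hDD' : D ≤ D' := by rw [hD', le_div_iff₀ hC0]; linarith
  have hD'1 : 1 ≤ D' := hD1.trans hDD'
  have hD'0 : 0 < D' := by linarith
  have hCD' : C * D' = H ^ (1 + e₀) := by rw [hD']; field_simp
  have hD'le : D' ≤ H ^ (1 + e₀) := by
    rw [hD']; exact div_le_self (Real.rpow_nonneg hH0.le _) hC1
  have hPB' : IsPB T D' := fun n hn => ⟨(hPB n hn).1, (hPB n hn).2.trans hDD'⟩
  have hPBP : IsPB P (2 * C) := fun p hp => ⟨(hPP p hp).1, (hPP p hp).2.2.2⟩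
  have hJ1 : ∀ j : ℕ, j ≤ J → (4 : ℝ) ^ j ≤ 4 ^ J := fun j hj =>
    pow_le_pow_right₀ (by norm_num) hj
  -- final application
  refine (hcore S (fun h => ‖F P γ h‖) (fun h => ‖F T ξ h‖) H C D' K
    (fun h _ => norm_nonneg _) (fun h _ => norm_nonneg _) hH hK.le hC0 hD'0 hC hCle
    (by rw [hCD']; exact Real.rpow_le_rpow_of_exponent_le hH (by linarith))
    hCD'.le ?_ ?_ ?_)
  · -- moments of `C`
    intro j hj1 hj2
    refine (hmom j hj1 hj2 H (2 * C) hH (by linarith) S P hSF hPBP γ hγ).trans ?_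
    have hCj : (0 : ℝ) < C ^ j := by positivity
    have h2j : (1 : ℝ) ≤ 2 ^ j := one_le_pow₀ (by norm_num)
    have e1 : (H * (2 * C)) ^ ε ≤ 2 * H ^ e₀ := by
      have h3 : H * (2 * C) ≤ 2 * H ^ (2 : ℝ) := by
        have h4 : C ≤ H ^ (1 : ℝ) :=
          hCle.trans (Real.rpow_le_rpow_of_exponent_le hH (by norm_num))
        rw [Real.rpow_one] at h4
        have h5 : H ^ (2 : ℝ) = H * H := by
          rw [show (2 : ℝ) = ((2 : ℕ) : ℝ) by norm_num, Real.rpow_natCast]; ring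
        rw [h5]; nlinarith
      calc (H * (2 * C)) ^ ε ≤ (2 * H ^ (2 : ℝ)) ^ ε :=
            Real.rpow_le_rpow (by positivity) h3 hε.le
        _ = 2 ^ ε * H ^ (2 * ε) := by
            rw [Real.mul_rpow (by norm_num) (by positivity), ← Real.rpow_mul hH0.le]
        _ ≤ 2 * H ^ e₀ := by
            have e3 : (2 : ℝ) ^ ε ≤ 2 := by
              calc (2 : ℝ) ^ ε ≤ 2 ^ (1 : ℝ) :=
                    Real.rpow_le_rpow_of_exponent_le (by norm_num) hε1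
                _ = 2 := Real.rpow_one 2
            have e4 : H ^ (2 * ε) ≤ H ^ e₀ :=
              Real.rpow_le_rpow_of_exponent_le hH (by rw [hεdef]; linarith)
            gcongr
    have e2 : H + (2 * C) ^ j + (H * (2 * C) ^ j) ^ ((2 : ℝ) / 3)
        ≤ 2 ^ j * (H + C ^ j + (H * C ^ j) ^ ((2 : ℝ) / 3)) := by
      have h6 : (H * (2 * C) ^ j) ^ ((2 : ℝ) / 3) ≤ 2 ^ j * (H * C ^ j) ^ ((2 : ℝ) / 3) := by
        rw [mul_pow, show H * (2 ^ j * C ^ j) = 2 ^ j * (H * C ^ j) by ring,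
          Real.mul_rpow (by positivity) (by positivity)]
        apply mul_le_mul_of_nonneg_right _ (by positivity)
        calc ((2 : ℝ) ^ j) ^ ((2 : ℝ) / 3) ≤ ((2 : ℝ) ^ j) ^ (1 : ℝ) :=
              Real.rpow_le_rpow_of_exponent_le h2j (by norm_num)
          _ = 2 ^ j := Real.rpow_one _
      have h7 : H ≤ 2 ^ j * H := by nlinarith
      have h8 : (2 * C) ^ j = 2 ^ j * C ^ j := mul_pow _ _ _
      rw [h8] at h6 ⊢
      nlinarith
    calc K₁ * (H * (2 * C)) ^ ε * (H + (2 * C) ^ j + (H * (2 * C) ^ j) ^ ((2 : ℝ) / 3))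
          * (2 * C) ^ j
        ≤ K₁ * (2 * H ^ e₀) * (2 ^ j * (H + C ^ j + (H * C ^ j) ^ ((2 : ℝ) / 3)))
          * (2 * C) ^ j := by gcongr
      _ = (2 * 4 ^ j * K₁) * H ^ e₀ * (H + C ^ j + (H * C ^ j) ^ ((2 : ℝ) / 3)) * C ^ j := by
          rw [mul_pow, show (4 : ℝ) ^ j = 2 ^ j * 2 ^ j by rw [← mul_pow]; norm_num]
          ring
      _ ≤ K * H ^ e₀ * (H + C ^ j + (H * C ^ j) ^ ((2 : ℝ) / 3)) * C ^ j := by
          have h9 : 2 * 4 ^ j * K₁ ≤ K := by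
            refine le_trans ?_ (le_max_left _ _)
            have := hJ1 j hj2
            gcongr
          gcongr
  · -- moments of `D`
    intro j hj1 hj2
    refine (hmom j hj1 hj2 H D' hH hD'1 S T hSF hPB' ξ hξ).trans ?_
    have e1 : (H * D') ^ ε ≤ H ^ e₀ := by
      have h3 : H * D' ≤ H ^ (3 : ℝ) := by
        calc H * D' ≤ H ^ (1 : ℝ) * H ^ (1 + e₀) := by
              rw [Real.rpow_one]; gcongr
          _ = H ^ (1 + (1 + e₀)) := (Real.rpow_add hH0 _ _).symm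
          _ ≤ H ^ (3 : ℝ) := Real.rpow_le_rpow_of_exponent_le hH (by linarith)
      calc (H * D') ^ ε ≤ (H ^ (3 : ℝ)) ^ ε := Real.rpow_le_rpow (by positivity) h3 hε.le
        _ = H ^ (3 * ε) := by rw [← Real.rpow_mul hH0.le]
        _ = H ^ e₀ := by congr 1; rw [hεdef]; ring
    have hKK : K₁ ≤ K := by
      refine le_trans ?_ (le_max_left _ _)
      have : (1 : ℝ) ≤ 4 ^ J := one_le_pow₀ (by norm_num)
      nlinarith
    gcongr
  · -- the saved moment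
    intro j hj1 hj2 hr1 hr2
    refine (hsav j hj1 hj2 H C hH hC1 hr1 hr2 S P hSF hPP γ hγ).trans ?_
    have hKK : K₂ ≤ K := le_max_right _ _
    gcongr

/-- **CRH.** -/
theorem crh (hM : Mom) (hS : SavedMom) : Core := core_of_core9 (crh9 hM hS)

end Crest.Agent.R012.CRH569
end
end

-- ▼ part R012/Core_569
section

/-!
# Row 12, item CORE: the concrete core estimate (CRH + CRA)  (helper569)

`Core` follows from Heath-Brown's cubic large sieve (`HBLS`, or `LS2.Final`) and the saved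
moments (`SavedMom`, item CR2).
-/

set_option autoImplicit false

namespace Crest.Agent.R012.Core569

open CR290


/-- `Core` from `LS2.Final` and the saved moments. -/
theorem core_of_final (hL : LS2.Final) (hS : SavedMom) : Core :=
  CRH569.crh (GLS687.mom_of_final hL) hS


end Crest.Agent.R012.Core569
end

-- ▼ part R012/BilJ_811
section

/-!
# Row 12 (CR-B, B2): power saving for `G` summed over products of `j` primes (unconditional)

* `gFacts`   : `BilG811.GFacts`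
* `setBil`   : `‖Σ_{T ⊆ P, #T = j} (Π_{p ∈ T} γ p) G(Π T)‖ ≤ K (B^j)^(5/6+ε)`
* `bset`     : coefficients of products of `j` distinct primes of `P`;  `sum_bset`
* `bil_hyp`  : the BIL hypothesis of `CR2.CoreB`
-/

set_option autoImplicit false

noncomputable section

open Finset
open scoped ComplexConjugate

namespace Crest.Agent.R012.BilJ811

open Eis LS2 Mob705 BilG811
open Gauss880 (syG)

theorem gFacts : BilG811.GFacts where
  mul := fun _ _ hc hd _ => Gauss880.G_mul_all syG hc hd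
  nonsq := fun _ hc hs => Gauss880.G_eq_zero syG hc hs
  norm_le := fun _ hc => Gauss880.norm_G_le syG hc

/-! ### combinatorics -/

lemma choose_mul_sum {α : Type*} [DecidableEq α] (P : Finset α) {i j : ℕ} (hij : i ≤ j)
    (F : Finset α → ℂ) :
    (j.choose i : ℂ) * ∑ T ∈ powersetCard j P, F T =
      ∑ U ∈ powersetCard i P, ∑ V ∈ powersetCard (j - i) P,
        if Disjoint U V then F (U ∪ V) else 0 := by
  have h1 : (j.choose i : ℂ) * ∑ T ∈ powersetCard j P, F T =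
      ∑ x ∈ (powersetCard j P).sigma (fun T => powersetCard i T), F x.1 := by
    rw [Finset.sum_sigma, Finset.mul_sum]
    refine Finset.sum_congr rfl fun T hT => ?_
    simp only
    rw [Finset.sum_const, card_powersetCard, (mem_powersetCard.1 hT).2, nsmul_eq_mul]
  have h2 : ∑ U ∈ powersetCard i P, ∑ V ∈ powersetCard (j - i) P,
        (if Disjoint U V then F (U ∪ V) else 0) =
      ∑ x ∈ (powersetCard i P ×ˢ powersetCard (j - i) P).filter (fun x => Disjoint x.1 x.2),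
        F (x.1 ∪ x.2) := by
    rw [Finset.sum_filter, Finset.sum_product]
  rw [h1, h2]
  refine Finset.sum_bij' (fun x _ => (x.2, x.1 \ x.2)) (fun y _ => ⟨y.1 ∪ y.2, y.1⟩) ?_ ?_ ?_ ?_ ?_
  · intro x hx
    rw [Finset.mem_sigma, mem_powersetCard, mem_powersetCard] at hx
    rw [Finset.mem_filter, Finset.mem_product, mem_powersetCard, mem_powersetCard]
    refine ⟨⟨⟨hx.2.1.trans hx.1.1, hx.2.2⟩, sdiff_subset.trans hx.1.1, ?_⟩, disjoint_sdiff⟩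
    rw [card_sdiff_of_subset hx.2.1, hx.1.2, hx.2.2]
  · intro y hy
    rw [Finset.mem_filter, Finset.mem_product, mem_powersetCard, mem_powersetCard] at hy
    rw [Finset.mem_sigma, mem_powersetCard, mem_powersetCard]
    refine ⟨⟨union_subset hy.1.1.1 hy.1.2.1, ?_⟩, subset_union_left, hy.1.1.2⟩
    rw [card_union_of_disjoint hy.2, hy.1.1.2, hy.1.2.2]; omega
  · intro x hx
    rw [Finset.mem_sigma, mem_powersetCard, mem_powersetCard] at hx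
    have : x.2 ∪ x.1 \ x.2 = x.1 := union_sdiff_of_subset hx.2.1
    ext1
    · exact this
    · rfl
  · intro y hy
    rw [Finset.mem_filter] at hy
    have : (y.1 ∪ y.2) \ y.1 = y.2 := union_sdiff_cancel_left hy.2
    ext1
    · rfl
    · exact this
  · intro x hx
    rw [Finset.mem_sigma, mem_powersetCard, mem_powersetCard] at hx
    have : x.2 ∪ x.1 \ x.2 = x.1 := union_sdiff_of_subset hx.2.1
    simp only
    rw [this]

/-- `P` is a set of primary primes of norm at most `B` -/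
def PB (P : Finset Eis) (B : ℝ) : Prop := ∀ p ∈ P, IsPrim p ∧ Prime p ∧ (nm p : ℝ) ≤ B

lemma PB.ppSet {P : Finset Eis} {B : ℝ} (h : PB P B) : PPSet P := fun p hp =>
  ⟨(h p hp).1, (h p hp).2.1⟩

lemma nm_prod (T : Finset Eis) : nm (∏ p ∈ T, p) = ∏ p ∈ T, nm p := by
  classical
  induction T using Finset.induction_on with
  | empty => simp [nm_one]
  | insert a s ha ih => rw [Finset.prod_insert ha, Finset.prod_insert ha, nm_mul, ih]

lemma PB.nm_prod_le {P : Finset Eis} {B : ℝ} (h : PB P B) {T : Finset Eis} (hT : T ⊆ P)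
    {j : ℕ} (hj : T.card = j) : (nm (∏ p ∈ T, p) : ℝ) ≤ B ^ j := by
  rw [nm_prod]
  push_cast
  calc ∏ p ∈ T, (nm p : ℝ) ≤ ∏ p ∈ T, B :=
        Finset.prod_le_prod (fun p _ => by positivity) (fun p hp => (h p (hT hp)).2.2)
    _ = B ^ j := by rw [Finset.prod_const, hj]

lemma PB.prod_mem_S {P : Finset Eis} {B : ℝ} (hB : 0 ≤ B) (h : PB P B) {T : Finset Eis}
    (hT : T ⊆ P) {j : ℕ} (hj : T.card = j) : (∏ p ∈ T, p) ∈ S (B ^ j) := by
  rw [mem_S (by positivity)]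
  have hS : PPSet T := h.ppSet.subset hT
  exact ⟨h.nm_prod_le hT hj, hS.isPrim_prod, hS.squarefree_prod⟩

lemma prod_inj {P : Finset Eis} (h : PPSet P) {T T' : Finset Eis} (hT : T ⊆ P) (hT' : T' ⊆ P)
    (he : ∏ p ∈ T, p = ∏ p ∈ T', p) : T = T' := by
  rw [← (h.subset hT).pp_prod, ← (h.subset hT').pp_prod, he]

/-- the set of products -/
def prods (P : Finset Eis) (j : ℕ) : Finset Eis := by
  classical exact (powersetCard j P).image (fun T => ∏ p ∈ T, p)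

lemma sum_prods {P : Finset Eis} (h : PPSet P) (j : ℕ) (F : Eis → ℂ) (γ : Eis → ℂ) :
    ∑ c ∈ prods P j, (∏ p ∈ pp c, γ p) * F c =
      ∑ T ∈ powersetCard j P, (∏ p ∈ T, γ p) * F (∏ p ∈ T, p) := by
  classical
  unfold prods
  rw [Finset.sum_image]
  · refine Finset.sum_congr rfl fun T hT => ?_
    rw [(h.subset (mem_powersetCard.1 hT).1).pp_prod]
  · intro T hT T' hT' he
    exact prod_inj h (mem_powersetCard.1 hT).1 (mem_powersetCard.1 hT').1 he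

lemma Sq_prods {P : Finset Eis} {B : ℝ} (hB : 0 ≤ B) (h : PB P B) (j : ℕ) :
    Sq (B ^ j) (prods P j) := by
  classical
  intro c hc
  unfold prods at hc
  rw [Finset.mem_image] at hc
  obtain ⟨T, hT, rfl⟩ := hc
  have := h.prod_mem_S hB (mem_powersetCard.1 hT).1 (mem_powersetCard.1 hT).2
  rw [mem_S (by positivity)] at this
  exact ⟨this.2.1, this.2.2, this.1⟩

lemma norm_prod_le_one {T : Finset Eis} {γ : Eis → ℂ} (h : ∀ p ∈ T, ‖γ p‖ ≤ 1) :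
    ‖∏ p ∈ T, γ p‖ ≤ 1 := by
  rw [norm_prod]
  exact Finset.prod_le_one (fun _ _ => norm_nonneg _) h

lemma l2_prods {P : Finset Eis} {B : ℝ} (hB : 1 ≤ B) (h : PB P B) (j : ℕ) {γ : Eis → ℂ}
    (hγ : ∀ p ∈ P, ‖γ p‖ ≤ 1) : ∑ c ∈ prods P j, ‖∏ p ∈ pp c, γ p‖ ^ 2 ≤ 16 * B ^ j := by
  classical
  have hB0 : 0 ≤ B := by linarith
  have h1 : ∀ c ∈ prods P j, ‖∏ p ∈ pp c, γ p‖ ^ 2 ≤ 1 := by
    intro c hc
    unfold prods at hc
    rw [Finset.mem_image] at hc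
    obtain ⟨T, hT, rfl⟩ := hc
    rw [(h.ppSet.subset (mem_powersetCard.1 hT).1).pp_prod]
    have := norm_prod_le_one (T := T) (γ := γ)
      (fun p hp => hγ p ((mem_powersetCard.1 hT).1 hp))
    have h0 := norm_nonneg (∏ p ∈ T, γ p)
    nlinarith
  have h2 : ((prods P j).card : ℝ) ≤ 16 * B ^ j := by
    refine le_trans ?_ (GLS106.card_S_le (one_le_pow₀ hB))
    exact_mod_cast Finset.card_le_card ((Sq_prods hB0 h j).subset (by positivity))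
  calc ∑ c ∈ prods P j, ‖∏ p ∈ pp c, γ p‖ ^ 2 ≤ ∑ c ∈ prods P j, (1 : ℝ) := Finset.sum_le_sum h1
    _ = ((prods P j).card : ℝ) := by simp
    _ ≤ _ := h2

/-- the bilinear decomposition -/
lemma decomp {P : Finset Eis} (h : PPSet P) {i j : ℕ} (hij : i ≤ j) (γ : Eis → ℂ) :
    (j.choose i : ℂ) * ∑ T ∈ powersetCard j P, (∏ p ∈ T, γ p) * G (∏ p ∈ T, p) =
      ∑ c ∈ prods P i, ∑ d ∈ prods P (j - i),
        (∏ p ∈ pp c, γ p) * (∏ p ∈ pp d, γ p) * G (c * d) := by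
  classical
  rw [choose_mul_sum P hij]
  have e1 : ∑ c ∈ prods P i, ∑ d ∈ prods P (j - i),
        (∏ p ∈ pp c, γ p) * (∏ p ∈ pp d, γ p) * G (c * d) =
      ∑ c ∈ prods P i, (∏ p ∈ pp c, γ p) * ∑ d ∈ prods P (j - i), (∏ p ∈ pp d, γ p) * G (c * d) := by
    refine Finset.sum_congr rfl fun c _ => ?_
    rw [Finset.mul_sum]
    refine Finset.sum_congr rfl fun d _ => ?_
    ring
  rw [e1, sum_prods h i (fun c => ∑ d ∈ prods P (j - i), (∏ p ∈ pp d, γ p) * G (c * d)) γ]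
  refine Finset.sum_congr rfl fun U hU => ?_
  rw [sum_prods h (j - i) (fun d => G ((∏ p ∈ U, p) * d)) γ, Finset.mul_sum]
  refine Finset.sum_congr rfl fun V hV => ?_
  have hU' := mem_powersetCard.1 hU
  have hV' := mem_powersetCard.1 hV
  by_cases hd : Disjoint U V
  · rw [if_pos hd, Finset.prod_union hd, Finset.prod_union hd]; ring
  · rw [if_neg hd]
    have : G ((∏ p ∈ U, p) * (∏ p ∈ V, p)) = 0 := by
      apply Gauss880.G_eq_zero syG ((h.subset hU'.1).isPrim_prod.mul (h.subset hV'.1).isPrim_prod)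
      intro hs
      rw [Finset.not_disjoint_iff] at hd
      obtain ⟨p, hp1, hp2⟩ := hd
      have : p * p ∣ (∏ p ∈ U, p) * (∏ p ∈ V, p) :=
        mul_dvd_mul (Finset.dvd_prod_of_mem (fun x => x) hp1)
          (Finset.dvd_prod_of_mem (fun x => x) hp2)
      exact (h p (hU'.1 hp1)).prime.not_isUnit (hs p this)
    rw [this]; ring

/-- **B2**, set form. -/
theorem setBil {ε : ℝ} (hε : 0 < ε) {j : ℕ} (hj : 2 ≤ j) :
    ∃ K : ℝ, 0 < K ∧ ∀ B : ℝ, 1 ≤ B → ∀ P : Finset Eis, PB P B → ∀ γ : Eis → ℂ,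
      (∀ p ∈ P, ‖γ p‖ ≤ 1) →
      ‖∑ T ∈ powersetCard j P, (∏ p ∈ T, γ p) * G (∏ p ∈ T, p)‖ ≤
        K * (B ^ j) ^ ((5 : ℝ) / 6 + ε) := by
  obtain ⟨K, hK, hb⟩ := bil_G Sym645.syFacts gFacts LS448.hb_final (ε := 2 * ε) (by positivity)
  refine ⟨16 * Real.sqrt (3 * K), by positivity, fun B hB P hP γ hγ => ?_⟩
  set i := j / 2 with hi
  set k := j - i with hk
  have hij : i ≤ j := Nat.div_le_self _ _
  have hik : i + k = j := by omega
  have hB0 : 0 < B := by linarith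
  have h1 := hb (B ^ i) (B ^ k) (one_le_pow₀ hB) (one_le_pow₀ hB) (prods P i) (prods P k)
    (Sq_prods hB0.le hP i) (Sq_prods hB0.le hP k) (fun c => ∏ p ∈ pp c, γ p)
    (fun c => ∏ p ∈ pp c, γ p)
  rw [← decomp hP.ppSet hij γ] at h1
  have hch : (1 : ℝ) ≤ (j.choose i : ℝ) := by exact_mod_cast Nat.choose_pos hij
  have h2 : ‖∑ T ∈ powersetCard j P, (∏ p ∈ T, γ p) * G (∏ p ∈ T, p)‖ ≤
      ‖(j.choose i : ℂ) * ∑ T ∈ powersetCard j P, (∏ p ∈ T, γ p) * G (∏ p ∈ T, p)‖ := by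
    rw [norm_mul, Complex.norm_natCast]
    exact le_mul_of_one_le_left (norm_nonneg _) hch
  refine h2.trans (h1.trans ?_)
  have hZ : B ^ i * B ^ k = B ^ j := by rw [← pow_add, hik]
  set Z := B ^ j with hZd
  have hZ1 : 1 ≤ Z := one_le_pow₀ hB
  have hi2 : B ^ i ≤ Z ^ ((2 : ℝ) / 3) := by
    rw [hZd, ← Real.rpow_natCast, ← Real.rpow_natCast, ← Real.rpow_mul hB0.le]
    apply Real.rpow_le_rpow_of_exponent_le hB
    have : 3 * i ≤ 2 * j := by omega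
    have : 3 * (i : ℝ) ≤ 2 * j := by exact_mod_cast this
    linarith
  have hk2 : B ^ k ≤ Z ^ ((2 : ℝ) / 3) := by
    rw [hZd, ← Real.rpow_natCast, ← Real.rpow_natCast, ← Real.rpow_mul hB0.le]
    apply Real.rpow_le_rpow_of_exponent_le hB
    have : 3 * k ≤ 2 * j := by omega
    have : 3 * (k : ℝ) ≤ 2 * j := by exact_mod_cast this
    linarith
  have hh : hbB (2 * ε) K (B ^ i) (B ^ k) ≤ 3 * K * Z ^ (2 * ε + 2 / 3) := by
    unfold hbB
    rw [hZ, Real.rpow_add (by linarith)]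
    have : B ^ i + B ^ k + Z ^ ((2 : ℝ) / 3) ≤ 3 * Z ^ ((2 : ℝ) / 3) := by linarith
    calc K * Z ^ (2 * ε) * (B ^ i + B ^ k + Z ^ ((2 : ℝ) / 3))
        ≤ K * Z ^ (2 * ε) * (3 * Z ^ ((2 : ℝ) / 3)) := by gcongr
      _ = _ := by ring
  have hh0 : 0 ≤ hbB (2 * ε) K (B ^ i) (B ^ k) := hbB_nonneg hK.le (by positivity) (by positivity)
  calc Real.sqrt (∑ c ∈ prods P i, ‖∏ p ∈ pp c, γ p‖ ^ 2) *
        Real.sqrt (hbB (2 * ε) K (B ^ i) (B ^ k) * ∑ d ∈ prods P k, ‖∏ p ∈ pp d, γ p‖ ^ 2)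
      ≤ Real.sqrt (16 * B ^ i) * Real.sqrt (3 * K * Z ^ (2 * ε + 2 / 3) * (16 * B ^ k)) := by
        have a1 := l2_prods hB hP i hγ
        have a2 := l2_prods hB hP k hγ
        gcongr
    _ = Real.sqrt ((16 * Real.sqrt (3 * K) * Z ^ ((5 : ℝ) / 6 + ε)) ^ 2) := by
        rw [← Real.sqrt_mul (by positivity)]
        congr 1
        have e1 : (Z ^ ((5 : ℝ) / 6 + ε)) ^ 2 = Z ^ (2 * ε + 2 / 3) * Z := by
          rw [← Real.rpow_natCast, ← Real.rpow_mul (by linarith), ← Real.rpow_add_one (by linarith)]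
          congr 1
          push_cast; ring
        rw [mul_pow, mul_pow, Real.sq_sqrt (by positivity), e1, ← hZ]
        ring
    _ = _ := Real.sqrt_sq (by positivity)

/-! ### coefficients -/

open Classical in
/-- the coefficients of products of `j` distinct primes of `P` -/
def bset (P : Finset Eis) (γ : Eis → ℂ) (j : ℕ) (n : Eis) : ℂ :=
  if pp n ⊆ P ∧ (pp n).card = j then ∏ p ∈ pp n, γ p else 0

lemma sum_bset {P : Finset Eis} {B : ℝ} (hB : 1 ≤ B) (h : PB P B) (γ : Eis → ℂ) (j : ℕ)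
    {Z : ℝ} (hZ : B ^ j ≤ Z) (F : Eis → ℂ) :
    ∑ n ∈ S Z, bset P γ j n * F n =
      ∑ T ∈ powersetCard j P, (∏ p ∈ T, γ p) * F (∏ p ∈ T, p) := by
  classical
  have hB0 : 0 ≤ B := by linarith
  have hZ0 : 0 ≤ Z := le_trans (by positivity) hZ
  rw [← sum_prods h.ppSet j F γ]
  symm
  have hsub : prods P j ⊆ S Z := by
    intro n hn
    have := Sq_prods hB0 h j n hn
    rw [mem_S hZ0]
    exact ⟨this.2.2.trans hZ, this.1, this.2.1⟩
  rw [← Finset.sum_subset hsub]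
  · refine Finset.sum_congr rfl fun c hc => ?_
    unfold prods at hc
    rw [Finset.mem_image] at hc
    obtain ⟨T, hT, rfl⟩ := hc
    have hT' := mem_powersetCard.1 hT
    unfold bset
    rw [(h.ppSet.subset hT'.1).pp_prod, if_pos hT']
  · intro n hn hn'
    unfold bset
    rw [if_neg, zero_mul]
    rintro ⟨h1, h2⟩
    apply hn'
    unfold prods
    rw [Finset.mem_image]
    have hnS := (mem_S hZ0).1 hn
    exact ⟨pp n, mem_powersetCard.2 ⟨h1, h2⟩, prod_pp hnS.2.1 hnS.2.2⟩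

lemma norm_bset_le {P : Finset Eis} {γ : Eis → ℂ} (hγ : ∀ p ∈ P, ‖γ p‖ ≤ 1) (j : ℕ) (n : Eis) :
    ‖bset P γ j n‖ ≤ 1 := by
  unfold bset
  split_ifs with h
  · exact norm_prod_le_one fun p hp => hγ p (h.1 hp)
  · simp

lemma l2_bset {P : Finset Eis} {γ : Eis → ℂ} (hγ : ∀ p ∈ P, ‖γ p‖ ≤ 1) (j : ℕ) {Z : ℝ}
    (hZ : 1 ≤ Z) : ∑ n ∈ S Z, ‖bset P γ j n‖ ^ 2 ≤ 16 * Z := by
  calc ∑ n ∈ S Z, ‖bset P γ j n‖ ^ 2 ≤ ∑ n ∈ S Z, (1 : ℝ) := by
        refine Finset.sum_le_sum fun n _ => ?_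
        have := norm_bset_le hγ j n
        have h0 := norm_nonneg (bset P γ j n)
        nlinarith
    _ = ((S Z).card : ℝ) := by simp
    _ ≤ _ := GLS106.card_S_le hZ

lemma sy_prod (r : Eis) {T : Finset Eis} (h : PPSet T) : sy r (∏ p ∈ T, p) = ∏ p ∈ T, sy r p := by
  classical
  induction T using Finset.induction_on with
  | empty =>
    simp only [Finset.prod_empty]
    exact Sym645.sy_one_right r
  | insert a s ha ih =>
    have hs : PPSet s := h.subset (subset_insert _ _)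
    rw [Finset.prod_insert ha, Finset.prod_insert ha,
      syG.mul_right _ _ _ (h a (mem_insert_self _ _)).isPrim hs.isPrim_prod, ih hs]

/-- **the BIL hypothesis of `CR2.CoreB`** -/
theorem bil_hyp {j : ℕ} (hj : 2 ≤ j) : ∃ K : ℝ, 0 < K ∧ ∀ C H : ℝ, 1 ≤ C → 1 ≤ H →
    H ^ (1.05 : ℝ) ≤ (2 * C) ^ j → ∀ (P : Finset Eis) (γ : Eis → ℂ),
    (∀ p ∈ P, IsPrim p ∧ Prime p ∧ C < (nm p : ℝ) ∧ (nm p : ℝ) ≤ 2 * C ∧ ‖γ p‖ ≤ 1) →
    ∀ r : Eis, ‖∑ n ∈ S ((2 * C) ^ j), conj (bset P γ j n) * (sy r n * conj (G n) *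
        ((nm n : ℝ) ^ (-(1 : ℝ) / 6) * CR2.phi n : ℝ))‖ ≤
      K * ((2 * C) ^ j) ^ ((5 : ℝ) / 6) * H ^ (-(1 / 7) : ℝ) := by
  obtain ⟨K, hK, hb⟩ := setBil (ε := 1 / 40) (by norm_num) hj
  refine ⟨2 ^ j * K, by positivity, fun C H hC hH hHC P γ hP r => ?_⟩
  have hB : 1 ≤ 2 * C := by linarith
  have hC0 : 0 < C := by linarith
  have hPB : PB P (2 * C) := fun p hp => ⟨(hP p hp).1, (hP p hp).2.1, (hP p hp).2.2.2.1⟩
  -- the new coefficients
  set ρ : Eis → ℂ := fun p => ((C ^ ((1 : ℝ) / 6) : ℝ) : ℂ) * (γ p * (conj (sy r p) *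
    (((nm p : ℝ) ^ (-(1 : ℝ) / 6) * (1 + 1 / (nm p : ℝ))⁻¹ : ℝ) : ℂ))) with hρ
  have hρ1 : ∀ p ∈ P, ‖ρ p‖ ≤ 1 := by
    intro p hp
    obtain ⟨q1, q2, q3, q4, q5⟩ := hP p hp
    have hn : (0 : ℝ) < nm p := by linarith
    rw [hρ]
    simp only
    rw [norm_mul, norm_mul, norm_mul, RCLike.norm_conj, Complex.norm_real, Complex.norm_real,
      Real.norm_of_nonneg (by positivity), Real.norm_of_nonneg (by positivity)]
    have b1 := Gauss880.norm_sy_le syG q1 (x := r)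
    have b2 : (1 + 1 / (nm p : ℝ))⁻¹ ≤ 1 := by
      apply inv_le_one_of_one_le₀
      have : 0 ≤ 1 / (nm p : ℝ) := by positivity
      linarith
    have b3 : C ^ ((1 : ℝ) / 6) * (nm p : ℝ) ^ (-(1 : ℝ) / 6) ≤ 1 := by
      have e : (-(1 : ℝ) / 6) = -(1 / 6) := by ring
      rw [e, Real.rpow_neg hn.le, ← div_eq_mul_inv, div_le_one (by positivity)]
      exact Real.rpow_le_rpow hC0.le q3.le (by norm_num)
    calc C ^ ((1 : ℝ) / 6) * (‖γ p‖ * (‖sy r p‖ * ((nm p : ℝ) ^ (-(1 : ℝ) / 6) *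
          (1 + 1 / (nm p : ℝ))⁻¹)))
        = (C ^ ((1 : ℝ) / 6) * (nm p : ℝ) ^ (-(1 : ℝ) / 6)) * ‖γ p‖ * ‖sy r p‖ *
          (1 + 1 / (nm p : ℝ))⁻¹ := by ring
      _ ≤ 1 * 1 * 1 * 1 := by gcongr
      _ = 1 := by norm_num
  have h1 := hb (2 * C) hB P hPB ρ hρ1
  -- rewrite the sum
  have e1 : ∑ n ∈ S ((2 * C) ^ j), conj (bset P γ j n) * (sy r n * conj (G n) *
        ((nm n : ℝ) ^ (-(1 : ℝ) / 6) * CR2.phi n : ℝ)) =
      ((((C ^ ((1 : ℝ) / 6))⁻¹) ^ j : ℝ) : ℂ) *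
        conj (∑ T ∈ powersetCard j P, (∏ p ∈ T, ρ p) * G (∏ p ∈ T, p)) := by
    have e2 : ∑ n ∈ S ((2 * C) ^ j), conj (bset P γ j n) * (sy r n * conj (G n) *
        ((nm n : ℝ) ^ (-(1 : ℝ) / 6) * CR2.phi n : ℝ)) =
        conj (∑ n ∈ S ((2 * C) ^ j), bset P γ j n * (conj (sy r n) * G n *
        (((nm n : ℝ) ^ (-(1 : ℝ) / 6) * CR2.phi n : ℝ) : ℂ))) := by
      rw [map_sum]
      refine Finset.sum_congr rfl fun n _ => ?_
      simp only [map_mul, Complex.conj_conj, Complex.conj_ofReal]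
    rw [e2, sum_bset hB hPB γ j le_rfl]
    have e3 : ∀ x : ℂ, ((((C ^ ((1 : ℝ) / 6))⁻¹) ^ j : ℝ) : ℂ) * conj x =
        conj (((((C ^ ((1 : ℝ) / 6))⁻¹) ^ j : ℝ) : ℂ) * x) := by
      intro x; rw [map_mul, Complex.conj_ofReal]
    rw [e3]
    congr 1
    rw [Finset.mul_sum]
    refine Finset.sum_congr rfl fun T hT => ?_
    have hT' := mem_powersetCard.1 hT
    have hTS : PPSet T := hPB.ppSet.subset hT'.1
    have e4 : ∏ p ∈ T, ρ p = (((C ^ ((1 : ℝ) / 6)) ^ j : ℝ) : ℂ) * ((∏ p ∈ T, γ p) *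
        ((∏ p ∈ T, conj (sy r p)) * ((∏ p ∈ T, ((nm p : ℝ) ^ (-(1 : ℝ) / 6)) : ℝ) *
          (∏ p ∈ T, (1 + 1 / (nm p : ℝ))⁻¹ : ℝ) : ℂ))) := by
      rw [hρ]
      simp only
      rw [Finset.prod_mul_distrib, Finset.prod_mul_distrib, Finset.prod_mul_distrib,
        Finset.prod_const, hT'.2]
      push_cast
      rw [Finset.prod_mul_distrib]
    have e5 : CR2.phi (∏ p ∈ T, p) = ∏ p ∈ T, (1 + 1 / (nm p : ℝ))⁻¹ := by
      unfold CR2.phi; rw [hTS.pp_prod]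
    have e6 : (nm (∏ p ∈ T, p) : ℝ) ^ (-(1 : ℝ) / 6) = ∏ p ∈ T, ((nm p : ℝ) ^ (-(1 : ℝ) / 6)) := by
      rw [nm_prod]
      push_cast
      rw [Real.finsetProd_rpow _ _ (fun p _ => by positivity)]
    rw [e4, e5, e6, sy_prod r hTS, map_prod]
    have hc : ((C ^ ((1 : ℝ) / 6))⁻¹) ^ j * (C ^ ((1 : ℝ) / 6)) ^ j = 1 := by
      rw [← mul_pow, inv_mul_cancel₀ (by positivity), one_pow]
    have hc' : ((((C ^ ((1 : ℝ) / 6))⁻¹) ^ j : ℝ) : ℂ) * (((C ^ ((1 : ℝ) / 6)) ^ j : ℝ) : ℂ) = 1 := by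
      rw [← Complex.ofReal_mul, hc, Complex.ofReal_one]
    push_cast at hc' ⊢
    linear_combination (-(∏ p ∈ T, γ p) * ((∏ p ∈ T, conj (sy r p)) *
      G (∏ p ∈ T, p) * ((∏ p ∈ T, (((nm p : ℝ) ^ (-(1 : ℝ) / 6) : ℝ) : ℂ)) *
      (∏ p ∈ T, ((1 + 1 / (nm p : ℂ))⁻¹))))) * hc'
  rw [e1, norm_mul, RCLike.norm_conj, Complex.norm_real, Real.norm_of_nonneg (by positivity)]
  set Z := (2 * C) ^ j with hZ
  have hZ0 : 0 < Z := by positivity
  have hCj : ((C ^ ((1 : ℝ) / 6))⁻¹) ^ j ≤ 2 ^ j * Z ^ (-(1 / 6) : ℝ) := by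
    have e7 : Z ^ (-(1 / 6) : ℝ) = (((2 * C) ^ ((1 : ℝ) / 6))⁻¹) ^ j := by
      rw [hZ, Real.rpow_neg (by positivity), inv_pow, ← Real.rpow_natCast, ← Real.rpow_natCast,
        ← Real.rpow_mul (by positivity), ← Real.rpow_mul (by positivity)]
      congr 2; ring
    rw [e7, ← mul_pow]
    apply pow_le_pow_left₀ (by positivity)
    rw [Real.mul_rpow (by norm_num) hC0.le, mul_inv, ← mul_assoc]
    have : (1 : ℝ) ≤ 2 * ((2 : ℝ) ^ ((1 : ℝ) / 6))⁻¹ := by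
      rw [← div_eq_mul_inv, le_div_iff₀ (by positivity), one_mul]
      calc (2 : ℝ) ^ ((1 : ℝ) / 6) ≤ 2 ^ (1 : ℝ) :=
            Real.rpow_le_rpow_of_exponent_le (by norm_num) (by norm_num)
        _ = 2 := Real.rpow_one _
    exact le_mul_of_one_le_left (by positivity) this
  calc ((C ^ ((1 : ℝ) / 6))⁻¹) ^ j *
        ‖∑ T ∈ powersetCard j P, (∏ p ∈ T, ρ p) * G (∏ p ∈ T, p)‖
      ≤ (2 ^ j * Z ^ (-(1 / 6) : ℝ)) * (K * Z ^ ((5 : ℝ) / 6 + 1 / 40)) := by gcongr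
    _ = 2 ^ j * K * Z ^ ((5 : ℝ) / 6) * Z ^ (-(17 / 120) : ℝ) := by
        have : Z ^ (-(1 / 6) : ℝ) * Z ^ ((5 : ℝ) / 6 + 1 / 40) =
            Z ^ ((5 : ℝ) / 6) * Z ^ (-(17 / 120) : ℝ) := by
          rw [← Real.rpow_add hZ0, ← Real.rpow_add hZ0]
          congr 1; norm_num
        linear_combination (2 ^ j * K) * this
    _ ≤ 2 ^ j * K * Z ^ ((5 : ℝ) / 6) * H ^ (-(1 / 7) : ℝ) := by
        have h2 : Z ^ (-(17 / 120) : ℝ) ≤ H ^ (-(1 / 7) : ℝ) := by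
          calc Z ^ (-(17 / 120) : ℝ) ≤ (H ^ (1.05 : ℝ)) ^ (-(17 / 120) : ℝ) :=
                Real.rpow_le_rpow_of_nonpos (by positivity) hHC (by norm_num)
            _ = H ^ ((1.05 : ℝ) * (-(17 / 120))) := by rw [← Real.rpow_mul (by linarith)]
            _ ≤ _ := Real.rpow_le_rpow_of_exponent_le hH (by norm_num)
        gcongr

end Crest.Agent.R012.BilJ811
end
end

-- ▼ part R012/Tup_811
section

/-!
# Row 12 (CR2-F): powers of sums over tuples, injective tuples and subsets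

* `pow_sum_eq`   : `(Σ_{p ∈ P} f p)^j = Σ_{x ∈ P^j} Π f (x i)`
* `sum_inj`      : the injective tuples give `j! Σ_{T ⊆ P, #T = j} Π_{p ∈ T} f p`
* `pow_sum_split`: the sum of both parts
-/

set_option autoImplicit false

noncomputable section

open Finset

namespace Crest.Agent.R012.Tup811

variable {α : Type*} [DecidableEq α] {R : Type*} [CommSemiring R]

omit [DecidableEq α] in
lemma pow_sum_eq (P : Finset α) (f : α → R) (j : ℕ) :
    (∑ p ∈ P, f p) ^ j = ∑ x ∈ Fintype.piFinset (fun _ : Fin j => P), ∏ i, f (x i) := by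
  have h := Finset.prod_univ_sum (fun _ : Fin j => P) (fun _ p => f p)
  rw [Finset.prod_const, Finset.card_univ, Fintype.card_fin] at h
  exact h

open Classical in
lemma card_inj (T : Finset α) {j : ℕ} (hT : #T = j) :
    #((Fintype.piFinset (fun _ : Fin j => T)).filter Function.Injective) = j.factorial := by
  have e : {x // x ∈ (Fintype.piFinset (fun _ : Fin j => T)).filter Function.Injective} ≃
      (Fin j ↪ T) :=
    { toFun := fun x => ⟨fun i => ⟨x.1 i, (Fintype.mem_piFinset.1 (mem_filter.1 x.2).1) i⟩,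
        fun a b hab => (mem_filter.1 x.2).2 (congrArg Subtype.val hab)⟩
      invFun := fun e => ⟨fun i => (e i : α), mem_filter.2 ⟨Fintype.mem_piFinset.2
        (fun i => (e i).2), fun a b hab => e.injective (Subtype.ext hab)⟩⟩
      left_inv := fun x => rfl
      right_inv := fun e => rfl }
  rw [← Fintype.card_coe, Fintype.card_congr e, Fintype.card_embedding_eq, Fintype.card_coe,
    Fintype.card_fin, hT, Nat.descFactorial_self]

open Classical in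
lemma sum_inj (P : Finset α) (f : α → R) (j : ℕ) :
    ∑ x ∈ (Fintype.piFinset (fun _ : Fin j => P)).filter Function.Injective, ∏ i, f (x i) =
      (j.factorial : R) * ∑ T ∈ powersetCard j P, ∏ p ∈ T, f p := by
  have hmaps : ∀ x ∈ (Fintype.piFinset (fun _ : Fin j => P)).filter Function.Injective,
      Finset.univ.image x ∈ powersetCard j P := by
    intro x hx
    rw [mem_filter, Fintype.mem_piFinset] at hx
    rw [mem_powersetCard]
    refine ⟨?_, ?_⟩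
    · intro p hp
      rw [mem_image] at hp
      obtain ⟨i, _, rfl⟩ := hp
      exact hx.1 i
    · rw [card_image_of_injective _ hx.2, card_univ, Fintype.card_fin]
  rw [← Finset.sum_fiberwise_of_maps_to hmaps, Finset.mul_sum]
  refine Finset.sum_congr rfl fun T hT => ?_
  have hT' := mem_powersetCard.1 hT
  have h1 : ∀ x ∈ ((Fintype.piFinset (fun _ : Fin j => P)).filter Function.Injective).filter
      (fun x => Finset.univ.image x = T), ∏ i, f (x i) = ∏ p ∈ T, f p := by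
    intro x hx
    rw [mem_filter, mem_filter] at hx
    rw [← hx.2, Finset.prod_image (fun a _ b _ hab => hx.1.2 hab)]
  rw [Finset.sum_congr rfl h1, Finset.sum_const, nsmul_eq_mul]
  congr 2
  rw [← card_inj T hT'.2]
  congr 1
  ext x
  rw [mem_filter, mem_filter, mem_filter, Fintype.mem_piFinset, Fintype.mem_piFinset]
  constructor
  · rintro ⟨⟨_, h2⟩, h3⟩
    refine ⟨fun i => ?_, h2⟩
    rw [← h3]; exact mem_image_of_mem _ (mem_univ i)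
  · rintro ⟨h2, h3⟩
    refine ⟨⟨fun i => hT'.1 (h2 i), h3⟩, ?_⟩
    apply Finset.eq_of_subset_of_card_le
    · intro p hp
      rw [mem_image] at hp
      obtain ⟨i, _, rfl⟩ := hp
      exact h2 i
    · rw [card_image_of_injective _ h3, card_univ, Fintype.card_fin, hT'.2]

open Classical in
lemma pow_sum_split (P : Finset α) (f : α → R) (j : ℕ) :
    (∑ p ∈ P, f p) ^ j = (j.factorial : R) * ∑ T ∈ powersetCard j P, ∏ p ∈ T, f p +
      ∑ x ∈ (Fintype.piFinset (fun _ : Fin j => P)).filter (fun x => ¬ Function.Injective x),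
        ∏ i, f (x i) := by
  rw [pow_sum_eq, ← sum_inj, Finset.sum_filter_add_sum_filter_not]

end Crest.Agent.R012.Tup811
end
end

-- ▼ part R012/CR2F_811

/-!
# Row 12 (CR2-F): `CR2.CoreB → CR290.SavedMom`
-/

set_option autoImplicit false

noncomputable section

open Finset
open scoped ComplexConjugate

namespace Crest.Agent.R012.CR2F811

open Eis LS2 Mob705 BilJ811 CR290
open Gauss880 (syG)

/-! ### the split `F^j = j! E + R` -/

open Classical in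
/-- the part with a repeated prime -/
def Rr (P : Finset Eis) (γ : Eis → ℂ) (j : ℕ) (h : Eis) : ℂ :=
  ∑ x ∈ (Fintype.piFinset (fun _ : Fin j => P)).filter (fun x => ¬ Function.Injective x),
    (∏ i, γ (x i)) * sy (∏ i, x i) h

lemma sy_prod_left {T : Finset Eis} {h : Eis} (hh : IsPrim h) :
    sy (∏ p ∈ T, p) h = ∏ p ∈ T, sy p h := by
  classical
  induction T using Finset.induction_on with
  | empty => simp only [Finset.prod_empty]; exact GLS106.sy_one_left hh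
  | insert a s ha ih =>
    rw [Finset.prod_insert ha, Finset.prod_insert ha, syG.mul_left _ _ _ hh, ih]

lemma F_pow {P : Finset Eis} {C : ℝ} (hC : 1 ≤ C) (hP : IsPP P C) (γ : Eis → ℂ) (j : ℕ) {h : Eis}
    (hh : IsPrim h) :
    (F P γ h) ^ j = (j.factorial : ℂ) * CR2.Eb (bset P γ j) ((2 * C) ^ j) h + Rr P γ j h := by
  classical
  have hPB : PB P (2 * C) := fun p hp => ⟨(hP p hp).1, (hP p hp).2.1, (hP p hp).2.2.2⟩
  have e1 : F P γ h = ∑ p ∈ P, γ p * sy p h := by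
    unfold F
    exact Finset.sum_congr rfl fun p hp => by rw [syG.recip h p hh (hP p hp).1]
  rw [e1, Tup811.pow_sum_split]
  congr 1
  · congr 1
    unfold CR2.Eb
    rw [sum_bset (by linarith) hPB γ j le_rfl (fun n => sy n h)]
    refine Finset.sum_congr rfl fun T _ => ?_
    rw [Finset.prod_mul_distrib, sy_prod_left hh]
  · unfold Rr
    refine Finset.sum_congr (Finset.filter_congr_decidable _ _ _) fun x _ => ?_
    rw [Finset.prod_mul_distrib, GLS106.sy_prod x hh]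

lemma norm_F_pow_le {P : Finset Eis} {C : ℝ} (hC : 1 ≤ C) (hP : IsPP P C) (γ : Eis → ℂ) (j : ℕ)
    {h : Eis} (hh : IsPrim h) :
    ‖F P γ h‖ ^ (2 * j) ≤ 2 * (j.factorial : ℝ) ^ 2 * ‖CR2.Eb (bset P γ j) ((2 * C) ^ j) h‖ ^ 2 +
      2 * ‖Rr P γ j h‖ ^ 2 := by
  have e : ‖F P γ h‖ ^ (2 * j) = ‖(F P γ h) ^ j‖ ^ 2 := by
    rw [norm_pow, ← pow_mul, mul_comm]
  rw [e, F_pow hC hP γ j hh]
  set a := (j.factorial : ℂ) * CR2.Eb (bset P γ j) ((2 * C) ^ j) h with ha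
  have hna : ‖a‖ = (j.factorial : ℝ) * ‖CR2.Eb (bset P γ j) ((2 * C) ^ j) h‖ := by
    rw [ha, norm_mul, Complex.norm_natCast]
  have h1 := norm_add_le a (Rr P γ j h)
  have h2 : ‖a + Rr P γ j h‖ ^ 2 ≤ (‖a‖ + ‖Rr P γ j h‖) ^ 2 :=
    pow_le_pow_left₀ (norm_nonneg _) h1 2
  have h3 : 2 * (j.factorial : ℝ) ^ 2 * ‖CR2.Eb (bset P γ j) ((2 * C) ^ j) h‖ ^ 2 = 2 * ‖a‖ ^ 2 := by
    rw [hna]; ring
  rw [h3]
  nlinarith [sq_nonneg (‖a‖ - ‖Rr P γ j h‖)]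

/-! ### the repeated part -/

/-- real exponent inequality: `Z ≤ 2^j H^(1.8)`, `H^(1.1) ≤ Z` -/
lemma H_le {H Z : ℝ} (hH : 1 ≤ H) (h1 : H ^ (1.1 : ℝ) ≤ Z) :
    H ≤ (H * Z) ^ ((2 : ℝ) / 3) * H ^ (-(0.4 : ℝ)) := by
  have hH0 : 0 < H := by linarith
  have hZ0 : 0 < Z := lt_of_lt_of_le (by positivity) h1
  rw [Real.mul_rpow hH0.le hZ0.le]
  calc H = H ^ ((1 : ℝ)) := (Real.rpow_one H).symm
    _ ≤ H ^ ((2 : ℝ) / 3 + 1.1 * (2 / 3) + -(0.4 : ℝ)) :=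
        Real.rpow_le_rpow_of_exponent_le hH (by norm_num)
    _ = H ^ ((2 : ℝ) / 3) * (H ^ (1.1 : ℝ)) ^ ((2 : ℝ) / 3) * H ^ (-(0.4 : ℝ)) := by
        rw [Real.rpow_add hH0, Real.rpow_add hH0, Real.rpow_mul hH0.le]
    _ ≤ _ := by gcongr

lemma Z_le {H Z A : ℝ} (hH : 1 ≤ H) (hA : 1 ≤ A) (hZ : 1 ≤ Z) (h1 : Z ≤ A * H ^ (1.8 : ℝ)) :
    Z ≤ A * (H * Z) ^ ((2 : ℝ) / 3) * H ^ (-(1 / 15) : ℝ) := by
  have hH0 : 0 < H := by linarith
  have hZ0 : 0 < Z := by linarith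
  rw [Real.mul_rpow hH0.le hZ0.le]
  have h2 : Z ^ ((1 : ℝ) / 3) ≤ A * H ^ (0.6 : ℝ) := by
    calc Z ^ ((1 : ℝ) / 3) ≤ (A * H ^ (1.8 : ℝ)) ^ ((1 : ℝ) / 3) := by gcongr
      _ = A ^ ((1 : ℝ) / 3) * H ^ (0.6 : ℝ) := by
          rw [Real.mul_rpow (by linarith) (by positivity), ← Real.rpow_mul hH0.le]
          norm_num
      _ ≤ A * H ^ (0.6 : ℝ) := by
          have : A ^ ((1 : ℝ) / 3) ≤ A ^ (1 : ℝ) :=
            Real.rpow_le_rpow_of_exponent_le hA (by norm_num)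
          rw [Real.rpow_one] at this
          gcongr
  calc Z = Z ^ ((2 : ℝ) / 3) * Z ^ ((1 : ℝ) / 3) := by
        rw [← Real.rpow_add hZ0]; norm_num
    _ ≤ Z ^ ((2 : ℝ) / 3) * (A * H ^ (0.6 : ℝ)) := by gcongr
    _ = A * (H ^ ((2 : ℝ) / 3) * Z ^ ((2 : ℝ) / 3)) * H ^ (-(1 / 15) : ℝ) := by
        have : H ^ (0.6 : ℝ) = H ^ ((2 : ℝ) / 3) * H ^ (-(1 / 15) : ℝ) := by
          rw [← Real.rpow_add hH0]; norm_num
        rw [this]; ring

lemma R_bound {j : ℕ} (hj : 2 ≤ j) : ∃ δ K : ℝ, 0 < δ ∧ 0 < K ∧ ∀ H C : ℝ, 1 ≤ H → 1 ≤ C →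
    H ^ (1.1 : ℝ) ≤ C ^ j → C ^ j ≤ H ^ (1.8 : ℝ) → ∀ P : Finset Eis, IsPP P C →
    ∀ γ : Eis → ℂ, (∀ p ∈ P, ‖γ p‖ ≤ 1) →
    ∑ h ∈ S H, ‖Rr P γ j h‖ ^ 2 ≤ K * H ^ (-δ) * (H * (2 * C) ^ j) ^ ((2 : ℝ) / 3) * (2 * C) ^ j := by
  classical
  have hj0 : (0 : ℝ) < j := by exact_mod_cast (by omega : 0 < j)
  have hj2 : (2 : ℝ) ≤ j := by exact_mod_cast hj
  set ε : ℝ := 1 / (90 * j) with hε
  have hε0 : 0 < ε := by positivity
  obtain ⟨K, hK, hT⟩ := GLS106.tuples_sq LS448.hb_final j ε hε0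
  refine ⟨1 / (30 * j), K * (2 * (1 + 2 * 2 ^ j)), by positivity, by positivity, ?_⟩
  intro H C hH hC h1 h2 P hP γ hγ
  have hH0 : 0 < H := by linarith
  have hC0 : 0 < C := by linarith
  set Z : ℝ := (2 * C) ^ j with hZ
  have hZ1 : 1 ≤ Z := one_le_pow₀ (by linarith)
  have hCZ : C ^ j ≤ Z := by rw [hZ]; gcongr; linarith
  have h1' : H ^ (1.1 : ℝ) ≤ Z := h1.trans hCZ
  have h2' : Z ≤ 2 ^ j * H ^ (1.8 : ℝ) := by
    rw [hZ, mul_pow]; gcongr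
  have hA : (1 : ℝ) ≤ 2 ^ j := one_le_pow₀ (by norm_num)
  -- `C ≥ H^(1.1/j)`
  have hCH : H ^ (1.1 / j : ℝ) ≤ C := by
    have : (H ^ (1.1 / j : ℝ)) ^ j ≤ C ^ j := by
      rw [← Real.rpow_natCast, ← Real.rpow_mul hH0.le]
      rw [div_mul_cancel₀ _ hj0.ne']
      exact h1
    exact le_of_pow_le_pow_left₀ (by omega) hC0.le this
  have hCinv : C⁻¹ ≤ H ^ (-(1 / (15 * j)) : ℝ) := by
    calc C⁻¹ ≤ (H ^ (1.1 / j : ℝ))⁻¹ := inv_anti₀ (by positivity) hCH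
      _ = H ^ (-(1.1 / j) : ℝ) := (Real.rpow_neg hH0.le _).symm
      _ ≤ _ := by
        apply Real.rpow_le_rpow_of_exponent_le hH
        rw [neg_le_neg_iff, div_le_div_iff₀ (by positivity) hj0]
        nlinarith
  have h3 := hT H (2 * C) C hH (by linarith) hC P
    (fun c hc => ⟨(hP c hc).1, (hP c hc).2.2.2⟩) γ hγ
    ((Fintype.piFinset (fun _ : Fin j => P)).filter (fun x => ¬ Function.Injective x))
    (Finset.filter_subset _ _) (by
      intro x hx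
      rw [Finset.mem_filter, Fintype.mem_piFinset] at hx
      obtain ⟨hx1, hx2⟩ := hx
      unfold Function.Injective at hx2
      push Not at hx2
      obtain ⟨a, b, hab, hne⟩ := hx2
      refine ⟨x a, (hP _ (hx1 a)).2.2.1.le, ?_⟩
      have : x a * x b ∣ ∏ i, x i := by
        have h4 : ∏ i ∈ ({a, b} : Finset (Fin j)), x i ∣ ∏ i, x i :=
          Finset.prod_dvd_prod_of_subset _ _ _ (Finset.subset_univ _)
        rwa [Finset.prod_pair hne] at h4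
      rw [← hab] at this
      rw [sq]; exact this)
  have e1 : ∑ h ∈ S H, ‖Rr P γ j h‖ ^ 2 = ∑ h ∈ S H, ‖∑ x ∈ (Fintype.piFinset
      (fun _ : Fin j => P)).filter (fun x => ¬ Function.Injective x),
      (∏ i, γ (x i)) * sy (∏ i, x i) h‖ ^ 2 := by
    refine Finset.sum_congr rfl fun h _ => ?_
    unfold Rr
    congr 2
  rw [e1]
  refine h3.trans ?_
  rw [← hZ]
  set Y := (H * Z) ^ ((2 : ℝ) / 3) with hY
  have hY0 : 0 < Y := by positivity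
  -- bounds
  have b1 : (H * (2 * C)) ^ ε ≤ 2 * H ^ ((3 : ℝ) / 90 * (1 / j)) := by
    have hCle : 2 * C ≤ 2 * H ^ (1.8 : ℝ) := by
      have : C ≤ C ^ j := le_self_pow₀ hC (by omega)
      linarith
    have hε1 : ε ≤ 1 := by
      rw [hε, div_le_one (by positivity)]; nlinarith
    calc (H * (2 * C)) ^ ε ≤ (2 * H ^ (2.8 : ℝ)) ^ ε := by
          apply Real.rpow_le_rpow (by positivity) _ hε0.le
          calc H * (2 * C) ≤ H * (2 * H ^ (1.8 : ℝ)) := by gcongr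
            _ = 2 * (H ^ (1 : ℝ) * H ^ (1.8 : ℝ)) := by rw [Real.rpow_one]; ring
            _ = 2 * H ^ (2.8 : ℝ) := by rw [← Real.rpow_add hH0]; norm_num
      _ = 2 ^ ε * H ^ (2.8 * ε) := by
          rw [Real.mul_rpow (by norm_num) (by positivity), ← Real.rpow_mul hH0.le]
      _ ≤ 2 ^ (1 : ℝ) * H ^ ((3 : ℝ) / 90 * (1 / j)) := by
          have c1 : (2 : ℝ) ^ ε ≤ 2 ^ (1 : ℝ) :=
            Real.rpow_le_rpow_of_exponent_le (by norm_num) hε1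
          have c2 : H ^ (2.8 * ε) ≤ H ^ ((3 : ℝ) / 90 * (1 / j)) := by
            apply Real.rpow_le_rpow_of_exponent_le hH
            rw [hε]
            have : 2.8 * (1 / (90 * (j : ℝ))) = 2.8 / 90 * (1 / j) := by field_simp
            rw [this]
            have hj1 : 0 < 1 / (j : ℝ) := by positivity
            nlinarith
          exact mul_le_mul c1 c2 (by positivity) (by positivity)
      _ = _ := by rw [Real.rpow_one]
  have b2 : H ≤ Y * H ^ (-(1 / (15 * j)) : ℝ) := by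
    refine (H_le hH h1').trans ?_
    gcongr
    rw [div_le_iff₀ (by positivity)]; nlinarith
  have b3 : Z + Y ≤ 2 * 2 ^ j * Y := by
    have := Z_le hH hA hZ1 h2'
    have h5 : H ^ (-(1 / 15) : ℝ) ≤ 1 := Real.rpow_le_one_of_one_le_of_nonpos hH (by norm_num)
    have h6 : Z ≤ 2 ^ j * Y * 1 := this.trans (by gcongr)
    nlinarith
  calc K * (H * (2 * C)) ^ ε * Z * (H + C⁻¹ * (Z + Y))
      ≤ K * (2 * H ^ ((3 : ℝ) / 90 * (1 / j))) * Z * (Y * H ^ (-(1 / (15 * j)) : ℝ) +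
        H ^ (-(1 / (15 * j)) : ℝ) * (2 * 2 ^ j * Y)) := by gcongr
    _ = K * (2 * (1 + 2 * 2 ^ j)) * (H ^ ((3 : ℝ) / 90 * (1 / j)) *
        H ^ (-(1 / (15 * j)) : ℝ)) * Y * Z := by ring
    _ = _ := by
        rw [← Real.rpow_add hH0]
        have : (3 : ℝ) / 90 * (1 / j) + -(1 / (15 * j)) = -(1 / (30 * j)) := by
          field_simp; norm_num
        rw [this]

/-! ### the small numerators -/

lemma E_small {j : ℕ} (hj : 2 ≤ j) : ∃ K : ℝ, 0 < K ∧ ∀ H C : ℝ, 1 ≤ H → 1 ≤ C →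
    H ^ (1.1 : ℝ) ≤ C ^ j → C ^ j ≤ H ^ (1.8 : ℝ) → ∀ P : Finset Eis,
    ∀ γ : Eis → ℂ, (∀ p ∈ P, ‖γ p‖ ≤ 1) →
    ∑ h ∈ S (H ^ (0.98 : ℝ)), ‖CR2.Eb (bset P γ j) ((2 * C) ^ j) h‖ ^ 2 ≤
      K * H ^ (-(1 / 150) : ℝ) * (H * (2 * C) ^ j) ^ ((2 : ℝ) / 3) * (2 * C) ^ j := by
  obtain ⟨K, hK, hF⟩ := LS448.hb_final (1 / 450) (by norm_num)
  refine ⟨K * 2 ^ j * (2 + 2 ^ j) * 16, by positivity, ?_⟩
  intro H C hH hC h1 h2 P γ hγ
  have hH0 : 0 < H := by linarith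
  have hC0 : 0 < C := by linarith
  set Z : ℝ := (2 * C) ^ j with hZ
  have hZ1 : 1 ≤ Z := one_le_pow₀ (by linarith)
  have hCZ : C ^ j ≤ Z := by rw [hZ]; gcongr; linarith
  have h1' : H ^ (1.1 : ℝ) ≤ Z := h1.trans hCZ
  have h2' : Z ≤ 2 ^ j * H ^ (1.8 : ℝ) := by
    rw [hZ, mul_pow]; gcongr
  have hA : (1 : ℝ) ≤ 2 ^ j := one_le_pow₀ (by norm_num)
  set H1 : ℝ := H ^ (0.98 : ℝ) with hH1
  have hH11 : 1 ≤ H1 := Real.one_le_rpow hH (by norm_num)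
  have hH1H : H1 ≤ H := by
    calc H1 ≤ H ^ (1 : ℝ) := Real.rpow_le_rpow_of_exponent_le hH (by norm_num)
      _ = H := Real.rpow_one H
  have h3 := hF H1 Z hH11 hZ1 (bset P γ j)
  have e1 : ∑ h ∈ S H1, ‖CR2.Eb (bset P γ j) Z h‖ ^ 2 =
      ∑ m ∈ S H1, ‖∑ n ∈ S Z, bset P γ j n * sy m n‖ ^ 2 := by
    refine Finset.sum_congr rfl fun m hm => ?_
    have hm' := ((mem_S (by linarith)).1 hm).2.1
    unfold CR2.Eb
    congr 2
    refine Finset.sum_congr rfl fun n hn => ?_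
    rw [syG.recip n m ((mem_S (by linarith)).1 hn).2.1 hm']
  rw [e1]
  refine h3.trans ?_
  have hb := l2_bset hγ j hZ1
  set Y := (H * Z) ^ ((2 : ℝ) / 3) with hY
  have hY0 : 0 < Y := by positivity
  set Q := H ^ (-(1 / 75) : ℝ) with hQ
  have hQ0 : 0 < Q := by positivity
  have c1 : H1 ≤ Y * Q := by
    refine hH1H.trans ((H_le hH h1').trans ?_)
    have : H ^ (-(0.4 : ℝ)) ≤ Q := Real.rpow_le_rpow_of_exponent_le hH (by norm_num)
    gcongr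
  have c2 : Z ≤ 2 ^ j * Y * Q := by
    refine (Z_le hH hA hZ1 h2').trans ?_
    have : H ^ (-(1 / 15) : ℝ) ≤ Q := Real.rpow_le_rpow_of_exponent_le hH (by norm_num)
    gcongr
  have c3 : (H1 * Z) ^ ((2 : ℝ) / 3) = Y * Q := by
    rw [hY, hQ, hH1, Real.mul_rpow (by positivity) (by linarith), Real.mul_rpow hH0.le
      (by linarith), ← Real.rpow_mul hH0.le]
    have : H ^ ((0.98 : ℝ) * (2 / 3)) = H ^ ((2 : ℝ) / 3) * H ^ (-(1 / 75) : ℝ) := by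
      rw [← Real.rpow_add hH0]; norm_num
    rw [this]; ring
  have c4 : (H1 * Z) ^ (1 / 450 : ℝ) ≤ 2 ^ j * H ^ (1 / 150 : ℝ) := by
    calc (H1 * Z) ^ (1 / 450 : ℝ) ≤ (2 ^ j * H ^ (2.8 : ℝ)) ^ (1 / 450 : ℝ) := by
          apply Real.rpow_le_rpow (by positivity) _ (by norm_num)
          calc H1 * Z ≤ H * (2 ^ j * H ^ (1.8 : ℝ)) := by gcongr
            _ = 2 ^ j * (H ^ (1 : ℝ) * H ^ (1.8 : ℝ)) := by rw [Real.rpow_one]; ring
            _ = 2 ^ j * H ^ (2.8 : ℝ) := by rw [← Real.rpow_add hH0]; norm_num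
      _ = (2 ^ j) ^ (1 / 450 : ℝ) * H ^ (2.8 * (1 / 450) : ℝ) := by
          rw [Real.mul_rpow (by positivity) (by positivity), ← Real.rpow_mul hH0.le]
      _ ≤ (2 ^ j) ^ (1 : ℝ) * H ^ (1 / 150 : ℝ) := by
          have d1 : ((2 : ℝ) ^ j) ^ (1 / 450 : ℝ) ≤ (2 ^ j) ^ (1 : ℝ) :=
            Real.rpow_le_rpow_of_exponent_le hA (by norm_num)
          have d2 : H ^ (2.8 * (1 / 450) : ℝ) ≤ H ^ (1 / 150 : ℝ) :=
            Real.rpow_le_rpow_of_exponent_le hH (by norm_num)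
          exact mul_le_mul d1 d2 (by positivity) (by positivity)
      _ = _ := by rw [Real.rpow_one]
  have c5 : H1 + Z + (H1 * Z) ^ ((2 : ℝ) / 3) ≤ (2 + 2 ^ j) * Y * Q := by
    rw [c3]; nlinarith
  have hs0 : 0 ≤ ∑ n ∈ S Z, ‖bset P γ j n‖ ^ 2 := Finset.sum_nonneg fun _ _ => by positivity
  calc K * (H1 * Z) ^ (1 / 450 : ℝ) * (H1 + Z + (H1 * Z) ^ ((2 : ℝ) / 3)) *
        ∑ n ∈ S Z, ‖bset P γ j n‖ ^ 2
      ≤ K * (2 ^ j * H ^ (1 / 150 : ℝ)) * ((2 + 2 ^ j) * Y * Q) * (16 * Z) :=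
        mul_le_mul (mul_le_mul (mul_le_mul_of_nonneg_left c4 hK.le) c5 (by positivity)
          (by positivity)) hb hs0 (by positivity)
    _ = K * 2 ^ j * (2 + 2 ^ j) * 16 * (H ^ (1 / 150 : ℝ) * Q) * Y * Z := by ring
    _ = _ := by
        rw [hQ, ← Real.rpow_add hH0]
        norm_num

/-! ### one dyadic block -/

lemma E_block (hCB : CR2.CoreB) {j : ℕ} (hj : 2 ≤ j) : ∃ δ K H₀ : ℝ, 0 < δ ∧ 0 < K ∧ 1 ≤ H₀ ∧
    ∀ H C : ℝ, H₀ ≤ H → 1 ≤ C → H ^ (1.1 : ℝ) ≤ C ^ j → C ^ j ≤ H ^ (1.8 : ℝ) →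
    ∀ P : Finset Eis, IsPP P C → ∀ γ : Eis → ℂ, (∀ p ∈ P, ‖γ p‖ ≤ 1) →
    ∀ U : ℝ, H ^ (0.98 : ℝ) / 2 ≤ U → U ≤ H →
    ∑ h ∈ (S (2 * U)).filter (fun h => U < nm h), ‖CR2.Eb (bset P γ j) ((2 * C) ^ j) h‖ ^ 2 ≤
      K * H ^ (-δ) * (H * (2 * C) ^ j) ^ ((2 : ℝ) / 3) * (2 * C) ^ j := by
  have hj0 : (0 : ℝ) < j := by exact_mod_cast (by omega : 0 < j)
  obtain ⟨Kb, hKb, hbil⟩ := bil_hyp hj
  obtain ⟨δ, κ, K, hδ, hκ, hκ1, hK, hcore⟩ := hCB (1 / 7) (1 / j) (max 16 Kb) (by norm_num)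
    (by positivity) (by positivity)
  set H₀ : ℝ := 2 ^ ((j + 2 : ℝ) * (1000 / 13)) with hH₀
  have hH₀1 : 1 ≤ H₀ := Real.one_le_rpow (by norm_num) (by positivity)
  refine ⟨δ / 2, K, H₀, by positivity, hK, hH₀1, ?_⟩
  intro H C hHH hC h1 h2 P hP γ hγ U hU1 hU2
  have hH : 1 ≤ H := hH₀1.trans hHH
  have hH0 : 0 < H := by linarith
  have hC0 : 0 < C := by linarith
  set Z : ℝ := (2 * C) ^ j with hZ
  have hZ1 : 1 ≤ Z := one_le_pow₀ (by linarith)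
  have hCZ : C ^ j ≤ Z := by rw [hZ]; gcongr; linarith
  have h1' : H ^ (1.1 : ℝ) ≤ Z := h1.trans hCZ
  have h2' : Z ≤ 2 ^ j * H ^ (1.8 : ℝ) := by
    rw [hZ, mul_pow]; gcongr
  have h13 : (2 : ℝ) ^ (j + 2 : ℝ) ≤ H ^ (0.013 : ℝ) := by
    calc (2 : ℝ) ^ (j + 2 : ℝ) = H₀ ^ (0.013 : ℝ) := by
          rw [hH₀, ← Real.rpow_mul (by norm_num)]
          congr 1
          ring
      _ ≤ H ^ (0.013 : ℝ) := Real.rpow_le_rpow (by linarith) hHH (by norm_num)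
  have h2p : (2 : ℝ) ^ (j + 2 : ℝ) = 2 ^ j * 4 := by
    rw [Real.rpow_add (by norm_num), Real.rpow_natCast]; norm_num
  have hA : (1 : ℝ) ≤ 2 ^ j := one_le_pow₀ (by norm_num)
  have hU5 : H ^ (0.5 : ℝ) ≤ U := by
    refine le_trans ?_ hU1
    rw [le_div_iff₀ (by norm_num)]
    have e : H ^ (0.98 : ℝ) = H ^ (0.5 : ℝ) * H ^ (0.48 : ℝ) := by
      rw [← Real.rpow_add hH0]; norm_num
    rw [e]
    have : (2 : ℝ) ≤ H ^ (0.48 : ℝ) := by
      calc (2 : ℝ) ≤ 2 ^ j * 4 := by linarith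
        _ = 2 ^ (j + 2 : ℝ) := h2p.symm
        _ ≤ H ^ (0.013 : ℝ) := h13
        _ ≤ _ := Real.rpow_le_rpow_of_exponent_le hH (by norm_num)
    gcongr
  have hU : 1 ≤ U := (Real.one_le_rpow hH (by norm_num)).trans hU5
  have hU0 : 0 < U := by linarith
  have hUZ : U ^ (1.05 : ℝ) ≤ Z := by
    calc U ^ (1.05 : ℝ) ≤ H ^ (1.05 : ℝ) := Real.rpow_le_rpow hU0.le hU2 (by norm_num)
      _ ≤ H ^ (1.1 : ℝ) := Real.rpow_le_rpow_of_exponent_le hH (by norm_num)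
      _ ≤ Z := h1'
  have hZU : Z ≤ U ^ (1.85 : ℝ) := by
    refine h2'.trans ?_
    calc 2 ^ j * H ^ (1.8 : ℝ) ≤ (H ^ (0.98 : ℝ) / 2) ^ (1.85 : ℝ) := by
          rw [Real.div_rpow (by positivity) (by norm_num), ← Real.rpow_mul hH0.le,
            le_div_iff₀ (by positivity)]
          have e : H ^ ((0.98 : ℝ) * 1.85) = H ^ (1.8 : ℝ) * H ^ (0.013 : ℝ) := by
            rw [← Real.rpow_add hH0]; norm_num
          rw [e]
          have : (2 : ℝ) ^ (1.85 : ℝ) ≤ 4 := by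
            calc (2 : ℝ) ^ (1.85 : ℝ) ≤ 2 ^ (2 : ℝ) :=
                  Real.rpow_le_rpow_of_exponent_le (by norm_num) (by norm_num)
              _ = 4 := by norm_num
          calc 2 ^ j * H ^ (1.8 : ℝ) * 2 ^ (1.85 : ℝ) ≤ 2 ^ j * H ^ (1.8 : ℝ) * 4 := by gcongr
            _ = H ^ (1.8 : ℝ) * (2 ^ j * 4) := by ring
            _ ≤ H ^ (1.8 : ℝ) * H ^ (0.013 : ℝ) := by
              rw [← h2p]; gcongr
      _ ≤ U ^ (1.85 : ℝ) := Real.rpow_le_rpow (by positivity) hU1 (by norm_num)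
  have hCH : H ^ (1 / j : ℝ) ≤ C := by
    have : (H ^ (1 / j : ℝ)) ^ j ≤ C ^ j := by
      rw [← Real.rpow_natCast, ← Real.rpow_mul hH0.le, div_mul_cancel₀ _ hj0.ne']
      exact le_trans (Real.rpow_le_rpow_of_exponent_le hH (by norm_num)) h1
    exact le_of_pow_le_pow_left₀ (by omega) hC0.le this
  have hUκ : U ^ κ ≤ C := by
    calc U ^ κ ≤ H ^ κ := Real.rpow_le_rpow hU0.le hU2 hκ.le
      _ ≤ H ^ (1 / j : ℝ) := Real.rpow_le_rpow_of_exponent_le hH hκ1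
      _ ≤ C := hCH
  have h5 := hcore U Z hU hUZ hZU (bset P γ j)
    ((l2_bset hγ j hZ1).trans (by
      have := le_max_left 16 Kb
      gcongr))
    (by
      intro n hn hbn r hr hrU
      have hn' := (mem_S (by linarith)).1 hn
      rw [isCoprime_iff_pp hn'.2.1]
      intro p hp hpn hpr
      have hppn : p ∈ pp n := (mem_pp hn'.2.1.ne_zero).2 ⟨hp, hpn⟩
      have hpP : p ∈ P := by
        unfold bset at hbn
        by_contra h
        apply hbn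
        rw [if_neg]
        rintro ⟨h3, _⟩
        exact h (h3 hppn)
      have h6 := (hP p hpP).2.2.1
      have h7 : (nm p : ℝ) ≤ nm r := by exact_mod_cast Div277.nm_le_of_dvd hr hpr
      linarith)
    (by
      intro r hr _
      refine (hbil C U hC hU hUZ P γ (fun p hp => ⟨(hP p hp).1, (hP p hp).2.1, (hP p hp).2.2.1,
        (hP p hp).2.2.2, hγ p hp⟩) r).trans ?_
      have := le_max_right 16 Kb
      gcongr)
  refine h5.trans ?_
  have h6 : U ^ (-δ) ≤ H ^ (-(δ / 2)) := by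
    calc U ^ (-δ) ≤ (H ^ (0.5 : ℝ)) ^ (-δ) :=
          Real.rpow_le_rpow_of_nonpos (by positivity) hU5 (by linarith)
      _ = H ^ (-(δ / 2)) := by
          rw [← Real.rpow_mul hH0.le]; congr 1; ring
  have h7 : (U * Z) ^ ((2 : ℝ) / 3) ≤ (H * Z) ^ ((2 : ℝ) / 3) := by gcongr
  calc K * U ^ (-δ) * (U * Z) ^ ((2 : ℝ) / 3) * Z
      ≤ K * H ^ (-(δ / 2)) * (H * Z) ^ ((2 : ℝ) / 3) * Z := by gcongr

/-! ### dyadic decomposition -/

lemma cover {H H1 B : ℝ} (hH1 : 1 ≤ H1) (hHH : H1 ≤ H) (hB : 0 ≤ B) (f : Eis → ℝ)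
    (hf : ∀ h, 0 ≤ f h)
    (h : ∀ U : ℝ, H1 / 2 ≤ U → U ≤ H → ∑ h ∈ (S (2 * U)).filter (fun h => U < nm h), f h ≤ B) :
    ∑ h ∈ S H, f h ≤ ∑ h ∈ S H1, f h + (Real.logb 2 H + 1) * B := by
  classical
  have hH : 1 ≤ H := hH1.trans hHH
  have key : ∀ N : ℕ, ∑ h ∈ S H, f h ≤ ∑ h ∈ S (max (H / 2 ^ N) H1), f h + N * B := by
    intro N
    induction N with
    | zero =>
      rw [pow_zero, div_one, max_eq_left hHH]; simp
    | succ N ih =>
      refine ih.trans ?_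
      push_cast
      by_cases hc : H / 2 ^ N ≤ H1
      · have hc' : H / 2 ^ (N + 1) ≤ H1 := by
          refine le_trans ?_ hc
          rw [pow_succ]
          apply div_le_div_of_nonneg_left (by linarith) (by positivity)
          have : (0 : ℝ) < 2 ^ N := by positivity
          linarith
        rw [max_eq_right hc, max_eq_right hc']
        nlinarith
      · have hc2 := not_le.1 hc
        rw [max_eq_left hc2.le]
        set X := H / 2 ^ N with hX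
        have hX0 : 0 < X := by linarith
        have hXH : X ≤ H := div_le_self (by linarith) (one_le_pow₀ (by norm_num))
        have e1 : H / 2 ^ (N + 1) = X / 2 := by rw [hX, pow_succ]; field_simp
        rw [e1]
        have h3 := h (X / 2) (by linarith) (by linarith)
        have e2 : 2 * (X / 2) = X := by ring
        rw [e2] at h3
        have h4 : ∑ h ∈ (S X).filter (fun h => ¬ (X / 2 < nm h)), f h ≤
            ∑ h ∈ S (max (X / 2) H1), f h := by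
          refine Finset.sum_le_sum_of_subset_of_nonneg ?_ (fun _ _ _ => hf _)
          intro x hx
          rw [Finset.mem_filter, mem_S hX0.le] at hx
          rw [mem_S (le_trans (by linarith) (le_max_right _ _))]
          exact ⟨(not_lt.1 hx.2).trans (le_max_left _ _), hx.1.2⟩
        rw [← Finset.sum_filter_add_sum_filter_not (S X) (fun h => X / 2 < (nm h : ℝ))]
        linarith
  obtain ⟨N, hN1, hN2⟩ : ∃ N : ℕ, Real.logb 2 H ≤ N ∧ (N : ℝ) ≤ Real.logb 2 H + 1 := by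
    have h0 : 0 ≤ Real.logb 2 H := Real.logb_nonneg (by norm_num) hH
    exact ⟨⌈Real.logb 2 H⌉₊, Nat.le_ceil _, (Nat.ceil_lt_add_one h0).le⟩
  have h5 := key N
  have h6 : H / 2 ^ N ≤ H1 := by
    refine le_trans ?_ hH1
    rw [div_le_one (by positivity)]
    rw [Real.logb_le_iff_le_rpow (by norm_num) (by linarith), Real.rpow_natCast] at hN1
    exact hN1
  rw [max_eq_right h6] at h5
  refine h5.trans ?_
  gcongr

lemma E_bound (hCB : CR2.CoreB) {j : ℕ} (hj : 2 ≤ j) : ∃ δ K H₀ : ℝ, 0 < δ ∧ 0 < K ∧ 1 ≤ H₀ ∧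
    ∀ H C : ℝ, H₀ ≤ H → 1 ≤ C → H ^ (1.1 : ℝ) ≤ C ^ j → C ^ j ≤ H ^ (1.8 : ℝ) →
    ∀ P : Finset Eis, IsPP P C → ∀ γ : Eis → ℂ, (∀ p ∈ P, ‖γ p‖ ≤ 1) →
    ∑ h ∈ S H, ‖CR2.Eb (bset P γ j) ((2 * C) ^ j) h‖ ^ 2 ≤
      K * H ^ (-δ) * (H * (2 * C) ^ j) ^ ((2 : ℝ) / 3) * (2 * C) ^ j := by
  obtain ⟨K1, hK1, hs⟩ := E_small hj
  obtain ⟨δ, K2, H₀, hδ, hK2, hH₀, hb⟩ := E_block hCB hj
  have hl2 : 0 < Real.log 2 := Real.log_pos (by norm_num)
  set δ' := min (δ / 2) (1 / 150) with hδ'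
  have hδ'0 : 0 < δ' := by positivity
  set K3 := 2 / (δ * Real.log 2) + 1 with hK3
  have hK30 : 0 < K3 := by positivity
  refine ⟨δ', K1 + K3 * K2, H₀, hδ'0, by positivity, hH₀, ?_⟩
  intro H C hHH hC h1 h2 P hP γ hγ
  have hH : 1 ≤ H := hH₀.trans hHH
  have hH0 : 0 < H := by linarith
  set Z : ℝ := (2 * C) ^ j with hZ
  have hZ0 : 0 < Z := by positivity
  set Y := (H * Z) ^ ((2 : ℝ) / 3) with hY
  have hY0 : 0 < Y := by positivity
  have hH11 : 1 ≤ H ^ (0.98 : ℝ) := Real.one_le_rpow hH (by norm_num)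
  have hH1H : H ^ (0.98 : ℝ) ≤ H := by
    calc H ^ (0.98 : ℝ) ≤ H ^ (1 : ℝ) := Real.rpow_le_rpow_of_exponent_le hH (by norm_num)
      _ = H := Real.rpow_one H
  have h3 := cover hH11 hH1H (B := K2 * H ^ (-δ) * Y * Z) (by positivity)
    (fun h => ‖CR2.Eb (bset P γ j) Z h‖ ^ 2) (fun _ => by positivity)
    (fun U hU1 hU2 => hb H C hHH hC h1 h2 P hP γ hγ U hU1 hU2)
  refine h3.trans ?_
  have h4 := hs H C hH hC h1 h2 P γ hγ
  rw [← hZ, ← hY] at h4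
  have h5 : Real.logb 2 H + 1 ≤ K3 * H ^ (δ / 2) := by
    have a1 : Real.log H ≤ H ^ (δ / 2) / (δ / 2) := Real.log_le_rpow_div hH0.le (by positivity)
    have a2 : Real.logb 2 H ≤ 2 / (δ * Real.log 2) * H ^ (δ / 2) := by
      unfold Real.logb
      rw [div_le_iff₀ hl2]
      refine a1.trans (le_of_eq ?_)
      field_simp
    have a3 : 1 ≤ H ^ (δ / 2) := Real.one_le_rpow hH (by positivity)
    rw [hK3, add_mul, one_mul]
    linarith
  have h6 : H ^ (-(1 / 150) : ℝ) ≤ H ^ (-δ') :=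
    Real.rpow_le_rpow_of_exponent_le hH (by
      have := min_le_right (δ / 2) (1 / 150); linarith)
  have h7 : H ^ (δ / 2) * H ^ (-δ) ≤ H ^ (-δ') := by
    rw [← Real.rpow_add hH0]
    exact Real.rpow_le_rpow_of_exponent_le hH (by
      have := min_le_left (δ / 2) (1 / 150); linarith)
  calc ∑ h ∈ S (H ^ (0.98 : ℝ)), ‖CR2.Eb (bset P γ j) Z h‖ ^ 2 +
        (Real.logb 2 H + 1) * (K2 * H ^ (-δ) * Y * Z)
      ≤ K1 * H ^ (-(1 / 150) : ℝ) * Y * Z + (K3 * H ^ (δ / 2)) * (K2 * H ^ (-δ) * Y * Z) := by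
        gcongr
    _ = K1 * H ^ (-(1 / 150) : ℝ) * Y * Z + K3 * K2 * (H ^ (δ / 2) * H ^ (-δ)) * Y * Z := by ring
    _ ≤ K1 * H ^ (-δ') * Y * Z + K3 * K2 * H ^ (-δ') * Y * Z := by gcongr
    _ = _ := by ring

/-! ### the theorem -/

lemma card_P_le {P : Finset Eis} {C : ℝ} (hC : 1 ≤ C) (hP : IsPP P C) : (P.card : ℝ) ≤ 32 * C := by
  have h1 : P ⊆ S (2 * C) := by
    intro p hp
    rw [mem_S (by linarith)]
    exact ⟨(hP p hp).2.2.2, (hP p hp).1, (hP p hp).2.1.squarefree⟩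
  calc (P.card : ℝ) ≤ ((S (2 * C)).card : ℝ) := by exact_mod_cast Finset.card_le_card h1
    _ ≤ 16 * (2 * C) := GLS106.card_S_le (by linarith)
    _ = _ := by ring

lemma norm_F_le {P : Finset Eis} {C : ℝ} (hC : 1 ≤ C) (hP : IsPP P C) {γ : Eis → ℂ}
    (hγ : ∀ p ∈ P, ‖γ p‖ ≤ 1) (h : Eis) : ‖F P γ h‖ ≤ 32 * C := by
  refine le_trans ?_ (card_P_le hC hP)
  unfold F
  calc ‖∑ c ∈ P, γ c * sy h c‖ ≤ ∑ c ∈ P, ‖γ c * sy h c‖ := norm_sum_le _ _
    _ ≤ ∑ c ∈ P, (1 : ℝ) := by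
        refine Finset.sum_le_sum fun c hc => ?_
        rw [norm_mul]
        exact mul_le_one₀ (hγ c hc) (norm_nonneg _) (Gauss880.norm_sy_le syG (hP c hc).1)
    _ = _ := by simp

/-- **(CR2-F)** -/
theorem savedMom_of_coreB (hCB : CR2.CoreB) : SavedMom := by
  intro j hj
  obtain ⟨δ1, K1, H₀, hδ1, hK1, hH₀, hE⟩ := E_bound hCB hj
  obtain ⟨δ2, K2, hδ2, hK2, hR⟩ := R_bound hj
  set δ := min δ1 δ2 with hδ
  have hδ0 : 0 < δ := by positivity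
  set K := (2 * (j.factorial : ℝ) ^ 2 * K1 + 2 * K2) * 4 ^ j with hK
  set K' := 16 * H₀ * (32 * H₀ ^ (1.8 : ℝ)) ^ (2 * j) * H₀ ^ δ with hK'
  have hKp : 0 < K := by positivity
  have hKp' : 0 < K' := by positivity
  refine ⟨δ, K + K', hδ0, by positivity, ?_⟩
  intro H C hH hC h1 h2 S' P hS hP γ hγ
  have hH0 : 0 < H := by linarith
  have hC0 : 0 < C := by linarith
  have hSS : S' ⊆ S H := GLS106.isSF_subset (by linarith) hS
  have hCj1 : 1 ≤ C ^ j := one_le_pow₀ hC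
  by_cases hHH : H₀ ≤ H
  · -- large `H`
    have a1 := hE H C hHH hC h1 h2 P hP γ hγ
    have a2 := hR H C hH hC h1 h2 P hP γ hγ
    set Z : ℝ := (2 * C) ^ j with hZ
    have hZ0 : 0 < Z := by positivity
    have b1 : H ^ (-δ1) ≤ H ^ (-δ) := Real.rpow_le_rpow_of_exponent_le hH (by
      have := min_le_left δ1 δ2; linarith)
    have b2 : H ^ (-δ2) ≤ H ^ (-δ) := Real.rpow_le_rpow_of_exponent_le hH (by
      have := min_le_right δ1 δ2; linarith)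
    have b3 : (H * Z) ^ ((2 : ℝ) / 3) ≤ 2 ^ j * (H * C ^ j) ^ ((2 : ℝ) / 3) := by
      have e1 : H * Z = 2 ^ j * (H * C ^ j) := by rw [hZ, mul_pow]; ring
      rw [e1, Real.mul_rpow (by positivity) (by positivity)]
      have : ((2 : ℝ) ^ j) ^ ((2 : ℝ) / 3) ≤ 2 ^ j := by
        calc ((2 : ℝ) ^ j) ^ ((2 : ℝ) / 3) ≤ ((2 : ℝ) ^ j) ^ (1 : ℝ) :=
              Real.rpow_le_rpow_of_exponent_le (one_le_pow₀ (by norm_num)) (by norm_num)
          _ = _ := Real.rpow_one _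
      gcongr
    have b4 : Z = 2 ^ j * C ^ j := by rw [hZ, mul_pow]
    have h4j : (4 : ℝ) ^ j = 2 ^ j * 2 ^ j := by rw [← mul_pow]; norm_num
    calc ∑ h ∈ S', ‖F P γ h‖ ^ (2 * j) ≤ ∑ h ∈ S H, ‖F P γ h‖ ^ (2 * j) :=
          Finset.sum_le_sum_of_subset_of_nonneg hSS fun _ _ _ => by positivity
      _ ≤ ∑ h ∈ S H, (2 * (j.factorial : ℝ) ^ 2 * ‖CR2.Eb (bset P γ j) Z h‖ ^ 2 +
          2 * ‖Rr P γ j h‖ ^ 2) :=
          Finset.sum_le_sum fun h hh => norm_F_pow_le hC hP γ j ((mem_S hH0.le).1 hh).2.1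
      _ = 2 * (j.factorial : ℝ) ^ 2 * ∑ h ∈ S H, ‖CR2.Eb (bset P γ j) Z h‖ ^ 2 +
          2 * ∑ h ∈ S H, ‖Rr P γ j h‖ ^ 2 := by
          rw [Finset.sum_add_distrib, Finset.mul_sum, Finset.mul_sum]
      _ ≤ 2 * (j.factorial : ℝ) ^ 2 * (K1 * H ^ (-δ1) * (H * Z) ^ ((2 : ℝ) / 3) * Z) +
          2 * (K2 * H ^ (-δ2) * (H * Z) ^ ((2 : ℝ) / 3) * Z) := by gcongr
      _ ≤ 2 * (j.factorial : ℝ) ^ 2 * (K1 * H ^ (-δ) * (2 ^ j * (H * C ^ j) ^ ((2 : ℝ) / 3)) *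
          (2 ^ j * C ^ j)) +
          2 * (K2 * H ^ (-δ) * (2 ^ j * (H * C ^ j) ^ ((2 : ℝ) / 3)) * (2 ^ j * C ^ j)) := by
          rw [b4] at b3 ⊢
          gcongr
      _ = K * H ^ (-δ) * (H * C ^ j) ^ ((2 : ℝ) / 3) * C ^ j := by rw [hK, h4j]; ring
      _ ≤ (K + K') * H ^ (-δ) * (H * C ^ j) ^ ((2 : ℝ) / 3) * C ^ j := by
          gcongr; linarith
  · -- small `H`
    have hHH' := (not_le.1 hHH).le
    have c1 : C ≤ H₀ ^ (1.8 : ℝ) := by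
      calc C ≤ C ^ j := le_self_pow₀ hC (by omega)
        _ ≤ H ^ (1.8 : ℝ) := h2
        _ ≤ _ := Real.rpow_le_rpow hH0.le hHH' (by norm_num)
    have c2 : ∀ h ∈ S', ‖F P γ h‖ ^ (2 * j) ≤ (32 * H₀ ^ (1.8 : ℝ)) ^ (2 * j) := by
      intro h _
      apply pow_le_pow_left₀ (norm_nonneg _)
      exact (norm_F_le hC hP hγ h).trans (by gcongr)
    have c3 : (S'.card : ℝ) ≤ 16 * H₀ := by
      calc (S'.card : ℝ) ≤ ((S H).card : ℝ) := by exact_mod_cast Finset.card_le_card hSS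
        _ ≤ 16 * H := GLS106.card_S_le hH
        _ ≤ _ := by gcongr
    have c4 : 1 ≤ (H * C ^ j) ^ ((2 : ℝ) / 3) * C ^ j := by
      refine one_le_mul_of_one_le_of_one_le ?_ hCj1
      exact Real.one_le_rpow (one_le_mul_of_one_le_of_one_le hH hCj1) (by norm_num)
    have c5 : 1 ≤ H₀ ^ δ * H ^ (-δ) := by
      rw [Real.rpow_neg hH0.le, ← div_eq_mul_inv, le_div_iff₀ (by positivity), one_mul]
      exact Real.rpow_le_rpow hH0.le hHH' hδ0.le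
    calc ∑ h ∈ S', ‖F P γ h‖ ^ (2 * j) ≤ ∑ h ∈ S', (32 * H₀ ^ (1.8 : ℝ)) ^ (2 * j) :=
          Finset.sum_le_sum c2
      _ = (S'.card : ℝ) * (32 * H₀ ^ (1.8 : ℝ)) ^ (2 * j) := by
          rw [Finset.sum_const, nsmul_eq_mul]
      _ ≤ 16 * H₀ * (32 * H₀ ^ (1.8 : ℝ)) ^ (2 * j) := by gcongr
      _ = 16 * H₀ * (32 * H₀ ^ (1.8 : ℝ)) ^ (2 * j) * 1 * 1 := by ring
      _ ≤ 16 * H₀ * (32 * H₀ ^ (1.8 : ℝ)) ^ (2 * j) * (H₀ ^ δ * H ^ (-δ)) *
          ((H * C ^ j) ^ ((2 : ℝ) / 3) * C ^ j) := by gcongr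
      _ = K' * H ^ (-δ) * (H * C ^ j) ^ ((2 : ℝ) / 3) * C ^ j := by rw [hK']; ring
      _ ≤ (K + K') * H ^ (-δ) * (H * C ^ j) ^ ((2 : ℝ) / 3) * C ^ j := by
          gcongr; linarith

end Crest.Agent.R012.CR2F811
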