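import Crest.Agent.R012.CR2Spec_180
import Crest.Agent.R012.LScount_448

-- ▼ part R012/CR2a_180
section

/-!
# Row 12 (CR2), part a: the structured dual sums as natural Type I sums
-/

set_option autoImplicit false
set_option linter.unusedVariables false
set_option linter.unusedSimpArgs false
set_option linter.unusedSectionVars false

noncomputable section

namespace Crest.Agent.R012.CR2

open Eis LS2 Mob705 Finset CharSum852 Tau671

local notation "cj" => starRingEnd ℂ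

lemma S_prim {X : ℝ} (hX : 0 ≤ X) {n : Eis} (h : n ∈ S X) : IsPrim n := ((mem_S hX).mp h).2.1
lemma S_sqf {X : ℝ} (hX : 0 ≤ X) {n : Eis} (h : n ∈ S X) : Squarefree n := ((mem_S hX).mp h).2.2
lemma S_le {X : ℝ} (hX : 0 ≤ X) {n : Eis} (h : n ∈ S X) : (nm n : ℝ) ≤ X := ((mem_S hX).mp h).1

open Classical in
lemma coprime_ind {k a : Eis} (hk : IsPrim k) (ha : a ≠ 0) :
    (if IsCoprime k a then (1 : ℂ) else 0) = ∑ g ∈ pdiv a, if g ∣ k then (mu g : ℂ) else 0 := by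
  have h := sum_mu_coprime hk ha
  have h2 : ((∑ d ∈ pdiv a, (if d ∣ k then mu d else 0) : ℤ) : ℂ) =
      ((if IsCoprime k a then 1 else 0 : ℤ) : ℂ) := by rw [h]
  push_cast at h2
  rw [← h2]

open Classical in
/-- reindexing a sum over the multiples of `g` -/
lemma sum_mult {X : ℝ} (hX : 0 ≤ X) {g : Eis} (hg : IsPrim g) (F : Eis → ℂ)
    (hF : ∀ k, k ∈ S X → F (g * k) ≠ 0 → g * k ∈ S X) :
    ∑ k ∈ S X, (if g ∣ k then F k else 0) = ∑ k ∈ S X, F (g * k) := by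
  rw [← Finset.sum_filter]
  have h2 : ∑ k ∈ S X, F (g * k) = ∑ k ∈ (S X).filter (fun k => g * k ∈ S X), F (g * k) := by
    rw [Finset.sum_filter]
    refine Finset.sum_congr rfl fun k hk => ?_
    split_ifs with h
    · rfl
    · by_contra hc
      exact h (hF k hk hc)
  rw [h2]
  symm
  refine Finset.sum_bij (fun k _ => g * k) ?_ ?_ ?_ ?_
  · intro k hk
    rw [Finset.mem_filter] at hk ⊢
    exact ⟨hk.2, dvd_mul_right _ _⟩
  · intro a _ b _ hab
    exact mul_left_cancel₀ hg.ne_zero hab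
  · intro k hk
    rw [Finset.mem_filter] at hk
    obtain ⟨hk1, c, rfl⟩ := hk
    have h1 := (mem_S hX).mp hk1
    have hc : IsPrim c := IsPrim.of_mul_left h1.2.1 hg
    have hcs : Squarefree c := h1.2.2.squarefree_of_dvd (dvd_mul_left _ _)
    have hcn : (nm c : ℝ) ≤ X := by
      refine le_trans ?_ h1.1
      have : nm c ≤ nm (g * c) := by
        rw [nm_mul]
        exact Nat.le_mul_of_pos_left _ (nm_pos.mpr hg.ne_zero)
      exact_mod_cast this
    refine ⟨c, ?_, rfl⟩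
    rw [Finset.mem_filter]
    exact ⟨(mem_S hX).mpr ⟨hcn, hc, hcs⟩, hk1⟩
  · intro k _
    rfl

variable (H : SyFacts)
include H

lemma sy_cj {x k : Eis} (hk : IsPrim k) : cj (sy x k) = sy (x ^ 2) k := by
  rw [Tau671.star_sy hk, Tau671.sy_pow hk]

lemma sy_eq_cj {x k : Eis} (hk : IsPrim k) : sy x k = cj (sy (x ^ 2) k) := by
  rw [← sy_cj H hk, Complex.conj_conj]

open Classical in
lemma sy_mul_cube {x m k : Eis} (hk : IsPrim k) :
    sy (x * m ^ 3) k = sy x k * (if IsCoprime k m then (1 : ℂ) else 0) := by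
  rw [H.mul_left _ _ _ hk]
  congr 1
  split_ifs with h
  · exact Tau671.sy_cube hk h.symm
  · rw [Tau671.sy_pow hk, Tau671.sy_eq_zero hk (fun h' => h h'.symm)]
    simp

/-- the part of the dual sum over the multiples of `g` -/
def Bg (w : Eis → ℂ) (X : ℝ) (d e f r g : Eis) (s : ℂ) : ℂ := open Classical in
  ∑ k ∈ S X, if g ∣ k then w (d * f * k) * (sy (e * sq3) k * cj (sy (f * r) k) * G k) *
    (nm k : ℂ) ^ (s - 1 / 2) else 0

/-- Moebius inversion for the cube part of the numerator -/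
lemma dsum_cube {w : Eis → ℂ} {X : ℝ} (hX : 0 ≤ X) {d e f r m : Eis} (hm : m ≠ 0) (s : ℂ) :
    dsum w X d e f (r * m ^ 3) s = ∑ g ∈ pdiv m, (mu g : ℂ) * Bg w X d e f r g s := by
  classical
  unfold dsum Bg
  simp_rw [Finset.mul_sum]
  rw [Finset.sum_comm]
  refine Finset.sum_congr rfl fun k hk => ?_
  have hkp := S_prim hX hk
  have e1 : f * (r * m ^ 3) = (f * r) * m ^ 3 := by ring
  rw [e1, sy_mul_cube H hkp, coprime_ind hkp hm, map_mul, map_sum, Finset.mul_sum, Finset.mul_sum,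
    Finset.sum_mul, Finset.mul_sum, Finset.sum_mul]
  refine Finset.sum_congr rfl fun g _ => ?_
  split_ifs with h
  · rw [map_intCast]; ring
  · simp

/-- the linear form with coefficients `b` -/
def Eb (b : Eis → ℂ) (Z : ℝ) (h : Eis) : ℂ := ∑ n ∈ S Z, b n * sy n h

/-- the structured weight -/
def wS (V : ℝ → ℝ) (b : Eis → ℂ) (H Z σ : ℝ) (h : Eis) : ℂ := open Classical in
  if h ∈ S (4 * H) then
    ((V ((nm h : ℝ) / H) * ((nm h : ℝ) / H) ^ (1 / 2 - σ) : ℝ) : ℂ) * cj (Eb b Z h) else 0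

omit H in
lemma cpow_split {k : ℕ} (hk : 0 < k) {X1 : ℝ} (hX : 0 < X1) (σ t : ℝ) :
    (((k : ℝ) / X1) ^ (1 / 2 - σ) : ℝ) * (k : ℂ) ^ ((σ : ℂ) + t * Complex.I - 1 / 2) =
      ((X1 ^ (σ - 1 / 2) : ℝ) : ℂ) * (k : ℂ) ^ ((t : ℂ) * Complex.I) := by
  have hk' : (0 : ℝ) < k := by exact_mod_cast hk
  have hkC : (k : ℂ) ≠ 0 := by exact_mod_cast hk.ne'
  have e1 : ((σ : ℂ) + t * Complex.I - 1 / 2) = ((σ - 1 / 2 : ℝ) : ℂ) + t * Complex.I := by
    push_cast; ring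
  rw [e1, Complex.cpow_add _ _ hkC, ← mul_assoc]
  congr 1
  have e2 : (k : ℂ) = ((k : ℝ) : ℂ) := by norm_cast
  rw [e2, ← Complex.ofReal_cpow hk'.le, ← Complex.ofReal_mul]
  congr 1
  rw [Real.div_rpow hk'.le hX.le, div_mul_eq_mul_div, ← Real.rpow_add hk']
  have e3 : (1 : ℝ) / 2 - σ + (σ - 1 / 2) = 0 := by ring
  rw [e3, Real.rpow_zero, one_div, ← Real.rpow_neg hX.le]
  congr 1; ring

/-- the constant in front of the Type I sum -/
def Cg (e f r g : Eis) (s : ℂ) : ℂ :=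
  sy (e * sq3) g * cj (sy (f * r) g) * G g * (nm g : ℂ) ^ (s - 1 / 2)


omit H in
lemma nm_mul_cpow (a k : Eis) (z : ℂ) :
    ((nm (a * k) : ℕ) : ℂ) ^ z = (nm a : ℂ) ^ z * (nm k : ℂ) ^ z := by
  rw [nm_mul]
  push_cast
  exact Complex.natCast_mul_natCast_cpow _ _ _

/-- the summand after splitting off `q` -/
def Psi (V : ℝ → ℝ) (b : Eis → ℂ) (H0 Z σ : ℝ) (q e R : Eis) (s : ℂ) (k : Eis) : ℂ :=
  ((V ((nm (q * k) : ℝ) / H0) * ((nm (q * k) : ℝ) / H0) ^ (1 / 2 - σ) : ℝ) : ℂ) *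
    cj (Eb b Z (q * k)) * (sy (e * sq3) k * cj (sy R k) * G k) * (nm k : ℂ) ^ (s - 1 / 2)

open Classical in
lemma step_g (hG : GFacts) {V : ℝ → ℝ} (hV : ∀ x, 4 < x → V x = 0) {b : Eis → ℂ}
    {H0 Z σ : ℝ} (hH : 0 < H0) {d e f r g : Eis} (hd : IsPrim d) (hf : IsPrim f) (hg : IsPrim g)
    (s : ℂ) {k : Eis} (hk : k ∈ S (4 * H0)) :
    wS V b H0 Z σ (d * f * (g * k)) * (sy (e * sq3) (g * k) * cj (sy (f * r) (g * k)) *
      G (g * k)) * ((nm (g * k) : ℕ) : ℂ) ^ (s - 1 / 2) =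
    (if Squarefree (d * f * g) then 1 else 0) * Cg e f r g s *
      ((if IsCoprime k d then 1 else 0) * Psi V b H0 Z σ (d * f * g) e (f * r * g) s k) := by
  have h4 : (0 : ℝ) ≤ 4 * H0 := by positivity
  have hkp := S_prim h4 hk
  have hks := S_sqf h4 hk
  unfold Psi Cg
  rw [H.mul_right _ _ _ hg hkp, H.mul_right _ _ _ hg hkp, hG.mul _ _ hg hkp, nm_mul_cpow,
    H.mul_left (f * r) g k hkp]
  simp only [map_mul]
  have e1 : d * f * (g * k) = d * f * g * k := by ring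
  rw [e1]
  by_cases hcf : IsCoprime k f
  swap
  · have : sy (f * r) k = 0 := by
      rw [H.mul_left _ _ _ hkp, Tau671.sy_eq_zero hkp (fun h' => hcf h'.symm), zero_mul]
    rw [this]; simp
  by_cases hcg : IsCoprime k g
  swap
  · rw [Tau671.sy_eq_zero hkp (fun h' => hcg h'.symm)]; simp
  by_cases hcd : IsCoprime k d
  swap
  · rw [if_neg hcd]
    have : wS V b H0 Z σ (d * f * g * k) = 0 := by
      unfold wS
      rw [if_neg]
      intro hmem
      have hs := S_sqf h4 hmem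
      apply hcd
      have h2 : Squarefree (d * k) := hs.squarefree_of_dvd ⟨f * g, by ring⟩
      exact (squarefree_mul_iff.mp h2).1.isCoprime.symm
    rw [this]; simp
  rw [if_pos hcd]
  have hco : IsCoprime (d * f * g) k := ((hcd.symm.mul_left hcf.symm).mul_left hcg.symm)
  have hw : wS V b H0 Z σ (d * f * g * k) = (if Squarefree (d * f * g) then 1 else 0) *
      (((V ((nm (d * f * g * k) : ℝ) / H0) * ((nm (d * f * g * k) : ℝ) / H0) ^ (1 / 2 - σ) : ℝ) :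
        ℂ) * cj (Eb b Z (d * f * g * k))) := by
    unfold wS
    by_cases hsq : Squarefree (d * f * g)
    · rw [if_pos hsq, one_mul]
      by_cases hn : ((nm (d * f * g * k) : ℝ)) ≤ 4 * H0
      · rw [if_pos]
        rw [mem_S h4]
        exact ⟨hn, (((hd.mul hf).mul hg).mul hkp),
          squarefree_mul_iff.mpr ⟨hco.isRelPrime, hsq, hks⟩⟩
      · rw [if_neg (fun hmem => hn (S_le h4 hmem))]
        have : V ((nm (d * f * g * k) : ℝ) / H0) = 0 := by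
          apply hV
          rw [lt_div_iff₀ hH]
          exact not_le.mp hn
        rw [this]; simp
    · rw [if_neg hsq, if_neg, zero_mul]
      intro hmem
      exact hsq ((S_sqf h4 hmem).squarefree_of_dvd (dvd_mul_right _ _))
  rw [hw]
  ring

omit H in
lemma nm_le_nm_mul {q : Eis} (hq : q ≠ 0) (k : Eis) : (nm k : ℝ) ≤ (nm (q * k) : ℕ) := by
  rw [nm_mul]
  exact_mod_cast Nat.le_mul_of_pos_left _ (nm_pos.mpr hq)

omit H in
/-- if `Psi` does not vanish at a primary `k` then `k ∈ S (4 H0)` -/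
lemma mem_of_Psi_ne (hG : GFacts) {V : ℝ → ℝ} (hV : ∀ x, 4 < x → V x = 0) {b : Eis → ℂ}
    {H0 Z σ : ℝ} (hH : 0 < H0) {q e R : Eis} (hq : q ≠ 0) {s : ℂ} {k : Eis} (hk : IsPrim k)
    (h : Psi V b H0 Z σ q e R s k ≠ 0) : k ∈ S (4 * H0) := by
  have h4 : (0 : ℝ) ≤ 4 * H0 := by positivity
  rw [mem_S h4]
  refine ⟨?_, hk, ?_⟩
  · by_contra hn
    apply h
    have : V ((nm (q * k) : ℝ) / H0) = 0 := by
      apply hV
      rw [lt_div_iff₀ hH]
      exact lt_of_lt_of_le (not_le.mp hn) (nm_le_nm_mul hq k)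
    unfold Psi
    rw [this]; simp
  · by_contra hn
    apply h
    unfold Psi
    rw [hG.zero k hk hn]; simp

lemma Psi_mul (hG : GFacts) {V : ℝ → ℝ} {b : Eis → ℂ}
    {H0 Z σ : ℝ} {q e R g' : Eis} (hg : IsPrim g') (s : ℂ) {k : Eis} (hk : IsPrim k) :
    Psi V b H0 Z σ q e R s (g' * k) =
      Cg e 1 R g' s * Psi V b H0 Z σ (q * g') e (R * g') s k := by
  unfold Psi Cg
  rw [H.mul_right _ _ _ hg hk, H.mul_right _ _ _ hg hk, hG.mul _ _ hg hk, nm_mul_cpow,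
    H.mul_left R g' k hk, ← mul_assoc q g' k, one_mul]
  simp only [map_mul]
  ring

open Classical in
lemma step_d (hG : GFacts) {V : ℝ → ℝ} (hV : ∀ x, 4 < x → V x = 0) {b : Eis → ℂ}
    {H0 Z σ : ℝ} (hH : 0 < H0) {q e R d : Eis} (hq : q ≠ 0) (hd : IsPrim d) (s : ℂ) :
    ∑ k ∈ S (4 * H0), (if IsCoprime k d then (1 : ℂ) else 0) * Psi V b H0 Z σ q e R s k =
      ∑ g' ∈ pdiv d, (mu g' : ℂ) * (Cg e 1 R g' s *
        ∑ k ∈ S (4 * H0), Psi V b H0 Z σ (q * g') e (R * g') s k) := by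
  have h4 : (0 : ℝ) ≤ 4 * H0 := by positivity
  have e1 : ∀ k ∈ S (4 * H0), (if IsCoprime k d then (1 : ℂ) else 0) * Psi V b H0 Z σ q e R s k =
      ∑ g' ∈ pdiv d, (mu g' : ℂ) * (if g' ∣ k then Psi V b H0 Z σ q e R s k else 0) := by
    intro k hk
    rw [coprime_ind (S_prim h4 hk) hd.ne_zero, Finset.sum_mul]
    refine Finset.sum_congr rfl fun g' _ => ?_
    split_ifs <;> simp
  rw [Finset.sum_congr rfl e1, Finset.sum_comm]
  refine Finset.sum_congr rfl fun g' hg' => ?_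
  have hgp : IsPrim g' := ((mem_pdiv hd.ne_zero).mp hg').1
  rw [← Finset.mul_sum]
  congr 1
  rw [sum_mult h4 hgp]
  · rw [Finset.mul_sum]
    refine Finset.sum_congr rfl fun k hk => ?_
    rw [Psi_mul H hG hgp s (S_prim h4 hk)]
  · intro k hk hne
    exact mem_of_Psi_ne hG hV hH hq (hgp.mul (S_prim h4 hk)) hne

omit H in
lemma natS_eq (hG : GFacts) {V : ℝ → ℝ} (hV : ∀ x, 4 < x → V x = 0) {X1 H0 : ℝ} (hX : 0 < X1)
    (hXH : X1 ≤ H0) (ρ : Eis) (t : ℝ) :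
    NatS V ρ X1 t = ∑ k ∈ S (4 * H0), G k * cj (sy ρ k) * (V ((nm k : ℝ) / X1) : ℂ) *
      (nm k : ℂ) ^ ((t : ℂ) * Complex.I) := by
  classical
  have h4 : (0 : ℝ) ≤ 4 * H0 := by linarith
  unfold NatS
  rw [tsum_eq_sum (s := S (4 * H0))]
  · refine Finset.sum_congr rfl fun k hk => ?_
    rw [if_pos (S_prim h4 hk)]
  · intro k hk
    split_ifs with hp
    · by_cases hs : Squarefree k
      · have hn : ¬ (nm k : ℝ) ≤ 4 * H0 := fun hn => hk ((mem_S h4).mpr ⟨hn, hp, hs⟩)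
        have : V ((nm k : ℝ) / X1) = 0 := by
          apply hV
          rw [lt_div_iff₀ hX]
          calc 4 * X1 ≤ 4 * H0 := by linarith
            _ < _ := not_le.mp hn
        rw [this]; simp
      · rw [hG.zero k hp hs]; simp
    · rfl

lemma sum_Psi (hG : GFacts) {V : ℝ → ℝ} (hV : ∀ x, 4 < x → V x = 0) {b : Eis → ℂ}
    {H0 Z σ t : ℝ} (hH : 0 < H0) (hZ : 0 ≤ Z) {q e R : Eis} (hq : IsPrim q) :
    ∑ k ∈ S (4 * H0), Psi V b H0 Z σ q e R (σ + t * Complex.I) k =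
      (((H0 / nm q) ^ (σ - 1 / 2) : ℝ) : ℂ) * ∑ n ∈ S Z, cj (b n) * cj (sy n q) *
        NatS V (n * (R * (e * sq3) ^ 2)) (H0 / nm q) t := by
  have h4 : (0 : ℝ) ≤ 4 * H0 := by positivity
  have hq0 : (0 : ℝ) < nm q := by exact_mod_cast nm_pos.mpr hq.ne_zero
  have hq1 : (1 : ℝ) ≤ nm q := by exact_mod_cast nm_pos.mpr hq.ne_zero
  have hX1 : 0 < H0 / nm q := by positivity
  have hX1H : H0 / nm q ≤ H0 := div_le_self hH.le hq1
  simp_rw [natS_eq hG hV hX1 hX1H]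
  rw [Finset.mul_sum]
  simp_rw [Finset.mul_sum]
  rw [Finset.sum_comm]
  refine Finset.sum_congr rfl fun k hk => ?_
  have hkp := S_prim h4 hk
  unfold Psi Eb
  rw [map_sum, Finset.mul_sum, Finset.sum_mul, Finset.sum_mul]
  refine Finset.sum_congr rfl fun n hn => ?_
  have e0 : (nm (q * k) : ℝ) / H0 = (nm k : ℝ) / (H0 / nm q) := by
    rw [nm_mul]; push_cast
    field_simp
  rw [e0]
  have e1 := cpow_split (nm_pos.mpr hkp.ne_zero) hX1 σ t
  have e2 : sy (e * sq3) k = cj (sy ((e * sq3) ^ 2) k) := sy_eq_cj H hkp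
  rw [e2, H.mul_right _ _ _ hq hkp, H.mul_left n _ _ hkp, H.mul_left R _ _ hkp]
  simp only [map_mul]
  push_cast at e1 ⊢
  linear_combination (V ((nm k : ℝ) / (H0 / nm q)) * (cj (b n) * (cj (sy n q) * cj (sy n k))) *
    (cj (sy ((e * sq3) ^ 2) k) * cj (sy R k) * G k) : ℂ) * e1

/-- **The structured dual sum in terms of natural Type I sums.** -/
theorem Bg_eq (hG : GFacts) {V : ℝ → ℝ} (hV : ∀ x, 4 < x → V x = 0) {b : Eis → ℂ}
    {H0 Z σ t : ℝ} (hH : 0 < H0) (hZ : 0 ≤ Z) {d e f r g : Eis} (hd : IsPrim d) (hf : IsPrim f)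
    (hg : IsPrim g) :
    Bg (wS V b H0 Z σ) (4 * H0) d e f r g (σ + t * Complex.I) =
      (open Classical in if Squarefree (d * f * g) then 1 else 0) * Cg e f r g (σ + t * Complex.I) *
      ∑ g' ∈ pdiv d, (mu g' : ℂ) * (Cg e 1 (f * r * g) g' (σ + t * Complex.I) *
        ((((H0 / nm (d * f * g * g')) ^ (σ - 1 / 2) : ℝ) : ℂ) *
          ∑ n ∈ S Z, cj (b n) * cj (sy n (d * f * g * g')) *
            NatS V (n * (f * r * g * g' * (e * sq3) ^ 2)) (H0 / nm (d * f * g * g')) t)) := by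
  classical
  have h4 : (0 : ℝ) ≤ 4 * H0 := by positivity
  unfold Bg
  rw [sum_mult h4 hg]
  · rw [Finset.sum_congr rfl fun k hk => step_g H hG hV hH hd hf hg _ hk]
    rw [← Finset.mul_sum, step_d H hG hV hH ((hd.mul hf).mul hg).ne_zero hd]
    congr 1
    refine Finset.sum_congr rfl fun g' hg' => ?_
    have hgp : IsPrim g' := ((mem_pdiv hd.ne_zero).mp hg').1
    rw [sum_Psi H hG hV hH hZ (((hd.mul hf).mul hg).mul hgp)]
  · intro k hk hne
    have hw : wS V b H0 Z σ (d * f * (g * k)) ≠ 0 := fun h => hne (by rw [h]; simp)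
    have hmem : d * f * (g * k) ∈ S (4 * H0) := by
      unfold wS at hw
      by_contra hc
      rw [if_neg hc] at hw
      exact hw rfl
    rw [mem_S h4] at hmem ⊢
    refine ⟨le_trans (nm_le_nm_mul (hd.mul hf).ne_zero _) hmem.1, hg.mul (S_prim h4 hk),
      hmem.2.2.squarefree_of_dvd (dvd_mul_left _ _)⟩

end Crest.Agent.R012.CR2
end
end

-- ▼ part R012/CR2b_180

/-!
# Row 12 (CR2), part b: elementary bounds for the dual sums
-/

set_option autoImplicit false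
set_option linter.unusedVariables false
set_option linter.unusedSimpArgs false
set_option linter.unusedSectionVars false

noncomputable section

namespace Crest.Agent.R012.CR2

open Eis LS2 Mob705 Finset CharSum852 Tau671

local notation "cj" => starRingEnd ℂ

lemma card_bl_le {Y : ℝ} (hY : 0 ≤ Y) : ((bl Y).card : ℝ) ≤ 16 * Y := by
  classical
  by_cases h1 : 1 ≤ Y
  · have h2 : 1 ≤ ⌊Y⌋₊ := Nat.le_floor (by exact_mod_cast h1)
    have h3 := LS448.card_ball_le h2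
    have h4 : (bl Y).card ≤ (ball ⌊Y⌋₊).card := Finset.card_erase_le
    calc ((bl Y).card : ℝ) ≤ ((16 * ⌊Y⌋₊ : ℕ) : ℝ) := by exact_mod_cast h4.trans h3
      _ = 16 * (⌊Y⌋₊ : ℝ) := by push_cast; ring
      _ ≤ 16 * Y := by
        have := Nat.floor_le hY
        linarith
  · have : bl Y = ∅ := by
      apply Finset.eq_empty_of_forall_notMem
      intro x hx
      rw [mem_bl hY] at hx
      have := nm_pos.mpr hx.1
      have h2 : (1 : ℝ) ≤ nm x := by exact_mod_cast this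
      linarith [hx.2, not_le.mp h1]
    rw [this]; simp; exact hY

/-- number of multiples of `g` -/
lemma card_mult_le {Y : ℝ} (hY : 0 ≤ Y) {g : Eis} (hg : g ≠ 0) (T : Finset Eis)
    (hT : ∀ k ∈ T, k ≠ 0 ∧ g ∣ k ∧ (nm k : ℝ) ≤ Y) : (T.card : ℝ) ≤ 16 * (Y / nm g) := by
  classical
  have hg0 : (0 : ℝ) < nm g := by exact_mod_cast nm_pos.mpr hg
  have h1 : T ⊆ (bl (Y / nm g)).image (fun k => g * k) := by
    intro k hk
    obtain ⟨h0, ⟨c, rfl⟩, h2⟩ := hT k hk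
    rw [Finset.mem_image]
    refine ⟨c, ?_, rfl⟩
    rw [mem_bl (by positivity)]
    refine ⟨fun h => h0 (by rw [h, mul_zero]), ?_⟩
    rw [le_div_iff₀ hg0]
    rw [nm_mul] at h2
    push_cast at h2
    linarith
  calc (T.card : ℝ) ≤ (((bl (Y / nm g)).image (fun k => g * k)).card : ℝ) := by
        exact_mod_cast Finset.card_le_card h1
    _ ≤ ((bl (Y / nm g)).card : ℝ) := by exact_mod_cast Finset.card_image_le
    _ ≤ _ := card_bl_le (by positivity)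

/-- Cauchy–Schwarz with the support -/
lemma norm_sum_sq_le_card {ι : Type*} (s : Finset ι) (x : ι → ℂ) :
    ‖∑ i ∈ s, x i‖ ^ 2 ≤ (s.card : ℝ) * ∑ i ∈ s, ‖x i‖ ^ 2 := by
  have h1 : ‖∑ i ∈ s, x i‖ ≤ ∑ i ∈ s, ‖x i‖ := norm_sum_le _ _
  have h2 : (∑ i ∈ s, ‖x i‖) ^ 2 ≤ (s.card : ℝ) * ∑ i ∈ s, ‖x i‖ ^ 2 := sq_sum_le_card_mul_sum_sq
  calc ‖∑ i ∈ s, x i‖ ^ 2 ≤ (∑ i ∈ s, ‖x i‖) ^ 2 := by gcongr
    _ ≤ _ := h2

lemma norm_sum_sq_le_card' {ι : Type*} (s : Finset ι) (x : ι → ℂ) (B : ℝ)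
    (T : Finset ι) (hT : ∀ i ∈ s, x i ≠ 0 → i ∈ T) (hTs : T ⊆ s) (hB : (T.card : ℝ) ≤ B) :
    ‖∑ i ∈ s, x i‖ ^ 2 ≤ B * ∑ i ∈ s, ‖x i‖ ^ 2 := by
  have h1 : ∑ i ∈ s, x i = ∑ i ∈ T, x i := by
    symm
    apply Finset.sum_subset hTs
    intro i hi hiT
    by_contra h
    exact hiT (hT i hi h)
  have h2 : ∑ i ∈ T, ‖x i‖ ^ 2 ≤ ∑ i ∈ s, ‖x i‖ ^ 2 :=
    Finset.sum_le_sum_of_subset_of_nonneg hTs fun _ _ _ => by positivity
  rw [h1]
  calc ‖∑ i ∈ T, x i‖ ^ 2 ≤ (T.card : ℝ) * ∑ i ∈ T, ‖x i‖ ^ 2 := norm_sum_sq_le_card T x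
    _ ≤ B * ∑ i ∈ s, ‖x i‖ ^ 2 := by
      have hB0 : 0 ≤ B := le_trans (Nat.cast_nonneg _) hB
      gcongr

/-- the weighted square mean of `w` on the multiples of `df` -/
def Xi (w : Eis → ℂ) (X : ℝ) (d f : Eis) (σ : ℝ) : ℝ :=
  ∑ k ∈ S X, ‖w (d * f * k)‖ ^ 2 * (nm k : ℝ) ^ (2 * σ - 1)

lemma Xi_nonneg (w : Eis → ℂ) (X : ℝ) (d f : Eis) (σ : ℝ) : 0 ≤ Xi w X d f σ :=
  Finset.sum_nonneg fun _ _ => by positivity

lemma norm_cpow_half {k : ℕ} (hk : 0 < k) (σ t : ℝ) :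
    ‖(k : ℂ) ^ ((σ : ℂ) + t * Complex.I - 1 / 2)‖ ^ 2 = (k : ℝ) ^ (2 * σ - 1) := by
  rw [Complex.norm_natCast_cpow_of_pos hk]
  have : ((σ : ℂ) + t * Complex.I - 1 / 2).re = σ - 1 / 2 := by
    simp
  rw [this, ← Real.rpow_natCast, ← Real.rpow_mul (Nat.cast_nonneg k)]
  congr 1
  push_cast; ring

variable (H : SyFacts)
include H

/-- the terms of the dual sum -/
lemma norm_term_le (hG : GFacts) {w : Eis → ℂ} {d e f l k : Eis} (hk : IsPrim k) (σ t : ℝ) :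
    ‖w (d * f * k) * (sy (e * sq3) k * cj (sy (f * l) k) * G k) *
      (nm k : ℂ) ^ ((σ : ℂ) + t * Complex.I - 1 / 2)‖ ^ 2 ≤
      ‖w (d * f * k)‖ ^ 2 * (nm k : ℝ) ^ (2 * σ - 1) := by
  rw [norm_mul, norm_mul, mul_pow, mul_pow, norm_cpow_half (nm_pos.mpr hk.ne_zero)]
  have h1 : ‖sy (e * sq3) k * cj (sy (f * l) k) * G k‖ ≤ 1 := by
    rw [norm_mul, norm_mul, RCLike.norm_conj]
    calc _ ≤ (1 : ℝ) * 1 * 1 := by
          gcongr
          · exact Tau671.norm_sy_le hk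
          · exact Tau671.norm_sy_le hk
          · exact hG.le_one k hk
      _ = 1 := by norm_num
  have h2 : ‖sy (e * sq3) k * cj (sy (f * l) k) * G k‖ ^ 2 ≤ 1 := by
    calc _ ≤ (1 : ℝ) ^ 2 := by gcongr
      _ = 1 := by norm_num
  calc _ ≤ ‖w (d * f * k)‖ ^ 2 * 1 * (nm k : ℝ) ^ (2 * σ - 1) := by gcongr
    _ = _ := by ring

omit H in
/-- support of `k ↦ w (d f k)` -/
lemma supp_le {w : Eis → ℂ} {X : ℝ} (hX : 0 ≤ X) (hw : ∀ h, w h ≠ 0 → h ∈ S X) {d f k : Eis}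
    (hd : d ≠ 0) (hf : f ≠ 0) (h : w (d * f * k) ≠ 0) : (nm k : ℝ) ≤ X / (nm d * nm f) := by
  have h1 := S_le hX (hw _ h)
  have hd0 : (0 : ℝ) < nm d := by exact_mod_cast nm_pos.mpr hd
  have hf0 : (0 : ℝ) < nm f := by exact_mod_cast nm_pos.mpr hf
  rw [le_div_iff₀ (by positivity)]
  rw [nm_mul, nm_mul] at h1
  push_cast at h1
  linarith

/-- the trivial bound for the dual sum -/
lemma dsum_trivial (hG : GFacts) {w : Eis → ℂ} {X : ℝ} (hX : 0 ≤ X) (hw : ∀ h, w h ≠ 0 → h ∈ S X)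
    {d e f l : Eis} (hd : d ≠ 0) (hf : f ≠ 0) (σ t : ℝ) :
    ‖dsum w X d e f l (σ + t * Complex.I)‖ ^ 2 ≤
      16 * (X / (nm d * nm f)) * Xi w X d f σ := by
  classical
  have hd0 : (0 : ℝ) < nm d := by exact_mod_cast nm_pos.mpr hd
  have hf0 : (0 : ℝ) < nm f := by exact_mod_cast nm_pos.mpr hf
  have hY : 0 ≤ X / (nm d * nm f) := by positivity
  unfold dsum
  refine (norm_sum_sq_le_card' (S X) _ (16 * (X / (nm d * nm f)))
    ((S X).filter (fun k => w (d * f * k) ≠ 0)) ?_ (Finset.filter_subset _ _) ?_).trans ?_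
  · intro k hk hne
    rw [Finset.mem_filter]
    refine ⟨hk, fun h => hne ?_⟩
    rw [h]; simp
  · have := card_mult_le hY one_ne_zero ((S X).filter (fun k => w (d * f * k) ≠ 0)) ?_
    · simpa using this
    · intro k hk
      rw [Finset.mem_filter] at hk
      exact ⟨(S_prim hX hk.1).ne_zero, one_dvd _, supp_le hX hw hd hf hk.2⟩
  · unfold Xi
    gcongr with k hk
    exact norm_term_le H hG (S_prim hX hk) σ t

/-- the trivial bound for `Bg` -/
lemma Bg_trivial (hG : GFacts) {w : Eis → ℂ} {X : ℝ} (hX : 0 ≤ X) (hw : ∀ h, w h ≠ 0 → h ∈ S X)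
    {d e f r g : Eis} (hd : d ≠ 0) (hf : f ≠ 0) (hg : g ≠ 0) (σ t : ℝ) :
    ‖Bg w X d e f r g (σ + t * Complex.I)‖ ^ 2 ≤
      16 * (X / (nm d * nm f) / nm g) * (open Classical in
        ∑ k ∈ S X, if g ∣ k then ‖w (d * f * k)‖ ^ 2 * (nm k : ℝ) ^ (2 * σ - 1) else 0) := by
  classical
  have hd0 : (0 : ℝ) < nm d := by exact_mod_cast nm_pos.mpr hd
  have hf0 : (0 : ℝ) < nm f := by exact_mod_cast nm_pos.mpr hf
  have hY : 0 ≤ X / (nm d * nm f) := by positivity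
  unfold Bg
  refine (norm_sum_sq_le_card' (S X) _ (16 * (X / (nm d * nm f) / nm g))
    ((S X).filter (fun k => w (d * f * k) ≠ 0 ∧ g ∣ k)) ?_ (Finset.filter_subset _ _) ?_).trans ?_
  · intro k hk hne
    rw [Finset.mem_filter]
    refine ⟨hk, fun h => hne ?_, ?_⟩
    · split_ifs
      · rw [h]; simp
      · rfl
    · by_contra hc
      rw [if_neg hc] at hne
      exact hne rfl
  · refine card_mult_le hY hg _ ?_
    intro k hk
    rw [Finset.mem_filter] at hk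
    exact ⟨(S_prim hX hk.1).ne_zero, hk.2.2, supp_le hX hw hd hf hk.2.1⟩
  · gcongr with k hk
    split_ifs
    · exact norm_term_le H hG (S_prim hX hk) σ t
    · simp

omit H in
/-- `l` is small: its cubefree part has norm `< K0` -/
def Sm (K0 : ℝ) (l : Eis) : Prop := ∃ m n0 : Eis, l = m ^ 3 * n0 ∧ (nm n0 : ℝ) < K0

omit H in
open Classical in
/-- summing over small `l` -/
lemma sum_small_le {L M K0 : ℝ} (hL : 0 ≤ L) (hM : 0 ≤ M) (hLM : L ≤ M ^ 3) (hK : 0 ≤ K0)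
    (F : Eis → ℝ) (hF : ∀ l, 0 ≤ F l) :
    ∑ l ∈ (bl L).filter (Sm K0), F l ≤ ∑ r ∈ bl K0, ∑ m ∈ bl M, F (r * m ^ 3) := by
  rw [← Finset.sum_product']
  calc ∑ l ∈ (bl L).filter (Sm K0), F l
      ≤ ∑ l ∈ (bl K0 ×ˢ bl M).image (fun p => p.1 * p.2 ^ 3), F l := by
        apply Finset.sum_le_sum_of_subset_of_nonneg
        · intro l hl
          rw [Finset.mem_filter, mem_bl hL] at hl
          obtain ⟨⟨h0, h1⟩, m, n0, rfl, h2⟩ := hl
          have hm : m ≠ 0 := by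
            rintro rfl; exact h0 (by simp)
          have hn : n0 ≠ 0 := by
            rintro rfl; exact h0 (by simp)
          rw [Finset.mem_image]
          refine ⟨(n0, m), ?_, by ring⟩
          rw [Finset.mem_product, mem_bl hK, mem_bl hM]
          refine ⟨⟨hn, h2.le⟩, hm, ?_⟩
          have h3 : (nm m : ℝ) ^ 3 ≤ M ^ 3 := by
            refine le_trans ?_ hLM
            refine le_trans ?_ h1
            rw [nm_mul, nm_pow]
            push_cast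
            have h4 : (1 : ℝ) ≤ nm n0 := by exact_mod_cast nm_pos.mpr hn
            have h5 : (0 : ℝ) ≤ (nm m : ℝ) ^ 3 := by positivity
            nlinarith
          exact le_of_pow_le_pow_left₀ (by norm_num) hM h3
        · intro i _ _; exact hF i
    _ ≤ ∑ p ∈ bl K0 ×ˢ bl M, F (p.1 * p.2 ^ 3) := by
        apply Finset.sum_image_le_of_nonneg
        intro i _; exact hF _

lemma dsum_cube_sq {w : Eis → ℂ} {X : ℝ} (hX : 0 ≤ X) {d e f r m : Eis} (hm : m ≠ 0) (s : ℂ) :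
    ‖dsum w X d e f (r * m ^ 3) s‖ ^ 2 ≤
      ((pdiv m).card : ℝ) * ∑ g ∈ pdiv m, ‖Bg w X d e f r g s‖ ^ 2 := by
  rw [dsum_cube H hX hm]
  refine (norm_sum_sq_le_card _ _).trans ?_
  gcongr with g hg
  rw [norm_mul]
  have h1 : ‖((mu g : ℤ) : ℂ)‖ ≤ 1 := by
    rw [Complex.norm_intCast]
    exact_mod_cast abs_mu_le_one g
  calc ‖((mu g : ℤ) : ℂ)‖ * ‖Bg w X d e f r g s‖ ≤ 1 * ‖Bg w X d e f r g s‖ := by gcongr
    _ = _ := one_mul _

/-- nonzero primary elements of norm at most `M` -/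
def PB (M : ℝ) : Finset Eis := open Classical in (bl M).filter IsPrim

omit H in
lemma mem_PB {M : ℝ} (hM : 0 ≤ M) {g : Eis} : g ∈ PB M ↔ IsPrim g ∧ (nm g : ℝ) ≤ M := by
  classical
  unfold PB
  rw [Finset.mem_filter, mem_bl hM]
  constructor
  · rintro ⟨⟨_, h⟩, h2⟩; exact ⟨h2, h⟩
  · rintro ⟨h2, h⟩; exact ⟨⟨h2.ne_zero, h⟩, h2⟩

omit H in
lemma sum_divisors_le {M τ : ℝ} (hM : 0 ≤ M) (hτ : ∀ m ∈ bl M, ((pdiv m).card : ℝ) ≤ τ)
    (hτ0 : 0 ≤ τ) (F : Eis → ℝ) (hF : ∀ g, 0 ≤ F g) :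
    ∑ m ∈ bl M, ((pdiv m).card : ℝ) * ∑ g ∈ pdiv m, F g ≤
      16 * τ * M * ∑ g ∈ PB M, F g / nm g := by
  classical
  calc ∑ m ∈ bl M, ((pdiv m).card : ℝ) * ∑ g ∈ pdiv m, F g
      ≤ ∑ m ∈ bl M, τ * ∑ g ∈ PB M, (if g ∣ m then F g else 0) := by
        refine Finset.sum_le_sum fun m hm => ?_
        have h1 : ∑ g ∈ pdiv m, F g ≤ ∑ g ∈ PB M, (if g ∣ m then F g else 0) := by
          rw [← Finset.sum_filter]
          apply Finset.sum_le_sum_of_subset_of_nonneg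
          · intro g hg
            have hm0 := ((mem_bl hM).mp hm)
            rw [mem_pdiv hm0.1] at hg
            rw [Finset.mem_filter, mem_PB hM]
            refine ⟨⟨hg.1, le_trans ?_ hm0.2⟩, hg.2⟩
            exact_mod_cast LS448.nm_le_of_dvd hg.2 hm0.1
          · intro i _ _; exact hF i
        have h2 : 0 ≤ ∑ g ∈ pdiv m, F g := Finset.sum_nonneg fun i _ => hF i
        exact mul_le_mul (hτ m hm) h1 h2 hτ0
    _ = τ * ∑ g ∈ PB M, ∑ m ∈ bl M, (if g ∣ m then F g else 0) := by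
        rw [← Finset.mul_sum, Finset.sum_comm]
    _ ≤ τ * ∑ g ∈ PB M, 16 * (M / nm g) * F g := by
        gcongr with g hg
        rw [← Finset.sum_filter, Finset.sum_const, nsmul_eq_mul]
        apply mul_le_mul_of_nonneg_right _ (hF g)
        refine card_mult_le hM ((mem_PB hM).mp hg).1.ne_zero _ ?_
        intro k hk
        rw [Finset.mem_filter, mem_bl hM] at hk
        exact ⟨hk.1.1, hk.2, hk.1.2⟩
    _ = _ := by
        rw [Finset.mul_sum, Finset.mul_sum]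
        refine Finset.sum_congr rfl fun g _ => ?_
        ring


omit H in
lemma gsum_small {w : Eis → ℂ} {X : ℝ} {d e f r : Eis} {s : ℂ} {M G0 U : ℝ} (hM : 0 ≤ M)
    (hG0 : 0 ≤ G0) (hU0 : 0 ≤ U)
    (hU : ∀ g, IsPrim g → (nm g : ℝ) ≤ G0 → ‖Bg w X d e f r g s‖ ^ 2 ≤ U) :
    ∑ g ∈ (PB M).filter (fun g => (nm g : ℝ) ≤ G0), ‖Bg w X d e f r g s‖ ^ 2 / nm g ≤
      16 * G0 * U := by
  classical
  calc ∑ g ∈ (PB M).filter (fun g => (nm g : ℝ) ≤ G0), ‖Bg w X d e f r g s‖ ^ 2 / nm g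
      ≤ ∑ g ∈ (PB M).filter (fun g => (nm g : ℝ) ≤ G0), U := by
        refine Finset.sum_le_sum fun g hg => ?_
        rw [Finset.mem_filter, mem_PB hM] at hg
        have h1 : (1 : ℝ) ≤ nm g := by exact_mod_cast nm_pos.mpr hg.1.1.ne_zero
        calc ‖Bg w X d e f r g s‖ ^ 2 / nm g ≤ ‖Bg w X d e f r g s‖ ^ 2 :=
              div_le_self (by positivity) h1
          _ ≤ U := hU g hg.1.1 hg.2
    _ = (((PB M).filter (fun g => (nm g : ℝ) ≤ G0)).card : ℝ) * U := by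
        rw [Finset.sum_const, nsmul_eq_mul]
    _ ≤ 16 * G0 * U := by
        apply mul_le_mul_of_nonneg_right _ hU0
        have := card_mult_le (Y := G0) hG0 one_ne_zero
          ((PB M).filter (fun g => (nm g : ℝ) ≤ G0)) ?_
        · simpa using this
        · intro k hk
          rw [Finset.mem_filter, mem_PB hM] at hk
          exact ⟨hk.1.1.ne_zero, one_dvd _, hk.2⟩

open Classical in
lemma gsum_large (hG : GFacts) {w : Eis → ℂ} {X : ℝ} (hX : 0 ≤ X)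
    (hw : ∀ h, w h ≠ 0 → h ∈ S X) {d e f r : Eis} (hd : IsPrim d) (hf : IsPrim f) {σ t : ℝ}
    {M G0 τ : ℝ} (hM : 0 ≤ M) (hG0 : 1 ≤ G0)
    (hτ' : ∀ m ∈ S X, ((pdiv m).card : ℝ) ≤ τ) :
    ∑ g ∈ (PB M).filter (fun g => ¬ (nm g : ℝ) ≤ G0),
      ‖Bg w X d e f r g (σ + t * Complex.I)‖ ^ 2 / nm g ≤
      16 * (X / (nm d * nm f)) / G0 * (τ * Xi w X d f σ) := by
  have hd0 : (0 : ℝ) < nm d := by exact_mod_cast nm_pos.mpr hd.ne_zero
  have hf0 : (0 : ℝ) < nm f := by exact_mod_cast nm_pos.mpr hf.ne_zero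
  have hY : 0 ≤ X / (nm d * nm f) := by positivity
  have hG0' : 0 < G0 := by linarith
  set s : ℂ := σ + t * Complex.I with hs
  set v : Eis → ℝ := fun k => ‖w (d * f * k)‖ ^ 2 * (nm k : ℝ) ^ (2 * σ - 1) with hv
  have hv0 : ∀ k, 0 ≤ v k := fun k => by positivity
  have h3 : ∀ g, 0 ≤ ∑ k ∈ S X, (if g ∣ k then v k else 0) := by
    intro g
    refine Finset.sum_nonneg fun k _ => ?_
    split_ifs
    · exact hv0 k
    · exact le_rfl
  have hA : 0 ≤ 16 * (X / (nm d * nm f)) / G0 := by positivity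
  calc ∑ g ∈ (PB M).filter (fun g => ¬ (nm g : ℝ) ≤ G0), ‖Bg w X d e f r g s‖ ^ 2 / nm g
      ≤ ∑ g ∈ (PB M).filter (fun g => ¬ (nm g : ℝ) ≤ G0),
          16 * (X / (nm d * nm f)) / G0 * (∑ k ∈ S X, if g ∣ k then v k else 0) := by
        refine Finset.sum_le_sum fun g hg => ?_
        rw [Finset.mem_filter, mem_PB hM] at hg
        have h1 : (1 : ℝ) ≤ nm g := by exact_mod_cast nm_pos.mpr hg.1.1.ne_zero
        have h2 := Bg_trivial H hG hX hw (e := e) (r := r) hd.ne_zero hf.ne_zero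
          hg.1.1.ne_zero σ t
        rw [← hs] at h2
        have h4 : G0 ≤ nm g := (not_le.mp hg.2).le
        have h5 : 16 * (X / (nm d * nm f) / nm g) ≤ 16 * (X / (nm d * nm f)) / G0 := by
          rw [mul_div_assoc]
          apply mul_le_mul_of_nonneg_left _ (by norm_num)
          exact div_le_div_of_nonneg_left hY hG0' h4
        calc ‖Bg w X d e f r g s‖ ^ 2 / nm g ≤ ‖Bg w X d e f r g s‖ ^ 2 :=
              div_le_self (by positivity) h1
          _ ≤ _ := h2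
          _ ≤ _ := mul_le_mul_of_nonneg_right h5 (h3 g)
    _ ≤ ∑ g ∈ PB M, 16 * (X / (nm d * nm f)) / G0 * (∑ k ∈ S X, if g ∣ k then v k else 0) := by
        apply Finset.sum_le_sum_of_subset_of_nonneg (Finset.filter_subset _ _)
        intro g _ _
        exact mul_nonneg hA (h3 g)
    _ = 16 * (X / (nm d * nm f)) / G0 * ∑ k ∈ S X, ∑ g ∈ PB M, (if g ∣ k then v k else 0) := by
        rw [← Finset.mul_sum, Finset.sum_comm]
    _ ≤ 16 * (X / (nm d * nm f)) / G0 * ∑ k ∈ S X, τ * v k := by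
        apply mul_le_mul_of_nonneg_left _ hA
        refine Finset.sum_le_sum fun k hk => ?_
        rw [← Finset.sum_filter, Finset.sum_const, nsmul_eq_mul]
        apply mul_le_mul_of_nonneg_right _ (hv0 k)
        refine le_trans ?_ (hτ' k hk)
        have : (PB M).filter (fun g => g ∣ k) ⊆ pdiv k := by
          intro g hg
          rw [Finset.mem_filter, mem_PB hM] at hg
          rw [mem_pdiv (S_prim hX hk).ne_zero]
          exact ⟨hg.1.1, hg.2⟩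
        exact_mod_cast Finset.card_le_card this
    _ = _ := by
        rw [← Finset.mul_sum]
        rfl

open Classical in
/-- **Structured bound for small `l`**: `U` bounds `‖Bg‖²` for small `g`. -/
lemma small_struct (hG : GFacts) {w : Eis → ℂ} {X : ℝ} (hX : 0 ≤ X)
    (hw : ∀ h, w h ≠ 0 → h ∈ S X) {d e f : Eis} (hd : IsPrim d) (hf : IsPrim f) {σ t : ℝ}
    {L M K0 G0 τ U : ℝ} (hL : 0 ≤ L) (hM : 0 ≤ M) (hLM : L ≤ M ^ 3) (hK : 0 ≤ K0) (hG0 : 1 ≤ G0)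
    (hU0 : 0 ≤ U) (hτ0 : 0 ≤ τ) (hτ : ∀ m ∈ bl M, ((pdiv m).card : ℝ) ≤ τ)
    (hτ' : ∀ m ∈ S X, ((pdiv m).card : ℝ) ≤ τ)
    (hU : ∀ r ∈ bl K0, ∀ g, IsPrim g → (nm g : ℝ) ≤ G0 →
      ‖Bg w X d e f r g (σ + t * Complex.I)‖ ^ 2 ≤ U) :
    ∑ l ∈ (bl L).filter (Sm K0), ‖dsum w X d e f l (σ + t * Complex.I)‖ ^ 2 ≤
      16 * K0 * (16 * τ * M *
        (16 * G0 * U + 16 * (X / (nm d * nm f)) / G0 * (τ * Xi w X d f σ))) := by
  have hd0 : (0 : ℝ) < nm d := by exact_mod_cast nm_pos.mpr hd.ne_zero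
  have hf0 : (0 : ℝ) < nm f := by exact_mod_cast nm_pos.mpr hf.ne_zero
  have hXi := Xi_nonneg w X d f σ
  have hG0' : 0 < G0 := by linarith
  set s : ℂ := σ + t * Complex.I with hs
  set Q : ℝ := 16 * G0 * U + 16 * (X / (nm d * nm f)) / G0 * (τ * Xi w X d f σ) with hQ
  have hQ0 : 0 ≤ Q := by positivity
  refine (sum_small_le hL hM hLM hK (fun l => ‖dsum w X d e f l s‖ ^ 2)
    (fun l => by positivity)).trans ?_
  have h1 : ∀ r ∈ bl K0, ∑ m ∈ bl M, ‖dsum w X d e f (r * m ^ 3) s‖ ^ 2 ≤ 16 * τ * M * Q := by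
    intro r hr
    calc ∑ m ∈ bl M, ‖dsum w X d e f (r * m ^ 3) s‖ ^ 2
        ≤ ∑ m ∈ bl M, ((pdiv m).card : ℝ) * ∑ g ∈ pdiv m, ‖Bg w X d e f r g s‖ ^ 2 := by
          refine Finset.sum_le_sum fun m hm => ?_
          exact dsum_cube_sq H hX ((mem_bl hM).mp hm).1 s
      _ ≤ 16 * τ * M * ∑ g ∈ PB M, ‖Bg w X d e f r g s‖ ^ 2 / nm g :=
          sum_divisors_le hM hτ hτ0 _ fun g => by positivity
      _ ≤ _ := by
          apply mul_le_mul_of_nonneg_left _ (by positivity)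
          rw [← Finset.sum_filter_add_sum_filter_not (PB M) (fun g => (nm g : ℝ) ≤ G0)]
          exact add_le_add (gsum_small hM hG0'.le hU0 (hU r hr))
            (gsum_large H hG hX hw hd hf hM hG0 hτ')
  calc ∑ r ∈ bl K0, ∑ m ∈ bl M, ‖dsum w X d e f (r * m ^ 3) s‖ ^ 2
      ≤ ∑ r ∈ bl K0, 16 * τ * M * Q := Finset.sum_le_sum h1
    _ = ((bl K0).card : ℝ) * (16 * τ * M * Q) := by
        rw [Finset.sum_const, nsmul_eq_mul]
    _ ≤ 16 * K0 * (16 * τ * M * Q) :=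
        mul_le_mul_of_nonneg_right (card_bl_le hK) (by positivity)

/-- the trivial bound for small `l` -/
lemma small_trivial (hG : GFacts) {w : Eis → ℂ} {X : ℝ} (hX : 0 ≤ X)
    (hw : ∀ h, w h ≠ 0 → h ∈ S X) {d e f : Eis} (hd : IsPrim d) (hf : IsPrim f) {σ t : ℝ}
    {L M K0 : ℝ} (hL : 0 ≤ L) (hM : 0 ≤ M) (hLM : L ≤ M ^ 3) (hK : 0 ≤ K0) :
    (open Classical in
      ∑ l ∈ (bl L).filter (Sm K0), ‖dsum w X d e f l (σ + t * Complex.I)‖ ^ 2) ≤
      16 * K0 * (16 * M * (16 * (X / (nm d * nm f)) * Xi w X d f σ)) := by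
  classical
  have hd0 : (0 : ℝ) < nm d := by exact_mod_cast nm_pos.mpr hd.ne_zero
  have hf0 : (0 : ℝ) < nm f := by exact_mod_cast nm_pos.mpr hf.ne_zero
  have hXi := Xi_nonneg w X d f σ
  set Q : ℝ := 16 * (X / (nm d * nm f)) * Xi w X d f σ with hQ
  have hQ0 : 0 ≤ Q := by positivity
  refine (sum_small_le hL hM hLM hK (fun l => ‖dsum w X d e f l (σ + t * Complex.I)‖ ^ 2)
    (fun l => by positivity)).trans ?_
  calc ∑ r ∈ bl K0, ∑ m ∈ bl M, ‖dsum w X d e f (r * m ^ 3) (σ + t * Complex.I)‖ ^ 2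
      ≤ ∑ r ∈ bl K0, ∑ m ∈ bl M, Q := by
        refine Finset.sum_le_sum fun r _ => Finset.sum_le_sum fun m _ => ?_
        exact dsum_trivial H hG hX hw hd.ne_zero hf.ne_zero σ t
    _ = ((bl K0).card : ℝ) * (((bl M).card : ℝ) * Q) := by
        rw [Finset.sum_const, nsmul_eq_mul, Finset.sum_const, nsmul_eq_mul]
    _ ≤ 16 * K0 * (16 * M * Q) := by
        have h1 := card_bl_le hK
        have h2 := card_bl_le hM
        gcongr

end Crest.Agent.R012.CR2
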