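import Crest.Agent.R012.Cst3_566

/-!
# Row 12, item MC1 (4): the first moment as a dual sum; noncube terms
-/

set_option autoImplicit false

noncomputable section

open MeasureTheory Complex Set Filter Topology
open scoped ContDiff

namespace Crest.Agent.R012.MC

open Crest.Agent.R012 Crest.Agent.R012.Eis

open Classical in
/-- `b ↦ 1_{b primary} (k/b)` -/
def psi (k b : Eis) : ℂ := if IsPrim b then sy k b else 0

lemma norm_psi_le (k b : Eis) : ‖psi k b‖ ≤ 1 := by
  unfold psi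
  split_ifs with h
  · exact Sym645.norm_sy_le_one (prim_nm h) k
  · simp

/-- the dual sum over `b` at frequency `k` -/
def Tk (w v : ℝ → ℝ) (A B : ℝ) (k : Eis) : ℂ :=
  ∑' b : Eis, psi k b * (phi w v B (kap A k) (toC b) : ℂ)


section

variable {w v : ℝ → ℝ}

open Classical in
/-- the primary `b` in the support of the weight -/
def Fv (hv : Wgt v) {B : ℝ} (hB : 0 < B) : Finset Eis :=
  (hv.finite_support hB).toFinset.filter IsPrim

lemma mem_Fv (hv : Wgt v) {B : ℝ} (hB : 0 < B) {b : Eis} :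
    b ∈ Fv hv hB ↔ v (nm b / B) ≠ 0 ∧ IsPrim b := by
  classical
  unfold Fv
  rw [Finset.mem_filter, Set.Finite.mem_toFinset]
  rfl

lemma phi_toC (w v : ℝ → ℝ) (B κ : ℝ) (b : Eis) :
    phi w v B κ (toC b) = v (nm b / B) / Real.sqrt (nm b) * Wt w (κ / ‖toC b‖) := by
  unfold phi
  rw [norm_toC_sq, ← norm_toC]


lemma Mg_eq_sum (hv : Wgt v) {B : ℝ} (hB : 0 < B) (a : Eis) :
    Mg v B a = ∑ b ∈ Fv hv hB, gs a b / (Real.sqrt (nm b) : ℂ) * (v (nm b / B) : ℂ) := by
  classical
  unfold Mg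
  rw [tsum_eq_sum (s := Fv hv hB)]
  · refine Finset.sum_congr rfl fun b hb => ?_
    rw [if_pos ((mem_Fv hv hB).mp hb).2]
  · intro b hb
    rw [mem_Fv] at hb
    split_ifs with hp
    · have : v (nm b / B) = 0 := by
        by_contra hcon
        exact hb ⟨hcon, hp⟩
      rw [this]; simp
    · rfl


/-! ### trivial bound -/


/-! ### noncube frequencies -/

lemma kap_sq {B δ : ℝ} (hB : 0 < B) (k : Eis) :
    (kap (B ^ (1 - δ)) k / Real.sqrt B) ^ 2 = (nm k : ℝ) / (27 * B ^ δ) := by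
  unfold kap
  have h3 : Real.sqrt 3 ^ 2 = 3 := Real.sq_sqrt (by norm_num)
  have hA : 0 ≤ B ^ (1 - δ) := by positivity
  rw [div_pow, div_pow, mul_pow, mul_pow, Real.sq_sqrt hA, Real.sq_sqrt hB.le, norm_toC_sq, h3,
    Real.rpow_sub hB, Real.rpow_one]
  have : B ^ δ ≠ 0 := by positivity
  field_simp
  ring


end

end Crest.Agent.R012.MC
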