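import Crest.Agent.R012.Series_695
import Crest.Agent.R012.Quot_666
import Crest.Agent.R012.StripCo_813

-- ▼ part R012/Tile_695
section

/-!
# Row 12 (M-U), part 6: tiling by the slab and complex scaling
-/

set_option autoImplicit false

noncomputable section

open MeasureTheory Complex
open scoped ENNReal

namespace Crest.Agent.R012.K695

open Eis

/-! ### Tiling -/

lemma ae_snd_ne : ∀ᵐ M : Frm ∂volume, M.2 ≠ 0 := by
  filter_upwards [ae_det_ne] with M hM
  exact snd_ne_zero_of_det hM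

lemma act_nU_snd (b : Eis) (M : Frm) : (act (nU b) M).2 = M.2 := by
  rw [act_nU]

open Classical in
lemma tsum_slab_nU {q : Eis} (hq : q ≠ 0) {M : Frm} (h : M.2 ≠ 0) :
    ∑' k : Eis, (Slab q).indicator (1 : Frm → ℝ≥0∞) (act (nU (q * k)) M) = 1 := by
  set b : Eis := ⟨-⌊cx (zc M / (3 * toC q))⌋, -⌊cy (zc M / (3 * toC q))⌋⟩ with hb
  rw [tsum_eq_single b]
  · rw [Set.indicator_of_mem ((slab_iff hq h b).mpr hb)]; rfl
  · intro k hk
    rw [Set.indicator_of_notMem]
    intro hmem
    exact hk ((slab_iff hq h k).mp hmem)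

/-- The translates of the slab tile the space. -/
theorem lintegral_tile {q : Eis} (hq : q ≠ 0) {f : Frm → ℝ≥0∞} (hf : Measurable f) :
    ∑' k : Eis, ∫⁻ M in Slab q, f (act (nU (q * k)) M) = ∫⁻ M, f M := by
  have h1 : ∀ k : Eis, ∫⁻ M in Slab q, f (act (nU (q * k)) M) =
      ∫⁻ M, (Slab q).indicator (1 : Frm → ℝ≥0∞) (act (nU (q * (-k))) M) * f M := by
    intro k
    rw [← lintegral_indicator (measurableSet_Slab q)]
    have h2 : (fun M => (Slab q).indicator (fun M => f (act (nU (q * k)) M)) M) =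
        fun M => (fun M' => (Slab q).indicator (1 : Frm → ℝ≥0∞) (act (nU (q * (-k))) M') * f M')
          (act (nU (q * k)) M) := by
      funext M
      simp only
      have h3 : act (nU (q * (-k))) (act (nU (q * k)) M) = M := by
        rw [← act_mul, nU_mul]
        have : q * -k + q * k = 0 := by ring
        rw [this, nU_zero, act_one]
      rw [h3]
      by_cases hM : M ∈ Slab q
      · rw [Set.indicator_of_mem hM, Set.indicator_of_mem hM]; simp
      · rw [Set.indicator_of_notMem hM, Set.indicator_of_notMem hM]; simp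
    rw [h2]
    exact (mp_act (nU (q * k))).lintegral_comp
      (((measurable_one.indicator (measurableSet_Slab q)).comp (measurable_act _)).mul hf)
  have h4 : ∀ k : Eis, AEMeasurable (fun M =>
      (Slab q).indicator (1 : Frm → ℝ≥0∞) (act (nU (q * (-k))) M) * f M) volume := fun k =>
    (((measurable_one.indicator (measurableSet_Slab q)).comp (measurable_act _)).mul
      hf).aemeasurable
  rw [tsum_congr h1, ← lintegral_tsum h4]
  apply lintegral_congr_ae
  filter_upwards [ae_snd_ne] with M hM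
  rw [ENNReal.tsum_mul_right]
  have h5 : ∑' k : Eis, (Slab q).indicator (1 : Frm → ℝ≥0∞) (act (nU (q * (-k))) M) = 1 := by
    rw [← tsum_slab_nU hq hM, ← (Equiv.neg Eis).tsum_eq
      (fun k : Eis => (Slab q).indicator (1 : Frm → ℝ≥0∞) (act (nU (q * k)) M))]
    rfl
  rw [h5, one_mul]

theorem hasSum_tile {q : Eis} (hq : q ≠ 0) {f : Frm → ℂ} (hf : Integrable f) :
    HasSum (fun k : Eis => ∫ M in Slab q, f (act (nU (q * k)) M)) (∫ M, f M) :=
  hasSum_of_lintegral (fun k : Eis => measurable_act (nU (q * k)))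
    (fun _ hf => lintegral_tile hq hf) hf

/-! ### Complex scaling -/

lemma map_mul_volume {c : ℂ} (hc : c ≠ 0) :
    Measure.map (fun z : ℂ => c * z) (volume : Measure ℂ) =
      ENNReal.ofReal ((‖c‖ ^ 2)⁻¹) • (volume : Measure ℂ) := by
  have hdet : LinearMap.det (Algebra.lmul ℝ ℂ c) = ‖c‖ ^ 2 := by
    rw [← Algebra.norm_apply, Algebra.norm_complex_apply, Complex.normSq_eq_norm_sq]
  have hn : ‖c‖ ^ 2 ≠ 0 := by positivity
  have h := Measure.map_linearMap_addHaar_eq_smul_addHaar (volume : Measure ℂ)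
    (f := Algebra.lmul ℝ ℂ c) (by rw [hdet]; exact hn)
  rw [hdet, abs_of_nonneg (by positivity)] at h
  exact h

lemma map_smul_volume {c : ℂ} (hc : c ≠ 0) :
    Measure.map (fun u : Vec => c • u) (volume : Measure Vec) =
      ENNReal.ofReal ((‖c‖ ^ 4)⁻¹) • (volume : Measure Vec) := by
  have h1 : (fun u : Vec => c • u) = Prod.map (fun z : ℂ => c * z) (fun z : ℂ => c * z) := by
    funext u
    simp [Prod.map, Prod.smul_def]
  have hm : Measurable (fun z : ℂ => c * z) := measurable_const_mul c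
  have h2 : (volume : Measure Vec) = (volume : Measure ℂ).prod (volume : Measure ℂ) := rfl
  rw [h1, h2, ← Measure.map_prod_map _ _ hm hm, map_mul_volume hc, Measure.prod_smul_left,
    Measure.prod_smul_right, smul_smul, ← ENNReal.ofReal_mul (by positivity)]
  congr 2
  rw [← mul_inv, ← pow_add]

lemma map_scale_volume {c : ℂ} (hc : c ≠ 0) :
    Measure.map (fun M : Frm => (c • M.1, M.2)) (volume : Measure Frm) =
      ENNReal.ofReal ((‖c‖ ^ 4)⁻¹) • (volume : Measure Frm) := by
  have h1 : (fun M : Frm => (c • M.1, M.2)) = Prod.map (fun u : Vec => c • u) id := by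
    funext u
    simp [Prod.map]
  have hm : Measurable (fun u : Vec => c • u) := (continuous_const_smul c).measurable
  have h2 : (volume : Measure Frm) = (volume : Measure Vec).prod (volume : Measure Vec) := rfl
  rw [h1, h2, ← Measure.map_prod_map _ _ hm measurable_id, map_smul_volume hc, Measure.map_id,
    Measure.prod_smul_left]

/-- The substitution `(η, ζ) ↦ (c η + d ζ, ζ)`. -/
theorem map_shear_scale {c : ℂ} (hc : c ≠ 0) (d : ℂ) :
    Measure.map (fun M : Frm => (c • M.1 + d • M.2, M.2)) (volume : Measure Frm) =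
      ENNReal.ofReal ((‖c‖ ^ 4)⁻¹) • (volume : Measure Frm) := by
  have h1 : (fun M : Frm => (c • M.1 + d • M.2, M.2)) =
      (mact (E := Vec) 1 d 0 1) ∘ (fun M : Frm => (c • M.1, M.2)) := by
    funext M
    simp [mact]
  have hm : Measurable (fun M : Frm => (c • M.1, M.2)) := by
    have : Continuous (fun M : Frm => (c • M.1, M.2)) := by fun_prop
    exact this.measurable
  have h2 : MeasurePreserving (mact (E := Vec) 1 d 0 1) (volume : Measure Frm) volume :=
    mp_upper (volume : Measure Vec) d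
  rw [h1, ← Measure.map_map h2.measurable hm, map_scale_volume hc, Measure.map_smul, h2.map_eq]

lemma measurable_shear_scale (c d : ℂ) :
    Measurable (fun M : Frm => (c • M.1 + d • M.2, M.2)) := by
  have : Continuous (fun M : Frm => (c • M.1 + d • M.2, M.2)) := by fun_prop
  exact this.measurable

lemma lintegral_shear_scale {c : ℂ} (hc : c ≠ 0) (d : ℂ) {f : Frm → ℝ≥0∞} (hf : Measurable f) :
    ∫⁻ M : Frm, f (c • M.1 + d • M.2, M.2) = ENNReal.ofReal ((‖c‖ ^ 4)⁻¹) * ∫⁻ M, f M := by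
  rw [← lintegral_map (f := f) hf (measurable_shear_scale c d), map_shear_scale hc,
    lintegral_smul_measure, smul_eq_mul]

lemma integral_shear_scale {c : ℂ} (hc : c ≠ 0) (d : ℂ) {f : Frm → ℂ} (hf : Measurable f) :
    ∫ M : Frm, f (c • M.1 + d • M.2, M.2) = (((‖c‖ ^ 4)⁻¹ : ℝ) : ℂ) * ∫ M, f M := by
  have h := integral_map (μ := (volume : Measure Frm)) (measurable_shear_scale c d).aemeasurable
    (f := f) hf.aestronglyMeasurable
  rw [← h, map_shear_scale hc, integral_smul_measure, ENNReal.toReal_ofReal (by positivity)]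
  rfl

end Crest.Agent.R012.K695
end
end

-- ▼ part R012/GramEx_988
section

/-!
# Row 12 (M): the exact inner product (Gram formula) of the equivariant series, at any level

`gram_slab` : for coefficients `a` (`IsCoef Δ a`) and `F', F` bounded measurable with bounded support,
`∫_{Slab q} W(det M) EC a F' M conj(F ζ) dM =
   a(0,1) ∫_{Slab q} W(det M) F'(ζ) conj(F ζ) dM
   + Σ_{c ≠ 0} (Σ_{d mod 3qc} a(c,d)) N(c)^{-2} ∫∫ W(det(u,z)/c) F'(u) conj(F z) du dz`.
-/

set_option autoImplicit false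

noncomputable section

open MeasureTheory Complex
open scoped ComplexConjugate ENNReal

namespace Crest.Agent.R012.K695.Gram988

open Eis

/-- A cut-off in the determinant: bounded, measurable, supported in an annulus. -/
structure Cut (W : ℂ → ℂ) : Prop where
  meas : Measurable W
  bdd : ∃ C : ℝ, ∀ z, ‖W z‖ ≤ C
  supp : ∃ r : ℝ, 0 < r ∧ ∀ z, ‖z‖ < r → W z = 0

/-! ### Integrability -/

lemma bdd_n2_ball (R : ℝ) : Bornology.IsBounded {u : Vec | n2 u ≤ R} := by
  refine (Metric.isBounded_closedBall (x := (0 : Vec)) (r := Real.sqrt |R|)).subset ?_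
  intro u hu
  simp only [Set.mem_ofPred_eq] at hu
  rw [mem_closedBall_zero_iff, Prod.norm_def]
  have h1 : ‖u.1‖ ^ 2 ≤ |R| := by
    have := sq_nonneg ‖u.2‖
    unfold n2 at hu
    exact le_trans (by linarith) (le_abs_self R)
  have h2 : ‖u.2‖ ^ 2 ≤ |R| := by
    have := sq_nonneg ‖u.1‖
    unfold n2 at hu
    exact le_trans (by linarith) (le_abs_self R)
  exact max_le (Real.le_sqrt_of_sq_le h1) (Real.le_sqrt_of_sq_le h2)

lemma BS.integrable {F : Vec → ℂ} (hF : BS F) : Integrable F := by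
  obtain ⟨C, hC⟩ := hF.bdd
  obtain ⟨R, hR⟩ := hF.supp
  have hs : MeasurableSet {u : Vec | n2 u ≤ R} :=
    measurableSet_le continuous_n2.measurable measurable_const
  have h1 : IntegrableOn F {u : Vec | n2 u ≤ R} := by
    refine Measure.integrableOn_of_bounded (M := C) ?_ hF.meas.aestronglyMeasurable ?_
    · exact ((bdd_n2_ball R).measure_lt_top).ne
    · exact Filter.Eventually.of_forall hC
  rw [← integrable_indicator_iff hs] at h1
  refine h1.congr (Filter.Eventually.of_forall fun u => ?_)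
  by_cases h : n2 u ≤ R
  · exact Set.indicator_of_mem (s := {u : Vec | n2 u ≤ R}) h F
  · rw [Set.indicator_of_notMem (by exact h)]
    exact (hR u (not_le.mp h)).symm

/-- `W(det(u,z)/c) F'(u) conj(F z)`. -/
def G0 (W : ℂ → ℂ) (F' F : Vec → ℂ) (c : ℂ) (M : Frm) : ℂ :=
  W (det2 M / c) * F' M.1 * conj (F M.2)

/-- `W(det M) F'(c η + d ζ) conj(F ζ)`. -/
def gg (W : ℂ → ℂ) (F' F : Vec → ℂ) (r : Eis × Eis) (M : Frm) : ℂ :=
  W (det2 M) * F' (rowv r M) * conj (F M.2)

variable {W : ℂ → ℂ} {F F' : Vec → ℂ}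

lemma measurable_G0 (hW : Cut W) (hF' : BS F') (hF : BS F) (c : ℂ) : Measurable (G0 W F' F c) := by
  unfold G0
  exact ((hW.meas.comp (measurable_det2.div_const c)).mul (hF'.meas.comp measurable_fst)).mul
    (Complex.continuous_conj.measurable.comp (hF.meas.comp measurable_snd))

lemma measurable_gg (hW : Cut W) (hF' : BS F') (hF : BS F) (r : Eis × Eis) :
    Measurable (gg W F' F r) := by
  unfold gg
  exact ((hW.meas.comp measurable_det2).mul (hF'.meas.comp (measurable_rowv r))).mul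
    (Complex.continuous_conj.measurable.comp (hF.meas.comp measurable_snd))

lemma integrable_G0 (hW : Cut W) (hF' : BS F') (hF : BS F) (c : ℂ) : Integrable (G0 W F' F c) := by
  obtain ⟨C, hC⟩ := hW.bdd
  have hprod : Integrable (fun M : Frm => F' M.1 * conj (F M.2)) := by
    have h1 : Integrable (fun u : Vec => conj (F u)) := by
      have := (BS.integrable hF)
      exact (Complex.conjCLE.toContinuousLinearMap.integrable_comp this)
    exact (BS.integrable hF').mul_prod h1
  have h2 := hprod.bdd_mul (c := C) (f := fun M : Frm => W (det2 M / c))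
    ((hW.meas.comp (measurable_det2.div_const c)).aestronglyMeasurable)
    (Filter.Eventually.of_forall fun M => hC _)
  refine h2.congr (Filter.Eventually.of_forall fun M => ?_)
  simp only [G0]
  ring

lemma det2_row (c d : Eis) (M : Frm) :
    det2 (toC c • M.1 + toC d • M.2, M.2) = toC c * det2 M := by
  simp only [det2, Prod.fst_add, Prod.snd_add, Prod.smul_fst, Prod.smul_snd, smul_eq_mul]
  ring

lemma gg_eq {c : Eis} (hc : c ≠ 0) (d : Eis) (M : Frm) :
    gg W F' F (c, d) M = G0 W F' F (toC c) (toC c • M.1 + toC d • M.2, M.2) := by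
  have hc' : toC c ≠ 0 := by simpa using hc
  unfold gg G0 rowv
  rw [det2_row, mul_div_cancel_left₀ _ hc']

lemma norm_toC_pow_four (c : Eis) : ‖toC c‖ ^ 4 = (nm c : ℝ) ^ 2 := by
  rw [show ‖toC c‖ ^ 4 = (‖toC c‖ ^ 2) ^ 2 by ring, norm_toC_sq]

lemma lintegral_gg (hW : Cut W) (hF' : BS F') (hF : BS F) {c : Eis} (hc : c ≠ 0) (d : Eis) :
    ∫⁻ M, ‖gg W F' F (c, d) M‖ₑ =
      ENNReal.ofReal (((nm c : ℝ) ^ 2)⁻¹) * ∫⁻ M, ‖G0 W F' F (toC c) M‖ₑ := by
  have hc' : toC c ≠ 0 := by simpa using hc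
  simp_rw [gg_eq hc d]
  rw [lintegral_shear_scale hc' (toC d) (f := fun M => ‖G0 W F' F (toC c) M‖ₑ)
    (measurable_G0 hW hF' hF _).enorm, norm_toC_pow_four]

lemma integral_gg (hW : Cut W) (hF' : BS F') (hF : BS F) {c : Eis} (hc : c ≠ 0) (d : Eis) :
    ∫ M, gg W F' F (c, d) M =
      ((((nm c : ℝ) ^ 2)⁻¹ : ℝ) : ℂ) * ∫ M, G0 W F' F (toC c) M := by
  have hc' : toC c ≠ 0 := by simpa using hc
  simp_rw [gg_eq hc d]
  rw [integral_shear_scale hc' (toC d) (f := fun M => G0 W F' F (toC c) M)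
    (measurable_G0 hW hF' hF _), norm_toC_pow_four]

lemma integrable_gg (hW : Cut W) (hF' : BS F') (hF : BS F) {c : Eis} (hc : c ≠ 0) (d : Eis) :
    Integrable (gg W F' F (c, d)) := by
  refine ⟨(measurable_gg hW hF' hF _).aestronglyMeasurable, ?_⟩
  rw [HasFiniteIntegral, lintegral_gg hW hF' hF hc]
  exact ENNReal.mul_lt_top ENNReal.ofReal_lt_top (integrable_G0 hW hF' hF _).2

/-- For large `c` nothing is left. -/
lemma gg_eq_zero (hW : Cut W) (hF' : BS F') (hF : BS F) :
    ∃ K : ℕ, ∀ c d : Eis, K < nm c → ∀ M, gg W F' F (c, d) M = 0 := by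
  obtain ⟨r, hr, hr'⟩ := hW.supp
  obtain ⟨R, hR⟩ := hF.supp
  obtain ⟨R', hR'⟩ := hF'.supp
  refine ⟨⌈|R'| * |R| / r ^ 2⌉₊, fun c d hc M => ?_⟩
  unfold gg
  by_cases h1 : R' < n2 (rowv (c, d) M)
  · rw [hR' _ h1]; simp
  by_cases h2 : R < n2 M.2
  · rw [hR _ h2]; simp
  rw [not_lt] at h1 h2
  rw [hr' (det2 M), zero_mul, zero_mul]
  by_contra h3
  rw [not_lt] at h3
  have h4 := nm1_le (c, d) M
  simp only at h4
  have h5 : n2 (rowv (c, d) M) * n2 M.2 ≤ |R'| * |R| :=
    mul_le_mul (h1.trans (le_abs_self _)) (h2.trans (le_abs_self _)) (n2_nonneg _) (abs_nonneg _)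
  have h6 : (nm c : ℝ) * r ^ 2 ≤ |R'| * |R| := by
    refine le_trans ?_ (h4.trans h5)
    gcongr
  have h7 : |R'| * |R| / r ^ 2 < nm c := by
    refine lt_of_le_of_lt (Nat.le_ceil _) ?_
    exact_mod_cast hc
  rw [div_lt_iff₀ (by positivity)] at h7
  linarith

lemma rmul_nU (c d b : Eis) : rmul (c, d) (nU b) = (c, d + 3 * c * b) := by
  simp only [rmul, nU, ga_mk, gb_mk, gc_mk, gd_mk, Prod.mk.injEq]
  constructor <;> ring

lemma gg_act (c d b : Eis) (M : Frm) :
    gg W F' F (c, d) (act (nU b) M) = gg W F' F (c, d + 3 * c * b) M := by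
  unfold gg
  rw [det2_act, rowv_act, rmul_nU, act_nU_snd]

lemma three_q_c_ne {q c : Eis} (hq : q ≠ 0) (hc : c ≠ 0) : 3 * q * c ≠ 0 := by
  have h3 : (3 : Eis) ≠ 0 := by
    intro h
    have := congrArg QuadraticAlgebra.re h
    simp at this
  exact mul_ne_zero (mul_ne_zero h3 hq) hc

lemma tsum_lintegral_slab (hW : Cut W) (hF' : BS F') (hF : BS F) {q c : Eis} (hq : q ≠ 0)
    (hc : c ≠ 0) :
    ∑' d : Eis, ∫⁻ M in Slab q, ‖gg W F' F (c, d) M‖ₑ =
      ∑ _s ∈ crs (3 * q * c), ENNReal.ofReal (((nm c : ℝ) ^ 2)⁻¹) *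
        ∫⁻ M, ‖G0 W F' F (toC c) M‖ₑ := by
  have hn := three_q_c_ne hq hc
  rw [← (crsEquiv hn (isCRS_crs hn)).tsum_eq, ENNReal.tsum_prod', tsum_fintype]
  simp only [crsEquiv_apply]
  rw [← Finset.sum_coe_sort (crs (3 * q * c)) (fun _ => ENNReal.ofReal (((nm c : ℝ) ^ 2)⁻¹) *
        ∫⁻ M, ‖G0 W F' F (toC c) M‖ₑ)]
  refine Finset.sum_congr rfl fun s _ => ?_
  rw [← lintegral_gg hW hF' hF hc s.1, ← lintegral_tile hq (measurable_gg hW hF' hF _).enorm]
  refine tsum_congr fun t => ?_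
  simp only [gg_act]
  have : (3 * c * (q * t) : Eis) = 3 * q * c * t := by ring
  rw [this]

/-- Integrability over the slab, summed over all rows with `c ≠ 0`. -/
lemma tsum_ne_top (hW : Cut W) (hF' : BS F') (hF : BS F) {q : Eis} (hq : q ≠ 0) :
    ∑' c : Eis, (if c = 0 then 0 else ∑' d : Eis, ∫⁻ M in Slab q, ‖gg W F' F (c, d) M‖ₑ) ≠ ∞ := by
  obtain ⟨K, hK⟩ := gg_eq_zero hW hF' hF
  rw [tsum_eq_sum (s := ball K)]
  · refine (ENNReal.sum_lt_top.mpr fun c _ => ?_).ne
    by_cases hc : c = 0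
    · simp [hc]
    · rw [if_neg hc, tsum_lintegral_slab hW hF' hF hq hc]
      refine ENNReal.sum_lt_top.mpr fun s _ => ?_
      exact ENNReal.mul_lt_top ENNReal.ofReal_lt_top (integrable_G0 hW hF' hF _).2
  · intro c hc
    rw [mem_ball, not_le] at hc
    by_cases h0 : c = 0
    · simp [h0]
    · rw [if_neg h0]
      simp [hK c _ hc]

/-! ### The Gram formula -/

/-- coefficients -/
lemma coef_row_zero {Δ : Subgroup Gam} {a : Eis × Eis → ℂ} (ha : IsCoef Δ a) {d : Eis}
    (hd : d ≠ 1) : a (0, d) = 0 := by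
  by_contra h
  obtain ⟨h1, -, h3⟩ := ha.supp _ h
  exact hd (prim_eq_one_of_isUnit h3 (isCoprime_zero_left.mp h1))

lemma kub_nU (H : SyAPI) (b : Eis) : kub (nU b) = 1 := by
  simp [kub, nU, H.one_right]

lemma pmod_coef (H : SyAPI) {Δ : Subgroup Gam} {q : Eis} (hL : IsLev Δ q) {a : Eis × Eis → ℂ}
    (ha : IsCoef Δ a) (c : Eis) : PMod (3 * q * c) (fun d => a (c, d)) := by
  intro d t
  have h1 := ha.equiv (nU (q * t)) ((hL.nU_mem _).mpr (Dvd.intro _ rfl)) (c, d)
  rw [kub_nU H, map_one, one_mul, rmul_nU] at h1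
  change a (c, d + 3 * q * c * t) = a (c, d)
  rw [← h1]
  congr 2
  ring

/-- The contribution of `c` to the Gram formula. -/
def gterm (q : Eis) (a : Eis × Eis → ℂ) (W : ℂ → ℂ) (F' F : Vec → ℂ) (c : Eis) : ℂ :=
  if c = 0 then 0 else sumMod (3 * q * c) (fun d => a (c, d)) *
    ((((nm c : ℝ) ^ 2)⁻¹ : ℝ) : ℂ) * ∫ M, G0 W F' F (toC c) M

lemma gterm_eq_zero (hW : Cut W) (hF' : BS F') (hF : BS F) :
    ∃ K : ℕ, ∀ (q : Eis) (a : Eis × Eis → ℂ) (c : Eis), K < nm c → gterm q a W F' F c = 0 := by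
  obtain ⟨K, hK⟩ := gg_eq_zero hW hF' hF
  refine ⟨K, fun q a c hc => ?_⟩
  unfold gterm
  by_cases h0 : c = 0
  · simp [h0]
  · have h1 := integral_gg hW hF' hF h0 0
    have h2 : ∫ M, gg W F' F (c, 0) M = 0 := by
      simp [hK c 0 hc]
    rw [h2] at h1
    have h3 : ((((nm c : ℝ) ^ 2)⁻¹ : ℝ) : ℂ) ≠ 0 := by
      have : (nm c : ℝ) ≠ 0 := by
        have := nm_pos.mpr h0
        positivity
      exact_mod_cast inv_ne_zero (pow_ne_zero 2 this)
    have h4 : ∫ M, G0 W F' F (toC c) M = 0 := by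
      rcases mul_eq_zero.mp h1.symm with h | h
      · exact absurd h h3
      · exact h
    rw [h4, mul_zero, ite_self]

lemma summable_gterm (hW : Cut W) (hF' : BS F') (hF : BS F) (q : Eis) (a : Eis × Eis → ℂ) :
    Summable (gterm q a W F' F) := by
  obtain ⟨K, hK⟩ := gterm_eq_zero hW hF' hF
  apply summable_of_hasFiniteSupport
  refine (ball K).finite_toSet.subset ?_
  intro c hc
  rw [Function.mem_support] at hc
  rw [Finset.mem_coe, mem_ball]
  by_contra h
  exact hc (hK q a c (not_le.mp h))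

/-- **The Gram formula** over the slab. `h0` is the integrability of the term `c = 0`. -/
theorem gram_slab (H : SyAPI) {Δ : Subgroup Gam} {q : Eis} (hL : IsLev Δ q) {a : Eis × Eis → ℂ}
    (ha : IsCoef Δ a) (hW : Cut W) (hF' : BS F') (hF : BS F)
    (h0 : IntegrableOn (fun M => W (det2 M) * F' M.2 * conj (F M.2)) (Slab q)) :
    IntegrableOn (fun M => W (det2 M) * EC a F' M * conj (F M.2)) (Slab q) ∧
    ∫ M in Slab q, W (det2 M) * EC a F' M * conj (F M.2) =
      a (0, 1) * (∫ M in Slab q, W (det2 M) * F' M.2 * conj (F M.2)) +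
        ∑' c : Eis, gterm q a W F' F c := by
  have hq := hL.q_ne
  -- the integrand as a sum over the rows
  have hsum : ∀ M, W (det2 M) * EC a F' M * conj (F M.2) =
      ∑' r : Eis × Eis, a r * gg W F' F r M := by
    intro M
    unfold EC gg
    rw [← tsum_mul_left, ← tsum_mul_right]
    refine tsum_congr fun r => ?_
    ring
  have hm : ∀ r : Eis × Eis, Measurable (fun M => a r * gg W F' F r M) := fun r =>
    (measurable_gg hW hF' hF r).const_mul (a r)
  -- rows with `c = 0`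
  have hg01 : ∀ M, gg W F' F (0, 1) M = W (det2 M) * F' M.2 * conj (F M.2) := by
    intro M
    simp [gg, rowv]
  -- total integrability
  have htot : ∑' r : Eis × Eis, ∫⁻ M in Slab q, ‖a r * gg W F' F r M‖ₑ ≠ ∞ := by
    rw [ENNReal.tsum_prod']
    have hle : ∀ c : Eis, ∑' d : Eis, ∫⁻ M in Slab q, ‖a (c, d) * gg W F' F (c, d) M‖ₑ ≤
        (if c = 0 then ∫⁻ M in Slab q, ‖a (0, 1) * gg W F' F (0, 1) M‖ₑ else 0) +
        (if c = 0 then 0 else ∑' d : Eis, ∫⁻ M in Slab q, ‖gg W F' F (c, d) M‖ₑ) := by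
      intro c
      by_cases hc : c = 0
      · subst hc
        rw [if_pos rfl, if_pos rfl, add_zero, tsum_eq_single 1]
        intro d hd
        simp [coef_row_zero ha hd]
      · rw [if_neg hc, if_neg hc, zero_add]
        refine ENNReal.tsum_le_tsum fun d => lintegral_mono fun M => ?_
        rw [enorm_mul]
        calc ‖a (c, d)‖ₑ * ‖gg W F' F (c, d) M‖ₑ ≤ 1 * ‖gg W F' F (c, d) M‖ₑ := by
              gcongr
              have := ha.bdd (c, d)
              rw [← ofReal_norm]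
              exact ENNReal.ofReal_le_one.mpr this
          _ = _ := one_mul _
    refine ne_top_of_le_ne_top ?_ (ENNReal.tsum_le_tsum hle)
    rw [ENNReal.tsum_add, ENNReal.add_ne_top]
    refine ⟨?_, tsum_ne_top hW hF' hF hq⟩
    rw [tsum_eq_single 0 (fun c hc => by rw [if_neg hc]), if_pos rfl]
    simp_rw [hg01, enorm_mul]
    have h1 := h0.2
    rw [HasFiniteIntegral] at h1
    have h2 : ∫⁻ M in Slab q, ‖a (0, 1)‖ₑ * (‖W (det2 M)‖ₑ * ‖F' M.2‖ₑ * ‖conj (F M.2)‖ₑ) =
        ‖a (0, 1)‖ₑ * ∫⁻ M in Slab q, ‖W (det2 M) * F' M.2 * conj (F M.2)‖ₑ := by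
      simp_rw [enorm_mul]
      rw [lintegral_const_mul' _ _ enorm_ne_top]
    rw [h2]
    exact ENNReal.mul_ne_top enorm_ne_top h1.ne
  have hint : ∀ r : Eis × Eis, IntegrableOn (fun M => a r * gg W F' F r M) (Slab q) := fun r =>
    ⟨(hm r).aestronglyMeasurable, lt_of_le_of_lt (ENNReal.le_tsum r) (lt_top_iff_ne_top.mpr htot)⟩
  have hmE : Measurable (fun M => W (det2 M) * EC a F' M * conj (F M.2)) :=
    ((hW.meas.comp measurable_det2).mul (measurable_EC hF'.meas)).mul
      (Complex.continuous_conj.measurable.comp (hF.meas.comp measurable_snd))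
  have hI : IntegrableOn (fun M => W (det2 M) * EC a F' M * conj (F M.2)) (Slab q) := by
    refine ⟨hmE.aestronglyMeasurable, ?_⟩
    rw [HasFiniteIntegral]
    refine lt_of_le_of_lt ?_ (lt_top_iff_ne_top.mpr htot)
    rw [← lintegral_tsum (fun r => (hm r).enorm.aemeasurable)]
    refine lintegral_mono fun M => ?_
    rw [hsum M]
    exact enorm_tsum_le_tsum_enorm
  refine ⟨hI, ?_⟩
  simp_rw [hsum]
  rw [integral_tsum (fun r => (hm r).aestronglyMeasurable) htot]
  -- summability of the integrals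
  have hsm : Summable (fun r : Eis × Eis => ∫ M in Slab q, a r * gg W F' F r M) := by
    have h1 : Summable (fun r : Eis × Eis =>
        (∫⁻ M in Slab q, ‖a r * gg W F' F r M‖ₑ).toReal) := ENNReal.summable_toReal htot
    refine Summable.of_norm_bounded h1 fun r => ?_
    refine (norm_integral_le_integral_norm _).trans (le_of_eq ?_)
    rw [integral_norm_eq_lintegral_enorm (hm r).aestronglyMeasurable]
  rw [hsm.tsum_prod]
  have hsm' : Summable (fun c : Eis => ∑' d : Eis, ∫ M in Slab q,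
      a (c, d) * gg W F' F (c, d) M) := hsm.prod
  -- the inner sums
  have hin0 : ∑' d : Eis, ∫ M in Slab q, a (0, d) * gg W F' F (0, d) M =
      a (0, 1) * (∫ M in Slab q, W (det2 M) * F' M.2 * conj (F M.2)) := by
    rw [tsum_eq_single 1]
    · rw [integral_const_mul]
      simp_rw [hg01]
    · intro d hd
      simp [coef_row_zero ha hd]
  have hin : ∀ c : Eis, c ≠ 0 → ∑' d : Eis, ∫ M in Slab q, a (c, d) * gg W F' F (c, d) M =
      gterm q a W F' F c := by
    intro c hc
    have hn := three_q_c_ne hq hc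
    have hfin : ∑' d : Eis, ∫⁻ M in Slab q, ‖gg W F' F (c, d) M‖ₑ ≠ ∞ := by
      rw [tsum_lintegral_slab hW hF' hF hq hc]
      refine (ENNReal.sum_lt_top.mpr fun s _ => ?_).ne
      exact ENNReal.mul_lt_top ENNReal.ofReal_lt_top (integrable_G0 hW hF' hF _).2
    have hs1 : Summable (fun d : Eis => ∫ M in Slab q, gg W F' F (c, d) M) := by
      refine Summable.of_norm_bounded (ENNReal.summable_toReal hfin) fun d => ?_
      refine (norm_integral_le_integral_norm _).trans (le_of_eq ?_)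
      rw [integral_norm_eq_lintegral_enorm (measurable_gg hW hF' hF _).aestronglyMeasurable]
    have hs2 : Summable (fun d : Eis => a (c, d) * ∫ M in Slab q, gg W F' F (c, d) M) := by
      refine Summable.of_norm_bounded hs1.norm fun d => ?_
      rw [norm_mul]
      calc ‖a (c, d)‖ * ‖∫ M in Slab q, gg W F' F (c, d) M‖
          ≤ 1 * ‖∫ M in Slab q, gg W F' F (c, d) M‖ := by gcongr; exact ha.bdd _
        _ = _ := one_mul _
    have e1 : ∀ d : Eis, ∫ M in Slab q, a (c, d) * gg W F' F (c, d) M =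
        a (c, d) * ∫ M in Slab q, gg W F' F (c, d) M := fun d => integral_const_mul _ _
    rw [tsum_congr e1, tsum_periodic hn (pmod_coef H hL ha c) hs1 hs2]
    have e2 : ∀ d : Eis, ∑' t : Eis, ∫ M in Slab q, gg W F' F (c, d + 3 * q * c * t) M =
        ((((nm c : ℝ) ^ 2)⁻¹ : ℝ) : ℂ) * ∫ M, G0 W F' F (toC c) M := by
      intro d
      rw [← integral_gg hW hF' hF hc d, ← (hasSum_tile hq (integrable_gg hW hF' hF hc d)).tsum_eq]
      refine tsum_congr fun t => ?_
      simp only [gg_act]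
      have : (3 * c * (q * t) : Eis) = 3 * q * c * t := by ring
      rw [this]
    simp_rw [e2]
    rw [sumMod_mul_right hn, gterm, if_neg hc]
    exact (mul_assoc _ _ _).symm
  have hfinal : ∀ c : Eis, ∑' d : Eis, ∫ M in Slab q, a (c, d) * gg W F' F (c, d) M =
      (if c = 0 then a (0, 1) * (∫ M in Slab q, W (det2 M) * F' M.2 * conj (F M.2)) else 0) +
        gterm q a W F' F c := by
    intro c
    by_cases hc : c = 0
    · subst hc
      rw [hin0, if_pos rfl, gterm, if_pos rfl, add_zero]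
    · rw [hin c hc, if_neg hc, zero_add]
  rw [tsum_congr hfinal, Summable.tsum_add, tsum_ite_eq]
  · exact (hasSum_ite_eq 0 _).summable
  · exact summable_gterm hW hF' hF q a

/-- **Gram formula**: `∫ W(det) EC a F' conj(EC (bco Δ) F) dν_Δ`. -/
theorem gram (H : SyAPI) {Δ : Subgroup Gam} {q : Eis} (hL : IsLev Δ q) {a : Eis × Eis → ℂ}
    (ha : IsCoef Δ a) (hW : Cut W) (hF' : BS F') (hF : BS F)
    (h0 : IntegrableOn (fun M => W (det2 M) * F' M.2 * conj (F M.2)) (Slab q)) :
    Integrable (fun M => W (det2 M) * EC a F' M * conj (EC (bco Δ) F M)) (nu Δ q) ∧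
    ∫ M, W (det2 M) * EC a F' M * conj (EC (bco Δ) F M) ∂(nu Δ q) =
      a (0, 1) * (∫ M in Slab q, W (det2 M) * F' M.2 * conj (F M.2)) +
        ∑' c : Eis, gterm q a W F' F c := by
  have h1 := gram_slab H hL ha hW hF' hF h0
  have h2 := pairing H hL (Φ := EC a F') (measurable_EC hF'.meas)
    (fun g hg M => EC_act H ha F' hg M) hW.meas hF.meas h1.1
  exact ⟨h2.1, by rw [h2.2, h1.2]⟩

end Crest.Agent.R012.K695.Gram988
end
end

-- ▼ part R012/SlabVol_681

/-!
# Row 12 (MU): volume of the slab and the `c = 0` term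

`∫_{M ∈ Slab q} W (det2 M) K (M.2) = (9 N(q) √3/2) (∫ W) (∫ K)`.
-/

set_option autoImplicit false

noncomputable section

open MeasureTheory Complex
open scoped ENNReal

namespace Crest.Agent.R012.K695

open Eis Parseval499

/-! ### Volumes -/

lemma cx_Lm (x : Fin 2 → ℝ) : cx (Lm 1 x) = x 0 := by
  have h := sqrt3_pos.ne'
  simp only [cx, Lm, one_mul, wC]
  simp
  field_simp
  ring

lemma cy_Lm (x : Fin 2 → ℝ) : cy (Lm 1 x) = x 1 := by
  have h := sqrt3_pos.ne'
  simp only [cy, Lm, one_mul, wC]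
  simp
  field_simp

theorem volume_P0 : (volume : Measure ℂ) P0 = ENNReal.ofReal (Real.sqrt 3 / 2) := by
  have hm : Measurable (Lm 1) := (continuous_Lm 1).measurable
  rw [volume_eq_smul_map one_ne_zero, Measure.smul_apply, Measure.map_apply hm measurableSet_P0]
  have e : Lm 1 ⁻¹' P0 = Set.pi Set.univ (fun _ : Fin 2 => Set.Ico (0 : ℝ) 1) := by
    ext x
    simp only [Set.mem_preimage, P0, Set.mem_ofPred_eq, cx_Lm, cy_Lm, Set.mem_pi, Set.mem_univ,
      forall_true_left, Set.mem_Ico, Fin.forall_fin_two]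
  rw [e, volume_pi_pi]
  simp [covol]

/-- the fibre of the slab -/
def PQ (q : Eis) : Set ℂ := {z | z / (3 * toC q) ∈ P0}

lemma measurableSet_PQ (q : Eis) : MeasurableSet (PQ q) :=
  (measurable_id.div_const _) measurableSet_P0

lemma norm_three_toC_sq (q : Eis) : ‖3 * toC q‖ ^ 2 = 9 * nm q := by
  rw [norm_mul, mul_pow, norm_toC_sq]
  norm_num

/-- the volume of the fibre. -/
def slabVol (q : Eis) : ℝ := 9 * nm q * (Real.sqrt 3 / 2)

lemma slabVol_nonneg (q : Eis) : 0 ≤ slabVol q := by unfold slabVol; positivity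

theorem volume_PQ {q : Eis} (hq : q ≠ 0) :
    (volume : Measure ℂ) (PQ q) = ENNReal.ofReal (slabVol q) := by
  have h0 : (3 * toC q) ≠ 0 := mul_ne_zero (by norm_num) (by simpa using hq)
  rw [← lintegral_indicator_one (measurableSet_PQ q), StripCo813.lintegral_comp_mul_left h0]
  have e : ∀ z : ℂ, (PQ q).indicator (1 : ℂ → ℝ≥0∞) (3 * toC q * z) = P0.indicator 1 z := by
    intro z
    have e1 : 3 * toC q * z / (3 * toC q) = z := mul_div_cancel_left₀ z h0
    by_cases hz : z ∈ P0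
    · rw [Set.indicator_of_mem hz, Set.indicator_of_mem
        (show 3 * toC q * z ∈ PQ q by simp only [PQ, Set.mem_ofPred_eq, e1]; exact hz)]
      rfl
    · rw [Set.indicator_of_notMem hz, Set.indicator_of_notMem
        (show 3 * toC q * z ∉ PQ q by simp only [PQ, Set.mem_ofPred_eq, e1]; exact hz)]
  simp_rw [e]
  rw [lintegral_indicator_one measurableSet_P0, volume_P0, norm_three_toC_sq,
    ← ENNReal.ofReal_mul (by positivity), slabVol]

/-! ### Coordinates `η = z ζ + s ζ^⊥` -/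

/-- `(z, s) ↦ z ζ + s ζ^⊥`. -/
def pz (ζ : Vec) (p : ℂ × ℂ) : Vec :=
  mact (E := ℂ) ζ.1 (-(starRingEnd ℂ) ζ.2 / (n2 ζ : ℂ)) ζ.2 ((starRingEnd ℂ) ζ.1 / (n2 ζ : ℂ)) p

lemma mp_pz {ζ : Vec} (hζ : ζ ≠ 0) :
    MeasurePreserving (pz ζ) (volume : Measure (ℂ × ℂ)) (volume : Measure Vec) := by
  have hn : (n2 ζ : ℂ) ≠ 0 := by
    rw [Ne, Complex.ofReal_eq_zero, n2_eq_zero]; exact hζ
  have hdet : ζ.1 * ((starRingEnd ℂ) ζ.1 / (n2 ζ : ℂ)) -
      (-(starRingEnd ℂ) ζ.2 / (n2 ζ : ℂ)) * ζ.2 = 1 := by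
    field_simp
    rw [n2_cast]
    ring
  exact mp_mact (E := ℂ) (volume : Measure ℂ) hdet

lemma det2_pz {ζ : Vec} (hζ : ζ ≠ 0) (p : ℂ × ℂ) : det2 (pz ζ p, ζ) = -p.2 := by
  have hn : (n2 ζ : ℂ) ≠ 0 := by
    rw [Ne, Complex.ofReal_eq_zero, n2_eq_zero]; exact hζ
  simp only [det2, pz, mact, smul_eq_mul]
  field_simp
  rw [n2_cast]
  ring

lemma zc_pz {ζ : Vec} (hζ : ζ ≠ 0) (p : ℂ × ℂ) : zc (pz ζ p, ζ) = p.1 := by
  have hn : (n2 ζ : ℂ) ≠ 0 := by
    rw [Ne, Complex.ofReal_eq_zero, n2_eq_zero]; exact hζ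
  simp only [zc, pz, mact, smul_eq_mul]
  field_simp
  rw [n2_cast]
  ring

lemma mem_slab_pz {ζ : Vec} (hζ : ζ ≠ 0) (q : Eis) (p : ℂ × ℂ) :
    ((pz ζ p, ζ) : Frm) ∈ Slab q ↔ p.1 ∈ PQ q := by
  unfold Slab PQ
  simp only [Set.mem_ofPred_eq]
  rw [zc_pz hζ]

lemma measurable_pz (ζ : Vec) : Measurable (pz ζ) := measurable_mact (E := ℂ) _ _ _ _

/-! ### The `c = 0` term -/

/-- inner integral -/
lemma lintegral_slab_fiber {q : Eis} (hq : q ≠ 0) {W : ℂ → ℝ≥0∞} (hW : Measurable W) {ζ : Vec}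
    (hζ : ζ ≠ 0) :
    ∫⁻ η : Vec, (Slab q).indicator (fun M : Frm => W (det2 M)) (η, ζ) =
      ENNReal.ofReal (slabVol q) * ∫⁻ s, W s := by
  have hm : Measurable (fun η : Vec => (Slab q).indicator (fun M : Frm => W (det2 M)) (η, ζ)) :=
    ((hW.comp measurable_det2).indicator (measurableSet_Slab q)).comp
      (measurable_id.prodMk measurable_const)
  rw [← (mp_pz hζ).lintegral_comp hm]
  have e : ∀ p : ℂ × ℂ, (Slab q).indicator (fun M : Frm => W (det2 M)) (pz ζ p, ζ) =
      (PQ q).indicator (1 : ℂ → ℝ≥0∞) p.1 * W (-p.2) := by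
    intro p
    by_cases hp : p.1 ∈ PQ q
    · rw [Set.indicator_of_mem hp, Set.indicator_of_mem ((mem_slab_pz hζ q p).mpr hp), det2_pz hζ,
        Pi.one_apply, one_mul]
    · rw [Set.indicator_of_notMem hp, Set.indicator_of_notMem
        (fun h => hp ((mem_slab_pz hζ q p).mp h)), zero_mul]
  simp_rw [e]
  have hWn : Measurable (fun s : ℂ => W (-s)) := hW.comp measurable_neg
  have h1 := lintegral_prod_mul (μ := (volume : Measure ℂ)) (ν := (volume : Measure ℂ))
    (f := (PQ q).indicator (1 : ℂ → ℝ≥0∞)) (g := fun s : ℂ => W (-s))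
    ((measurable_one.indicator (measurableSet_PQ q)).aemeasurable) hWn.aemeasurable
  rw [Measure.volume_eq_prod, h1, lintegral_indicator_one (measurableSet_PQ q), volume_PQ hq]
  congr 1
  exact lintegral_neg_eq_self W

/-- **The `c = 0` term**, nonnegative version. -/
theorem lintegral_slab_zero {q : Eis} (hq : q ≠ 0) {W : ℂ → ℝ≥0∞} (hW : Measurable W)
    {K : Vec → ℝ≥0∞} (hK : Measurable K) :
    ∫⁻ M in Slab q, W (det2 M) * K M.2 =
      ENNReal.ofReal (slabVol q) * (∫⁻ s, W s) * ∫⁻ ζ, K ζ := by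
  have hm : Measurable (fun M : Frm => W (det2 M) * K M.2) :=
    (hW.comp measurable_det2).mul (hK.comp measurable_snd)
  rw [← lintegral_indicator (measurableSet_Slab q)]
  have h1 : (volume : Measure Frm) = (volume : Measure Vec).prod (volume : Measure Vec) := rfl
  rw [h1, lintegral_prod_symm _ (hm.indicator (measurableSet_Slab q)).aemeasurable]
  have hae : ∀ᵐ ζ : Vec ∂volume, ζ ≠ 0 := by
    rw [ae_iff]; simp
  rw [← lintegral_const_mul _ hK]
  apply lintegral_congr_ae
  filter_upwards [hae] with ζ hζ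
  have e : ∀ η : Vec, (Slab q).indicator (fun M : Frm => W (det2 M) * K M.2) (η, ζ) =
      (Slab q).indicator (fun M : Frm => W (det2 M)) (η, ζ) * K ζ := by
    intro η
    by_cases hp : ((η, ζ) : Frm) ∈ Slab q
    · rw [Set.indicator_of_mem hp, Set.indicator_of_mem hp]
    · rw [Set.indicator_of_notMem hp, Set.indicator_of_notMem hp, zero_mul]
  simp_rw [e]
  have hm2 : Measurable (fun η : Vec => (Slab q).indicator (fun M : Frm => W (det2 M)) (η, ζ)) :=
    ((hW.comp measurable_det2).indicator (measurableSet_Slab q)).comp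
      (measurable_id.prodMk measurable_const)
  rw [lintegral_mul_const _ hm2, lintegral_slab_fiber hq hW hζ]

/-- inner integral, complex version -/
lemma integral_slab_fiber {q : Eis} (hq : q ≠ 0) {W : ℂ → ℂ} (hW : Measurable W) {ζ : Vec}
    (hζ : ζ ≠ 0) :
    ∫ η : Vec, (Slab q).indicator (fun M : Frm => W (det2 M)) (η, ζ) =
      (slabVol q : ℂ) * ∫ s, W s := by
  have hm : Measurable (fun η : Vec => (Slab q).indicator (fun M : Frm => W (det2 M)) (η, ζ)) :=
    ((hW.comp measurable_det2).indicator (measurableSet_Slab q)).comp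
      (measurable_id.prodMk measurable_const)
  have h1 : ∫ η : Vec, (Slab q).indicator (fun M : Frm => W (det2 M)) (η, ζ) =
      ∫ p : ℂ × ℂ, (Slab q).indicator (fun M : Frm => W (det2 M)) (pz ζ p, ζ) := by
    have h2 := integral_map (μ := (volume : Measure (ℂ × ℂ))) (measurable_pz ζ).aemeasurable
      (f := fun η : Vec => (Slab q).indicator (fun M : Frm => W (det2 M)) (η, ζ))
      hm.aestronglyMeasurable
    rw [(mp_pz hζ).map_eq] at h2
    exact h2
  rw [h1]
  have e : ∀ p : ℂ × ℂ, (Slab q).indicator (fun M : Frm => W (det2 M)) (pz ζ p, ζ) =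
      (PQ q).indicator (fun _ => (1 : ℂ)) p.1 * W (-p.2) := by
    intro p
    by_cases hp : p.1 ∈ PQ q
    · rw [Set.indicator_of_mem hp, Set.indicator_of_mem ((mem_slab_pz hζ q p).mpr hp), det2_pz hζ,
        one_mul]
    · rw [Set.indicator_of_notMem hp, Set.indicator_of_notMem
        (fun h => hp ((mem_slab_pz hζ q p).mp h)), zero_mul]
  simp_rw [e]
  rw [Measure.volume_eq_prod, integral_prod_mul (fun z => (PQ q).indicator (fun _ => (1 : ℂ)) z)
    (fun s => W (-s)), integral_indicator (measurableSet_PQ q), setIntegral_const,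
    integral_neg_eq_self W]
  congr 1
  rw [Measure.real, volume_PQ hq, ENNReal.toReal_ofReal (slabVol_nonneg q)]
  simp

theorem integrable_slab_zero {q : Eis} (hq : q ≠ 0) {W : ℂ → ℂ} (hW : Measurable W)
    (hWi : Integrable W) {K : Vec → ℂ} (hK : Measurable K) (hKi : Integrable K) :
    IntegrableOn (fun M : Frm => W (det2 M) * K M.2) (Slab q) := by
  have hm : Measurable (fun M : Frm => W (det2 M) * K M.2) :=
    (hW.comp measurable_det2).mul (hK.comp measurable_snd)
  refine ⟨hm.aestronglyMeasurable, ?_⟩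
  unfold HasFiniteIntegral
  have h := lintegral_slab_zero hq hW.enorm hK.enorm
  have e : ∀ M : Frm, ‖W (det2 M) * K M.2‖ₑ = ‖W (det2 M)‖ₑ * ‖K M.2‖ₑ := fun M => enorm_mul _ _
  simp_rw [e]
  rw [h]
  exact ENNReal.mul_lt_top (ENNReal.mul_lt_top ENNReal.ofReal_lt_top hWi.2) hKi.2

/-- **The `c = 0` term**, complex version. -/
theorem integral_slab_zero {q : Eis} (hq : q ≠ 0) {W : ℂ → ℂ} (hW : Measurable W)
    (hWi : Integrable W) {K : Vec → ℂ} (hK : Measurable K) (hKi : Integrable K) :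
    ∫ M in Slab q, W (det2 M) * K M.2 =
      (slabVol q : ℂ) * (∫ s, W s) * ∫ ζ, K ζ := by
  have hI := (integrable_slab_zero hq hW hWi hK hKi).integrable_indicator (measurableSet_Slab q)
  rw [← integral_indicator (measurableSet_Slab q)]
  have h1 : (volume : Measure Frm) = (volume : Measure Vec).prod (volume : Measure Vec) := rfl
  rw [h1] at hI ⊢
  rw [integral_prod_symm _ hI]
  have hae : ∀ᵐ ζ : Vec ∂volume, ζ ≠ 0 := by
    rw [ae_iff]; simp
  rw [← integral_const_mul]
  apply integral_congr_ae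
  filter_upwards [hae] with ζ hζ
  have e : ∀ η : Vec, (Slab q).indicator (fun M : Frm => W (det2 M) * K M.2) (η, ζ) =
      (Slab q).indicator (fun M : Frm => W (det2 M)) (η, ζ) * K ζ := by
    intro η
    by_cases hp : ((η, ζ) : Frm) ∈ Slab q
    · rw [Set.indicator_of_mem hp, Set.indicator_of_mem hp]
    · rw [Set.indicator_of_notMem hp, Set.indicator_of_notMem hp, zero_mul]
  simp_rw [e]
  rw [integral_mul_const, integral_slab_fiber hq hW hζ]

end Crest.Agent.R012.K695
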