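import Crest.Agent.R012.Defs
import Crest.Agent.R012.Base_666

/-!
# Row 12, part (P0): Dirichlet series of completely multiplicative functions on primary elements

`push f n = ∑_{b primary, nm b = n} f b`, the von Mangoldt function `Lam` on primary elements,
the identity `Lam ψ * ψ = log ψ` and its consequences for the Dirichlet series.
-/

set_option autoImplicit false

noncomputable section

open Complex Filter Topology

namespace Crest.Agent.R012.PSer47

open Crest.Agent.R012 Crest.Agent.R012.Eis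
open scoped LSeries.notation

open Classical in
/-- primary elements of norm exactly `n` -/
def fib (n : ℕ) : Finset Eis := (primBall n).filter (fun b => nm b = n)

lemma mem_fib {n : ℕ} {b : Eis} : b ∈ fib n ↔ nm b = n ∧ IsPrim b := by
  simp only [fib, Finset.mem_filter, mem_primBall]
  constructor
  · rintro ⟨⟨_, h⟩, h2⟩
    exact ⟨h2, h⟩
  · rintro ⟨h1, h2⟩
    exact ⟨⟨h1.le, h2⟩, h1⟩

/-- push a function on primary elements to `ℕ` along the norm -/
def push (f : Eis → ℂ) (n : ℕ) : ℂ := ∑ b ∈ fib n, f b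

lemma fib_zero : fib 0 = ∅ := by
  ext b
  simp only [mem_fib, Finset.notMem_empty, iff_false]
  rintro ⟨h1, h2⟩
  exact h2.ne_zero (nm_eq_zero.mp h1)

lemma fib_one : fib 1 = {1} := by
  ext b
  simp only [mem_fib, Finset.mem_singleton]
  constructor
  · rintro ⟨h1, h2⟩
    have hu : IsUnit b := isUnit_iff.mpr h1
    exact h2.eq_of_associated isPrim_one (associated_one_iff_isUnit.mpr hu)
  · rintro rfl
    exact ⟨nm_one, isPrim_one⟩

@[simp] lemma push_zero (f : Eis → ℂ) : push f 0 = 0 := by simp [push, fib_zero]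

@[simp] lemma push_one (f : Eis → ℂ) : push f 1 = f 1 := by simp [push, fib_one]

/-- sums of `push f` over `1 ≤ n ≤ N` are sums of `f` over primary elements of norm `≤ N` -/
lemma sum_push (f : Eis → ℂ) (N : ℕ) :
    ∑ n ∈ Finset.Icc 1 N, push f n = ∑ b ∈ primBall N, f b := by
  classical
  rw [← Finset.sum_fiberwise_of_maps_to (s := primBall N) (t := Finset.Icc 1 N) (g := nm)]
  · refine Finset.sum_congr rfl fun n hn => ?_
    unfold push
    refine Finset.sum_congr ?_ fun _ _ => rfl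
    ext b
    simp only [mem_fib, Finset.mem_filter, mem_primBall]
    have := Finset.mem_Icc.mp hn
    constructor
    · rintro ⟨h1, h2⟩
      exact ⟨⟨h1 ▸ this.2, h2⟩, h1⟩
    · rintro ⟨⟨_, h2⟩, h3⟩
      exact ⟨h3, h2⟩
  · intro b hb
    rw [mem_primBall] at hb
    exact Finset.mem_Icc.mpr ⟨nm_pos.mpr hb.2.ne_zero, hb.1⟩


open Classical in
/-- pairs of primary elements with product `b` -/
def padiv (b : Eis) : Finset (Eis × Eis) :=
  (primBall (nm b) ×ˢ primBall (nm b)).filter (fun p => p.1 * p.2 = b)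

lemma mem_padiv {b : Eis} {p : Eis × Eis} :
    p ∈ padiv b ↔ p.1 * p.2 = b ∧ IsPrim p.1 ∧ IsPrim p.2 := by
  simp only [padiv, Finset.mem_filter, Finset.mem_product, mem_primBall]
  constructor
  · rintro ⟨⟨⟨_, h1⟩, ⟨_, h2⟩⟩, h3⟩
    exact ⟨h3, h1, h2⟩
  · rintro ⟨h1, h2, h3⟩
    have hn : nm p.1 * nm p.2 = nm b := by rw [← nm_mul, h1]
    have p1 : 0 < nm p.1 := nm_pos.mpr h2.ne_zero
    have p2 : 0 < nm p.2 := nm_pos.mpr h3.ne_zero
    exact ⟨⟨⟨by nlinarith, h2⟩, ⟨by nlinarith, h3⟩⟩, h1⟩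

/-- Dirichlet convolution of pushed functions -/
lemma push_conv (f g : Eis → ℂ) {n : ℕ} (hn : n ≠ 0) :
    (push f ⍟ push g) n = push (fun b => ∑ p ∈ padiv b, f p.1 * g p.2) n := by
  classical
  set S : Finset (Eis × Eis) := (primBall n ×ˢ primBall n).filter (fun p => nm (p.1 * p.2) = n)
    with hS
  have hmem : ∀ p : Eis × Eis, p ∈ S ↔ nm p.1 * nm p.2 = n ∧ IsPrim p.1 ∧ IsPrim p.2 := by
    intro p
    simp only [hS, Finset.mem_filter, Finset.mem_product, mem_primBall, nm_mul]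
    constructor
    · rintro ⟨⟨⟨_, h1⟩, ⟨_, h2⟩⟩, h3⟩
      exact ⟨h3, h1, h2⟩
    · rintro ⟨h1, h2, h3⟩
      have p1 : 0 < nm p.1 := nm_pos.mpr h2.ne_zero
      have p2 : 0 < nm p.2 := nm_pos.mpr h3.ne_zero
      exact ⟨⟨⟨by nlinarith, h2⟩, ⟨by nlinarith, h3⟩⟩, h1⟩
  have e1 : (push f ⍟ push g) n = ∑ p ∈ S, f p.1 * g p.2 := by
    rw [LSeries.convolution_def]
    rw [← Finset.sum_fiberwise_of_maps_to (s := S) (t := n.divisorsAntidiagonal)
      (g := fun p => (nm p.1, nm p.2))]
    · refine Finset.sum_congr rfl fun q hq => ?_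
      unfold push
      rw [Finset.sum_mul_sum, ← Finset.sum_product']
      refine Finset.sum_congr ?_ fun _ _ => rfl
      ext p
      simp only [Finset.mem_product, mem_fib, Finset.mem_filter, hmem]
      have hq' := (Nat.mem_divisorsAntidiagonal.mp hq).1
      constructor
      · rintro ⟨⟨h1, h2⟩, ⟨h3, h4⟩⟩
        exact ⟨⟨by rw [h1, h3, hq'], h2, h4⟩, by rw [h1, h3]⟩
      · rintro ⟨⟨h1, h2, h3⟩, h4⟩
        have h5 := congrArg Prod.fst h4
        have h6 := congrArg Prod.snd h4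
        exact ⟨⟨h5, h2⟩, ⟨h6, h3⟩⟩
    · intro p hp
      rw [Nat.mem_divisorsAntidiagonal]
      exact ⟨((hmem p).mp hp).1, hn⟩
  have e2 : push (fun b => ∑ p ∈ padiv b, f p.1 * g p.2) n = ∑ p ∈ S, f p.1 * g p.2 := by
    rw [← Finset.sum_fiberwise_of_maps_to (s := S) (t := fib n) (g := fun p => p.1 * p.2)]
    · unfold push
      refine Finset.sum_congr rfl fun b hb => ?_
      rw [mem_fib] at hb
      refine Finset.sum_congr ?_ fun _ _ => rfl
      ext p
      rw [mem_padiv, Finset.mem_filter, hmem]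
      constructor
      · rintro ⟨h1, h2, h3⟩
        exact ⟨⟨by rw [← nm_mul, h1, hb.1], h2, h3⟩, h1⟩
      · rintro ⟨⟨_, h2, h3⟩, h4⟩
        exact ⟨h4, h2, h3⟩
    · intro p hp
      have := (hmem p).mp hp
      rw [mem_fib, nm_mul]
      exact ⟨this.1, this.2.1.mul this.2.2⟩
  rw [e1, e2]


/-! ### The von Mangoldt function -/

/-- `b = p ^ k` with `p` a primary prime and `k ≥ 1` -/
def IsPP (b : Eis) : Prop := ∃ (p : Eis) (k : ℕ), Prime p ∧ IsPrim p ∧ 1 ≤ k ∧ b = p ^ k

open Classical in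
/-- the von Mangoldt function on primary elements -/
def Lam (b : Eis) : ℝ := if h : IsPP b then Real.log (nm h.choose) else 0

/-- the primary prime below a primary prime power is unique -/
lemma pp_unique {p q : Eis} {j k : ℕ} (hp : Prime p) (hq : Prime q) (hp' : IsPrim p)
    (hq' : IsPrim q) (hj : 1 ≤ j) (h : p ^ j = q ^ k) : p = q := by
  have h1 : p ∣ q ^ k := h ▸ dvd_pow_self p (by omega)
  have h2 : p ∣ q := hp.dvd_of_dvd_pow h1
  exact hp'.eq_of_associated hq' (hp.associated_of_dvd hq h2)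

lemma two_le_nm_of_prime {p : Eis} (hp : Prime p) : 2 ≤ nm p := by
  have h0 : 0 < nm p := nm_pos.mpr hp.ne_zero
  have h1 : nm p ≠ 1 := fun h => hp.not_isUnit (isUnit_iff.mpr h)
  omega


lemma Lam_pow {p : Eis} (hp : Prime p) (hp' : IsPrim p) {k : ℕ} (hk : 1 ≤ k) :
    Lam (p ^ k) = Real.log (nm p) := by
  have h : IsPP (p ^ k) := ⟨p, k, hp, hp', hk, rfl⟩
  unfold Lam
  rw [dif_pos h]
  obtain ⟨j, h1, h2, h3, h4⟩ := h.choose_spec
  rw [← pp_unique hp h1 hp' h2 hk h4]

lemma Lam_prime {p : Eis} (hp : Prime p) (hp' : IsPrim p) : Lam p = Real.log (nm p) := by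
  have := Lam_pow hp hp' (k := 1) le_rfl
  rwa [pow_one] at this

lemma Lam_of_not {b : Eis} (h : ¬ IsPP b) : Lam b = 0 := by
  unfold Lam
  rw [dif_neg h]

lemma Lam_nonneg (b : Eis) : 0 ≤ Lam b := by
  unfold Lam
  split_ifs with h
  · apply Real.log_natCast_nonneg
  · exact le_rfl

lemma IsPP.isPrim {b : Eis} (h : IsPP b) : IsPrim b := by
  obtain ⟨p, k, _, hp, _, rfl⟩ := h
  exact hp.pow k

lemma not_isPP_one : ¬ IsPP 1 := by
  rintro ⟨p, k, hp, _, hk, h⟩
  have h1 : p ∣ 1 := h ▸ dvd_pow_self p (by omega)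
  exact hp.not_isUnit (isUnit_of_dvd_one h1)

@[simp] lemma Lam_one : Lam 1 = 0 := Lam_of_not not_isPP_one

/-- every primary element other than `1` has a primary prime divisor -/
lemma exists_prime_dvd {b : Eis} (hb : IsPrim b) (h1 : b ≠ 1) :
    ∃ p, Prime p ∧ IsPrim p ∧ p ∣ b := by
  have hu : ¬ IsUnit b := fun hu =>
    h1 (hb.eq_of_associated isPrim_one (associated_one_iff_isUnit.mpr hu))
  obtain ⟨p, hp, hpb⟩ := WfDvdMonoid.exists_irreducible_factor hu hb.ne_zero
  have hp2 : Prime p := UniqueFactorizationMonoid.irreducible_iff_prime.mp hp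
  have hl : ¬ lam ∣ p := fun h => hb.not_lam_dvd (h.trans hpb)
  obtain ⟨q, hq, hpq⟩ := exists_isPrim_associated hl
  exact ⟨q, hpq.prime hp2, hq, hpq.symm.dvd.trans hpb⟩

open Classical in
/-- primary divisors of `b` -/
def pdiv (b : Eis) : Finset Eis := (primBall (nm b)).filter (fun c => c ∣ b)

lemma mem_pdiv {b c : Eis} (hb : b ≠ 0) : c ∈ pdiv b ↔ c ∣ b ∧ IsPrim c := by
  simp only [pdiv, Finset.mem_filter, mem_primBall]
  constructor
  · rintro ⟨⟨_, h1⟩, h2⟩
    exact ⟨h2, h1⟩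
  · rintro ⟨h1, h2⟩
    refine ⟨⟨?_, h2⟩, h1⟩
    obtain ⟨d, rfl⟩ := h1
    have hd : d ≠ 0 := right_ne_zero_of_mul hb
    have := nm_pos.mpr hd
    rw [nm_mul]
    nlinarith

/-- sum over `padiv` in terms of the first factor only -/
lemma sum_padiv {b : Eis} (hb : IsPrim b) (f : Eis → ℝ) :
    ∑ p ∈ padiv b, f p.1 = ∑ c ∈ pdiv b, f c := by
  classical
  refine Finset.sum_bij (fun p _ => p.1) ?_ ?_ ?_ ?_
  · intro p hp
    rw [mem_padiv] at hp
    rw [mem_pdiv hb.ne_zero]
    exact ⟨⟨p.2, hp.1.symm⟩, hp.2.1⟩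
  · intro p hp q hq h
    rw [mem_padiv] at hp hq
    refine Prod.ext h ?_
    have h2 : p.1 * p.2 = p.1 * q.2 := by rw [hp.1, h, hq.1]
    exact mul_left_cancel₀ hp.2.1.ne_zero h2
  · intro c hc
    rw [mem_pdiv hb.ne_zero] at hc
    obtain ⟨⟨d, hd⟩, hc2⟩ := hc
    refine ⟨(c, d), ?_, rfl⟩
    rw [mem_padiv]
    exact ⟨hd.symm, hc2, IsPrim.of_mul_left (hd ▸ hb) hc2⟩
  · intro _ _; rfl

/-- `∑_{c ∣ b} Λ(c) = log N(b)` for primary `b` -/
theorem sum_Lam_pdiv {b : Eis} (hb : IsPrim b) : ∑ c ∈ pdiv b, Lam c = Real.log (nm b) := by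
  classical
  induction hn : nm b using Nat.strong_induction_on generalizing b with
  | _ n ih =>
  by_cases h1 : b = 1
  · subst h1
    have : pdiv (1 : Eis) ⊆ {1} := by
      intro c hc
      rw [mem_pdiv one_ne_zero] at hc
      have : IsUnit c := isUnit_of_dvd_one hc.1
      rw [Finset.mem_singleton]
      exact hc.2.eq_of_associated isPrim_one (associated_one_iff_isUnit.mpr this)
    rw [← hn, nm_one, Nat.cast_one, Real.log_one]
    refine Finset.sum_eq_zero fun c hc => ?_
    have := Finset.mem_singleton.mp (this hc)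
    rw [this, Lam_one]
  · obtain ⟨p, hp, hp', hpb⟩ := exists_prime_dvd hb h1
    have hfm : FiniteMultiplicity p b := FiniteMultiplicity.of_prime_left hp hb.ne_zero
    obtain ⟨m0, c, hbc, hpc⟩ : ∃ m c, b = p ^ m * c ∧ ¬ p ∣ c :=
      ⟨_, hfm.exists_eq_pow_mul_and_not_dvd⟩
    obtain ⟨m, rfl⟩ : ∃ m, m0 = m + 1 := by
      rcases m0 with _ | m
      · rw [pow_zero, one_mul] at hbc
        exact absurd (hbc ▸ hpb) hpc
      · exact ⟨m, rfl⟩
    have hcp : IsPrim c := IsPrim.of_mul_left (hbc ▸ hb) (hp'.pow _)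
    have hb' : IsPrim (p ^ m * c) := (hp'.pow m).mul hcp
    have hbb : b = p * (p ^ m * c) := by rw [hbc]; ring
    have hnmb : nm b = nm p * nm (p ^ m * c) := by rw [← nm_mul, ← hbb]
    have hp2 := two_le_nm_of_prime hp
    have hpos : 0 < nm (p ^ m * c) := nm_pos.mpr hb'.ne_zero
    have hlt : nm (p ^ m * c) < n := by
      rw [← hn, hnmb]
      nlinarith
    have hI := ih _ hlt hb' rfl
    -- the prime powers dividing `b`
    have hnot : p ^ (m + 1) ∉ pdiv (p ^ m * c) := by
      rw [mem_pdiv hb'.ne_zero]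
      rintro ⟨h, _⟩
      rw [pow_succ] at h
      exact hpc ((mul_dvd_mul_iff_left (pow_ne_zero m hp.ne_zero)).mp h)
    have hsub : insert (p ^ (m + 1)) (pdiv (p ^ m * c)) ⊆ pdiv b := by
      intro d hd
      rw [mem_pdiv hb.ne_zero]
      rcases Finset.mem_insert.mp hd with h | h
      · rw [h, hbc]
        exact ⟨dvd_mul_right _ _, hp'.pow _⟩
      · rw [mem_pdiv hb'.ne_zero] at h
        exact ⟨h.1.trans (hbb ▸ dvd_mul_left _ _), h.2⟩
    rw [← Finset.sum_subset hsub, Finset.sum_insert hnot, hI, Lam_pow hp hp' (by omega), ← hn,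
      hnmb]
    · push_cast
      rw [Real.log_mul]
      · have := hp2; positivity
      · have := hpos; positivity
    · intro d hd hd2
      by_contra h0
      have hpp : IsPP d := by
        by_contra h
        exact h0 (Lam_of_not h)
      obtain ⟨q, j, hq, hq', hj, rfl⟩ := hpp
      rw [mem_pdiv hb.ne_zero] at hd
      apply hd2
      rw [Finset.mem_insert, mem_pdiv hb'.ne_zero]
      by_cases hpq : q = p
      · subst hpq
        rcases Nat.lt_or_ge j (m + 1) with hjm | hjm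
        · right
          exact ⟨(pow_dvd_pow q (by omega)).trans (dvd_mul_right _ _), hd.2⟩
        · rcases Nat.eq_or_lt_of_le hjm with hjm | hjm
          · left
            rw [hjm]
          · exfalso
            have h5 : q ^ (m + 2) ∣ q ^ (m + 1) * c :=
              (pow_dvd_pow q (by omega)).trans (hbc ▸ hd.1)
            rw [pow_succ q (m + 1)] at h5
            exact hpc ((mul_dvd_mul_iff_left (pow_ne_zero _ hp.ne_zero)).mp h5)
      · right
        refine ⟨?_, hd.2⟩
        have h6 : ¬ q ∣ p := fun h =>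
          hpq (hq'.eq_of_associated hp' (hq.associated_of_dvd hp h))
        refine hq.pow_dvd_of_dvd_mul_left j h6 ?_
        rw [← hbb]
        exact hd.1

/-! ### Completely multiplicative characters on primary elements -/

/-- completely multiplicative on primary elements, values `0` or of absolute value one -/
structure IsChar (ψ : Eis → ℂ) : Prop where
  one : ψ 1 = 1
  mul : ∀ a b : Eis, IsPrim a → IsPrim b → ψ (a * b) = ψ a * ψ b
  norm : ∀ a : Eis, IsPrim a → ψ a = 0 ∨ ‖ψ a‖ = 1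

namespace IsChar

variable {ψ φ : Eis → ℂ}

lemma norm_le (h : IsChar ψ) {a : Eis} (ha : IsPrim a) : ‖ψ a‖ ≤ 1 := by
  rcases h.norm a ha with h | h
  · rw [h, norm_zero]; exact zero_le_one
  · exact h.le

lemma mul' (h : IsChar ψ) (k : IsChar φ) : IsChar (fun b => ψ b * φ b) where
  one := by simp [h.one, k.one]
  mul a b ha hb := by simp only [h.mul a b ha hb, k.mul a b ha hb]; ring
  norm a ha := by
    rcases h.norm a ha with h1 | h1
    · left; simp [h1]
    · rcases k.norm a ha with h2 | h2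
      · left; simp [h2]
      · right; rw [norm_mul, h1, h2, one_mul]

lemma pow (h : IsChar ψ) (k : ℕ) (hk : 1 ≤ k) : IsChar (fun b => ψ b ^ k) where
  one := by simp [h.one]
  mul a b ha hb := by simp only [h.mul a b ha hb, mul_pow]
  norm a ha := by
    rcases h.norm a ha with h1 | h1
    · left; rw [h1]; exact zero_pow (by omega)
    · right; rw [norm_pow, h1, one_pow]

lemma sq (h : IsChar ψ) : IsChar (fun b => ψ b ^ 2) := h.pow 2 (by norm_num)

lemma conj (h : IsChar ψ) : IsChar (fun b => (starRingEnd ℂ) (ψ b)) where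
  one := by simp [h.one]
  mul a b ha hb := by simp only [h.mul a b ha hb, map_mul]
  norm a ha := by
    rcases h.norm a ha with h1 | h1
    · left; simp [h1]
    · right; rw [Complex.norm_conj, h1]




end IsChar

lemma isChar_one : IsChar (fun _ => 1) where
  one := rfl
  mul a b _ _ := by simp
  norm a _ := by right; simp

lemma ang_isChar (l : ℤ) : IsChar (ang l) where
  one := by simp [ang]
  mul a b _ _ := by
    simp only [ang, map_mul, norm_mul, Complex.ofReal_mul]
    rw [← mul_zpow, mul_div_mul_comm]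
  norm a ha := by
    right
    have h0 : toC a ≠ 0 := by
      rw [Ne, toC_eq_zero]
      exact ha.ne_zero
    have : ‖toC a‖ ≠ 0 := norm_ne_zero_iff.mpr h0
    unfold ang
    rw [norm_zpow, norm_div, Complex.norm_real, norm_norm, div_self this, one_zpow]

lemma nmTwist_isChar (t : ℝ) : IsChar (fun b => (nm b : ℂ) ^ (t * I)) where
  one := by simp
  mul a b _ _ := by
    rw [nm_mul, Nat.cast_mul, Complex.natCast_mul_natCast_cpow]
  norm a ha := by
    right
    have h0 : 0 < nm a := nm_pos.mpr ha.ne_zero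
    rw [Complex.norm_natCast_cpow_of_pos h0]
    simp

/-! ### Elementary bounds -/

/-- crude lattice count -/
lemma card_ball_le {X : ℕ} (hX : 1 ≤ X) : (ball X).card ≤ 18 * X := by
  classical
  set r : ℕ := Nat.sqrt (2 * X) with hr
  have h1 : ball X ⊆ ((Finset.Icc (-(r : ℤ)) r ×ˢ Finset.Icc (-(r : ℤ)) r).image
      (fun ab => (⟨ab.1, ab.2⟩ : Eis))) := by
    intro z hz
    rw [mem_ball] at hz
    have h1 : (nm z : ℤ) ≤ X := by exact_mod_cast hz
    rw [nm_cast] at h1
    have key : ∀ a b : ℤ, a ^ 2 - a * b + b ^ 2 ≤ X → -(r : ℤ) ≤ a ∧ a ≤ r := by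
      intro a b hab
      have h3 : 3 * a ^ 2 ≤ 4 * X := by nlinarith [sq_nonneg (a - 2 * b)]
      have h4 : a.natAbs * a.natAbs ≤ 2 * X := by
        have : ((a.natAbs * a.natAbs : ℕ) : ℤ) ≤ ((2 * X : ℕ) : ℤ) := by
          rw [Int.natAbs_mul_self]
          push_cast
          nlinarith
        exact_mod_cast this
      have h5 : a.natAbs ≤ r := Nat.le_sqrt.mpr h4
      omega
    simp only [Finset.mem_image, Finset.mem_product, Finset.mem_Icc, Prod.exists]
    exact ⟨z.re, z.im, ⟨key z.re z.im h1, key z.im z.re (by linarith [h1])⟩, rfl⟩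
  refine (Finset.card_le_card h1).trans (Finset.card_image_le.trans ?_)
  rw [Finset.card_product, Int.card_Icc]
  have h2 : ((r : ℤ) + 1 - -(r : ℤ)).toNat = 2 * r + 1 := by omega
  rw [h2]
  have h3 : r * r ≤ 2 * X := Nat.sqrt_le _
  have h4 : 1 ≤ r := by
    rw [hr, Nat.le_sqrt]
    omega
  nlinarith

lemma card_primBall_le {X : ℕ} (hX : 1 ≤ X) : (primBall X).card ≤ 18 * X := by
  classical
  refine (Finset.card_le_card (fun b hb => ?_)).trans (card_ball_le hX)
  rw [mem_primBall] at hb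
  exact mem_ball.mpr hb.1

lemma card_primBall_le' (X : ℕ) : (primBall X).card ≤ 18 * X := by
  rcases Nat.eq_zero_or_pos X with rfl | hX
  · have : primBall 0 = ∅ := by
      ext b
      simp only [mem_primBall, Finset.notMem_empty, iff_false]
      rintro ⟨h1, h2⟩
      exact h2.ne_zero (nm_eq_zero.mp (by omega))
    rw [this]; simp
  · exact card_primBall_le hX

lemma norm_push_le (f : Eis → ℂ) (n : ℕ) : ‖push f n‖ ≤ ∑ b ∈ fib n, ‖f b‖ := norm_sum_le _ _

lemma norm_push_le_card {f : Eis → ℂ} (hf : ∀ b, IsPrim b → ‖f b‖ ≤ 1) (n : ℕ) :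
    ‖push f n‖ ≤ (fib n).card := by
  refine (norm_push_le f n).trans ?_
  calc ∑ b ∈ fib n, ‖f b‖ ≤ ∑ _b ∈ fib n, (1 : ℝ) :=
        Finset.sum_le_sum fun b hb => hf b (mem_fib.mp hb).2
    _ = _ := by simp

lemma sum_card_fib (N : ℕ) : ∑ n ∈ Finset.Icc 1 N, (fib n).card = (primBall N).card := by
  have h := sum_push (fun _ => 1) N
  simp only [push, Finset.sum_const, nsmul_eq_mul, mul_one] at h
  exact_mod_cast h

lemma sum_norm_push_le {f : Eis → ℂ} (hf : ∀ b, IsPrim b → ‖f b‖ ≤ 1) (N : ℕ) :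
    ∑ n ∈ Finset.Icc 1 N, ‖push f n‖ ≤ 18 * N := by
  calc ∑ n ∈ Finset.Icc 1 N, ‖push f n‖ ≤ ∑ n ∈ Finset.Icc 1 N, ((fib n).card : ℝ) :=
        Finset.sum_le_sum fun n _ => norm_push_le_card hf n
    _ = ((primBall N).card : ℝ) := by rw [← sum_card_fib]; push_cast; rfl
    _ ≤ ((18 * N : ℕ) : ℝ) := by exact_mod_cast card_primBall_le' N
    _ = _ := by push_cast; rfl

lemma isPrim_natCast {n : ℕ} (h : n % 3 = 1) : IsPrim (n : Eis) := by
  rw [isPrim_iff]
  constructor
  · simp only [QuadraticAlgebra.re_natCast]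
    omega
  · simp

/-- the total mass of `Λ` on norm `n` is at most `2 log n` -/
lemma sum_Lam_fib_le (n : ℕ) : ∑ b ∈ fib n, Lam b ≤ 2 * Real.log n := by
  classical
  by_cases h : n % 3 = 1
  · have hn : 0 < n := by omega
    have hp := isPrim_natCast h
    have hsub : fib n ⊆ pdiv (n : Eis) := by
      intro b hb
      rw [mem_fib] at hb
      rw [mem_pdiv hp.ne_zero]
      refine ⟨⟨Eis.conj b, ?_⟩, hb.2⟩
      rw [Eis.mul_conj, hb.1]
    calc ∑ b ∈ fib n, Lam b ≤ ∑ b ∈ pdiv (n : Eis), Lam b :=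
          Finset.sum_le_sum_of_subset_of_nonneg hsub fun b _ _ => Lam_nonneg b
      _ = Real.log (nm (n : Eis)) := sum_Lam_pdiv hp
      _ = 2 * Real.log n := by
          rw [nm_natCast]
          push_cast
          rw [Real.log_pow]
          norm_num
  · have : fib n = ∅ := by
      ext b
      simp only [mem_fib, Finset.notMem_empty, iff_false]
      rintro ⟨h1, h2⟩
      exact h (h1 ▸ h2.nm_mod)
    rw [this, Finset.sum_empty]
    have : 0 ≤ Real.log n := Real.log_natCast_nonneg n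
    linarith

/-- `Λψ` on primary elements -/
def LamPsi (ψ : Eis → ℂ) (b : Eis) : ℂ := (Lam b : ℂ) * ψ b

lemma norm_push_LamPsi_le {ψ : Eis → ℂ} (hf : ∀ b, IsPrim b → ‖ψ b‖ ≤ 1) (n : ℕ) :
    ‖push (LamPsi ψ) n‖ ≤ 2 * Real.log n := by
  refine (norm_push_le _ n).trans (le_trans ?_ (sum_Lam_fib_le n))
  refine Finset.sum_le_sum fun b hb => ?_
  unfold LamPsi
  rw [norm_mul, Complex.norm_real, Real.norm_of_nonneg (Lam_nonneg b)]
  have := hf b (mem_fib.mp hb).2
  have h0 := Lam_nonneg b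
  nlinarith

/-- the convolution identity `Λψ ⍟ ψ = log · ψ` on the norm side -/
theorem conv_LamPsi {ψ : Eis → ℂ} (h : IsChar ψ) :
    push (LamPsi ψ) ⍟ push ψ = LSeries.logMul (push ψ) := by
  ext n
  rcases eq_or_ne n 0 with rfl | hn
  · simp [LSeries.logMul]
  · rw [push_conv _ _ hn]
    unfold LSeries.logMul push
    rw [Finset.mul_sum]
    refine Finset.sum_congr rfl fun b hb => ?_
    rw [mem_fib] at hb
    have e1 : ∑ p ∈ padiv b, LamPsi ψ p.1 * ψ p.2 = ∑ p ∈ padiv b, (Lam p.1 : ℂ) * ψ b := by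
      refine Finset.sum_congr rfl fun p hp => ?_
      rw [mem_padiv] at hp
      rw [← hp.1, h.mul _ _ hp.2.1 hp.2.2]
      unfold LamPsi
      ring
    show ∑ p ∈ padiv b, LamPsi ψ p.1 * ψ p.2 = _
    rw [e1, ← Finset.sum_mul]
    have e2 := sum_padiv hb.2 Lam
    rw [sum_Lam_pdiv hb.2] at e2
    have e3 : ∑ p ∈ padiv b, (Lam p.1 : ℂ) = (Real.log (nm b) : ℂ) := by
      rw [← e2]; push_cast; rfl
    rw [e3, hb.1, Complex.natCast_log]

end Crest.Agent.R012.PSer47
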