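import Crest.Agent.R012.Defs

/-!
# Row 12, part (P): Siegel–Walfisz over `ℤ[ω]` -- interface (helper355)

* `MulPrim ψ` : `ψ` completely multiplicative, bounded by one, on the primary elements.
* `fP ψ n = Σ_{b primary, N(b) = n} ψ(b)`,
  `aP ψ n = Σ_{π primary prime, k ≥ 1, N(π)^k = n} ψ(π)^k log N(π)`.
* `Base r a1 C0` : the ℕ-level facts on `r = fP 1`, `a1 = aP 1`.
* `Tw r f Q` : the ℕ-level facts on `f = fP ψ`.
* the `def …_Prop`s are the statements of the single pieces.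
-/

set_option autoImplicit false

noncomputable section

open Complex

namespace Crest.Agent.R012.P355

open Crest.Agent.R012 Eis

/-- completely multiplicative and bounded by one on the primary elements -/
structure MulPrim (ψ : Eis → ℂ) : Prop where
  one : ψ 1 = 1
  mul : ∀ a b : Eis, IsPrim a → IsPrim b → ψ (a * b) = ψ a * ψ b
  le : ∀ a : Eis, IsPrim a → ‖ψ a‖ ≤ 1



/-- ℕ-level facts for the trivial character -/
structure Base (r a1 : ℕ → ℝ) (C0 : ℝ) : Prop where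
  r_nonneg : ∀ n, 0 ≤ r n
  r_zero : r 0 = 0
  r_one : r 1 = 1
  r_sum : ∀ N : ℕ, ∑ n ∈ Finset.Icc 1 N, r n ≤ C0 * N
  a_nonneg : ∀ n, 0 ≤ a1 n
  a_zero : a1 0 = 0
  a_le : ∀ n : ℕ, 1 ≤ n → a1 n ≤ C0 * (1 + Real.log n)
  conv : LSeries.convolution (fun n => (a1 n : ℂ)) (fun n => (r n : ℂ)) =
    LSeries.logMul (fun n => (r n : ℂ))

/-- ℕ-level facts for a twist: `f` has small partial sums -/
structure Tw (r : ℕ → ℝ) (f : ℕ → ℂ) (Q : ℝ) : Prop where
  f_zero : f 0 = 0
  f_one : f 1 = 1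
  f_le : ∀ n, ‖f n‖ ≤ r n
  f_sum : ∀ N : ℕ, ‖∑ n ∈ Finset.Icc 1 N, f n‖ ≤ Q * Real.sqrt N

/-- relation between `f` (coefficients of `L`) and `a` (coefficients of `-L'/L`) -/
structure LD (a1 : ℕ → ℝ) (f a : ℕ → ℂ) : Prop where
  a_zero : a 0 = 0
  a_le : ∀ n, ‖a n‖ ≤ a1 n
  conv : LSeries.convolution a f = LSeries.logMul f


/-! ### Analysis at ℕ-level -/




/-! ### Arithmetic -/





/-! ### Lattice counting -/



/-! ### The result of part (P) -/


end Crest.Agent.R012.P355
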