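import Crest.Agent.R012.Trace_384
import Crest.Agent.R012.StripCo_813
import Crest.Agent.R012.Frame_695

-- ▼ part R012/Slice_384
section

/-!
# Row 12, (MSL): the slice step

For a row sum `E_F(M) = Σ_{(c,d) ∈ E²} a(c,d) F(c η + d ζ)` with `F` supported in a ball, the mean
square over the special frames `frame v e x 0` is bounded by the mean square over the strip of the
row sums of `F` and of its derivatives `F1, F2, F12` along the unipotent group.
-/

set_option autoImplicit false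

noncomputable section

open MeasureTheory Set Filter Complex
open scoped ENNReal Topology

namespace Crest.Agent.R012.Slice384

open Crest.Agent.R012 Crest.Agent.R012.Trace384 Crest.Agent.R012.StripCo813
  Crest.Agent.R012.Parseval499 Crest.Agent.R012.Eis

/-- The complex vector of a row of `E²`. -/
def rC (x : Eis × Eis) : ℂ × ℂ := (toC x.1, toC x.2)

/-- Row sum over all `(c, d) ∈ E²` (coefficients vanish off the rows one is interested in). -/
def EE (a : Eis × Eis → ℂ) (F : ℂ × ℂ → ℂ) (M : Fr) : ℂ := rsum a rC F M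


/-! ### local finiteness -/

lemma norm_fst_mul_det_le (x : ℂ × ℂ) (M : Fr) :
    ‖x.1‖ * ‖detF M‖ ≤ 2 * ‖rowc x M‖ * ‖M‖ := by
  have h : x.1 * detF M = (rowc x M).1 * M.2.2 - (rowc x M).2 * M.2.1 := by
    simp only [detF, rowc]; ring
  rw [← norm_mul, h]
  have h1 := norm_fst_le (rowc x M)
  have h2 := norm_snd_le (rowc x M)
  have h3 : ‖M.2.2‖ ≤ ‖M‖ := (norm_snd_le _).trans (norm_snd_le _)
  have h4 : ‖M.2.1‖ ≤ ‖M‖ := (norm_fst_le _).trans (norm_snd_le _)
  calc ‖(rowc x M).1 * M.2.2 - (rowc x M).2 * M.2.1‖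
      ≤ ‖(rowc x M).1‖ * ‖M.2.2‖ + ‖(rowc x M).2‖ * ‖M.2.1‖ := by
        refine (norm_sub_le _ _).trans ?_
        rw [norm_mul, norm_mul]
    _ ≤ ‖rowc x M‖ * ‖M‖ + ‖rowc x M‖ * ‖M‖ := by gcongr
    _ = _ := by ring

lemma norm_snd_mul_det_le (x : ℂ × ℂ) (M : Fr) :
    ‖x.2‖ * ‖detF M‖ ≤ 2 * ‖rowc x M‖ * ‖M‖ := by
  have h : x.2 * detF M = M.1.1 * (rowc x M).2 - M.1.2 * (rowc x M).1 := by
    simp only [detF, rowc]; ring
  rw [← norm_mul, h]
  have h1 := norm_fst_le (rowc x M)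
  have h2 := norm_snd_le (rowc x M)
  have h3 : ‖M.1.1‖ ≤ ‖M‖ := (norm_fst_le _).trans (norm_fst_le _)
  have h4 : ‖M.1.2‖ ≤ ‖M‖ := (norm_snd_le _).trans (norm_fst_le _)
  calc ‖M.1.1 * (rowc x M).2 - M.1.2 * (rowc x M).1‖
      ≤ ‖M.1.1‖ * ‖(rowc x M).2‖ + ‖M.1.2‖ * ‖(rowc x M).1‖ := by
        refine (norm_sub_le _ _).trans ?_
        rw [norm_mul, norm_mul]
    _ ≤ ‖M‖ * ‖rowc x M‖ + ‖M‖ * ‖rowc x M‖ := by gcongr
    _ = _ := by ring

/-- A finite set of rows containing all rows of size `≤ K`. -/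
def rows (K : ℝ) : Finset (Eis × Eis) := ball ⌈K ^ 2⌉₊ ×ˢ ball ⌈K ^ 2⌉₊

lemma mem_rows {K : ℝ} {x : Eis × Eis} (h1 : ‖toC x.1‖ ≤ K) (h2 : ‖toC x.2‖ ≤ K) :
    x ∈ rows K := by
  have aux : ∀ z : Eis, ‖toC z‖ ≤ K → z ∈ ball ⌈K ^ 2⌉₊ := by
    intro z hz
    rw [mem_ball]
    have h3 : ((nm z : ℕ) : ℝ) ≤ K ^ 2 := by
      rw [← norm_toC_sq]
      have := norm_nonneg (toC z)
      gcongr
    exact_mod_cast h3.trans (Nat.le_ceil _)
  exact Finset.mem_product.mpr ⟨aux _ h1, aux _ h2⟩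

lemma mem_rows_of {ρ R δ : ℝ} (hδ : 0 < δ) {M : Fr} (hM : ‖M‖ ≤ R)
    (hdet : δ ≤ ‖detF M‖) {x : Eis × Eis} (hx : ‖rowc (rC x) M‖ ≤ ρ) :
    x ∈ rows (2 * ρ * R / δ) := by
  have h0 : 0 ≤ ‖rowc (rC x) M‖ := norm_nonneg _
  have hM0 : 0 ≤ ‖M‖ := norm_nonneg _
  have key : ∀ y : ℝ, 0 ≤ y → y * ‖detF M‖ ≤ 2 * ‖rowc (rC x) M‖ * ‖M‖ → y ≤ 2 * ρ * R / δ := by
    intro y hy h
    rw [le_div_iff₀ hδ]
    calc y * δ ≤ y * ‖detF M‖ := by gcongr
      _ ≤ 2 * ‖rowc (rC x) M‖ * ‖M‖ := h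
      _ ≤ 2 * ρ * R := by gcongr; linarith
  exact mem_rows (key _ (norm_nonneg _) (norm_fst_mul_det_le (rC x) M))
    (key _ (norm_nonneg _) (norm_snd_mul_det_le (rC x) M))

/-- `F` vanishes outside the ball of radius `ρ`. -/
def SuppIn (ρ : ℝ) (F : ℂ × ℂ → ℂ) : Prop := ∀ u, ρ < ‖u‖ → F u = 0

lemma EE_eq_sum {ρ R δ : ℝ} (hδ : 0 < δ) {F : ℂ × ℂ → ℂ} (hF : SuppIn ρ F)
    (a : Eis × Eis → ℂ) {M : Fr} (hM : ‖M‖ ≤ R) (hdet : δ ≤ ‖detF M‖) :
    EE a F M = ∑ x ∈ rows (2 * ρ * R / δ), a x * F (rowc (rC x) M) := by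
  unfold EE rsum
  refine tsum_eq_sum fun x hx => ?_
  have : ρ < ‖rowc (rC x) M‖ := by
    by_contra hc
    exact hx (mem_rows_of hδ hM hdet (not_lt.mp hc))
  rw [hF _ this, mul_zero]

lemma continuous_detF : Continuous detF := by unfold detF; fun_prop

lemma continuous_rowc (x : ℂ × ℂ) : Continuous fun M : Fr => rowc x M := by
  unfold rowc; fun_prop

lemma continuousOn_EE {ρ : ℝ} {F : ℂ × ℂ → ℂ} (hF : SuppIn ρ F) (hc : Continuous F)
    (a : Eis × Eis → ℂ) : ContinuousOn (EE a F) {M | detF M ≠ 0} := by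
  intro M hM
  refine ContinuousAt.continuousWithinAt ?_
  have hd : 0 < ‖detF M‖ := norm_pos_iff.mpr hM
  have e1 : ∀ᶠ N in 𝓝 M, ‖detF M‖ / 2 < ‖detF N‖ :=
    (continuous_detF.norm.continuousAt).eventually_const_lt (by linarith)
  have e2 : ∀ᶠ N in 𝓝 M, ‖N‖ < ‖M‖ + 1 :=
    (continuous_norm.continuousAt).eventually_lt_const (by linarith)
  have e3 : (fun N : Fr => ∑ x ∈ rows (2 * ρ * (‖M‖ + 1) / (‖detF M‖ / 2)),
      a x * F (rowc (rC x) N)) =ᶠ[𝓝 M] EE a F := by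
    filter_upwards [e1, e2] with N h1 h2
    exact (EE_eq_sum (by linarith) hF a h2.le h1.le).symm
  refine ContinuousAt.congr ?_ e3
  exact (continuous_finsetSum _ fun x _ =>
    continuous_const.mul (hc.comp (continuous_rowc _))).continuousAt

lemma isOpen_det : IsOpen {M : Fr | detF M ≠ 0} := isOpen_ne_fun continuous_detF continuous_const

lemma measurable_EE {ρ : ℝ} {F : ℂ × ℂ → ℂ} (hF : SuppIn ρ F) (hc : Continuous F)
    (a : Eis × Eis → ℂ) : Measurable ({M : Fr | detF M ≠ 0}.indicator (EE a F)) := by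
  classical
  have := (continuousOn_EE hF hc a).measurable_piecewise (g := (0 : Fr → ℂ))
    continuousOn_const isOpen_det.measurableSet
  rwa [Set.piecewise_eq_indicator] at this

/-! ### the slice inequality -/

lemma nqF_frame (v e x q : ℂ) : nqF q (frame v e x 0) = frame v e x q := by
  simp only [nqF, nq, frame]
  ext <;> (simp; try ring)

lemma lintegral_square_le {g : ℂ → ℝ≥0∞} (hg : Measurable g) :
    ∫⁻ s in Icc (0:ℝ) 1, ∫⁻ t in Icc (0:ℝ) 1, g (s + t * I) ≤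
      ∫⁻ q in Metric.closedBall (0 : ℂ) 2, g q := by
  have hmp := Complex.volume_preserving_equiv_real_prod.symm
  have hm : Measurable fun p : ℝ × ℝ => g (p.1 + p.2 * I) := hg.comp (by fun_prop)
  calc ∫⁻ s in Icc (0:ℝ) 1, ∫⁻ t in Icc (0:ℝ) 1, g (s + t * I)
      = ∫⁻ p in Icc (0:ℝ) 1 ×ˢ Icc (0:ℝ) 1, g (p.1 + p.2 * I) := by
        rw [Measure.volume_eq_prod, ← Measure.prod_restrict, lintegral_prod _ hm.aemeasurable]
    _ = ∫⁻ p in Icc (0:ℝ) 1 ×ˢ Icc (0:ℝ) 1, g (Complex.measurableEquivRealProd.symm p) := by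
        refine lintegral_congr fun p => ?_
        congr 1
        apply Complex.ext <;> simp [Complex.measurableEquivRealProd_symm_apply]
    _ ≤ ∫⁻ p in Complex.measurableEquivRealProd.symm ⁻¹' (Metric.closedBall (0 : ℂ) 2),
          g (Complex.measurableEquivRealProd.symm p) := by
        refine lintegral_mono_set ?_
        rintro ⟨s, t⟩ ⟨hs, ht⟩
        simp only [mem_preimage, Metric.mem_closedBall, dist_zero_right,
          Complex.measurableEquivRealProd_symm_apply]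
        have h1 : ‖(⟨s, t⟩ : ℂ)‖ ≤ |s| + |t| := by
          simpa using Complex.norm_le_abs_re_add_abs_im (⟨s, t⟩ : ℂ)
        have h2 : |s| ≤ 1 := abs_le.mpr ⟨by linarith [hs.1], hs.2⟩
        have h3 : |t| ≤ 1 := abs_le.mpr ⟨by linarith [ht.1], ht.2⟩
        linarith
    _ = ∫⁻ q in Metric.closedBall (0 : ℂ) 2, g q :=
        hmp.setLIntegral_comp_preimage Metric.isClosed_closedBall.measurableSet hg

lemma norm_nq_le {q : ℂ} (hq : ‖q‖ ≤ 2) (u : ℂ × ℂ) : ‖nq q u‖ ≤ 3 * ‖u‖ := by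
  have h1 := norm_fst_le u
  have h2 := norm_snd_le u
  have h0 := norm_nonneg u
  rw [Prod.norm_def]
  refine max_le ?_ ?_
  · simp only [nq]
    calc ‖u.1 + q * u.2‖ ≤ ‖u.1‖ + ‖q‖ * ‖u.2‖ := by
          refine (norm_add_le _ _).trans ?_
          rw [norm_mul]
      _ ≤ ‖u‖ + 2 * ‖u‖ := by gcongr
      _ = 3 * ‖u‖ := by ring
  · simp only [nq]; linarith

lemma norm_nqF_le {q : ℂ} (hq : ‖q‖ ≤ 2) (M : Fr) : ‖nqF q M‖ ≤ 3 * ‖M‖ := by
  rw [Prod.norm_def]
  refine max_le ?_ ?_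
  · exact (norm_nq_le hq _).trans (by have := norm_fst_le M; linarith)
  · exact (norm_nq_le hq _).trans (by have := norm_snd_le M; linarith)

lemma detF_nqF (q : ℂ) (M : Fr) : detF (nqF q M) = detF M := by
  simp only [detF, nqF, nq]; ring

lemma norm_unit_le {q : ℂ} (h1 : q.re ∈ Icc (0:ℝ) 1) (h2 : q.im ∈ Icc (0:ℝ) 1) : ‖q‖ ≤ 2 := by
  have h := Complex.norm_le_abs_re_add_abs_im q
  have h3 : |q.re| ≤ 1 := abs_le.mpr ⟨by linarith [h1.1], h1.2⟩
  have h4 : |q.im| ≤ 1 := abs_le.mpr ⟨by linarith [h2.1], h2.2⟩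
  linarith

/-- The trace inequality for row sums over `E²`. -/
theorem trace_EE {ρ : ℝ} {F F1 F2 F12 : ℂ × ℂ → ℂ} (hF : OrbDeriv F F1 F2 F12)
    (s0 : SuppIn ρ F) (s1 : SuppIn ρ F1) (s2 : SuppIn ρ F2) (s12 : SuppIn ρ F12)
    (a : Eis × Eis → ℂ) {M : Fr} (hM : detF M ≠ 0) :
    ‖EE a F M‖ₑ ^ 2 ≤ 4 * ∫⁻ s in Icc (0:ℝ) 1, ∫⁻ t in Icc (0:ℝ) 1,
      (‖EE a F (nqF (s + t * I) M)‖ₑ ^ 2 + ‖EE a F1 (nqF (s + t * I) M)‖ₑ ^ 2
        + ‖EE a F2 (nqF (s + t * I) M)‖ₑ ^ 2 + ‖EE a F12 (nqF (s + t * I) M)‖ₑ ^ 2) := by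
  refine trace_ineq a rC hF M (rows (2 * ρ * (3 * ‖M‖) / ‖detF M‖)) ?_
  intro x hx q h1 h2
  have hq := norm_unit_le h1 h2
  have key : ρ < ‖nq q (rowc (rC x) M)‖ := by
    by_contra hc
    refine hx (mem_rows_of (norm_pos_iff.mpr hM) (norm_nqF_le hq M) ?_ ?_)
    · rw [detF_nqF]
    · rw [rowc_nqF]; exact not_lt.mp hc
  exact ⟨s0 _ key, s1 _ key, s2 _ key, s12 _ key⟩

lemma measurable_sq_EE {ρ : ℝ} {F : ℂ × ℂ → ℂ} (hF : SuppIn ρ F) (hc : Continuous F)
    (a : Eis × Eis → ℂ) :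
    Measurable ({M : Fr | detF M ≠ 0}.indicator fun M => ‖EE a F M‖ₑ ^ 2) := by
  have h := (measurable_EE hF hc a).enorm.pow_const 2
  convert h using 1
  funext M
  by_cases hM : M ∈ {M : Fr | detF M ≠ 0}
  · simp only [indicator_of_mem hM]
  · simp only [indicator_of_notMem hM, enorm_zero]
    norm_num

/-- **The slice inequality.** -/
theorem slice {r : ℝ} (hr : 0 < r) {ρ : ℝ} {F F1 F2 F12 : ℂ × ℂ → ℂ}
    (hF : OrbDeriv F F1 F2 F12)
    (s0 : SuppIn ρ F) (s1 : SuppIn ρ F1) (s2 : SuppIn ρ F2) (s12 : SuppIn ρ F12)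
    (a : Eis × Eis → ℂ) :
    ENNReal.ofReal (r ^ 4) * ∫⁻ v in ann r (2 * r), ∫⁻ x in par 3,
      ∫⁻ e in ann (1 / r) (2 / r), ‖EE a F (frame v e x 0)‖ₑ ^ 2 ≤
    4 * ∫⁻ M in strip r, (‖EE a F M‖ₑ ^ 2 + ‖EE a F1 M‖ₑ ^ 2
        + ‖EE a F2 M‖ₑ ^ 2 + ‖EE a F12 M‖ₑ ^ 2) := by
  obtain ⟨f, hfm, hfeq⟩ : ∃ f : Fr → ℝ≥0∞, Measurable f ∧ ∀ M : Fr, detF M ≠ 0 →
      f M = ‖EE a F M‖ₑ ^ 2 + ‖EE a F1 M‖ₑ ^ 2 + ‖EE a F2 M‖ₑ ^ 2 + ‖EE a F12 M‖ₑ ^ 2 := by
    refine ⟨fun M => {M : Fr | detF M ≠ 0}.indicator (fun M => ‖EE a F M‖ₑ ^ 2) M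
      + {M : Fr | detF M ≠ 0}.indicator (fun M => ‖EE a F1 M‖ₑ ^ 2) M
      + {M : Fr | detF M ≠ 0}.indicator (fun M => ‖EE a F2 M‖ₑ ^ 2) M
      + {M : Fr | detF M ≠ 0}.indicator (fun M => ‖EE a F12 M‖ₑ ^ 2) M,
      (((measurable_sq_EE s0 hF.c0 a).add
      (measurable_sq_EE s1 hF.c1 a)).add (measurable_sq_EE s2 hF.c2 a)).add
      (measurable_sq_EE s12 hF.c12 a), ?_⟩
    intro M hM
    have hM' : M ∈ {M : Fr | detF M ≠ 0} := hM
    simp only [indicator_of_mem hM']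
  have hframe : Measurable fun p : ((ℂ × ℂ) × ℂ) × ℂ => f (frame p.1.1.1 p.1.1.2 p.1.2 p.2) := by
    refine hfm.comp ?_
    unfold frame
    fun_prop
  -- pointwise trace
  have hpt : ∀ v ∈ ann r (2 * r), ∀ x : ℂ, ∀ e ∈ ann (1 / r) (2 / r),
      ‖EE a F (frame v e x 0)‖ₑ ^ 2 ≤
        4 * ∫⁻ q in Metric.closedBall (0 : ℂ) 2, f (frame v e x q) := by
    intro v hv x e he
    have hv0 : v ≠ 0 := by
      intro h0; have := hv.1; rw [h0, norm_zero] at this; linarith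
    have he0 : e ≠ 0 := by
      intro h0; have := he.1; rw [h0, norm_zero] at this
      have : 0 < 1 / r := by positivity
      linarith
    have hdet : ∀ q, detF (frame v e x q) ≠ 0 := by
      intro q; rw [detF_frame]; exact neg_ne_zero.mpr (mul_ne_zero hv0 he0)
    refine (trace_EE hF s0 s1 s2 s12 a (hdet 0)).trans ?_
    gcongr
    refine le_trans (le_of_eq ?_) (lintegral_square_le (g := fun q => f (frame v e x q)) ?_)
    · refine setLIntegral_congr_fun measurableSet_Icc fun s _ => ?_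
      refine setLIntegral_congr_fun measurableSet_Icc fun t _ => ?_
      simp only [nqF_frame]
      rw [hfeq _ (hdet _)]
    · exact hframe.comp (by fun_prop : Measurable fun q : ℂ => (((v, e), x), q))
  have hswap : ∀ v : ℂ, ∫⁻ x in par 3, ∫⁻ e in ann (1 / r) (2 / r),
              4 * ∫⁻ q in Metric.closedBall (0 : ℂ) 2, f (frame v e x q) =
        4 * ∫⁻ q in Metric.closedBall (0 : ℂ) 2, ∫⁻ x in par 3,
              ∫⁻ e in ann (1 / r) (2 / r), f (frame v e x q) := by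
    intro v
    calc ∫⁻ x in par 3, ∫⁻ e in ann (1 / r) (2 / r),
              4 * ∫⁻ q in Metric.closedBall (0 : ℂ) 2, f (frame v e x q)
            = ∫⁻ x in par 3, 4 * ∫⁻ e in ann (1 / r) (2 / r),
              ∫⁻ q in Metric.closedBall (0 : ℂ) 2, f (frame v e x q) := by
              refine lintegral_congr fun x => ?_
              rw [lintegral_const_mul' 4 _ (by simp)]
          _ = 4 * ∫⁻ x in par 3, ∫⁻ e in ann (1 / r) (2 / r),
              ∫⁻ q in Metric.closedBall (0 : ℂ) 2, f (frame v e x q) := by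
              rw [lintegral_const_mul' 4 _ (by simp)]
          _ = 4 * ∫⁻ x in par 3, ∫⁻ q in Metric.closedBall (0 : ℂ) 2,
              ∫⁻ e in ann (1 / r) (2 / r), f (frame v e x q) := by
              congr 1
              refine lintegral_congr fun x => ?_
              rw [lintegral_lintegral_swap]
              refine Measurable.aemeasurable ?_
              exact hframe.comp (by fun_prop : Measurable fun p : ℂ × ℂ => (((v, p.1), x), p.2))
          _ = 4 * ∫⁻ q in Metric.closedBall (0 : ℂ) 2, ∫⁻ x in par 3,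
              ∫⁻ e in ann (1 / r) (2 / r), f (frame v e x q) := by
              congr 1
              rw [lintegral_lintegral_swap]
              refine Measurable.aemeasurable ?_
              refine Measurable.lintegral_prod_right'
                (f := fun p : (ℂ × ℂ) × ℂ => f (frame v p.2 p.1.1 p.1.2)) ?_
              exact hframe.comp
                (by fun_prop : Measurable fun p : (ℂ × ℂ) × ℂ => (((v, p.2), p.1.1), p.1.2))
  calc ENNReal.ofReal (r ^ 4) * ∫⁻ v in ann r (2 * r), ∫⁻ x in par 3,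
      ∫⁻ e in ann (1 / r) (2 / r), ‖EE a F (frame v e x 0)‖ₑ ^ 2
      ≤ ENNReal.ofReal (r ^ 4) * ∫⁻ v in ann r (2 * r), ∫⁻ x in par 3,
      ∫⁻ e in ann (1 / r) (2 / r), 4 * ∫⁻ q in Metric.closedBall (0 : ℂ) 2,
        f (frame v e x q) := by
        refine mul_le_mul_right (setLIntegral_mono' (measurableSet_ann _ _) fun v hv => ?_) _
        refine lintegral_mono fun x => ?_
        exact setLIntegral_mono' (measurableSet_ann _ _) fun e he => hpt v hv x e he
    _ = 4 * (ENNReal.ofReal (r ^ 4) * ∫⁻ v in ann r (2 * r),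
        ∫⁻ q in Metric.closedBall (0 : ℂ) 2, ∫⁻ x in par 3,
        ∫⁻ e in ann (1 / r) (2 / r), f (frame v e x q)) := by
        rw [mul_left_comm]
        congr 1
        rw [← lintegral_const_mul' (4 : ℝ≥0∞) (fun v => ∫⁻ q in Metric.closedBall (0 : ℂ) 2,
          ∫⁻ x in par 3, ∫⁻ e in ann (1 / r) (2 / r), f (frame v e x q)) (by simp)]
        exact lintegral_congr fun v => hswap v
    _ ≤ 4 * ∫⁻ M in strip r, f M := by
        gcongr
        exact box_le_strip hr hfm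
    _ = _ := by
        congr 1
        refine setLIntegral_congr_fun (measurableSet_strip hr) fun M hM => ?_
        refine hfeq M fun h0 => ?_
        have := (strip_det hr hM).1
        rw [h0, norm_zero] at this
        linarith

end Crest.Agent.R012.Slice384
end
end

-- ▼ part R012/LocFin_499

/-!
# Local finiteness of row sums (row 12, (M), helper499)

* `rows_bound` : for `M` in the compact `Kset N = {‖M‖ ≤ N, 1/N ≤ |det M|}`, `|q| ≤ 2`, only rows with
  `nm c, nm d ≤ X(N, ρ)` satisfy `‖nq q (c η + d ζ)‖ ≤ ρ`;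
* `exists_finset` : the same for any injectively indexed family of rows;
* `continuousOn_sum`, `measurable_sum`, `aemeasurable_sum`, `bounded_sum`: the function
  `M ↦ Σ_i a_i F(c_i η + d_i ζ)`;
* `volume_det_eq_zero`.
-/

set_option autoImplicit false

noncomputable section

open MeasureTheory Complex Set Filter Topology
open scoped ENNReal

namespace Crest.Agent.R012.LocFin499

open Crest.Agent.R012 Crest.Agent.R012.K695 Crest.Agent.R012.Trace384

lemma rowc_eq_rowv (r : Eis × Eis) (M : K695.Frm) : rowc (toC r.1, toC r.2) M = rowv r M := by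
  unfold rowc rowv
  apply Prod.ext <;> simp


















/-! ### the sum as a function of the frame -/

section sums

variable {ι : Type*} {e : ι → Eis × Eis}









end sums

/-! ### the set of degenerate frames is a null set -/





end Crest.Agent.R012.LocFin499
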