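import Crest.Agent.R012.Frame_695

-- ▼ part R012/Unfold_695
section

/-!
# Row 12 (M-U), part 2: the slab, the weight and the invariant measure

For a subgroup `Δ ≤ Γ(3)` whose upper unipotent elements are the `(1, 3 q b; 0, 1)`:
`Slab q`, `rowsOf Δ`, the weight `rho Δ q` with `Σ_{γ ∈ Δ} rho (γ M) = 1`, and the measure
`nu Δ q = rho Δ q • volume` on frames.
-/

set_option autoImplicit false

noncomputable section

open MeasureTheory Complex
open scoped ENNReal

namespace Crest.Agent.R012.K695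

open Eis

/-! ### Coordinates of `ℂ` with respect to `1, ω` -/

/-- First coordinate. -/
def cx (z : ℂ) : ℝ := z.re + z.im / Real.sqrt 3
/-- Second coordinate. -/
def cy (z : ℂ) : ℝ := 2 * z.im / Real.sqrt 3

lemma sqrt3_pos : 0 < Real.sqrt 3 := Real.sqrt_pos.mpr (by norm_num)

@[simp] lemma cx_toC (b : Eis) : cx (toC b) = b.re := by
  have h := sqrt3_pos.ne'
  rw [cx, toC_re, toC_im]; field_simp; ring

@[simp] lemma cy_toC (b : Eis) : cy (toC b) = b.im := by
  have h := sqrt3_pos.ne'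
  rw [cy, toC_im]; field_simp

lemma cx_add (z z' : ℂ) : cx (z + z') = cx z + cx z' := by simp [cx]; ring
lemma cy_add (z z' : ℂ) : cy (z + z') = cy z + cy z' := by simp [cy]; ring

lemma measurable_cx : Measurable cx := by unfold cx; fun_prop
lemma measurable_cy : Measurable cy := by unfold cy; fun_prop

/-- The fundamental parallelogram of `ℤ[ω]`. -/
def P0 : Set ℂ := {z | (0 ≤ cx z ∧ cx z < 1) ∧ (0 ≤ cy z ∧ cy z < 1)}

lemma measurableSet_P0 : MeasurableSet P0 := by
  unfold P0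
  refine MeasurableSet.inter (MeasurableSet.inter ?_ ?_) (MeasurableSet.inter ?_ ?_)
  · exact measurableSet_le measurable_const measurable_cx
  · exact measurableSet_lt measurable_cx measurable_const
  · exact measurableSet_le measurable_const measurable_cy
  · exact measurableSet_lt measurable_cy measurable_const

lemma P0_iff (z : ℂ) (b : Eis) : z + toC b ∈ P0 ↔ b = ⟨-⌊cx z⌋, -⌊cy z⌋⟩ := by
  unfold P0
  simp only [Set.mem_ofPred_eq, cx_add, cy_add, cx_toC, cy_toC]
  have key : ∀ (x : ℝ) (n : ℤ), (0 ≤ x + n ∧ x + n < 1) ↔ n = -⌊x⌋ := by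
    intro x n
    constructor
    · rintro ⟨h1, h2⟩
      have : ⌊x⌋ = -n := by
        rw [Int.floor_eq_iff]; push_cast; constructor <;> linarith
      omega
    · rintro rfl
      push_cast
      constructor
      · linarith [Int.floor_le x]
      · linarith [Int.lt_floor_add_one x]
  rw [key, key]
  constructor
  · rintro ⟨h1, h2⟩; exact ext' h1 h2
  · rintro rfl; exact ⟨rfl, rfl⟩

/-! ### The slab -/

/-- The coordinate `z` of `η = z ζ + η^⊥`. -/
def zc (M : Frm) : ℂ :=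
  (M.1.1 * (starRingEnd ℂ) M.2.1 + M.1.2 * (starRingEnd ℂ) M.2.2) / (n2 M.2 : ℂ)

lemma continuous_n2 : Continuous n2 := by unfold n2; fun_prop

lemma n2_nonneg (u : Vec) : 0 ≤ n2 u := by unfold n2; positivity

lemma n2_eq_zero {u : Vec} : n2 u = 0 ↔ u = 0 := by
  unfold n2
  constructor
  · intro h
    have h1 : ‖u.1‖ ^ 2 = 0 := by nlinarith [sq_nonneg ‖u.1‖, sq_nonneg ‖u.2‖]
    have h2 : ‖u.2‖ ^ 2 = 0 := by nlinarith [sq_nonneg ‖u.1‖, sq_nonneg ‖u.2‖]
    ext1
    · simpa using h1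
    · simpa using h2
  · rintro rfl; simp

lemma n2_cast (u : Vec) :
    (n2 u : ℂ) = u.1 * (starRingEnd ℂ) u.1 + u.2 * (starRingEnd ℂ) u.2 := by
  unfold n2
  rw [Complex.mul_conj, Complex.mul_conj, Complex.normSq_eq_norm_sq, Complex.normSq_eq_norm_sq]
  push_cast; ring

lemma measurable_zc : Measurable zc := by
  unfold zc
  have h1 : Measurable (fun M : Frm => (n2 M.2 : ℂ)) :=
    Complex.measurable_ofReal.comp (continuous_n2.measurable.comp measurable_snd)
  have h2 : Continuous (fun M : Frm =>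
      M.1.1 * (starRingEnd ℂ) M.2.1 + M.1.2 * (starRingEnd ℂ) M.2.2) := by fun_prop
  exact h2.measurable.div h1

/-- The slab: `z(M) / (3 q) ∈ P0`. -/
def Slab (q : Eis) : Set Frm := {M | zc M / (3 * toC q) ∈ P0}

lemma measurableSet_Slab (q : Eis) : MeasurableSet (Slab q) :=
  (measurable_zc.div_const _) measurableSet_P0

/-- The unipotent element `(1, 3b; 0, 1)`. -/
def nU (b : Eis) : Gam :=
  mkGam 1 (3 * b) 0 1 (by ring) isPrim_one (Dvd.intro _ rfl) (dvd_zero _) isPrim_one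

lemma act_nU (b : Eis) (M : Frm) : act (nU b) M = (M.1 + (3 * toC b) • M.2, M.2) := by
  have h3 : toC 3 = 3 := map_ofNat toC 3
  rw [act_def]
  simp [nU, h3]

lemma nU_mul (b c : Eis) : nU b * nU c = nU (b + c) := by
  apply gam_ext <;> simp [nU, ga_mul, gb_mul, gc_mul, gd_mul] <;> ring

lemma nU_zero : nU 0 = 1 := by
  apply gam_ext <;> simp [nU]


/-- An element with bottom row `(0, 1)` is unipotent. -/
lemma eq_nU {g : Gam} (hc : gc g = 0) (hd : gd g = 1) : ∃ b, g = nU b := by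
  obtain ⟨b, hb⟩ := gb_dvd g
  refine ⟨b, gam_ext ?_ ?_ ?_ ?_⟩
  · have := det_eq g
    rw [hc, hd] at this
    simpa [nU] using this
  · simpa [nU] using hb
  · simpa [nU] using hc
  · simpa [nU] using hd

lemma zc_add_smul (M : Frm) (t : ℂ) (h : M.2 ≠ 0) : zc (M.1 + t • M.2, M.2) = zc M + t := by
  have hn : (n2 M.2 : ℂ) ≠ 0 := by
    rw [Ne, Complex.ofReal_eq_zero, n2_eq_zero]; exact h
  unfold zc
  simp only [Prod.fst_add, Prod.snd_add, Prod.smul_fst, Prod.smul_snd, smul_eq_mul]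
  field_simp
  rw [n2_cast]
  ring

lemma slab_iff {q : Eis} (hq : q ≠ 0) {M : Frm} (h : M.2 ≠ 0) (b : Eis) :
    act (nU (q * b)) M ∈ Slab q ↔
      b = ⟨-⌊cx (zc M / (3 * toC q))⌋, -⌊cy (zc M / (3 * toC q))⌋⟩ := by
  rw [← P0_iff, act_nU]
  unfold Slab
  simp only [Set.mem_ofPred_eq]
  rw [zc_add_smul M _ h]
  have hq' : toC q ≠ 0 := by simpa using hq
  have : (zc M + 3 * toC (q * b)) / (3 * toC q) = zc M / (3 * toC q) + toC b := by
    rw [map_mul]; field_simp
  rw [this]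

lemma snd_ne_zero_of_det {M : Frm} (h : det2 M ≠ 0) : M.2 ≠ 0 := by
  rintro h0
  apply h
  simp [det2, h0]

/-! ### Subgroups -/

/-- `Δ ≤ Γ(3)` with upper unipotents `(1, 3 q b; 0, 1)`. -/
structure IsLev (Δ : Subgroup Gam) (q : Eis) : Prop where
  q_ne : q ≠ 0
  nU_mem : ∀ b, nU b ∈ Δ ↔ q ∣ b

lemma isLev_top : IsLev ⊤ 1 := ⟨one_ne_zero, fun b => by simp⟩

/-- The bottom row. -/
def row (g : Gam) : Eis × Eis := (gc g, gd g)

lemma row_mul (g h : Gam) : row (g * h) = rmul (row g) h := by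
  simp [row, rmul, gc_mul, gd_mul]

lemma act_snd' (g : Gam) (M : Frm) : (act g M).2 = rowv (row g) M := rfl

/-- The bottom rows of the elements of `Δ`. -/
def rowsOf (Δ : Subgroup Gam) : Set (Eis × Eis) := {r | ∃ g ∈ Δ, row g = r}

lemma rowsOf_isRow {Δ : Subgroup Gam} {r : Eis × Eis} (h : r ∈ rowsOf Δ) : IsRow r := by
  obtain ⟨g, -, rfl⟩ := h
  exact isRow_gam g

lemma rowsOf_top : rowsOf ⊤ = {r | IsRow r} := by
  ext r
  constructor
  · exact rowsOf_isRow
  · intro h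
    obtain ⟨g, h1, h2⟩ := exists_gam h
    exact ⟨g, trivial, Prod.ext h1 h2⟩

lemma rmul_mem_rowsOf {Δ : Subgroup Gam} {r : Eis × Eis} (h : r ∈ rowsOf Δ) {g : Gam}
    (hg : g ∈ Δ) : rmul r g ∈ rowsOf Δ := by
  obtain ⟨h', hh, rfl⟩ := h
  exact ⟨h' * g, Δ.mul_mem hh hg, row_mul _ _⟩

lemma rmul_mem_rowsOf_iff {Δ : Subgroup Gam} {r : Eis × Eis} {g : Gam}
    (hg : g ∈ Δ) : rmul r g ∈ rowsOf Δ ↔ r ∈ rowsOf Δ := by
  refine ⟨fun h => ?_, fun h => rmul_mem_rowsOf h hg⟩
  have := rmul_mem_rowsOf h (Δ.inv_mem hg)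
  rwa [← rmul_mul, mul_inv_cancel, rmul_one] at this

/-- Elements of `Δ` with the same row differ by a unipotent. -/
lemma eq_of_row {Δ : Subgroup Gam} {q : Eis} (hL : IsLev Δ q) {g h : Gam} (hg : g ∈ Δ)
    (hh : h ∈ Δ) (e : row g = row h) : ∃ b, g = nU (q * b) * h := by
  have h1 : row (g * h⁻¹) = (0, 1) := by
    rw [row_mul, e, ← row_mul, mul_inv_cancel]; simp [row]
  obtain ⟨b, hb⟩ := eq_nU (g := g * h⁻¹) (congrArg Prod.fst h1) (congrArg Prod.snd h1)
  have h2 : nU b ∈ Δ := hb ▸ Δ.mul_mem hg (Δ.inv_mem hh)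
  obtain ⟨b', rfl⟩ := (hL.nU_mem b).mp h2
  exact ⟨b', by rw [← hb]; simp⟩

/-- The unique element of `Δ` with a given row which moves `M` to the slab. -/
lemma exists_unique_slab {Δ : Subgroup Gam} {q : Eis} (hL : IsLev Δ q) {M : Frm}
    (hM : det2 M ≠ 0) {r : Eis × Eis} (hr : r ∈ rowsOf Δ) :
    ∃! g : Gam, (g ∈ Δ ∧ row g = r) ∧ act g M ∈ Slab q := by
  obtain ⟨h, hh, rfl⟩ := hr
  have hdet : det2 (act h M) ≠ 0 := by rwa [det2_act]
  have h2 := snd_ne_zero_of_det hdet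
  set b : Eis := ⟨-⌊cx (zc (act h M) / (3 * toC q))⌋, -⌊cy (zc (act h M) / (3 * toC q))⌋⟩ with hb
  have hrow : ∀ c, row (nU c * h) = row h := by
    intro c
    simp [row, gc_mul, gd_mul, nU]
  refine ⟨nU (q * b) * h, ⟨⟨Δ.mul_mem ((hL.nU_mem _).mpr (Dvd.intro _ rfl)) hh, hrow _⟩, ?_⟩, ?_⟩
  · rw [act_mul, slab_iff hL.q_ne h2]
  · rintro g ⟨⟨hg, e⟩, hs⟩
    obtain ⟨b', rfl⟩ := eq_of_row hL hg hh e
    rw [act_mul, slab_iff hL.q_ne h2] at hs
    rw [hs]

/-- Choice of the element of `exists_unique_slab`. -/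
def sec {Δ : Subgroup Gam} {q : Eis} (hL : IsLev Δ q) {M : Frm}
    (hM : det2 M ≠ 0) (r : rowsOf Δ) : Δ :=
  ⟨(exists_unique_slab hL hM r.2).choose, (exists_unique_slab hL hM r.2).choose_spec.1.1.1⟩

lemma row_sec {Δ : Subgroup Gam} {q : Eis} (hL : IsLev Δ q) {M : Frm}
    (hM : det2 M ≠ 0) (r : rowsOf Δ) : row (sec hL hM r).1 = r.1 :=
  (exists_unique_slab hL hM r.2).choose_spec.1.1.2

lemma sec_mem {Δ : Subgroup Gam} {q : Eis} (hL : IsLev Δ q) {M : Frm}
    (hM : det2 M ≠ 0) (r : rowsOf Δ) : act (sec hL hM r).1 M ∈ Slab q :=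
  (exists_unique_slab hL hM r.2).choose_spec.1.2

lemma eq_sec {Δ : Subgroup Gam} {q : Eis} (hL : IsLev Δ q) {M : Frm}
    (hM : det2 M ≠ 0) (g : Δ) (h : act g.1 M ∈ Slab q) :
    g = sec hL hM ⟨row g.1, ⟨g.1, g.2, rfl⟩⟩ := by
  apply Subtype.ext
  have hr : row g.1 ∈ rowsOf Δ := ⟨g.1, g.2, rfl⟩
  exact (exists_unique_slab hL hM hr).choose_spec.2 g.1 ⟨⟨g.2, rfl⟩, h⟩

open Classical in
/-- Sum over `Δ` restricted to the slab = sum over rows. -/
theorem tsum_slab {X : Type*} [AddCommMonoid X] [TopologicalSpace X] {Δ : Subgroup Gam} {q : Eis}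
    (hL : IsLev Δ q) {M : Frm} (hM : det2 M ≠ 0) (u : Eis × Eis → X) :
    ∑' g : Δ, (if act g.1 M ∈ Slab q then u (row g.1) else 0) = ∑' r : rowsOf Δ, u r.1 := by
  have hinj : Function.Injective (sec hL hM) := by
    intro r r' e
    apply Subtype.ext
    rw [← row_sec hL hM r, e, row_sec hL hM r']
  have hsupp : Function.support
      (fun g : Δ => (if act g.1 M ∈ Slab q then u (row g.1) else 0)) ⊆ Set.range (sec hL hM) := by
    intro g hg
    rw [Function.mem_support] at hg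
    by_cases h : act g.1 M ∈ Slab q
    · exact ⟨_, (eq_sec hL hM g h).symm⟩
    · simp [h] at hg
  rw [← hinj.tsum_eq hsupp]
  apply tsum_congr
  intro r
  rw [if_pos (sec_mem hL hM r), row_sec]


end Crest.Agent.R012.K695
end
end

-- ▼ part R012/Weight_695
section

/-!
# Row 12 (M-U), part 3: the weight `rho` and the measure `nu`
-/

set_option autoImplicit false

noncomputable section

open MeasureTheory Complex
open scoped ENNReal

namespace Crest.Agent.R012.K695

open Eis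

/-! ### Summability -/

lemma summable_gauss_int {e : ℝ} (he : 0 < e) : Summable (fun n : ℤ => Real.exp (-e * (n : ℝ) ^ 2)) := by
  have h1 : Summable (fun n : ℤ => e⁻¹ * (1 / (n : ℝ) ^ 2)) :=
    (Real.summable_one_div_int_pow.mpr (by norm_num)).mul_left _
  refine Summable.of_norm_bounded_eventually h1 ?_
  have hfin : {x : ℤ | x = 0}.Finite := Set.finite_singleton 0
  filter_upwards [hfin.compl_mem_cofinite] with n hn
  have hn0 : (n : ℝ) ≠ 0 := by
    simpa using hn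
  rw [Real.norm_eq_abs, abs_of_pos (Real.exp_pos _)]
  have hpos : 0 < e * (n : ℝ) ^ 2 := by positivity
  have h2 : e * (n : ℝ) ^ 2 ≤ Real.exp (e * (n : ℝ) ^ 2) := by
    linarith [Real.add_one_le_exp (e * (n : ℝ) ^ 2)]
  have h3 : -e * (n : ℝ) ^ 2 = -(e * (n : ℝ) ^ 2) := by ring
  rw [h3, Real.exp_neg]
  have : e⁻¹ * (1 / (n : ℝ) ^ 2) = (e * (n : ℝ) ^ 2)⁻¹ := by field_simp
  rw [this]
  exact inv_anti₀ hpos h2

lemma nm_ge (x : Eis) : ((x.re : ℝ) ^ 2 + (x.im : ℝ) ^ 2) / 2 ≤ (nm x : ℝ) := by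
  have h : ((nm x : ℕ) : ℝ) = ((nm x : ℤ) : ℝ) := by norm_cast
  rw [h, nm_cast]
  push_cast
  nlinarith [sq_nonneg ((x.re : ℝ) - x.im)]

lemma summable_gauss_Eis {e : ℝ} (he : 0 < e) :
    Summable (fun x : Eis => Real.exp (-e * (nm x : ℝ))) := by
  have h1 : Summable (fun p : ℤ × ℤ => Real.exp (-(e / 2) * (p.1 : ℝ) ^ 2) *
      Real.exp (-(e / 2) * (p.2 : ℝ) ^ 2)) :=
    (summable_gauss_int (half_pos he)).mul_of_nonneg (summable_gauss_int (half_pos he))
      (fun _ => (Real.exp_pos _).le) (fun _ => (Real.exp_pos _).le)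
  have hinj : Function.Injective (fun z : Eis => (z.re, z.im)) := by
    intro x y h
    simp only [Prod.mk.injEq] at h
    exact ext' h.1 h.2
  have h2 := h1.comp_injective hinj
  refine Summable.of_nonneg_of_le (fun _ => (Real.exp_pos _).le) (fun x => ?_) h2
  simp only [Function.comp_apply]
  rw [← Real.exp_add]
  apply Real.exp_le_exp.mpr
  have := nm_ge x
  nlinarith

/-- Lagrange / Cauchy-Schwarz: `|det(u, v)|² ≤ |u|² |v|²`. -/
lemma normSq_det_le (u v : Vec) : ‖u.1 * v.2 - u.2 * v.1‖ ^ 2 ≤ n2 u * n2 v := by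
  have h1 : ‖u.1 * v.2 - u.2 * v.1‖ ≤ ‖u.1‖ * ‖v.2‖ + ‖u.2‖ * ‖v.1‖ := by
    calc ‖u.1 * v.2 - u.2 * v.1‖ ≤ ‖u.1 * v.2‖ + ‖u.2 * v.1‖ := norm_sub_le _ _
      _ = _ := by rw [norm_mul, norm_mul]
  have h0 : 0 ≤ ‖u.1 * v.2 - u.2 * v.1‖ := norm_nonneg _
  unfold n2
  have h2 : ‖u.1 * v.2 - u.2 * v.1‖ ^ 2 ≤ (‖u.1‖ * ‖v.2‖ + ‖u.2‖ * ‖v.1‖) ^ 2 := by
    apply pow_le_pow_left₀ h0 h1
  nlinarith [sq_nonneg (‖u.1‖ * ‖v.1‖ - ‖u.2‖ * ‖v.2‖)]

lemma det_rowv_left (r : Eis × Eis) (M : Frm) :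
    (rowv r M).1 * M.2.2 - (rowv r M).2 * M.2.1 = toC r.1 * det2 M := by
  simp only [rowv, det2, Prod.fst_add, Prod.snd_add, Prod.smul_fst, Prod.smul_snd, smul_eq_mul]
  ring

lemma det_rowv_right (r : Eis × Eis) (M : Frm) :
    M.1.1 * (rowv r M).2 - M.1.2 * (rowv r M).1 = toC r.2 * det2 M := by
  simp only [rowv, det2, Prod.fst_add, Prod.snd_add, Prod.smul_fst, Prod.smul_snd, smul_eq_mul]
  ring

lemma nm1_le (r : Eis × Eis) (M : Frm) :
    (nm r.1 : ℝ) * ‖det2 M‖ ^ 2 ≤ n2 (rowv r M) * n2 M.2 := by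
  have h := normSq_det_le (rowv r M) M.2
  rwa [det_rowv_left, norm_mul, mul_pow, norm_toC_sq] at h

lemma nm2_le (r : Eis × Eis) (M : Frm) :
    (nm r.2 : ℝ) * ‖det2 M‖ ^ 2 ≤ n2 M.1 * n2 (rowv r M) := by
  have h := normSq_det_le M.1 (rowv r M)
  rwa [det_rowv_right, norm_mul, mul_pow, norm_toC_sq] at h

/-- The lower bound of `|c η + d ζ|²`. -/
lemma row_bound (r : Eis × Eis) (M : Frm) :
    ((nm r.1 : ℝ) + nm r.2) * ‖det2 M‖ ^ 2 ≤ n2 (rowv r M) * (n2 M.1 + n2 M.2) := by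
  have h1 := nm1_le r M
  have h2 := nm2_le r M
  nlinarith

lemma summable_gauss_rowv {M : Frm} (hM : det2 M ≠ 0) :
    Summable (fun r : Eis × Eis => Real.exp (-n2 (rowv r M))) := by
  have hd : 0 < ‖det2 M‖ ^ 2 := by positivity
  have hS : 0 < n2 M.1 + n2 M.2 := by
    have h2 := snd_ne_zero_of_det hM
    have h3 : n2 M.2 ≠ 0 := fun h => h2 (n2_eq_zero.mp h)
    have h4 := n2_nonneg M.1
    have h5 := n2_nonneg M.2
    positivity
  set e : ℝ := ‖det2 M‖ ^ 2 / (n2 M.1 + n2 M.2) with he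
  have hepos : 0 < e := div_pos hd hS
  have h1 := (summable_gauss_Eis hepos).mul_of_nonneg (summable_gauss_Eis hepos)
    (fun _ => (Real.exp_pos _).le) (fun _ => (Real.exp_pos _).le)
  refine Summable.of_nonneg_of_le (fun _ => (Real.exp_pos _).le) (fun r => ?_) h1
  rw [← Real.exp_add]
  apply Real.exp_le_exp.mpr
  have h2 := row_bound r M
  have h3 : ((nm r.1 : ℝ) + nm r.2) * e ≤ n2 (rowv r M) := by
    rw [he, mul_div_assoc', div_le_iff₀ hS]
    exact h2
  linarith

/-- There are finitely many rows with `|c η + d ζ|² ≤ R`. -/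
lemma finite_rowv {M : Frm} (hM : det2 M ≠ 0) (R : ℝ) :
    {r : Eis × Eis | n2 (rowv r M) ≤ R}.Finite := by
  have h := (summable_gauss_rowv hM).tendsto_cofinite_zero
  have h2 : ∀ᶠ r in Filter.cofinite, Real.exp (-n2 (rowv r M)) < Real.exp (-R) :=
    h.eventually (gt_mem_nhds (Real.exp_pos _))
  rw [Filter.eventually_cofinite] at h2
  refine h2.subset ?_
  intro r hr
  simp only [Set.mem_ofPred_eq, not_lt, Real.exp_le_exp] at *
  linarith

/-! ### The weight -/

/-- The Gaussian `exp(-|u|²)`. -/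
def gw (u : Vec) : ℝ≥0∞ := ENNReal.ofReal (Real.exp (-n2 u))

lemma measurable_gw : Measurable gw := by
  unfold gw
  exact ENNReal.measurable_ofReal.comp
    (Real.measurable_exp.comp continuous_n2.measurable.neg)

/-- The sum of `gw` over the rows. -/
def hsum (Δ : Subgroup Gam) (M : Frm) : ℝ≥0∞ := ∑' r : rowsOf Δ, gw (rowv r.1 M)

instance (Δ : Subgroup Gam) : Countable (rowsOf Δ) := inferInstance
instance (Δ : Subgroup Gam) : Countable Δ := inferInstance

lemma measurable_hsum (Δ : Subgroup Gam) : Measurable (hsum Δ) := by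
  unfold hsum
  exact Measurable.tsum fun r => measurable_gw.comp (measurable_rowv r.1)

lemma hsum_ne_top {Δ : Subgroup Gam} {M : Frm} (hM : det2 M ≠ 0) : hsum Δ M ≠ ∞ := by
  unfold hsum gw
  have h := (summable_gauss_rowv hM).subtype (rowsOf Δ)
  have h2 := ENNReal.ofReal_tsum_of_nonneg
    (f := fun r : rowsOf Δ => Real.exp (-n2 (rowv r.1 M))) (fun _ => (Real.exp_pos _).le) h
  rw [← h2]
  exact ENNReal.ofReal_ne_top

lemma one_mem_rowsOf (Δ : Subgroup Gam) : ((0, 1) : Eis × Eis) ∈ rowsOf Δ :=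
  ⟨1, Δ.one_mem, by simp [row]⟩

lemma hsum_ne_zero (Δ : Subgroup Gam) (M : Frm) : hsum Δ M ≠ 0 := by
  unfold hsum
  intro h
  rw [ENNReal.tsum_eq_zero] at h
  have := h ⟨(0, 1), one_mem_rowsOf Δ⟩
  unfold gw at this
  rw [ENNReal.ofReal_eq_zero] at this
  exact absurd this (not_le.mpr (Real.exp_pos _))

/-- Right multiplication on `rowsOf Δ`. -/
def rowsOfEquiv {Δ : Subgroup Gam} {g : Gam} (hg : g ∈ Δ) : rowsOf Δ ≃ rowsOf Δ where
  toFun r := ⟨rmul r.1 g, rmul_mem_rowsOf r.2 hg⟩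
  invFun r := ⟨rmul r.1 g⁻¹, rmul_mem_rowsOf r.2 (Δ.inv_mem hg)⟩
  left_inv r := by
    apply Subtype.ext
    simp only
    rw [← rmul_mul, mul_inv_cancel, rmul_one]
  right_inv r := by
    apply Subtype.ext
    simp only
    rw [← rmul_mul, inv_mul_cancel, rmul_one]

lemma hsum_act {Δ : Subgroup Gam} {g : Gam} (hg : g ∈ Δ) (M : Frm) :
    hsum Δ (act g M) = hsum Δ M := by
  unfold hsum
  rw [← (rowsOfEquiv hg).tsum_eq (fun r : rowsOf Δ => gw (rowv r.1 M))]
  apply tsum_congr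
  intro r
  rw [rowv_act]
  rfl

open Classical in
/-- The weight: `Σ_{γ ∈ Δ} rho (γ M) = 1`. -/
def rho (Δ : Subgroup Gam) (q : Eis) (M : Frm) : ℝ≥0∞ :=
  if M ∈ Slab q then gw M.2 / hsum Δ M else 0

open Classical in
lemma measurable_rho (Δ : Subgroup Gam) (q : Eis) : Measurable (rho Δ q) := by
  unfold rho
  refine Measurable.ite (measurableSet_Slab q) ?_ measurable_const
  exact (measurable_gw.comp measurable_snd).div (measurable_hsum Δ)

theorem tsum_rho {Δ : Subgroup Gam} {q : Eis} (hL : IsLev Δ q) {M : Frm} (hM : det2 M ≠ 0) :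
    ∑' g : Δ, rho Δ q (act g.1 M) = 1 := by
  classical
  unfold rho
  have h1 : ∀ g : Δ, (if act g.1 M ∈ Slab q then gw (act g.1 M).2 / hsum Δ (act g.1 M) else 0) =
      (if act g.1 M ∈ Slab q then (fun r => gw (rowv r M) / hsum Δ M) (row g.1) else 0) := by
    intro g
    rw [hsum_act g.2, act_snd']
  rw [tsum_congr h1, tsum_slab hL hM (fun r => gw (rowv r M) / hsum Δ M)]
  simp only [div_eq_mul_inv]
  rw [ENNReal.tsum_mul_right]
  exact ENNReal.mul_inv_cancel (hsum_ne_zero Δ M) (hsum_ne_top hM)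

/-- The same for the inverses. -/
theorem tsum_rho_inv {Δ : Subgroup Gam} {q : Eis} (hL : IsLev Δ q) {M : Frm} (hM : det2 M ≠ 0) :
    ∑' g : Δ, rho Δ q (act (g.1)⁻¹ M) = 1 := by
  rw [← tsum_rho hL hM, ← (Equiv.inv Δ).tsum_eq (fun g : Δ => rho Δ q (act g.1 M))]
  rfl

/-- The invariant measure. -/
def nu (Δ : Subgroup Gam) (q : Eis) : Measure Frm := volume.withDensity (rho Δ q)

lemma rho_le_one {Δ : Subgroup Gam} {q : Eis} (hL : IsLev Δ q) {M : Frm} (hM : det2 M ≠ 0) :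
    rho Δ q M ≤ 1 := by
  rw [← tsum_rho hL hM]
  have := ENNReal.le_tsum (f := fun g : Δ => rho Δ q (act g.1 M)) 1
  simpa using this

/-- Unfolding for nonnegative functions. -/
theorem lintegral_nu_tsum {Δ : Subgroup Gam} {q : Eis} (hL : IsLev Δ q) {f : Frm → ℝ≥0∞}
    (hf : Measurable f) (h0 : ∀ M, det2 M = 0 → f M = 0) :
    ∫⁻ M, ∑' g : Δ, f (act g.1 M) ∂(nu Δ q) = ∫⁻ M, f M := by
  unfold nu
  have hmeas : ∀ g : Δ, Measurable (fun M => f (act g.1 M)) :=
    fun g => hf.comp (measurable_act g.1)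
  rw [lintegral_tsum (fun g => (hmeas g).aemeasurable)]
  have h1 : ∀ g : Δ, ∫⁻ M, f (act g.1 M) ∂(volume.withDensity (rho Δ q)) =
      ∫⁻ M, rho Δ q (act (g.1)⁻¹ M) * f M := by
    intro g
    rw [lintegral_withDensity_eq_lintegral_mul _ (measurable_rho Δ q) (hmeas g)]
    have h2 : (fun M => (rho Δ q * fun M => f (act g.1 M)) M) =
        fun M => (fun M' => rho Δ q (act (g.1)⁻¹ M') * f M') (act g.1 M) := by
      funext M
      simp only [Pi.mul_apply]
      rw [act_inv_act]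
    rw [h2]
    exact (mp_act g.1).lintegral_comp
      (((measurable_rho Δ q).comp (measurable_act _)).mul hf)
  have h3 : ∀ g : Δ, AEMeasurable (fun M => rho Δ q (act (g.1)⁻¹ M) * f M) volume := fun g =>
    (((measurable_rho Δ q).comp (measurable_act _)).mul hf).aemeasurable
  rw [tsum_congr h1, ← lintegral_tsum h3]
  apply lintegral_congr
  intro M
  rw [ENNReal.tsum_mul_right]
  by_cases hM : det2 M = 0
  · rw [h0 M hM, mul_zero]
  · rw [tsum_rho_inv hL hM, one_mul]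

end Crest.Agent.R012.K695
end
end

-- ▼ part R012/Pair_695
section

/-!
# Row 12 (M-U), part 4: unfolding for complex functions, the pairing with a pseudo-Eisenstein series
-/

set_option autoImplicit false

noncomputable section

open MeasureTheory Complex
open scoped ENNReal

namespace Crest.Agent.R012.K695

open Eis

/-! ### The degenerate frames form a null set -/

lemma continuous_det2 : Continuous det2 := by unfold det2; fun_prop

lemma measurable_det2 : Measurable det2 := continuous_det2.measurable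

lemma measurableSet_deg : MeasurableSet {M : Frm | det2 M = 0} :=
  measurable_det2 (measurableSet_singleton 0)

lemma volume_deg_fiber {u : Vec} (hu : u ≠ 0) :
    (volume : Measure Vec) {v : Vec | u.1 * v.2 - u.2 * v.1 = 0} = 0 := by
  let s : Submodule ℝ Vec :=
    { carrier := {v : Vec | u.1 * v.2 - u.2 * v.1 = 0}
      add_mem' := by
        intro a b ha hb
        simp only [Set.mem_ofPred_eq, Prod.fst_add, Prod.snd_add] at *
        linear_combination ha + hb
      zero_mem' := by simp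
      smul_mem' := by
        intro c a ha
        simp only [Set.mem_ofPred_eq, Prod.smul_fst, Prod.smul_snd, Complex.real_smul] at *
        linear_combination (c : ℂ) * ha }
  have hs : s ≠ ⊤ := by
    intro h
    apply hu
    have h1 : ((0, 1) : Vec) ∈ s := h ▸ Submodule.mem_top
    have h2 : ((1, 0) : Vec) ∈ s := h ▸ Submodule.mem_top
    have h1' : u.1 * (1 : ℂ) - u.2 * 0 = 0 := h1
    have h2' : u.1 * (0 : ℂ) - u.2 * 1 = 0 := h2
    ext1
    · simpa using h1'
    · simpa using h2'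
  exact Measure.addHaar_submodule (volume : Measure Vec) s hs

theorem volume_deg : (volume : Measure Frm) {M : Frm | det2 M = 0} = 0 := by
  have h : (volume : Measure Frm) = (volume : Measure Vec).prod (volume : Measure Vec) := rfl
  rw [h, Measure.measure_prod_null measurableSet_deg]
  have h1 : ∀ᵐ u : Vec ∂volume, u ≠ 0 := by
    rw [ae_iff]
    simp
  filter_upwards [h1] with u hu
  exact volume_deg_fiber hu

lemma ae_det_ne : ∀ᵐ M : Frm ∂volume, det2 M ≠ 0 := by
  rw [ae_iff]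
  simpa using volume_deg

/-- Unfolding for nonnegative functions, without vanishing assumption. -/
theorem lintegral_nu_tsum' {Δ : Subgroup Gam} {q : Eis} (hL : IsLev Δ q) {f : Frm → ℝ≥0∞}
    (hf : Measurable f) :
    ∫⁻ M, ∑' g : Δ, f (act g.1 M) ∂(nu Δ q) = ∫⁻ M, f M := by
  classical
  have hD : MeasurableSet {M : Frm | det2 M ≠ 0} := measurableSet_deg.compl
  have h := lintegral_nu_tsum hL (f := {M : Frm | det2 M ≠ 0}.indicator f) (hf.indicator hD)
    (fun M hM => by simp [hM])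
  have hac : nu Δ q ≪ (volume : Measure Frm) := withDensity_absolutelyContinuous _ _
  have h1 : ∀ᵐ M ∂(nu Δ q), det2 M ≠ 0 := hac.ae_le ae_det_ne
  rw [show ∫⁻ M, ∑' g : Δ, f (act g.1 M) ∂(nu Δ q) =
    ∫⁻ M, ∑' g : Δ, {M : Frm | det2 M ≠ 0}.indicator f (act g.1 M) ∂(nu Δ q) from ?_, h]
  · apply lintegral_congr_ae
    filter_upwards [ae_det_ne] with M hM
    simp [hM]
  · apply lintegral_congr_ae
    filter_upwards [h1] with M hM
    apply tsum_congr
    intro g
    simp [hM]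

/-- The abstract passage from an identity for nonnegative functions to complex functions. -/
lemma hasSum_of_lintegral {X ι : Type*} [MeasurableSpace X] [Countable ι] {T : ι → X → X}
    (hT : ∀ i, Measurable (T i)) {μ0 μ1 : Measure X}
    (h : ∀ f : X → ℝ≥0∞, Measurable f → ∑' i, ∫⁻ x, f (T i x) ∂μ0 = ∫⁻ x, f x ∂μ1)
    {f : X → ℂ} (hf : Integrable f μ1) :
    HasSum (fun i => ∫ x, f (T i x) ∂μ0) (∫ x, f x ∂μ1) := by
  have hμ : μ1 = Measure.sum (fun i => μ0.map (T i)) := by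
    ext s hs
    rw [Measure.sum_apply _ hs]
    have h1 := h (s.indicator 1) (measurable_one.indicator hs)
    rw [lintegral_indicator_one hs] at h1
    rw [← h1]
    apply tsum_congr
    intro i
    rw [Measure.map_apply (hT i) hs]
    have h2 : (fun x => s.indicator (1 : X → ℝ≥0∞) (T i x)) = (T i ⁻¹' s).indicator 1 := rfl
    rw [h2, lintegral_indicator_one (hT i hs)]
  have hf' : Integrable f (Measure.sum (fun i => μ0.map (T i))) := hμ ▸ hf
  have h3 := hasSum_integral_measure hf'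
  rw [← hμ] at h3
  have h4 : ∀ i, ∫ x, f x ∂(μ0.map (T i)) = ∫ x, f (T i x) ∂μ0 := by
    intro i
    have hfi : Integrable f (μ0.map (T i)) := hf'.mono_measure (Measure.le_sum _ _)
    rw [integral_map (hT i).aemeasurable hfi.aestronglyMeasurable]
  simpa only [h4] using h3

/-- Unfolding for complex functions. -/
theorem integral_nu_tsum {Δ : Subgroup Gam} {q : Eis} (hL : IsLev Δ q) {f : Frm → ℂ}
    (hfm : Measurable f) (hf : Integrable f) :
    Integrable (fun M => ∑' g : Δ, f (act g.1 M)) (nu Δ q) ∧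
    ∫ M, ∑' g : Δ, f (act g.1 M) ∂(nu Δ q) = ∫ M, f M := by
  have key : ∀ f : Frm → ℝ≥0∞, Measurable f →
      ∑' g : Δ, ∫⁻ M, f (act g.1 M) ∂(nu Δ q) = ∫⁻ M, f M := by
    intro f hf
    have hm' : ∀ g : Δ, AEMeasurable (fun M => f (act g.1 M)) (nu Δ q) :=
      fun g => (hf.comp (measurable_act g.1)).aemeasurable
    rw [← lintegral_tsum hm']
    exact lintegral_nu_tsum' hL hf
  have hfin : ∑' g : Δ, ∫⁻ M, ‖f (act g.1 M)‖ₑ ∂(nu Δ q) ≠ ∞ := by
    rw [key (fun M => ‖f M‖ₑ) hfm.enorm]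
    exact hf.2.ne
  have hm : ∀ g : Δ, AEStronglyMeasurable (fun M => f (act g.1 M)) (nu Δ q) :=
    fun g => (hfm.comp (measurable_act g.1)).aestronglyMeasurable
  have hmt : Measurable (fun M => ∑' g : Δ, f (act g.1 M)) :=
    Measurable.tsum fun g => hfm.comp (measurable_act g.1)
  constructor
  · refine ⟨hmt.aestronglyMeasurable, ?_⟩
    have h1 : ∫⁻ M, ‖∑' g : Δ, f (act g.1 M)‖ₑ ∂(nu Δ q) ≤
        ∫⁻ M, ∑' g : Δ, ‖f (act g.1 M)‖ₑ ∂(nu Δ q) := by
      apply lintegral_mono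
      intro M
      exact enorm_tsum_le_tsum_enorm
    refine lt_of_le_of_lt h1 ?_
    rw [lintegral_tsum (fun g => (hm g).enorm)]
    exact hfin.lt_top
  · rw [integral_tsum hm hfin]
    exact (hasSum_of_lintegral (fun g : Δ => measurable_act g.1) key hf).tsum_eq

end Crest.Agent.R012.K695
end
end

-- ▼ part R012/Series_695

/-!
# Row 12 (M-U), part 5: equivariant series and the pairing theorem
-/

set_option autoImplicit false

noncomputable section

open MeasureTheory Complex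
open scoped ENNReal

namespace Crest.Agent.R012.K695

open Eis

/-- Bounded measurable functions with bounded support. -/
structure BS (F : Vec → ℂ) : Prop where
  meas : Measurable F
  bdd : ∃ C : ℝ, ∀ u, ‖F u‖ ≤ C
  supp : ∃ R : ℝ, ∀ u, R < n2 u → F u = 0

/-- Equivariant coefficient functions on the rows. -/
structure IsCoef (Δ : Subgroup Gam) (a : Eis × Eis → ℂ) : Prop where
  supp : ∀ r, a r ≠ 0 → IsRow r
  bdd : ∀ r, ‖a r‖ ≤ 1
  equiv : ∀ g ∈ Δ, ∀ r, a (rmul r g) = (starRingEnd ℂ) (kub g) * a r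

/-- The series `Σ a(r) F(c η + d ζ)`. -/
def EC (a : Eis × Eis → ℂ) (F : Vec → ℂ) (M : Frm) : ℂ :=
  ∑' r : Eis × Eis, a r * F (rowv r M)

lemma measurable_EC {a : Eis × Eis → ℂ} {F : Vec → ℂ} (hF : Measurable F) :
    Measurable (EC a F) := by
  unfold EC
  exact Measurable.tsum fun r => (hF.comp (measurable_rowv r)).const_mul (a r)

lemma summable_EC {a : Eis × Eis → ℂ} {F : Vec → ℂ} (hF : BS F) {M : Frm} (hM : det2 M ≠ 0) :
    Summable (fun r : Eis × Eis => a r * F (rowv r M)) := by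
  obtain ⟨R, hR⟩ := hF.supp
  apply summable_of_hasFiniteSupport
  refine (finite_rowv hM R).subset ?_
  intro r hr
  rw [Function.mem_support] at hr
  by_contra h
  simp only [Set.mem_ofPred_eq, not_le] at h
  exact hr (by rw [hR _ h, mul_zero])

/-- Right multiplication on all rows. -/
def allEquiv (g : Gam) : Eis × Eis ≃ Eis × Eis where
  toFun r := rmul r g
  invFun r := rmul r g⁻¹
  left_inv r := by
    simp only
    rw [← rmul_mul, mul_inv_cancel, rmul_one]
  right_inv r := by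
    simp only
    rw [← rmul_mul, inv_mul_cancel, rmul_one]

/-- Equivariance. -/
theorem EC_act (H : SyAPI) {Δ : Subgroup Gam} {a : Eis × Eis → ℂ} (ha : IsCoef Δ a)
    (F : Vec → ℂ) {g : Gam} (hg : g ∈ Δ) (M : Frm) : EC a F (act g M) = kub g * EC a F M := by
  unfold EC
  rw [← tsum_mul_left, ← (allEquiv g).tsum_eq (fun r => kub g * (a r * F (rowv r M)))]
  apply tsum_congr
  intro r
  have h1 : allEquiv g r = rmul r g := rfl
  rw [rowv_act, h1, ha.equiv g hg r]
  have h2 := kub_mul_conj H g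
  linear_combination (-(a r) * F (rowv (rmul r g) M)) * h2

open Classical in
/-- The basic coefficient function of `Δ`. -/
def bco (Δ : Subgroup Gam) (r : Eis × Eis) : ℂ :=
  if r ∈ rowsOf Δ then (starRingEnd ℂ) (sy r.1 r.2) else 0

lemma isCoef_bco (H : SyAPI) (Δ : Subgroup Gam) : IsCoef Δ (bco Δ) where
  supp r h := by
    unfold bco at h
    by_cases hr : r ∈ rowsOf Δ
    · exact rowsOf_isRow hr
    · simp [hr] at h
  bdd r := by
    unfold bco
    by_cases hr : r ∈ rowsOf Δ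
    · have h := rowsOf_isRow hr
      rw [if_pos hr, RCLike.norm_conj, H.norm_one _ _ h.2.2 h.1]
    · simp [hr]
  equiv g hg r := by
    unfold bco
    by_cases hr : r ∈ rowsOf Δ
    · rw [if_pos hr, if_pos (rmul_mem_rowsOf hr hg), sy_rmul H (rowsOf_isRow hr), map_mul]
      ring
    · rw [if_neg hr, if_neg (fun h => hr ((rmul_mem_rowsOf_iff hg).mp h)), mul_zero]

lemma EC_bco (Δ : Subgroup Gam) (F : Vec → ℂ) (M : Frm) :
    EC (bco Δ) F M = ∑' r : rowsOf Δ, (starRingEnd ℂ) (sy r.1.1 r.1.2) * F (rowv r.1 M) := by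
  classical
  unfold EC
  rw [tsum_subtype (rowsOf Δ) (fun r => (starRingEnd ℂ) (sy r.1 r.2) * F (rowv r M))]
  apply tsum_congr
  intro r
  unfold bco
  by_cases hr : r ∈ rowsOf Δ <;> simp [hr]

/-- Pointwise unfolding: the sum over `Δ` of the slab function is the product with the series. -/
lemma tsum_pairing {Δ : Subgroup Gam} {q : Eis} (hL : IsLev Δ q) {Φ : Frm → ℂ}
    (hΦ : ∀ g ∈ Δ, ∀ M, Φ (act g M) = kub g * Φ M) (W : ℂ → ℂ) (F : Vec → ℂ) {M : Frm}
    (hM : det2 M ≠ 0) :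
    ∑' g : Δ, (Slab q).indicator (fun M => W (det2 M) * Φ M * (starRingEnd ℂ) (F M.2))
      (act g.1 M) = W (det2 M) * Φ M * (starRingEnd ℂ) (EC (bco Δ) F M) := by
  classical
  have h1 : ∀ g : Δ, (Slab q).indicator
      (fun M => W (det2 M) * Φ M * (starRingEnd ℂ) (F M.2)) (act g.1 M) =
      (if act g.1 M ∈ Slab q then
        (fun r : Eis × Eis => W (det2 M) * Φ M *
          (sy r.1 r.2 * (starRingEnd ℂ) (F (rowv r M)))) (row g.1) else 0) := by
    intro g
    by_cases h : act g.1 M ∈ Slab q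
    · rw [Set.indicator_of_mem h, if_pos h, det2_act, hΦ g.1 g.2, act_snd']
      simp only [kub, row]
      ring
    · rw [Set.indicator_of_notMem h, if_neg h]
  rw [tsum_congr h1, tsum_slab hL hM (fun r : Eis × Eis => W (det2 M) * Φ M *
          (sy r.1 r.2 * (starRingEnd ℂ) (F (rowv r M)))), EC_bco, conj_tsum, tsum_mul_left]
  congr 1
  apply tsum_congr
  intro r
  simp

/-- **Pairing theorem** (unfolding): for `Φ` equivariant under `Δ`,
`∫ W(det) Φ conj(E_F) dν = ∫_{Slab q} W(det M) Φ(M) conj(F(ζ)) dM`. -/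
theorem pairing (H : SyAPI) {Δ : Subgroup Gam} {q : Eis} (hL : IsLev Δ q) {Φ : Frm → ℂ}
    (hΦm : Measurable Φ) (hΦ : ∀ g ∈ Δ, ∀ M, Φ (act g M) = kub g * Φ M) {W : ℂ → ℂ}
    (hW : Measurable W) {F : Vec → ℂ} (hF : Measurable F)
    (hint : IntegrableOn (fun M => W (det2 M) * Φ M * (starRingEnd ℂ) (F M.2)) (Slab q)) :
    Integrable (fun M => W (det2 M) * Φ M * (starRingEnd ℂ) (EC (bco Δ) F M)) (nu Δ q) ∧
    ∫ M, W (det2 M) * Φ M * (starRingEnd ℂ) (EC (bco Δ) F M) ∂(nu Δ q) =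
      ∫ M in Slab q, W (det2 M) * Φ M * (starRingEnd ℂ) (F M.2) := by
  have hm : Measurable (fun M : Frm => W (det2 M) * Φ M * (starRingEnd ℂ) (F M.2)) :=
    ((hW.comp measurable_det2).mul hΦm).mul
      (Complex.continuous_conj.measurable.comp (hF.comp measurable_snd))
  have h := integral_nu_tsum hL (hm.indicator (measurableSet_Slab q))
    ((integrable_indicator_iff (measurableSet_Slab q)).mpr hint)
  have hac : nu Δ q ≪ (volume : Measure Frm) := withDensity_absolutelyContinuous _ _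
  have h1 : ∀ᵐ M ∂(nu Δ q), det2 M ≠ 0 := hac.ae_le ae_det_ne
  have h2 : (fun M => ∑' g : Δ, (Slab q).indicator
      (fun M => W (det2 M) * Φ M * (starRingEnd ℂ) (F M.2)) (act g.1 M)) =ᵐ[nu Δ q]
      fun M => W (det2 M) * Φ M * (starRingEnd ℂ) (EC (bco Δ) F M) := by
    filter_upwards [h1] with M hM
    exact tsum_pairing hL hΦ W F hM
  refine ⟨h.1.congr h2, ?_⟩
  rw [← integral_congr_ae h2, h.2, integral_indicator (measurableSet_Slab q)]

end Crest.Agent.R012.K695
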