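import Crest.Agent.R012.GramD_858
import Mathlib
import Crest.Agent.R012.Series_695
import Crest.Agent.R012.Quot_666
import Crest.Agent.R012.SlabVol_681_Mg
import Crest.Agent.R012.StripIneq_813
import Crest.Agent.R012.Four_813
import Crest.Agent.R012.Trace_384
import Crest.Agent.R012.TestFn_286
import Crest.Agent.R012.LocFin_499_Mg
import Crest.Agent.R012.CF_61
import Crest.Agent.R012.ResOut_785
import Crest.Agent.R012.SymK_645

-- ▼ part R012/LatP_988
section

/-!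
# Row 12 (M-R): the weights of the level `p` step have no main term

`latHyp_level_p` : `LatHyp` for `PE m * ([p ∣ m] - 1/(N p + 1))` with `κ = 0`.
-/

set_option autoImplicit false

noncomputable section

open MeasureTheory Set Complex Filter
open scoped ENNReal ComplexConjugate Topology

namespace Crest.Agent.R012.LatP988

open Crest.Agent.R012 Crest.Agent.R012.Eis Crest.Agent.R012.LatSum413 Crest.Agent.R012.Gram858
  Crest.Agent.R012.Mob705

open Classical in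
/-- The weight at level `p`. -/
def Pp (p m : Eis) : ℂ :=
  ((PE m : ℝ) : ℂ) * ((if p ∣ m then 1 else 0) - 1 / ((nm p : ℂ) + 1))

/-- **No main term at level `p`.** -/
theorem latHyp_level_p {w : ℝ → ℝ} (hwd : ContDiff ℝ 2 w) {α β : ℝ} (hα : 0 < α) (hβ : 0 ≤ β)
    (hw : ∀ x, w x ≠ 0 → α ≤ x ∧ x ≤ β) {τ : ℝ} (hτ0 : 0 < τ) (hτ : τ < 2 / 3) :
    ∃ C₀ : ℝ, 0 ≤ C₀ ∧ ∀ p : Eis, IsPP p → LatHyp (Pp p) w 0 C₀ τ := by
  classical
  obtain ⟨C₀, hC₀, h⟩ := latHyp_PE hwd hα hβ hw hτ0 hτ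
  obtain ⟨C₁, hC₁, h'⟩ := latHyp_PE_dvd hwd hα hβ hw hτ0 hτ
  refine ⟨C₁ + C₀, by positivity, fun p hp => ?_⟩
  have hw0 : ∀ x < α, w x = 0 := by
    intro x hx
    by_contra hne
    exact absurd (hw x hne).1 (not_le.mpr hx)
  have hN : (1 : ℝ) < nm p := by exact_mod_cast hp.one_lt_nm
  have hn : ‖-(1 / ((nm p : ℂ) + 1))‖ ≤ 1 := by
    have e : -(1 / ((nm p : ℂ) + 1)) = ((-(1 / ((nm p : ℝ) + 1)) : ℝ) : ℂ) := by push_cast; ring
    rw [e, Complex.norm_real, Real.norm_eq_abs, abs_neg, abs_of_nonneg (by positivity),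
      div_le_one (by linarith)]
    linarith
  have h1 := (h.smul (-(1 / ((nm p : ℂ) + 1)))).mono (C₁ := C₀) (by
    calc ‖-(1 / ((nm p : ℂ) + 1))‖ * C₀ ≤ 1 * C₀ := by gcongr
      _ = C₀ := one_mul _)
  have h2 := (h' p hp).add hα hw0 h1
  have hκ : kap1 w / ((nm p : ℂ) + 1) + -(1 / ((nm p : ℂ) + 1)) * kap1 w = 0 := by ring
  rw [hκ] at h2
  refine h2.congr ?_
  intro m _
  unfold Pp
  by_cases hpm : p ∣ m
  · simp only [hpm, if_true]; ring
  · simp only [hpm, if_false]; ring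

end Crest.Agent.R012.LatP988
end
end

-- ▼ part R012/AbsUnfold_681
section

/-!
# Row 12, part (MU): abstract unfolding

`G` a countable group acting measurably and measure-preservingly on `(X, μ)`.
A `G`-weight is a measurable `ρ : X → ℝ≥0∞` with `∑_{g ∈ G} ρ (g • x) = 1` for a.e. `x`.
The *quotient measure* is `ν = μ.withDensity ρ`  (`L²(G\X)` = automorphic functions in `L²(ν)`).

* `lintegral_unfold`, `integral_unfold` : `∫ (∑_g ψ (g • x)) dν = ∫ ψ dμ`
* `lintegral_indep`                     : independence of the weight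
* `twisted_unfold`                      : `∫ Φ conj (P f) dν = ∫ Φ conj f dμ`
* `tsum_rows`                           : sums over `G` with `1_D` = sums over rows `H\G`
* `strip_le`                            : `∫_S φ dμ ≤ m ∫ φ dν`
* `lintegral_subgroup`                  : `∫ φ dν' = [G : G'] ∫ φ dν`
* `IsWt.ofPos`                          : existence from a positive summable function
-/

set_option autoImplicit false

noncomputable section

open MeasureTheory ENNReal Filter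

namespace Crest.Agent.R012.AU681

section basic

variable {G X : Type*} [Group G] [MulAction G X] [MeasurableSpace X]

/-- `ρ` is a weight for the action of `G`. -/
structure IsWt (G : Type*) {X : Type*} [Group G] [MulAction G X] [MeasurableSpace X]
    (μ : Measure X) (ρ : X → ℝ≥0∞) : Prop where
  meas : Measurable ρ
  sum_one : ∀ᵐ x ∂μ, ∑' g : G, ρ (g • x) = 1

variable {μ : Measure X} {ρ : X → ℝ≥0∞}





variable [Countable G] [MeasurableConstSMul G X] [SMulInvariantMeasure G X μ]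







end basic

section bochner

variable {G X : Type*} [Group G] [MulAction G X] [MeasurableSpace X] {μ : Measure X}
  {ρ : X → ℝ≥0∞} [Countable G] [MeasurableConstSMul G X] [SMulInvariantMeasure G X μ]
variable {E : Type*} [NormedAddCommGroup E]




variable [NormedSpace ℝ E]






end bochner

section twisted

variable {G X : Type*} [Group G] [MulAction G X] [MeasurableSpace X] {μ : Measure X}
  {ρ : X → ℝ≥0∞} [Countable G] [MeasurableConstSMul G X] [SMulInvariantMeasure G X μ]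






end twisted

section rows

variable {G X R : Type*} [Group G] [MulAction G X]



end rows

section subgroup

variable {G X : Type*} [Group G] [MulAction G X] [MeasurableSpace X] {μ : Measure X}
  [Countable G] [MeasurableConstSMul G X] [SMulInvariantMeasure G X μ]

omit [Countable G] in
/-- `(q, k) ↦ out q * k`. -/
def cosEquiv (K : Subgroup G) : (G ⧸ K) × K ≃ G :=
  Equiv.ofBijective (fun p => Quotient.out p.1 * (p.2 : G)) (by
    constructor
    · rintro ⟨q, k⟩ ⟨q', k'⟩ h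
      simp only at h
      have hq : q = q' := by
        have h1 : ((Quotient.out q * (k : G) : G) : G ⧸ K) = ((Quotient.out q' * (k' : G) : G) : G ⧸ K) := by
          rw [h]
        rwa [QuotientGroup.mk_mul_of_mem _ k.2, QuotientGroup.mk_mul_of_mem _ k'.2,
          QuotientGroup.out_eq', QuotientGroup.out_eq'] at h1
      subst hq
      have hk := mul_left_cancel h
      rw [Subtype.ext hk]
    · intro g
      have h1 : (Quotient.out (g : G ⧸ K))⁻¹ * g ∈ K := by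
        rw [← QuotientGroup.eq]
        exact QuotientGroup.out_eq' _
      exact ⟨⟨(g : G ⧸ K), ⟨_, h1⟩⟩, by simp⟩)



omit [Countable G] in
lemma tsum_one_eq_index {K : Subgroup G} [K.FiniteIndex] :
    (∑' _ : G ⧸ K, (1 : ℝ≥0∞)) = K.index := by
  have : Finite (G ⧸ K) := Subgroup.finite_quotient_of_finiteIndex
  have := Fintype.ofFinite (G ⧸ K)
  rw [tsum_fintype, Finset.sum_const, Finset.card_univ, nsmul_eq_mul, mul_one,
    Subgroup.index_eq_card, Nat.card_eq_fintype_card]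

end subgroup

section existence

variable {G X : Type*} [Group G] [MulAction G X] [MeasurableSpace X] {μ : Measure X}
  [Countable G] [MeasurableConstSMul G X]



end existence

end Crest.Agent.R012.AU681
end
end

-- ▼ part R012/Index_681
section

/-!
# Row 12 (MU): comparison of the invariant measures of two levels, the group `Δ_p`

* `lintegral_nu_index` : `∫ φ dν(D₁) = [D : D₁] ∫ φ dν(D)` for `D`-invariant `φ`
* `integral_nu_index`  : the same for integrable complex functions and finite index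
* `DelP p = {g : 3 p ∣ g_b}`, `isLev_DelP`, `rowsOf_DelP`, `index_DelP_le`
-/

set_option autoImplicit false

noncomputable section

open MeasureTheory Complex
open scoped ENNReal

namespace Crest.Agent.R012.K695

open Eis AU681

/-- The index as an extended nonnegative number. -/
def eidx (D1 D : Subgroup Gam) : ℝ≥0∞ := ∑' _ : D ⧸ D1.subgroupOf D, (1 : ℝ≥0∞)

lemma eidx_eq {D1 D : Subgroup Gam} (h : D1.relIndex D ≠ 0) :
    eidx D1 D = (D1.relIndex D : ℝ≥0∞) := by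
  have : (D1.subgroupOf D).FiniteIndex := ⟨h⟩
  exact tsum_one_eq_index


/-- Sum of the weight of the smaller group over the larger group. -/
theorem tsum_rho_index {D1 D : Subgroup Gam} {q1 : Eis} (hle : D1 ≤ D) (hL1 : IsLev D1 q1)
    {M : Frm} (hM : det2 M ≠ 0) :
    ∑' g : D, rho D1 q1 (act g.1 M) = eidx D1 D := by
  have e : ∑' g : D, rho D1 q1 (act g.1 M) = ∑' g : D, rho D1 q1 (act (g.1)⁻¹ M) :=
    ((Equiv.inv D).tsum_eq (fun g : D => rho D1 q1 (act g.1 M))).symm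
  rw [e, ← (cosEquiv (D1.subgroupOf D)).tsum_eq (fun g : D => rho D1 q1 (act (g.1)⁻¹ M)),
    ENNReal.tsum_prod', eidx]
  refine tsum_congr fun x => ?_
  have h0 : det2 (act ((Quotient.out x : D) : Gam)⁻¹ M) ≠ 0 := by rwa [det2_act]
  rw [← tsum_rho_inv hL1 h0]
  have e4 := (Subgroup.subgroupOfEquivOfLe hle).toEquiv.tsum_eq
    (fun k : D1 => rho D1 q1 (act (k.1)⁻¹ (act ((Quotient.out x : D) : Gam)⁻¹ M)))
  rw [← e4]
  refine tsum_congr fun k => ?_
  have e2 : ((cosEquiv (D1.subgroupOf D) (x, k) : D) : Gam) =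
      ((Quotient.out x : D) : Gam) * ((k : D) : Gam) := rfl
  have e3 : (((Subgroup.subgroupOfEquivOfLe hle).toEquiv k : D1) : Gam) = ((k : D) : Gam) := rfl
  rw [e2, e3, mul_inv_rev, act_mul]

/-- **Comparison of levels** for nonnegative functions. -/
theorem lintegral_nu_index {D1 D : Subgroup Gam} {q1 q : Eis} (hle : D1 ≤ D)
    (hL1 : IsLev D1 q1) (hL : IsLev D q) {φ : Frm → ℝ≥0∞} (hφ : Measurable φ)
    (hinv : ∀ g ∈ D, ∀ M, φ (act g M) = φ M) :
    ∫⁻ M, φ M ∂(nu D1 q1) = eidx D1 D * ∫⁻ M, φ M ∂(nu D q) := by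
  have h1 := lintegral_nu_tsum' hL (f := fun M => φ M * rho D1 q1 M)
    (hφ.mul (measurable_rho D1 q1))
  have e1 : ∫⁻ M, φ M ∂(nu D1 q1) = ∫⁻ M, φ M * rho D1 q1 M := by
    rw [nu, lintegral_withDensity_eq_lintegral_mul _ (measurable_rho D1 q1) hφ]
    congr 1
    ext M
    rw [Pi.mul_apply, mul_comm]
  rw [e1, ← h1, ← lintegral_const_mul _ hφ]
  have hac : nu D q ≪ (volume : Measure Frm) := withDensity_absolutelyContinuous _ _
  apply lintegral_congr_ae
  filter_upwards [hac.ae_le ae_det_ne] with M hM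
  have e2 : ∀ g : D, φ (act g.1 M) * rho D1 q1 (act g.1 M) = φ M * rho D1 q1 (act g.1 M) := by
    intro g; rw [hinv g.1 g.2]
  rw [tsum_congr e2, ENNReal.tsum_mul_left, tsum_rho_index hle hL1 hM, mul_comm]

lemma rho_ne_top {D : Subgroup Gam} {q : Eis} (hL : IsLev D q) :
    ∀ᵐ M : Frm ∂volume, rho D q M < ∞ := by
  filter_upwards [ae_det_ne] with M hM
  exact lt_of_le_of_lt (rho_le_one hL hM) ENNReal.one_lt_top

/-- Integrability of an invariant function at the smaller level. -/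
theorem integrable_nu_index {D1 D : Subgroup Gam} {q1 q : Eis} (hle : D1 ≤ D)
    (hL1 : IsLev D1 q1) (hL : IsLev D q) (hidx : D1.relIndex D ≠ 0) {Φ : Frm → ℂ}
    (hΦ : Measurable Φ) (hinv : ∀ g ∈ D, ∀ M, ‖Φ (act g M)‖ = ‖Φ M‖)
    (hint : Integrable Φ (nu D q)) : Integrable Φ (nu D1 q1) := by
  refine ⟨hΦ.aestronglyMeasurable, ?_⟩
  unfold HasFiniteIntegral
  rw [lintegral_nu_index hle hL1 hL hΦ.enorm (fun g hg M => ?_), eidx_eq hidx]
  · exact ENNReal.mul_lt_top (ENNReal.natCast_lt_top _) hint.2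
  · rw [← ofReal_norm, ← ofReal_norm, hinv g hg M]

/-- **Comparison of levels** for complex functions. -/
theorem integral_nu_index {D1 D : Subgroup Gam} {q1 q : Eis} (hle : D1 ≤ D)
    (hL1 : IsLev D1 q1) (hL : IsLev D q) (hidx : D1.relIndex D ≠ 0) {Φ : Frm → ℂ}
    (hΦ : Measurable Φ) (hinv : ∀ g ∈ D, ∀ M, Φ (act g M) = Φ M)
    (hint : Integrable Φ (nu D q)) :
    ∫ M, Φ M ∂(nu D1 q1) = (D1.relIndex D : ℂ) * ∫ M, Φ M ∂(nu D q) := by
  have hint1 : Integrable Φ (nu D1 q1) := integrable_nu_index hle hL1 hL hidx hΦ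
    (fun g hg M => by rw [hinv g hg M]) hint
  have e1 : ∫ M, Φ M ∂(nu D1 q1) = ∫ M, (rho D1 q1 M).toReal • Φ M :=
    integral_withDensity_eq_integral_toReal_smul (measurable_rho D1 q1) (rho_ne_top hL1) Φ
  have hfi : Integrable (fun M => (rho D1 q1 M).toReal • Φ M) volume := by
    have := (integrable_withDensity_iff_integrable_smul₀'
      (measurable_rho D1 q1).aemeasurable (rho_ne_top hL1)).mp hint1
    exact this
  have hfm : Measurable (fun M => (rho D1 q1 M).toReal • Φ M) :=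
    (measurable_rho D1 q1).ennreal_toReal.smul hΦ
  have h1 := (integral_nu_tsum hL hfm hfi).2
  rw [e1, ← h1, ← integral_const_mul]
  have hac : nu D q ≪ (volume : Measure Frm) := withDensity_absolutelyContinuous _ _
  apply integral_congr_ae
  filter_upwards [hac.ae_le ae_det_ne] with M hM
  have e2 : ∀ g : D, (rho D1 q1 (act g.1 M)).toReal • Φ (act g.1 M) =
      (rho D1 q1 (act g.1 M)).toReal • Φ M := by
    intro g; rw [hinv g.1 g.2]
  rw [tsum_congr e2]
  have h3 := tsum_rho_index hle hL1 hM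
  rw [eidx_eq hidx] at h3
  have hne : ∑' g : D, rho D1 q1 (act g.1 M) ≠ ∞ := by rw [h3]; exact ENNReal.natCast_ne_top _
  have h4 := ENNReal.hasSum_toReal hne
  have h5 : ∑' g : D, (rho D1 q1 (act g.1 M)).toReal = (D1.relIndex D : ℝ) := by
    rw [← ENNReal.tsum_toReal_eq (fun g => ENNReal.ne_top_of_tsum_ne_top hne g), h3]
    simp
  rw [h5] at h4
  have h6 := h4.smul_const (Φ M)
  rw [h6.tsum_eq, Complex.real_smul]
  push_cast
  rfl

/-! ### The level `p` group -/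

/-- `Δ_p = {γ ∈ Γ(3) : 3p ∣ b}`. -/
def DelP (p : Eis) : Subgroup Gam where
  carrier := {g | 3 * p ∣ gb g}
  one_mem' := by simp
  mul_mem' := by
    intro g h hg hh
    simp only [Set.mem_ofPred_eq] at *
    rw [gb_mul]
    exact dvd_add (hh.mul_left _) (hg.mul_right _)
  inv_mem' := by
    intro g hg
    simp only [Set.mem_ofPred_eq] at *
    rw [gb_inv]
    exact hg.neg_right

lemma mem_DelP {p : Eis} {g : Gam} : g ∈ DelP p ↔ 3 * p ∣ gb g := Iff.rfl

lemma three_ne_zero' : (3 : Eis) ≠ 0 := by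
  intro h
  have := congrArg nm h
  rw [nm_three] at this
  simp at this

lemma isLev_DelP {p : Eis} (hp : p ≠ 0) : IsLev (DelP p) p := by
  refine ⟨hp, fun b => ?_⟩
  rw [mem_DelP]
  have : gb (nU b) = 3 * b := by simp [nU]
  rw [this]
  exact mul_dvd_mul_iff_left three_ne_zero'

theorem rowsOf_DelP {p : Eis} : rowsOf (DelP p) = {r | IsRow r ∧ IsCoprime p r.2} := by
  ext r
  constructor
  · rintro ⟨g, hg, rfl⟩
    refine ⟨isRow_gam g, ?_⟩
    obtain ⟨t, ht⟩ := (mem_DelP.mp hg)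
    refine ⟨-(3 * t * gc g), ga g, ?_⟩
    have := det_eq g
    rw [ht] at this
    simp only [row]
    linear_combination this
  · rintro ⟨hr, hcop⟩
    obtain ⟨g, h1, h2⟩ := exists_gam hr
    obtain ⟨b', hb'⟩ := gb_dvd g
    obtain ⟨u, v, huv⟩ := hcop
    -- `t = -b' v`
    refine ⟨nU (-(b' * v)) * g, ?_, ?_⟩
    · rw [mem_DelP, gb_mul]
      have e1 : ga (nU (-(b' * v))) = 1 := by simp [nU]
      have e2 : gb (nU (-(b' * v))) = 3 * (-(b' * v)) := by simp [nU]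
      rw [e1, e2, hb', h2]
      refine ⟨b' * u, ?_⟩
      linear_combination (-3 * b') * huv
    · rw [row_mul]
      have e3 : row (nU (-(b' * v))) = (0, 1) := by simp [row, nU]
      rw [e3]
      simp only [rmul, zero_mul, one_mul, zero_add, h1, h2]


lemma mem_DelP_mul {p : Eis} (g h : Gam) :
    g⁻¹ * h ∈ DelP p ↔ 3 * p ∣ gd g * gb h - gb g * gd h := by
  rw [mem_DelP, gb_mul, ga_inv, gb_inv]
  have : gd g * gb h + -gb g * gd h = gd g * gb h - gb g * gd h := by ring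
  rw [this]

open Classical in
/-- the point of `P¹(Eis/p)` attached to an element. -/
def p1 (p : Eis) (hp : Prime p) (g : Gam) : Option (QE p) :=
  if h : p ∣ gd g then none
  else some (Ideal.Quotient.mk _ (gb g * ((hp.irreducible.coprime_iff_not_dvd.mpr h).choose_spec.choose)))

lemma p1_spec {p : Eis} (hp : Prime p) {g : Gam} (h : ¬ p ∣ gd g) :
    ∃ x : Eis, p ∣ gd g * x - 1 ∧ p1 p hp g = some (Ideal.Quotient.mk _ (gb g * x)) := by
  refine ⟨_, ?_, by rw [p1, dif_neg h]⟩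
  have h2 := (hp.irreducible.coprime_iff_not_dvd.mpr h).choose_spec.choose_spec
  refine ⟨-(hp.irreducible.coprime_iff_not_dvd.mpr h).choose, ?_⟩
  linear_combination h2

lemma p1_inj {p : Eis} (hp : Prime p) (hpp : IsPrim p) {g h : Gam} (e : p1 p hp g = p1 p hp h) :
    g⁻¹ * h ∈ DelP p := by
  rw [mem_DelP_mul]
  have h3 : (3 : Eis) ∣ gd g * gb h - gb g * gd h :=
    dvd_sub ((gb_dvd h).mul_left _) ((gb_dvd g).mul_right _)
  have hp3 : p ∣ gd g * gb h - gb g * gd h := by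
    by_cases hg : p ∣ gd g
    · by_cases hh : p ∣ gd h
      · exact dvd_sub (hg.mul_right _) (hh.mul_left _)
      · obtain ⟨x, -, hx⟩ := p1_spec hp hh
        rw [p1, dif_pos hg, hx] at e
        exact absurd e (by simp)
    · by_cases hh : p ∣ gd h
      · obtain ⟨x, -, hx⟩ := p1_spec hp hg
        rw [hx, p1, dif_pos hh] at e
        exact absurd e (by simp)
      · obtain ⟨x, ⟨s, hs⟩, hx⟩ := p1_spec hp hg
        obtain ⟨y, ⟨t, ht⟩, hy⟩ := p1_spec hp hh
        rw [hx, hy, Option.some_inj, Ideal.Quotient.eq, Ideal.mem_span_singleton] at e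
        obtain ⟨u, hu⟩ := e
        refine ⟨-(gd g * gd h * u) + gd h * gb g * s - gd g * gb h * t, ?_⟩
        linear_combination (-(gd g * gd h)) * hu + (gd h * gb g) * hs - (gd g * gb h) * ht
  exact (prim_coprime_three hpp).symm.mul_dvd h3 hp3

lemma card_option_QE {p : Eis} (hp : p ≠ 0) : Finite (Option (QE p)) ∧
    Nat.card (Option (QE p)) = nm p + 1 := by
  have := finite_QE hp
  have := Fintype.ofFinite (QE p)
  refine ⟨inferInstance, ?_⟩
  rw [Nat.card_eq_fintype_card, Fintype.card_option, ← Nat.card_eq_fintype_card, card_QE p]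

/-- the coset map. -/
def p1q (p : Eis) (hp : Prime p) (x : (⊤ : Subgroup Gam) ⧸ (DelP p).subgroupOf ⊤) : Option (QE p) :=
  p1 p hp (Quotient.out x : (⊤ : Subgroup Gam))

lemma p1q_inj {p : Eis} (hp : Prime p) (hpp : IsPrim p) : Function.Injective (p1q p hp) := by
  intro x y e
  have h := p1_inj hp hpp e
  rw [← QuotientGroup.out_eq' x, ← QuotientGroup.out_eq' y, QuotientGroup.eq]
  rw [Subgroup.mem_subgroupOf]
  exact h


theorem relIndex_DelP {p : Eis} (hp : Prime p) (hpp : IsPrim p) :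
    (DelP p).relIndex ⊤ ≠ 0 ∧ (DelP p).relIndex ⊤ ≤ nm p + 1 := by
  obtain ⟨h1, h2⟩ := card_option_QE hp.ne_zero
  have h3 := Finite.of_injective (p1q p hp) (p1q_inj hp hpp)
  constructor
  · exact Nat.card_pos.ne'
  · rw [← h2]
    exact Nat.card_le_card_of_injective (p1q p hp) (p1q_inj hp hpp)


end Crest.Agent.R012.K695
end
end

-- ▼ part R012/GramP_988
section

/-!
# Row 12 (M-R), H2: the level `p` norm has no main term

`psiP p d = [p ∤ d] - N/(N+1)`.  `level_norm`: for `F` in the class `Fr r₁ r₂ r₃ K` and the cut-off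
`w(|det|)`,
`∫ w(|det|) |E_{ψ_p, F}|² dν_p ≤ C_p K² r₂⁴ r₃² / r₁² (1 + 2 r₂ r₃)^τ`.
-/

set_option autoImplicit false

noncomputable section

open MeasureTheory Complex Filter
open scoped ComplexConjugate ENNReal Topology

namespace Crest.Agent.R012.K695.GramP988

open Crest.Agent.R012 Crest.Agent.R012.Eis Crest.Agent.R012.Gram858 Crest.Agent.R012.Mob705
  Crest.Agent.R012.LatP988 Crest.Agent.R012.K695.Gram988 Crest.Agent.R012.StripIneq813
  Crest.Agent.R012.Four813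

/-- `N/(N+1)` -/
def LL (p : Eis) : ℂ := (nm p : ℂ) / ((nm p : ℂ) + 1)

open Classical in
/-- `[p ∤ d] - N/(N+1)` -/
def psiP (p d : Eis) : ℂ := (if p ∣ d then 0 else 1) - LL p

lemma nmC_add_ne (p : Eis) : ((nm p : ℂ) + 1) ≠ 0 := by exact_mod_cast Nat.succ_ne_zero (nm p)

lemma LL_real (p : Eis) : LL p = (((nm p : ℝ) / ((nm p : ℝ) + 1) : ℝ) : ℂ) := by
  unfold LL; push_cast; rfl




lemma isCoef_top (H : SyAPI) (Δ : Subgroup Gam) : IsCoef Δ (bco ⊤) where
  supp := (isCoef_bco H ⊤).supp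
  bdd := (isCoef_bco H ⊤).bdd
  equiv g _ := (isCoef_bco H ⊤).equiv g trivial

lemma coef_eq (Hs : CharSum852.SyFacts) {p : Eis} (hp : Prime p) (r : Eis × Eis) :
    coefK (ker (psiP p)) r = bco (DelP p) r - LL p * bco ⊤ r := by
  classical
  rw [coefK_ker_apply Hs]
  have h1 : r ∈ rowsOf (DelP p) ↔ IsRow r ∧ ¬ p ∣ r.2 := by
    rw [rowsOf_DelP]
    simp only [Set.mem_ofPred_eq]
    exact and_congr_right fun _ => hp.coprime_iff_not_dvd
  have h2 : r ∈ rowsOf ⊤ ↔ IsRow r := by rw [rowsOf_top]; rfl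
  unfold bco
  by_cases hr : IsRow r
  · rw [if_pos hr, if_pos (h2.mpr hr)]
    unfold psiP
    by_cases hd : p ∣ r.2
    · rw [if_pos hd, if_neg (fun h => (h1.mp h).2 hd)]; ring
    · rw [if_neg hd, if_pos (h1.mpr ⟨hr, hd⟩)]; ring
  · rw [if_neg hr, if_neg (fun h => hr (h2.mp h)), if_neg (fun h => hr (h1.mp h).1)]; ring

/-! ### The coefficients of the Gram formula -/

lemma bco_row (Hs : CharSum852.SyFacts) {c : Eis} (hc : (3 : Eis) ∣ c) (d : Eis) :
    bco ⊤ (c, d) = conj (CharSum852.fS c d) := by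
  classical
  have h2 : (c, d) ∈ rowsOf ⊤ ↔ IsRow (c, d) := by rw [rowsOf_top]; rfl
  unfold bco CharSum852.fS
  by_cases hd : IsPrim d
  · rw [if_pos hd]
    by_cases hcop : IsCoprime c d
    · rw [if_pos (h2.mpr ⟨hcop, hc, hd⟩)]
    · rw [if_neg (fun h => hcop (h2.mp h).1), (Hs.eq_zero c d hd).mpr hcop, map_zero]
  · rw [if_neg hd, if_neg (fun h => hd (h2.mp h).2.2), map_zero]

lemma bcoP_row (Hs : CharSum852.SyFacts) {p : Eis} (hp : Prime p) {c : Eis} (hc : (3 : Eis) ∣ c)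
    (d : Eis) : bco (DelP p) (c, d) = conj (CharSum852.fSP p c d) := by
  classical
  have h1 : (c, d) ∈ rowsOf (DelP p) ↔ IsRow (c, d) ∧ ¬ p ∣ d := by
    rw [rowsOf_DelP]
    simp only [Set.mem_ofPred_eq]
    exact and_congr_right fun _ => hp.coprime_iff_not_dvd
  unfold bco CharSum852.fSP
  by_cases hd : IsPrim d ∧ ¬ p ∣ d
  · rw [if_pos hd]
    by_cases hcop : IsCoprime c d
    · rw [if_pos (h1.mpr ⟨⟨hcop, hc, hd.1⟩, hd.2⟩)]
    · rw [if_neg (fun h => hcop (h1.mp h).1.1), (Hs.eq_zero c d hd.1).mpr hcop, map_zero]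
  · rw [if_neg hd, if_neg (fun h => hd ⟨(h1.mp h).1.2.2, (h1.mp h).2⟩), map_zero]

lemma sumMod_zero {c : Eis} {f : Eis → ℂ} (h : ∀ x, f x = 0) : sumMod c f = 0 := by
  unfold sumMod
  simp [h]

lemma sumMod_bco (Hs : CharSum852.SyFacts) {p c : Eis} (hp : p ≠ 0) (hc0 : c ≠ 0)
    (hc : (3 : Eis) ∣ c) :
    sumMod (3 * p * c) (fun d => bco ⊤ (c, d)) = (nm p : ℂ) * conj (CharSum852.Ssum c) := by
  have h3c : (3 * c : Eis) ≠ 0 := mul_ne_zero three_ne_zero' hc0
  have e1 : (3 * p * c : Eis) = 3 * c * p := by ring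
  rw [e1, sumMod_congr (fun d => bco_row Hs hc d), ← sumMod_star (mul_ne_zero h3c hp),
    CharSum852.sumMod_fS_level Hs hp hc0 hc, map_mul, Complex.conj_natCast]

lemma sumMod_bcoP (Hs : CharSum852.SyFacts) {p c : Eis} (hp : Prime p) (hc0 : c ≠ 0)
    (hc : (3 : Eis) ∣ c) :
    sumMod (3 * p * c) (fun d => bco (DelP p) (c, d)) = conj (CharSum852.SsumP p c) := by
  have h3c : (3 * c : Eis) ≠ 0 := mul_ne_zero three_ne_zero' hc0
  have e1 : (3 * p * c : Eis) = 3 * c * p := by ring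
  rw [e1, sumMod_congr (fun d => bcoP_row Hs hp hc d),
    ← sumMod_star (mul_ne_zero h3c hp.ne_zero)]
  rfl

open Classical in
lemma sumMod_diff (Hs : CharSum852.SyFacts) {p c : Eis} (hp : Prime p) (hpp : IsPrim p)
    (hc0 : c ≠ 0) (hc : (3 : Eis) ∣ c) :
    sumMod (3 * p * c) (fun d => bco (DelP p) (c, d)) -
      LL p * sumMod (3 * p * c) (fun d => bco ⊤ (c, d)) =
    conj (CharSum852.Ssum c) * ((if p ∣ c then 1 else 0) - 1 / ((nm p : ℂ) + 1)) := by
  rw [sumMod_bco Hs hp.ne_zero hc0 hc, sumMod_bcoP Hs hp hc0 hc]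
  have hN := nmC_add_ne p
  by_cases h : p ∣ c
  · rw [CharSum852.SsumP_of_dvd Hs hp hc0 hc h, if_pos h, map_mul, Complex.conj_natCast]
    unfold LL
    field_simp
    ring
  · rw [CharSum852.SsumP_of_not_dvd Hs hp hpp hc0 hc h, if_neg h, map_mul, map_sub,
      Complex.conj_natCast, map_one]
    unfold LL
    field_simp
    ring

lemma not_row_bco (Δ : Subgroup Gam) {c : Eis} (hc : ¬ (3 : Eis) ∣ c) (d : Eis) :
    bco Δ (c, d) = 0 := by
  classical
  unfold bco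
  rw [if_neg]
  intro h
  exact hc (rowsOf_isRow h).2.1

/-! ### The radial cut-off -/

/-- A nonnegative `C²` cut-off supported in `[α, β]`, `α > 0`. -/
structure RCut (w : ℝ → ℝ) (α β : ℝ) : Prop where
  smooth : ContDiff ℝ 2 w
  apos : 0 < α
  bnonneg : 0 ≤ β
  nonneg : ∀ x, 0 ≤ w x
  supp : ∀ x, w x ≠ 0 → α ≤ x ∧ x ≤ β

variable {w : ℝ → ℝ} {α β : ℝ}

/-- the cut-off as a function on `ℂ`. -/
def wC' (w : ℝ → ℝ) (z : ℂ) : ℂ := ((w ‖z‖ : ℝ) : ℂ)

lemma RCut.bdd (hw : RCut w α β) : ∃ C : ℝ, ∀ x, |w x| ≤ C := by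
  have hc : HasCompactSupport w := by
    apply HasCompactSupport.of_support_subset_isCompact (isCompact_Icc (a := α) (b := β))
    intro x hx
    exact hw.supp x hx
  obtain ⟨C, hC⟩ := hc.exists_bound_of_continuous hw.smooth.continuous
  exact ⟨C, hC⟩

lemma RCut.continuous_wC (hw : RCut w α β) : Continuous (wC' w) := by
  unfold wC'
  exact Complex.continuous_ofReal.comp (hw.smooth.continuous.comp continuous_norm)

lemma RCut.compact_wC (hw : RCut w α β) : HasCompactSupport (wC' w) := by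
  apply HasCompactSupport.of_support_subset_isCompact (isCompact_closedBall (0 : ℂ) β)
  intro z hz
  rw [Function.mem_support] at hz
  rw [mem_closedBall_zero_iff]
  refine (hw.supp ‖z‖ ?_).2
  intro h
  exact hz (by unfold wC'; rw [h]; simp)

lemma RCut.integrable_wC (hw : RCut w α β) : Integrable (wC' w) :=
  hw.continuous_wC.integrable_of_hasCompactSupport hw.compact_wC

lemma RCut.cut (hw : RCut w α β) : Cut (wC' w) where
  meas := hw.continuous_wC.measurable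
  bdd := by
    obtain ⟨C, hC⟩ := hw.bdd
    refine ⟨C, fun z => ?_⟩
    unfold wC'
    rw [Complex.norm_real]
    exact hC _
  supp := by
    refine ⟨α, hw.apos, fun z hz => ?_⟩
    unfold wC'
    have : w ‖z‖ = 0 := by
      by_contra h
      exact absurd (hw.supp _ h).1 (not_le.mpr hz)
    rw [this]; simp

lemma RCut.small (hw : RCut w α β) : ∀ x < α, w x = 0 := by
  intro x hx
  by_contra h
  exact absurd (hw.supp _ h).1 (not_le.mpr hx)

lemma RCut.integrableOn (hw : RCut w α β) {F : Vec → ℂ} (hF : BS F) {q : Eis} (hq : q ≠ 0) :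
    IntegrableOn (fun M => wC' w (det2 M) * F M.2 * conj (F M.2)) (Slab q) := by
  have hK : Integrable (fun u : Vec => F u * conj (F u)) := by
    obtain ⟨C, hC⟩ := hF.bdd
    exact (Complex.conjCLE.toContinuousLinearMap.integrable_comp (BS.integrable hF)).bdd_mul
      hF.meas.aestronglyMeasurable (Filter.Eventually.of_forall hC)
  have hKm : Measurable (fun u : Vec => F u * conj (F u)) :=
    hF.meas.mul (Complex.continuous_conj.measurable.comp hF.meas)
  have h := integrable_slab_zero hq hw.continuous_wC.measurable hw.integrable_wC hKm hK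
  refine h.congr (Filter.Eventually.of_forall fun M => ?_)
  simp only
  ring

lemma RCut.slab_eq (hw : RCut w α β) {F : Vec → ℂ} (hF : BS F) {q : Eis} (hq : q ≠ 0) :
    ∫ M in Slab q, wC' w (det2 M) * F M.2 * conj (F M.2) =
      (slabVol q : ℂ) * (∫ s, wC' w s) * ∫ u, F u * conj (F u) := by
  have hK : Integrable (fun u : Vec => F u * conj (F u)) := by
    obtain ⟨C, hC⟩ := hF.bdd
    exact (Complex.conjCLE.toContinuousLinearMap.integrable_comp (BS.integrable hF)).bdd_mul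
      hF.meas.aestronglyMeasurable (Filter.Eventually.of_forall hC)
  have hKm : Measurable (fun u : Vec => F u * conj (F u)) :=
    hF.meas.mul (Complex.continuous_conj.measurable.comp hF.meas)
  rw [← integral_slab_zero hq hw.continuous_wC.measurable hw.integrable_wC hKm hK]
  congr 1
  funext M
  ring

/-! ### The inner products -/

section Inner

variable {p : Eis} {F : Vec → ℂ}

/-- level one -/
lemma inner_one (H : SyAPI) (hw : RCut w α β) (hF : BS F) : Integrable (fun M => wC' w (det2 M) * EC (bco ⊤) F M * conj (EC (bco ⊤) F M))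
      (nu ⊤ 1) ∧
    ∫ M, wC' w (det2 M) * EC (bco ⊤) F M * conj (EC (bco ⊤) F M) ∂(nu ⊤ 1) =
      bco ⊤ (0, 1) * (∫ M in Slab 1, wC' w (det2 M) * F M.2 * conj (F M.2)) +
        ∑' c : Eis, gterm 1 (bco ⊤) (wC' w) F F c :=
  gram H isLev_top (isCoef_bco H ⊤) hw.cut hF hF (hw.integrableOn hF one_ne_zero)

/-- level `p`: `⟨E, E_p⟩` -/
lemma inner_mixed (H : SyAPI) (hp : Prime p) (hw : RCut w α β) (hF : BS F) : Integrable (fun M => wC' w (det2 M) * EC (bco ⊤) F M *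
      conj (EC (bco (DelP p)) F M)) (nu (DelP p) p) ∧
    ∫ M, wC' w (det2 M) * EC (bco ⊤) F M * conj (EC (bco (DelP p)) F M) ∂(nu (DelP p) p) =
      bco ⊤ (0, 1) * (∫ M in Slab p, wC' w (det2 M) * F M.2 * conj (F M.2)) +
        ∑' c : Eis, gterm p (bco ⊤) (wC' w) F F c :=
  gram H (isLev_DelP hp.ne_zero) (isCoef_top H _) hw.cut hF hF (hw.integrableOn hF hp.ne_zero)

/-- level `p`: `⟨E_p, E_p⟩` -/
lemma inner_pp (H : SyAPI) (hp : Prime p) (hw : RCut w α β) (hF : BS F) : Integrable (fun M => wC' w (det2 M) * EC (bco (DelP p)) F M *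
      conj (EC (bco (DelP p)) F M)) (nu (DelP p) p) ∧
    ∫ M, wC' w (det2 M) * EC (bco (DelP p)) F M * conj (EC (bco (DelP p)) F M)
      ∂(nu (DelP p) p) =
      bco (DelP p) (0, 1) * (∫ M in Slab p, wC' w (det2 M) * F M.2 * conj (F M.2)) +
        ∑' c : Eis, gterm p (bco (DelP p)) (wC' w) F F c :=
  gram H (isLev_DelP hp.ne_zero) (isCoef_bco H _) hw.cut hF hF (hw.integrableOn hF hp.ne_zero)

lemma gterm_p_eq (Hs : CharSum852.SyFacts) (hp : p ≠ 0) (W : ℂ → ℂ) (F' F : Vec → ℂ) (c : Eis) :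
    gterm p (bco ⊤) W F' F c = (nm p : ℂ) * gterm 1 (bco ⊤) W F' F c := by
  unfold gterm
  by_cases hc0 : c = 0
  · simp [hc0]
  rw [if_neg hc0, if_neg hc0]
  by_cases hc : (3 : Eis) ∣ c
  · rw [sumMod_bco Hs hp hc0 hc, sumMod_bco Hs one_ne_zero hc0 hc, nm_one]
    push_cast
    ring
  · rw [sumMod_zero (fun d => not_row_bco ⊤ hc d), sumMod_zero (fun d => not_row_bco ⊤ hc d)]
    ring

lemma slabVol_p (q : Eis) : slabVol q = nm q * slabVol 1 := by
  unfold slabVol; rw [nm_one]; push_cast; ring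

/-- `⟨E, E_p⟩_p = N ⟨E, E⟩_1`. -/
lemma mixed_eq (H : SyAPI) (Hs : CharSum852.SyFacts) (hp : Prime p) (hw : RCut w α β)
    (hF : BS F) :
    ∫ M, wC' w (det2 M) * EC (bco ⊤) F M * conj (EC (bco (DelP p)) F M) ∂(nu (DelP p) p) =
      (nm p : ℂ) *
        ∫ M, wC' w (det2 M) * EC (bco ⊤) F M * conj (EC (bco ⊤) F M) ∂(nu ⊤ 1) := by
  rw [(inner_mixed H hp hw hF).2, (inner_one H hw hF).2,
    tsum_congr (gterm_p_eq Hs hp.ne_zero (wC' w) F F), tsum_mul_left,
    hw.slab_eq hF hp.ne_zero, hw.slab_eq hF one_ne_zero, slabVol_p p]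
  push_cast
  ring

lemma normsq_inv (H : SyAPI) (g : Gam) (M : Frm) :
    wC' w (det2 (act g M)) * EC (bco ⊤) F (act g M) * conj (EC (bco ⊤) F (act g M)) =
      wC' w (det2 M) * EC (bco ⊤) F M * conj (EC (bco ⊤) F M) := by
  rw [det2_act, EC_act H (isCoef_bco H ⊤) F (Subgroup.mem_top g) M, map_mul]
  have h := kub_mul_conj H g
  linear_combination (wC' w (det2 M) * EC (bco ⊤) F M * conj (EC (bco ⊤) F M)) * h

/-- `⟨E, E⟩_p = [Γ : Γ_p] ⟨E, E⟩_1`. -/
lemma index_eq (H : SyAPI) (hp : Prime p) (hpp : IsPrim p) (hw : RCut w α β)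
    (hF : BS F) :
    Integrable (fun M => wC' w (det2 M) * EC (bco ⊤) F M * conj (EC (bco ⊤) F M))
      (nu (DelP p) p) ∧
    ∫ M, wC' w (det2 M) * EC (bco ⊤) F M * conj (EC (bco ⊤) F M) ∂(nu (DelP p) p) =
      ((DelP p).relIndex ⊤ : ℂ) *
        ∫ M, wC' w (det2 M) * EC (bco ⊤) F M * conj (EC (bco ⊤) F M) ∂(nu ⊤ 1) := by
  have hm : Measurable (fun M => wC' w (det2 M) * EC (bco ⊤) F M * conj (EC (bco ⊤) F M)) :=
    ((hw.continuous_wC.measurable.comp measurable_det2).mul (measurable_EC hF.meas)).mul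
      (Complex.continuous_conj.measurable.comp (measurable_EC hF.meas))
  have hidx := (relIndex_DelP hp hpp).1
  refine ⟨integrable_nu_index le_top (isLev_DelP hp.ne_zero) isLev_top hidx hm
    (fun g _ M => by rw [normsq_inv H g M]) (inner_one H hw hF).1,
    integral_nu_index le_top (isLev_DelP hp.ne_zero) isLev_top hidx hm
    (fun g _ M => normsq_inv H g M) (inner_one H hw hF).1⟩

lemma normsq_real (w : ℝ → ℝ) (z X : ℂ) : wC' w z * X * conj X = ((w ‖z‖ * ‖X‖ ^ 2 : ℝ) : ℂ) := by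
  unfold wC'
  rw [mul_assoc, Complex.mul_conj, Complex.normSq_eq_norm_sq]
  push_cast
  ring

/-- `⟨E, E⟩_1` is real and nonnegative. -/
lemma inner_one_real (w : ℝ → ℝ) (hw0 : ∀ x, 0 ≤ w x) (F : Vec → ℂ) :
    ∃ I : ℝ, 0 ≤ I ∧
      ∫ M, wC' w (det2 M) * EC (bco ⊤) F M * conj (EC (bco ⊤) F M) ∂(nu ⊤ 1) = (I : ℂ) := by
  refine ⟨∫ M, w ‖det2 M‖ * ‖EC (bco ⊤) F M‖ ^ 2 ∂(nu ⊤ 1), ?_, ?_⟩
  · apply integral_nonneg
    intro M
    exact mul_nonneg (hw0 _) (by positivity)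
  · rw [← integral_complex_ofReal]
    refine integral_congr_ae (Filter.Eventually.of_forall fun M => ?_)
    exact normsq_real w _ _

/-- The remaining sum. -/
def DD (w : ℝ → ℝ) (F : Vec → ℂ) (p : Eis) : ℂ :=
  (1 / ((nm p : ℂ) + 1)) * ((slabVol p : ℂ) * (∫ s, wC' w s) * ∫ u, F u * conj (F u)) +
    ∑' c : Eis, (gterm p (bco (DelP p)) (wC' w) F F c - LL p * gterm p (bco ⊤) (wC' w) F F c)

lemma bco_zero_one (H : SyAPI) (Δ : Subgroup Gam) (h : (0, 1) ∈ rowsOf Δ) :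
    bco Δ (0, 1) = 1 := by
  classical
  unfold bco
  rw [if_pos h, H.one_right, map_one]

lemma row01 (Δ : Subgroup Gam) : ((0, 1) : Eis × Eis) ∈ rowsOf Δ :=
  ⟨1, Δ.one_mem, by simp [row]⟩

/-- **Expansion of the level `p` norm.** -/
theorem norm_expand (H : SyAPI) (Hs : CharSum852.SyFacts) (hp : Prime p) (hpp : IsPrim p)
    (hw : RCut w α β) (hF : BS F) :
    Integrable (fun M => w ‖det2 M‖ * ‖EC (coefK (ker (psiP p))) F M‖ ^ 2) (nu (DelP p) p) ∧
    ∫ M, w ‖det2 M‖ * ‖EC (coefK (ker (psiP p))) F M‖ ^ 2 ∂(nu (DelP p) p) ≤ ‖DD w F p‖ := by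
  set ν := nu (DelP p) p with hν
  obtain ⟨hi1, e1⟩ := index_eq H hp hpp hw hF
  obtain ⟨hi2, e2⟩ := inner_mixed H hp hw hF
  obtain ⟨hi3, e3⟩ := inner_pp H hp hw hF
  have e2' := mixed_eq H Hs hp hw hF
  obtain ⟨I, hI0, hI⟩ := inner_one_real w hw.nonneg F
  have hac : ν ≪ (volume : Measure Frm) := withDensity_absolutelyContinuous _ _
  -- pointwise
  have hpt : ∀ᵐ M ∂ν, ((w ‖det2 M‖ * ‖EC (coefK (ker (psiP p))) F M‖ ^ 2 : ℝ) : ℂ) =
      wC' w (det2 M) * EC (bco (DelP p)) F M * conj (EC (bco (DelP p)) F M) -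
      LL p * (wC' w (det2 M) * EC (bco ⊤) F M * conj (EC (bco (DelP p)) F M)) -
      LL p * conj (wC' w (det2 M) * EC (bco ⊤) F M * conj (EC (bco (DelP p)) F M)) +
      LL p ^ 2 * (wC' w (det2 M) * EC (bco ⊤) F M * conj (EC (bco ⊤) F M)) := by
    filter_upwards [hac.ae_le ae_det_ne] with M hM
    have h1 : EC (coefK (ker (psiP p))) F M = EC (bco (DelP p)) F M - LL p * EC (bco ⊤) F M := by
      unfold EC
      rw [← tsum_mul_left, ← (summable_EC hF hM).tsum_sub ((summable_EC hF hM).mul_left _)]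
      refine tsum_congr fun r => ?_
      rw [coef_eq Hs hp]
      ring
    rw [← normsq_real, h1]
    have hL : conj (LL p) = LL p := by rw [LL_real, Complex.conj_ofReal]
    have hwr : conj (wC' w (det2 M)) = wC' w (det2 M) := by
      unfold wC'; rw [Complex.conj_ofReal]
    simp only [map_sub, map_mul, Complex.conj_conj, hL, hwr]
    ring
  have hic : Integrable (fun M => conj (wC' w (det2 M) * EC (bco ⊤) F M *
      conj (EC (bco (DelP p)) F M))) ν :=
    Complex.conjCLE.toContinuousLinearMap.integrable_comp hi2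
  have hitot := ((hi3.sub (hi2.const_mul (LL p))).sub (hic.const_mul (LL p))).add
    (hi1.const_mul (LL p ^ 2))
  have hintC : Integrable (fun M => ((w ‖det2 M‖ *
      ‖EC (coefK (ker (psiP p))) F M‖ ^ 2 : ℝ) : ℂ)) ν := by
    refine hitot.congr ?_
    filter_upwards [hpt] with M hM
    rw [hM]
    rfl
  have hintR : Integrable (fun M => w ‖det2 M‖ * ‖EC (coefK (ker (psiP p))) F M‖ ^ 2) ν := by
    have := hintC.re
    refine this.congr (Filter.Eventually.of_forall fun M => ?_)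
    simp only [RCLike.re_to_complex, Complex.ofReal_re]
  refine ⟨hintR, ?_⟩
  have hval : ((∫ M, w ‖det2 M‖ * ‖EC (coefK (ker (psiP p))) F M‖ ^ 2 ∂ν : ℝ) : ℂ) =
      DD w F p + ((((nm p : ℝ) / ((nm p : ℝ) + 1)) * I *
        (((nm p : ℝ) / ((nm p : ℝ) + 1)) * ((DelP p).relIndex ⊤ : ℝ) - nm p) : ℝ) : ℂ) := by
    have j1 := integral_add ((hi3.sub (hi2.const_mul (LL p))).sub (hic.const_mul (LL p)))
      (hi1.const_mul (LL p ^ 2))
    have j2 := integral_sub (hi3.sub (hi2.const_mul (LL p))) (hic.const_mul (LL p))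
    have j3 := integral_sub hi3 (hi2.const_mul (LL p))
    simp only [Pi.sub_apply] at j1 j2 j3
    rw [← integral_complex_ofReal, integral_congr_ae hpt, j1, j2, j3, integral_const_mul,
      integral_const_mul, integral_const_mul, integral_conj]
    have hDD : (∫ M, wC' w (det2 M) * EC (bco (DelP p)) F M *
          conj (EC (bco (DelP p)) F M) ∂ν) -
        LL p * ∫ M, wC' w (det2 M) * EC (bco ⊤) F M * conj (EC (bco (DelP p)) F M) ∂ν =
        DD w F p := by
      rw [hν, e3, e2, bco_zero_one H _ (row01 _), bco_zero_one H _ (row01 _),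
        hw.slab_eq hF hp.ne_zero]
      unfold DD
      rw [(summable_gterm hw.cut hF hF p (bco (DelP p))).tsum_sub
        ((summable_gterm hw.cut hF hF p (bco ⊤)).mul_left (LL p)), tsum_mul_left]
      unfold LL
      have hN := nmC_add_ne p
      field_simp
      ring
    rw [← hν] at e1 e2'
    rw [e1, e2', hI, map_mul, Complex.conj_natCast, Complex.conj_ofReal]
    rw [e2', hI] at hDD
    have hL := LL_real p
    push_cast at hL ⊢
    rw [← hL]
    linear_combination hDD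
  have hre := congrArg Complex.re hval
  rw [Complex.ofReal_re, Complex.add_re, Complex.ofReal_re] at hre
  rw [hre]
  have hidx : ((DelP p).relIndex ⊤ : ℝ) ≤ (nm p : ℝ) + 1 := by
    exact_mod_cast (relIndex_DelP hp hpp).2
  have hneg : ((nm p : ℝ) / ((nm p : ℝ) + 1)) * ((DelP p).relIndex ⊤ : ℝ) - nm p ≤ 0 := by
    have h0 : (0 : ℝ) < (nm p : ℝ) + 1 := by positivity
    have : ((nm p : ℝ) / ((nm p : ℝ) + 1)) * ((DelP p).relIndex ⊤ : ℝ) ≤
        ((nm p : ℝ) / ((nm p : ℝ) + 1)) * ((nm p : ℝ) + 1) := by gcongr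
    rw [div_mul_cancel₀ _ h0.ne'] at this
    linarith
  have h2 : ((nm p : ℝ) / ((nm p : ℝ) + 1)) * I *
      (((nm p : ℝ) / ((nm p : ℝ) + 1)) * ((DelP p).relIndex ⊤ : ℝ) - nm p) ≤ 0 :=
    mul_nonpos_of_nonneg_of_nonpos (by positivity) hneg
  have h3 := Complex.re_le_norm (DD w F p)
  linarith

end Inner

end Crest.Agent.R012.K695.GramP988
end
end

-- ▼ part R012/ResLim_61
section

/-!
# Row 12 (M-R, H3): the dilation trace and the level-`p` limit
-/

set_option autoImplicit false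

noncomputable section

open MeasureTheory Set Filter
open scoped ENNReal Topology

namespace Crest.Agent.R012.ResLim61

open Crest.Agent.R012 Eis StripCo813 Four813

/-! ### Radial integrals over an annulus -/

lemma lint_ann (g : ℝ → ℝ≥0∞) (hg : Measurable g) :
    ∫⁻ κ in Icc (1:ℝ) 2, g κ ≤ ∫⁻ e in ann 1 2, g (‖e‖ ^ 2) := by
  have h1 : (fun r : ℝ => r ^ 2) '' Icc 1 (Real.sqrt 2) = Icc (1:ℝ) 2 := by
    ext y
    constructor
    · rintro ⟨r, ⟨h1, h2⟩, rfl⟩
      refine ⟨by nlinarith, ?_⟩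
      have h0 : 0 ≤ r := by linarith
      calc r ^ 2 ≤ (Real.sqrt 2) ^ 2 := pow_le_pow_left₀ h0 h2 2
        _ = 2 := Real.sq_sqrt (by norm_num)
    · rintro ⟨h1, h2⟩
      refine ⟨Real.sqrt y, ⟨?_, Real.sqrt_le_sqrt h2⟩, Real.sq_sqrt (by linarith)⟩
      rw [← Real.sqrt_one]; exact Real.sqrt_le_sqrt h1
  have hinj : InjOn (fun r : ℝ => r ^ 2) (Icc 1 (Real.sqrt 2)) := by
    intro x hx y hy hxy
    have hx0 : 0 ≤ x := by linarith [hx.1]
    have hy0 : 0 ≤ y := by linarith [hy.1]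
    exact (pow_left_inj₀ hx0 hy0 (by norm_num)).mp hxy
  have h2 := lintegral_image_eq_lintegral_abs_deriv_mul (s := Icc 1 (Real.sqrt 2))
    (f := fun r : ℝ => r ^ 2) (f' := fun r => 2 * r) measurableSet_Icc
    (fun x _ => by simpa using (hasDerivAt_pow 2 x).hasDerivWithinAt) hinj g
  rw [h1] at h2
  rw [h2]
  rw [← lintegral_indicator (measurableSet_ann 1 2), ← Complex.lintegral_comp_polarCoord_symm,
    polarCoord_target, ← lintegral_indicator (measurableSet_Ioi.prod measurableSet_Ioo)]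
  have hm : Measurable (fun p : ℝ × ℝ => (Ioi (0:ℝ) ×ˢ Ioo (-Real.pi) Real.pi).indicator
      (fun p : ℝ × ℝ => ENNReal.ofReal p.1 • (ann 1 2).indicator (fun e : ℂ => g (‖e‖ ^ 2))
        (Complex.polarCoord.symm p)) p) := by
    refine Measurable.indicator ?_ (measurableSet_Ioi.prod measurableSet_Ioo)
    have hc : Measurable (fun p : ℝ × ℝ => Complex.polarCoord.symm p) := by
      have : (fun p : ℝ × ℝ => Complex.polarCoord.symm p)
          = fun p : ℝ × ℝ => (p.1 : ℂ) * (Real.cos p.2 + Real.sin p.2 * Complex.I) := by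
        funext p; exact Complex.polarCoord_symm_apply p
      rw [this]
      fun_prop
    have h4 : Measurable ((ann 1 2).indicator (fun e : ℂ => g (‖e‖ ^ 2))) :=
      (hg.comp (by fun_prop)).indicator (measurableSet_ann 1 2)
    exact (ENNReal.measurable_ofReal.comp measurable_fst).mul (h4.comp hc)
  rw [show (volume : Measure (ℝ × ℝ)) = volume.prod volume from rfl, lintegral_prod _ hm.aemeasurable]
  rw [← lintegral_indicator measurableSet_Icc]
  refine lintegral_mono fun r => ?_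
  by_cases hr : r ∈ Icc 1 (Real.sqrt 2)
  · rw [indicator_of_mem hr]
    have hr0 : 0 < r := by linarith [hr.1]
    have hs2 : Real.sqrt 2 ≤ 2 := by
      rw [Real.sqrt_le_left (by norm_num)]; norm_num
    have h3 : ∀ θ ∈ Ioo (-Real.pi) Real.pi, (Ioi (0:ℝ) ×ˢ Ioo (-Real.pi) Real.pi).indicator
        (fun p : ℝ × ℝ => ENNReal.ofReal p.1 • (ann 1 2).indicator (fun e : ℂ => g (‖e‖ ^ 2))
        (Complex.polarCoord.symm p)) (r, θ) = ENNReal.ofReal r * g (r ^ 2) := by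
      intro θ hθ
      have hmem : (r, θ) ∈ (Ioi (0:ℝ) ×ˢ Ioo (-Real.pi) Real.pi) := ⟨hr0, hθ⟩
      have hn : ‖Complex.polarCoord.symm (r, θ)‖ = r := by
        rw [Complex.norm_polarCoord_symm, abs_of_pos hr0]
      have hann : Complex.polarCoord.symm (r, θ) ∈ ann 1 2 := by
        constructor
        · rw [hn]; exact hr.1
        · rw [hn]; exact hr.2.trans hs2
      rw [indicator_of_mem hmem, indicator_of_mem hann, hn, smul_eq_mul]
    calc ENNReal.ofReal |2 * r| * g (r ^ 2)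
        = ENNReal.ofReal r * g (r ^ 2) * ENNReal.ofReal 2 := by
          rw [abs_of_pos (by positivity), ENNReal.ofReal_mul (by norm_num)]; ring
      _ ≤ ENNReal.ofReal r * g (r ^ 2) * volume (Ioo (-Real.pi) Real.pi) := by
          gcongr
          rw [Real.volume_Ioo]
          exact ENNReal.ofReal_le_ofReal (by linarith [Real.pi_gt_three])
      _ = ∫⁻ θ in Ioo (-Real.pi) Real.pi, ENNReal.ofReal r * g (r ^ 2) := by
          rw [setLIntegral_const]
      _ = ∫⁻ θ in Ioo (-Real.pi) Real.pi, (Ioi (0:ℝ) ×ˢ Ioo (-Real.pi) Real.pi).indicator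
        (fun p : ℝ × ℝ => ENNReal.ofReal p.1 • (ann 1 2).indicator (fun e : ℂ => g (‖e‖ ^ 2))
        (Complex.polarCoord.symm p)) (r, θ) := by
          refine (setLIntegral_congr_fun measurableSet_Ioo fun θ hθ => ?_).symm
          exact h3 θ hθ
      _ ≤ _ := setLIntegral_le_lintegral _ _
  · rw [indicator_of_notMem hr]; exact bot_le

/-! ### The dilation trace -/

/-- `w` is `C¹` with derivative `w'`, and vanishes outside `[a, b]`, `a > 0`. -/
structure WC (w w' : ℝ → ℂ) (a b : ℝ) : Prop where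
  apos : 0 < a
  ab : a ≤ b
  der : ∀ x, HasDerivAt w (w' x) x
  cont : Continuous w'
  lo : ∀ x, x < a → w x = 0
  hi : ∀ x, b < x → w x = 0

lemma WC.continuous {w w' : ℝ → ℂ} {a b : ℝ} (h : WC w w' a b) : Continuous w :=
  continuous_iff_continuousAt.mpr fun x => (h.der x).continuousAt

lemma WC.hi' {w w' : ℝ → ℂ} {a b : ℝ} (h : WC w w' a b) {x : ℝ} (hx : b < x) : w' x = 0 := by
  have h1 : HasDerivAt (fun _ : ℝ => (0 : ℂ)) (w' x) x := by
    refine (h.der x).congr_of_eventuallyEq ?_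
    filter_upwards [lt_mem_nhds hx] with y hy
    exact (h.hi y hy).symm
  exact h1.unique (hasDerivAt_const x 0)

/-- the function `x w'(x)`. -/
def xd (w' : ℝ → ℂ) : ℝ → ℂ := fun x => (x : ℂ) * w' x

open Classical in
/-- `Σ ψ(d) conj g(u,d) w(κ N(d)/X)`. -/
def SgR (ψ : Eis → ℂ) (w : ℝ → ℂ) (u : Eis) (X κ : ℝ) : ℂ :=
  ∑' d : Eis, if IsPrim d then ψ d * (starRingEnd ℂ) (gs u d) * w (κ * nm d / X) else 0

/-- radial weight. -/
def rad (w : ℝ → ℂ) (X : ℝ) : ℂ → ℂ := fun z => w (‖z‖ ^ 2 / X)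

lemma Sg_rad (ψ : Eis → ℂ) (w : ℝ → ℂ) (u : Eis) (X : ℝ) (e : ℂ) :
    Sg ψ (rad w X) u e = SgR ψ w u X (‖e‖ ^ 2) := by
  unfold Sg SgR rad
  refine tsum_congr fun d => ?_
  have : ‖toC d * e‖ ^ 2 / X = ‖e‖ ^ 2 * nm d / X := by
    rw [norm_mul, mul_pow, norm_toC_sq]; ring
  rw [this]

/-- the finite version. -/
def Fs (ψ : Eis → ℂ) (w : ℝ → ℂ) (u : Eis) (X : ℝ) (N : ℕ) (κ : ℝ) : ℂ :=
  ∑ d ∈ primBall N, ψ d * (starRingEnd ℂ) (gs u d) * w (κ * nm d / X)

lemma SgR_eq (ψ : Eis → ℂ) {w : ℝ → ℂ} {b : ℝ} (hw : ∀ x, b < x → w x = 0) (u : Eis) {X : ℝ}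
    (hX : 0 < X) {κ : ℝ} (hκ : 1 ≤ κ) : SgR ψ w u X κ = Fs ψ w u X ⌊b * X⌋₊ κ := by
  classical
  unfold SgR Fs
  rw [tsum_eq_sum (s := primBall ⌊b * X⌋₊)]
  · refine Finset.sum_congr rfl fun d hd => ?_
    rw [if_pos (mem_primBall.mp hd).2]
  · intro d hd
    by_cases hp : IsPrim d
    · rw [if_pos hp]
      have h1 : ⌊b * X⌋₊ < nm d := by
        by_contra h
        exact hd (mem_primBall.mpr ⟨not_lt.mp h, hp⟩)
      have h2 : b * X < nm d := Nat.lt_of_floor_lt h1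
      rw [hw, mul_zero]
      rw [lt_div_iff₀ hX]
      have h3 : (0 : ℝ) ≤ nm d := Nat.cast_nonneg _
      nlinarith
    · rw [if_neg hp]

lemma dil_trace {w w' : ℝ → ℂ} {a b : ℝ} (h : WC w w' a b) (ψ : Eis → ℂ) (u : Eis) {X : ℝ}
    (hX : 0 < X) :
    ‖SgR ψ w u X 1‖ₑ ^ 2 ≤ 2 * ∫⁻ e in ann 1 2,
      (‖Sg ψ (rad w X) u e‖ₑ ^ 2 + ‖Sg ψ (rad (xd w') X) u e‖ₑ ^ 2) := by
  set N := ⌊b * X⌋₊ with hN
  have hb' : ∀ x, b < x → xd w' x = 0 := fun x hx => by simp [xd, h.hi' hx]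
  set f : ℝ → ℂ := fun s => Fs ψ w u X N (1 + s) with hf
  set f' : ℝ → ℂ := fun s => ∑ d ∈ primBall N, ψ d * (starRingEnd ℂ) (gs u d) *
    (w' ((1 + s) * nm d / X) * ((nm d / X : ℝ) : ℂ)) with hf'
  have hder : ∀ s, HasDerivAt f (f' s) s := by
    intro s
    simp only [hf, hf', Fs]
    refine HasDerivAt.fun_sum fun d _ => ?_
    refine HasDerivAt.const_mul _ ?_
    have h1 : HasDerivAt (fun s : ℝ => (1 + s) * nm d / X) (nm d / X) s := by
      have := (((hasDerivAt_id s).const_add 1).mul_const (nm d : ℝ)).div_const X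
      simpa using this
    have h2 := (h.der ((1 + s) * nm d / X)).scomp s h1
    refine h2.congr_deriv ?_
    rw [Complex.real_smul]; ring
  have hc' : Continuous f' := by
    simp only [hf']
    have := h.cont
    fun_prop
  have h0 := Trace384.sob1 hder hc'
  have e0 : f 0 = SgR ψ w u X 1 := by
    rw [SgR_eq ψ h.hi u hX le_rfl, ← hN]; simp [hf]
  rw [e0] at h0
  refine h0.trans ?_
  gcongr 2 * ?_
  set g : ℝ → ℝ≥0∞ := fun κ => ‖Fs ψ w u X N κ‖ₑ ^ 2 + ‖Fs ψ (xd w') u X N κ‖ₑ ^ 2 with hg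
  have hgm : Measurable g := by
    have c1 : Continuous fun κ => Fs ψ w u X N κ := by
      unfold Fs
      have := h.continuous
      fun_prop
    have c2 : Continuous fun κ => Fs ψ (xd w') u X N κ := by
      unfold Fs xd
      have := h.cont
      fun_prop
    exact ((c1.measurable.enorm).pow_const 2).add ((c2.measurable.enorm).pow_const 2)
  have step1 : ∫⁻ s in Icc (0:ℝ) 1, (‖f s‖ₑ ^ 2 + ‖f' s‖ₑ ^ 2) ≤ ∫⁻ s in Icc (0:ℝ) 1, g (1 + s) := by
    refine setLIntegral_mono (hgm.comp (by fun_prop)) fun s hs => ?_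
    simp only [hg]
    gcongr ?_ + ?_ ^ 2
    · exact le_rfl
    · have e1 : Fs ψ (xd w') u X N (1 + s) = ((1 + s : ℝ) : ℂ) * f' s := by
        simp only [Fs, hf', xd]
        rw [Finset.mul_sum]
        refine Finset.sum_congr rfl fun d _ => ?_
        push_cast; ring
      rw [e1, enorm_mul]
      have h1 : (1 : ℝ≥0∞) ≤ ‖((1 + s : ℝ) : ℂ)‖ₑ := by
        rw [← ofReal_norm, Complex.norm_real, Real.norm_of_nonneg (by linarith [hs.1])]
        exact ENNReal.one_le_ofReal.mpr (by linarith [hs.1])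
      exact le_mul_of_one_le_left bot_le h1
  refine step1.trans ?_
  have step2 : ∫⁻ s in Icc (0:ℝ) 1, g (1 + s) = ∫⁻ κ in Icc (1:ℝ) 2, g κ := by
    have := (measurePreserving_add_left (volume : Measure ℝ) 1).setLIntegral_comp_preimage
      (measurableSet_Icc (a := (1:ℝ)) (b := 2)) hgm
    rw [← this]
    congr 2
    ext x
    simp only [mem_preimage, mem_Icc]
    constructor
    · rintro ⟨h1, h2⟩; exact ⟨by linarith, by linarith⟩
    · rintro ⟨h1, h2⟩; exact ⟨by linarith, by linarith⟩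
  rw [step2]
  refine (lint_ann g hgm).trans (le_of_eq ?_)
  refine setLIntegral_congr_fun (measurableSet_ann 1 2) fun e he => ?_
  have h1 : (1 : ℝ) ≤ ‖e‖ ^ 2 := one_le_pow₀ he.1
  simp only [hg, Sg_rad]
  rw [SgR_eq ψ h.hi u hX h1, SgR_eq ψ hb' u hX h1]

end Crest.Agent.R012.ResLim61
end
end

-- ▼ part R012/ResPhi_61
section

/-!
# Row 12 (M-R, H3): a smooth bump `φ` on `ℂ` with `|φ^(ξ)| ≥ c` for `|ξ| ≤ X₀`
-/

set_option autoImplicit false

noncomputable section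

open MeasureTheory Set Filter
open scoped ENNReal Topology ContDiff

namespace Crest.Agent.R012.ResPhi61

open Crest.Agent.R012 Four813 TestFn286

lemma eC_re (z : ℂ) : (eC z).re = Real.cos (4 * Real.pi * z.re) := by
  unfold eC
  have : 2 * (Real.pi : ℂ) * Complex.I * (z + (starRingEnd ℂ) z)
      = ((4 * Real.pi * z.re : ℝ) : ℂ) * Complex.I := by
    rw [Complex.add_conj]; push_cast; ring
  rw [this, Complex.exp_ofReal_mul_I_re]

lemma norm_eC (z : ℂ) : ‖eC z‖ = 1 := by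
  unfold eC
  have : 2 * (Real.pi : ℂ) * Complex.I * (z + (starRingEnd ℂ) z)
      = ((4 * Real.pi * z.re : ℝ) : ℂ) * Complex.I := by
    rw [Complex.add_conj]; push_cast; ring
  rw [this, Complex.norm_exp_ofReal_mul_I]

theorem exists_phi (X0 : ℝ) (hX : 1 ≤ X0) : ∃ (φ : ℂ → ℂ) (c : ℝ), 0 < c ∧ SP 1 φ ∧
    (∀ z, ‖φ z‖ ≤ 1) ∧ ∀ ξ : ℂ, ‖ξ‖ ≤ X0 → c ≤ ‖phat φ ξ‖ := by
  have hX0 : 0 < X0 := by linarith
  set R : ℝ := 1 / (12 * X0) with hR
  have hR0 : 0 < R := by positivity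
  have hR1 : R ≤ 1 := by
    rw [hR, div_le_one (by positivity)]; linarith
  let f : ContDiffBump (0 : ℂ) := ⟨R / 2, R, by positivity, by linarith⟩
  set φ : ℂ → ℂ := fun z => ((f z : ℝ) : ℂ) with hφ
  have hfint : Integrable (fun z => f z) (volume : Measure ℂ) := f.integrable
  have hfpos : 0 < ∫ z, f z := f.integral_pos
  refine ⟨φ, (1 / 2) * ∫ z, f z, by positivity, ⟨?_, ?_⟩, ?_, ?_⟩
  · exact Complex.ofRealCLM.contDiff.comp f.contDiff
  · intro z hz
    have : z ∉ Metric.ball (0 : ℂ) f.rOut := by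
      rw [mem_ball_zero_iff, not_lt]
      exact (hR1.trans hz.le)
    have h2 : f z = 0 := by
      rw [← Function.notMem_support, f.support_eq]; exact this
    simp [hφ, h2]
  · intro z
    simp only [hφ, Complex.norm_real, Real.norm_eq_abs]
    rw [abs_of_nonneg f.nonneg]
    exact f.le_one
  · intro ξ hξ
    have hi : Integrable (fun s => φ s * eC (-(ξ * s))) := by
      have hc : Continuous fun s : ℂ => eC (-(ξ * s)) := by
        unfold eC
        fun_prop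
      refine (hfint.ofReal (𝕜 := ℂ)).mul_bdd (c := 1) hc.aestronglyMeasurable ?_
      exact Filter.Eventually.of_forall fun s => by rw [norm_eC]
    have h1 : (phat φ ξ).re = ∫ s, f s * Real.cos (4 * Real.pi * (-(ξ * s)).re) := by
      unfold phat
      have := (integral_re (f := fun s => φ s * eC (-(ξ * s))) hi).symm
      simp only [RCLike.re_eq_complex_re] at this
      rw [this]
      refine integral_congr_ae (Filter.Eventually.of_forall fun s => ?_)
      simp only [hφ, Complex.re_ofReal_mul, eC_re]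
    have h2 : (1 / 2) * ∫ z, f z ≤ (phat φ ξ).re := by
      rw [h1, ← integral_const_mul]
      have hre := hi.re
      refine integral_mono (hfint.const_mul _) ?_ fun s => ?_
      · refine hre.congr (Filter.Eventually.of_forall fun s => ?_)
        simp only [hφ, RCLike.re_eq_complex_re, Complex.re_ofReal_mul, eC_re]
      · by_cases hs : s ∈ Metric.ball (0 : ℂ) f.rOut
        · have hs' : ‖s‖ < R := by simpa using hs
          have h3 : |4 * Real.pi * (-(ξ * s)).re| ≤ Real.pi / 3 := by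
            rw [abs_mul, abs_of_pos (by positivity : 0 < 4 * Real.pi)]
            have h4 : |(-(ξ * s)).re| ≤ X0 * R := by
              refine (Complex.abs_re_le_norm _).trans ?_
              rw [norm_neg, norm_mul]
              exact mul_le_mul hξ hs'.le (norm_nonneg _) hX0.le
            have h5 : X0 * R = 1 / 12 := by rw [hR]; field_simp
            rw [h5] at h4
            nlinarith [Real.pi_pos]
          have h6 : (1 : ℝ) / 2 ≤ Real.cos (4 * Real.pi * (-(ξ * s)).re) := by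
            rw [← Real.cos_abs, ← Real.cos_pi_div_three]
            refine Real.cos_le_cos_of_nonneg_of_le_pi (abs_nonneg _) ?_ h3
            linarith [Real.pi_pos]
          have h7 : 0 ≤ f s := f.nonneg
          simp only
          nlinarith
        · have h2 : f s = 0 := by
            rw [← Function.notMem_support, f.support_eq]; exact hs
          simp [h2]
    exact h2.trans (Complex.re_le_norm _)

end Crest.Agent.R012.ResPhi61
end
end

-- ▼ part R012/ResLev_61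
section

/-!
# Row 12 (M-R, H3): from the vanishing of the Gram main term to `o(B^(4/3))`
-/

set_option autoImplicit false

noncomputable section

open MeasureTheory Set Filter
open scoped ENNReal Topology ContDiff

namespace Crest.Agent.R012.ResLev61

open Crest.Agent.R012 Eis StripCo813 Four813 TestFn286 Trace384 Slice384 StripIneq813
open Crest.Agent.R012.ResLim61 Crest.Agent.R012.ResPhi61 Crest.Agent.R012.Parseval499

/-- dilation by `√B`. -/
def dilB (B : ℝ) (F : ℂ × ℂ → ℂ) : ℂ × ℂ → ℂ := fun u => F (((Real.sqrt B)⁻¹ : ℝ) • u)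

/-- `F` is continuous and supported in `a ≤ |u₁| ≤ b`, `|u₂| ≤ b`. -/
structure CF (a b : ℝ) (F : ℂ × ℂ → ℂ) : Prop where
  cont : Continuous F
  supp : ∀ u, F u ≠ 0 → a ≤ ‖u.1‖ ∧ ‖u.1‖ ≤ b ∧ ‖u.2‖ ≤ b

lemma nq_smul (c : ℝ) (q : ℂ) (u : ℂ × ℂ) : nq q (c • u) = c • nq q u := by
  simp only [nq, Prod.smul_mk, Prod.smul_fst, Prod.smul_snd]
  ext
  · simp only [Complex.real_smul]; ring
  · rfl

lemma OrbDeriv.dil {F F1 F2 F12 : ℂ × ℂ → ℂ} (h : OrbDeriv F F1 F2 F12) (B : ℝ) :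
    OrbDeriv (dilB B F) (dilB B F1) (dilB B F2) (dilB B F12) where
  c0 := h.c0.comp (continuous_const_smul _)
  c1 := h.c1.comp (continuous_const_smul _)
  c2 := h.c2.comp (continuous_const_smul _)
  c12 := h.c12.comp (continuous_const_smul _)
  d1 u := by
    have := h.d1 (((Real.sqrt B)⁻¹ : ℝ) • u)
    simpa only [dilB, nq_smul] using this
  d2 u := by
    have := h.d2 (((Real.sqrt B)⁻¹ : ℝ) • u)
    simpa only [dilB, nq_smul] using this
  d12 u := by
    have := h.d12 (((Real.sqrt B)⁻¹ : ℝ) • u)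
    simpa only [dilB, nq_smul] using this

lemma CF.mono {a b b' : ℝ} {F : ℂ × ℂ → ℂ} (h : CF a b F) (hb : b ≤ b') : CF a b' F :=
  ⟨h.cont, fun u hu => ⟨(h.supp u hu).1, (h.supp u hu).2.1.trans hb, (h.supp u hu).2.2.trans hb⟩⟩

lemma CF.add {a b : ℝ} {F G : ℂ × ℂ → ℂ} (hF : CF a b F) (hG : CF a b G) :
    CF a b (fun u => F u + G u) := by
  refine ⟨hF.cont.add hG.cont, fun u hu => ?_⟩
  by_cases h : F u = 0
  · have : G u ≠ 0 := fun h' => hu (by rw [h, h', add_zero])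
    exact hG.supp u this
  · exact hF.supp u h

lemma CF_prodF {a b : ℝ} (ha : 0 < a) {U φ : ℂ → ℂ} (hU : SU a b U) (hφ : SP 1 φ) :
    CF a b (prodF U φ) := by
  refine ⟨continuous_prodF ha hU.cd.continuous hU.supp hφ.cd.continuous, fun u hu => ?_⟩
  unfold prodF at hu
  have h1 : U u.1 ≠ 0 := left_ne_zero_of_mul hu
  have h2 : φ (u.2 / u.1) ≠ 0 := right_ne_zero_of_mul hu
  have h3 : a ≤ ‖u.1‖ := by
    by_contra hc; exact h1 (hU.supp _ (Or.inl (not_le.mp hc)))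
  have h4 : ‖u.1‖ ≤ b := by
    by_contra hc; exact h1 (hU.supp _ (Or.inr (not_le.mp hc)))
  have h5 : ‖u.2 / u.1‖ ≤ 1 := by
    by_contra hc; exact h2 (hφ.supp _ (not_le.mp hc))
  have h6 : 0 < ‖u.1‖ := ha.trans_le h3
  rw [norm_div, div_le_one h6] at h5
  exact ⟨h3, h4, h5.trans h4⟩

lemma CF_D1 {a b : ℝ} (ha : 0 < a) {U φ : ℂ → ℂ} (hU : SU a b U) (hφ : SP 1 φ) (c : ℂ) :
    CF a b (D1 c U φ) := by
  unfold D1
  exact ((CF_prodF ha hU.DrU (hφ.Rm c)).add (CF_prodF ha hU.DtU (hφ.Im' c))).add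
    (CF_prodF ha hU (hφ.Dm c))

lemma CF_D12 {a b : ℝ} (ha : 0 < a) {U φ : ℂ → ℂ} (hU : SU a b U) (hφ : SP 1 φ) (c c' : ℂ) :
    CF a b (D12 c c' U φ) := by
  unfold D12
  exact ((CF_D1 ha hU.DrU (hφ.Rm c) c').add (CF_D1 ha hU.DtU (hφ.Im' c) c')).add
    (CF_D1 ha hU (hφ.Dm c) c')

lemma EE_eq_EC (a : Eis × Eis → ℂ) (F : ℂ × ℂ → ℂ) (M : K695.Frm) : EE a F M = K695.EC a F M := by
  unfold EE rsum K695.EC
  refine tsum_congr fun r => ?_
  rw [← LocFin499.rowc_eq_rowv]; rfl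

lemma suppIn_dil {a b B : ℝ} (hB : 0 < B) {F : ℂ × ℂ → ℂ} (hF : CF a b F) :
    SuppIn (Real.sqrt B * b) (dilB B F) := by
  intro u hu
  by_contra h
  obtain ⟨_, h2, h3⟩ := hF.supp _ h
  have hs : 0 < Real.sqrt B := Real.sqrt_pos.mpr hB
  have e1 : ‖(((Real.sqrt B)⁻¹ : ℝ) • u).1‖ = (Real.sqrt B)⁻¹ * ‖u.1‖ := by
    rw [Prod.smul_fst, norm_smul, Real.norm_of_nonneg (by positivity)]
  have e2 : ‖(((Real.sqrt B)⁻¹ : ℝ) • u).2‖ = (Real.sqrt B)⁻¹ * ‖u.2‖ := by
    rw [Prod.smul_snd, norm_smul, Real.norm_of_nonneg (by positivity)]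
  rw [e1, inv_mul_le_iff₀ hs] at h2
  rw [e2, inv_mul_le_iff₀ hs] at h3
  have : ‖u‖ ≤ Real.sqrt B * b := by rw [Prod.norm_def]; exact max_le h2 h3
  linarith

/-- smooth weights supported in `[a, b]`. -/
structure SW (a b : ℝ) (w : ℝ → ℂ) : Prop where
  apos : 0 < a
  ab : a ≤ b
  cd : ContDiff ℝ ∞ w
  supp : ∀ x, x < a ∨ b < x → w x = 0

lemma SW.wc {a b : ℝ} {w : ℝ → ℂ} (h : SW a b w) : WC w (deriv w) a b where
  apos := h.apos
  ab := h.ab
  der x := (h.cd.differentiable (by simp) x).hasDerivAt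
  cont := h.cd.continuous_deriv (by simp)
  lo x hx := h.supp x (Or.inl hx)
  hi x hx := h.supp x (Or.inr hx)

lemma SW.xd {a b : ℝ} {w : ℝ → ℂ} (h : SW a b w) : SW a b (xd (deriv w)) where
  apos := h.apos
  ab := h.ab
  cd := by
    unfold ResLim61.xd
    refine ContDiff.mul Complex.ofRealCLM.contDiff ?_
    exact (contDiff_infty_iff_deriv.mp h.cd).2
  supp x hx := by
    have hev : w =ᶠ[𝓝 x] fun _ => 0 := by
      rcases hx with hx | hx
      · filter_upwards [gt_mem_nhds hx] with y hy using h.supp y (Or.inl hy)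
      · filter_upwards [lt_mem_nhds hx] with y hy using h.supp y (Or.inr hy)
    have : deriv w x = 0 := by rw [hev.deriv_eq]; simp
    simp [ResLim61.xd, this]

lemma SU_rad {a b B : ℝ} (hB : 0 < B) {w : ℝ → ℂ} (h : SW a b w) :
    SU (Real.sqrt (a * B)) (Real.sqrt (b * B)) (rad w B) where
  cd := by
    unfold rad
    refine h.cd.comp ?_
    exact (contDiff_norm_sq ℝ).div_const B
  supp z hz := by
    unfold rad
    have hb : 0 ≤ b := h.apos.le.trans h.ab
    have ha := h.apos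
    apply h.supp
    rcases hz with hz | hz
    · left
      rw [div_lt_iff₀ hB]
      calc ‖z‖ ^ 2 < (Real.sqrt (a * B)) ^ 2 := by
            exact pow_lt_pow_left₀ hz (norm_nonneg _) (by norm_num)
        _ = a * B := Real.sq_sqrt (by positivity)
    · right
      rw [lt_div_iff₀ hB]
      calc b * B = (Real.sqrt (b * B)) ^ 2 := (Real.sq_sqrt (by positivity)).symm
        _ < ‖z‖ ^ 2 := pow_lt_pow_left₀ hz (Real.sqrt_nonneg _) (by norm_num)

lemma dil_tens {B : ℝ} (hB : 0 < B) (w : ℝ → ℂ) (φ : ℂ → ℂ) :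
    dilB B (prodF (rad w 1) φ) = tens (rad w B) φ := by
  funext u
  have hs : 0 < Real.sqrt B := Real.sqrt_pos.mpr hB
  simp only [dilB, prodF, tens, rad, Prod.smul_fst, Prod.smul_snd]
  congr 2
  · rw [norm_smul, Real.norm_of_nonneg (by positivity), mul_pow, inv_pow, Real.sq_sqrt hB.le]
    ring
  · simp only [Complex.real_smul]
    have : (((Real.sqrt B)⁻¹ : ℝ) : ℂ) ≠ 0 := by
      rw [Ne, Complex.ofReal_eq_zero]; positivity
    rw [mul_div_mul_left _ _ this]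

lemma lint_add4 {α : Type*} [MeasurableSpace α] {μ : Measure α} {f0 f1 f2 f3 : α → ℝ≥0∞}
    (m0 : Measurable f0) (m1 : Measurable f1) (m2 : Measurable f2) :
    ∫⁻ x, (f0 x + f1 x + f2 x + f3 x) ∂μ =
      ∫⁻ x, f0 x ∂μ + ∫⁻ x, f1 x ∂μ + ∫⁻ x, f2 x ∂μ + ∫⁻ x, f3 x ∂μ := by
  rw [lintegral_add_left (f := fun x => f0 x + f1 x + f2 x) ((m0.add m1).add m2),
    lintegral_add_left (f := fun x => f0 x + f1 x) (m0.add m1), lintegral_add_left m0]

lemma swap3 {f : Fr → ℝ≥0∞} (hf : Measurable f) {K : ℝ≥0∞} (hK : K ≠ ⊤) (A P : Set ℂ) :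
    ∫⁻ v in A, ∫⁻ e in A, K * ∫⁻ x in P, f (frame v e x 0) =
      K * ∫⁻ v in A, ∫⁻ x in P, ∫⁻ e in A, f (frame v e x 0) := by
  rw [← lintegral_const_mul' _ _ hK]
  refine lintegral_congr fun v => ?_
  rw [lintegral_const_mul' _ _ hK]
  congr 1
  rw [lintegral_lintegral_swap]
  refine Measurable.aemeasurable (hf.comp ?_)
  unfold frame
  fun_prop

lemma SW.exists_bound {a b : ℝ} {w : ℝ → ℂ} (h : SW a b w) : ∃ M : ℝ, ∀ x, ‖w x‖ ≤ M := by
  obtain ⟨M, hM⟩ := (isCompact_Icc (a := a) (b := b)).exists_bound_of_continuousOn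
    h.cd.continuous.continuousOn
  refine ⟨max M 0, fun x => ?_⟩
  by_cases hx : x ∈ Icc a b
  · exact (hM x hx).trans (le_max_left _ _)
  · rw [mem_Icc, not_and_or, not_le, not_le] at hx
    rw [h.supp x hx, norm_zero]
    exact le_max_right _ _

lemma exists_nice {a b B : ℝ} (hB : 0 < B) {w : ℝ → ℂ} (hw : SW a b w) {φ : ℂ → ℂ}
    (hφ : SP 1 φ) (hφ1 : ∀ z, ‖φ z‖ ≤ 1) : ∃ M R : ℝ, Nice (rad w B) φ M R := by
  obtain ⟨M, hM⟩ := hw.exists_bound
  have hSU := SU_rad hB hw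
  refine ⟨max M 1, max (Real.sqrt (b * B)) 1, hSU.cd.continuous.measurable,
    hφ.cd.continuous.measurable, fun z => (hM _).trans (le_max_left _ _),
    fun z => (hφ1 z).trans (le_max_right _ _), fun z hz => ?_, fun z hz => ?_, ?_⟩
  · exact hSU.supp z (Or.inr ((le_max_left _ _).trans_lt hz))
  · exact hφ.supp z ((le_max_right _ _).trans_lt hz)
  · refine hSU.supp 0 (Or.inl ?_)
    rw [norm_zero]
    exact Real.sqrt_pos.mpr (mul_pos hw.apos hB)

/-! ### the core inequality -/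

section core

variable {Δ : Subgroup K695.Gam} {q : Eis} {ψ : Eis → ℂ} {W : ℂ → ℝ≥0∞}

/-- the level norm of `E_{ψ,F}`. -/
def LN (Δ : Subgroup K695.Gam) (q : Eis) (ψ : Eis → ℂ) (W : ℂ → ℝ≥0∞) (F : ℂ × ℂ → ℂ) : ℝ≥0∞ :=
  ∫⁻ M, W (K695.det2 M) * ‖K695.EC (coefK (ker ψ)) F M‖ₑ ^ 2 ∂(K695.nu Δ q)

lemma strip_LN (H : K695.SyAPI) (hL : K695.IsLev Δ q) (ha : K695.IsCoef Δ (coefK (ker ψ)))
    (hW : Measurable W) (hW1 : ∀ z : ℂ, 1 ≤ ‖z‖ → ‖z‖ ≤ 4 → 1 ≤ W z)
    {F : ℂ × ℂ → ℂ} (hF : Measurable F) :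
    ∫⁻ M in strip 1, ‖K695.EC (coefK (ker ψ)) F M‖ₑ ^ 2 ≤
      ENNReal.ofReal (1 + 313600 * 1 ^ 4) * LN Δ q ψ W F :=
  strip_nu_w hL ((K695.measurable_EC hF).enorm.pow_const 2)
    (fun _ hg M => normsq_EC_act H ha F hg M) hW hW1 one_pos

/-- volume of the annulus. -/
lemma vol_ann_pos : (volume (ann 1 2) : ℝ≥0∞) ≠ 0 := by
  have h1 : Metric.ball ((3/2 : ℝ) : ℂ) (1/2) ⊆ ann 1 2 := by
    intro z hz
    rw [mem_ball_iff_norm] at hz
    have h3 : ‖((3/2 : ℝ) : ℂ)‖ = 3/2 := by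
      rw [Complex.norm_real, Real.norm_of_nonneg (by norm_num)]
    constructor
    · have := norm_sub_norm_le ((3/2 : ℝ) : ℂ) z
      rw [norm_sub_rev] at this
      rw [h3] at this; linarith
    · have := norm_sub_norm_le z ((3/2 : ℝ) : ℂ)
      rw [h3] at this; linarith
  have h2 : (volume (Metric.ball ((3/2 : ℝ) : ℂ) (1/2)) : ℝ≥0∞) ≠ 0 :=
    (Metric.measure_ball_pos volume _ (by norm_num)).ne'
  exact fun h => h2 (measure_mono_null h1 h)

theorem core_ineq (H : K695.SyAPI) (Hs : CharSum852.SyFacts) (hL : K695.IsLev Δ q)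
    {K : ℝ} (hψ : ∀ d, ‖ψ d‖ ≤ K) (ha : K695.IsCoef Δ (coefK (ker ψ)))
    (hW : Measurable W) (hW1 : ∀ z : ℂ, 1 ≤ ‖z‖ → ‖z‖ ≤ 4 → 1 ≤ W z)
    {a b : ℝ} {w : ℝ → ℂ} (hw : SW a b w) {φ : ℂ → ℂ} (hφ : SP 1 φ) (hφ1 : ∀ z, ‖φ z‖ ≤ 1)
    {u : Eis} {c : ℝ} (hc : 0 < c)
    (hc2 : ∀ ξ : ℂ, ‖ξ‖ ≤ 2 * ‖frq 3 u‖ → c ≤ ‖phat φ ξ‖) {B : ℝ} (hB : 0 < B) :
    ENNReal.ofReal (c ^ 2 / 16) * volume (ann 1 2) * ∫⁻ e in ann 1 2, ‖Sg ψ (rad w B) u e‖ₑ ^ 2 ≤
      ENNReal.ofReal (Parseval499.covol 3) * (4 * (ENNReal.ofReal (1 + 313600 * 1 ^ 4) *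
        (LN Δ q ψ W (dilB B (prodF (rad w 1) φ)) + LN Δ q ψ W (dilB B (D1 1 (rad w 1) φ))
        + LN Δ q ψ W (dilB B (D1 Complex.I (rad w 1) φ))
        + LN Δ q ψ W (dilB B (D12 1 Complex.I (rad w 1) φ))))) := by
  have hSU := SU_rad one_pos hw
  have hsa : 0 < Real.sqrt (a * 1) := Real.sqrt_pos.mpr (by have := hw.apos; linarith)
  have hod := OrbDeriv.dil (orbDeriv_prodF hsa hSU hφ) B
  have s0 := suppIn_dil hB (CF_prodF hsa hSU hφ)
  have s1 := suppIn_dil hB (CF_D1 hsa hSU hφ 1)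
  have s2 := suppIn_dil hB (CF_D1 hsa hSU hφ Complex.I)
  have s12 := suppIn_dil hB (CF_D12 hsa hSU hφ 1 Complex.I)
  have hsl := slice (r := 1) one_pos hod s0 s1 s2 s12 (coefK (ker ψ))
  have hm0 := hod.c0.measurable
  have hm1 := hod.c1.measurable
  have hm2 := hod.c2.measurable
  have hm12 := hod.c12.measurable
  simp only [EE_eq_EC, one_pow, ENNReal.ofReal_one, one_mul, mul_one, div_one] at hsl
  have hst : ∫⁻ M in strip 1, (‖K695.EC (coefK (ker ψ)) (dilB B (prodF (rad w 1) φ)) M‖ₑ ^ 2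
      + ‖K695.EC (coefK (ker ψ)) (dilB B (D1 1 (rad w 1) φ)) M‖ₑ ^ 2
      + ‖K695.EC (coefK (ker ψ)) (dilB B (D1 Complex.I (rad w 1) φ)) M‖ₑ ^ 2
      + ‖K695.EC (coefK (ker ψ)) (dilB B (D12 1 Complex.I (rad w 1) φ)) M‖ₑ ^ 2) ≤
      ENNReal.ofReal (1 + 313600 * 1 ^ 4) *
        (LN Δ q ψ W (dilB B (prodF (rad w 1) φ)) + LN Δ q ψ W (dilB B (D1 1 (rad w 1) φ))
        + LN Δ q ψ W (dilB B (D1 Complex.I (rad w 1) φ))
        + LN Δ q ψ W (dilB B (D12 1 Complex.I (rad w 1) φ))) := by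
    have m0 := ((K695.measurable_EC (a := coefK (ker ψ)) hm0).enorm.pow_const 2)
    have m1 := ((K695.measurable_EC (a := coefK (ker ψ)) hm1).enorm.pow_const 2)
    have m2 := ((K695.measurable_EC (a := coefK (ker ψ)) hm2).enorm.pow_const 2)
    rw [lint_add4 m0 m1 m2, mul_add, mul_add, mul_add]
    exact add_le_add (add_le_add (add_le_add (strip_LN H hL ha hW hW1 hm0)
      (strip_LN H hL ha hW hW1 hm1)) (strip_LN H hL ha hW hW1 hm2)) (strip_LN H hL ha hW hW1 hm12)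
  -- the Bessel inequality
  have hsy : ∀ c d, IsPrim d → ‖sy c d‖ ≤ 1 := fun c d _ => CF61.norm_sy_le c d
  obtain ⟨M0, R0, hNice⟩ := exists_nice hB hw hφ hφ1
  have hbes : ∀ v ∈ ann 1 2, ∀ e ∈ ann 1 2,
      ENNReal.ofReal (c ^ 2 / 16) * ‖Sg ψ (rad w B) u e‖ₑ ^ 2 ≤
      ENNReal.ofReal (Parseval499.covol 3) * ∫⁻ x in Parseval499.par 3,
        ‖K695.EC (coefK (ker ψ)) (dilB B (prodF (rad w 1) φ)) (frame v e x 0)‖ₑ ^ 2 := by
    intro v hv e he
    have hv0 : 0 < ‖v‖ := by linarith [hv.1]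
    have he0 : 0 < ‖e‖ := by linarith [he.1]
    have h := special_bessel_lint Hs hψ hsy hNice (norm_pos_iff.mp hv0) (norm_pos_iff.mp he0) {u}
    rw [Finset.sum_singleton] at h
    refine le_trans ?_ (h.trans (le_of_eq ?_))
    · have hr1 : (1:ℝ) / 2 ≤ ‖e / v‖ := by
        rw [norm_div, div_le_div_iff₀ (by norm_num) hv0]
        linarith [he.1, hv.2]
      have hr2 : ‖e / v‖ ≤ 2 := by
        rw [norm_div, div_le_iff₀ hv0]
        linarith [he.2, hv.1]
      have hp : c ≤ ‖phat φ (frq 3 u * e / v)‖ := by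
        apply hc2
        rw [mul_div_assoc, norm_mul, mul_comm]
        exact mul_le_mul_of_nonneg_right hr2 (norm_nonneg _)
      rw [← ofReal_norm, ← ENNReal.ofReal_pow (norm_nonneg _), ← ENNReal.ofReal_mul (by positivity)]
      apply ENNReal.ofReal_le_ofReal
      rw [mul_comm]
      apply mul_le_mul_of_nonneg_left _ (by positivity)
      calc c ^ 2 / 16 = (1 / 2) ^ 4 * c ^ 2 := by ring
        _ ≤ ‖e / v‖ ^ 4 * ‖phat φ (frq 3 u * e / v)‖ ^ 2 := by
            gcongr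
    · congr 1
      refine lintegral_congr fun x => ?_
      rw [dil_tens hB, EK_eq_EC]
  -- integrate
  have hf : Measurable fun M : Fr =>
      ‖K695.EC (coefK (ker ψ)) (dilB B (prodF (rad w 1) φ)) M‖ₑ ^ 2 :=
    (K695.measurable_EC (a := coefK (ker ψ)) hm0).enorm.pow_const 2
  calc ENNReal.ofReal (c ^ 2 / 16) * volume (ann 1 2) * ∫⁻ e in ann 1 2, ‖Sg ψ (rad w B) u e‖ₑ ^ 2
      = ∫⁻ v in ann 1 2, ∫⁻ e in ann 1 2,
          ENNReal.ofReal (c ^ 2 / 16) * ‖Sg ψ (rad w B) u e‖ₑ ^ 2 := by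
        rw [setLIntegral_const, lintegral_const_mul' _ _ ENNReal.ofReal_ne_top]
        ring
    _ ≤ ∫⁻ v in ann 1 2, ∫⁻ e in ann 1 2, ENNReal.ofReal (Parseval499.covol 3) *
          ∫⁻ x in Parseval499.par 3,
        ‖K695.EC (coefK (ker ψ)) (dilB B (prodF (rad w 1) φ)) (frame v e x 0)‖ₑ ^ 2 := by
        refine setLIntegral_mono' (measurableSet_ann 1 2) fun v hv => ?_
        exact setLIntegral_mono' (measurableSet_ann 1 2) fun e he => hbes v hv e he
    _ = ENNReal.ofReal (Parseval499.covol 3) * ∫⁻ v in ann 1 2, ∫⁻ x in Parseval499.par 3,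
          ∫⁻ e in ann 1 2,
        ‖K695.EC (coefK (ker ψ)) (dilB B (prodF (rad w 1) φ)) (frame v e x 0)‖ₑ ^ 2 := by
        exact swap3 hf ENNReal.ofReal_ne_top _ _
    _ ≤ ENNReal.ofReal (Parseval499.covol 3) * (4 * (ENNReal.ofReal (1 + 313600 * 1 ^ 4) *
        (LN Δ q ψ W (dilB B (prodF (rad w 1) φ)) + LN Δ q ψ W (dilB B (D1 1 (rad w 1) φ))
        + LN Δ q ψ W (dilB B (D1 Complex.I (rad w 1) φ))
        + LN Δ q ψ W (dilB B (D12 1 Complex.I (rad w 1) φ))))) := by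
        gcongr
        refine hsl.trans ?_
        gcongr

/-- the Gram input at the given level: no main term. -/
def GramO (Δ : Subgroup K695.Gam) (q : Eis) (ψ : Eis → ℂ) (W : ℂ → ℝ≥0∞) : Prop :=
  ∀ (a b : ℝ) (F : ℂ × ℂ → ℂ), 0 < a → CF a b F →
    Tendsto (fun B : ℝ => LN Δ q ψ W (dilB B F) / ENNReal.ofReal (B ^ ((8:ℝ)/3))) atTop (𝓝 0)

theorem limit_SgR (H : K695.SyAPI) (Hs : CharSum852.SyFacts) (hL : K695.IsLev Δ q)
    {K : ℝ} (hψ : ∀ d, ‖ψ d‖ ≤ K) (ha : K695.IsCoef Δ (coefK (ker ψ)))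
    (hW : Measurable W) (hW1 : ∀ z : ℂ, 1 ≤ ‖z‖ → ‖z‖ ≤ 4 → 1 ≤ W z)
    (hG : GramO Δ q ψ W) {a b : ℝ} {w : ℝ → ℂ} (hw : SW a b w) (u : Eis) :
    Tendsto (fun B : ℝ => SgR ψ w u B 1 / ((B ^ ((4:ℝ)/3) : ℝ) : ℂ)) atTop (𝓝 0) := by
  obtain ⟨φ, c, hc, hφ, hφ1, hc2⟩ := exists_phi (max 1 (2 * ‖frq 3 u‖)) (le_max_left _ _)
  have hc2' : ∀ ξ : ℂ, ‖ξ‖ ≤ 2 * ‖frq 3 u‖ → c ≤ ‖phat φ ξ‖ :=
    fun ξ hξ => hc2 ξ (hξ.trans (le_max_right _ _))
  -- the annulus integral is small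
  set A : ℝ≥0∞ := ENNReal.ofReal (c ^ 2 / 16) * volume (ann 1 2) with hA
  have hA0 : A ≠ 0 := by
    rw [hA]
    exact mul_ne_zero (by rw [Ne, ENNReal.ofReal_eq_zero, not_le]; positivity) vol_ann_pos
  have hAt : A ≠ ⊤ := by
    rw [hA]
    refine ENNReal.mul_ne_top ENNReal.ofReal_ne_top ?_
    have : ann 1 2 ⊆ Metric.closedBall (0:ℂ) 2 := fun z hz => by simpa using hz.2
    exact ((measure_mono this).trans_lt measure_closedBall_lt_top).ne
  have hsmall : ∀ w : ℝ → ℂ, SW a b w → Tendsto (fun B : ℝ =>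
      (∫⁻ e in ann 1 2, ‖Sg ψ (rad w B) u e‖ₑ ^ 2) / ENNReal.ofReal (B ^ ((8:ℝ)/3))) atTop (𝓝 0) := by
    intro w hw
    have hSU := SU_rad one_pos hw
    have hsa : 0 < Real.sqrt (a * 1) := Real.sqrt_pos.mpr (by have := hw.apos; linarith)
    have g0 := hG _ _ _ hsa (CF_prodF hsa hSU hφ)
    have g1 := hG _ _ _ hsa (CF_D1 hsa hSU hφ 1)
    have g2 := hG _ _ _ hsa (CF_D1 hsa hSU hφ Complex.I)
    have g12 := hG _ _ _ hsa (CF_D12 hsa hSU hφ 1 Complex.I)
    have gs := ((g0.add g1).add g2).add g12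
    simp only [add_zero] at gs
    set C : ℝ≥0∞ := A⁻¹ * (ENNReal.ofReal (Parseval499.covol 3) *
      (4 * ENNReal.ofReal (1 + 313600 * 1 ^ 4))) with hC
    have hCt : C ≠ ⊤ := by
      rw [hC]
      refine ENNReal.mul_ne_top (ENNReal.inv_ne_top.mpr hA0) ?_
      exact ENNReal.mul_ne_top ENNReal.ofReal_ne_top
        (ENNReal.mul_ne_top (by simp) ENNReal.ofReal_ne_top)
    have gC := ENNReal.Tendsto.const_mul gs (Or.inr hCt)
    rw [mul_zero] at gC
    refine tendsto_of_tendsto_of_tendsto_of_le_of_le' tendsto_const_nhds gC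
      (Eventually.of_forall fun _ => bot_le) ?_
    filter_upwards [eventually_gt_atTop (0:ℝ)] with B hB
    have hci := core_ineq H Hs hL hψ ha hW hW1 hw hφ hφ1 hc hc2' hB
    rw [← hA] at hci
    have h1 : ∫⁻ e in ann 1 2, ‖Sg ψ (rad w B) u e‖ₑ ^ 2 ≤
        A⁻¹ * (A * ∫⁻ e in ann 1 2, ‖Sg ψ (rad w B) u e‖ₑ ^ 2) := by
      rw [← mul_assoc, ENNReal.inv_mul_cancel hA0 hAt, one_mul]
    calc _ ≤ (A⁻¹ * (A * ∫⁻ e in ann 1 2, ‖Sg ψ (rad w B) u e‖ₑ ^ 2)) /
          ENNReal.ofReal (B ^ ((8:ℝ)/3)) := by gcongr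
      _ ≤ (A⁻¹ * (ENNReal.ofReal (Parseval499.covol 3) *
          (4 * (ENNReal.ofReal (1 + 313600 * 1 ^ 4) *
        (LN Δ q ψ W (dilB B (prodF (rad w 1) φ)) + LN Δ q ψ W (dilB B (D1 1 (rad w 1) φ))
        + LN Δ q ψ W (dilB B (D1 Complex.I (rad w 1) φ))
        + LN Δ q ψ W (dilB B (D12 1 Complex.I (rad w 1) φ))))))) /
          ENNReal.ofReal (B ^ ((8:ℝ)/3)) := by gcongr
      _ = _ := by
        simp only [div_eq_mul_inv, hC]
        ring
  have hw1 : SW a b (xd (deriv w)) := hw.xd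
  have h2 := (hsmall w hw).add (hsmall _ hw1)
  rw [add_zero] at h2
  have h3 := ENNReal.Tendsto.const_mul h2 (a := (2 : ℝ≥0∞)) (Or.inr (by simp))
  rw [mul_zero] at h3
  have h4 : Tendsto (fun B : ℝ => ‖SgR ψ w u B 1 / ((B ^ ((4:ℝ)/3) : ℝ) : ℂ)‖ₑ ^ 2) atTop (𝓝 0) := by
    refine tendsto_of_tendsto_of_tendsto_of_le_of_le' tendsto_const_nhds h3
      (Eventually.of_forall fun _ => bot_le) ?_
    filter_upwards [eventually_gt_atTop (0:ℝ)] with B hB
    have hd := dil_trace hw.wc ψ u hB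
    have hm : Measurable fun e => ‖Sg ψ (rad w B) u e‖ₑ ^ 2 := by
      have hmr : Measurable (rad w B) := (SU_rad hB hw).cd.continuous.measurable
      unfold Sg
      refine (Measurable.tsum fun d => ?_).enorm.pow_const 2
      split_ifs
      · exact (hmr.comp (by fun_prop)).const_mul _
      · exact measurable_const
    rw [lintegral_add_left hm] at hd
    have e1 : ‖SgR ψ w u B 1 / ((B ^ ((4:ℝ)/3) : ℝ) : ℂ)‖ₑ ^ 2 =
        ‖SgR ψ w u B 1‖ₑ ^ 2 / ENNReal.ofReal (B ^ ((8:ℝ)/3)) := by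
      have hB3 : 0 < B ^ ((4:ℝ)/3) := by positivity
      rw [← ofReal_norm, norm_div, Complex.norm_real, Real.norm_of_nonneg hB3.le,
        ENNReal.ofReal_div_of_pos hB3, ofReal_norm, div_eq_mul_inv, mul_pow, ← ENNReal.inv_pow,
        ← ENNReal.ofReal_pow hB3.le, ← Real.rpow_natCast (B ^ ((4:ℝ)/3)), ← Real.rpow_mul hB.le]
      norm_num [div_eq_mul_inv]
    rw [e1]
    calc _ ≤ (2 * ((∫⁻ e in ann 1 2, ‖Sg ψ (rad w B) u e‖ₑ ^ 2)
          + ∫⁻ e in ann 1 2, ‖Sg ψ (rad (xd (deriv w)) B) u e‖ₑ ^ 2)) /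
          ENNReal.ofReal (B ^ ((8:ℝ)/3)) := by gcongr
      _ = _ := by
        simp only [div_eq_mul_inv]
        ring
  rw [tendsto_zero_iff_enorm_tendsto_zero]
  have h5 := h4.comp tendsto_id
  have h6 : Tendsto (fun B : ℝ => (‖SgR ψ w u B 1 / ((B ^ ((4:ℝ)/3) : ℝ) : ℂ)‖ₑ ^ 2) ^ ((1:ℝ)/2))
      atTop (𝓝 0) := by
    have := (ENNReal.continuous_rpow_const (y := (1:ℝ)/2)).continuousAt.tendsto.comp h4
    simpa [Function.comp_def] using this
  refine h6.congr fun B => ?_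
  rw [← ENNReal.rpow_natCast, ← ENNReal.rpow_mul]
  norm_num

end core

end Crest.Agent.R012.ResLev61
end
end

-- ▼ part R012/ResFin_61

/-!
# Row 12, item MR / H3: the residue relations from the level-`p` Gram input

* `psiP p d = [p ∤ d] - N/(N+1)`; `isCoef_psiP`
* `SW_of_Wt` : `x ↦ conj (v x) x^{-1/2}`
* `SSp_eq_SgR`, `tendsto_SSp` : `GramO (DelP p) p (psiP p) W → SSp p v h X / X^(5/6) → 0`
* `rhoRel_of_MS1_lim`, `rhoRel_of_gram`
-/

set_option autoImplicit false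
set_option linter.unusedVariables false
set_option linter.unusedSectionVars false

noncomputable section

open MeasureTheory Complex Set Filter Topology
open scoped ENNReal ContDiff ComplexConjugate

namespace Crest.Agent.R012.ResFin61

open Crest.Agent.R012 Crest.Agent.R012.Eis Crest.Agent.R012.ResLim61 Crest.Agent.R012.ResLev61
open Crest.Agent.R012.StripIneq813 Crest.Agent.R012.K695

open Classical in
/-- `[p ∤ d] - N/(N+1)`. -/
def psiP (p d : Eis) : ℂ := (if p ∣ d then 0 else 1) - (nm p : ℂ) / ((nm p : ℂ) + 1)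

lemma psiP_real (p d : Eis) : conj (psiP p d) = psiP p d := by
  classical
  unfold psiP
  split_ifs <;> simp

lemma norm_psiP_le (p d : Eis) : ‖psiP p d‖ ≤ 1 := by
  classical
  have hN : (0 : ℝ) ≤ nm p := Nat.cast_nonneg _
  have h1 : (0 : ℝ) ≤ (nm p : ℝ) / ((nm p : ℝ) + 1) := by positivity
  have h2 : (nm p : ℝ) / ((nm p : ℝ) + 1) ≤ 1 := by
    rw [div_le_one (by positivity)]; linarith
  unfold psiP
  split_ifs with h
  · rw [zero_sub, norm_neg]
    have : ((nm p : ℂ) / ((nm p : ℂ) + 1)) = (((nm p : ℝ) / ((nm p : ℝ) + 1) : ℝ) : ℂ) := by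
      push_cast; ring
    rw [this, Complex.norm_real, Real.norm_of_nonneg h1]
    exact h2
  · have : (1 : ℂ) - ((nm p : ℂ) / ((nm p : ℂ) + 1)) =
        ((1 - (nm p : ℝ) / ((nm p : ℝ) + 1) : ℝ) : ℂ) := by
      push_cast; ring
    rw [this, Complex.norm_real, Real.norm_of_nonneg (by linarith)]
    linarith

lemma dvd_rmul_iff {p : Eis} {g : Gam} (hg : g ∈ DelP p) (r : Eis × Eis) :
    p ∣ (rmul r g).2 ↔ p ∣ r.2 := by
  have h1 : p ∣ gb g := (dvd_mul_left p 3).trans (mem_DelP.mp hg)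
  have h2 : (rmul r g).2 = r.1 * gb g + r.2 * gd g := rfl
  rw [h2]
  have hd := det_eq g
  constructor
  · intro h
    have h3 : p ∣ r.2 * gd g := (dvd_add_right (h1.mul_left r.1)).mp h
    have h4 : r.2 = r.2 * gd g * ga g - gb g * (gc g * r.2) := by
      linear_combination (-r.2) * hd
    rw [h4]
    exact dvd_sub (h3.mul_right _) (h1.mul_right _)
  · intro h
    exact dvd_add (h1.mul_left _) (h.mul_right _)

lemma psiP_rmul {p : Eis} {g : Gam} (hg : g ∈ DelP p) (r : Eis × Eis) :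
    psiP p (rmul r g).2 = psiP p r.2 := by
  classical
  unfold psiP
  simp only [dvd_rmul_iff hg r]

lemma isCoef_psiP (p : Eis) : IsCoef (DelP p) (coefK (Four813.ker (psiP p))) :=
  isCoef_ker Sym645.syAPI Sym645.syFacts (norm_psiP_le p) (fun g hg r _ => psiP_rmul hg r)

/-! ### The weight -/

/-- `conj (v x) x^{-1/2}`. -/
def wv (v : ℝ → ℂ) (x : ℝ) : ℂ := conj (v x) * ((x ^ (-(1 / 2) : ℝ) : ℝ) : ℂ)

lemma SW_of_Wt {v : ℝ → ℂ} (hv : M49.Wt v) : ∃ a b : ℝ, SW a b (wv v) := by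
  obtain ⟨a, b, ha, hab, hs⟩ := hv.supp
  refine ⟨a, b, ha, hab.le, ?_, ?_⟩
  · rw [contDiff_iff_contDiffAt]
    intro x
    rcases lt_or_ge x a with hx | hx
    · have h0 : wv v =ᶠ[𝓝 x] fun _ => 0 := by
        filter_upwards [gt_mem_nhds hx] with y hy
        simp [wv, hs y (Or.inl hy)]
      exact (contDiffAt_const (c := (0 : ℂ))).congr_of_eventuallyEq h0
    · have hx0 : x ≠ 0 := (ha.trans_le hx).ne'
      unfold wv
      refine ContDiffAt.mul ?_ ?_
      · exact (Complex.conjCLE.contDiff.comp hv.smooth).contDiffAt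
      · exact Complex.ofRealCLM.contDiff.contDiffAt.comp x
          (Real.contDiffAt_rpow_const_of_ne hx0)
  · intro x hx
    simp [wv, hs x hx]

lemma SSp_eq_SgR {p : Eis} (hp : IsPrim p) (v : ℝ → ℂ) (h : Eis) {X : ℝ} (hX : 0 < X) :
    M49.SSp p v h X = -(1 + 1 / (nm p : ℂ)) * ((X ^ (-(1 / 2) : ℝ) : ℝ) : ℂ) *
      conj (SgR (psiP p) (wv v) h X 1) := by
  classical
  have hN : (0 : ℝ) < nm p := by exact_mod_cast nm_pos.mpr hp.ne_zero
  have hNc : (nm p : ℂ) ≠ 0 := by exact_mod_cast (by exact_mod_cast hN.ne' : nm p ≠ 0)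
  have hN1 : ((nm p : ℂ) + 1) ≠ 0 := by
    have : ((nm p : ℝ) + 1 : ℝ) ≠ 0 := by positivity
    exact_mod_cast this
  unfold M49.SSp SgR
  rw [Complex.conj_tsum, ← tsum_mul_left]
  refine tsum_congr fun d => ?_
  by_cases hd : IsPrim d
  · rw [if_pos hd, if_pos hd]
    have hNd : (0 : ℝ) < nm d := by exact_mod_cast nm_pos.mpr hd.ne_zero
    simp only [map_mul, Complex.conj_conj, psiP_real, wv, Complex.conj_ofReal, one_mul]
    have e1 : ((nm d : ℝ) / X) ^ (-(1 / 2) : ℝ) = X ^ ((1 / 2) : ℝ) * (Real.sqrt (nm d))⁻¹ := by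
      rw [Real.div_rpow hNd.le hX.le, Real.rpow_neg hNd.le, Real.rpow_neg hX.le,
        ← Real.sqrt_eq_rpow (nm d : ℝ)]
      field_simp
    have e2 : (((X ^ (-(1 / 2) : ℝ) : ℝ)) : ℂ) * ((X ^ ((1 / 2) : ℝ) : ℝ) : ℂ) = 1 := by
      rw [← Complex.ofReal_mul, ← Real.rpow_add hX]
      norm_num
    have e3 : M49.aP p d = -(1 + 1 / (nm p : ℂ)) * psiP p d := by
      unfold M49.aP psiP
      split_ifs with h1
      · field_simp
        ring
      · field_simp
        ring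
    rw [e1, e3]
    push_cast
    linear_combination ((1 + 1 / (nm p : ℂ)) * psiP p d * (gs h d / (Real.sqrt (nm d) : ℂ)) *
      v (nm d / X)) * e2
  · rw [if_neg hd, if_neg hd]
    simp

/-- **The level-`p` sums have no main term.** -/
theorem tendsto_SSp {p : Eis} (hp : IsPrim p) {W : ℂ → ℝ≥0∞} (hW : Measurable W)
    (hW1 : ∀ z : ℂ, 1 ≤ ‖z‖ → ‖z‖ ≤ 4 → 1 ≤ W z) (hG : GramO (DelP p) p (psiP p) W)
    {v : ℝ → ℂ} (hv : M49.Wt v) (h : Eis) :
    Tendsto (fun X : ℝ => M49.SSp p v h X / ((X ^ ((5 : ℝ) / 6) : ℝ) : ℂ)) atTop (𝓝 0) := by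
  obtain ⟨a, b, hw⟩ := SW_of_Wt hv
  have h1 := limit_SgR Sym645.syAPI Sym645.syFacts (isLev_DelP hp.ne_zero)
    (norm_psiP_le p) (isCoef_psiP p) hW hW1 hG hw h
  have h2 := ((Complex.continuous_conj.tendsto 0).comp h1).const_mul (-(1 + 1 / (nm p : ℂ)))
  rw [map_zero, mul_zero] at h2
  refine h2.congr' ?_
  filter_upwards [eventually_gt_atTop (0 : ℝ)] with X hX
  rw [SSp_eq_SgR hp v h hX]
  simp only [Function.comp, map_div₀, Complex.conj_ofReal]
  have e1 : (X ^ ((4 : ℝ) / 3) : ℝ) = X ^ ((5 : ℝ) / 6) * X ^ ((1 / 2) : ℝ) := by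
    rw [← Real.rpow_add hX]; norm_num
  have e2 : (X ^ (-(1 / 2) : ℝ) : ℝ) = (X ^ ((1 / 2) : ℝ))⁻¹ := Real.rpow_neg hX.le _
  have h3 : ((X ^ ((1 / 2) : ℝ) : ℝ) : ℂ) ≠ 0 := by
    exact_mod_cast (Real.rpow_pos_of_pos hX _).ne'
  have h4 : ((X ^ ((5 : ℝ) / 6) : ℝ) : ℂ) ≠ 0 := by
    exact_mod_cast (Real.rpow_pos_of_pos hX _).ne'
  rw [e1, e2]
  push_cast
  field_simp

/-! ### The residue relations -/

/-- limit of `SS 0 0 v h X / X^(5/6)` from the mean square theorem. -/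
theorem tendsto_SS_of_MS1 {ρ : Eis → ℂ} (hMS : M49.MS1 ρ) {v : ℝ → ℂ} (hv : M49.Wt v) (h : Eis) :
    Tendsto (fun X : ℝ => M49.SS 0 0 v h X / ((X ^ ((5 : ℝ) / 6) : ℝ) : ℂ)) atTop
      (𝓝 (ρ h * mellin v (((5 / 6 : ℝ) : ℂ)))) := by
  obtain ⟨C, hC⟩ := hMS 0 v hv (1 / 6) (by norm_num)
  set N : ℕ := nm h + 1 with hN
  have hN1 : 1 ≤ N := by omega
  have hmem : h ∈ ball N := by rw [mem_ball]; omega
  have hNpos : (0 : ℝ) < N := by exact_mod_cast hN1
  -- pointwise bound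
  have key : ∀ X : ℝ, 1 ≤ X →
      ‖M49.SS 0 0 v h X / ((X ^ ((5 : ℝ) / 6) : ℝ) : ℂ) - ρ h * mellin v (((5 / 6 : ℝ) : ℂ))‖ ^ 2 ≤
        (C * (N : ℝ) ^ (1 / 6 : ℝ) * N) * X ^ (-(1 / 2 : ℝ)) := by
    intro X hX
    have hX0 : 0 < X := by linarith
    have h1 := hC N X 0 hN1 hX
    have h2 := (Finset.single_le_sum (f := fun h : Eis =>
      ‖M49.SS 0 0 v h X - (if (0 : ℤ) = 0 then
        ρ h * mellin v ((5 : ℂ) / 6 + ((0 : ℝ) : ℂ) * Complex.I) *
          (X : ℂ) ^ ((5 : ℂ) / 6 + ((0 : ℝ) : ℂ) * Complex.I)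
        else 0)‖ ^ 2) (fun _ _ => sq_nonneg _) hmem).trans h1
    simp only [if_true, Complex.ofReal_zero, zero_mul, add_zero] at h2
    have e1 : ((5 : ℂ) / 6) = (((5 / 6 : ℝ)) : ℂ) := by push_cast; ring
    rw [e1, ← Complex.ofReal_cpow hX0.le] at h2
    have hpos : (0 : ℝ) < X ^ (5 / 6 : ℝ) := Real.rpow_pos_of_pos hX0 _
    have hne : (((X ^ (5 / 6 : ℝ) : ℝ)) : ℂ) ≠ 0 := by exact_mod_cast hpos.ne'
    have e2 : M49.SS 0 0 v h X / ((X ^ ((5 : ℝ) / 6) : ℝ) : ℂ) -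
        ρ h * mellin v (((5 / 6 : ℝ) : ℂ)) =
        (M49.SS 0 0 v h X - ρ h * mellin v (((5 / 6 : ℝ) : ℂ)) * ((X ^ (5 / 6 : ℝ) : ℝ) : ℂ)) /
          ((X ^ (5 / 6 : ℝ) : ℝ) : ℂ) := by
      field_simp
    rw [e2, norm_div, div_pow, Complex.norm_real, Real.norm_of_nonneg hpos.le,
      div_le_iff₀ (by positivity)]
    refine h2.trans (le_of_eq ?_)
    simp only [abs_zero, add_zero, one_mul]
    rw [Real.mul_rpow hX0.le hNpos.le]
    have e3 : X ^ (1 / 6 : ℝ) * X = X ^ (-(1 / 2 : ℝ)) * (X ^ (5 / 6 : ℝ)) ^ 2 := by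
      rw [← Real.rpow_natCast (X ^ (5 / 6 : ℝ)) 2, ← Real.rpow_mul hX0.le,
        ← Real.rpow_add hX0]
      nth_rewrite 2 [← Real.rpow_one X]
      rw [← Real.rpow_add hX0]
      norm_num
    have e4 : ((0 : ℝ) ^ 2) = 0 := by norm_num
    rw [e4, add_zero]
    calc C * (X ^ (1 / 6 : ℝ) * (N : ℝ) ^ (1 / 6 : ℝ)) * (N * X)
        = C * (N : ℝ) ^ (1 / 6 : ℝ) * N * (X ^ (1 / 6 : ℝ) * X) := by ring
      _ = _ := by rw [e3]; ring
  rw [tendsto_iff_norm_sub_tendsto_zero]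
  have hlim : Tendsto (fun X : ℝ =>
      (C * (N : ℝ) ^ (1 / 6 : ℝ) * N) * X ^ (-(1 / 2 : ℝ))) atTop (𝓝 0) := by
    have := (tendsto_rpow_neg_atTop (y := 1 / 2) (by norm_num)).const_mul
      (C * (N : ℝ) ^ (1 / 6 : ℝ) * N)
    simpa using this
  have hsq : Tendsto (fun X : ℝ => ‖M49.SS 0 0 v h X / ((X ^ ((5 : ℝ) / 6) : ℝ) : ℂ) -
      ρ h * mellin v (((5 / 6 : ℝ) : ℂ))‖ ^ 2) atTop (𝓝 0) := by
    refine squeeze_zero' (Filter.Eventually.of_forall fun _ => sq_nonneg _) ?_ hlim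
    filter_upwards [eventually_ge_atTop (1 : ℝ)] with X hX using key X hX
  have := hsq.sqrt
  simpa [Real.sqrt_sq_eq_abs] using this

/-- the level-`p` input in the limit form. -/
def SSpLim : Prop := ∀ p : Eis, Prime p → IsPrim p → ∀ (v : ℝ → ℂ), M49.Wt v → ∀ h : Eis,
  Tendsto (fun X : ℝ => M49.SSp p v h X / ((X ^ ((5 : ℝ) / 6) : ℝ) : ℂ)) atTop (𝓝 0)

/-- the Gram input at all levels `p`. -/
def GramP : Prop := ∀ p : Eis, Prime p → IsPrim p → ∃ W : ℂ → ℝ≥0∞, Measurable W ∧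
  (∀ z : ℂ, 1 ≤ ‖z‖ → ‖z‖ ≤ 4 → 1 ≤ W z) ∧ GramO (DelP p) p (psiP p) W

theorem SSpLim_of_GramP (hG : GramP) : SSpLim := by
  intro p hpp hp v hv h
  obtain ⟨W, hW, hW1, hGO⟩ := hG p hpp hp
  exact tendsto_SSp hp hW hW1 hGO hv h

/-- **Residue relations from the mean square theorem and the level-`p` limits.** -/
theorem rhoRel_of_MS1_lim {ρ : Eis → ℂ} (hMS : M49.MS1 ρ) (hS : SSpLim) : M49.RhoRel ρ := by
  obtain ⟨v, hv, hm⟩ := Res785.exists_Wt
  obtain ⟨a, b, ha, hab, hsupp⟩ := hv.supp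
  have hb : ∀ x, b < x → v x = 0 := fun x hx => hsupp x (Or.inr hx)
  exact Res785.rhoRel_of_tendsto (v := v) hb (m := mellin v (((5 / 6 : ℝ) : ℂ))) (hm _)
    (tendsto_SS_of_MS1 hMS hv) (fun p hpp hp h => hS p hpp hp v hv h)

/-- **Residue relations from the mean square theorem and the level-`p` Gram formula.** -/
theorem rhoRel_of_gram {ρ : Eis → ℂ} (hMS : M49.MS1 ρ) (hG : GramP) : M49.RhoRel ρ :=
  rhoRel_of_MS1_lim hMS (SSpLim_of_GramP hG)

end Crest.Agent.R012.ResFin61
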