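import Crest.Agent.R012.SliceP_384
import Crest.Agent.R012.NormB_858
import Crest.Agent.R012.Sym6_645
import Crest.Agent.R012.SymK_645
import Crest.Agent.R012.ResFin_61_Mg
import Crest.Agent.R012.GramN_858
import Crest.Agent.R012.Sign_51
import Crest.Agent.R012.SpecM_49
import Crest.Agent.R012.CharSum_852
import Crest.Agent.R012.GaussInst_880
import Crest.Agent.R012.Prime_666
import Crest.Agent.R012.Rho_777
import Crest.Agent.R012.Gauss_880
import Crest.Agent.R012.Sym4_645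
import Crest.Agent.R012.Dec_766
import Crest.Agent.R012.Quot_666
import Crest.Agent.R012.PSpec_355
import Crest.Agent.R012.Sym5_645
import Crest.Agent.R012.PSer_47
import Crest.Agent.R012.Cst4_566

-- ▼ part R012/K1_384
section

/-!
# Row 12, (ML): the cut-off in the determinant
-/

set_option autoImplicit false

noncomputable section

open MeasureTheory Set Filter Complex
open scoped ENNReal Topology ContDiff

namespace Crest.Agent.R012.ML384

/-- the bump function, `= 1` on `[1,4]`, supported in `[1/2, 9/2]`. -/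
def bmp : ContDiffBump (5 / 2 : ℝ) where
  rIn := 3 / 2
  rOut := 2
  rIn_pos := by norm_num
  rIn_lt_rOut := by norm_num

/-- the real cut-off. -/
def cut (x : ℝ) : ℝ := bmp x

lemma cut_contDiff : ContDiff ℝ ∞ cut := bmp.contDiff

lemma cut_nonneg (x : ℝ) : 0 ≤ cut x := bmp.nonneg


lemma cut_one {x : ℝ} (h1 : 1 ≤ x) (h4 : x ≤ 4) : cut x = 1 := by
  apply bmp.one_of_mem_closedBall
  rw [Metric.mem_closedBall, Real.dist_eq, abs_le]
  simp only [bmp]
  constructor <;> linarith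

lemma cut_supp {x : ℝ} (h : cut x ≠ 0) : 1 / 2 ≤ x ∧ x ≤ 9 / 2 := by
  by_contra hc
  apply h
  apply bmp.zero_of_le_dist
  rw [Real.dist_eq]
  simp only [bmp]
  rw [not_and_or, not_le, not_le] at hc
  rcases hc with hc | hc
  · rw [abs_of_neg (by linarith)]; linarith
  · rw [abs_of_pos (by linarith)]; linarith

/-- the cut-off on `ℂ` with values in `[0,∞]`. -/
def cutE (z : ℂ) : ℝ≥0∞ := ENNReal.ofReal (cut ‖z‖)

lemma measurable_cutE : Measurable cutE :=
  (cut_contDiff.continuous.measurable.comp measurable_norm).ennreal_ofReal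

lemma cutE_zero : cutE 0 = 0 := by
  unfold cutE
  rw [norm_zero]
  have : cut 0 = 0 := by
    by_contra h
    have := (cut_supp h).1
    linarith
  rw [this, ENNReal.ofReal_zero]

lemma one_le_cutE {z : ℂ} (h1 : 1 ≤ ‖z‖) (h4 : ‖z‖ ≤ 4) : 1 ≤ cutE z := by
  unfold cutE
  rw [cut_one h1 h4, ENNReal.ofReal_one]

/-- **K1**, given the norm bound for the cut-off `cutE`. -/
theorem K1_of_NB (hN : NB cutE) : K1_Prop :=
  K1_of measurable_cutE cutE_zero (sliceP measurable_cutE fun _ h1 h4 => one_le_cutE h1 h4) hN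

end Crest.Agent.R012.ML384
end
end

-- ▼ part R012/NB_858
section

/-!
# Row 12, (N) and K1: the norm bound in the form `NB cutE`, and `K1_Prop` with no hypothesis.
-/

set_option autoImplicit false

noncomputable section

open MeasureTheory Set Filter Complex
open scoped ENNReal Topology ContDiff

namespace Crest.Agent.R012.Gram858

open Crest.Agent.R012 Crest.Agent.R012.K695 Crest.Agent.R012.ML384

/-- **(N)** in the form used by `K1_384`. -/
theorem nb_cutE : NB cutE := by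
  intro a b l τ ha hab hτ
  obtain ⟨C, hC, h⟩ := norm_bound Sym645.syAPI Sym645.syFacts
    (w := cut) (contDiff_infty.mp cut_contDiff 2) (α := 1 / 2) (β := 9 / 2)
    (by norm_num) (by norm_num) (fun x hx => cut_supp hx) cut_nonneg ha hab hτ
  refine ⟨C / 16, by positivity, ?_⟩
  intro K L T om B φ hK hL hT hB hom hφ hφs hφL hcase
  have hT0 : 0 < T := by linarith
  have h1 := h l K L (1 / (4 * T)) B om φ hom.cont.measurable hom.bd hom.supp hcase
    hφ.measurable hφL hφs hB (by positivity) (by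
      rw [div_le_one (by positivity)]; linarith)
  refine le_trans (le_of_eq rfl) (h1.trans (le_of_eq ?_))
  congr 1
  field_simp
  ring

/-- **K1**, no hypotheses. -/
theorem k1 : K1_Prop := K1_of_NB nb_cutE

end Crest.Agent.R012.Gram858
end
end

-- ▼ part R012/GramQ_988
section

/-!
# Row 12 (M-R), H2: the level `p` norm has no main term (end)

* `norm_level_p` : `∫ w(|det|) |E_{ψ_p, F}|² dν_p ≤ C ...`
* `gramO_level_p`, `gramP : ResFin61.GramP`
-/

set_option autoImplicit false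

noncomputable section

open MeasureTheory Complex Filter Set
open scoped ComplexConjugate ENNReal Topology

namespace Crest.Agent.R012.K695.GramQ988

open Crest.Agent.R012 Crest.Agent.R012.Eis Crest.Agent.R012.Gram858 Crest.Agent.R012.Mob705
  Crest.Agent.R012.LatP988 Crest.Agent.R012.K695.Gram988 Crest.Agent.R012.StripIneq813
  Crest.Agent.R012.Four813 Crest.Agent.R012.K695.GramP988

variable {w : ℝ → ℝ} {α β : ℝ} {p : Eis}

lemma dvd_lam_mul_cube_iff (hp : Prime p) (hpp : IsPrim p) (m : Eis) :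
    p ∣ (lam * m) ^ 3 ↔ p ∣ m := by
  constructor
  · intro h
    have h1 := hp.dvd_of_dvd_pow h
    rcases hp.dvd_or_dvd h1 with h2 | h2
    · exfalso
      have h3 : Associated p lam := (hp.dvd_prime_iff_associated prime_lam).mp h2
      exact hpp.not_lam_dvd h3.symm.dvd
    · exact h2
  · intro h
    exact dvd_pow (h.mul_left _) (by norm_num)

/-- The general term of `DD`. -/
lemma gdiff_eq (Hs : CharSum852.SyFacts) (hp : Prime p) (hpp : IsPrim p) (w : ℝ → ℝ)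
    (F' F : Vec → ℂ) {c : Eis} (hc0 : c ≠ 0) (hc : (3 : Eis) ∣ c) :
    gterm p (bco (DelP p)) (wC' w) F' F c - LL p * gterm p (bco ⊤) (wC' w) F' F c =
      conj (CharSum852.Ssum c) * ((open Classical in if p ∣ c then (1 : ℂ) else 0) -
        1 / ((nm p : ℂ) + 1)) * ((((nm c : ℝ) ^ 2)⁻¹ : ℝ) : ℂ) *
        ∫ M, G0 (wC' w) F' F (toC c) M := by
  have h := sumMod_diff Hs hp hpp hc0 hc
  unfold gterm
  rw [if_neg hc0, if_neg hc0]
  rw [← h]
  ring

lemma gdiff_zero (w : ℝ → ℝ) (F' F : Vec → ℂ) {c : Eis} (hc : ¬ (3 : Eis) ∣ c) :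
    gterm p (bco (DelP p)) (wC' w) F' F c - LL p * gterm p (bco ⊤) (wC' w) F' F c = 0 := by
  unfold gterm
  by_cases hc0 : c = 0
  · simp [hc0]
  rw [if_neg hc0, if_neg hc0, sumMod_zero (fun d => not_row_bco _ hc d),
    sumMod_zero (fun d => not_row_bco _ hc d)]
  ring

lemma gdiff_cube (Hs : CharSum852.SyFacts) (hp : Prime p) (hpp : IsPrim p) (w : ℝ → ℝ)
    (F' F : Vec → ℂ) (m : Eis) :
    gterm p (bco (DelP p)) (wC' w) F' F ((lam * m) ^ 3) -
      LL p * gterm p (bco ⊤) (wC' w) F' F ((lam * m) ^ 3) =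
      if m = 0 then (0 : ℂ) else Pp p m * (((rho3 m ^ 6)⁻¹ : ℝ) : ℂ) *
        ∫ q : X2, ((w (‖dt q.1 q.2‖ / rho3 m ^ 3) : ℝ) : ℂ) * FF F' F q := by
  classical
  by_cases hm : m = 0
  · subst hm
    simp [gterm]
  have hlm : lam * m ≠ 0 := mul_ne_zero lam_ne_zero hm
  have hc : (lam * m) ^ 3 ≠ 0 := pow_ne_zero 3 hlm
  have h3 : (3 : Eis) ∣ (lam * m) ^ 3 := by
    have h1 : (lam * m) ^ 3 = lam ^ 2 * (lam * m ^ 3) := by ring
    rw [h1]
    exact three_dvd_lam_sq.mul_right _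
  rw [if_neg hm, gdiff_eq Hs hp hpp w F' F hc h3, CharSum852.Ssum_cube Hs hlm,
    psi_lam_cube hm, Complex.conj_ofReal]
  have hN : (nm ((lam * m) ^ 3) : ℝ) ≠ 0 := by
    exact_mod_cast (nm_pos.mpr hc).ne'
  have hI : ∫ M, G0 (wC' w) F' F (toC ((lam * m) ^ 3)) M =
      ∫ q : X2, ((w (‖dt q.1 q.2‖ / rho3 m ^ 3) : ℝ) : ℂ) * FF F' F q := by
    congr 1
    ext M
    unfold G0 wC' FF
    have h1 : ‖det2 M / toC ((lam * m) ^ 3)‖ = ‖dt M.1 M.2‖ / rho3 m ^ 3 := by
      rw [norm_div, map_pow, norm_pow, rho3_eq]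
      rfl
    rw [h1, mul_assoc]
  rw [hI, rho3_pow_six]
  have h2 : (((nm ((lam * m) ^ 3) : ℝ) * PE m : ℝ) : ℂ) *
      ((((nm ((lam * m) ^ 3) : ℝ) ^ 2)⁻¹ : ℝ) : ℂ) =
      ((PE m : ℝ) : ℂ) * ((((nm ((lam * m) ^ 3) : ℝ))⁻¹ : ℝ) : ℂ) := by
    rw [← Complex.ofReal_mul, ← Complex.ofReal_mul]
    congr 1
    field_simp
  have hPp : Pp p m = ((PE m : ℝ) : ℂ) * ((if p ∣ (lam * m) ^ 3 then (1 : ℂ) else 0) -
      1 / ((nm p : ℂ) + 1)) := by
    unfold Pp
    simp only [dvd_lam_mul_cube_iff hp hpp]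
  rw [hPp]
  linear_combination ((if p ∣ (lam * m) ^ 3 then (1 : ℂ) else 0) - 1 / ((nm p : ℂ) + 1)) *
    (∫ q : X2, ((w (‖dt q.1 q.2‖ / rho3 m ^ 3) : ℝ) : ℂ) * FF F' F q) * h2

/-- The sum in `DD` is a cube sum. -/
theorem tsum_gdiff (Hs : CharSum852.SyFacts) (hp : Prime p) (hpp : IsPrim p) (hw : RCut w α β)
    {F' F : Vec → ℂ} (hF' : BS F') (hF : BS F) :
    ∑' c : Eis, (gterm p (bco (DelP p)) (wC' w) F' F c - LL p * gterm p (bco ⊤) (wC' w) F' F c) =
      (1 / 3) * ∑' m : Eis, if m = 0 then (0 : ℂ) else Pp p m * (((rho3 m ^ 6)⁻¹ : ℝ) : ℂ) *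
        ∫ q : X2, ((w (‖dt q.1 q.2‖ / rho3 m ^ 3) : ℝ) : ℂ) * FF F' F q := by
  rw [tsum_cubes_lam]
  · congr 1
    apply tsum_congr
    intro m
    exact gdiff_cube Hs hp hpp w F' F m
  · simp [gterm]
  · intro c hc
    by_contra hn
    apply hc
    by_cases hc0 : c = 0
    · simp [gterm, hc0]
    by_cases h3 : (3 : Eis) ∣ c
    · rw [gdiff_eq Hs hp hpp w F' F hc0 h3, CharSum852.Ssum_eq_zero Hs hc0 h3 hn]
      simp
    · exact gdiff_zero w F' F h3
  · intro c hc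
    by_contra hn
    exact hc (gdiff_zero w F' F hn)
  · obtain ⟨K, hK⟩ := gterm_eq_zero hw.cut hF' hF
    apply summable_of_ne_finset_zero (s := ball K)
    intro m hm
    rw [mem_ball, not_le] at hm
    have h1 : K < nm (m ^ 3) := by
      rw [nm_pow]
      have hm1 : 1 ≤ nm m := by omega
      calc K < nm m := hm
        _ = nm m ^ 1 := (pow_one _).symm
        _ ≤ nm m ^ 3 := Nat.pow_le_pow_right hm1 (by norm_num)
    rw [hK _ _ _ h1, hK _ _ _ h1]
    ring

/-! ### The bound -/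

lemma Fr.bs {r₁ r₂ r₃ K : ℝ} {F : Vec → ℂ} (hF : Fr r₁ r₂ r₃ K F) : BS F where
  meas := hF.meas
  bdd := ⟨K, hF.bd⟩
  supp := by
    refine ⟨r₂ ^ 2 + r₃ ^ 2, fun u hu => ?_⟩
    by_contra h
    obtain ⟨_, h2, h3⟩ := hF.supp u h
    unfold n2 at hu
    have e2 : ‖u.1‖ ^ 2 ≤ r₂ ^ 2 := by gcongr
    have e3 : ‖u.2‖ ^ 2 ≤ r₃ ^ 2 := by gcongr
    linarith

lemma norm_int_sq_le {r₁ r₂ r₃ K : ℝ} {F : Vec → ℂ} (hF : Fr r₁ r₂ r₃ K F)
    (hr₂ : 0 ≤ r₂) (hr₃ : 0 ≤ r₃) :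
    ‖∫ u, F u * conj (F u)‖ ≤ K ^ 2 * (Real.pi * r₂ ^ 2 * (Real.pi * r₃ ^ 2)) := by
  set S : Set (ℂ × ℂ) := Metric.closedBall (0 : ℂ) r₂ ×ˢ Metric.closedBall (0 : ℂ) r₃ with hS
  have hvol : volume S = ENNReal.ofReal (Real.pi * r₂ ^ 2 * (Real.pi * r₃ ^ 2)) := by
    rw [hS, Measure.volume_eq_prod, Measure.prod_prod, Complex.volume_closedBall,
      Complex.volume_closedBall, ENNReal.ofReal_mul (by positivity),
      ENNReal.ofReal_mul Real.pi_pos.le, ENNReal.ofReal_mul Real.pi_pos.le,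
      ENNReal.ofReal_pow hr₂, ENNReal.ofReal_pow hr₃]
    have : ENNReal.ofReal Real.pi = (NNReal.pi : ℝ≥0∞) := by
      rw [ENNReal.ofReal, NNReal.pi]
      congr 1
      exact Real.toNNReal_of_nonneg Real.pi_pos.le
    rw [this]
    ring
  have h1 : ∫ u, F u * conj (F u) = ∫ u in S, F u * conj (F u) := by
    symm
    apply setIntegral_eq_integral_of_forall_compl_eq_zero
    intro u hu
    by_contra h
    have h2 : F u ≠ 0 := left_ne_zero_of_mul h
    obtain ⟨_, a2, a3⟩ := hF.supp u h2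
    apply hu
    rw [hS]
    exact ⟨by rw [mem_closedBall_zero_iff]; exact a2, by rw [mem_closedBall_zero_iff]; exact a3⟩
  rw [h1]
  have h2 := norm_setIntegral_le_of_norm_le_const (μ := (volume : Measure (ℂ × ℂ))) (s := S)
    (f := fun u => F u * conj (F u)) (C := K ^ 2) (by rw [hvol]; exact ENNReal.ofReal_lt_top)
    (fun u _ => by
      rw [norm_mul, RCLike.norm_conj, ← sq]
      have := hF.bd u
      gcongr)
  refine h2.trans (le_of_eq ?_)
  rw [measureReal_def, hvol, ENNReal.toReal_ofReal (by positivity)]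

/-- **The level `p` norm.** -/
theorem norm_level_p (H : SyAPI) (Hs : CharSum852.SyFacts) (hw : RCut w α β) {τ : ℝ}
    (hτ0 : 0 < τ) (hτ : τ < 2 / 3) :
    ∃ C₀ : ℝ, 0 ≤ C₀ ∧ ∀ p : Eis, Prime p → IsPrim p → ∀ (r₁ r₂ r₃ K Y : ℝ) (F : Vec → ℂ),
      Fr r₁ r₂ r₃ K F → 0 < r₁ → 0 ≤ r₂ → 0 ≤ r₃ → 0 ≤ K → 1 ≤ Y → 2 * (r₂ * r₃) ≤ Y →
      Integrable (fun M => w ‖det2 M‖ * ‖EC (coefK (ker (psiP p))) F M‖ ^ 2) (nu (DelP p) p) ∧
      ∫ M, w ‖det2 M‖ * ‖EC (coefK (ker (psiP p))) F M‖ ^ 2 ∂(nu (DelP p) p) ≤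
        C₀ * (K ^ 2 * (r₂ ^ 2 * r₃ ^ 2)) + C₀ * (Gram858.gc r₂ K r₁ r₂ r₃ K * Y ^ τ) := by
  obtain ⟨C₁, hC₁, hL⟩ := latHyp_level_p hw.smooth hw.apos hw.bnonneg hw.supp hτ0 hτ
  obtain ⟨W₀, hW₀⟩ := hw.bdd
  set A : ℝ := slabVol 1 * ‖∫ s, wC' w s‖ * Real.pi ^ 2 with hA
  set B : ℝ := (1 / 3) * (|C₁| * 4 * (1 + α ^ (-(2 / 3) : ℝ)) *
    (2 * Real.pi * (3 / 2 + 1 / τ))) with hB
  have hs1 : 0 ≤ slabVol 1 := by unfold slabVol; positivity
  have hA0 : 0 ≤ A := by rw [hA]; positivity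
  have hα := hw.apos
  have hB0 : 0 ≤ B := by rw [hB]; positivity
  refine ⟨A + B, by positivity, ?_⟩
  intro p hp hpp r₁ r₂ r₃ K Y F hF hr₁ hr₂ hr₃ hK hY1 hY
  obtain ⟨h1, h2⟩ := norm_expand H Hs hp hpp hw (Fr.bs hF)
  refine ⟨h1, h2.trans ?_⟩
  unfold DD
  rw [tsum_gdiff Hs hp hpp hw (Fr.bs hF) (Fr.bs hF)]
  refine (norm_add_le _ _).trans ?_
  have hN : (0 : ℝ) < nm p := by exact_mod_cast nm_pos.mpr hp.ne_zero
  have e1 : ‖(1 / ((nm p : ℂ) + 1)) * ((slabVol p : ℂ) * (∫ s, wC' w s) *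
      ∫ u, F u * conj (F u))‖ ≤ A * (K ^ 2 * (r₂ ^ 2 * r₃ ^ 2)) := by
    rw [norm_mul, norm_mul, norm_mul]
    have f1 : ‖(1 / ((nm p : ℂ) + 1))‖ = 1 / ((nm p : ℝ) + 1) := by
      have : (1 / ((nm p : ℂ) + 1)) = ((1 / ((nm p : ℝ) + 1) : ℝ) : ℂ) := by push_cast; ring
      rw [this, Complex.norm_real, Real.norm_of_nonneg (by positivity)]
    have f2 : ‖(slabVol p : ℂ)‖ = nm p * slabVol 1 := by
      rw [slabVol_p, Complex.norm_real, Real.norm_of_nonneg (by positivity)]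
    rw [f1, f2]
    have f3 := norm_int_sq_le hF hr₂ hr₃
    have f4 : 1 / ((nm p : ℝ) + 1) * nm p ≤ 1 := by
      rw [one_div, inv_mul_le_iff₀ (by positivity)]; linarith
    calc 1 / ((nm p : ℝ) + 1) * (nm p * slabVol 1 * ‖∫ s, wC' w s‖ * ‖∫ u, F u * conj (F u)‖)
        = (1 / ((nm p : ℝ) + 1) * nm p) *
          (slabVol 1 * ‖∫ s, wC' w s‖ * ‖∫ u, F u * conj (F u)‖) := by ring
      _ ≤ 1 * (slabVol 1 * ‖∫ s, wC' w s‖ *
          (K ^ 2 * (Real.pi * r₂ ^ 2 * (Real.pi * r₃ ^ 2)))) := by gcongr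
      _ = A * (K ^ 2 * (r₂ ^ 2 * r₃ ^ 2)) := by rw [hA]; ring
  have e2 : ‖(1 / 3 : ℂ) * ∑' m : Eis, if m = 0 then (0 : ℂ) else
      Pp p m * (((rho3 m ^ 6)⁻¹ : ℝ) : ℂ) *
        ∫ q : X2, ((w (‖dt q.1 q.2‖ / rho3 m ^ 3) : ℝ) : ℂ) * FF F F q‖ ≤
      B * (Gram858.gc r₂ K r₁ r₂ r₃ K * Y ^ τ) := by
    have g := gram_main hw.smooth.continuous.measurable hW₀ (hL p ⟨hpp, hp⟩) hα hw.small hτ0 hτ
      hF hF hr₁ hK hK hr₂ hr₃ hr₂ hr₃ hY1 (by linarith [mul_comm r₂ r₃])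
    rw [zero_mul, sub_zero, norm_zero, zero_mul, zero_add] at g
    rw [norm_mul]
    have f1 : ‖(1 / 3 : ℂ)‖ = 1 / 3 := by norm_num
    rw [f1]
    refine (mul_le_mul_of_nonneg_left g (by norm_num)).trans (le_of_eq ?_)
    rw [hB]
    ring
  have hg : 0 ≤ Gram858.gc r₂ K r₁ r₂ r₃ K := by unfold Gram858.gc; positivity
  calc _ ≤ A * (K ^ 2 * (r₂ ^ 2 * r₃ ^ 2)) + B * (Gram858.gc r₂ K r₁ r₂ r₃ K * Y ^ τ) :=
        add_le_add e1 e2
    _ ≤ (A + B) * (K ^ 2 * (r₂ ^ 2 * r₃ ^ 2)) + (A + B) * (Gram858.gc r₂ K r₁ r₂ r₃ K * Y ^ τ) := by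
        have h0 : 0 ≤ Y ^ τ := by positivity
        gcongr <;> linarith

/-! ### The limit -/

open Crest.Agent.R012.ResLev61

lemma CF.bdd {a b : ℝ} {F : ℂ × ℂ → ℂ} (hF : CF a b F) : ∃ K : ℝ, 0 ≤ K ∧ ∀ u, ‖F u‖ ≤ K := by
  have hc : HasCompactSupport F := by
    apply HasCompactSupport.of_support_subset_isCompact
      ((isCompact_closedBall (0 : ℂ) b).prod (isCompact_closedBall (0 : ℂ) b))
    intro u hu
    obtain ⟨_, h2, h3⟩ := hF.supp u hu
    exact ⟨by rw [mem_closedBall_zero_iff]; exact h2, by rw [mem_closedBall_zero_iff]; exact h3⟩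
  obtain ⟨C, hC⟩ := hc.exists_bound_of_continuous hF.cont
  exact ⟨C, (norm_nonneg _).trans (hC 0), hC⟩

lemma CF.dil_Fr {a b K : ℝ} {F : ℂ × ℂ → ℂ} (hF : CF a b F) (hK : ∀ u, ‖F u‖ ≤ K) {B : ℝ}
    (hB : 0 < B) :
    Fr (a * Real.sqrt B) (b * Real.sqrt B) (b * Real.sqrt B) K (dilB B F) where
  meas := (hF.cont.comp (continuous_const_smul _)).measurable
  bd u := hK _
  supp u hu := by
    have hs : 0 < Real.sqrt B := Real.sqrt_pos.mpr hB
    obtain ⟨h1, h2, h3⟩ := hF.supp _ hu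
    have e1 : ‖((((Real.sqrt B)⁻¹ : ℝ) • u : ℂ × ℂ)).1‖ = (Real.sqrt B)⁻¹ * ‖u.1‖ := by
      rw [Prod.smul_fst, norm_smul, Real.norm_of_nonneg (by positivity)]
    have e2 : ‖((((Real.sqrt B)⁻¹ : ℝ) • u : ℂ × ℂ)).2‖ = (Real.sqrt B)⁻¹ * ‖u.2‖ := by
      rw [Prod.smul_snd, norm_smul, Real.norm_of_nonneg (by positivity)]
    rw [e1] at h1 h2
    rw [e2] at h3
    rw [inv_mul_eq_div] at h1 h2 h3
    rw [le_div_iff₀ hs] at h1
    rw [div_le_iff₀ hs] at h2 h3
    exact ⟨h1, h2, h3⟩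

/-- the profile as a weight. -/
def wE (w : ℝ → ℝ) (z : ℂ) : ℝ≥0∞ := ENNReal.ofReal (w ‖z‖)

lemma LN_eq {F : Vec → ℂ} {ψ : Eis → ℂ} {Δ : Subgroup Gam} {q : Eis} (hw0 : ∀ x, 0 ≤ w x)
    (hi : Integrable (fun M => w ‖det2 M‖ * ‖EC (coefK (ker ψ)) F M‖ ^ 2) (nu Δ q)) :
    LN Δ q ψ (wE w) F =
      ENNReal.ofReal (∫ M, w ‖det2 M‖ * ‖EC (coefK (ker ψ)) F M‖ ^ 2 ∂(nu Δ q)) := by
  rw [ofReal_integral_eq_lintegral_ofReal hi
    (Filter.Eventually.of_forall fun M => mul_nonneg (hw0 _) (by positivity))]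
  unfold LN
  refine lintegral_congr fun M => ?_
  unfold wE
  rw [ENNReal.ofReal_mul (hw0 _), ENNReal.ofReal_pow (norm_nonneg _), ofReal_norm]

/-- **No main term at level `p`.** -/
theorem gramO_level_p (H : SyAPI) (Hs : CharSum852.SyFacts) (hw : RCut w α β) (hp : Prime p)
    (hpp : IsPrim p) : GramO (DelP p) p (psiP p) (wE w) := by
  intro a b F ha hF
  obtain ⟨K, hK0, hK⟩ := CF.bdd hF
  obtain ⟨C₀, hC₀, hn⟩ := norm_level_p H Hs hw (τ := 1 / 3) (by norm_num) (by norm_num)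
  -- trivial case
  rcases lt_or_ge b 0 with hb | hb
  · have hF0 : ∀ u, F u = 0 := by
      intro u
      by_contra h
      obtain ⟨_, h2, _⟩ := hF.supp u h
      linarith [norm_nonneg u.1]
    have h0 : ∀ B : ℝ, LN (DelP p) p (psiP p) (wE w) (dilB B F) = 0 := by
      intro B
      unfold LN
      have : ∀ M, EC (coefK (ker (psiP p))) (dilB B F) M = 0 := by
        intro M
        unfold EC
        simp [dilB, hF0]
      simp [this]
    simp [h0]
  set D : ℝ := C₀ * (K ^ 2 * b ^ 4) +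
    C₀ * (Real.pi ^ 3 * (K * K * b ^ 2 * b ^ 2 * b ^ 2 / a ^ 2) * (2 * b ^ 2 + 1)) with hD
  have hD0 : 0 ≤ D := by rw [hD]; positivity
  have hle : ∀ᶠ B : ℝ in atTop, LN (DelP p) p (psiP p) (wE w) (dilB B F) /
      ENNReal.ofReal (B ^ ((8 : ℝ) / 3)) ≤ ENNReal.ofReal (D * B ^ (-(1 / 3) : ℝ)) := by
    filter_upwards [eventually_ge_atTop (1 : ℝ)] with B hB1
    have hB : 0 < B := by linarith
    have hs : 0 < Real.sqrt B := Real.sqrt_pos.mpr hB
    have hs2 : Real.sqrt B ^ 2 = B := Real.sq_sqrt hB.le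
    obtain ⟨h1, h2⟩ := hn p hp hpp (a * Real.sqrt B) (b * Real.sqrt B) (b * Real.sqrt B) K
      ((2 * b ^ 2 + 1) * B) (dilB B F) (CF.dil_Fr hF hK hB) (by positivity) (by positivity)
      (by positivity) hK0 (by nlinarith [sq_nonneg b]) (by
        have : b * Real.sqrt B * (b * Real.sqrt B) = b ^ 2 * B := by
          linear_combination b ^ 2 * hs2
        rw [this]; nlinarith)
    rw [LN_eq hw.nonneg h1, ← ENNReal.ofReal_div_of_pos (by positivity)]
    apply ENNReal.ofReal_le_ofReal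
    rw [div_le_iff₀ (by positivity)]
    refine h2.trans ?_
    have e3 : B ^ (-(1 / 3) : ℝ) * B ^ ((8 : ℝ) / 3) = B ^ 2 * B ^ ((1 : ℝ) / 3) := by
      rw [← Real.rpow_add hB, ← Real.rpow_natCast B 2, ← Real.rpow_add hB]
      norm_num
    have hB3 : 1 ≤ B ^ ((1 : ℝ) / 3) := Real.one_le_rpow hB1 (by norm_num)
    have e4 : ((2 * b ^ 2 + 1) * B) ^ ((1 : ℝ) / 3) ≤ (2 * b ^ 2 + 1) * B ^ ((1 : ℝ) / 3) := by
      rw [Real.mul_rpow (by positivity) hB.le]
      have : (2 * b ^ 2 + 1) ^ ((1 : ℝ) / 3) ≤ (2 * b ^ 2 + 1) ^ (1 : ℝ) :=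
        Real.rpow_le_rpow_of_exponent_le (by nlinarith [sq_nonneg b]) (by norm_num)
      rw [Real.rpow_one] at this
      gcongr
    have e5 : Gram858.gc (b * Real.sqrt B) K (a * Real.sqrt B) (b * Real.sqrt B)
        (b * Real.sqrt B) K =
        Real.pi ^ 3 * (K * K * b ^ 2 * b ^ 2 * b ^ 2 / a ^ 2) * B ^ 2 := by
      unfold Gram858.gc
      simp only [mul_pow, hs2]
      field_simp
    have e6 : (b * Real.sqrt B) ^ 2 * (b * Real.sqrt B) ^ 2 = b ^ 4 * B ^ 2 := by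
      simp only [mul_pow, hs2]; ring
    rw [e5, e6, mul_assoc D, e3]
    calc C₀ * (K ^ 2 * (b ^ 4 * B ^ 2)) + C₀ * (Real.pi ^ 3 *
          (K * K * b ^ 2 * b ^ 2 * b ^ 2 / a ^ 2) * B ^ 2 *
          ((2 * b ^ 2 + 1) * B) ^ ((1 : ℝ) / 3))
        ≤ C₀ * (K ^ 2 * (b ^ 4 * (B ^ 2 * B ^ ((1 : ℝ) / 3)))) + C₀ * (Real.pi ^ 3 *
          (K * K * b ^ 2 * b ^ 2 * b ^ 2 / a ^ 2) * B ^ 2 *
          ((2 * b ^ 2 + 1) * B ^ ((1 : ℝ) / 3))) := by
          have : B ^ 2 ≤ B ^ 2 * B ^ ((1 : ℝ) / 3) := le_mul_of_one_le_right (by positivity) hB3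
          gcongr
      _ = D * (B ^ 2 * B ^ ((1 : ℝ) / 3)) := by rw [hD]; ring
  refine tendsto_of_tendsto_of_tendsto_of_le_of_le' tendsto_const_nhds ?_
    (Filter.Eventually.of_forall fun _ => zero_le) hle
  have h1 : Tendsto (fun B : ℝ => D * B ^ (-(1 / 3) : ℝ)) atTop (𝓝 0) := by
    have := (tendsto_rpow_neg_atTop (y := 1 / 3) (by norm_num)).const_mul D
    rwa [mul_zero] at this
  have h2 := ENNReal.tendsto_ofReal h1
  rwa [ENNReal.ofReal_zero] at h2

/-- There is a cut-off. -/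
lemma exists_RCut : ∃ w : ℝ → ℝ, RCut w (1 / 2) (9 / 2) ∧ ∀ x, 1 ≤ x → x ≤ 4 → 1 ≤ w x := by
  let f : ContDiffBump (5 / 2 : ℝ) := ⟨3 / 2, 2, by norm_num, by norm_num⟩
  refine ⟨f, ⟨f.contDiff, by norm_num, by norm_num, fun x => f.nonneg, ?_⟩, ?_⟩
  · intro x hx
    have h1 : x ∈ Function.support f := hx
    rw [f.support_eq, Metric.mem_ball, Real.dist_eq, abs_lt] at h1
    change -2 < x - 5 / 2 ∧ x - 5 / 2 < 2 at h1
    constructor <;> linarith [h1.1, h1.2]
  · intro x h1 h4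
    have : x ∈ Metric.closedBall (5 / 2 : ℝ) f.rIn := by
      rw [Metric.mem_closedBall, Real.dist_eq, abs_le]
      change -(3 / 2) ≤ x - 5 / 2 ∧ x - 5 / 2 ≤ 3 / 2
      constructor <;> linarith
    rw [f.one_of_mem_closedBall this]

/-- **The Gram input at all levels `p`.** -/
theorem gramP : ResFin61.GramP := by
  intro p hp hpp
  obtain ⟨w, hw, hw1⟩ := exists_RCut
  refine ⟨wE w, ?_, ?_, ?_⟩
  · exact ENNReal.measurable_ofReal.comp (hw.smooth.continuous.measurable.comp measurable_norm)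
  · intro z h1 h4
    unfold wE
    rw [← ENNReal.ofReal_one]
    exact ENNReal.ofReal_le_ofReal (hw1 _ h1 h4)
  · exact gramO_level_p Sym645.syAPI Sym645.syFacts hw hp hpp

/-- **Residue relations from the mean square theorem.** -/
theorem rhoRel_of_MS1 {ρ : Eis → ℂ} (hMS : M49.MS1 ρ) : M49.RhoRel ρ :=
  ResFin61.rhoRel_of_gram hMS gramP

end Crest.Agent.R012.K695.GramQ988
end
end

-- ▼ part R012/SgKer_51
section

/-!
# Row 12, part (Sg): the Fourier transform of `(1+|t|²)^{-4/3}`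

`kernel_eq : y^(2/3) ∫_ℂ (1+|t|²)^(-4/3) eC(-(ξ y) t) dt = (π/Γ(4/3)) Kf |ξ| y`.
-/

set_option autoImplicit false
set_option linter.unusedVariables false

noncomputable section

open Real MeasureTheory Set

namespace Crest.Agent.R012.Sg51

open Eis


/-- `J ξ = ∫_ℂ (1+|t|²)^{-4/3} eC(-ξ t) dt`. -/
def Jf (ξ : ℂ) : ℂ := ∫ t : ℂ, (((1 + ‖t‖ ^ 2) ^ (-(4 : ℝ) / 3) : ℝ) : ℂ) * eC (-(ξ * t))





/-- the two-variable integrand -/
def f2 (ξ : ℂ) (p : ℂ × ℝ) : ℂ :=
  ((p.2 ^ ((1 : ℝ) / 3) * exp (-((1 + ‖p.1‖ ^ 2) * p.2)) : ℝ) : ℂ) * eC (-(ξ * p.1))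






end Crest.Agent.R012.Sg51
end
end

-- ▼ part R012/RhoBd_51
section

/-!
# Row 12, part (Sg): bounds and vanishing for all residues from the 18 values `ρ(u λ^j)`, `j ≤ 2`

`rho_bd` : `‖ρ r‖ ≤ ‖ρ 1‖` for all `r ≠ 0` and `ρ r = 0` unless `3 ∣ r.im`.
-/

set_option autoImplicit false
set_option linter.unusedVariables false

noncomputable section

namespace Crest.Agent.R012.Sg51

open Eis M49

lemma norm_gs_div {p h : Eis} (hp : Prime p) (hpp : IsPrim p) (hh : ¬ p ∣ h) :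
    ‖gs h p / ((Real.sqrt (nm p) : ℝ) : ℂ)‖ = 1 := by
  have hc : IsCoprime h p := ((hp.irreducible.coprime_iff_not_dvd).mpr hh).symm
  rw [norm_div, Gauss880.norm_gs Gauss880.syG hpp hp.irreducible.squarefree hc,
    Complex.norm_real, Real.norm_of_nonneg (Real.sqrt_nonneg _)]
  apply div_self
  have h1 : 0 < nm p := nm_pos.mpr hp.ne_zero
  have : (0 : ℝ) < nm p := by exact_mod_cast h1
  exact (Real.sqrt_pos.mpr this).ne'

lemma norm_one_p {ρ : Eis → ℂ} (H : RhoRel ρ) {p h : Eis} (hp : Prime p) (hpp : IsPrim p)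
    (hh : ¬ p ∣ h) : ‖ρ (h * p)‖ ≤ ‖ρ h‖ := by
  rw [H.one_p p h hp hpp hh, norm_mul, norm_mul, RCLike.norm_conj, norm_gs_div hp hpp hh, one_mul]
  have h1 : 1 ≤ nm p := nm_pos.mpr hp.ne_zero
  have h1' : (1 : ℝ) ≤ nm p := by exact_mod_cast h1
  have h2 : ‖(((nm p : ℝ) ^ (-(1 : ℝ) / 6) : ℝ) : ℂ)‖ ≤ 1 := by
    rw [Complex.norm_real, Real.norm_of_nonneg (by positivity)]
    apply Real.rpow_le_one_of_one_le_of_nonpos h1' (by norm_num)
  calc _ ≤ 1 * ‖ρ h‖ := mul_le_mul_of_nonneg_right h2 (norm_nonneg _)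
    _ = _ := one_mul _

/-- adding a power of a prime not dividing `h`: norm does not increase. -/
lemma norm_pow_p {ρ : Eis → ℂ} (H : RhoRel ρ) {p h : Eis} (hp : Prime p) (hpp : IsPrim p)
    (hh : ¬ p ∣ h) (e : ℕ) : ‖ρ (h * p ^ e)‖ ≤ ‖ρ h‖ := by
  induction e using Nat.strong_induction_on with
  | _ e ih =>
    rcases lt_or_ge e 3 with h3 | h3
    · interval_cases e
      · simp
      · simpa using norm_one_p H hp hpp hh
      · rw [H.two_p p h hp hpp hh]; simp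
    · obtain ⟨k, rfl⟩ := Nat.exists_eq_add_of_le h3
      have e1 : h * p ^ (3 + k) = (h * p ^ k) * p ^ 3 := by ring
      rw [e1, H.three_p p _ hp hpp]
      exact ih k (by omega)

/-- multiplying by a primary number does not increase the norm of `ρ`, if we start from
`u λ^j`. -/
lemma norm_prim {ρ : Eis → ℂ} (H : RhoRel ρ) (r0 : Eis)
    (hr0 : ∀ p : Eis, Prime p → IsPrim p → ¬ p ∣ r0) :
    ∀ (n : ℕ) (m : Eis), nm m ≤ n → IsPrim m → ‖ρ (r0 * m)‖ ≤ ‖ρ r0‖ := by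
  intro n
  induction n with
  | zero =>
    intro m hm hpm
    exact absurd (nm_eq_zero.mp (Nat.le_zero.mp hm)) hpm.ne_zero
  | succ n ih =>
    intro m hm hpm
    by_cases h1 : m = 1
    · subst h1; simp
    · obtain ⟨p, hp, hpp, hpm'⟩ := Gauss880.exists_prim_prime_dvd hpm h1
      obtain ⟨m', hm', hnd⟩ := (FiniteMultiplicity.of_not_isUnit hp.not_isUnit
        hpm.ne_zero).exists_eq_pow_mul_and_not_dvd
      set e := multiplicity p m with he
      have he1 : e ≠ 0 := by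
        intro h0
        rw [h0, pow_zero, one_mul] at hm'
        rw [hm'] at hpm'
        exact hnd hpm'
      have hm'p : IsPrim m' := by
        rw [hm'] at hpm
        exact hpm.of_mul_left (hpp.pow e)
      have hlt : nm m' ≤ n := by
        have h2 : nm m = nm p ^ e * nm m' := by rw [hm', nm_mul, nm_pow]
        have h3 : 1 < nm p := one_lt_nm_of_prime hp
        have h4 : 0 < nm m' := nm_pos.mpr hm'p.ne_zero
        have h5 : 2 ≤ nm p ^ e := by
          calc 2 ≤ nm p := h3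
            _ = nm p ^ 1 := (pow_one _).symm
            _ ≤ nm p ^ e := Nat.pow_le_pow_right (by omega) (Nat.one_le_iff_ne_zero.mpr he1)
        nlinarith
      have hnd' : ¬ p ∣ r0 * m' := by
        intro h
        rcases hp.dvd_or_dvd h with h | h
        · exact hr0 p hp hpp h
        · exact hnd h
      calc ‖ρ (r0 * m)‖ = ‖ρ ((r0 * m') * p ^ e)‖ := by rw [hm']; congr 2; ring
        _ ≤ ‖ρ (r0 * m')‖ := norm_pow_p H hp hpp hnd' e
        _ ≤ ‖ρ r0‖ := ih m' hlt hm'p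

lemma not_dvd_ulam {p u : Eis} (hp : Prime p) (hpp : IsPrim p) (hu : IsUnit u) (k : ℕ) :
    ¬ p ∣ u * lam ^ k := by
  intro h
  rcases hp.dvd_or_dvd h with h | h
  · exact hp.not_isUnit (isUnit_of_dvd_unit h hu)
  · have h2 := hp.dvd_of_dvd_pow h
    have h3 : Associated p lam := (hp.dvd_prime_iff_associated prime_lam).mp h2
    exact hpp.not_lam_dvd h3.symm.dvd

lemma norm_lam_pow {ρ : Eis → ℂ} (hcube : ∀ r : Eis, ρ (lam ^ 3 * r) = ρ r)
    (h18 : ∀ u : Eis, IsUnit u → ∀ j : ℕ, j ≤ 2 → ‖ρ (u * lam ^ j)‖ ≤ ‖ρ 1‖) (u : Eis)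
    (hu : IsUnit u) (k : ℕ) : ‖ρ (u * lam ^ k)‖ ≤ ‖ρ 1‖ := by
  induction k using Nat.strong_induction_on with
  | _ k ih =>
    rcases lt_or_ge k 3 with h3 | h3
    · exact h18 u hu k (by omega)
    · obtain ⟨i, rfl⟩ := Nat.exists_eq_add_of_le h3
      have e1 : u * lam ^ (3 + i) = lam ^ 3 * (u * lam ^ i) := by ring
      rw [e1, hcube]
      exact ih i (by omega)

/-- **Bounds and vanishing of all residues.** -/
theorem rho_bd {ρ : Eis → ℂ} (H : RhoRel ρ) (hcube : ∀ r : Eis, ρ (lam ^ 3 * r) = ρ r)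
    (h18 : ∀ u : Eis, IsUnit u → ∀ j : ℕ, j ≤ 2 → ‖ρ (u * lam ^ j)‖ ≤ ‖ρ 1‖)
    (h18v : ∀ u : Eis, IsUnit u → ∀ j : ℕ, j ≤ 2 → ¬ 3 ∣ (u * lam ^ j).im →
      ρ (u * lam ^ j) = 0) :
    (∀ r : Eis, r ≠ 0 → ‖ρ r‖ ≤ ‖ρ 1‖) ∧ (∀ r : Eis, ¬ (3 ∣ r.im) → ρ r = 0) := by
  have key : ∀ r : Eis, r ≠ 0 → ∃ (k : ℕ) (u m : Eis), IsUnit u ∧ IsPrim m ∧
      r = (u * lam ^ k) * m := by
    intro r hr
    obtain ⟨k, u, m, hu, hm, rfl⟩ := CharSum852.exists_decomp hr
    exact ⟨k, u, m, hu, hm, by ring⟩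
  constructor
  · intro r hr
    obtain ⟨k, u, m, hu, hm, rfl⟩ := key r hr
    exact (norm_prim H _ (fun p hp hpp => not_dvd_ulam hp hpp hu k) (nm m) m le_rfl hm).trans
      (norm_lam_pow hcube h18 u hu k)
  · intro r hr3
    have hr : r ≠ 0 := by rintro rfl; exact hr3 (by simp)
    obtain ⟨k, u, m, hu, hm, rfl⟩ := key r hr
    have hk : k ≤ 2 := by
      by_contra hc
      push Not at hc
      apply hr3
      have : (3 : Eis) ∣ (u * lam ^ k) * m := by
        apply Dvd.dvd.mul_right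
        apply Dvd.dvd.mul_left
        exact three_dvd_lam_sq.trans (pow_dvd_pow lam (by omega))
      exact (three_dvd_iff.mp this).2
    have him : ¬ 3 ∣ (u * lam ^ k).im := by
      intro h
      apply hr3
      have e : (u * lam ^ k) * m = (u * lam ^ k) + (u * lam ^ k) * (m - 1) := by ring
      have h3 : (3 : Eis) ∣ (u * lam ^ k) * (m - 1) := Dvd.dvd.mul_left hm _
      have h4 := (three_dvd_iff.mp h3).2
      rw [e]
      simp only [QuadraticAlgebra.im_add]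
      exact dvd_add h h4
    have hz := h18v u hu k hk him
    have hle := norm_prim H _ (fun p hp hpp => not_dvd_ulam hp hpp hu k) (nm m) m le_rfl hm
    rw [hz, norm_zero] at hle
    exact norm_le_zero_iff.mp hle

end Crest.Agent.R012.Sg51
end
end

-- ▼ part R012/RhoSym_51
section

/-!
# Row 12, part (Sg): symmetries of the residues from the mean square theorem `MS ρ`

* `rho_limit`  : `SS 0 0 v h X / X^(5/6) → ρ h · mellin v (5/6)`
* `rho_smul`   : if `SS 0 0 v0 h X = z · SS 0 0 v0 h' X` for all `X ≥ 1` then `ρ h = z ρ h'`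
* `rho_neg`, `rho_lam3`, `rho_conj`, `rho_one_real`.
-/

set_option autoImplicit false
set_option linter.unusedVariables false

noncomputable section

open Filter Topology MeasureTheory Set

namespace Crest.Agent.R012.Sg51

open Eis M49

/-! ### a test weight -/

/-- bump function centred at `2`. -/
def bmp : ContDiffBump (2 : ℝ) := ⟨1 / 2, 1, by norm_num, by norm_num⟩

/-- real test weight, supported in `[1,3]`. -/
def v0 (x : ℝ) : ℂ := ((bmp x : ℝ) : ℂ)

lemma v0_supp {x : ℝ} (h : x < 1 ∨ 3 < x) : v0 x = 0 := by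
  unfold v0
  have : bmp x = 0 := by
    apply bmp.zero_of_le_dist
    rw [Real.dist_eq]
    show (1 : ℝ) ≤ |x - 2|
    rcases h with h | h
    · rw [abs_of_neg (by linarith)]; linarith
    · rw [abs_of_pos (by linarith)]; linarith
  rw [this]; simp

lemma Wt_v0 : M49.Wt v0 where
  smooth := by
    unfold v0
    exact Complex.ofRealCLM.contDiff.comp bmp.contDiff
  supp := ⟨1, 3, by norm_num, by norm_num, fun x hx => v0_supp hx⟩

lemma mellin_v0 : ∃ m : ℝ, 0 < m ∧ mellin v0 ((5 : ℂ) / 6) = (m : ℂ) := by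
  have hint : IntegrableOn (fun t : ℝ => t ^ (-(1 : ℝ) / 6) * bmp t) (Ioi 0) := by
    have h1 : IntegrableOn (fun t : ℝ => t ^ (-(1 : ℝ) / 6) * bmp t) (Icc 1 3) := by
      apply ContinuousOn.integrableOn_Icc
      apply ContinuousOn.mul
      · intro t ht
        apply ContinuousAt.continuousWithinAt
        apply Real.continuousAt_rpow_const
        left; have := ht.1; linarith
      · exact bmp.continuous.continuousOn
    apply h1.of_forall_sdiff_eq_zero measurableSet_Ioi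
    intro x hx
    have h2 : x < 1 ∨ 3 < x := by
      by_contra hc
      push Not at hc
      exact hx.2 ⟨hc.1, hc.2⟩
    have h3 := v0_supp h2
    unfold v0 at h3
    have : bmp x = 0 := by exact_mod_cast h3
    rw [this, mul_zero]
  refine ⟨∫ t in Ioi (0 : ℝ), t ^ (-(1 : ℝ) / 6) * bmp t, ?_, ?_⟩
  · rw [setIntegral_pos_iff_support_of_nonneg_ae]
    · have hsub : Ioo (3 / 2 : ℝ) (5 / 2) ⊆
          Function.support (fun t : ℝ => t ^ (-(1 : ℝ) / 6) * bmp t) ∩ Ioi 0 := by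
        intro t ht
        have ht0 : (0 : ℝ) < t := by have := ht.1; linarith
        refine ⟨?_, ht0⟩
        have h1 : bmp t = 1 := by
          apply bmp.one_of_mem_closedBall
          rw [Metric.mem_closedBall, Real.dist_eq, abs_le]
          show -(1 / 2 : ℝ) ≤ t - 2 ∧ t - 2 ≤ 1 / 2
          constructor <;> [linarith [ht.1]; linarith [ht.2]]
        rw [Function.mem_support, h1, mul_one]
        exact (Real.rpow_pos_of_pos ht0 _).ne'
      refine lt_of_lt_of_le ?_ (measure_mono hsub)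
      simp
      norm_num
    · filter_upwards [ae_restrict_mem measurableSet_Ioi] with t ht
      have ht0 : (0 : ℝ) < t := ht
      exact mul_nonneg (Real.rpow_nonneg ht0.le _) bmp.nonneg
    · exact hint
  · unfold mellin
    rw [← integral_complex_ofReal]
    apply setIntegral_congr_fun measurableSet_Ioi
    intro t ht
    have ht0 : (0 : ℝ) < t := ht
    simp only [smul_eq_mul, v0]
    push_cast
    rw [Complex.ofReal_cpow ht0.le]
    congr 2
    push_cast
    norm_num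

/-! ### the limit -/

lemma rho_limit {ρ : Eis → ℂ} (H : MS ρ) {v : ℝ → ℂ} (hv : M49.Wt v) (h : Eis) :
    Tendsto (fun X : ℝ => SS 0 0 v h X / ((X ^ ((5 : ℝ) / 6) : ℝ) : ℂ)) atTop
      (𝓝 (ρ h * mellin v ((5 : ℂ) / 6))) := by
  obtain ⟨C, hC⟩ := H 0 v hv (1 / 6) (by norm_num)
  set N : ℕ := nm h + 1 with hN
  have hmem : h ∈ ball N := by rw [mem_ball]; omega
  -- pointwise bound
  have hb : ∀ X : ℝ, 1 ≤ X → ‖SS 0 0 v h X / ((X ^ ((5 : ℝ) / 6) : ℝ) : ℂ) -
      ρ h * mellin v ((5 : ℂ) / 6)‖ ^ 2 ≤ (|C| * (2 * N) ^ ((1 : ℝ) / 6) * N) * X ^ (-(1 : ℝ) / 2) := by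
    intro X hX
    have hX0 : 0 < X := by linarith
    have h1 := hC N X 0 (by omega) hX0
    have h2 := Finset.single_le_sum (f := fun h' : Eis => ‖SS 0 0 v h' X - (if (0 : ℤ) = 0 then
        ρ h' * mellin v ((5 : ℂ) / 6 + (0 : ℝ) * Complex.I) *
          (X : ℂ) ^ ((5 : ℂ) / 6 + (0 : ℝ) * Complex.I) else 0)‖ ^ 2)
        (fun i _ => by positivity) hmem
    have h3 := h2.trans h1
    simp only [if_true] at h3
    have e0 : (5 : ℂ) / 6 + ((0 : ℝ) : ℂ) * Complex.I = ((5 / 6 : ℝ) : ℂ) := by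
      push_cast; ring
    rw [e0] at h3
    have e1 : ((X : ℂ)) ^ (((5 / 6 : ℝ)) : ℂ) = ((X ^ ((5 : ℝ) / 6) : ℝ) : ℂ) := by
      rw [Complex.ofReal_cpow hX0.le]
    rw [e1] at h3
    have hp : 0 < X ^ ((5 : ℝ) / 6) := Real.rpow_pos_of_pos hX0 _
    have e2 : SS 0 0 v h X / ((X ^ ((5 : ℝ) / 6) : ℝ) : ℂ) - ρ h * mellin v ((5 : ℂ) / 6) =
        (SS 0 0 v h X - ρ h * mellin v (((5 / 6 : ℝ)) : ℂ) * ((X ^ ((5 : ℝ) / 6) : ℝ) : ℂ)) /
          ((X ^ ((5 : ℝ) / 6) : ℝ) : ℂ) := by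
      have : ((X ^ ((5 : ℝ) / 6) : ℝ) : ℂ) ≠ 0 := by exact_mod_cast hp.ne'
      have e3 : ((5 : ℂ) / 6) = (((5 / 6 : ℝ)) : ℂ) := by push_cast; ring
      rw [e3]
      field_simp
    rw [e2, norm_div, div_pow, Complex.norm_real, Real.norm_of_nonneg hp.le, div_le_iff₀ (by positivity)]
    refine h3.trans ?_
    have hNr : (1 : ℝ) ≤ N := by exact_mod_cast (by omega : 1 ≤ N)
    have h4 : ((1 + |(0 : ℝ)|) * (1 + X) * N) ^ ((1 : ℝ) / 6) ≤ ((2 * N) * X) ^ ((1 : ℝ) / 6) := by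
      apply Real.rpow_le_rpow (by positivity) _ (by norm_num)
      rw [abs_zero]
      nlinarith
    have h5 : ((2 * (N : ℝ)) * X) ^ ((1 : ℝ) / 6) = (2 * N) ^ ((1 : ℝ) / 6) * X ^ ((1 : ℝ) / 6) :=
      Real.mul_rpow (by positivity) hX0.le
    have h6 : X ^ (-(1 : ℝ) / 2) * (X ^ ((5 : ℝ) / 6)) ^ 2 = X ^ ((1 : ℝ) / 6) * X := by
      rw [← Real.rpow_natCast, ← Real.rpow_mul hX0.le, ← Real.rpow_add hX0,
        ← Real.rpow_add_one hX0.ne']
      norm_num
    have h0 : (0 : ℝ) ^ 2 = 0 := by norm_num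
    rw [h0, add_zero]
    calc C * ((1 + |(0 : ℝ)|) * (1 + X) * N) ^ ((1 : ℝ) / 6) * (N * X)
        ≤ |C| * ((2 * N) ^ ((1 : ℝ) / 6) * X ^ ((1 : ℝ) / 6)) * (N * X) := by
          rw [← h5]
          apply mul_le_mul_of_nonneg_right _ (by positivity)
          exact mul_le_mul (le_abs_self C) h4 (by positivity) (abs_nonneg _)
      _ = (|C| * (2 * N) ^ ((1 : ℝ) / 6) * N) * (X ^ ((1 : ℝ) / 6) * X) := by ring
      _ = (|C| * (2 * N) ^ ((1 : ℝ) / 6) * N) * (X ^ (-(1 : ℝ) / 2) * (X ^ ((5 : ℝ) / 6)) ^ 2) := by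
          rw [h6]
      _ = _ := by ring
  rw [tendsto_iff_norm_sub_tendsto_zero]
  have hlim : Tendsto (fun X : ℝ => (|C| * (2 * N) ^ ((1 : ℝ) / 6) * N) * X ^ (-(1 : ℝ) / 2))
      atTop (𝓝 0) := by
    have := (tendsto_rpow_neg_atTop (y := 1 / 2) (by norm_num)).const_mul
      (|C| * (2 * N) ^ ((1 : ℝ) / 6) * N)
    rw [mul_zero] at this
    refine this.congr (fun X => ?_)
    norm_num
  have hsq : Tendsto (fun X : ℝ => ‖SS 0 0 v h X / ((X ^ ((5 : ℝ) / 6) : ℝ) : ℂ) -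
      ρ h * mellin v ((5 : ℂ) / 6)‖ ^ 2) atTop (𝓝 0) := by
    refine tendsto_of_tendsto_of_tendsto_of_le_of_le' tendsto_const_nhds hlim ?_ ?_
    · exact Eventually.of_forall fun X => by positivity
    · filter_upwards [eventually_ge_atTop (1 : ℝ)] with X hX using hb X hX
  have h7 := hsq.sqrt
  rw [Real.sqrt_zero] at h7
  refine h7.congr (fun X => ?_)
  rw [Real.sqrt_sq (norm_nonneg _)]

/-- comparison of residues. -/
lemma rho_smul {ρ : Eis → ℂ} (H : MS ρ) {h h' : Eis} (z : ℂ)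
    (hz : ∀ X : ℝ, 1 ≤ X → SS 0 0 v0 h X = z * SS 0 0 v0 h' X) : ρ h = z * ρ h' := by
  obtain ⟨m, hm, hm'⟩ := mellin_v0
  have h1 := rho_limit H Wt_v0 h
  have h2 := (rho_limit H Wt_v0 h').const_mul z
  have h3 : Tendsto (fun X : ℝ => SS 0 0 v0 h X / ((X ^ ((5 : ℝ) / 6) : ℝ) : ℂ)) atTop
      (𝓝 (z * (ρ h' * mellin v0 ((5 : ℂ) / 6)))) := by
    refine h2.congr' ?_
    filter_upwards [eventually_ge_atTop (1 : ℝ)] with X hX
    rw [hz X hX]; ring
  have h4 := tendsto_nhds_unique h1 h3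
  rw [hm'] at h4
  have hm0 : (m : ℂ) ≠ 0 := by exact_mod_cast hm.ne'
  apply mul_right_cancel₀ hm0
  rw [h4]; ring

lemma rho_congr {ρ : Eis → ℂ} (H : MS ρ) {h h' : Eis}
    (hg : ∀ d : Eis, IsPrim d → gs h d = gs h' d) : ρ h = ρ h' := by
  have := rho_smul H (h := h) (h' := h') 1 (fun X _ => by
    rw [one_mul]
    unfold SS
    apply tsum_congr
    intro d
    split_ifs with hd
    · rw [hg d hd]
    · rfl)
  rwa [one_mul] at this

theorem rho_neg {ρ : Eis → ℂ} (H : MS ρ) (h : Eis) : ρ (-h) = ρ h :=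
  rho_congr H fun d hd => Gauss880.gs_neg Gauss880.syG hd h

theorem rho_cube_mul {ρ : Eis → ℂ} (H : MS ρ) (h : Eis) {e : Eis}
    (he : ∀ d : Eis, IsPrim d → IsCoprime e d) : ρ (e ^ 3 * h) = ρ h := by
  apply rho_congr H
  intro d hd
  have hc := he d hd
  rw [mul_comm, Gauss880.gs_mul_of_coprime Gauss880.syG hd h (hc.pow_left (m := 3))]
  have h1 : sy (e ^ 3) d = 1 := by
    have h2 : sy (e ^ 3) d = sy e d ^ 3 := by
      rw [pow_succ, pow_succ, pow_one, Gauss880.syG.mul_left _ _ _ hd,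
        Gauss880.syG.mul_left _ _ _ hd]
      ring
    rw [h2, Gauss880.syG.cube e d hd hc]
  rw [h1, map_one, one_mul]

theorem rho_lam3 {ρ : Eis → ℂ} (H : MS ρ) (h : Eis) : ρ (lam ^ 3 * h) = ρ h :=
  rho_cube_mul H h fun d hd => hd.isCoprime_lam.symm

/-- complex conjugation symmetry. -/
theorem SS_conj (h : Eis) (X : ℝ) :
    SS 0 0 v0 (Eis.conj h) X = (starRingEnd ℂ) (SS 0 0 v0 h X) := by
  unfold SS
  rw [Complex.conj_tsum]
  let e : Eis ≃ Eis := ⟨Eis.conj, Eis.conj, Eis.conj_conj, Eis.conj_conj⟩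
  rw [← e.tsum_eq]
  apply tsum_congr
  intro d
  have hiff : IsPrim (e d) ↔ IsPrim d := by
    constructor
    · intro h'
      have := h'.conj
      rwa [show Eis.conj (e d) = d from Eis.conj_conj d] at this
    · intro h'; exact h'.conj
  by_cases hd : IsPrim d
  · rw [if_pos (hiff.mpr hd), if_pos hd]
    have e1 : gs (Eis.conj h) (e d) = (starRingEnd ℂ) (gs h d) :=
      Gauss880.gs_conj Gauss880.syG hd h
    have e2 : nm (e d) = nm d := nm_conj d
    rw [e1, e2]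
    simp only [map_mul, map_div₀, Complex.conj_ofReal]
    have e3 : (starRingEnd ℂ) (v0 (nm d / X)) = v0 (nm d / X) := by
      unfold v0; exact Complex.conj_ofReal _
    rw [e3]
    simp [ang]
  · rw [if_neg (fun h' => hd (hiff.mp h')), if_neg hd, map_zero]

theorem rho_conj {ρ : Eis → ℂ} (H : MS ρ) (h : Eis) :
    ρ (Eis.conj h) = (starRingEnd ℂ) (ρ h) := by
  obtain ⟨m, hm, hm'⟩ := mellin_v0
  have h1 := rho_limit H Wt_v0 (Eis.conj h)
  have h2 := (Complex.continuous_conj.tendsto _).comp (rho_limit H Wt_v0 h)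
  have h3 : Tendsto (fun X : ℝ => SS 0 0 v0 (Eis.conj h) X / ((X ^ ((5 : ℝ) / 6) : ℝ) : ℂ)) atTop
      (𝓝 ((starRingEnd ℂ) (ρ h * mellin v0 ((5 : ℂ) / 6)))) := by
    refine h2.congr (fun X => ?_)
    simp only [Function.comp]
    rw [SS_conj, map_div₀, Complex.conj_ofReal]
  have h4 := tendsto_nhds_unique h1 h3
  rw [hm', map_mul, Complex.conj_ofReal] at h4
  have hm0 : (m : ℂ) ≠ 0 := by exact_mod_cast hm.ne'
  exact mul_right_cancel₀ hm0 h4

theorem rho_one_im {ρ : Eis → ℂ} (H : MS ρ) : (ρ 1).im = 0 := by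
  have := rho_conj H 1
  rw [Eis.conj_one] at this
  exact Complex.conj_eq_iff_im.mp this.symm

end Crest.Agent.R012.Sg51
end
end

-- ▼ part R012/RhoOneFin_51
section

/-!
# Row 12, part (Sg): `ρ(1) = pC · Dsf` from its absolute value and the inversion identity
-/

set_option autoImplicit false
set_option linter.unusedVariables false

noncomputable section

open Filter Topology MeasureTheory Set

namespace Crest.Agent.R012.Sg51

open Eis M49

lemma pC_pos : 0 < pC := by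
  unfold pC
  have : 0 < Real.Gamma (2 / 3) := Real.Gamma_pos_of_pos (by norm_num)
  positivity

lemma zeta2_nonneg : 0 ≤ zeta2 := by
  unfold zeta2
  apply tsum_nonneg
  intro m
  split_ifs <;> positivity

lemma Dsf_nonneg : 0 ≤ Dsf := by
  unfold Dsf
  have := zeta2_nonneg
  positivity

theorem rhoOne_of {ρ : Eis → ℂ} (hpos : 0 < (ρ 1).re) (him : (ρ 1).im = 0)
    (hsq : ‖ρ 1‖ ^ 2 = (pC * Dsf) ^ 2) : RhoOne ρ := by
  unfold RhoOne
  have h1 : ρ 1 = (((ρ 1).re : ℝ) : ℂ) := by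
    apply Complex.ext
    · simp
    · simp [him]
  have h2 : ‖ρ 1‖ = (ρ 1).re := by
    rw [h1, Complex.norm_real, Real.norm_of_nonneg]
    · simp
    · simpa using hpos.le
  rw [h2] at hsq
  have h3 : (ρ 1).re = pC * Dsf := by
    have h4 : 0 ≤ pC * Dsf := mul_nonneg pC_pos.le Dsf_nonneg
    exact (pow_left_inj₀ hpos.le h4 (by norm_num)).mp hsq
  rw [h1, h3]


end Crest.Agent.R012.Sg51
end
end

-- ▼ part R012/Rho2_777
section

/-!
# Row 12, item MC2: from the interface `SpecM_49` to the hypotheses of `Rho_777`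
-/

set_option autoImplicit false
set_option linter.unusedSimpArgs false
set_option linter.unusedVariables false

noncomputable section

open Complex Filter Topology

namespace Crest.Agent.R012.Rho777

open Crest.Agent.R012 Crest.Agent.R012.Eis Crest.Agent.R012.MC Crest.Agent.R012.Gauss880
open Crest.Agent.R012.Sym645 (prim_induction)
open Crest.Agent.R012.Char766 (exists_prim_cubic_decomp)

/-! ### the mean square theorem -/

lemma wt_of_wgt {v : ℝ → ℝ} (hv : Wgt v) : M49.Wt (fun x => ((v x : ℝ) : ℂ)) := by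
  obtain ⟨a, b, ha, hab, h⟩ := hv.exists_bounds
  refine ⟨Complex.ofRealCLM.contDiff.comp hv.smooth, a, b, ha, hab, fun x hx => ?_⟩
  have : v x = 0 := by
    by_contra hne
    obtain ⟨h1, h2⟩ := h x hne
    rcases hx with hx | hx <;> linarith
  simp [this]

lemma SS_eq_Mg (v : ℝ → ℝ) (h : Eis) (X : ℝ) :
    M49.SS 0 0 (fun x => ((v x : ℝ) : ℂ)) h X = Mg v X h := by
  unfold M49.SS Mg
  apply tsum_congr
  intro d
  split_ifs with hd
  · simp [ang]
  · rfl

lemma mellin_eq_mel {v : ℝ → ℝ} (s : ℝ) :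
    mellin (fun x => ((v x : ℝ) : ℂ)) (s : ℂ) = ((mel v s : ℝ) : ℂ) := by
  unfold mellin mel
  rw [← integral_complex_ofReal]
  apply MeasureTheory.setIntegral_congr_fun measurableSet_Ioi
  intro x hx
  simp only [Set.mem_Ioi] at hx
  simp only [smul_eq_mul]
  rw [show (s : ℂ) - 1 = ((s - 1 : ℝ) : ℂ) by push_cast; ring, ← Complex.ofReal_cpow hx.le]
  push_cast
  ring

/-- The mean square theorem of `SpecM_49` gives `TI` for every nonzero `r`. -/
theorem TI_of_MS {ρ : Eis → ℂ} (hMS : M49.MS ρ) {r : Eis} (hr : r ≠ 0) : TI ρ r := by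
  intro v hv ε hε
  obtain ⟨C, hC⟩ := hMS 0 _ (wt_of_wgt hv) ε hε
  have hR : (1 : ℝ) ≤ nm r := by exact_mod_cast nm_pos.mpr hr
  refine ⟨|C| * (2 * nm r : ℝ) ^ ε * nm r, fun A B hA hAB => ?_⟩
  have hA0 : 0 < A := by linarith
  have hB0 : 0 < B := by linarith
  have hB1 : 1 ≤ B := by linarith
  set N : ℕ := nm r * ⌊A⌋₊ with hN
  have hfl : 1 ≤ ⌊A⌋₊ := Nat.le_floor (by simpa using hA)
  have hN1 : 1 ≤ N := Nat.mul_pos (nm_pos.mpr hr) hfl
  have h := hC N B 0 hN1 hB0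
  -- compare the left sides
  have hle : ∑ a ∈ primBall ⌊A⌋₊,
      ‖Mg v B (r * a) - ρ (r * a) * ((mel v (5 / 6) * B ^ (5 / 6 : ℝ) : ℝ) : ℂ)‖ ^ 2 ≤
      ∑ h ∈ ball N, ‖M49.SS 0 0 (fun x => ((v x : ℝ) : ℂ)) h B - (if (0 : ℤ) = 0 then
        ρ h * mellin (fun x => ((v x : ℝ) : ℂ)) ((5 : ℂ) / 6 + (0 : ℝ) * Complex.I) *
          (B : ℂ) ^ ((5 : ℂ) / 6 + (0 : ℝ) * Complex.I) else 0)‖ ^ 2 := by
    have hinj : Set.InjOn (fun a : Eis => r * a) ((primBall ⌊A⌋₊ : Finset Eis) : Set Eis) :=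
      fun a _ b _ hab => mul_left_cancel₀ hr hab
    have e : ∑ a ∈ primBall ⌊A⌋₊,
        ‖Mg v B (r * a) - ρ (r * a) * ((mel v (5 / 6) * B ^ (5 / 6 : ℝ) : ℝ) : ℂ)‖ ^ 2 =
        ∑ h ∈ (primBall ⌊A⌋₊).image (fun a => r * a),
        ‖Mg v B h - ρ h * ((mel v (5 / 6) * B ^ (5 / 6 : ℝ) : ℝ) : ℂ)‖ ^ 2 := by
      rw [Finset.sum_image hinj]
    rw [e]
    have e2 : ∀ h : Eis, ‖M49.SS 0 0 (fun x => ((v x : ℝ) : ℂ)) h B - (if (0 : ℤ) = 0 then
        ρ h * mellin (fun x => ((v x : ℝ) : ℂ)) ((5 : ℂ) / 6 + (0 : ℝ) * Complex.I) *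
          (B : ℂ) ^ ((5 : ℂ) / 6 + (0 : ℝ) * Complex.I) else 0)‖ ^ 2 =
        ‖Mg v B h - ρ h * ((mel v (5 / 6) * B ^ (5 / 6 : ℝ) : ℝ) : ℂ)‖ ^ 2 := by
      intro h
      rw [if_pos rfl, SS_eq_Mg]
      have h1 : ((5 : ℂ) / 6 + (0 : ℝ) * Complex.I) = ((5 / 6 : ℝ) : ℂ) := by push_cast; ring
      rw [h1, mellin_eq_mel, ← Complex.ofReal_cpow hB0.le]
      push_cast
      ring_nf
    rw [Finset.sum_congr rfl (fun h _ => e2 h)]
    apply Finset.sum_le_sum_of_subset_of_nonneg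
    · intro h hh
      obtain ⟨a, ha, rfl⟩ := Finset.mem_image.mp hh
      rw [mem_ball, nm_mul, hN]
      exact Nat.mul_le_mul_left _ (mem_primBall.mp ha).1
    · intro i _ _; positivity
  refine hle.trans (h.trans ?_)
  -- compare the right sides
  have hNA : (N : ℝ) ≤ nm r * A := by
    rw [hN]; push_cast
    exact mul_le_mul_of_nonneg_left (Nat.floor_le hA0.le) (by positivity)
  have hN0 : (0 : ℝ) < N := by exact_mod_cast hN1
  simp only [abs_zero, add_zero, one_mul, ne_eq, OfNat.ofNat_ne_zero, not_false_eq_true, zero_pow]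
  have b1 : ((1 + B) * N) ^ ε ≤ (2 * nm r : ℝ) ^ ε * (A * B) ^ ε := by
    rw [← Real.mul_rpow (by positivity) (by positivity)]
    apply Real.rpow_le_rpow (by positivity) _ hε.le
    calc (1 + B) * N ≤ (2 * B) * (nm r * A) :=
          mul_le_mul (by linarith) hNA hN0.le (by positivity)
      _ = 2 * nm r * (A * B) := by ring
  have b2 : (N : ℝ) * B ≤ nm r * (A * B) := by
    calc (N : ℝ) * B ≤ (nm r * A) * B := mul_le_mul_of_nonneg_right hNA hB0.le
      _ = nm r * (A * B) := by ring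
  calc C * ((1 + B) * N) ^ ε * ((N : ℝ) * B)
      ≤ |C| * ((1 + B) * N) ^ ε * ((N : ℝ) * B) := by
        apply mul_le_mul_of_nonneg_right _ (by positivity)
        exact mul_le_mul_of_nonneg_right (le_abs_self C) (by positivity)
    _ ≤ |C| * ((2 * nm r : ℝ) ^ ε * (A * B) ^ ε) * (nm r * (A * B)) := by
        apply mul_le_mul _ b2 (by positivity) (by positivity)
        exact mul_le_mul_of_nonneg_left b1 (abs_nonneg _)
    _ = |C| * (2 * nm r : ℝ) ^ ε * nm r * (A * B) * (A * B) ^ ε := by ring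

/-! ### the relations between the residues -/

/-- `r` is divisible by no primary prime, i.e. `r = unit · λ^j`. -/
def Lamish (r : Eis) : Prop := r ≠ 0 ∧ ∀ p, Prime p → IsPrim p → ¬ p ∣ r


lemma Lamish.isCoprime {r : Eis} (hr : Lamish r) {c : Eis} (hc : IsPrim c) : IsCoprime r c := by
  refine isCoprime_of_prime_dvd (fun h => hc.ne_zero h.2) (fun q hq hqr hqc => ?_)
  have hql : ¬ lam ∣ q := fun h => hc.not_lam_dvd (h.trans hqc)
  have h1 : Prime (prim q) := (prim_associated q).prime_iff.mp hq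
  exact hr.2 (prim q) h1 (prim_isPrim hql) ((prim_associated q).symm.dvd.trans hqr)

/-- `gs r c = 0` for non-squarefree primary `c`. -/
lemma gs_zero (H : SyG) {r : Eis} (hr : Lamish r) (c : Eis) (hc : IsPrim c)
    (hsf : ¬ Squarefree c) : gs r c = 0 := by
  rw [gs_of_coprime H hc (hr.isCoprime hc), gs_one_eq_zero H hc hsf, mul_zero]

lemma rho_cube_pow {ρ : Eis → ℂ} (hρ : M49.RhoRel ρ) {k : Eis} (hk : IsPrim k) :
    ∀ h : Eis, ρ (h * k ^ 3) = ρ h := by
  refine prim_induction ?_ ?_ hk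
  · intro h; simp
  · intro p b hp hpp hb ih h
    rw [mul_pow, show h * (p ^ 3 * b ^ 3) = (h * b ^ 3) * p ^ 3 by ring, hρ.three_p p _ hp hpp, ih]

lemma rho_sqf (H : SyG) {ρ : Eis → ℂ} (hρ : M49.RhoRel ρ) {r : Eis} (hr : Lamish r) {a : Eis}
    (ha : IsPrim a) : Squarefree a →
    ρ (r * a) = (starRingEnd ℂ) (Gr r a) * (((nm a : ℝ) ^ (-1 / 6 : ℝ) : ℝ) : ℂ) * ρ r := by
  refine prim_induction ?_ ?_ ha
  · intro _
    have h1 : gs r 1 = 1 := by
      rw [gs_of_coprime H isPrim_one isCoprime_one_right]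
      have h2 : ‖gs 1 1‖ ^ 2 = nm 1 := norm_gs_sq H isPrim_one squarefree_one isCoprime_one_right
      have h3 : gs (1 : Eis) 1 = gs 1 1 * gs 1 1 := by
        simpa using gs_mul' H isPrim_one isPrim_one isCoprime_one_right 1
      have h4 : gs (1 : Eis) 1 ≠ 0 := by
        intro h; rw [h] at h2; simp at h2
      have h5 : gs (1 : Eis) 1 = 1 :=
        mul_left_cancel₀ h4 (by rw [mul_one]; exact h3.symm)
      have h6 : sy r 1 = 1 := by simp [sy, UniqueFactorizationMonoid.factors_one]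
      rw [h5, h6]; simp
    simp [Gr, h1]
  · intro p b hp hpp hb ih hsf
    have hsb : Squarefree b := hsf.of_mul_right
    have hpb : ¬ p ∣ b := by
      intro h
      obtain ⟨t, rfl⟩ := h
      exact hp.not_isUnit (hsf p ⟨t, by ring⟩)
    have hprb : ¬ p ∣ r * b := by
      intro h
      rcases hp.dvd_or_dvd h with h | h
      · exact hr.2 p hp hpp h
      · exact hpb h
    rw [show r * (p * b) = (r * b) * p by ring, hρ.one_p p (r * b) hp hpp hprb, ih hsb]
    have hcop : IsCoprime p b := hp.irreducible.coprime_iff_not_dvd.mpr hpb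
    have hg := gs_mul' H hpp hb hcop r
    have hp0 : (0 : ℝ) < nm p := by exact_mod_cast nm_pos.mpr hp.ne_zero
    have hb0 : (0 : ℝ) < nm b := by exact_mod_cast nm_pos.mpr hb.ne_zero
    have e1 : (((nm (p * b) : ℕ) : ℝ)) = nm p * nm b := by rw [nm_mul]; push_cast; ring
    unfold Gr
    rw [hg, e1, Real.sqrt_mul hp0.le, Real.mul_rpow hp0.le hb0.le]
    have e2 : (-(1 : ℝ) / 6) = (-1 / 6 : ℝ) := by norm_num
    rw [e2]
    simp only [map_div₀, map_mul, Complex.ofReal_mul]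
    ring

lemma rhoR_of_rhoRel (H : SyG) {ρ : Eis → ℂ} (hρ : M49.RhoRel ρ) {r : Eis} (hr : Lamish r) :
    RhoR ρ r := by
  constructor
  · intro a k ha hk hsa
    rw [← mul_assoc, rho_cube_pow hρ hk, rho_sqf H hρ hr ha hsa]
  · intro a ha hne
    obtain ⟨k1, k2, m, h1, h2, h3, s1, s2, hc, rfl⟩ := exists_prim_cubic_decomp ha
    have hk2 : k2 ≠ 1 := by
      rintro rfl
      exact hne ⟨k1, m, h1, h3, s1, by ring⟩
    obtain ⟨p, hp, hpp, hpk⟩ := exists_prim_prime_dvd h2 hk2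
    obtain ⟨t, rfl⟩ := hpk
    rw [show r * (k1 * (p * t) ^ 2 * m ^ 3) = (r * k1 * t ^ 2 * p ^ 2) * m ^ 3 by ring,
      rho_cube_pow hρ h3]
    apply hρ.two_p p _ hp hpp
    intro h
    rcases hp.dvd_or_dvd h with h | h
    · rcases hp.dvd_or_dvd h with h | h
      · exact hr.2 p hp hpp h
      · have := hc.isUnit_of_dvd' h (dvd_mul_right p t)
        exact hp.not_isUnit this
    · have h' := hp.dvd_of_dvd_pow h
      obtain ⟨s, rfl⟩ := h'
      exact hp.not_isUnit (s2 p ⟨s, by ring⟩)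

/-- **Item MC2, final form**: from the interface of part (M). -/
theorem rho_sq_of_spec (H : SyG) {ρ : Eis → ℂ} (hMS : M49.MS ρ) (hρ : M49.RhoRel ρ) {r : Eis}
    (hr : Lamish r) {κ δ : ℝ} (hδ : 0 < δ) (hδ1 : δ < 1)
    (hR : ∀ w v : ℝ → ℝ, Wgt w → Wgt v →
      Tendsto (fun B : ℝ => SwR r w v (B ^ (1 - δ)) B /
        ((B ^ (2 / 3 * (1 - δ) + 5 / 6 : ℝ) : ℝ) : ℂ)) atTop
      (𝓝 ((8 * Real.pi / 81 * Dc * Iw w * mel v (5 / 6) * κ : ℝ) : ℂ)))
    (hT : ∀ w : ℝ → ℝ, Wgt w → Iw w = Real.pi ^ (1 / 3 : ℝ) * 2 ^ (-5 / 3 : ℝ) *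
      Real.Gamma (1 / 3) / Real.Gamma (2 / 3) * mel w (2 / 3)) :
    ‖ρ r‖ ^ 2 = (pC * Dc) ^ 2 * κ :=
  rho_sq (gs_zero H hr) (TI_of_MS hMS hr.1) (rhoR_of_rhoRel H hρ hr) hδ hδ1 hR hT

lemma Dsf_eq : M49.Dsf = Dc := by
  unfold M49.Dsf Dc M49.zeta2 Zc
  congr 1
  apply tsum_congr
  intro m
  split_ifs
  · rw [one_div]
  · rfl

end Crest.Agent.R012.Rho777
end
end

-- ▼ part R012/Char_766
section

/-!
# Row 12 (R2b): the characters `b ↦ (h/b)` on primary elements

Everything is stated relative to `Suppl` (facts following from the supplementary laws).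
-/

set_option autoImplicit false
set_option linter.unusedSimpArgs false
set_option linter.unusedVariables false

noncomputable section

namespace Crest.Agent.R012.Char766

open Crest.Agent.R012 Crest.Agent.R012.Eis

/-- What is needed from the supplementary laws. -/
structure Suppl : Prop where
  w9 : ∀ a b : Eis, IsPrim a → IsPrim b → (9 : Eis) ∣ a - b → sy w a = sy w b
  lam9 : ∀ a b : Eis, IsPrim a → IsPrim b → (9 : Eis) ∣ a - b → sy lam a = sy lam b
  w_val : sy w (1 + 3 * w) = wC ^ 2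
  lam_val : sy lam (1 + 3 * w) = 1
  lam_val' : sy lam 4 = wC

/-! ### values -/

lemma wC_ne_one : wC ≠ 1 := by
  intro h
  have := congrArg Complex.im h
  simp [wC] at this

lemma wC_sq_ne_one : wC ^ 2 ≠ 1 := by
  intro h
  have h3 := wC_cube
  rw [pow_succ, h, one_mul] at h3
  exact wC_ne_one h3

lemma wC_pow_ne_one {e : ℕ} (he : ¬ 3 ∣ e) : wC ^ e ≠ 1 := by
  intro h
  have h3 := wC_cube
  obtain ⟨q, hq⟩ : ∃ q, e = 3 * q + 1 ∨ e = 3 * q + 2 := ⟨e / 3, by omega⟩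
  rcases hq with hq | hq
  · rw [hq, pow_add, pow_mul, h3, one_pow, one_mul, pow_one] at h
    exact wC_ne_one h
  · rw [hq, pow_add, pow_mul, h3, one_pow, one_mul] at h
    exact wC_sq_ne_one h

lemma sy_ne_zero {x c : Eis} (hc : IsPrim c) (h : IsCoprime x c) : sy x c ≠ 0 := by
  intro h0
  exact (Sym645.sy_eq_zero_iff (Sym645.prim_nm_mod hc)).mp h0 h

lemma sy_eq_zero {x c : Eis} (hc : IsPrim c) (h : ¬ IsCoprime x c) : sy x c = 0 :=
  (Sym645.sy_eq_zero_iff (Sym645.prim_nm_mod hc)).mpr h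

lemma sy_cube {x c : Eis} (hc : IsPrim c) (h : IsCoprime x c) : sy x c ^ 3 = 1 :=
  Sym645.sy_cube (Sym645.prim_nm_mod hc) h


lemma norm_sy {x c : Eis} (hc : IsPrim c) (h : IsCoprime x c) : ‖sy x c‖ = 1 :=
  Sym645.norm_sy_of_isCoprime (Sym645.prim_nm_mod hc) h

lemma sy_mul_left {x y c : Eis} (hc : IsPrim c) : sy (x * y) c = sy x c * sy y c :=
  Sym645.sy_mul_left (Sym645.prim_nm_mod hc) x y

lemma sy_pow_left {x c : Eis} (hc : IsPrim c) (n : ℕ) : sy (x ^ n) c = sy x c ^ n :=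
  Sym645.sy_pow_left (Sym645.prim_nm_mod hc) x n

lemma sy_mul_right {x c d : Eis} (hc : IsPrim c) (hd : IsPrim d) :
    sy x (c * d) = sy x c * sy x d :=
  Sym645.sy_mul_right x hc.ne_zero hd.ne_zero

lemma sy_congr {x y c : Eis} (hc : IsPrim c) (h : c ∣ x - y) : sy x c = sy y c :=
  Sym645.sy_congr (Sym645.prim_nm_mod hc) h

lemma sy_one_left {c : Eis} (hc : IsPrim c) : sy 1 c = 1 :=
  Sym645.sy_one_left (Sym645.prim_nm_mod hc)

lemma sy_one_right (x : Eis) : sy x 1 = 1 := Sym645.sy_one_right x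

/-- `(m³/b) = 1` for `b` coprime to `m`. -/
lemma sy_cube_left {m b : Eis} (hb : IsPrim b) (h : IsCoprime m b) : sy (m ^ 3) b = 1 := by
  rw [sy_pow_left hb, sy_cube hb h]

/-- conjugation is squaring on the values of the symbol -/
lemma conj_sy {x c : Eis} (hc : IsPrim c) : (starRingEnd ℂ) (sy x c) = sy x c ^ 2 := by
  by_cases h : IsCoprime x c
  · have h1 := norm_sy hc h
    have h3 := sy_cube hc h
    have h0 := sy_ne_zero hc h
    have h2 : sy x c * (starRingEnd ℂ) (sy x c) = 1 := by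
      rw [Complex.mul_conj, Complex.normSq_eq_norm_sq, h1]; simp
    apply mul_left_cancel₀ h0
    rw [h2, ← h3]; ring
  · rw [sy_eq_zero hc h]; simp


/-! ### `(h/b)` in terms of a decomposition of `h` -/

lemma sy_unit_lam {e h k : Eis} {i j : ℕ} (he : e = 1 ∨ e = -1) (hk : IsPrim k)
    (hh : h = e * w ^ i * lam ^ j * k) {b : Eis} (hb : IsPrim b) :
    sy h b = sy w b ^ i * sy lam b ^ j * sy b k := by
  have h1 : sy e b = 1 := by
    rcases he with rfl | rfl
    · exact sy_one_left hb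
    · rw [Sym645.sy_neg (Sym645.prim_nm_mod hb), sy_one_left hb]
  rw [hh, sy_mul_left hb, sy_mul_left hb, sy_mul_left hb, h1, one_mul, sy_pow_left hb,
    sy_pow_left hb, Sym645.sy_reciprocity hk hb]

/-- The cubic decomposition of the character. -/
theorem IsCubDec.sy_eq {h : Eis} {i j : ℕ} {k1 k2 m : Eis} (hd : IsCubDec h i j k1 k2 m)
    {b : Eis} (hb : IsPrim b) (hm : IsCoprime m b) :
    sy h b = sy w b ^ i * sy lam b ^ j * sy b k1 * (starRingEnd ℂ) (sy b k2) := by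
  rw [hd.eq, sy_mul_left hb, sy_cube_left hb hm, mul_one, sy_mul_left hb, sy_mul_left hb,
    sy_mul_left hb, sy_pow_left hb, sy_pow_left hb, sy_pow_left hb,
    Sym645.sy_reciprocity hd.prim1 hb, Sym645.sy_reciprocity hd.prim2 hb, conj_sy hd.prim2]

/-- and when `m` is not coprime to `b` the symbol vanishes -/
theorem IsCubDec.sy_eq_zero {h : Eis} {i j : ℕ} {k1 k2 m : Eis} (hd : IsCubDec h i j k1 k2 m)
    {b : Eis} (hb : IsPrim b) (hm : ¬ IsCoprime m b) : sy h b = 0 := by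
  apply Char766.sy_eq_zero hb
  intro hc
  apply hm
  rw [hd.eq] at hc
  exact (hc.of_mul_left_right).of_isCoprime_of_dvd_left (dvd_pow_self m three_ne_zero)

/-! ### Periodicity -/

section
variable (S : Suppl)
include S

theorem sy_periodic' {e h k : Eis} {i j : ℕ} (he : e = 1 ∨ e = -1) (hk : IsPrim k)
    (hh : h = e * w ^ i * lam ^ j * k) {a b : Eis} (ha : IsPrim a) (hb : IsPrim b)
    (h9 : (9 : Eis) ∣ a - b) (hkd : k ∣ a - b) : sy h a = sy h b := by
  rw [sy_unit_lam he hk hh ha, sy_unit_lam he hk hh hb, S.w9 a b ha hb h9,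
    S.lam9 a b ha hb h9, sy_congr hk hkd]

/-- `b ↦ (h/b)` is periodic modulo `9 h` on primary elements. -/
theorem sy_periodic {h a b : Eis} (hh : h ≠ 0) (ha : IsPrim a) (hb : IsPrim b)
    (hd : 9 * h ∣ a - b) : sy h a = sy h b := by
  obtain ⟨e, i, j, k, he, hi, hk, hdec⟩ := exists_unit_lam_prim hh
  refine sy_periodic' S he hk hdec ha hb ((dvd_mul_right 9 h).trans hd) ?_
  have h1 : k ∣ h := ⟨e * w ^ i * lam ^ j, by rw [hdec]; ring⟩
  exact (h1.trans (dvd_mul_left h 9)).trans hd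


end

/-! ### Chinese remainders -/

lemma crt {a b : Eis} (h : IsCoprime a b) (x y : Eis) : ∃ z, a ∣ z - x ∧ b ∣ z - y := by
  obtain ⟨u, v, huv⟩ := h
  refine ⟨x * (v * b) + y * (u * a), ?_, ?_⟩
  · exact ⟨(y - x) * u, by linear_combination x * huv⟩
  · exact ⟨(x - y) * v, by linear_combination y * huv⟩

lemma coprime_of_dvd_sub {a b c : Eis} (h : c ∣ a - b) (hb : IsCoprime b c) : IsCoprime a c := by
  obtain ⟨t, ht⟩ := h
  have : a = b + c * t := by rw [← ht]; ring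
  rw [this]
  exact hb.add_mul_left_left t

/-- A nonzero `M` is `p^n M'` with `p ∤ M'`. -/
lemma split_prime {p M : Eis} (hp : Prime p) (hM : M ≠ 0) :
    ∃ (n : ℕ) (M' : Eis), M' ≠ 0 ∧ IsCoprime p M' ∧ M = p ^ n * M' := by
  obtain ⟨x, hx1, hx2⟩ := (finMult hp hM).exists_eq_pow_mul_and_not_dvd
  refine ⟨multiplicity p M, x, ?_, hp.irreducible.coprime_iff_not_dvd.mpr hx2, hx1⟩
  rintro rfl
  exact hx2 (dvd_zero p)

lemma exists_nonres {p : Eis} (hp : Prime p) (hpp : IsPrim p) : ∃ g, sy g p = wC := by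
  have : Fact (Prime p) := ⟨hp⟩
  obtain ⟨x, hx⟩ := Sym645.exists_cu_eq_w (p := p) (Sym645.prim_nm_mod hpp)
  exact ⟨x, by rw [Sym645.sy_prime_cu x hp, hx, toC_w]⟩

lemma coprime_of_sy_ne_zero {x c : Eis} (hc : IsPrim c) (h : sy x c ≠ 0) : IsCoprime x c := by
  by_contra hn
  exact h (sy_eq_zero hc hn)

/-- a primary element different from `1` has a primary prime factor -/
lemma exists_prim_prime_dvd {k : Eis} (hk : IsPrim k) (h1 : k ≠ 1) :
    ∃ p, Prime p ∧ IsPrim p ∧ p ∣ k := by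
  have hu : ¬ IsUnit k := fun h => h1 (Sym645.prim_unit_eq_one h hk)
  obtain ⟨q, hq, hqk⟩ := WfDvdMonoid.exists_irreducible_factor hu hk.ne_zero
  have hql : ¬ lam ∣ q := fun h => hk.not_lam_dvd (h.trans hqk)
  exact ⟨prim q, (prim_associated q).prime hq.prime, prim_isPrim hql,
    (prim_associated q).dvd_iff_dvd_left.mp hqk⟩

lemma nine_eq : (9 : Eis) = (-w ^ 2) ^ 2 * lam ^ 4 := by
  have h := three_eq
  calc (9 : Eis) = 3 * 3 := by norm_num
    _ = (-w ^ 2 * lam ^ 2) * (-w ^ 2 * lam ^ 2) := by rw [← h]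
    _ = _ := by ring

lemma IsPrim.coprime_pow_lam {x : Eis} (hx : IsPrim x) (n : ℕ) : IsCoprime x (lam ^ n) :=
  hx.isCoprime_lam.pow_right

/-- The case of a primary prime `p`: there is `b ≡ 1` modulo everything prime to `p`. -/
lemma exists_test {p M : Eis} (hp : Prime p) (hpp : IsPrim p) (hM : M ≠ 0) (h9 : (9 : Eis) ∣ M) :
    ∃ b, IsPrim b ∧ IsCoprime b M ∧ sy b p = wC ∧ (9 : Eis) ∣ b - 1 ∧
      ∀ c, IsCoprime p c → c ∣ M → c ∣ b - 1 := by
  obtain ⟨n, M', hM', hc, hMM⟩ := split_prime hp hM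
  obtain ⟨g, hg⟩ := exists_nonres hp hpp
  obtain ⟨b, hb1, hb2⟩ := crt hc g 1
  have hcM : ∀ c, IsCoprime p c → c ∣ M → c ∣ b - 1 := by
    intro c hpc hcM
    refine dvd_trans ?_ hb2
    rw [hMM] at hcM
    exact (hpc.pow_left (m := n)).symm.dvd_of_dvd_mul_left hcM
  have hp9 : IsCoprime p 9 := by
    rw [nine_eq]
    exact IsCoprime.mul_right (isCoprime_of_isUnit (((isUnit_w.pow 2).neg).pow 2) p).symm
      (IsPrim.coprime_pow_lam hpp 4)
  have h9b := hcM 9 hp9 h9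
  have hbp : sy b p = wC := by rw [sy_congr hpp hb1, hg]
  refine ⟨b, ?_, ?_, hbp, h9b, hcM⟩
  · unfold IsPrim
    exact dvd_trans ⟨3, by norm_num⟩ h9b
  · rw [hMM]
    apply IsCoprime.mul_right
    · apply IsCoprime.pow_right
      apply coprime_of_sy_ne_zero hpp
      rw [hbp]; exact wC_ne_zero
    · exact coprime_of_dvd_sub hb2 isCoprime_one_left

/-- The prime `lam`. -/
lemma exists_test_lam {M : Eis} (hM : M ≠ 0) {d : Eis} (hd : IsPrim d) :
    ∃ b, IsPrim b ∧ IsCoprime b M ∧ (9 : Eis) ∣ b - d := by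
  obtain ⟨n, M', hM', hc, hMM⟩ := split_prime prime_lam hM
  have hc9 : IsCoprime (9 : Eis) M' := by
    rw [nine_eq]
    exact IsCoprime.mul_left (isCoprime_of_isUnit (((isUnit_w.pow 2).neg).pow 2) M')
      (hc.pow_left)
  obtain ⟨b, hb1, hb2⟩ := crt hc9 d 1
  have hbP : IsPrim b := by
    unfold IsPrim at *
    have : b - 1 = (b - d) + (d - 1) := by ring
    rw [this]
    exact dvd_add (dvd_trans ⟨3, by norm_num⟩ hb1) hd
  refine ⟨b, hbP, ?_, hb1⟩
  rw [hMM]
  exact IsCoprime.mul_right (IsPrim.coprime_pow_lam hbP n)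
    (coprime_of_dvd_sub hb2 isCoprime_one_left)

section
variable (S : Suppl)
include S

/-- **Nontriviality.** For `h` not a cube and any `Q ≠ 0` there is a primary `b` coprime to
`Q` and `h` with `(h/b) ≠ 1`. -/
theorem exists_sy_ne_one {h : Eis} (hh : h ≠ 0) (hcube : ¬ ∃ t, h = t ^ 3) {Q : Eis}
    (hQ : Q ≠ 0) : ∃ b, IsPrim b ∧ IsCoprime b Q ∧ IsCoprime h b ∧ sy h b ≠ 1 := by
  obtain ⟨i, j, k1, k2, m, hd⟩ := exists_isCubDec hh
  have h9 : (9 : Eis) ≠ 0 := by norm_num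
  set M : Eis := 9 * h * Q with hMdef
  have hM : M ≠ 0 := mul_ne_zero (mul_ne_zero h9 hh) hQ
  have h9M : (9 : Eis) ∣ M := ⟨h * Q, by rw [hMdef]; ring⟩
  have hhM : h ∣ M := ⟨9 * Q, by rw [hMdef]; ring⟩
  have hQM : Q ∣ M := ⟨9 * h, by rw [hMdef]; ring⟩
  have hk1h : k1 ∣ h := ⟨w ^ i * lam ^ j * k2 ^ 2 * m ^ 3, by rw [hd.eq]; ring⟩
  have hk2h : k2 ∣ h := ⟨w ^ i * lam ^ j * k1 * k2 * m ^ 3, by rw [hd.eq]; ring⟩
  have hmh : m ∣ h := ⟨w ^ i * lam ^ j * k1 * k2 ^ 2 * m ^ 2, by rw [hd.eq]; ring⟩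
  have hcopM : ∀ {b : Eis}, IsCoprime b M → IsCoprime b Q ∧ IsCoprime h b ∧ IsCoprime m b := by
    intro b hb
    exact ⟨hb.of_isCoprime_of_dvd_right hQM, (hb.of_isCoprime_of_dvd_right hhM).symm,
      (hb.of_isCoprime_of_dvd_right (hmh.trans hhM)).symm⟩
  have hw1 : ∀ {b : Eis}, IsPrim b → (9 : Eis) ∣ b - 1 → sy w b = 1 ∧ sy lam b = 1 := by
    intro b hb h9
    exact ⟨by rw [S.w9 b 1 hb isPrim_one h9, sy_one_right],
      by rw [S.lam9 b 1 hb isPrim_one h9, sy_one_right]⟩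
  by_cases h1 : k1 = 1
  · by_cases h2 : k2 = 1
    · -- `h = w^i lam^j m^3`
      subst h1 h2
      have hij : ¬ (i = 0 ∧ j = 0) := by
        rintro ⟨rfl, rfl⟩
        exact hcube (hd.isCube_iff.mpr ⟨rfl, rfl, rfl, rfl⟩)
      have hval : ∀ {b d : Eis}, IsPrim b → IsPrim d → (9 : Eis) ∣ b - d → IsCoprime b M →
          sy h b = sy w d ^ i * sy lam d ^ j := by
        intro b d hb hdP h9 hbM
        rw [hd.sy_eq hb (hcopM hbM).2.2, sy_one_right, S.w9 b d hb hdP h9,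
          S.lam9 b d hb hdP h9]
        simp
      have hP1 : IsPrim (1 + 3 * w) := isPrim_add_mul isPrim_one w
      have hP2 : IsPrim (4 : Eis) := by
        unfold IsPrim; exact ⟨1, by norm_num⟩
      have hi := hd.hi
      have hj := hd.hj
      by_cases hi0 : i = 0
      · obtain ⟨b, hb1, hb2, hb3⟩ := exists_test_lam hM hP2
        refine ⟨b, hb1, (hcopM hb2).1, (hcopM hb2).2.1, ?_⟩
        rw [hval hb1 hP2 hb3 hb2, hi0, pow_zero, one_mul, S.lam_val']
        apply wC_pow_ne_one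
        omega
      · obtain ⟨b, hb1, hb2, hb3⟩ := exists_test_lam hM hP1
        refine ⟨b, hb1, (hcopM hb2).1, (hcopM hb2).2.1, ?_⟩
        rw [hval hb1 hP1 hb3 hb2, S.lam_val, one_pow, mul_one, S.w_val, ← pow_mul]
        apply wC_pow_ne_one
        omega
    · -- a prime dividing `k2`
      obtain ⟨p, hp, hpp, hpk⟩ := exists_prim_prime_dvd hd.prim2 h2
      obtain ⟨b, hb1, hb2, hb3, hb4, hb5⟩ := exists_test hp hpp hM h9M
      obtain ⟨c1, c2, c3⟩ := hcopM hb2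
      refine ⟨b, hb1, c1, c2, ?_⟩
      obtain ⟨t, ht⟩ := hpk
      have htP : IsPrim t := (ht ▸ hd.prim2).of_mul_left hpp
      have hpt : IsCoprime p t := by
        rw [hp.irreducible.coprime_iff_not_dvd]
        rintro ⟨s, hs⟩
        refine hp.not_isUnit (hd.sqf2 p ⟨s, ?_⟩)
        rw [ht, hs]; ring
      have hpk1 : IsCoprime p k1 := (hd.cop.symm).of_isCoprime_of_dvd_left ⟨t, ht⟩
      have e1 : sy b k1 = 1 := by
        rw [sy_congr hd.prim1 (hb5 k1 hpk1 (hk1h.trans hhM)), sy_one_left hd.prim1]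
      have e2 : sy b k2 = wC := by
        rw [ht, sy_mul_right hpp htP, hb3,
          sy_congr htP (hb5 t hpt ((Dvd.intro_left p ht.symm).trans (hk2h.trans hhM))),
          sy_one_left htP, mul_one]
      have e3 : (starRingEnd ℂ) (sy b k2) = wC ^ 2 := by
        rw [conj_sy hd.prim2, e2]
      rw [hd.sy_eq hb1 c3, (hw1 hb1 hb4).1, (hw1 hb1 hb4).2, e1, e3]
      simpa using wC_sq_ne_one
  · -- a prime dividing `k1`
    obtain ⟨p, hp, hpp, hpk⟩ := exists_prim_prime_dvd hd.prim1 h1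
    obtain ⟨b, hb1, hb2, hb3, hb4, hb5⟩ := exists_test hp hpp hM h9M
    obtain ⟨c1, c2, c3⟩ := hcopM hb2
    refine ⟨b, hb1, c1, c2, ?_⟩
    obtain ⟨t, ht⟩ := hpk
    have htP : IsPrim t := (ht ▸ hd.prim1).of_mul_left hpp
    have hpt : IsCoprime p t := by
      rw [hp.irreducible.coprime_iff_not_dvd]
      rintro ⟨s, hs⟩
      refine hp.not_isUnit (hd.sqf1 p ⟨s, ?_⟩)
      rw [ht, hs]; ring
    have hpk2 : IsCoprime p k2 := (hd.cop).of_isCoprime_of_dvd_left ⟨t, ht⟩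
    have e1 : sy b k2 = 1 := by
      rw [sy_congr hd.prim2 (hb5 k2 hpk2 (hk2h.trans hhM)), sy_one_left hd.prim2]
    have e2 : sy b k1 = wC := by
      rw [ht, sy_mul_right hpp htP, hb3,
        sy_congr htP (hb5 t hpt ((Dvd.intro_left p ht.symm).trans (hk1h.trans hhM))),
        sy_one_left htP, mul_one]
    rw [hd.sy_eq hb1 c3, (hw1 hb1 hb4).1, (hw1 hb1 hb4).2, e1, e2]
    simpa using wC_ne_one

end

/-! ### The square of the character -/

lemma IsCubDec.sq {h : Eis} {i j : ℕ} {k1 k2 m : Eis} (hd : IsCubDec h i j k1 k2 m) :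
    ∃ m' : Eis, IsCubDec (h ^ 2) (2 * i % 3) (2 * j % 3) k2 k1 m' := by
  have hw : w ^ (2 * i) = w ^ (2 * i % 3) := by
    conv_lhs => rw [← Nat.div_add_mod (2 * i) 3, pow_add, pow_mul, w_cube, one_pow, one_mul]
  have hl : lam ^ (2 * j) = lam ^ (2 * j % 3) * (lam ^ (2 * j / 3)) ^ 3 := by
    rw [← pow_mul, ← pow_add]; congr 1; omega
  refine ⟨lam ^ (2 * j / 3) * k2 * m ^ 2, ⟨Nat.mod_lt _ (by norm_num), Nat.mod_lt _ (by norm_num),
    hd.prim2, hd.prim1, hd.sqf2, hd.sqf1, hd.cop.symm, ?_, ?_⟩⟩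
  · exact mul_ne_zero (mul_ne_zero (pow_ne_zero _ lam_ne_zero) hd.prim2.ne_zero)
      (pow_ne_zero _ hd.ne)
  · have e : h ^ 2 = w ^ (2 * i) * lam ^ (2 * j) * k1 ^ 2 * k2 ^ 4 * m ^ 6 := by
      rw [hd.eq, pow_mul', pow_mul' lam]; ring
    rw [e, hw, hl]; ring


/-! ### Vanishing of the sum over primary classes -/

open Classical in
/-- the function `b ↦ (h/b)` on primary elements, extended by zero -/
def chi (h b : Eis) : ℂ := if IsPrim b then sy h b else 0



lemma isPrim_congr {Q a b : Eis} (h3 : (3 : Eis) ∣ Q) (h : Q ∣ a - b) : IsPrim a ↔ IsPrim b := by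
  have h' := h3.trans h
  constructor
  · intro ha
    unfold IsPrim at *
    have : b - 1 = (a - 1) - (a - b) := by ring
    rw [this]; exact dvd_sub ha h'
  · intro hb
    unfold IsPrim at *
    have : a - 1 = (b - 1) + (a - b) := by ring
    rw [this]; exact dvd_add hb h'

/-- Generic vanishing lemma. -/
lemma sumMod_prim_eq_zero {Q : Eis} (hQ : Q ≠ 0) (h3 : (3 : Eis) ∣ Q) {f : Eis → ℂ}
    (hper : ∀ a b, IsPrim a → IsPrim b → Q ∣ a - b → f a = f b) {b0 : Eis} (hb0 : IsPrim b0)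
    (hcop : IsCoprime b0 Q) (hne : f b0 ≠ 1) (hmul : ∀ b, IsPrim b → f (b0 * b) = f b0 * f b) :
    sumMod Q (fun b => open Classical in if IsPrim b then f b else 0) = 0 := by
  classical
  set F : Eis → ℂ := fun b => if IsPrim b then f b else 0 with hF
  have hP : PMod Q F := by
    intro x t
    have hd : Q ∣ (x + Q * t) - x := ⟨t, by ring⟩
    have h1 := isPrim_congr h3 hd
    simp only [hF]
    by_cases hx : IsPrim x
    · rw [if_pos hx, if_pos (h1.mpr hx)]
      exact hper _ _ (h1.mpr hx) hx hd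
    · rw [if_neg hx, if_neg (fun h => hx (h1.mp h))]
  have h1 := sumMod_mul_coprime hQ hP hcop
  have h2 : ∀ x, F (b0 * x) = f b0 * F x := by
    intro x
    simp only [hF]
    by_cases hx : IsPrim x
    · rw [if_pos hx, if_pos (hb0.mul hx), hmul x hx]
    · rw [if_neg hx, if_neg (fun h => hx (IsPrim.of_mul_left h hb0)), mul_zero]
  rw [sumMod_congr h2, sumMod_mul_left hQ] at h1
  have h3 : (f b0 - 1) * sumMod Q F = 0 := by rw [sub_mul, one_mul, h1, sub_self]
  rcases mul_eq_zero.mp h3 with h | h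
  · exact absurd (sub_eq_zero.mp h) hne
  · exact h

section
variable (S : Suppl)
include S

/-- `chi h` is periodic modulo every multiple of `9 h`, on all of `Eis`. -/
theorem pmod_chi {h Q : Eis} (hh : h ≠ 0) (hd : 9 * h ∣ Q) : PMod Q (chi h) := by
  intro x t
  have h3 : (3 : Eis) ∣ Q := (Dvd.intro (3 * h) (by ring)).trans hd
  have hQ : Q ∣ (x + Q * t) - x := ⟨t, by ring⟩
  have h1 := isPrim_congr h3 hQ
  unfold chi
  by_cases hx : IsPrim x
  · rw [if_pos hx, if_pos (h1.mpr hx)]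
    exact sy_periodic S hh (h1.mpr hx) hx (hd.trans hQ)
  · rw [if_neg hx, if_neg (fun h => hx (h1.mp h))]

/-- **Mean zero.** -/
theorem sumMod_chi {h : Eis} (hh : h ≠ 0) (hc : ¬ ∃ t, h = t ^ 3) {Q : Eis} (hQ : Q ≠ 0)
    (hd : 9 * h ∣ Q) : sumMod Q (chi h) = 0 := by
  obtain ⟨b0, hb1, hb2, hb3, hb4⟩ := exists_sy_ne_one S hh hc hQ
  have h3 : (3 : Eis) ∣ Q := (Dvd.intro (3 * h) (by ring)).trans hd
  have := sumMod_prim_eq_zero hQ h3 (f := sy h)
    (fun a b ha hb hab => sy_periodic S hh ha hb (hd.trans hab)) hb1 hb2 hb4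
    (fun b hb => sy_mul_right hb1 hb)
  rw [← this]
  exact sumMod_congr fun x => rfl

end

/-! ### The character as a `MulPrim` function -/


/-! ### The other variable -/



end Crest.Agent.R012.Char766
end
end

-- ▼ part R012/CharInst_766
section

/-!
# Row 12 (R2b): unconditional facts on `b ↦ (h/b)`
-/

set_option autoImplicit false

noncomputable section

namespace Crest.Agent.R012.Char766

open Crest.Agent.R012 Crest.Agent.R012.Eis

/-- The facts from the supplementary laws hold. -/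
theorem suppl : Suppl where
  w9 _ _ ha hb h := Sym645.sy_w_congr ha hb h
  lam9 _ _ ha hb h := Sym645.sy_lam_congr ha hb h
  w_val := by
    have hP : IsPrim (1 + 3 * w) := isPrim_add_mul isPrim_one w
    rw [Sym645.sy_w_prim hP]
    have e1 : (1 + 3 * w : Eis).re = 1 := by simp
    have e2 : (1 + 3 * w : Eis).im = 3 := by simp
    rw [e1, e2]
    norm_num
    have h3 := wC_cube
    symm
    exact eq_inv_of_mul_eq_one_left (by rw [← h3]; ring)
  lam_val := by
    have hP : IsPrim (1 + 3 * w) := isPrim_add_mul isPrim_one w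
    rw [Sym645.sy_lam hP]
    have e1 : (1 + 3 * w : Eis).re = 1 := by simp
    rw [e1]
    norm_num
  lam_val' := by
    have hP : IsPrim (4 : Eis) := by
      unfold IsPrim; exact ⟨1, by norm_num⟩
    rw [Sym645.sy_lam hP]
    have e1 : (4 : Eis).re = 4 := rfl
    rw [e1]
    norm_num






/-- `chi h` has period `Q` for every multiple `Q` of `9 h` -/
theorem pmod_chi_mod {h Q : Eis} (hh : h ≠ 0) (hd : 9 * h ∣ Q) : PMod Q (chi h) :=
  pmod_chi suppl hh hd

/-- mean zero over the primary classes modulo any multiple `Q` of `9 h`, `h` not a cube -/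
theorem sumMod_chi_mod {h : Eis} (hh : h ≠ 0) (hc : ¬ ∃ t, h = t ^ 3) {Q : Eis} (hQ : Q ≠ 0)
    (hd : 9 * h ∣ Q) : sumMod Q (chi h) = 0 := sumMod_chi suppl hh hc hQ hd

end Crest.Agent.R012.Char766
end
end

-- ▼ part R012/Cst5_566
section

/-!
# Row 12, item MC1 (5): the twisted first moment `SwR r`; noncube terms for `0 < δ < 3/7`
-/

set_option autoImplicit false

noncomputable section

open MeasureTheory Complex Set Filter Topology
open scoped ContDiff

namespace Crest.Agent.R012.MC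

open Crest.Agent.R012 Crest.Agent.R012.Eis Crest.Agent.R012.Rho777


theorem pmod_psi {h Q : Eis} (hh : h ≠ 0) (hd : 9 * h ∣ Q) : PMod Q (psi h) :=
  Char766.pmod_chi_mod hh hd

theorem sumMod_psi {h : Eis} (hh : h ≠ 0) (hc : ¬ ∃ t, h = t ^ 3) {Q : Eis} (hQ : Q ≠ 0)
    (hd : 9 * h ∣ Q) : sumMod Q (psi h) = 0 := Char766.sumMod_chi_mod hh hc hQ hd

/-- the dual sum over `b` at frequency `k`, twisted by `r` -/
def TkR (r : Eis) (w v : ℝ → ℝ) (A B : ℝ) (k : Eis) : ℂ :=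
  ∑' b : Eis, psi (r ^ 2 * k) b * (phi w v B (kap A k) (toC b) : ℂ)

section

variable {w v : ℝ → ℝ}

lemma conj_sy_mul {r b : Eis} (hb : IsPrim b) (k : Eis) :
    (starRingEnd ℂ) (sy r b) * sy k b = sy (r ^ 2 * k) b := by
  rw [Sym645.sy_mul_left (prim_nm hb), Sym645.sy_pow_left (prim_nm hb),
    Gauss880.sy_sq_eq_conj Gauss880.syG hb]

lemma TkR_eq_sum (hv : Wgt v) {A B : ℝ} (hB : 0 < B) (r k : Eis) :
    TkR r w v A B k = ∑ b ∈ Fv hv hB, sy (r ^ 2 * k) b * (phi w v B (kap A k) (toC b) : ℂ) := by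
  classical
  unfold TkR
  rw [tsum_eq_sum (s := Fv hv hB)]
  · refine Finset.sum_congr rfl fun b hb => ?_
    rw [psi, if_pos ((mem_Fv hv hB).mp hb).2]
  · intro b hb
    rw [mem_Fv] at hb
    by_cases hp : IsPrim b
    · have : v (nm b / B) = 0 := by
        by_contra hcon
        exact hb ⟨hcon, hp⟩
      rw [phi_toC, this]
      simp
    · rw [psi, if_neg hp, zero_mul]

/-- The twisted first moment as a sum over dual frequencies. -/
theorem SwR_eq (hw : Wgt w) (hv : Wgt v) {A B : ℝ} (hA : 0 < A) (hB : 0 < B) {r : Eis}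
    (hr : ∀ b, IsPrim b → IsCoprime r b) :
    Summable (fun k : Eis => ek k * TkR r w v A B k) ∧
    SwR r w v A B = ((2 * A / (9 * Real.sqrt 3) : ℝ) : ℂ) * ∑' k : Eis, ek k * TkR r w v A B k := by
  classical
  set c : Eis → ℂ := fun b => (starRingEnd ℂ) (sy r b) *
    ((v (nm b / B) : ℂ) / (Real.sqrt (nm b) : ℂ)) with hc
  have hT : ∀ k : Eis, ek k * TkR r w v A B k =
      ∑ b ∈ Fv hv hB, c b * (sy k b * ek k * (Wt w (kap A k / ‖toC b‖) : ℂ)) := by
    intro k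
    rw [TkR_eq_sum hv hB, Finset.mul_sum]
    refine Finset.sum_congr rfl fun b hb => ?_
    have hbp := ((mem_Fv hv hB).mp hb).2
    rw [phi_toC, hc, ← conj_sy_mul hbp]
    push_cast
    ring
  have hsb : ∀ b ∈ Fv hv hB, Summable fun k : Eis =>
      c b * (sy k b * ek k * (Wt w (kap A k / ‖toC b‖) : ℂ)) := by
    intro b hb
    exact (dual_weight_summable hw hA ((mem_Fv hv hB).mp hb).2).mul_left _
  refine ⟨?_, ?_⟩
  · simp_rw [hT]
    exact summable_sum hsb
  · have hS : SwR r w v A B =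
        ∑' a : Eis, ∑ b ∈ Fv hv hB, c b * (chiB b a * (w (nm a / A) : ℂ)) := by
      unfold SwR
      refine tsum_congr fun a => ?_
      split_ifs with ha
      · rw [Mg_eq_sum hv hB, Finset.mul_sum]
        refine Finset.sum_congr rfl fun b hb => ?_
        have hbp := ((mem_Fv hv hB).mp hb).2
        rw [chiB, if_pos ha, hc, mul_comm r a, Gauss880.gs_mul_of_coprime Gauss880.syG hbp a (hr b hbp)]
        ring
      · symm
        refine Finset.sum_eq_zero fun b _ => ?_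
        rw [chiB, if_neg ha]; ring
    rw [hS, Summable.tsum_finsetSum]
    · simp_rw [hT]
      rw [Summable.tsum_finsetSum hsb, Finset.mul_sum]
      refine Finset.sum_congr rfl fun b hb => ?_
      rw [tsum_mul_left, tsum_mul_left, dual_weight hw hA ((mem_Fv hv hB).mp hb).2]
      ring
    · intro b _
      apply summable_of_hasFiniteSupport
      refine (hw.finite_support hA).subset ?_
      intro a ha
      simp only [Function.mem_support] at ha
      simp only [Set.mem_ofPred_eq]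
      intro h0
      apply ha
      rw [h0]; simp

/-! ### trivial bound -/

lemma psi_trivial (hv : Wgt v) : ∃ c : ℝ, 0 < c ∧ ∀ (w : ℝ → ℝ) (B κ : ℝ) (ψ : Eis → ℂ) (M : ℝ),
    1 ≤ B → (∀ b, ‖ψ b‖ ≤ 1) → (∀ z, |phi w v B κ z| ≤ M) →
    ‖∑' b : Eis, ψ b * (phi w v B κ (toC b) : ℂ)‖ ≤ c * B * M := by
  classical
  obtain ⟨c1, c2, h1, h2, h⟩ := phi_support hv
  have hc2 : 0 < c2 := h1.trans h2
  refine ⟨(3 * Real.sqrt c2 + 1) ^ 2, by positivity, fun w B κ ψ M hB hψ hM => ?_⟩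
  have hB0 : 0 < B := by linarith
  have hM0 : 0 ≤ M := (abs_nonneg _).trans (hM 0)
  obtain ⟨hDf, hDc⟩ := Strip880.disc_finite_card (0 : ℂ) (Real.sqrt (c2 * B)) (Real.sqrt_nonneg _)
  set D : Finset Eis := hDf.toFinset with hD
  have hDcard : (D.card : ℝ) ≤ (3 * Real.sqrt (c2 * B) + 1) ^ 2 := by
    rw [hD, ← Set.ncard_eq_toFinset_card _ hDf]
    exact hDc
  have hz : ∀ b ∉ D, ψ b * (phi w v B κ (toC b) : ℂ) = 0 := by
    intro b hb
    have : phi w v B κ (toC b) = 0 := by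
      by_contra hcon
      apply hb
      rw [hD, Set.Finite.mem_toFinset]
      simp only [Set.mem_ofPred_eq, sub_zero]
      exact Real.le_sqrt_of_sq_le (h w B _ hB0 _ hcon).2
    rw [this]; simp
  rw [tsum_eq_sum hz]
  calc ‖∑ b ∈ D, ψ b * (phi w v B κ (toC b) : ℂ)‖
      ≤ ∑ b ∈ D, ‖ψ b * (phi w v B κ (toC b) : ℂ)‖ := norm_sum_le _ _
    _ ≤ ∑ b ∈ D, M := by
        refine Finset.sum_le_sum fun b _ => ?_
        rw [norm_mul, Complex.norm_real, Real.norm_eq_abs]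
        calc ‖ψ b‖ * |phi w v B κ (toC b)| ≤ 1 * M :=
              mul_le_mul (hψ b) (hM _) (abs_nonneg _) zero_le_one
          _ = M := one_mul M
    _ = D.card * M := by rw [Finset.sum_const, nsmul_eq_mul]
    _ ≤ (3 * Real.sqrt (c2 * B) + 1) ^ 2 * M := mul_le_mul_of_nonneg_right hDcard hM0
    _ ≤ (3 * Real.sqrt c2 + 1) ^ 2 * B * M := by
        refine mul_le_mul_of_nonneg_right ?_ hM0
        have e : (3 * Real.sqrt c2 + 1) ^ 2 * B = (3 * Real.sqrt (c2 * B) + Real.sqrt B) ^ 2 := by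
          rw [Real.sqrt_mul hc2.le]
          have : B = Real.sqrt B ^ 2 := (Real.sq_sqrt hB0.le).symm
          nth_rewrite 1 [this]
          ring
        rw [e]
        have h1B : 1 ≤ Real.sqrt B := Real.one_le_sqrt.mpr hB
        gcongr

/-! ### noncube frequencies, `0 < δ < 3/7` -/

set_option maxHeartbeats 1600000 in
theorem TkR_noncube (hw : Wgt w) (hv : Wgt v) {r : Eis} (hr : r ≠ 0) {δ : ℝ} (hδ0 : 0 < δ)
    (hδ : δ < 3 / 7) :
    ∃ η θ C : ℝ, 0 < η ∧ θ < 1 / 2 + δ / 3 ∧ 0 ≤ C ∧ ∀ B : ℝ, 1 ≤ B → ∀ k : Eis, k ≠ 0 →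
      (¬ ∃ m : Eis, r ^ 2 * k = m ^ 3) →
      ‖TkR r w v (B ^ (1 - δ)) B k‖ ≤ C * B ^ θ * (nm k : ℝ) ^ (-(1 + η)) := by
  -- parameters
  obtain ⟨η, hη0, hη1, hη2⟩ : ∃ η : ℝ, 0 < η ∧ η ≤ 1 ∧ δ * (3 / 2 + 4 * η) < 1 / 2 + δ / 3 := by
    refine ⟨min 1 ((3 / 7 - δ) / 4), ?_, min_le_left _ _, ?_⟩
    · apply lt_min one_pos
      linarith
    · have h1 : min 1 ((3 / 7 - δ) / 4) ≤ (3 / 7 - δ) / 4 := min_le_right _ _
      nlinarith
  obtain ⟨j, hj⟩ : ∃ j : ℕ, (1 + η) ^ 2 / η ≤ j := exists_nat_ge _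
  set θ : ℝ := max (1 / 2) (δ * (3 / 2 + 4 * η)) with hθ
  have hθlt : θ < 1 / 2 + δ / 3 := max_lt (by linarith) hη2
  obtain ⟨CL, hCL, hlip⟩ := phi_lip hw hv
  obtain ⟨CS, hCS, hsize⟩ := phi_size hw hv (2 * j)
  obtain ⟨c1, c2, h1, h2, hsupp⟩ := phi_support hv
  obtain ⟨ct, hct, htriv⟩ := psi_trivial hv
  have hc2 : 0 < c2 := h1.trans h2
  set R2 : ℝ := ‖toC (r ^ 2)‖ with hR2
  have hR2n : 0 ≤ R2 := norm_nonneg _
  set K1 : ℝ := CL * 2 * (9 * R2) * (3 * Real.sqrt c2 + 4 * (9 * R2)) ^ 2 with hK1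
  set K2 : ℝ := ct * (CS * 27 ^ j) with hK2
  have hK1' : 0 ≤ K1 := by positivity
  have hK2' : 0 ≤ K2 := by positivity
  refine ⟨η, θ, K1 + K2, hη0, hθlt, by positivity, fun B hB k hk hkc => ?_⟩
  have hB0 : 0 < B := by linarith
  have hsB : 0 < Real.sqrt B := Real.sqrt_pos.mpr hB0
  set P : ℝ := B ^ δ with hP
  have hP1 : 1 ≤ P := Real.one_le_rpow hB hδ0.le
  have hP0 : 0 < P := by linarith
  have hPB : P ^ (1 + η) ≤ B := by
    rw [hP, ← Real.rpow_mul hB0.le]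
    calc B ^ (δ * (1 + η)) ≤ B ^ (1 : ℝ) := by
          apply Real.rpow_le_rpow_of_exponent_le hB
          nlinarith
      _ = B := Real.rpow_one B
  set n : ℝ := (nm k : ℝ) with hn
  have hn1 : 1 ≤ n := by
    have : 1 ≤ nm k := nm_pos.mpr hk
    rw [hn]
    exact_mod_cast this
  have hn0 : 0 < n := by linarith
  have hkn : ‖toC k‖ = Real.sqrt n := norm_toC k
  set β : ℝ := kap (B ^ (1 - δ)) k / Real.sqrt B with hβ
  have hβ0 : 0 ≤ β := div_nonneg (kap_nonneg _ _) hsB.le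
  have hβ2 : β ^ 2 = n / (27 * P) := kap_sq hB0 k
  have hnη : 0 < n ^ (-(1 + η)) := Real.rpow_pos_of_pos hn0 _
  rcases le_or_gt n (P ^ (1 + η)) with hcase | hcase
  · -- small frequencies
    have hrk : r ^ 2 * k ≠ 0 := mul_ne_zero (pow_ne_zero 2 hr) hk
    have h9 : (9 : Eis) ≠ 0 := by
      intro h9
      have := congrArg QuadraticAlgebra.re h9
      simp at this
    have h9k : (9 * (r ^ 2 * k) : Eis) ≠ 0 := mul_ne_zero h9 hrk
    have hper := pmod_psi hrk (dvd_refl (9 * (r ^ 2 * k)))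
    have hmean := sumMod_psi hrk hkc h9k (dvd_refl _)
    have hbound := char_sum_bound h9k hper hmean (norm_psi_le _)
      (φ := fun z => (phi w v B (kap (B ^ (1 - δ)) k) z : ℂ))
      (L := CL * (1 + β) / B) (R := Real.sqrt (c2 * B)) (by positivity) (Real.sqrt_nonneg _)
      (by
        intro z hz
        have : phi w v B (kap (B ^ (1 - δ)) k) z = 0 := by
          by_contra hcon
          have h3 := (hsupp w B _ hB0 z hcon).2
          have h4 : ‖z‖ ≤ Real.sqrt (c2 * B) := Real.le_sqrt_of_sq_le h3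
          linarith
        simp only [this, Complex.ofReal_zero])
      (by
        intro z z'
        rw [← Complex.ofReal_sub, Complex.norm_real, Real.norm_eq_abs]
        exact hlip B _ hB0 (kap_nonneg _ _) z z')
    have hq : ‖toC (9 * (r ^ 2 * k))‖ = 9 * R2 * Real.sqrt n := by
      have e9 : toC 9 = 9 := map_ofNat toC 9
      have e8 : ‖(9 : ℂ)‖ = 9 := by norm_num
      rw [map_mul toC 9, map_mul toC (r ^ 2) k, norm_mul, norm_mul, hkn, e9, e8, ← hR2]
      ring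
    have hT : ‖TkR r w v (B ^ (1 - δ)) B k‖ ≤
        CL * (1 + β) / B * (9 * R2 * Real.sqrt n) *
          (3 * Real.sqrt (c2 * B) + 4 * (9 * R2 * Real.sqrt n)) ^ 2 := by
      rw [hq] at hbound
      exact hbound
    have hβη : 1 + β ≤ 2 * P ^ (η / 2) := by
      have h1' : 1 ≤ P ^ (η / 2) := Real.one_le_rpow hP1 (by positivity)
      have h2' : β ≤ P ^ (η / 2) := by
        apply le_of_sq_le_sq _ (by positivity) |> fun h => h
        rw [hβ2, ← Real.rpow_natCast (P ^ (η / 2)) 2, ← Real.rpow_mul hP0.le,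
          div_le_iff₀ (by positivity)]
        have e : P ^ (η / 2 * ((2 : ℕ) : ℝ)) * (27 * P) = 27 * P ^ (1 + η) := by
          rw [Real.rpow_add hP0, Real.rpow_one]
          have : η / 2 * ((2 : ℕ) : ℝ) = η := by push_cast; ring
          rw [this]; ring
        rw [e]
        have : 0 < P ^ (1 + η) := by positivity
        linarith
      linarith
    have hsnB : Real.sqrt n ≤ Real.sqrt B := Real.sqrt_le_sqrt (hcase.trans hPB)
    have hsq : (3 * Real.sqrt (c2 * B) + 4 * (9 * R2 * Real.sqrt n)) ^ 2 ≤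
        (3 * Real.sqrt c2 + 4 * (9 * R2)) ^ 2 * B := by
      have e : (3 * Real.sqrt c2 + 4 * (9 * R2)) ^ 2 * B =
          (3 * Real.sqrt (c2 * B) + 4 * (9 * R2 * Real.sqrt B)) ^ 2 := by
        rw [Real.sqrt_mul hc2.le]
        have : B = Real.sqrt B ^ 2 := (Real.sq_sqrt hB0.le).symm
        nth_rewrite 1 [this]
        ring
      rw [e]
      gcongr
    have hfin : ‖TkR r w v (B ^ (1 - δ)) B k‖ ≤ K1 * (P ^ (η / 2) * Real.sqrt n) := by
      refine hT.trans ?_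
      calc CL * (1 + β) / B * (9 * R2 * Real.sqrt n) *
            (3 * Real.sqrt (c2 * B) + 4 * (9 * R2 * Real.sqrt n)) ^ 2
          ≤ CL * (2 * P ^ (η / 2)) / B * (9 * R2 * Real.sqrt n) *
              ((3 * Real.sqrt c2 + 4 * (9 * R2)) ^ 2 * B) := by
            gcongr
        _ = K1 * (P ^ (η / 2) * Real.sqrt n) := by
            rw [hK1]
            field_simp
    have hn3 : P ^ (η / 2) * Real.sqrt n ≤ B ^ θ * n ^ (-(1 + η)) := by
      rw [Real.rpow_neg hn0.le, ← div_eq_mul_inv, le_div_iff₀ (by positivity), Real.sqrt_eq_rpow,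
        mul_assoc, ← Real.rpow_add hn0]
      have h3 : n ^ (1 / 2 + (1 + η)) ≤ (P ^ (1 + η)) ^ (1 / 2 + (1 + η)) :=
        Real.rpow_le_rpow hn0.le hcase (by positivity)
      calc P ^ (η / 2) * n ^ (1 / 2 + (1 + η))
          ≤ P ^ (η / 2) * (P ^ (1 + η)) ^ (1 / 2 + (1 + η)) := by gcongr
        _ = P ^ (η / 2 + (1 + η) * (1 / 2 + (1 + η))) := by
            rw [← Real.rpow_mul hP0.le, ← Real.rpow_add hP0]
        _ ≤ P ^ (3 / 2 + 4 * η) := by
            apply Real.rpow_le_rpow_of_exponent_le hP1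
            nlinarith
        _ = B ^ (δ * (3 / 2 + 4 * η)) := by
            rw [hP, ← Real.rpow_mul hB0.le]
        _ ≤ B ^ θ := Real.rpow_le_rpow_of_exponent_le hB (le_max_right _ _)
    calc ‖TkR r w v (B ^ (1 - δ)) B k‖ ≤ K1 * (P ^ (η / 2) * Real.sqrt n) := hfin
      _ ≤ K1 * (B ^ θ * n ^ (-(1 + η))) := mul_le_mul_of_nonneg_left hn3 hK1'
      _ ≤ (K1 + K2) * (B ^ θ * n ^ (-(1 + η))) := by
          refine mul_le_mul_of_nonneg_right (by linarith) (by positivity)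
      _ = _ := by ring
  · -- large frequencies
    have hβ8 : β ^ (2 * j) = (n / (27 * P)) ^ j := by
      rw [pow_mul, hβ2]
    have hkey : n ^ (1 + η) * P ^ j ≤ n ^ j := by
      have hPn : P ≤ n ^ (1 / (1 + η)) := by
        have h3 : (P ^ (1 + η)) ^ (1 / (1 + η)) ≤ n ^ (1 / (1 + η)) :=
          Real.rpow_le_rpow (by positivity) hcase.le (by positivity)
        rw [← Real.rpow_mul hP0.le] at h3
        have e : (1 + η) * (1 / (1 + η)) = 1 := by field_simp
        rwa [e, Real.rpow_one] at h3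
      have h4 : P ^ j ≤ n ^ (1 / (1 + η) * j) := by
        calc P ^ j ≤ (n ^ (1 / (1 + η))) ^ j := pow_le_pow_left₀ hP0.le hPn j
          _ = n ^ (1 / (1 + η) * j) := by rw [Real.rpow_mul hn0.le, Real.rpow_natCast]
      calc n ^ (1 + η) * P ^ j ≤ n ^ (1 + η) * n ^ (1 / (1 + η) * j) := by gcongr
        _ = n ^ (1 + η + 1 / (1 + η) * j) := by rw [← Real.rpow_add hn0]
        _ ≤ n ^ (j : ℝ) := by
            apply Real.rpow_le_rpow_of_exponent_le hn1
            have h5 : (1 + η) ^ 2 ≤ η * j := by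
              rw [div_le_iff₀ hη0] at hj
              linarith
            have h6 : 1 + η + 1 / (1 + η) * j = ((1 + η) ^ 2 + j) / (1 + η) := by
              field_simp
            rw [h6, div_le_iff₀ (by positivity)]
            linarith
        _ = n ^ j := Real.rpow_natCast n j
    have hM : ∀ z, |phi w v B (kap (B ^ (1 - δ)) k) z| ≤
        CS * 27 ^ j * (Real.sqrt B)⁻¹ * n ^ (-(1 + η)) := by
      intro z
      have h3 := hsize B _ hB0 (kap_nonneg (B ^ (1 - δ)) k) z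
      rw [← hβ, hβ8] at h3
      have h4 : n ^ (1 + η) / 27 ^ j ≤ (n / (27 * P)) ^ j := by
        rw [div_pow, mul_pow, div_le_div_iff₀ (by positivity) (by positivity)]
        calc n ^ (1 + η) * (27 ^ j * P ^ j) = (n ^ (1 + η) * P ^ j) * 27 ^ j := by ring
          _ ≤ n ^ j * 27 ^ j := by gcongr
      have h6 : |phi w v B (kap (B ^ (1 - δ)) k) z| * (n ^ (1 + η) / 27 ^ j) ≤
          CS * (Real.sqrt B)⁻¹ := (mul_le_mul_of_nonneg_left h4 (abs_nonneg _)).trans h3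
      have h7 : |phi w v B (kap (B ^ (1 - δ)) k) z| ≤
          CS * (Real.sqrt B)⁻¹ / (n ^ (1 + η) / 27 ^ j) := by
        rw [le_div_iff₀ (by positivity)]
        exact h6
      refine h7.trans (le_of_eq ?_)
      rw [Real.rpow_neg hn0.le]
      field_simp
    have hT := htriv w B (kap (B ^ (1 - δ)) k) (psi (r ^ 2 * k)) _ hB (norm_psi_le _) hM
    have hsθ : Real.sqrt B ≤ B ^ θ := by
      rw [Real.sqrt_eq_rpow]
      exact Real.rpow_le_rpow_of_exponent_le hB (le_max_left _ _)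
    calc ‖TkR r w v (B ^ (1 - δ)) B k‖
        ≤ ct * B * (CS * 27 ^ j * (Real.sqrt B)⁻¹ * n ^ (-(1 + η))) := hT
      _ = K2 * (Real.sqrt B * n ^ (-(1 + η))) := by
          rw [hK2]
          have : B = Real.sqrt B * Real.sqrt B := (Real.mul_self_sqrt hB0.le).symm
          nth_rewrite 1 [this]
          field_simp
      _ ≤ (K1 + K2) * (B ^ θ * n ^ (-(1 + η))) := by
          refine mul_le_mul (by linarith) ?_ (by positivity) (by positivity)
          exact mul_le_mul_of_nonneg_right hsθ hnη.le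
      _ = _ := by ring

end

end Crest.Agent.R012.MC
end
end

-- ▼ part R012/Cst6_566
section

/-!
# Row 12, item MC1 (6): cubes, phases, and the final assembly

Input: `CubeLimit` (helper777, `Cube_777`).  Output: `first_moment_limit`.
-/

set_option autoImplicit false

noncomputable section

open MeasureTheory Complex Set Filter Topology
open scoped ContDiff

namespace Crest.Agent.R012.MC

open Crest.Agent.R012 Crest.Agent.R012.Eis Crest.Agent.R012.Rho777

open Classical in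
/-- the term at a cube -/
def Xt (w v : ℝ → ℝ) (N0 A B : ℝ) (m : Eis) : ℝ :=
  if m = 0 then 0 else ∑' b : Eis, if IsPrim b ∧ IsCoprime m b then
    phi w v B (Real.sqrt (A * N0 * (nm m : ℝ) ^ 3) / (3 * Real.sqrt 3)) (toC b) else 0

open Classical in
/-- the sum over cubes -/
def Xc (w v : ℝ → ℝ) (N0 A B : ℝ) : ℝ :=
  ∑' m : Eis, if m = 0 then 0 else ∑' b : Eis, if IsPrim b ∧ IsCoprime m b then
    phi w v B (Real.sqrt (A * N0 * (nm m : ℝ) ^ 3) / (3 * Real.sqrt 3)) (toC b) else 0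

lemma Xc_eq (w v : ℝ → ℝ) (N0 A B : ℝ) : Xc w v N0 A B = ∑' m : Eis, Xt w v N0 A B m := rfl

/-- The asymptotics of the sum over cubes (helper777). -/
def CubeLimit : Prop :=
  ∀ w v : ℝ → ℝ, Wgt w → Wgt v → ∀ N0 : ℝ, 0 < N0 → ∀ δ : ℝ, 0 < δ → δ < 1 →
    Tendsto (fun B : ℝ => Xc w v N0 (B ^ (1 - δ)) B / B ^ (-(1 - δ) / 3 + 5 / 6)) atTop
      (𝓝 (N0 ^ (-(1 / 3) : ℝ) * (4 * Real.pi / Real.sqrt 3) * Iw w * mel v (5 / 6) * Dc))

/-! ### the map `m ↦ r m³` is three to one -/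

lemma cube_eq_cube {m s : Eis} (h : m ^ 3 = s ^ 3) : m = s ∨ m = w * s ∨ m = w ^ 2 * s := by
  have hf : (m - s) * ((m - w * s) * (m - w ^ 2 * s)) = 0 := by
    have e : (m - s) * ((m - w * s) * (m - w ^ 2 * s)) =
        m ^ 3 - s ^ 3 * w ^ 3 - m ^ 2 * s * (1 + w + w ^ 2) + m * s ^ 2 * (w ^ 2 + w + w ^ 3) := by
      ring
    rw [e, w_cube, one_add_w_add, h]
    have : (w ^ 2 + w + 1 : Eis) = 0 := by rw [← one_add_w_add]; ring
    rw [this]; ring
  rcases mul_eq_zero.mp hf with h1 | h1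
  · exact Or.inl (sub_eq_zero.mp h1)
  · rcases mul_eq_zero.mp h1 with h2 | h2
    · exact Or.inr (Or.inl (sub_eq_zero.mp h2))
    · exact Or.inr (Or.inr (sub_eq_zero.mp h2))

/-- nonzero elements of the form `r m³` -/
def Cub (r : Eis) : Set Eis := {k | k ≠ 0 ∧ ∃ m, k = r * m ^ 3}

/-- a cube root section -/
def sec (r : Eis) (k : Cub r) : Eis := k.2.2.choose

lemma sec_spec (r : Eis) (k : Cub r) : (k : Eis) = r * sec r k ^ 3 := k.2.2.choose_spec

lemma sec_ne (r : Eis) (k : Cub r) : sec r k ≠ 0 := by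
  intro h
  apply k.2.1
  rw [sec_spec r k, h]; ring

lemma w_ne_zero : (w : Eis) ≠ 0 := by
  intro h
  have := congrArg QuadraticAlgebra.im h
  simp at this

lemma wpow_cube (i : ℕ) : (w ^ i : Eis) ^ 3 = 1 := by
  rw [← pow_mul, mul_comm, pow_mul, w_cube, one_pow]

/-- `Cub r × Fin 3 ≃ {m ≠ 0}` -/
def cubEquiv {r : Eis} (hr : r ≠ 0) : Cub r × Fin 3 ≃ {m : Eis // m ≠ 0} :=
  Equiv.ofBijective
    (fun p => ⟨w ^ (p.2 : ℕ) * sec r p.1, mul_ne_zero (pow_ne_zero _ w_ne_zero) (sec_ne r p.1)⟩) (by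
    constructor
    · rintro ⟨k, i⟩ ⟨l, j⟩ h
      have h0 : w ^ (i : ℕ) * sec r k = w ^ (j : ℕ) * sec r l := congrArg Subtype.val h
      have hk : (k : Eis) = l := by
        have h1 : (w ^ (i : ℕ) * sec r k) ^ 3 = (w ^ (j : ℕ) * sec r l) ^ 3 := by rw [h0]
        rw [mul_pow, mul_pow, wpow_cube, wpow_cube, one_mul, one_mul] at h1
        rw [sec_spec r k, sec_spec r l, h1]
      have hkl : k = l := Subtype.ext hk
      subst hkl
      have h2 : (w : Eis) ^ (i : ℕ) = w ^ (j : ℕ) := mul_right_cancel₀ (sec_ne r k) h0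
      have h3 : (i : ℕ) = j := (Char766.w_pow_inj i.2 j.2 (Or.inl h2)).1
      rw [Fin.ext h3]
    · rintro ⟨m, hm⟩
      have hk : r * m ^ 3 ∈ Cub r := ⟨mul_ne_zero hr (pow_ne_zero 3 hm), m, rfl⟩
      have h1 : m ^ 3 = sec r ⟨_, hk⟩ ^ 3 := by
        have := sec_spec r ⟨_, hk⟩
        exact mul_left_cancel₀ hr this
      rcases cube_eq_cube h1 with h | h | h
      · exact ⟨(⟨_, hk⟩, 0), Subtype.ext (by simpa using h.symm)⟩
      · exact ⟨(⟨_, hk⟩, 1), Subtype.ext (by simpa using h.symm)⟩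
      · exact ⟨(⟨_, hk⟩, 2), Subtype.ext (by simpa using h.symm)⟩)

lemma cubEquiv_cube {r : Eis} (hr : r ≠ 0) (p : Cub r × Fin 3) :
    r * ((cubEquiv hr p : {m : Eis // m ≠ 0}) : Eis) ^ 3 = (p.1 : Eis) := by
  have : ((cubEquiv hr p : {m : Eis // m ≠ 0}) : Eis) = w ^ (p.2 : ℕ) * sec r p.1 := rfl
  rw [this, mul_pow, wpow_cube, one_mul, ← sec_spec]

open Classical in
lemma tsum_cubes {r : Eis} (hr : r ≠ 0) {g : Eis → ℂ} (hg : Summable g) :
    Summable (fun m : Eis => if m = 0 then 0 else g (r * m ^ 3)) ∧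
    ∑' m : Eis, (if m = 0 then 0 else g (r * m ^ 3)) =
      3 * ∑' k : Eis, (if k ∈ Cub r then g k else 0) := by
  have hgC : Summable (fun k : Cub r => g k) := hg.subtype _
  have hgP : Summable (fun p : Cub r × Fin 3 => g p.1) := by
    have h1 : Summable fun p : Fin 3 × Cub r => g p.2 := by
      have : Summable (fun k : Cub r => ‖g k‖) := hgC.norm
      refine Summable.of_norm ?_
      rw [summable_prod_of_nonneg (fun _ => norm_nonneg _)]
      exact ⟨fun _ => this, summable_of_hasFiniteSupport (Set.toFinite _)⟩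
    exact (Equiv.prodComm (Cub r) (Fin 3)).summable_iff.mpr h1
  have hgM : Summable (fun m : {m : Eis // m ≠ 0} => g (r * (m : Eis) ^ 3)) := by
    rw [← (cubEquiv hr).summable_iff]
    refine hgP.congr fun p => ?_
    simp only [Function.comp]
    rw [cubEquiv_cube]
  have hind : (fun m : Eis => if m = 0 then 0 else g (r * m ^ 3)) =
      Set.indicator {m : Eis | m ≠ 0} (fun m => g (r * m ^ 3)) := by
    funext m
    by_cases h : m = 0
    · simp [h]
    · simp [h]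
  have hind2 : (fun k : Eis => if k ∈ Cub r then g k else 0) = Set.indicator (Cub r) g := by
    funext k
    by_cases h : k ∈ Cub r
    · simp [h]
    · simp [h]
  constructor
  · rw [hind, ← summable_subtype_iff_indicator]
    exact hgM
  · rw [hind, hind2, ← tsum_subtype, ← tsum_subtype]
    have e1 : ∑' m : ({m : Eis | m ≠ 0} : Set Eis), g (r * (m : Eis) ^ 3) =
        ∑' p : Cub r × Fin 3, g p.1 := by
      refine ((cubEquiv hr).tsum_eq (fun m : {m : Eis // m ≠ 0} => g (r * (m : Eis) ^ 3))).symm.trans ?_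
      refine tsum_congr fun p => ?_
      rw [cubEquiv_cube]
    rw [e1, hgP.tsum_prod]
    simp only [tsum_fintype, Finset.sum_const, Finset.card_univ, Fintype.card_fin, nsmul_eq_mul]
    rw [tsum_mul_left]
    norm_num

/-! ### phases -/

lemma ek_eq (k : Eis) : ek k = Complex.exp (2 * Real.pi * Complex.I * ((k.im : ℂ) / 3)) := by
  unfold ek eC
  congr 2
  have h1 : toC k / (3 * Po581.iS3) = Po581.dl k * ((1 / 3 : ℝ) : ℂ) := by
    unfold Po581.dl
    have := Po581.iS3_ne_zero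
    push_cast
    field_simp
  rw [h1, Complex.add_conj, Complex.mul_re, Complex.ofReal_re, Complex.ofReal_im, Po581.dl_re]
  push_cast
  ring


lemma ek_cube_pow (k : Eis) : ek k ^ 3 = 1 := by
  rw [ek_eq, ← Complex.exp_nat_mul]
  rw [Complex.exp_eq_one_iff]
  exact ⟨k.im, by push_cast; ring⟩

lemma ek_one_iff (k : Eis) : ek k = 1 ↔ (3 : ℤ) ∣ k.im := by
  rw [ek_eq, Complex.exp_eq_one_iff]
  have hpi : (2 * Real.pi * Complex.I : ℂ) ≠ 0 := Complex.two_pi_I_ne_zero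
  constructor
  · rintro ⟨n, hn⟩
    refine ⟨n, ?_⟩
    have h1 : (k.im : ℂ) / 3 = n := by
      apply mul_left_cancel₀ hpi
      rw [hn]; ring
    have h2 : (k.im : ℂ) = ((3 * n : ℤ) : ℂ) := by
      push_cast
      linear_combination 3 * h1
    exact_mod_cast h2
  · rintro ⟨n, hn⟩
    refine ⟨n, ?_⟩
    rw [hn]; push_cast; ring

lemma ek_neg_mul (k : Eis) : ek k * ek (-k) = 1 := by
  rw [ek_eq, ek_eq, ← Complex.exp_add, Complex.exp_eq_one_iff]
  refine ⟨0, ?_⟩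
  simp
  ring

lemma ek_add_neg {k : Eis} (h : ¬ (3 : ℤ) ∣ k.im) : ek k + ek (-k) = -1 := by
  have h1 : ek k ≠ 1 := fun h' => h ((ek_one_iff k).mp h')
  have h3 := ek_cube_pow k
  have h2 : (ek k - 1) * (ek k ^ 2 + ek k + 1) = 0 := by
    linear_combination h3
  rcases mul_eq_zero.mp h2 with h4 | h4
  · exact absurd (sub_eq_zero.mp h4) h1
  · have h5 : ek (-k) = ek k ^ 2 := by
      have h6 := ek_neg_mul k
      have h7 : ek k * (ek (-k) - ek k ^ 2) = 0 := by linear_combination h6 - h3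
      rcases mul_eq_zero.mp h7 with h8 | h8
      · rw [h8] at h3; simp at h3
      · exact sub_eq_zero.mp h8
    rw [h5]; linear_combination h4

lemma im_cube (m : Eis) : (m ^ 3).im = 3 * (m.re * m.im * (m.re - m.im)) := by
  have : m ^ 3 = m * m * m := by ring
  rw [this]; simp only [im_mul', re_mul']; ring

lemma re_cube (m : Eis) : (m ^ 3).re = m.re ^ 3 + m.im ^ 3 - 3 * (m.re * m.im ^ 2) := by
  have : m ^ 3 = m * m * m := by ring
  rw [this]; simp only [im_mul', re_mul']; ring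

lemma im_r_cube_mod (r m : Eis) :
    (3 : ℤ) ∣ (r * m ^ 3).im - r.im * (m.re + m.im) := by
  rw [im_mul', im_cube, re_cube]
  have h1 : (3 : ℤ) ∣ m.re ^ 3 - m.re := by
    have : m.re ^ 3 - m.re = (m.re - 1) * m.re * (m.re + 1) := by ring
    rw [this]
    have h : m.re % 3 = 0 ∨ m.re % 3 = 1 ∨ m.re % 3 = 2 := by omega
    rcases h with h | h | h
    · exact (Dvd.dvd.mul_left (by omega) _).mul_right _
    · exact (Dvd.dvd.mul_right (by omega) _).mul_right _
    · exact Dvd.dvd.mul_left (by omega) _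
  have h2 : (3 : ℤ) ∣ m.im ^ 3 - m.im := by
    have : m.im ^ 3 - m.im = (m.im - 1) * m.im * (m.im + 1) := by ring
    rw [this]
    have h : m.im % 3 = 0 ∨ m.im % 3 = 1 ∨ m.im % 3 = 2 := by omega
    rcases h with h | h | h
    · exact (Dvd.dvd.mul_left (by omega) _).mul_right _
    · exact (Dvd.dvd.mul_right (by omega) _).mul_right _
    · exact Dvd.dvd.mul_left (by omega) _
  obtain ⟨x, hx⟩ := h1
  obtain ⟨y, hy⟩ := h2
  refine ⟨r.re * (m.re * m.im * (m.re - m.im)) - r.im * (m.re * m.im ^ 2) -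
    r.im * (m.re * m.im * (m.re - m.im)) + r.im * x + r.im * y, ?_⟩
  have hx' : m.re ^ 3 = m.re + 3 * x := by linarith
  have hy' : m.im ^ 3 = m.im + 3 * y := by linarith
  rw [hx', hy']
  ring

/-- the phase at `r m³`, `3 ∣ Im r`. -/
lemma ek_cube_A {r : Eis} (h : (3 : ℤ) ∣ r.im) (m : Eis) : ek (r * m ^ 3) = 1 := by
  rw [ek_one_iff]
  have h1 := im_r_cube_mod r m
  have h2 : (3 : ℤ) ∣ r.im * (m.re + m.im) := h.mul_right _
  have := dvd_add h1 h2
  simpa using this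

open Classical in
/-- the averaged phase at `r m³`, `3 ∤ Im r`. -/
lemma ek_cube_B {r : Eis} (h : ¬ (3 : ℤ) ∣ r.im) (m : Eis) :
    ek (r * m ^ 3) + ek (r * (-m) ^ 3) = 3 * (if lam ∣ m then 1 else 0) - 1 := by
  have hneg : r * (-m) ^ 3 = -(r * m ^ 3) := by ring
  rw [hneg]
  have h1 := im_r_cube_mod r m
  by_cases hm : lam ∣ m
  · rw [if_pos hm]
    have h2 : (3 : ℤ) ∣ m.re + m.im := lam_dvd_iff.mp hm
    have h3 : (3 : ℤ) ∣ (r * m ^ 3).im := by
      have := dvd_add h1 (h2.mul_left r.im)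
      simpa using this
    have h4 : ek (r * m ^ 3) = 1 := (ek_one_iff _).mpr h3
    have h5 : ek (-(r * m ^ 3)) = 1 := by
      have := ek_neg_mul (r * m ^ 3)
      rwa [h4, one_mul] at this
    rw [h4, h5]; norm_num
  · rw [if_neg hm]
    have h2 : ¬ (3 : ℤ) ∣ m.re + m.im := fun h' => hm (lam_dvd_iff.mpr h')
    have h3 : ¬ (3 : ℤ) ∣ (r * m ^ 3).im := by
      intro h4
      have h5 : (3 : ℤ) ∣ r.im * (m.re + m.im) := by
        have := dvd_sub h4 h1
        simpa using this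
      rcases (Int.prime_three.dvd_mul).mp h5 with h6 | h6
      · exact h h6
      · exact h2 h6
    rw [ek_add_neg h3]; norm_num

/-! ### the dual sum at cubes -/

section

variable {w v : ℝ → ℝ}

lemma kap_cube {A : ℝ} (hA : 0 ≤ A) (r m : Eis) :
    kap A (r * m ^ 3) = Real.sqrt (A * (nm r : ℝ) * (nm m : ℝ) ^ 3) / (3 * Real.sqrt 3) := by
  unfold kap
  rw [norm_toC, nm_mul, nm_pow, mul_assoc, Real.sqrt_mul hA]
  push_cast
  rfl

lemma psi_cube {r b m : Eis} (hr : ∀ b, IsPrim b → IsCoprime r b) :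
    open Classical in
    psi (r ^ 2 * (r * m ^ 3)) b = if IsPrim b ∧ IsCoprime m b then 1 else 0 := by
  classical
  unfold psi
  by_cases hb : IsPrim b
  · rw [if_pos hb]
    have e : r ^ 2 * (r * m ^ 3) = (r * m) ^ 3 := by ring
    rw [e, Sym645.sy_pow_left (prim_nm hb)]
    by_cases hm : IsCoprime m b
    · rw [if_pos ⟨hb, hm⟩]
      exact Sym645.sy_cube (prim_nm hb) ((hr b hb).mul_left hm)
    · rw [if_neg (fun h => hm h.2)]
      have : sy (r * m) b = 0 := by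
        rw [Sym645.sy_eq_zero_iff (prim_nm hb)]
        intro h
        exact hm h.of_mul_left_right
      rw [this]; norm_num
  · rw [if_neg hb, if_neg (fun h => hb h.1)]

lemma TkR_cube {r : Eis} (hr : ∀ b, IsPrim b → IsCoprime r b) {A B : ℝ} (hA : 0 ≤ A) {m : Eis}
    (hm : m ≠ 0) : TkR r w v A B (r * m ^ 3) = (Xt w v (nm r) A B m : ℂ) := by
  classical
  unfold TkR Xt
  rw [if_neg hm, Complex.ofReal_tsum]
  refine tsum_congr fun b => ?_
  rw [psi_cube hr, kap_cube hA]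
  split_ifs <;> simp

lemma Xt_neg (N0 A B : ℝ) (m : Eis) : Xt w v N0 A B (-m) = Xt w v N0 A B m := by
  classical
  unfold Xt
  by_cases hm : m = 0
  · simp [hm]
  · rw [if_neg hm, if_neg (neg_ne_zero.mpr hm), nm_neg]
    refine tsum_congr fun b => ?_
    rw [IsCoprime.neg_left_iff]

lemma isCoprime_lam_mul {m b : Eis} (hb : IsPrim b) : IsCoprime (lam * m) b ↔ IsCoprime m b := by
  constructor
  · intro h; exact h.of_mul_left_right
  · intro h; exact hb.isCoprime_lam.symm.mul_left h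

lemma Xt_lam (N0 A B : ℝ) (m : Eis) : Xt w v N0 A B (lam * m) = Xt w v (27 * N0) A B m := by
  classical
  unfold Xt
  by_cases hm : m = 0
  · simp [hm]
  · rw [if_neg hm, if_neg (mul_ne_zero lam_ne_zero hm), nm_mul, nm_lam]
    refine tsum_congr fun b => ?_
    have e : A * N0 * (((3 * nm m : ℕ) : ℝ)) ^ 3 = A * (27 * N0) * (nm m : ℝ) ^ 3 := by
      push_cast; ring
    rw [e]
    by_cases hb : IsPrim b
    · simp only [isCoprime_lam_mul hb]
    · simp [hb]

end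

end Crest.Agent.R012.MC
end
end

-- ▼ part R012/Cst7_566

/-!
# Row 12, item MC1 (7): final assembly

`first_moment_limit` : for `r = unit · λ^j`, `j ≤ 2`, and `0 < δ < 3/7`,
`SwR r w v (B^(1-δ)) B ~ (8π/81) Dc (Iw w) (mel v (5/6)) κ(r) B^((2/3)(1-δ)+5/6)`,
`κ(r) = N(r)^(-1/3)` if `3 ∣ Im r` and `0` otherwise.
-/

set_option autoImplicit false

noncomputable section

open MeasureTheory Complex Set Filter Topology
open scoped ContDiff

namespace Crest.Agent.R012.MC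

open Crest.Agent.R012 Crest.Agent.R012.Eis Crest.Agent.R012.Rho777

/-- the factor `κ(r)` -/
def kapR (r : Eis) : ℝ := if (3 : ℤ) ∣ r.im then (nm r : ℝ) ^ (-(1 / 3) : ℝ) else 0

lemma kapR_one : kapR 1 = 1 := by
  unfold kapR
  rw [if_pos (by simp)]
  simp

open Classical in
lemma tsum_split {r : Eis} {g : Eis → ℂ} (hg : Summable g) :
    ∑' k, g k = g 0 + ∑' k, (if k ∈ Cub r then g k else 0) +
      ∑' k, (if k ≠ 0 ∧ k ∉ Cub r then g k else 0) := by
  have h1 : Summable fun k : Eis => if k ∈ Cub r then g k else 0 := by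
    have : (fun k : Eis => if k ∈ Cub r then g k else 0) = Set.indicator (Cub r) g := by
      funext k; by_cases h : k ∈ Cub r <;> simp [h]
    rw [this]; exact hg.indicator _
  have h2 : Summable fun k : Eis => if k ≠ 0 ∧ k ∉ Cub r then g k else 0 := by
    have : (fun k : Eis => if k ≠ 0 ∧ k ∉ Cub r then g k else 0) =
        Set.indicator {k | k ≠ 0 ∧ k ∉ Cub r} g := by
      funext k
      by_cases h : k ≠ 0 ∧ k ∉ Cub r
      · rw [if_pos h, Set.indicator_of_mem (by exact h)]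
      · rw [if_neg h, Set.indicator_of_notMem (by exact h)]
    rw [this]; exact hg.indicator _
  have h0 : Summable fun k : Eis => if k = 0 then g k else 0 := by
    apply summable_of_hasFiniteSupport
    refine (Set.finite_singleton (0 : Eis)).subset fun k hk => ?_
    simp only [Function.mem_support, ne_eq, ite_eq_right_iff, Classical.not_imp] at hk
    exact hk.1
  have e0 : ∑' k : Eis, (if k = 0 then g k else 0) = g 0 := by
    rw [tsum_eq_single 0]
    · simp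
    · intro k hk
      simp [hk]
  rw [← e0, ← h0.tsum_add h1, ← (h0.add h1).tsum_add h2]
  refine tsum_congr fun k => ?_
  by_cases hk : k = 0
  · have : k ∉ Cub r := fun h => h.1 hk
    simp [hk]
    intro h
    exact absurd rfl h.1
  · by_cases hc : k ∈ Cub r
    · simp [hk, hc]
    · simp [hk, hc]

section

variable {w v : ℝ → ℝ}

lemma Xt_zero (N0 A B : ℝ) : Xt w v N0 A B 0 = 0 := by
  classical
  unfold Xt; rw [if_pos rfl]

lemma summable_phase_Xt (hw : Wgt w) (hv : Wgt v) {A B : ℝ} (hA : 0 < A) (hB : 0 < B) {r : Eis}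
    (hr0 : r ≠ 0) (hr : ∀ b, IsPrim b → IsCoprime r b) :
    Summable (fun m : Eis => ek (r * m ^ 3) * (Xt w v (nm r) A B m : ℂ)) ∧
    ∑' m : Eis, ek (r * m ^ 3) * (Xt w v (nm r) A B m : ℂ) =
      3 * ∑' k : Eis, (open Classical in if k ∈ Cub r then ek k * TkR r w v A B k else 0) := by
  classical
  have hS := (SwR_eq hw hv hA hB hr).1
  obtain ⟨h1, h2⟩ := tsum_cubes hr0 hS
  have e : (fun m : Eis => if m = 0 then 0 else ek (r * m ^ 3) * TkR r w v A B (r * m ^ 3)) =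
      fun m : Eis => ek (r * m ^ 3) * (Xt w v (nm r) A B m : ℂ) := by
    funext m
    by_cases hm : m = 0
    · rw [if_pos hm, hm, Xt_zero]; simp
    · rw [if_neg hm, TkR_cube hr hA.le hm]
  rw [e] at h1 h2
  exact ⟨h1, h2⟩

lemma summable_Xt_one (hw : Wgt w) (hv : Wgt v) {A B : ℝ} (hA : 0 < A) (hB : 0 < B) {r : Eis}
    (hr0 : r ≠ 0) (hr : ∀ b, IsPrim b → IsCoprime r b) : Summable (Xt w v (nm r) A B) := by
  have h := (summable_phase_Xt hw hv hA hB hr0 hr).1.norm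
  refine Summable.of_norm ?_
  refine h.congr fun m => ?_
  rw [norm_mul, norm_ek, one_mul, Complex.norm_real]

/-- the sum over cubes, `3 ∣ Im r` -/
lemma cubes_A {A B : ℝ} {r : Eis} (h3 : (3 : ℤ) ∣ r.im) :
    ∑' m : Eis, ek (r * m ^ 3) * (Xt w v (nm r) A B m : ℂ) = (Xc w v (nm r) A B : ℂ) := by
  rw [Xc_eq, Complex.ofReal_tsum]
  refine tsum_congr fun m => ?_
  rw [ek_cube_A h3, one_mul]

/-- the sum over cubes, `3 ∤ Im r` -/
lemma cubes_B (hw : Wgt w) (hv : Wgt v) {A B : ℝ} (hA : 0 < A) (hB : 0 < B) {r : Eis}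
    (hr0 : r ≠ 0) (hr : ∀ b, IsPrim b → IsCoprime r b) (h3 : ¬ (3 : ℤ) ∣ r.im) :
    ∑' m : Eis, ek (r * m ^ 3) * (Xt w v (nm r) A B m : ℂ) =
      ((3 / 2 * Xc w v (27 * nm r) A B - 1 / 2 * Xc w v (nm r) A B : ℝ) : ℂ) := by
  classical
  obtain ⟨h1, -⟩ := summable_phase_Xt hw hv hA hB hr0 hr
  have hX := summable_Xt_one hw hv hA hB hr0 hr
  set S := ∑' m : Eis, ek (r * m ^ 3) * (Xt w v (nm r) A B m : ℂ) with hS
  have hneg : ∑' m : Eis, ek (r * (-m) ^ 3) * (Xt w v (nm r) A B m : ℂ) = S := by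
    rw [hS, ← (Equiv.neg Eis).tsum_eq]
    refine tsum_congr fun m => ?_
    simp only [Equiv.neg_apply, neg_neg]
    rw [Xt_neg]
  have hsneg : Summable fun m : Eis => ek (r * (-m) ^ 3) * (Xt w v (nm r) A B m : ℂ) := by
    rw [← (Equiv.neg Eis).summable_iff]
    refine h1.congr fun m => ?_
    simp only [Function.comp, Equiv.neg_apply, neg_neg]
    rw [Xt_neg]
  have h2S : S + S = ∑' m : Eis, (3 * (if lam ∣ m then 1 else 0) - 1) *
      (Xt w v (nm r) A B m : ℂ) := by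
    nth_rewrite 2 [← hneg]
    rw [hS, ← h1.tsum_add hsneg]
    refine tsum_congr fun m => ?_
    rw [← ek_cube_B h3 m]; ring
  have hXC : Summable fun m : Eis => (Xt w v (nm r) A B m : ℂ) :=
    (Complex.ofRealCLM.summable hX)
  have hind : Summable fun m : Eis => (if lam ∣ m then (Xt w v (nm r) A B m : ℂ) else 0) := by
    have : (fun m : Eis => (if lam ∣ m then (Xt w v (nm r) A B m : ℂ) else 0)) =
        Set.indicator {m | lam ∣ m} (fun m : Eis => (Xt w v (nm r) A B m : ℂ)) := by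
      funext m
      by_cases h : lam ∣ m
      · rw [if_pos h, Set.indicator_of_mem (by exact h)]
      · rw [if_neg h, Set.indicator_of_notMem (by exact h)]
    rw [this]; exact hXC.indicator _
  have hlamsum : ∑' m : Eis, (if lam ∣ m then (Xt w v (nm r) A B m : ℂ) else 0) =
      (Xc w v (27 * nm r) A B : ℂ) := by
    have hinj : Function.Injective (fun m : Eis => lam * m) := fun x y h =>
      mul_left_cancel₀ lam_ne_zero h
    rw [← hinj.tsum_eq, Xc_eq, Complex.ofReal_tsum]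
    · refine tsum_congr fun m => ?_
      rw [if_pos (dvd_mul_right _ _), Xt_lam]
    · intro m hm
      simp only [Function.mem_support, ne_eq, ite_eq_right_iff, Classical.not_imp] at hm
      obtain ⟨t, ht⟩ := hm.1
      exact ⟨t, ht.symm⟩
  have e1 : ∀ m : Eis, (3 * (if lam ∣ m then (1 : ℂ) else 0) - 1) * (Xt w v (nm r) A B m : ℂ) =
      3 * (if lam ∣ m then (Xt w v (nm r) A B m : ℂ) else 0) - (Xt w v (nm r) A B m : ℂ) := by
    intro m
    split_ifs <;> ring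
  simp_rw [e1] at h2S
  rw [(hind.mul_left 3).tsum_sub hXC, tsum_mul_left, hlamsum, ← Complex.ofReal_tsum, ← Xc_eq] at h2S
  push_cast
  linear_combination h2S / 2

/-- the value at `k = 0` vanishes for large `B` -/
lemma TkR_zero (hv : Wgt v) : ∃ B0 : ℝ, 0 < B0 ∧ ∀ (w : ℝ → ℝ) (r : Eis) (A B : ℝ), B0 < B →
    TkR r w v A B 0 = 0 := by
  classical
  obtain ⟨c1, c2, h1, h2, h⟩ := phi_support hv
  refine ⟨1 / c1, by positivity, fun w r A B hB => ?_⟩
  have hB0 : 0 < B := lt_trans (by positivity) hB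
  unfold TkR
  have : ∀ b : Eis, psi (r ^ 2 * 0) b * (phi w v B (kap A 0) (toC b) : ℂ) = 0 := by
    intro b
    rw [mul_zero]
    unfold psi
    split_ifs with hb
    · by_cases hu : IsUnit b
      · have hb1 : b = 1 := Sym645.prim_unit_eq_one hu hb
        subst hb1
        have : phi w v B (kap A 0) (toC 1) = 0 := by
          by_contra hcon
          have h3 := (h w B _ hB0 _ hcon).1
          rw [norm_toC_sq, nm_one] at h3
          rw [div_lt_iff₀ h1] at hB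
          push_cast at h3
          linarith
        rw [this]; simp
      · have : sy 0 b = 0 := by
          rw [Sym645.sy_eq_zero_iff (prim_nm hb)]
          intro hc
          exact hu (isCoprime_zero_left.mp hc)
        rw [this, zero_mul]
    · rw [zero_mul]
  simp_rw [this]
  exact tsum_zero

/-- the noncube part -/
lemma noncube_sum (hw : Wgt w) (hv : Wgt v) {r : Eis} (hr0 : r ≠ 0)
    (hr3 : ∀ k : Eis, k ≠ 0 → (∃ m : Eis, r ^ 2 * k = m ^ 3) → ∃ m : Eis, k = r * m ^ 3)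
    {δ : ℝ} (hδ0 : 0 < δ) (hδ : δ < 3 / 7) :
    ∃ θ C : ℝ, θ < 1 / 2 + δ / 3 ∧ 0 ≤ C ∧ ∀ B : ℝ, 1 ≤ B →
      ‖∑' k : Eis, (open Classical in if k ≠ 0 ∧ k ∉ Cub r then
        ek k * TkR r w v (B ^ (1 - δ)) B k else 0)‖ ≤ C * B ^ θ := by
  classical
  obtain ⟨η, θ, C, hη, hθ, hC, h⟩ := TkR_noncube hw hv hr0 hδ0 hδ
  have hs : Summable fun k : Eis => (nm k : ℝ) ^ (-(1 + η)) := summable_nm (by linarith)
  refine ⟨θ, C * ∑' k : Eis, (nm k : ℝ) ^ (-(1 + η)), hθ, ?_, fun B hB => ?_⟩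
  · exact mul_nonneg hC (tsum_nonneg fun k => by positivity)
  · have hB0 : 0 < B := by linarith
    have hb : HasSum (fun k : Eis => C * B ^ θ * (nm k : ℝ) ^ (-(1 + η)))
        (C * B ^ θ * ∑' k : Eis, (nm k : ℝ) ^ (-(1 + η))) := hs.hasSum.mul_left _
    refine (tsum_of_norm_bounded hb fun k => ?_).trans (le_of_eq (by ring))
    split_ifs with hk
    · rw [norm_mul, norm_ek, one_mul]
      refine h B hB k hk.1 fun hm => ?_
      exact hk.2 ⟨hk.1, hr3 k hk.1 hm⟩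
    · rw [norm_zero]; positivity

/-- **Item MC1.** -/
theorem first_moment_limit (hcube : CubeLimit) (hw : Wgt w) (hv : Wgt v) {r : Eis} (hr0 : r ≠ 0)
    (hr : ∀ b, IsPrim b → IsCoprime r b)
    (hr3 : ∀ k : Eis, k ≠ 0 → (∃ m : Eis, r ^ 2 * k = m ^ 3) → ∃ m : Eis, k = r * m ^ 3)
    {δ : ℝ} (hδ0 : 0 < δ) (hδ : δ < 3 / 7) :
    Tendsto (fun B : ℝ => SwR r w v (B ^ (1 - δ)) B /
        ((B ^ (2 / 3 * (1 - δ) + 5 / 6 : ℝ) : ℝ) : ℂ)) atTop
      (𝓝 ((8 * Real.pi / 81 * Dc * Iw w * mel v (5 / 6) * kapR r : ℝ) : ℂ)) := by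
  classical
  set E : ℝ := -(1 - δ) / 3 + 5 / 6 with hE
  obtain ⟨θ, C, hθ, hC, hNC⟩ := noncube_sum hw hv hr0 hr3 hδ0 hδ
  obtain ⟨B0, hB0, hz⟩ := TkR_zero hv
  set N0 : ℝ := (nm r : ℝ) with hN0
  have hN0pos : 0 < N0 := by
    have : 0 < nm r := nm_pos.mpr hr0
    rw [hN0]; exact_mod_cast this
  set S : ℝ → ℂ := fun B => ∑' m : Eis, ek (r * m ^ 3) * (Xt w v N0 (B ^ (1 - δ)) B m : ℂ) with hS
  set NC : ℝ → ℂ := fun B => ∑' k : Eis, (if k ≠ 0 ∧ k ∉ Cub r then
        ek k * TkR r w v (B ^ (1 - δ)) B k else 0) with hNCdef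
  -- the cube part
  have hSlim : Tendsto (fun B : ℝ => S B / ((B ^ E : ℝ) : ℂ)) atTop
      (𝓝 ((kapR r * (4 * Real.pi / Real.sqrt 3) * Iw w * mel v (5 / 6) * Dc : ℝ) : ℂ)) := by
    have hc1 := hcube w v hw hv N0 hN0pos δ hδ0 (by linarith)
    by_cases h3 : (3 : ℤ) ∣ r.im
    · have hk : kapR r = N0 ^ (-(1 / 3) : ℝ) := by unfold kapR; rw [if_pos h3]
      rw [hk]
      refine ((Complex.continuous_ofReal.tendsto _).comp hc1).congr fun B => ?_
      simp only [Function.comp, hS]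
      rw [cubes_A h3]
      push_cast
      rfl
    · have hk : kapR r = 0 := by unfold kapR; rw [if_neg h3]
      have hc2 := hcube w v hw hv (27 * N0) (by positivity) δ hδ0 (by linarith)
      have hc3 := (hc2.const_mul (3 / 2 : ℝ)).sub (hc1.const_mul (1 / 2 : ℝ))
      have h27 : (27 * N0) ^ (-(1 / 3) : ℝ) = 1 / 3 * N0 ^ (-(1 / 3) : ℝ) := by
        rw [Real.mul_rpow (by norm_num) hN0pos.le]
        congr 1
        have : (27 : ℝ) = 3 ^ (3 : ℝ) := by norm_num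
        rw [this, ← Real.rpow_mul (by norm_num)]
        norm_num
      rw [h27] at hc3
      have hlim0 : 3 / 2 * (1 / 3 * N0 ^ (-(1 / 3) : ℝ) * (4 * Real.pi / Real.sqrt 3) * Iw w *
          mel v (5 / 6) * Dc) - 1 / 2 * (N0 ^ (-(1 / 3) : ℝ) * (4 * Real.pi / Real.sqrt 3) * Iw w *
          mel v (5 / 6) * Dc) =
          kapR r * (4 * Real.pi / Real.sqrt 3) * Iw w * mel v (5 / 6) * Dc := by
        rw [hk]; ring
      rw [hlim0] at hc3
      refine ((Complex.continuous_ofReal.tendsto _).comp hc3).congr' ?_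
      filter_upwards [eventually_gt_atTop (0 : ℝ)] with B hB
      simp only [Function.comp, hS]
      rw [cubes_B hw hv (by positivity) hB hr0 hr h3, ← hN0]
      push_cast
      ring
  -- the noncube part
  have hNClim : Tendsto (fun B : ℝ => NC B / ((B ^ E : ℝ) : ℂ)) atTop (𝓝 0) := by
    rw [tendsto_zero_iff_norm_tendsto_zero]
    have hlt : 0 < E - θ := by rw [hE]; linarith
    have hlim : Tendsto (fun B : ℝ => C * B ^ (-(E - θ))) atTop (𝓝 0) := by
      have := (tendsto_rpow_neg_atTop hlt).const_mul C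
      rwa [mul_zero] at this
    refine squeeze_zero' (Eventually.of_forall fun B => norm_nonneg _) ?_ hlim
    filter_upwards [eventually_ge_atTop (1 : ℝ)] with B hB
    have hBpos : 0 < B := by linarith
    rw [norm_div, Complex.norm_real, Real.norm_of_nonneg (by positivity),
      div_le_iff₀ (by positivity), mul_assoc, ← Real.rpow_add hBpos]
    have e : -(E - θ) + E = θ := by ring
    rw [e]
    exact hNC B hB
  -- assembly
  have hsum := (hSlim.const_mul (1 / 3 : ℂ)).add hNClim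
  have hfin := hsum.const_mul ((2 / (9 * Real.sqrt 3) : ℝ) : ℂ)
  have h3 : Real.sqrt 3 * Real.sqrt 3 = 3 := Real.mul_self_sqrt (by norm_num)
  have h30 : Real.sqrt 3 ≠ 0 := by positivity
  have hconst : ((2 / (9 * Real.sqrt 3) : ℝ) : ℂ) * (1 / 3 *
      ((kapR r * (4 * Real.pi / Real.sqrt 3) * Iw w * mel v (5 / 6) * Dc : ℝ) : ℂ) + 0) =
      ((8 * Real.pi / 81 * Dc * Iw w * mel v (5 / 6) * kapR r : ℝ) : ℂ) := by
    have e : (2 / (9 * Real.sqrt 3)) * (1 / 3 *
      (kapR r * (4 * Real.pi / Real.sqrt 3) * Iw w * mel v (5 / 6) * Dc)) =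
      8 * Real.pi / 81 * Dc * Iw w * mel v (5 / 6) * kapR r := by
      field_simp
      have h33 : Real.sqrt 3 ^ 2 = 3 := by rw [pow_two]; exact h3
      rw [h33]
      ring
    rw [← e]
    push_cast
    ring
  rw [hconst] at hfin
  refine hfin.congr' ?_
  filter_upwards [eventually_gt_atTop (0 : ℝ), eventually_gt_atTop B0] with B hB hBB
  have hA : 0 < B ^ (1 - δ) := by positivity
  obtain ⟨hs1, hs2⟩ := SwR_eq hw hv hA hB hr
  rw [hs2, tsum_split hs1 (r := r), hz w r _ B hBB, mul_zero, zero_add]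
  have hSc := (summable_phase_Xt hw hv hA hB hr0 hr).2
  have hSc' : ∑' k : Eis, (if k ∈ Cub r then ek k * TkR r w v (B ^ (1 - δ)) B k else 0) =
      1 / 3 * S B := by
    simp only [hS]
    rw [hN0, hSc]
    ring
  rw [hSc']
  have hpow : B ^ (2 / 3 * (1 - δ) + 5 / 6 : ℝ) = B ^ (1 - δ) * B ^ E := by
    rw [← Real.rpow_add hB]
    congr 1
    rw [hE]; ring
  rw [hpow]
  have hA' : ((B ^ (1 - δ) : ℝ) : ℂ) ≠ 0 := by exact_mod_cast hA.ne'
  have hE' : ((B ^ E : ℝ) : ℂ) ≠ 0 := by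
    have : 0 < B ^ E := by positivity
    exact_mod_cast this.ne'
  have h30' : ((Real.sqrt 3 : ℝ) : ℂ) ≠ 0 := by exact_mod_cast h30
  simp only [hNCdef]
  push_cast
  field_simp

end

/-! ### the parameters `r = unit · λ^j`, `j ≤ 2` -/

lemma dvd_of_sq_dvd_cube {u : Eis} (hu : IsUnit u) {j : ℕ} (hj : j ≤ 2) {m : Eis}
    (h : (u * lam ^ j) ^ 2 ∣ m ^ 3) : u * lam ^ j ∣ m := by
  have h1 : lam ^ j ∣ m → u * lam ^ j ∣ m := fun h => (hu.mul_left_dvd).mpr h
  apply h1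
  have h2 : (lam ^ j) ^ 2 ∣ m ^ 3 := by
    refine dvd_trans ?_ h
    rw [mul_pow]
    exact dvd_mul_left _ _
  interval_cases j
  · simp
  · rw [pow_one] at h2 ⊢
    exact prime_lam.dvd_of_dvd_pow ((dvd_pow_self lam two_ne_zero).trans h2)
  · have h3 : lam ∣ m := prime_lam.dvd_of_dvd_pow
      ((dvd_pow_self lam two_ne_zero).trans ((dvd_pow_self (lam ^ 2) two_ne_zero).trans h2))
    obtain ⟨s, rfl⟩ := h3
    have h4 : lam ∣ s ^ 3 := by
      obtain ⟨t, ht⟩ := h2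
      refine ⟨t, ?_⟩
      apply mul_left_cancel₀ (pow_ne_zero 3 lam_ne_zero)
      linear_combination ht
    have h5 := prime_lam.dvd_of_dvd_pow h4
    rw [pow_two]
    exact mul_dvd_mul_left lam h5

lemma isCoprime_unit_lam {u : Eis} (hu : IsUnit u) (j : ℕ) (b : Eis) (hb : IsPrim b) :
    IsCoprime (u * lam ^ j) b := by
  refine IsCoprime.mul_left ?_ ?_
  · exact isCoprime_of_isUnit hu b
  · exact (hb.isCoprime_lam.symm).pow_left

lemma cube_of_unit_lam {u : Eis} (hu : IsUnit u) {j : ℕ} (hj : j ≤ 2) (k : Eis) (_ : k ≠ 0)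
    (h : ∃ m : Eis, (u * lam ^ j) ^ 2 * k = m ^ 3) : ∃ m : Eis, k = (u * lam ^ j) * m ^ 3 := by
  obtain ⟨m, hm⟩ := h
  have hr0 : u * lam ^ j ≠ 0 := mul_ne_zero hu.ne_zero (pow_ne_zero _ lam_ne_zero)
  obtain ⟨t, rfl⟩ := dvd_of_sq_dvd_cube hu hj ⟨k, hm.symm⟩
  refine ⟨t, ?_⟩
  apply mul_left_cancel₀ (pow_ne_zero 2 hr0)
  rw [hm]; ring

/-- **Item MC1** for `r = unit · λ^j`, `j ≤ 2`. -/
theorem first_moment_limit_unit_lam (hcube : CubeLimit) {w v : ℝ → ℝ} (hw : Wgt w) (hv : Wgt v)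
    {u : Eis} (hu : IsUnit u) {j : ℕ} (hj : j ≤ 2) {δ : ℝ} (hδ0 : 0 < δ) (hδ : δ < 3 / 7) :
    Tendsto (fun B : ℝ => SwR (u * lam ^ j) w v (B ^ (1 - δ)) B /
        ((B ^ (2 / 3 * (1 - δ) + 5 / 6 : ℝ) : ℝ) : ℂ)) atTop
      (𝓝 ((8 * Real.pi / 81 * Dc * Iw w * mel v (5 / 6) * kapR (u * lam ^ j) : ℝ) : ℂ)) :=
  first_moment_limit hcube hw hv (mul_ne_zero hu.ne_zero (pow_ne_zero _ lam_ne_zero))
    (isCoprime_unit_lam hu j) (cube_of_unit_lam hu hj) hδ0 hδ

end Crest.Agent.R012.MC
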