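import Crest.Agent.R012.Defs

-- ▼ part R012/LatSum_413
section

/-!
# Row 12 (MK12): lattice sums over `Eis` by the midpoint rule

* `tsum_sub_integral_le` : 2-dimensional midpoint rule on `ℝ × ℝ`.
* `integral_frame` : `∫_{ℝ×ℝ} f(q (x + y ω) + b) = (2/√3) |q|⁻² ∫_ℂ f`.
* `latSum_second` : `‖∑' m : Eis, f (q m + b) - (2/√3)|q|⁻² ∫ f‖ ≤ C M (R + |q|)²`
  if second differences of `f` are `≤ M |h|²` and `f` is supported in `|z| ≤ R`.
* `second_diff_of_contDiff`, `lip_of_contDiff` : the hypotheses from `ContDiff` + compact support.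
* `latSum_lip` : Lipschitz version with error `C L (R + |q|)² / |q|`.
-/

set_option autoImplicit false

noncomputable section

open MeasureTheory Set

namespace Crest.Agent.R012.LatSum413

open Crest.Agent.R012 Crest.Agent.R012.Eis

section Real2

variable {F : Type*} [NormedAddCommGroup F] [NormedSpace ℝ F]

/-- The half-open unit square centred at the integer point `p`. -/
def sq (p : ℤ × ℤ) : Set (ℝ × ℝ) :=
  Ico (-(1 / 2 : ℝ) + p.1) (-(1 / 2 : ℝ) + p.1 + 1) ×ˢ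
    Ico (-(1 / 2 : ℝ) + p.2) (-(1 / 2 : ℝ) + p.2 + 1)

lemma measurableSet_sq (p : ℤ × ℤ) : MeasurableSet (sq p) :=
  measurableSet_Ico.prod measurableSet_Ico

lemma mem_sq {p : ℤ × ℤ} {z : ℝ × ℝ} :
    z ∈ sq p ↔ (-(1 / 2 : ℝ) + p.1 ≤ z.1 ∧ z.1 < -(1 / 2 : ℝ) + p.1 + 1) ∧
      (-(1 / 2 : ℝ) + p.2 ≤ z.2 ∧ z.2 < -(1 / 2 : ℝ) + p.2 + 1) := by
  simp [sq, Set.mem_prod]

lemma iUnion_sq : ⋃ p : ℤ × ℤ, sq p = Set.univ := by
  ext z
  simp only [mem_iUnion, mem_univ, iff_true]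
  have h1 : z.1 ∈ ⋃ n : ℤ, Ico (-(1 / 2 : ℝ) + n) (-(1 / 2 : ℝ) + n + 1) := by
    rw [iUnion_Ico_add_intCast]; trivial
  have h2 : z.2 ∈ ⋃ n : ℤ, Ico (-(1 / 2 : ℝ) + n) (-(1 / 2 : ℝ) + n + 1) := by
    rw [iUnion_Ico_add_intCast]; trivial
  obtain ⟨n1, h1⟩ := mem_iUnion.mp h1
  obtain ⟨n2, h2⟩ := mem_iUnion.mp h2
  exact ⟨(n1, n2), h1, h2⟩

lemma disjoint_sq : Pairwise (Function.onFun Disjoint sq) := by
  intro p q hpq
  rw [Function.onFun, Set.disjoint_left]
  intro z hz hz'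
  apply hpq
  have h1 : p.1 = q.1 := by
    by_contra h
    exact Set.disjoint_left.mp
      (pairwise_disjoint_Ico_add_intCast (-(1 / 2 : ℝ)) h) hz.1 hz'.1
  have h2 : p.2 = q.2 := by
    by_contra h
    exact Set.disjoint_left.mp
      (pairwise_disjoint_Ico_add_intCast (-(1 / 2 : ℝ)) h) hz.2 hz'.2
  exact Prod.ext h1 h2

/-- The integer point `p` as a real point. -/
def ptr (p : ℤ × ℤ) : ℝ × ℝ := ((p.1 : ℝ), (p.2 : ℝ))

lemma hasSum_sq {g : ℝ × ℝ → F} (hg : Integrable g) :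
    HasSum (fun p : ℤ × ℤ => ∫ z in sq p, g z) (∫ z, g z) := by
  have := hasSum_integral_iUnion (f := g) (μ := volume) (s := sq)
    (fun p => measurableSet_sq p) disjoint_sq (by rw [iUnion_sq]; exact hg.integrableOn)
  rwa [iUnion_sq, setIntegral_univ] at this

lemma setIntegral_sq (g : ℝ × ℝ → F) (p : ℤ × ℤ) :
    ∫ z in sq p, g z = ∫ z in sq 0, g (ptr p + z) := by
  rw [← integral_indicator (measurableSet_sq p), ← integral_indicator (measurableSet_sq 0),
    ← integral_add_left_eq_self _ (ptr p)]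
  apply integral_congr_ae
  refine Filter.Eventually.of_forall fun z => ?_
  have h : ptr p + z ∈ sq p ↔ z ∈ sq 0 := by
    rw [mem_sq, mem_sq]
    simp only [ptr, Prod.fst_add, Prod.snd_add, Prod.fst_zero, Prod.snd_zero, Int.cast_zero]
    constructor
    · rintro ⟨⟨h1, h2⟩, h3, h4⟩
      exact ⟨⟨by linarith, by linarith⟩, by linarith, by linarith⟩
    · rintro ⟨⟨h1, h2⟩, h3, h4⟩
      exact ⟨⟨by linarith, by linarith⟩, by linarith, by linarith⟩
  by_cases hz : z ∈ sq 0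
  · simp only [Set.indicator_of_mem hz, Set.indicator_of_mem (h.mpr hz)]
  · simp only [Set.indicator_of_notMem hz, Set.indicator_of_notMem (fun h' => hz (h.mp h'))]

lemma sq_zero_ae : (sq 0 : Set (ℝ × ℝ)) =ᵐ[volume]
    (Ioc (-(1 / 2 : ℝ)) (1 / 2) ×ˢ Ioc (-(1 / 2 : ℝ)) (1 / 2) : Set (ℝ × ℝ)) := by
  have h : (sq 0 : Set (ℝ × ℝ)) =
      (Ico (-(1 / 2 : ℝ)) (1 / 2) ×ˢ Ico (-(1 / 2 : ℝ)) (1 / 2) : Set (ℝ × ℝ)) := by
    simp only [sq, Prod.fst_zero, Prod.snd_zero, Int.cast_zero, add_zero]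
    norm_num
  rw [h]
  exact Measure.set_prod_ae_eq Ico_ae_eq_Ioc Ico_ae_eq_Ioc

lemma setIntegral_sq_neg (g : ℝ × ℝ → F) :
    ∫ z in sq 0, g z = ∫ z in sq 0, g (-z) := by
  conv_lhs => rw [setIntegral_congr_set sq_zero_ae]
  rw [← integral_indicator (measurableSet_Ioc.prod measurableSet_Ioc),
    ← integral_indicator (measurableSet_sq 0),
    ← integral_neg_eq_self]
  apply integral_congr_ae
  refine Filter.Eventually.of_forall fun z => ?_
  have h : -z ∈ (Ioc (-(1 / 2 : ℝ)) (1 / 2) ×ˢ Ioc (-(1 / 2 : ℝ)) (1 / 2) : Set (ℝ × ℝ))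
      ↔ z ∈ sq 0 := by
    rw [mem_sq]
    simp only [Set.mem_prod, Set.mem_Ioc, Prod.fst_neg, Prod.snd_neg, Prod.fst_zero,
      Prod.snd_zero, Int.cast_zero]
    constructor
    · rintro ⟨⟨h1, h2⟩, h3, h4⟩
      exact ⟨⟨by linarith, by linarith⟩, by linarith, by linarith⟩
    · rintro ⟨⟨h1, h2⟩, h3, h4⟩
      exact ⟨⟨by linarith, by linarith⟩, by linarith, by linarith⟩
  by_cases hz : z ∈ sq 0
  · simp only [Set.indicator_of_mem hz, Set.indicator_of_mem (h.mpr hz)]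
  · simp only [Set.indicator_of_notMem hz, Set.indicator_of_notMem (fun h' => hz (h.mp h'))]

lemma volume_sq_zero : (volume : Measure (ℝ × ℝ)).real (sq 0) = 1 := by
  rw [sq, Measure.volume_eq_prod, Measure.real, Measure.prod_prod, Real.volume_Ico,
    Real.volume_Ico]
  simp only [Prod.fst_zero, Prod.snd_zero, Int.cast_zero]
  norm_num

lemma volume_sq_zero_lt : volume (sq 0) < ⊤ := by
  rw [sq, Measure.volume_eq_prod, Measure.prod_prod, Real.volume_Ico, Real.volume_Ico]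
  simp only [Prod.fst_zero, Prod.snd_zero, Int.cast_zero]
  norm_num

lemma norm_le_of_mem_sq {z : ℝ × ℝ} (hz : z ∈ sq 0) : ‖z‖ ≤ 1 / 2 := by
  rw [mem_sq] at hz
  simp only [Prod.fst_zero, Prod.snd_zero, Int.cast_zero] at hz
  rw [Prod.norm_def, Real.norm_eq_abs, Real.norm_eq_abs]
  apply max_le
  · rw [abs_le]; constructor <;> linarith [hz.1.1, hz.1.2]
  · rw [abs_le]; constructor <;> linarith [hz.2.1, hz.2.2]

variable [CompleteSpace F]

/-- One cell, second order. -/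
lemma cell_second {g : ℝ × ℝ → F} (hg : Continuous g) {M : ℝ}
    (h2 : ∀ p h, ‖g (p + h) + g (p - h) - (2 : ℝ) • g p‖ ≤ M * ‖h‖ ^ 2) (hM : 0 ≤ M)
    (p : ℤ × ℤ) : ‖g (ptr p) - ∫ z in sq p, g z‖ ≤ M / 8 := by
  have hint : ∀ g' : ℝ × ℝ → F, Continuous g' → IntegrableOn g' (sq 0) := by
    intro g' hg'
    refine (hg'.continuousOn.integrableOn_compact
      (isCompact_Icc.prod isCompact_Icc) (K := (Icc (-(1 / 2 : ℝ)) (1 / 2) ×ˢ
        Icc (-(1 / 2 : ℝ)) (1 / 2)))).mono_set ?_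
    intro z hz
    rw [mem_sq] at hz
    simp only [Prod.fst_zero, Prod.snd_zero, Int.cast_zero] at hz
    exact ⟨⟨by linarith [hz.1.1], by linarith [hz.1.2]⟩, by linarith [hz.2.1],
      by linarith [hz.2.2]⟩
  have e1 : (2 : ℝ) • (g (ptr p) - ∫ z in sq p, g z) =
      -∫ z in sq 0, (g (ptr p + z) + g (ptr p - z) - (2 : ℝ) • g (ptr p)) := by
    have i1 := hint (fun z => g (ptr p + z)) (by fun_prop)
    have i2 := hint (fun z => g (ptr p - z)) (by fun_prop)
    have i3 := hint (fun _ => (2 : ℝ) • g (ptr p)) (by fun_prop)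
    have e0 := integral_sub (f := fun z => g (ptr p + z) + g (ptr p - z)) (i1.add i2) i3
    rw [e0, integral_add i1 i2, setIntegral_const,
      volume_sq_zero, one_smul]
    have e2 : ∫ z in sq 0, g (ptr p - z) = ∫ z in sq 0, g (ptr p + z) := by
      rw [setIntegral_sq_neg (fun z => g (ptr p + z))]
      simp [sub_eq_add_neg]
    rw [e2, setIntegral_sq, two_smul, two_smul]
    abel
  have e3 : ‖∫ z in sq 0, (g (ptr p + z) + g (ptr p - z) - (2 : ℝ) • g (ptr p))‖ ≤ M / 4 := by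
    have := norm_setIntegral_le_of_norm_le_const (μ := volume) (s := sq 0)
      (f := fun z => g (ptr p + z) + g (ptr p - z) - (2 : ℝ) • g (ptr p)) (C := M / 4)
      volume_sq_zero_lt (by
        intro z hz
        refine (h2 (ptr p) z).trans ?_
        have h3 := norm_le_of_mem_sq hz
        have h4 : ‖z‖ ^ 2 ≤ (1 / 2) ^ 2 := pow_le_pow_left₀ (norm_nonneg _) h3 2
        nlinarith)
    rwa [volume_sq_zero, mul_one] at this
  have e4 : ‖(2 : ℝ) • (g (ptr p) - ∫ z in sq p, g z)‖ ≤ M / 4 := by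
    rw [e1, norm_neg]; exact e3
  rw [norm_smul] at e4
  have : ‖(2 : ℝ)‖ = 2 := by simp
  rw [this] at e4
  linarith


/-- The finite box of integer points. -/
def box (a b R : ℝ) : Finset (ℤ × ℤ) :=
  Finset.Icc ⌈a - R - 1 / 2⌉ ⌊a + R + 1 / 2⌋ ×ˢ Finset.Icc ⌈b - R - 1 / 2⌉ ⌊b + R + 1 / 2⌋

lemma card_Icc_le (a R : ℝ) (hR : 0 ≤ R) :
    ((Finset.Icc ⌈a - R - 1 / 2⌉ ⌊a + R + 1 / 2⌋).card : ℝ) ≤ 2 * R + 2 := by
  rw [Int.card_Icc]
  have h1 := Int.le_ceil (a - R - 1 / 2)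
  have h2 := Int.floor_le (a + R + 1 / 2)
  have h3 : ((⌊a + R + 1 / 2⌋ + 1 - ⌈a - R - 1 / 2⌉ : ℤ) : ℝ) ≤ 2 * R + 2 := by
    push_cast; linarith
  rcases le_total 0 (⌊a + R + 1 / 2⌋ + 1 - ⌈a - R - 1 / 2⌉) with h | h
  · have h4 : (((⌊a + R + 1 / 2⌋ + 1 - ⌈a - R - 1 / 2⌉).toNat : ℤ) : ℝ) =
        ((⌊a + R + 1 / 2⌋ + 1 - ⌈a - R - 1 / 2⌉ : ℤ) : ℝ) := by
      rw [Int.toNat_of_nonneg h]
    rw [← h4] at h3
    exact_mod_cast h3
  · rw [Int.toNat_of_nonpos h]; simp; linarith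

lemma card_box_le (a b R : ℝ) (hR : 0 ≤ R) : ((box a b R).card : ℝ) ≤ (2 * R + 2) ^ 2 := by
  rw [box, Finset.card_product, Nat.cast_mul, pow_two]
  exact mul_le_mul (card_Icc_le a R hR) (card_Icc_le b R hR) (by positivity) (by linarith)

omit [CompleteSpace F] in
lemma eq_zero_of_notMem_box {g : ℝ × ℝ → F} {a b R : ℝ}
    (hs : ∀ z : ℝ × ℝ, R < |z.1 - a| ∨ R < |z.2 - b| → g z = 0) {p : ℤ × ℤ}
    (hp : p ∉ box a b R) : g (ptr p) = 0 ∧ ∫ z in sq p, g z = 0 := by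
  have key : ∀ z ∈ sq p, g z = 0 := by
    intro z hz
    apply hs
    by_contra hc
    push Not at hc
    apply hp
    rw [mem_sq] at hz
    rw [abs_le, abs_le] at hc
    rw [box, Finset.mem_product, Finset.mem_Icc, Finset.mem_Icc, Int.ceil_le, Int.le_floor,
      Int.ceil_le, Int.le_floor]
    refine ⟨⟨?_, ?_⟩, ?_, ?_⟩ <;> linarith [hz.1.1, hz.1.2, hz.2.1, hz.2.2, hc.1.1, hc.1.2,
      hc.2.1, hc.2.2]
  refine ⟨key _ ?_, ?_⟩
  · rw [mem_sq]; simp only [ptr]
    refine ⟨⟨?_, ?_⟩, ?_, ?_⟩ <;> linarith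
  · exact setIntegral_eq_zero_of_forall_eq_zero key

omit [CompleteSpace F] in
/-- The abstract comparison. -/
lemma tsum_sub_integral_le {g : ℝ × ℝ → F} (hg : Continuous g) {a b R : ℝ} (hR : 0 ≤ R)
    (hs : ∀ z : ℝ × ℝ, R < |z.1 - a| ∨ R < |z.2 - b| → g z = 0) {K : ℝ} (hK : 0 ≤ K)
    (hc : ∀ p : ℤ × ℤ, ‖g (ptr p) - ∫ z in sq p, g z‖ ≤ K) :
    Summable (fun p : ℤ × ℤ => g (ptr p)) ∧
    ‖∑' p : ℤ × ℤ, g (ptr p) - ∫ z, g z‖ ≤ (2 * R + 2) ^ 2 * K := by
  have hcomp : HasCompactSupport g := by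
    apply HasCompactSupport.intro
      (K := (Icc (a - R) (a + R) ×ˢ Icc (b - R) (b + R) : Set (ℝ × ℝ)))
      (isCompact_Icc.prod isCompact_Icc)
    intro z hz
    apply hs
    by_contra hc
    push Not at hc
    rw [abs_le, abs_le] at hc
    apply hz
    exact ⟨⟨by linarith [hc.1.1], by linarith [hc.1.2]⟩, by linarith [hc.2.1],
      by linarith [hc.2.2]⟩
  have hint : Integrable g := hg.integrable_of_hasCompactSupport hcomp
  have hsum := hasSum_sq hint
  have h1 : ∀ p ∉ box a b R, g (ptr p) = 0 := fun p hp => (eq_zero_of_notMem_box hs hp).1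
  have h2 : ∀ p ∉ box a b R, ∫ z in sq p, g z = 0 := fun p hp => (eq_zero_of_notMem_box hs hp).2
  refine ⟨summable_of_ne_finset_zero h1, ?_⟩
  rw [tsum_eq_sum h1, ← hsum.tsum_eq, tsum_eq_sum h2, ← Finset.sum_sub_distrib]
  refine (norm_sum_le _ _).trans ?_
  refine (Finset.sum_le_card_nsmul _ _ K (fun p _ => hc p)).trans ?_
  rw [nsmul_eq_mul]
  exact mul_le_mul_of_nonneg_right (card_box_le a b R hR) hK

/-- Second order midpoint rule in the plane. -/
lemma midpoint_second {g : ℝ × ℝ → F} (hg : Continuous g) {a b R : ℝ} (hR : 0 ≤ R)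
    (hs : ∀ z : ℝ × ℝ, R < |z.1 - a| ∨ R < |z.2 - b| → g z = 0) {M : ℝ} (hM : 0 ≤ M)
    (h2 : ∀ p h, ‖g (p + h) + g (p - h) - (2 : ℝ) • g p‖ ≤ M * ‖h‖ ^ 2) :
    Summable (fun p : ℤ × ℤ => g (ptr p)) ∧
    ‖∑' p : ℤ × ℤ, g (ptr p) - ∫ z, g z‖ ≤ (2 * R + 2) ^ 2 * (M / 8) :=
  tsum_sub_integral_le hg hR hs (by positivity) (fun p => cell_second hg h2 hM p)


end Real2

section Frame

variable {F : Type*} [NormedAddCommGroup F] [NormedSpace ℝ F]

/-- The real-linear map `x + iy ↦ x u + y v`. -/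
def frameMap (u v : ℂ) : ℂ →ₗ[ℝ] ℂ where
  toFun z := (z.re : ℝ) • u + (z.im : ℝ) • v
  map_add' x y := by simp only [Complex.add_re, Complex.add_im, add_smul]; abel
  map_smul' c x := by
    simp only [Complex.smul_re, Complex.smul_im, smul_eq_mul, RingHom.id_apply, smul_add,
      smul_smul]

lemma det_frameMap (u v : ℂ) :
    LinearMap.det (frameMap u v) = ((starRingEnd ℂ) u * v).im := by
  rw [← LinearMap.det_toMatrix Complex.basisOneI, Matrix.det_fin_two]
  simp [LinearMap.toMatrix_apply, frameMap, Complex.coe_basisOneI_repr]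
  ring

/-- Integration in the coordinates of a real frame `(u, v)` of `ℂ`. -/
lemma integral_frameMap {u v : ℂ} (h : ((starRingEnd ℂ) u * v).im ≠ 0) (f : ℂ → F) :
    ∫ z : ℂ, f (frameMap u v z) = |((starRingEnd ℂ) u * v).im|⁻¹ • ∫ z, f z := by
  have hdet : LinearMap.det (frameMap u v) ≠ 0 := by rw [det_frameMap]; exact h
  have hmap := Measure.map_linearMap_addHaar_eq_smul_addHaar (volume : Measure ℂ) hdet
  let e : ℂ ≃ₗ[ℝ] ℂ := LinearEquiv.ofIsUnitDet (v := Complex.basisOneI)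
    (v' := Complex.basisOneI) (f := frameMap u v) (by
      rw [LinearMap.det_toMatrix]; exact hdet.isUnit)
  have hemb : MeasurableEmbedding (frameMap u v) := by
    have : MeasurableEmbedding (e.toContinuousLinearEquiv : ℂ → ℂ) :=
      e.toContinuousLinearEquiv.toHomeomorph.measurableEmbedding
    exact this
  rw [← hemb.integral_map, hmap, integral_smul_measure, det_frameMap,
    ENNReal.toReal_ofReal (abs_nonneg _), abs_inv]

lemma integral_frame {u v : ℂ} (h : ((starRingEnd ℂ) u * v).im ≠ 0) (b : ℂ) (f : ℂ → F) :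
    ∫ z : ℝ × ℝ, f (z.1 • u + z.2 • v + b) = |((starRingEnd ℂ) u * v).im|⁻¹ • ∫ z, f z := by
  have h1 := integral_frameMap h (fun z => f (z + b))
  rw [integral_add_right_eq_self f b] at h1
  rw [← h1, ← Complex.volume_preserving_equiv_real_prod.integral_comp
    Complex.measurableEquivRealProd.measurableEmbedding]
  rfl

lemma frame_q (q : ℂ) : ((starRingEnd ℂ) q * (q * wC)).im = ‖q‖ ^ 2 * (Real.sqrt 3 / 2) := by
  rw [← mul_assoc, mul_comm ((starRingEnd ℂ) q) q, Complex.mul_conj, Complex.normSq_eq_norm_sq,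
    Complex.im_ofReal_mul]
  rfl

lemma frame_q_ne {q : ℂ} (hq : q ≠ 0) : ((starRingEnd ℂ) q * (q * wC)).im ≠ 0 := by
  rw [frame_q]
  have := norm_pos_iff.mpr hq
  positivity

/-- `Eis ≃ ℤ × ℤ`. -/
def eisEquiv : Eis ≃ ℤ × ℤ where
  toFun z := (z.re, z.im)
  invFun p := ⟨p.1, p.2⟩
  left_inv _ := rfl
  right_inv _ := rfl

lemma toC_eisEquiv_symm (p : ℤ × ℤ) : toC (eisEquiv.symm p) = (p.1 : ℂ) + (p.2 : ℂ) * wC := rfl

lemma norm_wC : ‖wC‖ = 1 := by
  have h := congrArg (fun z : ℂ => ‖z‖) wC_cube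
  simp only [norm_pow, norm_one] at h
  exact (pow_eq_one_iff_of_nonneg (norm_nonneg _) (by norm_num)).mp h

/-- The coordinates of a point in the frame `(1, ω)` are controlled by its absolute value. -/
lemma coord_bound (x y : ℝ) : 3 * x ^ 2 ≤ 4 * ‖(x : ℂ) + (y : ℂ) * wC‖ ^ 2 ∧
    3 * y ^ 2 ≤ 4 * ‖(x : ℂ) + (y : ℂ) * wC‖ ^ 2 := by
  have h3 : Real.sqrt 3 * Real.sqrt 3 = 3 := Real.mul_self_sqrt (by norm_num)
  have e : ‖(x : ℂ) + (y : ℂ) * wC‖ ^ 2 = x ^ 2 - x * y + y ^ 2 := by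
    rw [← Complex.normSq_eq_norm_sq, Complex.normSq_apply]
    simp [wC]
    nlinarith
  rw [e]
  constructor
  · nlinarith [sq_nonneg (x - 2 * y)]
  · nlinarith [sq_nonneg (y - 2 * x)]

/-- The pull-back of `f` to the `(x, y)`-plane. -/
def pull (q b : ℂ) (f : ℂ → F) (z : ℝ × ℝ) : F := f (z.1 • q + z.2 • (q * wC) + b)

omit [NormedAddCommGroup F] [NormedSpace ℝ F] in
lemma pull_ptr (q b : ℂ) (f : ℂ → F) (p : ℤ × ℤ) :
    pull q b f (ptr p) = f (q * toC (eisEquiv.symm p) + b) := by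
  rw [pull, ptr, toC_eisEquiv_symm]
  congr 2
  simp only [Complex.real_smul]
  push_cast
  ring

omit [NormedSpace ℝ F] in
lemma continuous_pull (q b : ℂ) {f : ℂ → F} (hf : Continuous f) : Continuous (pull q b f) := by
  unfold pull
  fun_prop

lemma integral_pull {q : ℂ} (hq : q ≠ 0) (b : ℂ) (f : ℂ → F) :
    ∫ z, pull q b f z = (2 / Real.sqrt 3 / ‖q‖ ^ 2) • ∫ z, f z := by
  unfold pull
  rw [integral_frame (frame_q_ne hq), frame_q]
  congr 1
  have := norm_pos_iff.mpr hq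
  rw [abs_of_pos (by positivity)]
  have h3 : Real.sqrt 3 ≠ 0 := by positivity
  field_simp

/-- Coordinates `(s, t)` of the point `-b/q` in the frame `(1, ω)`. -/
lemma exists_coord {q : ℂ} (hq : q ≠ 0) (b : ℂ) :
    ∃ s t : ℝ, s • q + t • (q * wC) + b = 0 := by
  obtain ⟨τ, rfl⟩ : ∃ τ, b = q * τ := ⟨b / q, by field_simp⟩
  refine ⟨-(τ.re + τ.im / Real.sqrt 3), -(2 * τ.im / Real.sqrt 3), ?_⟩
  have h3 : Real.sqrt 3 ≠ 0 := by positivity
  have e : τ = ((τ.re + τ.im / Real.sqrt 3 : ℝ) : ℂ) +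
      ((2 * τ.im / Real.sqrt 3 : ℝ) : ℂ) * wC := by
    apply Complex.ext
    · simp [wC]; field_simp; ring
    · simp [wC]; field_simp
  simp only [Complex.real_smul]
  push_cast at e ⊢
  linear_combination q * e

omit [NormedSpace ℝ F] in
lemma pull_support {q : ℂ} (hq : q ≠ 0) {b : ℂ} {f : ℂ → F} {R : ℝ}
    (hs : ∀ z, R < ‖z‖ → f z = 0) {s t : ℝ} (hst : s • q + t • (q * wC) + b = 0) (z : ℝ × ℝ)
    (hz : 2 * R / ‖q‖ < |z.1 - s| ∨ 2 * R / ‖q‖ < |z.2 - t|) : pull q b f z = 0 := by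
  apply hs
  have hqn := norm_pos_iff.mpr hq
  have e : z.1 • q + z.2 • (q * wC) + b = q * (((z.1 - s : ℝ) : ℂ) + ((z.2 - t : ℝ) : ℂ) * wC) := by
    have : z.1 • q + z.2 • (q * wC) + b =
        (z.1 • q + z.2 • (q * wC) + b) - (s • q + t • (q * wC) + b) := by rw [hst, sub_zero]
    rw [this]
    simp only [Complex.real_smul]
    push_cast
    ring
  rw [e, norm_mul]
  obtain ⟨h1, h2⟩ := coord_bound (z.1 - s) (z.2 - t)
  set N := ‖((z.1 - s : ℝ) : ℂ) + ((z.2 - t : ℝ) : ℂ) * wC‖ with hN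
  have hN0 : 0 ≤ N := norm_nonneg _
  have key : ∀ u : ℝ, 2 * R / ‖q‖ < |u| → 3 * u ^ 2 ≤ 4 * N ^ 2 → R < ‖q‖ * N := by
    intro u hu h3
    rw [div_lt_iff₀ hqn] at hu
    have h4 : |u| ≤ 2 * N := by
      apply abs_le_of_sq_le_sq _ (by positivity)
      nlinarith
    nlinarith
  rcases hz with hz | hz
  · exact key _ hz h1
  · exact key _ hz h2

lemma second_diff_of_lip {f : ℂ → F} (hf : Differentiable ℝ f) {M : ℝ}
    (hL : ∀ x y, ‖fderiv ℝ f x - fderiv ℝ f y‖ ≤ M * ‖x - y‖) (z h : ℂ) :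
    ‖f (z + h) + f (z - h) - (2 : ℝ) • f z‖ ≤ M * ‖h‖ ^ 2 := by
  have key : ‖(fun x => f (x + h) - f x) z - (fun x => f (x + h) - f x) (z - h)‖ ≤
      (M * ‖h‖) * ‖z - (z - h)‖ := by
    refine Convex.norm_image_sub_le_of_norm_hasFDerivWithin_le (s := Set.univ) (𝕜 := ℝ)
      (f := fun x => f (x + h) - f x) (x := z - h) (y := z) (C := M * ‖h‖)
      (f' := fun x => fderiv ℝ f (x + h) - fderiv ℝ f x) ?_ ?_ ?_ ?_ ?_
    · intro x _
      have h1 : HasFDerivAt (fun x => f (x + h)) (fderiv ℝ f (x + h)) x := by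
        exact (hasFDerivAt_comp_add_right h).mpr (hf (x + h)).hasFDerivAt
      exact (h1.sub (hf x).hasFDerivAt).hasFDerivWithinAt
    · intro x _
      have := hL (x + h) x
      simpa using this
    · exact convex_univ
    · trivial
    · trivial
  have e : f (z + h) + f (z - h) - (2 : ℝ) • f z =
      (fun x => f (x + h) - f x) z - (fun x => f (x + h) - f x) (z - h) := by
    simp only [sub_add_cancel, two_smul]
    abel
  rw [e]
  refine key.trans (le_of_eq ?_)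
  rw [sub_sub_cancel]; ring

lemma second_diff_of_contDiff {f : ℂ → F} (hf : ContDiff ℝ 2 f) (hc : HasCompactSupport f) :
    ∃ M, 0 ≤ M ∧ ∀ z h, ‖f (z + h) + f (z - h) - (2 : ℝ) • f z‖ ≤ M * ‖h‖ ^ 2 := by
  have h1 : ContDiff ℝ 1 (fderiv ℝ f) := hf.fderiv_right (by norm_num)
  obtain ⟨C, hC⟩ := h1.lipschitzWith_of_hasCompactSupport (hc.fderiv ℝ) (by norm_num)
  refine ⟨C, C.2, second_diff_of_lip (hf.differentiable (by norm_num)) ?_⟩
  intro x y
  have := hC.dist_le_mul x y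
  rwa [dist_eq_norm, dist_eq_norm] at this


variable [CompleteSpace F]

/-- **Midpoint rule over `Eis`** (second order). -/
theorem latSum_second {f : ℂ → F} (hf : Continuous f) {R M : ℝ} (hR : 0 ≤ R) (hM : 0 ≤ M)
    (hs : ∀ z, R < ‖z‖ → f z = 0)
    (h2 : ∀ z h, ‖f (z + h) + f (z - h) - (2 : ℝ) • f z‖ ≤ M * ‖h‖ ^ 2)
    {q : ℂ} (hq : q ≠ 0) (b : ℂ) :
    Summable (fun m : Eis => f (q * toC m + b)) ∧
    ‖∑' m : Eis, f (q * toC m + b) - (2 / Real.sqrt 3 / ‖q‖ ^ 2) • ∫ z, f z‖ ≤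
      8 * M * (R + ‖q‖) ^ 2 := by
  have hqn := norm_pos_iff.mpr hq
  obtain ⟨s, t, hst⟩ := exists_coord hq b
  have hsup := pull_support (f := f) hq hs hst
  have h2' : ∀ p h, ‖pull q b f (p + h) + pull q b f (p - h) - (2 : ℝ) • pull q b f p‖ ≤
      (4 * M * ‖q‖ ^ 2) * ‖h‖ ^ 2 := by
    intro p h
    have h3 := h2 (p.1 • q + p.2 • (q * wC) + b) (h.1 • q + h.2 • (q * wC))
    have e1 : pull q b f (p + h) =
        f (p.1 • q + p.2 • (q * wC) + b + (h.1 • q + h.2 • (q * wC))) := by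
      rw [pull]; congr 1; simp only [Prod.fst_add, Prod.snd_add, add_smul]; abel
    have e2 : pull q b f (p - h) =
        f (p.1 • q + p.2 • (q * wC) + b - (h.1 • q + h.2 • (q * wC))) := by
      rw [pull]; congr 1; simp only [Prod.fst_sub, Prod.snd_sub, sub_smul]; abel
    rw [e1, e2, pull]
    refine h3.trans ?_
    have h4 : ‖h.1 • q + h.2 • (q * wC)‖ ≤ 2 * ‖q‖ * ‖h‖ := by
      refine (norm_add_le _ _).trans ?_
      rw [norm_smul, norm_smul, norm_mul, norm_wC, mul_one]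
      have h5 := norm_fst_le h
      have h6 := norm_snd_le h
      nlinarith
    have h7 : ‖h.1 • q + h.2 • (q * wC)‖ ^ 2 ≤ (2 * ‖q‖ * ‖h‖) ^ 2 :=
      pow_le_pow_left₀ (norm_nonneg _) h4 2
    nlinarith
  have hmid := midpoint_second (g := pull q b f) (continuous_pull q b hf) (a := s) (b := t)
    (R := 2 * R / ‖q‖) (by positivity) hsup (M := 4 * M * ‖q‖ ^ 2) (by positivity) h2'
  have e3 : (fun p : ℤ × ℤ => pull q b f (ptr p)) =
      (fun m : Eis => f (q * toC m + b)) ∘ eisEquiv.symm := by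
    funext p; rw [pull_ptr]; rfl
  rw [e3] at hmid
  refine ⟨(Equiv.summable_iff _).mp hmid.1, ?_⟩
  have e4 : ∑' p : ℤ × ℤ, ((fun m : Eis => f (q * toC m + b)) ∘ eisEquiv.symm) p =
      ∑' m : Eis, f (q * toC m + b) :=
    Equiv.tsum_eq eisEquiv.symm (fun m : Eis => f (q * toC m + b))
  have h8 := hmid.2
  rw [show tsum ((fun m : Eis => f (q * toC m + b)) ∘ eisEquiv.symm) =
    ∑' m : Eis, f (q * toC m + b) from e4, integral_pull hq] at h8
  refine h8.trans (le_of_eq_of_le (?_ : _ = 8 * M * (R + ‖q‖ / 2) ^ 2) ?_)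
  · field_simp; ring
  · gcongr; linarith


end Frame

end Crest.Agent.R012.LatSum413
end
end

-- ▼ part R012/LatDec_413
section

/-!
# Row 12 (MK12): lattice sums over `Eis`, functions with decay

* `latSum_decay` : for `f : ℂ → F` continuous and integrable whose second differences satisfy
  `‖f (z+h) + f (z-h) - 2 f z‖ ≤ M (1+‖z‖)⁻³ ‖h‖²` for `‖h‖ ≤ 1`, and `0 < ‖q‖ ≤ 1`,
  `‖∑' m, f (q m + b) - (2/√3)|q|⁻² ∫ f‖ ≤ (8/√3) M J3`, `J3 = ∫ (1+‖z‖)⁻³`.
* `latSum_osc` : general first order version with an oscillation majorant.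
* `second_diff_of_schwartz`.
-/

set_option autoImplicit false

noncomputable section

open MeasureTheory Set

namespace Crest.Agent.R012.LatSum413

open Crest.Agent.R012 Crest.Agent.R012.Eis

section Plane

variable {F : Type*} [NormedAddCommGroup F] [NormedSpace ℝ F]

lemma plane_compare {g : ℝ × ℝ → F} (hg : Integrable g) {κ : ℤ × ℤ → ℝ} {A : ℝ}
    (hκ : HasSum κ A) (hc : ∀ p : ℤ × ℤ, ‖g (ptr p) - ∫ z in sq p, g z‖ ≤ κ p) [CompleteSpace F] :
    Summable (fun p : ℤ × ℤ => g (ptr p)) ∧ ‖∑' p : ℤ × ℤ, g (ptr p) - ∫ z, g z‖ ≤ A := by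
  have hsum := hasSum_sq hg
  have hd : Summable (fun p : ℤ × ℤ => g (ptr p) - ∫ z in sq p, g z) :=
    Summable.of_norm_bounded hκ.summable hc
  have hs : Summable (fun p : ℤ × ℤ => g (ptr p)) := by
    have := hd.add hsum.summable
    simpa using this
  refine ⟨hs, ?_⟩
  rw [← hsum.tsum_eq, ← hs.tsum_sub hsum.summable]
  exact tsum_of_norm_bounded hκ hc

variable [CompleteSpace F]

omit [NormedSpace ℝ F] [CompleteSpace F] in
lemma integrableOn_sq_zero {g' : ℝ × ℝ → F} (hg' : Continuous g') : IntegrableOn g' (sq 0) := by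
  refine (hg'.continuousOn.integrableOn_compact
    (isCompact_Icc.prod isCompact_Icc) (K := (Icc (-(1 / 2 : ℝ)) (1 / 2) ×ˢ
      Icc (-(1 / 2 : ℝ)) (1 / 2)))).mono_set ?_
  intro z hz
  rw [mem_sq] at hz
  simp only [Prod.fst_zero, Prod.snd_zero, Int.cast_zero] at hz
  exact ⟨⟨by linarith [hz.1.1], by linarith [hz.1.2]⟩, by linarith [hz.2.1],
    by linarith [hz.2.2]⟩

/-- One cell, second order, local hypothesis. -/
lemma cell_second' {g : ℝ × ℝ → F} (hg : Continuous g) {M : ℝ} (hM : 0 ≤ M)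
    (p : ℤ × ℤ) (h2 : ∀ h : ℝ × ℝ, ‖h‖ ≤ 1 / 2 →
      ‖g (ptr p + h) + g (ptr p - h) - (2 : ℝ) • g (ptr p)‖ ≤ M * ‖h‖ ^ 2) :
    ‖g (ptr p) - ∫ z in sq p, g z‖ ≤ M / 8 := by
  have e1 : (2 : ℝ) • (g (ptr p) - ∫ z in sq p, g z) =
      -∫ z in sq 0, (g (ptr p + z) + g (ptr p - z) - (2 : ℝ) • g (ptr p)) := by
    have i1 := integrableOn_sq_zero (g' := fun z => g (ptr p + z)) (by fun_prop)
    have i2 := integrableOn_sq_zero (g' := fun z => g (ptr p - z)) (by fun_prop)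
    have i3 := integrableOn_sq_zero (g' := fun _ => (2 : ℝ) • g (ptr p)) (by fun_prop)
    have e0 := integral_sub (f := fun z => g (ptr p + z) + g (ptr p - z)) (i1.add i2) i3
    rw [e0, integral_add i1 i2, setIntegral_const,
      volume_sq_zero, one_smul]
    have e2 : ∫ z in sq 0, g (ptr p - z) = ∫ z in sq 0, g (ptr p + z) := by
      rw [setIntegral_sq_neg (fun z => g (ptr p + z))]
      simp [sub_eq_add_neg]
    rw [e2, setIntegral_sq, two_smul, two_smul]
    abel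
  have e3 : ‖∫ z in sq 0, (g (ptr p + z) + g (ptr p - z) - (2 : ℝ) • g (ptr p))‖ ≤ M / 4 := by
    have := norm_setIntegral_le_of_norm_le_const (μ := volume) (s := sq 0)
      (f := fun z => g (ptr p + z) + g (ptr p - z) - (2 : ℝ) • g (ptr p)) (C := M / 4)
      volume_sq_zero_lt (by
        intro z hz
        have h3 := norm_le_of_mem_sq hz
        refine (h2 z h3).trans ?_
        have h4 : ‖z‖ ^ 2 ≤ (1 / 2) ^ 2 := pow_le_pow_left₀ (norm_nonneg _) h3 2
        nlinarith)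
    rwa [volume_sq_zero, mul_one] at this
  have e4 : ‖(2 : ℝ) • (g (ptr p) - ∫ z in sq p, g z)‖ ≤ M / 4 := by
    rw [e1, norm_neg]; exact e3
  rw [norm_smul] at e4
  have : ‖(2 : ℝ)‖ = 2 := by simp
  rw [this] at e4
  linarith

end Plane

/-- The weight `(1+‖z‖)⁻³`. -/
def wt3 (z : ℂ) : ℝ := (1 + ‖z‖) ^ (-3 : ℝ)

lemma wt3_nonneg (z : ℂ) : 0 ≤ wt3 z := by unfold wt3; positivity

lemma integrable_wt3 : Integrable wt3 := by
  unfold wt3
  apply integrable_one_add_norm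
  rw [Complex.finrank_real_complex]
  norm_num

/-- `J3 = ∫ (1+‖z‖)⁻³`. -/
def J3 : ℝ := ∫ z : ℂ, wt3 z

lemma J3_nonneg : 0 ≤ J3 := integral_nonneg wt3_nonneg

lemma wt3_le {z z' : ℂ} (h : ‖z' - z‖ ≤ 1) : wt3 z ≤ 8 * wt3 z' := by
  unfold wt3
  have h1 : 1 + ‖z'‖ ≤ 2 * (1 + ‖z‖) := by
    have := norm_sub_norm_le z' z
    have := norm_nonneg z
    linarith
  have h2 : (2 * (1 + ‖z‖)) ^ (-3 : ℝ) ≤ (1 + ‖z'‖) ^ (-3 : ℝ) :=
    Real.rpow_le_rpow_of_nonpos (by positivity) h1 (by norm_num)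
  rw [Real.mul_rpow (by norm_num) (by positivity)] at h2
  have h3 : (2 : ℝ) ^ (-3 : ℝ) = 1 / 8 := by
    rw [show (-3 : ℝ) = ((-3 : ℤ) : ℝ) by norm_num, Real.rpow_intCast]; norm_num
  rw [h3] at h2
  linarith

section Frame

variable {F : Type*} [NormedAddCommGroup F] [NormedSpace ℝ F]

omit [NormedSpace ℝ F] in
lemma integrable_pull {q : ℂ} (hq : q ≠ 0) (b : ℂ) {f : ℂ → F} (hf : Integrable f) :
    Integrable (pull q b f) := by
  have hdet : LinearMap.det (frameMap q (q * wC)) ≠ 0 := by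
    rw [det_frameMap]; exact frame_q_ne hq
  have hmap := Measure.map_linearMap_addHaar_eq_smul_addHaar (volume : Measure ℂ) hdet
  let e : ℂ ≃ₗ[ℝ] ℂ := LinearEquiv.ofIsUnitDet (v := Complex.basisOneI)
    (v' := Complex.basisOneI) (f := frameMap q (q * wC)) (by
      rw [LinearMap.det_toMatrix]; exact hdet.isUnit)
  have hemb : MeasurableEmbedding (frameMap q (q * wC)) := by
    have : MeasurableEmbedding (e.toContinuousLinearEquiv : ℂ → ℂ) :=
      e.toContinuousLinearEquiv.toHomeomorph.measurableEmbedding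
    exact this
  have h1 : Integrable (fun z : ℂ => f (z + b)) := hf.comp_add_right b
  have h2 : Integrable (fun z : ℂ => f (z + b)) (Measure.map (frameMap q (q * wC)) volume) := by
    rw [hmap]
    exact h1.smul_measure ENNReal.ofReal_ne_top
  rw [hemb.integrable_map_iff] at h2
  exact (Complex.volume_preserving_equiv_real_prod.integrable_comp_emb
    Complex.measurableEquivRealProd.measurableEmbedding (g := pull q b f)).mp h2

variable [CompleteSpace F]

lemma norm_frame_le (q : ℂ) (h : ℝ × ℝ) : ‖h.1 • q + h.2 • (q * wC)‖ ≤ 2 * ‖q‖ * ‖h‖ := by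
  refine (norm_add_le _ _).trans ?_
  rw [norm_smul, norm_smul, norm_mul, norm_wC, mul_one]
  have h5 := norm_fst_le h
  have h6 := norm_snd_le h
  nlinarith [norm_nonneg q]

/-- **Midpoint rule for functions with decay.** -/
theorem latSum_decay {f : ℂ → F} (hf : Continuous f) (hi : Integrable f) {M : ℝ} (hM : 0 ≤ M)
    (h2 : ∀ z h, ‖h‖ ≤ 1 → ‖f (z + h) + f (z - h) - (2 : ℝ) • f z‖ ≤ M * wt3 z * ‖h‖ ^ 2)
    {q : ℂ} (hq : q ≠ 0) (hq1 : ‖q‖ ≤ 1) (b : ℂ) :
    Summable (fun m : Eis => f (q * toC m + b)) ∧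
    ‖∑' m : Eis, f (q * toC m + b) - (2 / Real.sqrt 3 / ‖q‖ ^ 2) • ∫ z, f z‖ ≤
      8 / Real.sqrt 3 * M * J3 := by
  have hqn := norm_pos_iff.mpr hq
  have hW := integrable_pull hq b integrable_wt3
  have hκ := (hasSum_sq hW).mul_left (4 * M * ‖q‖ ^ 2)
  rw [integral_pull hq] at hκ
  have hmid := plane_compare (g := pull q b f) (integrable_pull hq b hi) hκ (by
    intro p
    have hcell := cell_second' (g := pull q b f) (continuous_pull q b hf)
      (M := 4 * M * ‖q‖ ^ 2 * wt3 (q * toC (eisEquiv.symm p) + b))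
      (by have := wt3_nonneg (q * toC (eisEquiv.symm p) + b); positivity) p (by
        intro h hh
        have h4 := norm_frame_le q h
        have h3 := h2 (q * toC (eisEquiv.symm p) + b) (h.1 • q + h.2 • (q * wC)) (by
          nlinarith)
        have e0 : (ptr p).1 • q + (ptr p).2 • (q * wC) + b = q * toC (eisEquiv.symm p) + b := by
          rw [ptr, toC_eisEquiv_symm]
          simp only [Complex.real_smul]
          push_cast
          ring
        have e1 : pull q b f (ptr p + h) =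
            f (q * toC (eisEquiv.symm p) + b + (h.1 • q + h.2 • (q * wC))) := by
          rw [← e0, pull]; congr 1; simp only [Prod.fst_add, Prod.snd_add, add_smul]; abel
        have e2 : pull q b f (ptr p - h) =
            f (q * toC (eisEquiv.symm p) + b - (h.1 • q + h.2 • (q * wC))) := by
          rw [← e0, pull]; congr 1; simp only [Prod.fst_sub, Prod.snd_sub, sub_smul]; abel
        rw [e1, e2, pull_ptr]
        refine h3.trans ?_
        have h7 : ‖h.1 • q + h.2 • (q * wC)‖ ^ 2 ≤ (2 * ‖q‖ * ‖h‖) ^ 2 :=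
          pow_le_pow_left₀ (norm_nonneg _) h4 2
        have h8 : 0 ≤ M * wt3 (q * toC (eisEquiv.symm p) + b) :=
          mul_nonneg hM (wt3_nonneg _)
        nlinarith)
    refine hcell.trans ?_
    have hlow : wt3 (q * toC (eisEquiv.symm p) + b) ≤ 8 * ∫ z in sq p, pull q b wt3 z := by
      rw [setIntegral_sq, ← integral_const_mul]
      have hc : wt3 (q * toC (eisEquiv.symm p) + b) =
          ∫ _ in sq 0, wt3 (q * toC (eisEquiv.symm p) + b) := by
        rw [setIntegral_const, volume_sq_zero, one_smul]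
      rw [hc]
      have hcont : Continuous wt3 := by
        unfold wt3
        apply Continuous.rpow_const (by fun_prop)
        intro z
        left
        positivity
      apply setIntegral_mono_on (integrableOn_sq_zero continuous_const)
        (integrableOn_sq_zero (by
          have := continuous_pull q b hcont
          fun_prop)) (measurableSet_sq 0)
      intro h hh
      have h4 := norm_frame_le q h
      have h5 := norm_le_of_mem_sq hh
      apply wt3_le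
      have e0 : (ptr p + h).1 • q + (ptr p + h).2 • (q * wC) + b -
          (q * toC (eisEquiv.symm p) + b) = h.1 • q + h.2 • (q * wC) := by
        rw [ptr, toC_eisEquiv_symm]
        simp only [Complex.real_smul, Prod.fst_add, Prod.snd_add]
        push_cast
        ring
      rw [e0]
      nlinarith
    have : 4 * M * ‖q‖ ^ 2 * wt3 (q * toC (eisEquiv.symm p) + b) / 8 ≤
        4 * M * ‖q‖ ^ 2 * (8 * ∫ z in sq p, pull q b wt3 z) / 8 := by
      gcongr
    refine this.trans (le_of_eq ?_)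
    ring)
  have e3 : (fun p : ℤ × ℤ => pull q b f (ptr p)) =
      (fun m : Eis => f (q * toC m + b)) ∘ eisEquiv.symm := by
    funext p; rw [pull_ptr]; rfl
  rw [e3] at hmid
  refine ⟨(Equiv.summable_iff _).mp hmid.1, ?_⟩
  have e4 : ∑' p : ℤ × ℤ, ((fun m : Eis => f (q * toC m + b)) ∘ eisEquiv.symm) p =
      ∑' m : Eis, f (q * toC m + b) :=
    Equiv.tsum_eq eisEquiv.symm (fun m : Eis => f (q * toC m + b))
  have h8 := hmid.2
  rw [show tsum ((fun m : Eis => f (q * toC m + b)) ∘ eisEquiv.symm) =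
    ∑' m : Eis, f (q * toC m + b) from e4, integral_pull hq] at h8
  refine h8.trans (le_of_eq ?_)
  rw [smul_eq_mul]
  have : ∫ z, wt3 z = J3 := rfl
  rw [this]
  field_simp
  ring

end Frame

section Schwartz

variable {F : Type*} [NormedAddCommGroup F] [NormedSpace ℝ F]

/-- Second differences are controlled by the second derivative on the unit ball. -/
lemma second_diff_local {f : ℂ → F} (hf : ContDiff ℝ 2 f) {K : ℝ} {z : ℂ}
    (hK : ∀ x ∈ Metric.closedBall z 1, ‖fderiv ℝ (fderiv ℝ f) x‖ ≤ K) {h : ℂ} (hh : ‖h‖ ≤ 1) :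
    ‖f (z + h) + f (z - h) - (2 : ℝ) • f z‖ ≤ K * ‖h‖ ^ 2 := by
  have hd : Differentiable ℝ f := hf.differentiable (by norm_num)
  have hd1 : ContDiff ℝ 1 (fderiv ℝ f) := hf.fderiv_right (by norm_num)
  have hd2 : Differentiable ℝ (fderiv ℝ f) := hd1.differentiable (by norm_num)
  have hseg : ∀ x ∈ segment ℝ (z - h) z, x ∈ Metric.closedBall z 1 ∧
      x + h ∈ Metric.closedBall z 1 := by
    intro x hx
    rw [segment_eq_image'] at hx
    obtain ⟨θ, ⟨h0, h1⟩, rfl⟩ := hx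
    simp only [sub_sub_cancel]
    constructor
    · rw [Metric.mem_closedBall, dist_eq_norm]
      have : z - h + θ • h - z = (θ - 1) • h := by rw [sub_smul, one_smul]; abel
      rw [this, norm_smul, Real.norm_eq_abs]
      have : |θ - 1| ≤ 1 := by rw [abs_le]; constructor <;> linarith
      nlinarith [norm_nonneg h, abs_nonneg (θ - 1)]
    · rw [Metric.mem_closedBall, dist_eq_norm]
      have : z - h + θ • h + h - z = θ • h := by abel
      rw [this, norm_smul, Real.norm_eq_abs, abs_of_nonneg h0]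
      nlinarith [norm_nonneg h]
  have key : ‖(fun x => f (x + h) - f x) z - (fun x => f (x + h) - f x) (z - h)‖ ≤
      (K * ‖h‖) * ‖z - (z - h)‖ := by
    refine Convex.norm_image_sub_le_of_norm_hasFDerivWithin_le (s := segment ℝ (z - h) z)
      (𝕜 := ℝ)
      (f := fun x => f (x + h) - f x) (x := z - h) (y := z) (C := K * ‖h‖)
      (f' := fun x => fderiv ℝ f (x + h) - fderiv ℝ f x) ?_ ?_ (convex_segment _ _)
      (left_mem_segment _ _ _) (right_mem_segment _ _ _)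
    · intro x _
      have h1 : HasFDerivAt (fun x => f (x + h)) (fderiv ℝ f (x + h)) x := by
        exact (hasFDerivAt_comp_add_right h).mpr (hd (x + h)).hasFDerivAt
      exact (h1.sub (hd x).hasFDerivAt).hasFDerivWithinAt
    · intro x hx
      obtain ⟨h3, h4⟩ := hseg x hx
      have := Convex.norm_image_sub_le_of_norm_fderiv_le (𝕜 := ℝ) (f := fderiv ℝ f)
        (s := Metric.closedBall z 1) (C := K) (fun y _ => hd2 y) hK (convex_closedBall _ _) h3 h4
      simpa using this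
  have e : f (z + h) + f (z - h) - (2 : ℝ) • f z =
      (fun x => f (x + h) - f x) z - (fun x => f (x + h) - f x) (z - h) := by
    simp only [sub_add_cancel, two_smul]
    abel
  rw [e]
  refine key.trans (le_of_eq ?_)
  rw [sub_sub_cancel]; ring

lemma norm_fderiv_fderiv (f : ℂ → F) (x : ℂ) :
    ‖fderiv ℝ (fderiv ℝ f) x‖ = ‖iteratedFDeriv ℝ 2 f x‖ := by
  rw [← norm_iteratedFDeriv_one, norm_iteratedFDeriv_fderiv]

/-- `C²` functions with compact support are in the decay class. -/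
lemma second_diff_compact {f : ℂ → F} (hf : ContDiff ℝ 2 f) (hc : HasCompactSupport f) :
    ∃ M, 0 ≤ M ∧ ∀ z h, ‖h‖ ≤ 1 →
      ‖f (z + h) + f (z - h) - (2 : ℝ) • f z‖ ≤ M * wt3 z * ‖h‖ ^ 2 := by
  obtain ⟨R, hR⟩ := hc.isCompact.isBounded.subset_closedBall (0 : ℂ)
  obtain ⟨M, hM, h2⟩ := second_diff_of_contDiff hf hc
  have hzero : ∀ z, |R| < ‖z‖ → f z = 0 := by
    intro z hz
    by_contra h0
    have := hR (subset_tsupport f h0)
    rw [mem_closedBall_zero_iff] at this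
    exact absurd (hz.trans_le this) (not_lt.mpr (le_abs_self R))
  refine ⟨M * (1 + (|R| + 1)) ^ (3 : ℝ), by positivity, ?_⟩
  intro z h hh
  by_cases hz : ‖z‖ ≤ |R| + 1
  · refine (h2 z h).trans ?_
    have h5 : 1 ≤ (1 + (|R| + 1)) ^ (3 : ℝ) * wt3 z := by
      unfold wt3
      rw [Real.rpow_neg (by positivity), ← div_eq_mul_inv, one_le_div (by positivity)]
      exact Real.rpow_le_rpow (by positivity) (by linarith) (by norm_num)
    have h6 : 0 ≤ M * ‖h‖ ^ 2 := by positivity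
    nlinarith
  · push Not at hz
    have h7 : |R| < ‖z + h‖ := by
      have := norm_sub_norm_le z (-h)
      rw [sub_neg_eq_add, norm_neg] at this
      linarith
    have h8 : |R| < ‖z - h‖ := by
      have := norm_sub_norm_le z h
      linarith
    rw [hzero _ h7, hzero _ h8, hzero z (by linarith)]
    simp only [add_zero, smul_zero, sub_zero, norm_zero]
    have := wt3_nonneg z
    positivity

/-- Schwartz functions are in the decay class. -/
lemma second_diff_schwartz (f : SchwartzMap ℂ F) :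
    ∃ M, 0 ≤ M ∧ ∀ z h, ‖h‖ ≤ 1 →
      ‖f (z + h) + f (z - h) - (2 : ℝ) • f z‖ ≤ M * wt3 z * ‖h‖ ^ 2 := by
  have hsemi := SchwartzMap.one_add_le_sup_seminorm_apply (𝕜 := ℝ) (m := (3, 2)) (k := 3) (n := 2)
    le_rfl le_rfl f
  set C := 2 ^ 3 * ((Finset.Iic (3, 2)).sup fun m => SchwartzMap.seminorm ℝ m.1 m.2) f with hC
  have hC0 : 0 ≤ C := le_trans (by positivity) (hsemi 0)
  refine ⟨8 * C, by positivity, ?_⟩
  intro z h hh
  have := second_diff_local (f := f) (f.smooth 2) (K := 8 * C * wt3 z) (z := z) (by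
    intro x hx
    rw [norm_fderiv_fderiv]
    have h1 := hsemi x
    have h2 : wt3 x ≤ 8 * wt3 z := by
      apply wt3_le
      rw [Metric.mem_closedBall, dist_eq_norm] at hx
      rw [norm_sub_rev]; exact hx
    have h3 : ‖iteratedFDeriv ℝ 2 f x‖ ≤ C * wt3 x := by
      unfold wt3
      rw [Real.rpow_neg (by positivity), ← div_eq_mul_inv, le_div_iff₀ (by positivity)]
      rw [show (3 : ℝ) = ((3 : ℕ) : ℝ) by norm_num, Real.rpow_natCast]
      rw [mul_comm]; exact h1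
    nlinarith) hh
  exact this

lemma decay_schwartz (f : SchwartzMap ℂ F) :
    ∃ K, 0 ≤ K ∧ ∀ z, ‖f z‖ ≤ K * wt3 z := by
  have hsemi := SchwartzMap.one_add_le_sup_seminorm_apply (𝕜 := ℝ) (m := (3, 0)) (k := 3) (n := 0)
    le_rfl le_rfl f
  set C := 2 ^ 3 * ((Finset.Iic (3, 0)).sup fun m => SchwartzMap.seminorm ℝ m.1 m.2) f with hC
  have hC0 : 0 ≤ C := le_trans (by positivity) (hsemi 0)
  refine ⟨C, hC0, fun z => ?_⟩
  have h1 := hsemi z
  rw [norm_iteratedFDeriv_zero] at h1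
  unfold wt3
  rw [Real.rpow_neg (by positivity), ← div_eq_mul_inv, le_div_iff₀ (by positivity)]
  rw [show (3 : ℝ) = ((3 : ℕ) : ℝ) by norm_num, Real.rpow_natCast]
  rw [mul_comm]; exact h1

omit [NormedSpace ℝ F] in
lemma decay_compact {f : ℂ → F} (hf : Continuous f) (hc : HasCompactSupport f) :
    ∃ K, 0 ≤ K ∧ ∀ z, ‖f z‖ ≤ K * wt3 z := by
  obtain ⟨C, hC⟩ := hc.exists_bound_of_continuous hf
  obtain ⟨R, hR⟩ := hc.isCompact.isBounded.subset_closedBall (0 : ℂ)
  have hC0 : 0 ≤ C := (norm_nonneg _).trans (hC 0)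
  refine ⟨C * (1 + |R|) ^ (3 : ℝ), by positivity, fun z => ?_⟩
  by_cases hz : ‖z‖ ≤ |R|
  · refine (hC z).trans ?_
    have h5 : 1 ≤ (1 + |R|) ^ (3 : ℝ) * wt3 z := by
      unfold wt3
      rw [Real.rpow_neg (by positivity), ← div_eq_mul_inv, one_le_div (by positivity)]
      exact Real.rpow_le_rpow (by positivity) (by linarith) (by norm_num)
    nlinarith
  · push Not at hz
    have : f z = 0 := by
      by_contra h0
      have := hR (subset_tsupport f h0)
      rw [mem_closedBall_zero_iff] at this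
      exact absurd (hz.trans_le this) (not_lt.mpr (le_abs_self R))
    rw [this, norm_zero]
    have := wt3_nonneg z
    positivity

lemma wt3_le_inv {z : ℂ} (hz : z ≠ 0) : wt3 z ≤ 1 / ‖z‖ ^ 3 := by
  have := norm_pos_iff.mpr hz
  unfold wt3
  rw [Real.rpow_neg (by positivity), ← one_div,
    show (3 : ℝ) = ((3 : ℕ) : ℝ) by norm_num, Real.rpow_natCast]
  gcongr
  linarith

end Schwartz

end Crest.Agent.R012.LatSum413
end
end

-- ▼ part R012/LatW_413

/-!
# Row 12 (MK12): weighted lattice sums over `Eis`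

For `a : Eis → ℝ` with `|a d| ≤ 1 / nm d` put `Pw a m = ∑' d, if d ∣ m then a d else 0`.
Then `∑_{m ≠ 0} Pw a m • f (m / S) = (2/√3) (∑' d, a d / nm d) S² ∫ f + O(S^β)`.

* `weighted` : abstract version.
* `weighted_decay` : for functions in the decay class (`C²` compactly supported, Schwartz), every
  `0 < β ≤ 2`.
-/

set_option autoImplicit false

noncomputable section

open MeasureTheory Set

namespace Crest.Agent.R012.LatSum413

open Crest.Agent.R012 Crest.Agent.R012.Eis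

/-! ### Summability of `nm z ^ (-s)` -/

lemma summable_nm_rpow {s : ℝ} (hs : 1 < s) : Summable (fun z : Eis => (nm z : ℝ) ^ (-s)) := by
  have h := EisensteinSeries.summable_one_div_norm_rpow (k := 2 * s) (by linarith)
  let e : (Fin 2 → ℤ) ≃ Eis :=
    { toFun := fun x => ⟨x 0, x 1⟩
      invFun := fun z => ![z.re, z.im]
      left_inv := fun x => by ext i; fin_cases i <;> rfl
      right_inv := fun z => rfl }
  rw [← e.summable_iff]
  refine (h.mul_left (2 ^ s)).of_nonneg_of_le (fun x => by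
    simp only [Function.comp_apply]; positivity) (fun x => ?_)
  simp only [Function.comp_apply]
  by_cases hx : x = 0
  · subst hx
    have : nm (e 0) = 0 := by rw [nm_eq_zero]; rfl
    rw [this, Nat.cast_zero, Real.zero_rpow (by linarith), norm_zero, Real.zero_rpow (by linarith)]
    simp
  · have hxn : 0 < ‖x‖ := norm_pos_iff.mpr hx
    have hb : ‖x‖ ^ 2 ≤ 2 * (nm (e x) : ℝ) := by
      have hnm : ((nm (e x) : ℕ) : ℝ) = (x 0 : ℝ) ^ 2 - x 0 * x 1 + (x 1 : ℝ) ^ 2 := by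
        have : ((nm (e x) : ℤ) : ℝ) = (x 0 : ℝ) ^ 2 - x 0 * x 1 + (x 1 : ℝ) ^ 2 := by
          rw [nm_cast]; push_cast; rfl
        rw [← this]; norm_cast
      rw [hnm]
      have hle : ‖x‖ ≤ max |(x 0 : ℝ)| |(x 1 : ℝ)| := by
        rw [pi_norm_le_iff_of_nonneg (by positivity)]
        intro i
        fin_cases i
        · simp only [Fin.zero_eta, Int.norm_eq_abs]; exact le_max_left _ _
        · simp only [Fin.mk_one, Int.norm_eq_abs]; exact le_max_right _ _
      rcases max_cases |(x 0 : ℝ)| |(x 1 : ℝ)| with ⟨h1, _⟩ | ⟨h1, _⟩ <;> rw [h1] at hle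
      · have := pow_le_pow_left₀ (norm_nonneg x) hle 2
        rw [sq_abs] at this
        nlinarith [sq_nonneg ((x 0 : ℝ) - 2 * x 1)]
      · have := pow_le_pow_left₀ (norm_nonneg x) hle 2
        rw [sq_abs] at this
        nlinarith [sq_nonneg ((x 1 : ℝ) - 2 * x 0)]
    have h2 : (2 * (nm (e x) : ℝ)) ^ (-s) ≤ (‖x‖ ^ 2) ^ (-s) :=
      Real.rpow_le_rpow_of_nonpos (by positivity) hb (by linarith)
    rw [Real.mul_rpow (by norm_num) (by positivity)] at h2
    have h3 : (‖x‖ ^ 2) ^ (-s) = ‖x‖ ^ (-(2 * s)) := by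
      rw [← Real.rpow_natCast, ← Real.rpow_mul (norm_nonneg _)]
      congr 1; push_cast; ring
    rw [h3] at h2
    have h4 : (2 : ℝ) ^ s * (2 : ℝ) ^ (-s) = 1 := by
      rw [← Real.rpow_add (by norm_num)]; simp
    calc (nm (e x) : ℝ) ^ (-s) = (2 : ℝ) ^ s * (2 : ℝ) ^ (-s) * (nm (e x) : ℝ) ^ (-s) := by
          rw [h4, one_mul]
      _ = (2 : ℝ) ^ s * ((2 : ℝ) ^ (-s) * (nm (e x) : ℝ) ^ (-s)) := by ring
      _ ≤ (2 : ℝ) ^ s * ‖x‖ ^ (-(2 * s)) := by gcongr

/-- `∑' z : Eis, nm z ^ (-s)`. -/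
def Zs (s : ℝ) : ℝ := ∑' z : Eis, (nm z : ℝ) ^ (-s)

lemma Zs_nonneg (s : ℝ) : 0 ≤ Zs s := tsum_nonneg fun _ => by positivity

/-! ### The weights -/

open Classical in
/-- `Pw a m = ∑_{d ∣ m} a d`. -/
def Pw (a : Eis → ℝ) (m : Eis) : ℝ := ∑' d : Eis, if d ∣ m then a d else 0

open Classical in
lemma summable_Pw (a : Eis → ℝ) {m : Eis} (hm : m ≠ 0) :
    Summable (fun d : Eis => if d ∣ m then a d else 0) := by
  apply summable_of_ne_finset_zero (s := ball (nm m))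
  intro d hd
  rw [if_neg]
  intro hdm
  apply hd
  rw [mem_ball]
  obtain ⟨t, rfl⟩ := hdm
  rw [nm_mul]
  exact Nat.le_mul_of_pos_right _ (nm_pos.mpr (right_ne_zero_of_mul hm))

section Weighted

variable {F : Type*} [NormedAddCommGroup F] [NormedSpace ℝ F] [CompleteSpace F]

open Classical in
/-- `∑_{k ≠ 0} f (t k)`. -/
def lsum (f : ℂ → F) (t : ℂ) : F := ∑' k : Eis, if k = 0 then 0 else f (t * toC k)

lemma norm_toC_pos {k : Eis} (hk : k ≠ 0) : 0 < ‖toC k‖ :=
  norm_pos_iff.mpr (by simpa using hk)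

lemma norm_toC_rpow (k : Eis) (s : ℝ) : ‖toC k‖ ^ s = (nm k : ℝ) ^ (s / 2) := by
  rw [norm_toC, Real.sqrt_eq_rpow, ← Real.rpow_mul (by positivity)]
  congr 1; ring

omit [NormedSpace ℝ F] [CompleteSpace F] in
lemma term_bound {f : ℂ → F} {K' : ℝ} (hD : ∀ z ≠ 0, ‖f z‖ ≤ K' / ‖z‖ ^ 3) {t : ℂ} (ht : t ≠ 0)
    {k : Eis} (hk : k ≠ 0) : ‖f (t * toC k)‖ ≤ K' / ‖t‖ ^ 3 * (nm k : ℝ) ^ (-(3 / 2) : ℝ) := by
  have htk : t * toC k ≠ 0 := mul_ne_zero ht (by simpa using hk)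
  refine (hD _ htk).trans (le_of_eq ?_)
  rw [norm_mul, mul_pow, show (-(3 / 2) : ℝ) = (-3 : ℝ) / 2 by norm_num, ← norm_toC_rpow,
    Real.rpow_neg (norm_nonneg _), show (3 : ℝ) = ((3 : ℕ) : ℝ) by norm_num, Real.rpow_natCast]
  have := norm_toC_pos hk
  have := norm_pos_iff.mpr ht
  field_simp

open Classical in
omit [NormedSpace ℝ F] in
lemma summable_lsum {f : ℂ → F} {K' : ℝ} (hK' : 0 ≤ K') (hD : ∀ z ≠ 0, ‖f z‖ ≤ K' / ‖z‖ ^ 3)
    {t : ℂ} (ht : t ≠ 0) :
    Summable (fun k : Eis => if k = 0 then 0 else f (t * toC k)) ∧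
    Summable (fun k : Eis => ‖(if k = 0 then (0 : F) else f (t * toC k))‖) ∧
    ‖lsum f t‖ ≤ K' / ‖t‖ ^ 3 * Zs (3 / 2) := by
  have hs := (summable_nm_rpow (s := 3 / 2) (by norm_num)).mul_left (K' / ‖t‖ ^ 3)
  have hb : ∀ k : Eis, ‖(if k = 0 then (0 : F) else f (t * toC k))‖ ≤
      K' / ‖t‖ ^ 3 * (nm k : ℝ) ^ (-(3 / 2) : ℝ) := by
    intro k
    by_cases hk : k = 0
    · rw [if_pos hk, norm_zero]; positivity
    · rw [if_neg hk]; exact term_bound hD ht hk
  refine ⟨Summable.of_norm_bounded hs hb, hs.of_nonneg_of_le (fun _ => norm_nonneg _) hb, ?_⟩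
  have := tsum_of_norm_bounded hs.hasSum hb
  rw [tsum_mul_left] at this
  exact this

open Classical in
/-- **Weighted lattice sums, abstract version.** -/
theorem weighted {a : Eis → ℝ} (ha : ∀ d ≠ 0, |a d| ≤ 1 / nm d) {f : ℂ → F} {I : F}
    {K K' β : ℝ} (hβ : 0 < β) (hK : 0 ≤ K) (hK' : 0 ≤ K')
    (hD : ∀ z ≠ 0, ‖f z‖ ≤ K' / ‖z‖ ^ 3)
    (hE : ∀ t : ℂ, t ≠ 0 → ‖lsum f t - (2 / Real.sqrt 3 / ‖t‖ ^ 2) • I‖ ≤ K * ‖t‖ ^ (-β))
    {S : ℝ} (hS : 0 < S) :
    Summable (fun m : Eis => if m = 0 then 0 else Pw a m • f (toC m / S)) ∧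
    ‖∑' m : Eis, (if m = 0 then 0 else Pw a m • f (toC m / S)) -
      (2 / Real.sqrt 3 * (∑' d : Eis, a d / nm d) * S ^ 2) • I‖ ≤
      K * Zs (1 + β / 2) * S ^ β := by
  -- the double family
  set H : Eis → Eis → F := fun d m =>
    if m = 0 then 0 else if d ∣ m then a d • f (toC m / S) else 0 with hH
  have hSC : (S : ℂ) ≠ 0 := by exact_mod_cast hS.ne'
  -- rows
  have hrow0 : ∀ m, H 0 m = 0 := by
    intro m
    simp only [hH]
    by_cases hm : m = 0
    · rw [if_pos hm]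
    · rw [if_neg hm, if_neg (by rwa [zero_dvd_iff])]
  have hfib : ∀ d ≠ 0, ∀ k : Eis, H d (d * k) =
      a d • (if k = 0 then (0 : F) else f (toC d / S * toC k)) := by
    intro d hd k
    simp only [hH]
    by_cases hk : k = 0
    · simp [hk]
    · rw [if_neg (mul_ne_zero hd hk), if_pos (dvd_mul_right _ _), if_neg hk, map_mul]
      congr 2; ring
  have hsupp : ∀ d, ∀ m ∉ Set.range (fun k : Eis => d * k), H d m = 0 := by
    intro d m hm
    simp only [hH]
    by_cases hm0 : m = 0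
    · rw [if_pos hm0]
    · rw [if_neg hm0, if_neg]
      rintro ⟨k, rfl⟩
      exact hm ⟨k, rfl⟩
  have hinj : ∀ d : Eis, d ≠ 0 → Function.Injective (fun k : Eis => d * k) :=
    fun d hd => mul_right_injective₀ hd
  have htd : ∀ d : Eis, d ≠ 0 → toC d / (S : ℂ) ≠ 0 := fun d hd =>
    div_ne_zero (by simpa using hd) hSC
  have hrows : ∀ d, Summable (fun m => ‖H d m‖) := by
    intro d
    by_cases hd : d = 0
    · subst hd; simp only [hrow0, norm_zero]; exact summable_zero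
    · have h1 := (summable_lsum hK' hD (htd d hd)).2.1.mul_left |a d|
      rw [← (hinj d hd).summable_iff (fun m hm => by rw [hsupp d m hm, norm_zero])]
      refine h1.congr (fun k => ?_)
      simp only [Function.comp_apply]
      rw [hfib d hd k, norm_smul, Real.norm_eq_abs]
  have hrowsum : ∀ d ≠ 0, ∑' m, ‖H d m‖ ≤ K' * S ^ 3 * Zs (3 / 2) * (nm d : ℝ) ^ (-(5 / 2) : ℝ) := by
    intro d hd
    have hnd : (0 : ℝ) < nm d := by exact_mod_cast nm_pos.mpr hd
    have e1 : ∑' m, ‖H d m‖ = ∑' k, ‖H d (d * k)‖ := by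
      refine ((hinj d hd).tsum_eq ?_).symm
      intro m hm
      by_contra hc
      exact hm (by simp only [hsupp d m hc, norm_zero])
    rw [e1]
    have hb : ∀ k : Eis, ‖H d (d * k)‖ ≤
        1 / nm d * (K' / ‖toC d / (S : ℂ)‖ ^ 3) * (nm k : ℝ) ^ (-(3 / 2) : ℝ) := by
      intro k
      rw [hfib d hd k, norm_smul, Real.norm_eq_abs, mul_assoc]
      apply mul_le_mul (ha d hd) _ (norm_nonneg _) (by positivity)
      by_cases hk : k = 0
      · rw [if_pos hk, norm_zero]; positivity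
      · rw [if_neg hk]; exact term_bound hD (htd d hd) hk
    have hs := (summable_nm_rpow (s := 3 / 2) (by norm_num)).mul_left
      (1 / nm d * (K' / ‖toC d / (S : ℂ)‖ ^ 3))
    have h2 : ∑' k, ‖H d (d * k)‖ ≤
        ∑' k : Eis, 1 / nm d * (K' / ‖toC d / (S : ℂ)‖ ^ 3) * (nm k : ℝ) ^ (-(3 / 2) : ℝ) :=
      Summable.tsum_le_tsum hb (Summable.of_nonneg_of_le (fun _ => norm_nonneg _) hb hs) hs
    refine h2.trans (le_of_eq ?_)
    rw [tsum_mul_left]
    change _ * Zs (3 / 2) = _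
    have e2 : (nm d : ℝ) ^ (-(5 / 2) : ℝ) = 1 / nm d * (1 / ‖toC d‖ ^ 3) := by
      have h3 : ‖toC d‖ ^ 3 = (nm d : ℝ) ^ ((3 : ℝ) / 2) := by
        rw [← norm_toC_rpow, show (3 : ℝ) = ((3 : ℕ) : ℝ) by norm_num, Real.rpow_natCast]
      rw [h3, one_div, one_div, ← Real.rpow_neg_one, ← Real.rpow_neg hnd.le,
        ← Real.rpow_add hnd]
      norm_num
    rw [e2, norm_div, Complex.norm_real, Real.norm_of_nonneg hS.le]
    have := norm_toC_pos hd
    field_simp
  have hsumrows : Summable (fun d => ∑' m, ‖H d m‖) := by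
    refine Summable.of_nonneg_of_le (fun d => tsum_nonneg fun _ => norm_nonneg _) ?_
      ((summable_nm_rpow (s := 5 / 2) (by norm_num)).mul_left (K' * S ^ 3 * Zs (3 / 2)))
    intro d
    by_cases hd : d = 0
    · subst hd
      simp only [hrow0, norm_zero, tsum_zero]
      have := Zs_nonneg (3 / 2)
      positivity
    · exact hrowsum d hd
  have hprod : Summable (Function.uncurry H) := by
    apply Summable.of_norm
    rw [summable_prod_of_nonneg (fun _ => norm_nonneg _)]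
    exact ⟨hrows, hsumrows⟩
  -- columns
  have hcol : ∀ m, ∑' d, H d m = if m = 0 then 0 else Pw a m • f (toC m / S) := by
    intro m
    by_cases hm : m = 0
    · simp only [hH, if_pos hm, tsum_zero]
    · rw [if_neg hm, Pw, ← (summable_Pw a hm).tsum_smul_const]
      refine tsum_congr (fun d => ?_)
      simp only [hH, if_neg hm]
      split_ifs with h
      · rfl
      · rw [zero_smul]
  have hrowval : ∀ d, ∑' m, H d m = a d • lsum f (toC d / S) - (if d = 0 then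
      a 0 • lsum f 0 else 0) := by
    intro d
    by_cases hd : d = 0
    · subst hd
      simp only [hrow0, tsum_zero, map_zero, zero_div, if_true, sub_self]
    · rw [if_neg hd, sub_zero, lsum, ← (summable_lsum hK' hD (htd d hd)).1.tsum_const_smul]
      rw [← (hinj d hd).tsum_eq (f := H d) (by
        intro m hm
        by_contra hc
        exact hm (hsupp d m hc))]
      exact tsum_congr (hfib d hd)
  have hcomm : ∑' m, ∑' d, H d m = ∑' d, ∑' m, H d m := hprod.tsum_comm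
  have hsumcol : Summable (fun m : Eis => if m = 0 then 0 else Pw a m • f (toC m / S)) := by
    have h1 : Summable (fun m => ∑' d, H d m) := by
      have := hprod.prod_symm.prod
      simpa [Function.uncurry] using this
    exact h1.congr hcol
  refine ⟨hsumcol, ?_⟩
  have e1 : ∑' m : Eis, (if m = 0 then 0 else Pw a m • f (toC m / S)) = ∑' d, ∑' m, H d m := by
    rw [← hcomm]; exact tsum_congr (fun m => (hcol m).symm)
  rw [e1]
  -- main terms
  have hsa : Summable (fun d : Eis => a d / nm d) := by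
    refine Summable.of_norm_bounded (summable_nm_rpow (s := 2) (by norm_num)) ?_
    intro d
    by_cases hd : d = 0
    · subst hd; simp
    · have hnd : (0 : ℝ) < nm d := by exact_mod_cast nm_pos.mpr hd
      rw [Real.norm_eq_abs, abs_div, abs_of_pos hnd, div_le_iff₀ hnd]
      refine (ha d hd).trans (le_of_eq ?_)
      rw [Real.rpow_neg hnd.le, show (2 : ℝ) = ((2 : ℕ) : ℝ) by norm_num, Real.rpow_natCast]
      field_simp
  have e2 : (2 / Real.sqrt 3 * (∑' d : Eis, a d / nm d) * S ^ 2) • I =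
      ∑' d : Eis, (2 / Real.sqrt 3 * (a d / nm d) * S ^ 2) • I := by
    rw [((hsa.mul_left (2 / Real.sqrt 3)).mul_right (S ^ 2)).tsum_smul_const,
      (hsa.mul_left (2 / Real.sqrt 3)).tsum_mul_right, hsa.tsum_mul_left]
  have hs2 : Summable (fun d : Eis => (2 / Real.sqrt 3 * (a d / nm d) * S ^ 2) • I) :=
    ((hsa.mul_left (2 / Real.sqrt 3)).mul_right (S ^ 2)).smul_const I
  have hs1 : Summable (fun d => ∑' m, H d m) := hprod.prod
  rw [e2, ← hs1.tsum_sub hs2]
  have hbound := ((summable_nm_rpow (s := 1 + β / 2) (by linarith)).mul_left (K * S ^ β))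
  have := tsum_of_norm_bounded hbound.hasSum (f := fun d => ∑' m, H d m -
    (2 / Real.sqrt 3 * (a d / nm d) * S ^ 2) • I) (by
    intro d
    by_cases hd : d = 0
    · subst hd
      simp only [hrow0, tsum_zero, nm_zero, Nat.cast_zero, div_zero, mul_zero, zero_mul, zero_smul,
        sub_self, norm_zero]
      positivity
    · have hnd : (0 : ℝ) < nm d := by exact_mod_cast nm_pos.mpr hd
      rw [hrowval d, if_neg hd, sub_zero]
      have e3 : (2 / Real.sqrt 3 * (a d / nm d) * S ^ 2) • I =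
          a d • ((2 / Real.sqrt 3 / ‖toC d / (S : ℂ)‖ ^ 2) • I) := by
        rw [smul_smul]
        congr 1
        rw [norm_div, Complex.norm_real, Real.norm_of_nonneg hS.le, div_pow, norm_toC_sq]
        field_simp
      rw [e3, ← smul_sub, norm_smul, Real.norm_eq_abs]
      have h1 := hE _ (htd d hd)
      have h2 := ha d hd
      calc |a d| * ‖lsum f (toC d / ↑S) - (2 / Real.sqrt 3 / ‖toC d / (S : ℂ)‖ ^ 2) • I‖
          ≤ (1 / nm d) * (K * ‖toC d / (S : ℂ)‖ ^ (-β)) :=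
            mul_le_mul h2 h1 (norm_nonneg _) (by positivity)
        _ = K * S ^ β * (nm d : ℝ) ^ (-(1 + β / 2)) := by
            rw [norm_div, Complex.norm_real, Real.norm_of_nonneg hS.le,
              Real.div_rpow (norm_nonneg _) hS.le, norm_toC_rpow, Real.rpow_neg hS.le,
              neg_add, Real.rpow_add hnd, Real.rpow_neg_one, one_div,
              show -β / 2 = -(β / 2) by ring]
            field_simp)
  refine this.trans (le_of_eq ?_)
  rw [tsum_mul_left]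
  change _ * Zs (1 + β / 2) = _
  ring

open Classical in
omit [NormedSpace ℝ F] [CompleteSpace F] in
lemma lsum_eq {f : ℂ → F} {t : ℂ} (h : Summable (fun k : Eis => f (t * toC k))) :
    lsum f t = ∑' k : Eis, f (t * toC k) - f 0 := by
  rw [h.tsum_eq_add_tsum_ite 0, lsum, map_zero, mul_zero]
  abel

/-- The constant of `weighted_decay`. -/
def Kdec (f : ℂ → F) (M K₀ : ℝ) : ℝ :=
  8 / Real.sqrt 3 * M * J3 + ‖f 0‖ + K₀ * Zs (3 / 2) + 2 / Real.sqrt 3 * ‖∫ z, f z‖

omit [CompleteSpace F] in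
lemma Kdec_nonneg (f : ℂ → F) {M K₀ : ℝ} (hM : 0 ≤ M) (hK₀ : 0 ≤ K₀) : 0 ≤ Kdec f M K₀ := by
  unfold Kdec
  have := J3_nonneg
  have := Zs_nonneg (3 / 2)
  positivity

lemma lsum_decay {f : ℂ → F} (hf : Continuous f) (hi : Integrable f) {M K₀ : ℝ} (hM : 0 ≤ M)
    (hK₀ : 0 ≤ K₀)
    (h2 : ∀ z h, ‖h‖ ≤ 1 → ‖f (z + h) + f (z - h) - (2 : ℝ) • f z‖ ≤ M * wt3 z * ‖h‖ ^ 2)
    (h0 : ∀ z, ‖f z‖ ≤ K₀ * wt3 z) {β : ℝ} (hβ0 : 0 ≤ β) (hβ2 : β ≤ 2) {t : ℂ} (ht : t ≠ 0) :
    ‖lsum f t - (2 / Real.sqrt 3 / ‖t‖ ^ 2) • ∫ z, f z‖ ≤ Kdec f M K₀ * ‖t‖ ^ (-β) := by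
  have htn := norm_pos_iff.mpr ht
  have hJ := J3_nonneg
  have hZ := Zs_nonneg (3 / 2)
  have hD : ∀ z ≠ 0, ‖f z‖ ≤ K₀ / ‖z‖ ^ 3 := by
    intro z hz
    refine (h0 z).trans ?_
    have := wt3_le_inv hz
    calc K₀ * wt3 z ≤ K₀ * (1 / ‖z‖ ^ 3) := by gcongr
      _ = K₀ / ‖z‖ ^ 3 := by ring
  rcases le_total ‖t‖ 1 with h1 | h1
  · obtain ⟨hs, hb⟩ := latSum_decay hf hi hM h2 ht h1 0
    simp only [add_zero] at hs hb
    rw [lsum_eq hs]
    have e : ∑' k : Eis, f (t * toC k) - f 0 - (2 / Real.sqrt 3 / ‖t‖ ^ 2) • ∫ z, f z =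
        (∑' k : Eis, f (t * toC k) - (2 / Real.sqrt 3 / ‖t‖ ^ 2) • ∫ z, f z) - f 0 := by abel
    rw [e]
    have h3 : 1 ≤ ‖t‖ ^ (-β) := Real.one_le_rpow_of_pos_of_le_one_of_nonpos htn h1 (by linarith)
    have h4 : 8 / Real.sqrt 3 * M * J3 + ‖f 0‖ ≤ Kdec f M K₀ := by
      unfold Kdec
      have : 0 ≤ K₀ * Zs (3 / 2) + 2 / Real.sqrt 3 * ‖∫ z, f z‖ := by positivity
      linarith
    calc _ ≤ 8 / Real.sqrt 3 * M * J3 + ‖f 0‖ := (norm_sub_le _ _).trans (by gcongr)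
      _ ≤ Kdec f M K₀ := h4
      _ ≤ Kdec f M K₀ * ‖t‖ ^ (-β) := le_mul_of_one_le_right (Kdec_nonneg f hM hK₀) h3
  · have hl := (summable_lsum hK₀ hD ht).2.2
    have h3 : K₀ / ‖t‖ ^ 3 * Zs (3 / 2) ≤ K₀ * Zs (3 / 2) * ‖t‖ ^ (-β) := by
      have : (1 / ‖t‖ ^ 3) ≤ ‖t‖ ^ (-β) := by
        rw [one_div, ← Real.rpow_natCast, ← Real.rpow_neg htn.le]
        apply Real.rpow_le_rpow_of_exponent_le h1
        push_cast; linarith
      calc K₀ / ‖t‖ ^ 3 * Zs (3 / 2) = K₀ * Zs (3 / 2) * (1 / ‖t‖ ^ 3) := by ring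
        _ ≤ _ := by gcongr
    have h4 : ‖(2 / Real.sqrt 3 / ‖t‖ ^ 2) • ∫ z, f z‖ ≤
        2 / Real.sqrt 3 * ‖∫ z, f z‖ * ‖t‖ ^ (-β) := by
      have : (1 / ‖t‖ ^ 2) ≤ ‖t‖ ^ (-β) := by
        rw [one_div, ← Real.rpow_natCast, ← Real.rpow_neg htn.le]
        apply Real.rpow_le_rpow_of_exponent_le h1
        push_cast; linarith
      rw [norm_smul, Real.norm_of_nonneg (by positivity)]
      calc 2 / Real.sqrt 3 / ‖t‖ ^ 2 * ‖∫ z, f z‖ =
          2 / Real.sqrt 3 * ‖∫ z, f z‖ * (1 / ‖t‖ ^ 2) := by ring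
        _ ≤ _ := by gcongr
    have h5 : 0 ≤ 8 / Real.sqrt 3 * M * J3 + ‖f 0‖ := by positivity
    have h6 : 0 ≤ ‖t‖ ^ (-β) := by positivity
    refine (norm_sub_le _ _).trans ?_
    unfold Kdec
    nlinarith

open Classical in
/-- **Weighted lattice sums for functions with decay.** -/
theorem weighted_decay {a : Eis → ℝ} (ha : ∀ d ≠ 0, |a d| ≤ 1 / nm d) {f : ℂ → F}
    (hf : Continuous f) (hi : Integrable f) {M K₀ : ℝ} (hM : 0 ≤ M) (hK₀ : 0 ≤ K₀)
    (h2 : ∀ z h, ‖h‖ ≤ 1 → ‖f (z + h) + f (z - h) - (2 : ℝ) • f z‖ ≤ M * wt3 z * ‖h‖ ^ 2)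
    (h0 : ∀ z, ‖f z‖ ≤ K₀ * wt3 z) {β : ℝ} (hβ0 : 0 < β) (hβ2 : β ≤ 2)
    {S : ℝ} (hS : 0 < S) :
    Summable (fun m : Eis => if m = 0 then 0 else Pw a m • f (toC m / S)) ∧
    ‖∑' m : Eis, (if m = 0 then 0 else Pw a m • f (toC m / S)) -
      (2 / Real.sqrt 3 * (∑' d : Eis, a d / nm d) * S ^ 2) • ∫ z, f z‖ ≤
      Kdec f M K₀ * Zs (1 + β / 2) * S ^ β :=
  weighted ha hβ0 (Kdec_nonneg f hM hK₀) hK₀ (by
    intro z hz
    refine (h0 z).trans ?_
    have := wt3_le_inv hz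
    calc K₀ * wt3 z ≤ K₀ * (1 / ‖z‖ ^ 3) := by gcongr
      _ = K₀ / ‖z‖ ^ 3 := by ring) (fun t ht => lsum_decay hf hi hM hK₀ h2 h0 hβ0.le hβ2 ht) hS

open Classical in
/-- **Weighted lattice sums, `C²` compactly supported functions.** The constant depends only on
`f` and `β`, not on the weights. -/
theorem weighted_C2 {f : ℂ → F} (hf : ContDiff ℝ 2 f) (hc : HasCompactSupport f)
    {β : ℝ} (hβ0 : 0 < β) (hβ2 : β ≤ 2) :
    ∃ C, 0 ≤ C ∧ ∀ a : Eis → ℝ, (∀ d ≠ 0, |a d| ≤ 1 / nm d) → ∀ S : ℝ, 0 < S →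
    Summable (fun m : Eis => if m = 0 then 0 else Pw a m • f (toC m / S)) ∧
    ‖∑' m : Eis, (if m = 0 then 0 else Pw a m • f (toC m / S)) -
      (2 / Real.sqrt 3 * (∑' d : Eis, a d / nm d) * S ^ 2) • ∫ z, f z‖ ≤ C * S ^ β := by
  obtain ⟨M, hM, h2⟩ := second_diff_compact hf hc
  obtain ⟨K₀, hK₀, h0⟩ := decay_compact hf.continuous hc
  refine ⟨Kdec f M K₀ * Zs (1 + β / 2), mul_nonneg (Kdec_nonneg f hM hK₀) (Zs_nonneg _), ?_⟩
  intro a ha S hS
  exact weighted_decay ha hf.continuous (hf.continuous.integrable_of_hasCompactSupport hc)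
    hM hK₀ h2 h0 hβ0 hβ2 hS


end Weighted

end Crest.Agent.R012.LatSum413
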