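import Crest.Agent.R012.Weight_600
import Crest.Agent.R012.SpecM_49
import Crest.Agent.R012.Div_277
import Crest.Agent.R012.GaussInst_880

-- ▼ part R012/MSgen_49
section

/-!
# Row 12, part (M): from one compactly supported weight to all weights (helper49)
-/

set_option autoImplicit false

noncomputable section

open MeasureTheory Complex Set Filter Topology
open Crest.Agent.R012.Weight600

namespace Crest.Agent.R012.MSgen49

/-! ### The partition of unity in the logarithmic variable -/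

/-- fixed bump in the logarithmic variable, supported in `[-1, 2]`. -/
def bb (u : ℝ) : ℝ := Phi u - Phi (u - 1)

lemma bb_nonneg (u : ℝ) : 0 ≤ bb u := sub_nonneg.mpr (monotone_Phi (by linarith))

lemma bb_le_one (u : ℝ) : bb u ≤ 1 := by
  have h1 := Phi_le_one u
  have h2 := Phi_nonneg (u - 1)
  unfold bb; linarith

lemma bb_of_le {u : ℝ} (h : u ≤ -1) : bb u = 0 := by
  unfold bb; rw [Phi_of_le h, Phi_of_le (by linarith)]; ring

lemma bb_of_ge {u : ℝ} (h : 2 ≤ u) : bb u = 0 := by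
  unfold bb; rw [Phi_of_ge (by linarith), Phi_of_ge (by linarith)]; ring

lemma contDiff_bb : ContDiff ℝ ((⊤ : ℕ∞) : WithTop ℕ∞) bb := by
  unfold bb
  exact contDiff_Phi.sub (contDiff_Phi.comp (contDiff_id.sub contDiff_const))

lemma continuous_bb : Continuous bb := contDiff_bb.continuous

lemma bb_ne_zero {u : ℝ} (h : bb u ≠ 0) : -1 < u ∧ u < 2 := by
  constructor
  · by_contra hc
    exact h (bb_of_le (not_lt.mp hc))
  · by_contra hc
    exact h (bb_of_ge (not_lt.mp hc))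

lemma hasSum_bb (u : ℝ) : HasSum (fun j : ℤ => bb (u - j)) 1 := by
  classical
  set J : ℤ := ⌊u⌋ - 2 with hJ
  have hf1 : (⌊u⌋ : ℝ) ≤ u := Int.floor_le u
  have hf2 : u < ⌊u⌋ + 1 := Int.lt_floor_add_one u
  have hs : ∑ j ∈ ({J, J + 1, J + 2, J + 3} : Finset ℤ), bb (u - j) = 1 := by
    rw [Finset.sum_insert (by simp), Finset.sum_insert (by simp), Finset.sum_insert (by simp),
      Finset.sum_singleton]
    unfold bb
    have e1 : u - ((J + 1 : ℤ) : ℝ) = u - (J : ℤ) - 1 := by push_cast; ring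
    have e2 : u - ((J + 2 : ℤ) : ℝ) = u - ((J + 1 : ℤ) : ℝ) - 1 := by push_cast; ring
    have e3 : u - ((J + 3 : ℤ) : ℝ) = u - ((J + 2 : ℤ) : ℝ) - 1 := by push_cast; ring
    rw [← e1, ← e2, ← e3]
    have h1 : Phi (u - (J : ℤ)) = 1 := by
      apply Phi_of_ge
      rw [hJ]; push_cast; linarith
    have h2 : Phi (u - ((J + 3 : ℤ) : ℝ) - 1) = 0 := by
      apply Phi_of_le
      rw [hJ]; push_cast; linarith
    rw [h1, h2]; ring
  rw [← hs]
  apply hasSum_sum_of_ne_finset_zero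
  intro j hj
  simp only [Finset.mem_insert, Finset.mem_singleton, not_or] at hj
  rcases lt_or_ge j J with h | h
  · apply bb_of_ge
    have : (j : ℝ) ≤ J - 1 := by exact_mod_cast (by omega : j ≤ J - 1)
    rw [hJ] at this
    push_cast at this
    linarith
  · apply bb_of_le
    have : (J : ℝ) + 4 ≤ j := by exact_mod_cast (by omega : J + 4 ≤ j)
    rw [hJ] at this
    push_cast at this
    linarith

/-- `χ = 1` on `[-1,2]`, supported in `[-3,4]`. -/
def chi : ℝ → ℂ := cutC (-2) 3 1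

lemma contDiff_chi : ContDiff ℝ ((⊤ : ℕ∞) : WithTop ℕ∞) chi := contDiff_cutC

lemma chi_one {u : ℝ} (h1 : -1 ≤ u) (h2 : u ≤ 2) : chi u = 1 := by
  unfold chi cutC
  rw [cutL_eq_one one_pos (by linarith) (by linarith)]; simp

lemma chi_zero {u : ℝ} (h : u < -3 ∨ 4 < u) : chi u = 0 := by
  unfold chi cutC
  rcases h with h | h
  · rw [cutL_eq_zero_left one_pos (by norm_num) (by linarith)]; simp
  · rw [cutL_eq_zero_right one_pos (by norm_num) (by linarith)]; simp

/-- derivatives of `χ`. -/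
def chiD (i : ℕ) : ℝ → ℂ := iteratedDeriv i chi

lemma chiD_hasDerivAt (i : ℕ) (u : ℝ) : HasDerivAt (chiD i) (chiD (i + 1) u) u := by
  unfold chiD
  rw [iteratedDeriv_succ]
  have : ContDiff ℝ 1 (iteratedDeriv i chi) := by
    have := contDiff_chi
    exact (contDiff_infty.mp this (1 + i)).iterate_deriv' 1 i |> fun h => by
      rwa [iteratedDeriv_eq_iterate]
  exact (this.differentiable (by norm_num) u).hasDerivAt

lemma chiD_zero (i : ℕ) {u : ℝ} (h : u < -3 ∨ 4 < u) : chiD i u = 0 := by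
  unfold chiD
  have hev : chi =ᶠ[𝓝 u] fun _ => (0 : ℂ) := by
    rcases h with h | h
    · filter_upwards [isOpen_Iio.mem_nhds h] with x hx using chi_zero (Or.inl hx)
    · filter_upwards [isOpen_Ioi.mem_nhds h] with x hx using chi_zero (Or.inr hx)
  rw [hev.iteratedDeriv_eq i]
  simp

lemma chiD_bdd : ∃ B : ℝ, 0 < B ∧ ∀ i ≤ 3, ∀ u, ‖chiD i u‖ ≤ B := by
  have hcont : ∀ i, Continuous (chiD i) := fun i =>
    continuous_iff_continuousAt.mpr fun u => (chiD_hasDerivAt i u).continuousAt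
  have : ∀ i, ∃ B : ℝ, ∀ u, ‖chiD i u‖ ≤ B := by
    intro i
    obtain ⟨B, hB⟩ := isCompact_Icc.exists_bound_of_continuousOn
      ((hcont i).continuousOn (s := Icc (-3 : ℝ) 4))
    refine ⟨max B 0, fun u => ?_⟩
    by_cases hu : u ∈ Icc (-3 : ℝ) 4
    · exact (hB u hu).trans (le_max_left _ _)
    · rw [chiD_zero i (by
        by_contra hc
        push Not at hc
        exact hu ⟨hc.1, hc.2⟩)]
      simp
  choose B hB using this
  refine ⟨|B 0| + |B 1| + |B 2| + |B 3| + 1, by positivity, fun i hi u => ?_⟩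
  have hnn := fun i => abs_nonneg (B i)
  have h0 := hnn 0
  have h1 := hnn 1
  have h2 := hnn 2
  have h3 := hnn 3
  refine (hB i u).trans ((le_abs_self _).trans ?_)
  interval_cases i <;> linarith

/-! ### Weights in the logarithmic variable -/

/-- envelope: `max(1, x^{-1/4}) (1+x)^{-2}` with `x = e^u` (up to constants). -/
def env (u : ℝ) : ℝ := (1 + Real.exp (-u)) ^ ((1 : ℝ) / 4) / (1 + Real.exp u) ^ 2

lemma env_pos (u : ℝ) : 0 < env u := by
  unfold env; positivity

/-- `w` (function of `u = log x`) with three derivatives bounded by `M * env u`. -/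
def LogW (w : ℝ → ℂ) (M : ℝ) : Prop :=
  ∃ D : ℕ → ℝ → ℂ, D 0 = w ∧ (∀ j < 3, ∀ u, HasDerivAt (D j) (D (j + 1) u) u) ∧
    Continuous (D 3) ∧ ∀ j ≤ 3, ∀ u, ‖D j u‖ ≤ M * env u

lemma LogW.bound {w : ℝ → ℂ} {M : ℝ} (h : LogW w M) (u : ℝ) :
    ‖w u‖ ≤ M * env u := by
  obtain ⟨D, h0, -, -, h3⟩ := h
  have := h3 0 (by norm_num) u
  rwa [h0] at this

lemma LogW.continuous {w : ℝ → ℂ} {M : ℝ} (h : LogW w M) : Continuous w := by
  obtain ⟨D, h0, h1, -, -⟩ := h
  rw [← h0]
  exact continuous_iff_continuousAt.mpr fun u => (h1 0 (by norm_num) u).continuousAt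

lemma LogW.M_nonneg {w : ℝ → ℂ} {M : ℝ} (h : LogW w M) : 0 ≤ M := by
  have h1 := (norm_nonneg _).trans (h.bound 0)
  have h2 := env_pos 0
  exact (mul_nonneg_iff_of_pos_right h2).mp h1

lemma env_shift (j : ℤ) {u : ℝ} (hu : -3 ≤ u) :
    env (u + j) ≤ Real.exp 7 * env j := by
  unfold env
  have h1 : 0 < (1 + Real.exp (u + j)) ^ 2 := by positivity
  have h2 : 0 < (1 + Real.exp j) ^ 2 := by positivity
  have h6 : (1 : ℝ) ≤ Real.exp 3 := Real.one_le_exp (by norm_num)
  have A : 1 / (1 + Real.exp (u + j)) ^ 2 ≤ Real.exp 6 / (1 + Real.exp j) ^ 2 := by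
    rw [div_le_div_iff₀ h1 h2, one_mul]
    have h3 : Real.exp (6 : ℝ) = (Real.exp 3) ^ 2 := by
      rw [← Real.exp_nat_mul]; norm_num
    rw [h3, ← mul_pow]
    apply pow_le_pow_left₀ (by positivity)
    have h4 : Real.exp j = Real.exp (-u) * Real.exp (u + j) := by
      rw [← Real.exp_add]; congr 1; ring
    have h5 : Real.exp (-u) ≤ Real.exp 3 := Real.exp_le_exp.mpr (by linarith)
    rw [h4]
    have h7 : 0 < Real.exp (u + j) := Real.exp_pos _
    nlinarith
  have B : (1 + Real.exp (-(u + j))) ^ ((1 : ℝ) / 4) ≤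
      Real.exp 1 * (1 + Real.exp (-(j : ℝ))) ^ ((1 : ℝ) / 4) := by
    have h8 : 1 + Real.exp (-(u + j)) ≤ Real.exp 3 * (1 + Real.exp (-(j : ℝ))) := by
      have h9 : Real.exp (-(u + j)) = Real.exp (-u) * Real.exp (-(j : ℝ)) := by
        rw [← Real.exp_add]; congr 1; ring
      have h5 : Real.exp (-u) ≤ Real.exp 3 := Real.exp_le_exp.mpr (by linarith)
      rw [h9]
      have h7 : 0 < Real.exp (-(j : ℝ)) := Real.exp_pos _
      nlinarith
    calc (1 + Real.exp (-(u + j))) ^ ((1 : ℝ) / 4)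
        ≤ (Real.exp 3 * (1 + Real.exp (-(j : ℝ)))) ^ ((1 : ℝ) / 4) := by
          apply Real.rpow_le_rpow (by positivity) h8 (by norm_num)
      _ = Real.exp (3 * (1 / 4)) * (1 + Real.exp (-(j : ℝ))) ^ ((1 : ℝ) / 4) := by
          rw [Real.mul_rpow (by positivity) (by positivity), ← Real.exp_mul]
      _ ≤ _ := by
          gcongr
          norm_num
  calc (1 + Real.exp (-(u + j))) ^ ((1 : ℝ) / 4) / (1 + Real.exp (u + j)) ^ 2
      = (1 + Real.exp (-(u + j))) ^ ((1 : ℝ) / 4) * (1 / (1 + Real.exp (u + j)) ^ 2) := by ring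
    _ ≤ (Real.exp 1 * (1 + Real.exp (-(j : ℝ))) ^ ((1 : ℝ) / 4)) *
        (Real.exp 6 / (1 + Real.exp j) ^ 2) := by
        apply mul_le_mul B A (by positivity) (by positivity)
    _ = _ := by
        have : Real.exp (7 : ℝ) = Real.exp 1 * Real.exp 6 := by
          rw [← Real.exp_add]; norm_num
        rw [this]; ring

/-- `g_j(u) = χ(u) w(u+j)`. -/
def gj (w : ℝ → ℂ) (j : ℤ) (u : ℝ) : ℂ := chi u * w (u + j)

lemma norm_ker_le_of_supp {g : ℝ → ℂ} {B : ℝ} (hB : ∀ u, ‖g u‖ ≤ B)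
    (hs : ∀ u, (u < -3 ∨ 4 < u) → g u = 0) (t : ℝ) : ‖ker g t‖ ≤ 2 * B := by
  have h0 : 0 ≤ B := (norm_nonneg _).trans (hB 0)
  refine (norm_ker_le g t).trans ?_
  have h1 : ∫ u, ‖g u‖ = ∫ u in Icc (-3 : ℝ) 4, ‖g u‖ := by
    symm
    apply setIntegral_eq_integral_of_forall_compl_eq_zero
    intro u hu
    rw [hs u (by
      by_contra hc
      push Not at hc
      exact hu ⟨hc.1, hc.2⟩), norm_zero]
  have h2 : ∫ u in Icc (-3 : ℝ) 4, ‖g u‖ ≤ B * 7 := by
    have h3 := norm_setIntegral_le_of_norm_le_const (μ := volume) (s := Icc (-3 : ℝ) 4)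
      (f := fun u => ‖g u‖) (C := B) (by simp) (fun u _ => by simpa using hB u)
    refine (le_abs_self _).trans (h3.trans (le_of_eq ?_))
    congr 1
    rw [Measure.real, Real.volume_Icc]
    norm_num
  rw [h1]
  have h4 : (1 / (2 * Real.pi)) ≤ 2 / 7 := by
    rw [div_le_div_iff₀ (by positivity) (by norm_num)]
    have := Real.pi_gt_three
    linarith
  calc (1 / (2 * Real.pi)) * ∫ u in Icc (-3 : ℝ) 4, ‖g u‖ ≤ (2 / 7) * (B * 7) := by
        apply mul_le_mul h4 h2 (by positivity) (by norm_num)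
    _ = 2 * B := by ring

/-- Kernel bound for a `C³` function supported in `[-3,4]`. -/
lemma ker_le_of_chain {Gc : ℕ → ℝ → ℂ} {B : ℝ}
    (hd : ∀ j < 3, ∀ u, HasDerivAt (Gc j) (Gc (j + 1) u) u) (hc : Continuous (Gc 3))
    (hB : ∀ j ≤ 3, ∀ u, ‖Gc j u‖ ≤ B)
    (hs : ∀ j ≤ 3, ∀ u, (u < -3 ∨ 4 < u) → Gc j u = 0) (t : ℝ) :
    ‖ker (Gc 0) t‖ ≤ 16 * B / (1 + |t|) ^ 3 := by
  have hcont : ∀ j ≤ 3, Continuous (Gc j) := by
    intro j hj
    rcases Nat.lt_or_ge j 3 with h | h
    · exact continuous_iff_continuousAt.mpr fun u => (hd j h u).continuousAt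
    · have : j = 3 := by omega
      rw [this]; exact hc
  have hcs : ∀ j ≤ 3, HasCompactSupport (Gc j) := by
    intro j hj
    apply HasCompactSupport.intro (isCompact_Icc (a := (-3 : ℝ)) (b := 4))
    intro u hu
    apply hs j hj
    by_contra hc
    push Not at hc
    exact hu ⟨hc.1, hc.2⟩
  have hint : ∀ j ≤ 3, Integrable (Gc j) := fun j hj =>
    (hcont j hj).integrable_of_hasCompactSupport (hcs j hj)
  have hder : ∀ j < 3, deriv (Gc j) = Gc (j + 1) := fun j hj => by
    ext u; exact (hd j hj u).deriv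
  have hk : ∀ j < 3, ker (Gc (j + 1)) t = (I * t) * ker (Gc j) t := by
    intro j hj
    have h1 := ker_deriv (hint j hj.le) (fun u => (hd j hj u).differentiableAt)
      (by rw [hder j hj]; exact hint (j + 1) (by omega)) t
    rwa [hder j hj] at h1
  have hk3 : ker (Gc 3) t = (I * t) ^ 3 * ker (Gc 0) t := by
    rw [hk 2 (by norm_num), hk 1 (by norm_num), hk 0 (by norm_num)]; ring
  have hb0 := norm_ker_le_of_supp (hB 0 (by norm_num)) (hs 0 (by norm_num)) t
  have hb3 := norm_ker_le_of_supp (hB 3 le_rfl) (hs 3 le_rfl) t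
  rw [hk3, norm_mul, norm_pow, norm_mul, Complex.norm_I, one_mul, Complex.norm_real,
    Real.norm_eq_abs] at hb3
  have hpos : (0 : ℝ) < (1 + |t|) ^ 3 := by positivity
  rw [le_div_iff₀ hpos]
  have h4 : (1 + |t|) ^ 3 ≤ 4 * (1 + |t| ^ 3) := by
    have := abs_nonneg t
    nlinarith [mul_nonneg (by positivity : 0 ≤ 1 + |t|) (sq_nonneg (|t| - 1))]
  calc ‖ker (Gc 0) t‖ * (1 + |t|) ^ 3 ≤ ‖ker (Gc 0) t‖ * (4 * (1 + |t| ^ 3)) := by gcongr
    _ = 4 * (‖ker (Gc 0) t‖ + |t| ^ 3 * ‖ker (Gc 0) t‖) := by ring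
    _ ≤ 4 * (2 * B + 2 * B) := by linarith
    _ = 16 * B := by ring

/-- **Kernel bound** for `g_j`. -/
lemma exists_ker_bound : ∃ C : ℝ, 0 < C ∧ ∀ (w : ℝ → ℂ) (M : ℝ), LogW w M → ∀ (j : ℤ) (t : ℝ),
    ‖ker (gj w j) t‖ ≤ C * M * env j / (1 + |t|) ^ 3 := by
  obtain ⟨Bx, hBx, hBx'⟩ := chiD_bdd
  refine ⟨16 * (8 * Bx * Real.exp 7), by positivity, fun w M hw j t => ?_⟩
  have hM := hw.M_nonneg
  obtain ⟨D, h0, h1, h2, h3⟩ := hw
  -- the derivatives of `u ↦ w (u + j)`
  have hD : ∀ i < 3, ∀ u, HasDerivAt (fun u => D i (u + j)) (D (i + 1) (u + j)) u := by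
    intro i hi u
    exact (h1 i hi (u + j)).comp_add_const u (j : ℝ)
  set P : ℕ → ℝ → ℂ := fun i u => D i (u + j) with hP
  have hX : ∀ i u, HasDerivAt (chiD i) (chiD (i + 1) u) u := chiD_hasDerivAt
  let Gc : ℕ → ℝ → ℂ := fun i => match i with
    | 0 => fun u => chiD 0 u * P 0 u
    | 1 => fun u => chiD 1 u * P 0 u + chiD 0 u * P 1 u
    | 2 => fun u => chiD 2 u * P 0 u + 2 * (chiD 1 u * P 1 u) + chiD 0 u * P 2 u
    | 3 => fun u => chiD 3 u * P 0 u + 3 * (chiD 2 u * P 1 u) + 3 * (chiD 1 u * P 2 u) +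
        chiD 0 u * P 3 u
    | _ => fun _ => 0
  have hD' : ∀ i < 3, ∀ u, HasDerivAt (P i) (P (i + 1) u) u := hD
  have hB : ∀ i ≤ 3, ∀ u, -3 ≤ u → ‖P i u‖ ≤ M * (Real.exp 7 * env j) := by
    intro i hi u hu
    refine (h3 i hi (u + j)).trans ?_
    have := env_shift j hu
    gcongr
  have henv := env_pos (j : ℝ)
  set E : ℝ := M * (Real.exp 7 * env j) with hE
  have hEnn : 0 ≤ E := by positivity
  have hGs : ∀ i ≤ 3, ∀ u, (u < -3 ∨ 4 < u) → Gc i u = 0 := by
    intro i hi u hu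
    have h0 := chiD_zero 0 hu
    have h1 := chiD_zero 1 hu
    have h2 := chiD_zero 2 hu
    have h3 := chiD_zero 3 hu
    interval_cases i <;> simp [Gc, h0, h1, h2, h3]
  have hprod : ∀ a ≤ 3, ∀ b ≤ 3, ∀ u, -3 ≤ u → ‖chiD a u * P b u‖ ≤ Bx * E := by
    intro a ha b hb u hu
    rw [norm_mul]
    exact mul_le_mul (hBx' a ha u) (hB b hb u hu) (norm_nonneg _) hBx.le
  have hGb : ∀ i ≤ 3, ∀ u, ‖Gc i u‖ ≤ 8 * (Bx * E) := by
    intro i hi u
    by_cases hu : u < -3
    · rw [hGs i hi u (Or.inl hu), norm_zero]; positivity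
    · push Not at hu
      have q := fun a (ha : a ≤ 3) b (hb : b ≤ 3) => hprod a ha b hb u hu
      have hnn : 0 ≤ Bx * E := by positivity
      interval_cases i
      · simp only [Gc]
        linarith [q 0 (by norm_num) 0 (by norm_num)]
      · simp only [Gc]
        refine (norm_add_le _ _).trans ?_
        linarith [q 1 (by norm_num) 0 (by norm_num), q 0 (by norm_num) 1 (by norm_num)]
      · simp only [Gc]
        refine (norm_add₃_le).trans ?_
        rw [norm_mul (2 : ℂ)]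
        simp only [Complex.norm_ofNat]
        linarith [q 2 (by norm_num) 0 (by norm_num), q 1 (by norm_num) 1 (by norm_num),
          q 0 (by norm_num) 2 (by norm_num)]
      · simp only [Gc]
        refine (norm_add_le _ _).trans ?_
        refine (add_le_add_left norm_add₃_le _).trans ?_
        rw [norm_mul (3 : ℂ), norm_mul (3 : ℂ)]
        simp only [Complex.norm_ofNat]
        linarith [q 3 (by norm_num) 0 (by norm_num), q 2 (by norm_num) 1 (by norm_num),
          q 1 (by norm_num) 2 (by norm_num), q 0 (by norm_num) 3 (by norm_num)]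
  have hGd : ∀ i < 3, ∀ u, HasDerivAt (Gc i) (Gc (i + 1) u) u := by
    intro i hi u
    interval_cases i
    · exact (hX 0 u).fun_mul (hD' 0 (by norm_num) u)
    · have := ((hX 1 u).fun_mul (hD' 0 (by norm_num) u)).fun_add
        ((hX 0 u).fun_mul (hD' 1 (by norm_num) u))
      refine this.congr_deriv ?_
      show _ = chiD 2 u * P 0 u + 2 * (chiD 1 u * P 1 u) + chiD 0 u * P 2 u
      ring
    · have := (((hX 2 u).fun_mul (hD' 0 (by norm_num) u)).fun_add
        (((hX 1 u).fun_mul (hD' 1 (by norm_num) u)).const_mul 2)).fun_add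
        ((hX 0 u).fun_mul (hD' 2 (by norm_num) u))
      refine this.congr_deriv ?_
      show _ = chiD 3 u * P 0 u + 3 * (chiD 2 u * P 1 u) + 3 * (chiD 1 u * P 2 u) +
        chiD 0 u * P 3 u
      ring
  have hPc : ∀ i ≤ 3, Continuous (P i) := by
    intro i hi
    rcases Nat.lt_or_ge i 3 with h | h
    · exact continuous_iff_continuousAt.mpr fun u => (hD' i h u).continuousAt
    · have : i = 3 := by omega
      rw [this, hP]
      exact h2.comp (continuous_id.add continuous_const)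
  have hXc : ∀ i, Continuous (chiD i) := fun i =>
    continuous_iff_continuousAt.mpr fun u => (hX i u).continuousAt
  have hGc3 : Continuous (Gc 3) := by
    simp only [Gc]
    have := hPc 0 (by norm_num)
    have := hPc 1 (by norm_num)
    have := hPc 2 (by norm_num)
    have := hPc 3 (by norm_num)
    have := hXc 0
    have := hXc 1
    have := hXc 2
    have := hXc 3
    fun_prop
  have hfin := ker_le_of_chain hGd hGc3 hGb hGs t
  have hG0 : Gc 0 = gj w j := by
    ext u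
    simp only [Gc, gj, hP, h0, chiD, iteratedDeriv_zero]
  rw [hG0] at hfin
  refine hfin.trans (le_of_eq ?_)
  rw [hE]; ring

end Crest.Agent.R012.MSgen49
end
end

-- ▼ part R012/MSgenB_49
section

/-!
# Row 12, part (M): from one compactly supported weight to all weights, abstract theorem (helper49)
-/

set_option autoImplicit false

noncomputable section

open MeasureTheory Complex Set Filter Topology
open Crest.Agent.R012.Weight600

namespace Crest.Agent.R012.MSgen49

section general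

variable {α : Type*} [MeasurableSpace α] {μ : Measure α} [SFinite μ]
  {E : Type*} [NormedAddCommGroup E] [NormedSpace ℂ E] [CompleteSpace E]

/-- `S(w, τ, x) = ∫ w(ν a - x) e^{iτ ν a} c(a) dμ(a)`. -/
def SG (μ : Measure α) (ν : α → ℝ) (c : α → E) (w : ℝ → ℂ) (τ x : ℝ) : E :=
  ∫ a, (w (ν a - x) * osc τ (ν a)) • c a ∂μ

/-- admissible data. -/
structure Good (μ : Measure α) (ν : α → ℝ) (c : α → E) : Prop where
  mν : Measurable ν
  mc : AEStronglyMeasurable c μ
  int : ∀ x : ℝ, Integrable (fun a => ‖c a‖ * env (ν a - x)) μ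

variable {ν : α → ℝ} {c : α → E}

omit [SFinite μ] [CompleteSpace E] in
lemma Good.integrable (h : Good μ ν c) {w : ℝ → ℂ} {M : ℝ} (hw : Continuous w)
    (hb : ∀ u, ‖w u‖ ≤ M * env u) (τ x : ℝ) :
    Integrable (fun a => (w (ν a - x) * osc τ (ν a)) • c a) μ := by
  refine ((h.int x).const_mul M).mono' ?_ ?_
  · refine AEStronglyMeasurable.smul (Measurable.aestronglyMeasurable ?_) h.mc
    exact (hw.measurable.comp (h.mν.sub_const x)).mul
      ((continuous_osc_right τ).measurable.comp h.mν)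
  · refine Eventually.of_forall fun a => ?_
    rw [norm_smul, norm_mul, norm_osc, mul_one]
    calc ‖w (ν a - x)‖ * ‖c a‖ ≤ M * env (ν a - x) * ‖c a‖ := by
          gcongr; exact hb _
      _ = _ := by ring

omit [SFinite μ] in
lemma hasSum_SG (h : Good μ ν c) {w : ℝ → ℂ} {M : ℝ} (hw : Continuous w)
    (hb : ∀ u, ‖w u‖ ≤ M * env u) (τ x : ℝ) :
    HasSum (fun j : ℤ => SG μ ν c (fun u => (bb (u - j) : ℂ) * w u) τ x) (SG μ ν c w τ x) := by
  unfold SG
  refine hasSum_integral_of_dominated_convergence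
    (fun (j : ℤ) a => bb (ν a - x - j) * (M * (‖c a‖ * env (ν a - x))))
    ?_ ?_ ?_ ?_ ?_
  · intro j
    refine AEStronglyMeasurable.smul (Measurable.aestronglyMeasurable ?_) h.mc
    refine Measurable.mul (Measurable.mul ?_ ?_) ?_
    · exact Complex.measurable_ofReal.comp
        (continuous_bb.measurable.comp ((h.mν.sub_const x).sub_const _))
    · exact hw.measurable.comp (h.mν.sub_const x)
    · exact (continuous_osc_right τ).measurable.comp h.mν
  · intro j
    refine Eventually.of_forall fun a => ?_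
    rw [norm_smul, norm_mul, norm_mul, norm_osc, mul_one, Complex.norm_real,
      Real.norm_of_nonneg (bb_nonneg _), mul_assoc]
    apply mul_le_mul_of_nonneg_left _ (bb_nonneg _)
    calc ‖w (ν a - x)‖ * ‖c a‖ ≤ M * env (ν a - x) * ‖c a‖ := by
          gcongr; exact hb _
      _ = _ := by ring
  · refine Eventually.of_forall fun a => ?_
    exact ((hasSum_bb (ν a - x)).mul_right _).summable
  · refine ((h.int x).const_mul M).congr (Eventually.of_forall fun a => ?_)
    have := ((hasSum_bb (ν a - x)).mul_right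
      (M * (‖c a‖ * env (ν a - x)))).tsum_eq
    simp only [one_mul] at this
    exact this.symm
  · refine Eventually.of_forall fun a => ?_
    have h1 : HasSum (fun j : ℤ => (bb (ν a - x - j) : ℂ)) 1 := by
      have h0 := Complex.hasSum_ofReal.mpr (hasSum_bb (ν a - x))
      rw [Complex.ofReal_one] at h0
      exact h0
    have h2 := (h1.mul_right (w (ν a - x) * osc τ (ν a))).smul_const (c a)
    rw [one_mul] at h2
    convert h2 using 2
    rw [mul_assoc]

/-- support of `bb` inside `chi = 1`. -/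
lemma bb_mul_gj (w : ℝ → ℂ) (j : ℤ) (u : ℝ) : (bb u : ℂ) * gj w j u = bb u * w (u + j) := by
  by_cases h : bb u = 0
  · simp [h]
  · have := bb_ne_zero h
    rw [gj, chi_one this.1.le this.2.le, one_mul]

lemma gj_continuous {w : ℝ → ℂ} (hw : Continuous w) (j : ℤ) : Continuous (gj w j) := by
  unfold gj
  exact contDiff_chi.continuous.mul (hw.comp (continuous_id.add continuous_const))

lemma gj_compact (w : ℝ → ℂ) (j : ℤ) : HasCompactSupport (gj w j) := by
  apply HasCompactSupport.intro (isCompact_Icc (a := (-3 : ℝ)) (b := 4))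
  intro u hu
  have : u < -3 ∨ 4 < u := by
    by_contra hc
    push Not at hc
    exact hu ⟨hc.1, hc.2⟩
  rw [gj, chi_zero this, zero_mul]

lemma integrable_pow3 : Integrable (fun t : ℝ => 1 / (1 + |t|) ^ 3) := by
  have := integrable_one_add_norm (E := ℝ) (μ := volume) (r := 3) (by simp)
  refine this.congr (Eventually.of_forall fun t => ?_)
  simp only [Real.norm_eq_abs]
  rw [Real.rpow_neg (by positivity)]
  have : ((3 : ℝ)) = ((3 : ℕ) : ℝ) := by norm_num
  rw [this, Real.rpow_natCast, one_div]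

lemma ker_gj_integrable {w : ℝ → ℂ} {M : ℝ} (hw : LogW w M) (j : ℤ) :
    Integrable (ker (gj w j)) := by
  obtain ⟨C, hC, h⟩ := exists_ker_bound
  refine (integrable_pow3.const_mul (C * M * env j)).mono' ?_ ?_
  · exact (continuous_ker ((gj_continuous hw.continuous j).integrable_of_hasCompactSupport
      (gj_compact w j))).aestronglyMeasurable
  · refine Eventually.of_forall fun t => ?_
    refine (h w M hw j t).trans (le_of_eq ?_)
    ring

lemma gj_inversion {w : ℝ → ℂ} {M : ℝ} (hw : LogW w M) (j : ℤ) (u : ℝ) :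
    ∫ t, ker (gj w j) t * osc t u = gj w j u :=
  inversion (gj_continuous hw.continuous j)
    ((gj_continuous hw.continuous j).integrable_of_hasCompactSupport (gj_compact w j))
    (ker_gj_integrable hw j) u

/-- `bb` as a bounded weight. -/
lemma bb_env (u : ℝ) : ‖(bb u : ℂ)‖ ≤ (1 + Real.exp 2) ^ 2 * env u := by
  rw [Complex.norm_real, Real.norm_of_nonneg (bb_nonneg _)]
  by_cases h : bb u = 0
  · rw [h]; have := env_pos u; positivity
  · have h1 := bb_ne_zero h
    have h2 : Real.exp u ≤ Real.exp 2 := Real.exp_le_exp.mpr h1.2.le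
    have h3 : (1 : ℝ) ≤ (1 + Real.exp (-u)) ^ ((1 : ℝ) / 4) :=
      Real.one_le_rpow (by linarith [Real.exp_pos (-u)]) (by norm_num)
    have h4 : (1 + Real.exp 2) ^ 2 * env u =
      (1 + Real.exp (-u)) ^ ((1 : ℝ) / 4) * ((1 + Real.exp 2) ^ 2 / (1 + Real.exp u) ^ 2) := by
      unfold env; ring
    rw [h4]
    have h5 : (1 : ℝ) ≤ (1 + Real.exp 2) ^ 2 / (1 + Real.exp u) ^ 2 := by
      rw [le_div_iff₀ (by positivity), one_mul]
      gcongr
    have h6 := bb_le_one u
    nlinarith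

/-- The joint integrand. -/
lemma joint_integrable (h : Good μ ν c) {w : ℝ → ℂ} {M : ℝ} (hw : LogW w M) (τ x : ℝ) (j : ℤ) :
    Integrable (Function.uncurry fun (a : α) (t : ℝ) =>
      (ker (gj w j) t * osc t (-(x + j))) •
        (((bb (ν a - (x + j)) : ℂ) * osc (τ + t) (ν a)) • c a)) (μ.prod volume) := by
  have hbb : Continuous fun u : ℝ => (bb u : ℂ) := Complex.continuous_ofReal.comp continuous_bb
  have h1 := (h.integrable hbb bb_env τ (x + j)).norm
  have h2 := (ker_gj_integrable hw j).norm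
  refine (h1.mul_prod h2).mono' ?_ ?_
  · refine AEStronglyMeasurable.smul ?_ (AEStronglyMeasurable.smul ?_ ?_)
    · refine Measurable.aestronglyMeasurable (Measurable.mul ?_ ?_)
      · exact (continuous_ker ((gj_continuous hw.continuous j).integrable_of_hasCompactSupport
          (gj_compact w j))).measurable.comp measurable_snd
      · exact (continuous_osc_left _).measurable.comp measurable_snd
    · refine Measurable.aestronglyMeasurable (Measurable.mul ?_ ?_)
      · exact hbb.measurable.comp ((h.mν.comp measurable_fst).sub_const _)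
      · exact continuous_osc.measurable.comp
          ((measurable_const.add measurable_snd).prodMk (h.mν.comp measurable_fst))
    · exact h.mc.comp_fst
  · refine Eventually.of_forall fun p => ?_
    simp only [Function.uncurry]
    rw [norm_smul, norm_smul, norm_smul, norm_mul, norm_mul, norm_mul, norm_osc, norm_osc,
      norm_osc, mul_one, mul_one]
    apply le_of_eq; ring

lemma SG_cell (h : Good μ ν c) {w : ℝ → ℂ} {M : ℝ} (hw : LogW w M) (τ x : ℝ) (j : ℤ) :
    SG μ ν c (fun u => (bb (u - j) : ℂ) * w u) τ x =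
      ∫ t, (ker (gj w j) t * osc t (-(x + j))) •
        SG μ ν c (fun u => (bb u : ℂ)) (τ + t) (x + j) := by
  unfold SG
  have hsw := integral_integral_swap (joint_integrable h hw τ x j)
  have e1 : ∀ t : ℝ, (ker (gj w j) t * osc t (-(x + j))) •
        (∫ a, ((bb (ν a - (x + j)) : ℂ) * osc (τ + t) (ν a)) • c a ∂μ) =
      ∫ a, (ker (gj w j) t * osc t (-(x + j))) •
        (((bb (ν a - (x + j)) : ℂ) * osc (τ + t) (ν a)) • c a) ∂μ := by
    intro t
    rw [integral_smul]
  simp_rw [e1]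
  rw [← hsw]
  refine integral_congr_ae (Eventually.of_forall fun a => ?_)
  simp only
  have e2 : ∀ t : ℝ, (ker (gj w j) t * osc t (-(x + j))) •
        (((bb (ν a - (x + j)) : ℂ) * osc (τ + t) (ν a)) • c a) =
      (((bb (ν a - (x + j)) : ℂ) * osc τ (ν a)) *
        (ker (gj w j) t * osc t (ν a - (x + j)))) • c a := by
    intro t
    rw [smul_smul, osc_add_left, sub_eq_add_neg (ν a) (x + j), osc_add_right t (ν a)]
    congr 1
    ring
  simp_rw [e2]
  rw [integral_smul_const, integral_const_mul, gj_inversion hw j]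
  congr 1
  have h3 := bb_mul_gj w j (ν a - (x + j))
  have e4 : ν a - x - j = ν a - (x + j) := by ring
  have e5 : ν a - (x + j) + j = ν a - x := by ring
  rw [e5] at h3
  rw [e4]
  calc (bb (ν a - (x + j)) : ℂ) * w (ν a - x) * osc τ (ν a)
      = ((bb (ν a - (x + j)) : ℂ) * gj w j (ν a - (x + j))) * osc τ (ν a) := by rw [h3]
    _ = _ := by ring

lemma SG_cell_integrable (h : Good μ ν c) {w : ℝ → ℂ} {M : ℝ} (hw : LogW w M) (τ x : ℝ) (j : ℤ) :
    Integrable (fun t => (ker (gj w j) t * osc t (-(x + j))) •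
        SG μ ν c (fun u => (bb u : ℂ)) (τ + t) (x + j)) := by
  have := (joint_integrable h hw τ x j).integral_prod_right
  refine this.congr (Eventually.of_forall fun t => ?_)
  simp only [Function.uncurry, SG]
  rw [integral_smul]

end general

/-! ### The bound -/

/-- `Σ_j (1+e^j)^δ env(j) e^{j/2}`. -/
lemma summable_dyadic {δ : ℝ} (hδ : 0 < δ) (hδ1 : δ ≤ 1 / 2) :
    Summable (fun j : ℤ => (1 + Real.exp j) ^ δ * env j * Real.exp (j / 2)) := by
  have hg : Summable (fun n : ℕ => 2 * Real.exp (-(n / 4 : ℝ))) := by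
    have : ∀ n : ℕ, Real.exp (-(n / 4 : ℝ)) = (Real.exp (-(1 / 4))) ^ n := by
      intro n
      rw [← Real.exp_nat_mul]; congr 1; ring
    simp_rw [this]
    exact (summable_geometric_of_lt_one (Real.exp_pos _).le
      (Real.exp_lt_one_iff.mpr (by norm_num))).mul_left 2
  have hE : ∀ u : ℝ, (1 + Real.exp u) ^ δ * env u =
      (1 + Real.exp u) ^ (δ - 2) * (1 + Real.exp (-u)) ^ ((1 : ℝ) / 4) := by
    intro u
    have h0 : 0 < 1 + Real.exp u := by positivity
    unfold env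
    rw [Real.rpow_sub h0, Real.rpow_two]; ring
  have hnn : ∀ u : ℝ, 0 ≤ (1 + Real.exp u) ^ δ * env u := fun u => by
    have := env_pos u; positivity
  apply Summable.of_nat_of_neg
  · refine Summable.of_nonneg_of_le (fun n => by
      have := hnn ((n : ℕ) : ℝ); push_cast; positivity) (fun n => ?_) hg
    push_cast
    rw [hE]
    have hn0 : (0 : ℝ) ≤ n := Nat.cast_nonneg n
    have h1 : (1 + Real.exp n) ^ (δ - 2) ≤ (Real.exp n) ^ (δ - 2) :=
      Real.rpow_le_rpow_of_nonpos (Real.exp_pos _) (by linarith [Real.exp_pos (n : ℝ)])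
        (by linarith)
    have h2 : (1 + Real.exp (-(n : ℝ))) ^ ((1 : ℝ) / 4) ≤ 2 := by
      have h3 : Real.exp (-(n : ℝ)) ≤ 1 := Real.exp_le_one_iff.mpr (by linarith)
      calc (1 + Real.exp (-(n : ℝ))) ^ ((1 : ℝ) / 4) ≤ (1 + Real.exp (-(n : ℝ))) ^ (1 : ℝ) :=
            Real.rpow_le_rpow_of_exponent_le (by linarith [Real.exp_pos (-(n : ℝ))]) (by norm_num)
        _ ≤ 2 := by rw [Real.rpow_one]; linarith
    calc (1 + Real.exp n) ^ (δ - 2) * (1 + Real.exp (-(n : ℝ))) ^ ((1 : ℝ) / 4) *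
          Real.exp (n / 2)
        ≤ (Real.exp n) ^ (δ - 2) * 2 * Real.exp (n / 2) := by gcongr
      _ = 2 * Real.exp (n * (δ - 2) + n / 2) := by
          rw [← Real.exp_mul, Real.exp_add]; ring
      _ ≤ 2 * Real.exp (-(n / 4)) := by
          gcongr
          nlinarith
  · refine Summable.of_nonneg_of_le (fun n => by
      have := hnn (-((n : ℕ) : ℝ)); push_cast; positivity) (fun n => ?_) hg
    push_cast
    rw [hE, neg_neg]
    have hn0 : (0 : ℝ) ≤ n := Nat.cast_nonneg n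
    have h1 : (1 + Real.exp (-n)) ^ (δ - 2) ≤ 1 :=
      Real.rpow_le_one_of_one_le_of_nonpos (by linarith [Real.exp_pos (-(n : ℝ))]) (by linarith)
    have h2 : (1 + Real.exp (n : ℝ)) ^ ((1 : ℝ) / 4) ≤ 2 * Real.exp (n / 4) := by
      have h3 : 1 ≤ Real.exp (n : ℝ) := Real.one_le_exp hn0
      calc (1 + Real.exp (n : ℝ)) ^ ((1 : ℝ) / 4) ≤ (2 * Real.exp (n : ℝ)) ^ ((1 : ℝ) / 4) :=
            Real.rpow_le_rpow (by positivity) (by linarith) (by norm_num)
        _ = 2 ^ ((1 : ℝ) / 4) * Real.exp (n / 4) := by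
            rw [Real.mul_rpow (by norm_num) (by positivity), ← Real.exp_mul]
            congr 2; ring
        _ ≤ 2 ^ (1 : ℝ) * Real.exp (n / 4) := by
            gcongr
            · norm_num
            · norm_num
        _ = _ := by rw [Real.rpow_one]
    calc (1 + Real.exp (-n)) ^ (δ - 2) * (1 + Real.exp (n : ℝ)) ^ ((1 : ℝ) / 4) *
          Real.exp (-n / 2)
        ≤ 1 * (2 * Real.exp (n / 4)) * Real.exp (-n / 2) := by gcongr
      _ = 2 * Real.exp (-(n / 4)) := by
          rw [one_mul, mul_assoc, ← Real.exp_add]; congr 2; ring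

lemma integrable_dyadic {δ : ℝ} (hδ1 : δ ≤ 1 / 2) :
    Integrable (fun t : ℝ => (1 + |t|) ^ (δ - 2)) := by
  have := integrable_one_add_norm (E := ℝ) (μ := volume) (r := 2 - δ) (by simp; linarith)
  refine this.congr (Eventually.of_forall fun t => ?_)
  simp only [Real.norm_eq_abs]
  congr 1; ring

/-- total constant. -/
def CG (δ : ℝ) : ℝ := exists_ker_bound.choose *
  (∑' j : ℤ, (1 + Real.exp j) ^ δ * env j * Real.exp (j / 2)) * ∫ t : ℝ, (1 + |t|) ^ (δ - 2)

lemma CG_nonneg (δ : ℝ) : 0 ≤ CG δ := by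
  unfold CG
  have := exists_ker_bound.choose_spec.1
  have h2 : 0 ≤ ∑' j : ℤ, (1 + Real.exp j) ^ δ * env j * Real.exp (j / 2) :=
    tsum_nonneg fun j => by have := env_pos (j : ℝ); positivity
  have h3 : 0 ≤ ∫ t : ℝ, (1 + |t|) ^ (δ - 2) := integral_nonneg fun t => by positivity
  positivity

/-- **Abstract general weight theorem.** -/
theorem gen_bound {α₁ α₂ : Type*} [MeasurableSpace α₁] [MeasurableSpace α₂]
    {μ₁ : Measure α₁} {μ₂ : Measure α₂} [SFinite μ₁] [SFinite μ₂]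
    {E : Type*} [NormedAddCommGroup E] [NormedSpace ℂ E] [CompleteSpace E]
    {ν₁ : α₁ → ℝ} {ν₂ : α₂ → ℝ} {c₁ : α₁ → E} {c₂ : α₂ → E}
    (h₁ : Good μ₁ ν₁ c₁) (h₂ : Good μ₂ ν₂ c₂) {δ : ℝ} (hδ : 0 < δ) (hδ1 : δ ≤ 1 / 2)
    {K A : ℝ} (hK : 0 ≤ K) (hA : 1 ≤ A)
    (hyp : ∀ τ x : ℝ, ‖SG μ₁ ν₁ c₁ (fun u => (bb u : ℂ)) τ x -
        SG μ₂ ν₂ c₂ (fun u => (bb u : ℂ)) τ x‖ ≤
      K * ((1 + |τ|) * (1 + Real.exp x)) ^ δ * (A + |τ|) * Real.exp (x / 2))
    {w : ℝ → ℂ} {M : ℝ} (hw : LogW w M) (τ x : ℝ) :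
    ‖SG μ₁ ν₁ c₁ w τ x - SG μ₂ ν₂ c₂ w τ x‖ ≤
      CG δ * K * M * ((1 + |τ|) * (1 + Real.exp x)) ^ δ * (A + |τ|) * Real.exp (x / 2) := by
  have hM := hw.M_nonneg
  have hC := exists_ker_bound.choose_spec.1
  have hCb := exists_ker_bound.choose_spec.2
  set C := exists_ker_bound.choose with hCdef
  have s1 := hasSum_SG h₁ hw.continuous hw.bound τ x
  have s2 := hasSum_SG h₂ hw.continuous hw.bound τ x
  have s3 := s1.sub s2
  set Q : ℝ := C * M * K * ((1 + |τ|) * (1 + Real.exp x)) ^ δ * (A + |τ|) * Real.exp (x / 2) *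
    ∫ t : ℝ, (1 + |t|) ^ (δ - 2) with hQ
  have s4 := (summable_dyadic hδ hδ1).hasSum.mul_left Q
  have s5 := HasSum.norm_le_of_bounded s3 s4 ?_
  · refine s5.trans (le_of_eq ?_)
    rw [hQ, CG, ← hCdef]; ring
  intro j
  rw [SG_cell h₁ hw, SG_cell h₂ hw, ← integral_sub (SG_cell_integrable h₁ hw τ x j)
    (SG_cell_integrable h₂ hw τ x j)]
  have hb : ∀ t : ℝ, ‖(ker (gj w j) t * osc t (-(x + j))) •
        SG μ₁ ν₁ c₁ (fun u => (bb u : ℂ)) (τ + t) (x + j) -
      (ker (gj w j) t * osc t (-(x + j))) •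
        SG μ₂ ν₂ c₂ (fun u => (bb u : ℂ)) (τ + t) (x + j)‖ ≤
      (C * M * K * ((1 + |τ|) * (1 + Real.exp x)) ^ δ * (A + |τ|) * Real.exp (x / 2) *
        ((1 + Real.exp j) ^ δ * env j * Real.exp (j / 2))) * (1 + |t|) ^ (δ - 2) := by
    intro t
    rw [← smul_sub, norm_smul, norm_mul, norm_osc, mul_one]
    have ht0 : (0 : ℝ) < 1 + |t| := by positivity
    have hj0 : (0 : ℝ) < 1 + Real.exp j := by positivity
    have hp := hyp (τ + t) (x + j)
    have hk := hCb w M hw j t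
    have a1 : 1 + |τ + t| ≤ (1 + |τ|) * (1 + |t|) := by
      have := abs_add_le τ t
      nlinarith [abs_nonneg τ, abs_nonneg t, mul_nonneg (abs_nonneg τ) (abs_nonneg t)]
    have a2 : 1 + Real.exp (x + j) ≤ (1 + Real.exp x) * (1 + Real.exp j) := by
      rw [Real.exp_add]
      nlinarith [Real.exp_pos x, Real.exp_pos (j : ℝ),
        mul_pos (Real.exp_pos x) (Real.exp_pos (j : ℝ))]
    have a3 : A + |τ + t| ≤ (A + |τ|) * (1 + |t|) := by
      have := abs_add_le τ t
      nlinarith [abs_nonneg τ, abs_nonneg t, mul_nonneg (abs_nonneg τ) (abs_nonneg t)]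
    have a4 : Real.exp ((x + j) / 2) = Real.exp (x / 2) * Real.exp (j / 2) := by
      rw [← Real.exp_add]; congr 1; ring
    have a5 : ((1 + |τ + t|) * (1 + Real.exp (x + j))) ^ δ ≤
        ((1 + |τ|) * (1 + Real.exp x)) ^ δ * ((1 + |t|) ^ δ * (1 + Real.exp j) ^ δ) := by
      rw [← Real.mul_rpow ht0.le hj0.le, ← Real.mul_rpow (by positivity) (by positivity)]
      apply Real.rpow_le_rpow (by positivity) _ hδ.le
      calc (1 + |τ + t|) * (1 + Real.exp (x + j))
          ≤ ((1 + |τ|) * (1 + |t|)) * ((1 + Real.exp x) * (1 + Real.exp j)) := by gcongr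
        _ = _ := by ring
    have a6 : ‖SG μ₁ ν₁ c₁ (fun u => (bb u : ℂ)) (τ + t) (x + j) -
        SG μ₂ ν₂ c₂ (fun u => (bb u : ℂ)) (τ + t) (x + j)‖ ≤
        K * (((1 + |τ|) * (1 + Real.exp x)) ^ δ * ((1 + |t|) ^ δ * (1 + Real.exp j) ^ δ)) *
          ((A + |τ|) * (1 + |t|)) * (Real.exp (x / 2) * Real.exp (j / 2)) := by
      rw [← a4]
      refine hp.trans ?_
      gcongr
    have b1 : (1 + |t|) ^ (δ - 2) = (1 + |t|) ^ δ * (1 + |t|) / (1 + |t|) ^ 3 := by
      have : (δ - 2) = δ + 1 - 3 := by ring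
      rw [this, Real.rpow_sub ht0, Real.rpow_add ht0, Real.rpow_one]
      congr 1
      have : ((3 : ℝ)) = ((3 : ℕ) : ℝ) := by norm_num
      rw [this, Real.rpow_natCast]
    have henv := env_pos (j : ℝ)
    calc ‖ker (gj w j) t‖ * _ ≤ (C * M * env j / (1 + |t|) ^ 3) *
          (K * (((1 + |τ|) * (1 + Real.exp x)) ^ δ * ((1 + |t|) ^ δ * (1 + Real.exp j) ^ δ)) *
          ((A + |τ|) * (1 + |t|)) * (Real.exp (x / 2) * Real.exp (j / 2))) :=
          mul_le_mul hk a6 (norm_nonneg _) (by positivity)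
      _ = _ := by rw [b1]; ring
  refine (norm_integral_le_of_norm_le ((integrable_dyadic hδ1).const_mul _)
    (Eventually.of_forall hb)).trans (le_of_eq ?_)
  rw [integral_const_mul, hQ]; ring

end Crest.Agent.R012.MSgen49
end
end

-- ▼ part R012/MSgenC_49
section

/-!
# Row 12, part (M): general weights for arithmetic sums (helper49)

`arith_gen`: for a finite family of coefficient functions `cf h d` (`h ∈ s`), a mean square
asymptotic formula for the ONE weight `v0` (uniform in `X > 0`, `τ`) implies the same for all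
weights `W` with `LogW (fun u => W (exp u)) M`.
-/

set_option autoImplicit false

noncomputable section

open MeasureTheory Complex Set Filter Topology
open Crest.Agent.R012.Weight600 Crest.Agent.R012.Eis

namespace Crest.Agent.R012.MSgen49

/-! ### Mellin transform in the logarithmic variable -/

lemma ofReal_exp_cpow (u : ℝ) (z : ℂ) : ((Real.exp u : ℝ) : ℂ) ^ z = cexp (z * u) := by
  rw [Complex.cpow_def_of_ne_zero (by exact_mod_cast (Real.exp_pos u).ne'),
    ← Complex.ofReal_log (Real.exp_pos u).le, Real.log_exp, mul_comm]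

lemma mellin_eq_log (f : ℝ → ℂ) (s : ℂ) :
    mellin f s = ∫ v : ℝ, f (Real.exp v) * cexp (s * v) := by
  rw [mellin]
  have himg : Real.exp '' univ = Ioi 0 := by rw [image_univ, Real.range_exp]
  rw [← himg, integral_image_eq_integral_abs_deriv_smul MeasurableSet.univ
    (fun x _ => (Real.hasDerivAt_exp x).hasDerivWithinAt) Real.exp_injective.injOn,
    Measure.restrict_univ]
  refine integral_congr_ae (Eventually.of_forall fun u => ?_)
  simp only
  rw [ofReal_exp_cpow, abs_of_pos (Real.exp_pos u), Complex.real_smul, smul_eq_mul,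
    Complex.ofReal_exp, ← mul_assoc, ← Complex.exp_add, mul_comm]
  congr 2
  ring

/-- the fixed weight. -/
def v0 (x : ℝ) : ℂ := if 0 < x then (bb (Real.log x) : ℂ) else 0

lemma v0_exp (u : ℝ) : v0 (Real.exp u) = bb u := by
  unfold v0; rw [if_pos (Real.exp_pos u), Real.log_exp]

lemma v0_wt : M49.Wt v0 := by
  refine ⟨?_, Real.exp (-1), Real.exp 2, Real.exp_pos _, Real.exp_lt_exp.mpr (by norm_num), ?_⟩
  · rw [contDiff_iff_contDiffAt]
    intro x
    rcases lt_or_ge x (Real.exp (-1)) with h | h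
    · have : v0 =ᶠ[𝓝 x] fun _ => 0 := by
        filter_upwards [isOpen_Iio.mem_nhds h] with y hy
        unfold v0
        split_ifs with h0
        · rw [bb_of_le]
          · simp
          · rw [← Real.log_exp (-1)]
            exact Real.log_le_log h0 (le_of_lt hy)
        · rfl
      exact contDiffAt_const.congr_of_eventuallyEq this
    · have hx : 0 < x := (Real.exp_pos _).trans_le h
      have : v0 =ᶠ[𝓝 x] fun y => (bb (Real.log y) : ℂ) := by
        filter_upwards [isOpen_Ioi.mem_nhds hx] with y hy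
        unfold v0
        rw [if_pos (show (0 : ℝ) < y from hy)]
      refine ContDiffAt.congr_of_eventuallyEq ?_ this
      have h1 : ContDiffAt ℝ ((⊤ : ℕ∞) : WithTop ℕ∞) (fun y => bb (Real.log y)) x :=
        (contDiff_bb.contDiffAt).comp x (Real.contDiffAt_log.mpr hx.ne')
      exact (Complex.ofRealCLM.contDiff.contDiffAt).comp x h1
  · intro x hx
    unfold v0
    split_ifs with h0
    · rcases hx with hx | hx
      · rw [bb_of_le]
        · simp
        · rw [← Real.log_exp (-1)]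
          exact Real.log_le_log h0 hx.le
      · rw [bb_of_ge]
        · simp
        · rw [← Real.log_exp 2]
          exact Real.log_le_log (Real.exp_pos _) hx.le
    · rfl

/-! ### The arithmetic sums -/

open Classical in
/-- `Σ_{d primary} cf(h,d) W(N d/X) (N d)^{iτ}`. -/
def Sar (cf : Eis → Eis → ℂ) (W : ℝ → ℂ) (τ X : ℝ) (h : Eis) : ℂ :=
  ∑' d : Eis, (if IsPrim d then cf h d * W (nm d / X) * (nm d : ℂ) ^ ((τ : ℂ) * I) else 0)

open Classical in
/-- vector of coefficients. -/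
def cvec (s : Finset Eis) (cf : Eis → Eis → ℂ) (d : Eis) : EuclideanSpace ℂ s :=
  WithLp.toLp 2 (fun h : s => if IsPrim d then cf h d else 0)

lemma norm_cvec_le {s : Finset Eis} {cf : Eis → Eis → ℂ} {B : ℝ} (hB : 0 ≤ B)
    (hcf : ∀ h ∈ s, ∀ d, IsPrim d → ‖cf h d‖ ≤ B * Real.sqrt (nm d)) (d : Eis) :
    ‖cvec s cf d‖ ≤ Real.sqrt s.card * (B * Real.sqrt (nm d)) := by
  have h1 : ‖cvec s cf d‖ ^ 2 ≤ (Real.sqrt s.card * (B * Real.sqrt (nm d))) ^ 2 := by
    rw [EuclideanSpace.norm_sq_eq, mul_pow, Real.sq_sqrt (by positivity)]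
    calc ∑ i : s, ‖(cvec s cf d) i‖ ^ 2 ≤ ∑ i : s, (B * Real.sqrt (nm d)) ^ 2 := by
          apply Finset.sum_le_sum
          intro i _
          apply pow_le_pow_left₀ (norm_nonneg _)
          simp only [cvec]
          split_ifs with hd
          · exact hcf i i.2 d hd
          · simp; positivity
      _ = _ := by simp
  exact (sq_le_sq₀ (norm_nonneg _) (by positivity)).mp h1

lemma summable_nm_32 : Summable (fun d : Eis => if d = 0 then (0 : ℝ) else
    1 / ((nm d : ℝ) * Real.sqrt (nm d))) := by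
  have hf : Summable (fun n : ℕ => 1 / ((n : ℝ) ^ ((3 : ℝ) / 2))) :=
    Real.summable_one_div_nat_rpow.mpr (by norm_num)
  have e : ∀ n : ℕ, 1 / ((n : ℝ) * Real.sqrt n) = 1 / ((n : ℝ) ^ ((3 : ℝ) / 2)) := by
    intro n
    rcases Nat.eq_zero_or_pos n with h | h
    · simp [h]
    · have hn : (0 : ℝ) < n := by exact_mod_cast h
      rw [Real.sqrt_eq_rpow]
      congr 1
      nth_rewrite 1 [← Real.rpow_one (n : ℝ)]
      rw [← Real.rpow_add hn]; norm_num
  refine summable_of_sum_le (c := 100 * ∑' n : ℕ, 1 / ((n : ℝ) ^ ((3 : ℝ) / 2)))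
    (fun d => by dsimp only; split_ifs <;> positivity) (fun u => ?_)
  set Xm : ℕ := u.sup nm with hX
  have h1 : ∑ d ∈ u, (if d = 0 then (0 : ℝ) else 1 / ((nm d : ℝ) * Real.sqrt (nm d))) ≤
      ∑ d ∈ Div277.nz Xm, (fun n : ℕ => 1 / ((n : ℝ) ^ ((3 : ℝ) / 2))) (nm d) := by
    rw [← Finset.sum_filter_add_sum_filter_not u (fun d => d = 0)]
    have h2 : ∑ d ∈ u with d = 0, (if d = 0 then (0 : ℝ) else
        1 / ((nm d : ℝ) * Real.sqrt (nm d))) = 0 := by
      apply Finset.sum_eq_zero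
      intro d hd
      rw [if_pos (Finset.mem_filter.mp hd).2]
    rw [h2, zero_add]
    calc ∑ d ∈ u with ¬ d = 0, (if d = 0 then (0 : ℝ) else
        1 / ((nm d : ℝ) * Real.sqrt (nm d))) =
        ∑ d ∈ u with ¬ d = 0, 1 / ((nm d : ℝ) ^ ((3 : ℝ) / 2)) := by
          apply Finset.sum_congr rfl
          intro d hd
          rw [if_neg (Finset.mem_filter.mp hd).2, e]
      _ ≤ _ := by
          apply Finset.sum_le_sum_of_subset_of_nonneg
          · intro d hd
            rw [Div277.mem_nz]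
            have := Finset.mem_filter.mp hd
            exact ⟨this.2, Finset.le_sup this.1⟩
          · intro d _ _; positivity
  refine h1.trans ?_
  refine (Div277.sum_antitone_le (fun n : ℕ => 1 / ((n : ℝ) ^ ((3 : ℝ) / 2))) ?_ ?_ Xm).trans ?_
  · intro m hm
    have hm' : (0 : ℝ) < m := by exact_mod_cast hm
    apply one_div_le_one_div_of_le (by positivity)
    apply Real.rpow_le_rpow hm'.le _ (by norm_num)
    push_cast; linarith
  · intro m; positivity
  · gcongr
    exact hf.sum_le_tsum _ (fun n _ => by positivity)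

local instance instMSEis : MeasurableSpace Eis := ⊤
local instance instDMEis : DiscreteMeasurableSpace Eis := ⟨fun _ => trivial⟩

lemma good_arith {s : Finset Eis} {cf : Eis → Eis → ℂ} {B : ℝ} (hB : 0 ≤ B)
    (hcf : ∀ h ∈ s, ∀ d, IsPrim d → ‖cf h d‖ ≤ B * Real.sqrt (nm d)) :
    Good (Measure.count : Measure Eis) (fun d => Real.log (nm d)) (cvec s cf) := by
  refine ⟨measurable_from_top, ?_, ?_⟩
  · exact (measurable_from_top : Measurable (cvec s cf)).aestronglyMeasurable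
  · intro x
    rw [integrable_count_iff]
    refine Summable.of_nonneg_of_le (fun d => norm_nonneg _) (fun d => ?_)
      (summable_nm_32.mul_left (Real.sqrt s.card * B * Real.exp (2 * x) *
        (1 + Real.exp x) ^ ((1 : ℝ) / 4)))
    have henv := env_pos (Real.log (nm d) - x)
    rw [Real.norm_of_nonneg (by positivity)]
    by_cases hd : d = 0
    · have : cvec s cf d = 0 := by
        rw [hd]
        ext h
        simp [cvec, Lat277.isPrim_zero_false]
      rw [this]; simp [hd]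
    · rw [if_neg hd]
      have hn : nm d ≠ 0 := fun h => hd (nm_eq_zero.mp h)
      have hn' : (0 : ℝ) < nm d := by positivity
      have hn1 : (1 : ℝ) ≤ nm d := by
        exact_mod_cast Nat.one_le_iff_ne_zero.mpr hn
      unfold env
      have h0 : Real.exp (-(Real.log (nm d) - x)) ≤ Real.exp x := by
        apply Real.exp_le_exp.mpr
        have := Real.log_nonneg hn1
        linarith
      have h00 : (1 + Real.exp (-(Real.log (nm d) - x))) ^ ((1 : ℝ) / 4) ≤
          (1 + Real.exp x) ^ ((1 : ℝ) / 4) :=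
        Real.rpow_le_rpow (by positivity) (by linarith) (by norm_num)
      rw [Real.exp_sub, Real.exp_log hn']
      have h1 : (nm d : ℝ) ^ 2 / Real.exp (2 * x) ≤ (1 + (nm d : ℝ) / Real.exp x) ^ 2 := by
        have : Real.exp (2 * x) = Real.exp x ^ 2 := by rw [← Real.exp_nat_mul]; norm_num
        rw [this, ← div_pow]
        apply pow_le_pow_left₀ (by positivity)
        linarith
      calc ‖cvec s cf d‖ * ((1 + Real.exp (-(Real.log (nm d) - x))) ^ ((1 : ℝ) / 4) /
            (1 + (nm d : ℝ) / Real.exp x) ^ 2)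
          = ‖cvec s cf d‖ * (1 + Real.exp (-(Real.log (nm d) - x))) ^ ((1 : ℝ) / 4) /
            (1 + (nm d : ℝ) / Real.exp x) ^ 2 := by ring
        _ ≤ (Real.sqrt s.card * (B * Real.sqrt (nm d))) * (1 + Real.exp x) ^ ((1 : ℝ) / 4) /
              ((nm d : ℝ) ^ 2 / Real.exp (2 * x)) := by
            apply div_le_div₀ (by positivity) _ (by positivity) h1
            exact mul_le_mul (norm_cvec_le hB hcf d) h00 (by positivity) (by positivity)
        _ = _ := by
            have hs : Real.sqrt (nm d) ≠ 0 := (Real.sqrt_pos.mpr hn').ne'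
            have he := (Real.exp_pos (2 * x)).ne'
            field_simp
            rw [Real.sq_sqrt hn'.le]

lemma summable_arith {s : Finset Eis} {cf : Eis → Eis → ℂ} {B : ℝ} (hB : 0 ≤ B)
    (hcf : ∀ h ∈ s, ∀ d, IsPrim d → ‖cf h d‖ ≤ B * Real.sqrt (nm d)) {w : ℝ → ℂ} {M : ℝ}
    (hw : Continuous w) (hb : ∀ u, ‖w u‖ ≤ M * env u) (τ x : ℝ) :
    Summable (fun d : Eis => (w (Real.log (nm d) - x) * osc τ (Real.log (nm d))) • cvec s cf d) := by
  have h1 := (good_arith hB hcf).integrable hw hb τ x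
  rw [integrable_count_iff] at h1
  exact Summable.of_norm h1

lemma SG_arith {s : Finset Eis} {cf : Eis → Eis → ℂ} {B : ℝ} (hB : 0 ≤ B)
    (hcf : ∀ h ∈ s, ∀ d, IsPrim d → ‖cf h d‖ ≤ B * Real.sqrt (nm d)) {W : ℝ → ℂ} {M : ℝ}
    (hw : Continuous (fun u => W (Real.exp u)))
    (hb : ∀ u, ‖W (Real.exp u)‖ ≤ M * env u) (τ : ℝ) {X : ℝ}
    (hX : 0 < X) (h : s) :
    (SG Measure.count (fun d : Eis => Real.log (nm d)) (cvec s cf)
      (fun u => W (Real.exp u)) τ (Real.log X)) h = Sar cf W τ X h := by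
  unfold SG
  rw [integral_countable ((good_arith hB hcf).integrable hw hb τ _)]
  have hs := summable_arith hB hcf hw hb τ (Real.log X)
  simp only [Measure.real, Measure.count_singleton, ENNReal.toReal_one, one_smul]
  have := (EuclideanSpace.proj h : EuclideanSpace ℂ s →L[ℂ] ℂ).map_tsum hs
  rw [show (∑' d : Eis, (W (Real.exp (Real.log (nm d) - Real.log X)) * osc τ (Real.log (nm d))) •
    cvec s cf d) h = _ from this]
  unfold Sar
  congr 1
  ext d
  change ((W (Real.exp (Real.log (nm d) - Real.log X)) * osc τ (Real.log (nm d))) •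
    cvec s cf d) h = _
  simp only [PiLp.smul_apply, cvec, smul_eq_mul]
  split_ifs with hd
  · have hn : nm d ≠ 0 := fun h0 => hd.ne_zero (nm_eq_zero.mp h0)
    have hn' : (0 : ℝ) < nm d := by positivity
    rw [← Real.log_div hn'.ne' hX.ne', Real.exp_log (by positivity)]
    have h2 := pw_eq_cpow hn' τ
    unfold pw at h2
    rw [h2]
    push_cast
    ring
  · simp

/-! ### The main term -/

lemma integrable_of_integrable_of_le_on {f g : ℝ → ℝ} (hf : Continuous f)
    (hg : IntegrableOn g (Ioi 0)) (h : ∀ u ∈ Ioi (0 : ℝ), ‖f u‖ ≤ g u) :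
    IntegrableOn f (Ioi 0) := by
  refine Integrable.mono' hg hf.aestronglyMeasurable ?_
  rw [ae_restrict_iff' measurableSet_Ioi]
  exact Eventually.of_forall h

lemma integrable_main (x : ℝ) : Integrable (fun u : ℝ =>
    Real.exp (5 / 6 * u) * env (u - x)) := by
  have hpos : ∀ u : ℝ, 0 < (1 + Real.exp (u - x)) ^ 2 := fun u => by positivity
  have hc : Continuous (fun u : ℝ => Real.exp (5 / 6 * u) * env (u - x)) := by
    unfold env
    refine Continuous.mul (by fun_prop) (Continuous.div ?_ (by fun_prop)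
      (fun u => (hpos u).ne'))
    refine Continuous.rpow_const (by fun_prop) (fun u => Or.inl ?_)
    positivity
  rw [← integrableOn_univ, ← Iic_union_Ioi (a := (0 : ℝ))]
  refine IntegrableOn.union ?_ ?_
  · have h1 : IntegrableOn (fun u : ℝ => Real.exp (5 / 6 * u)) (Iic 0) :=
      integrableOn_exp_mul_Iic (by norm_num) 0
    have h2 : IntegrableOn (fun u : ℝ => Real.exp (x / 4) * Real.exp (7 / 12 * u)) (Iic 0) :=
      (integrableOn_exp_mul_Iic (by norm_num) 0).const_mul _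
    refine (h1.add h2).mono' hc.aestronglyMeasurable (Eventually.of_forall fun u => ?_)
    have henv := env_pos (u - x)
    rw [Real.norm_of_nonneg (by positivity)]
    have h3 : (1 + Real.exp (-(u - x))) ^ ((1 : ℝ) / 4) ≤ 1 + Real.exp ((x - u) / 4) := by
      have := Real.add_rpow_le_rpow_add (p := 4) (a := 1) (b := Real.exp ((x - u) / 4))
        (by norm_num) (by positivity) (by norm_num)
      have h4 : Real.exp ((x - u) / 4) ^ (4 : ℝ) = Real.exp (-(u - x)) := by
        rw [← Real.exp_mul]; congr 1; ring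
      rw [Real.one_rpow, h4] at this
      calc (1 + Real.exp (-(u - x))) ^ ((1 : ℝ) / 4)
          ≤ ((1 + Real.exp ((x - u) / 4)) ^ (4 : ℝ)) ^ ((1 : ℝ) / 4) :=
            Real.rpow_le_rpow (by positivity) this (by norm_num)
        _ = _ := by
            rw [← Real.rpow_mul (by positivity)]; norm_num
    have h5 : env (u - x) ≤ 1 + Real.exp ((x - u) / 4) := by
      unfold env
      refine (div_le_self (by positivity) ?_).trans h3
      have := Real.exp_pos (u - x)
      nlinarith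
    calc Real.exp (5 / 6 * u) * env (u - x)
        ≤ Real.exp (5 / 6 * u) * (1 + Real.exp ((x - u) / 4)) := by gcongr
      _ = Real.exp (5 / 6 * u) + Real.exp (5 / 6 * u) * Real.exp ((x - u) / 4) := by ring
      _ = _ := by
          rw [← Real.exp_add]
          simp only [Pi.add_apply]
          rw [← Real.exp_add]
          congr 2; ring
  · have h1 : IntegrableOn (fun u : ℝ => ((1 + Real.exp x) ^ ((1 : ℝ) / 4) * Real.exp (2 * x)) *
        Real.exp (-(7 / 6) * u)) (Ioi 0) :=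
      (integrableOn_exp_mul_Ioi (by norm_num) 0).const_mul _
    refine (integrable_of_integrable_of_le_on hc h1 ?_)
    intro u hu
    have henv := env_pos (u - x)
    have h0 : (1 + Real.exp (-(u - x))) ^ ((1 : ℝ) / 4) ≤ (1 + Real.exp x) ^ ((1 : ℝ) / 4) := by
      apply Real.rpow_le_rpow (by positivity) _ (by norm_num)
      have : Real.exp (-(u - x)) ≤ Real.exp x := Real.exp_le_exp.mpr (by
        have : (0 : ℝ) < u := hu
        linarith)
      linarith
    have h2 : Real.exp (u - x) ^ 2 ≤ (1 + Real.exp (u - x)) ^ 2 := by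
      apply pow_le_pow_left₀ (Real.exp_pos _).le
      linarith
    rw [Real.norm_of_nonneg (by positivity)]
    unfold env
    rw [mul_div_assoc', div_le_iff₀ (hpos u)]
    calc Real.exp (5 / 6 * u) * (1 + Real.exp (-(u - x))) ^ ((1 : ℝ) / 4)
        ≤ Real.exp (5 / 6 * u) * (1 + Real.exp x) ^ ((1 : ℝ) / 4) := by gcongr
      _ = (1 + Real.exp x) ^ ((1 : ℝ) / 4) *
            (Real.exp (2 * x) * Real.exp (-(7 / 6) * u) * Real.exp (u - x) ^ 2) := by
          rw [← Real.exp_nat_mul, ← Real.exp_add, ← Real.exp_add, mul_comm]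
          congr 2; push_cast; ring
      _ ≤ (1 + Real.exp x) ^ ((1 : ℝ) / 4) *
            (Real.exp (2 * x) * Real.exp (-(7 / 6) * u) * (1 + Real.exp (u - x)) ^ 2) := by
          gcongr
      _ = _ := by ring

lemma good_main {E : Type*} [NormedAddCommGroup E] [NormedSpace ℂ E] (m : E) :
    Good (volume : Measure ℝ) (fun u => u) (fun u : ℝ => cexp ((5 / 6 : ℂ) * u) • m) := by
  refine ⟨measurable_id, ?_, ?_⟩
  · have : Continuous (fun u : ℝ => cexp ((5 / 6 : ℂ) * u) • m) := by fun_prop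
    exact this.aestronglyMeasurable
  · intro x
    refine ((integrable_main x).const_mul ‖m‖).congr (Eventually.of_forall fun u => ?_)
    simp only [norm_smul, Complex.norm_exp]
    have : ((5 / 6 : ℂ) * u).re = 5 / 6 * u := by simp
    rw [this]; ring

lemma SG_main {E : Type*} [NormedAddCommGroup E] [NormedSpace ℂ E] [CompleteSpace E] (m : E)
    (W : ℝ → ℂ) (τ : ℝ) {X : ℝ} (hX : 0 < X) :
    SG volume (fun u : ℝ => u) (fun u : ℝ => cexp ((5 / 6 : ℂ) * u) • m)
      (fun u => W (Real.exp u)) τ (Real.log X) =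
      (mellin W ((5 : ℂ) / 6 + τ * I) * (X : ℂ) ^ ((5 : ℂ) / 6 + τ * I)) • m := by
  unfold SG
  rw [mellin_eq_log]
  have hX' : (X : ℂ) ^ ((5 : ℂ) / 6 + τ * I) = cexp (((5 : ℂ) / 6 + τ * I) * Real.log X) := by
    rw [← ofReal_exp_cpow, Real.exp_log hX]
  rw [hX', ← integral_mul_const, ← integral_smul_const]
  rw [← integral_sub_right_eq_self (fun v : ℝ => (W (Real.exp v) *
    cexp (((5 : ℂ) / 6 + τ * I) * v) * cexp (((5 : ℂ) / 6 + τ * I) * Real.log X)) • m)
    (Real.log X)]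
  refine integral_congr_ae (Eventually.of_forall fun u => ?_)
  simp only
  rw [smul_smul]
  congr 1
  rw [mul_assoc, mul_assoc]
  congr 1
  unfold osc
  rw [← Complex.exp_add, ← Complex.exp_add]
  congr 1
  push_cast
  ring

/-! ### Arithmetic general weight theorem -/

/-- **General weights, mean square version.** -/
theorem arith_gen {s : Finset Eis} {cf : Eis → Eis → ℂ} {m : Eis → ℂ} {B : ℝ} (hB : 0 ≤ B)
    (hcf : ∀ h ∈ s, ∀ d, IsPrim d → ‖cf h d‖ ≤ B * Real.sqrt (nm d))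
    {N : ℕ} (hN : 1 ≤ N) {δ : ℝ} (hδ : 0 < δ) (hδ1 : δ ≤ 1) {K : ℝ} (hK : 0 ≤ K)
    (hyp : ∀ X τ : ℝ, 0 < X → ∑ h ∈ s, ‖Sar cf v0 τ X h -
        m h * mellin v0 ((5 : ℂ) / 6 + τ * I) * (X : ℂ) ^ ((5 : ℂ) / 6 + τ * I)‖ ^ 2 ≤
      K * ((1 + |τ|) * (1 + X)) ^ δ * ((N + τ ^ 2) * X))
    {W : ℝ → ℂ} {M : ℝ} (hW : LogW (fun u => W (Real.exp u)) M) (X τ : ℝ) (hX : 0 < X) :
    ∑ h ∈ s, ‖Sar cf W τ X h -
        m h * mellin W ((5 : ℂ) / 6 + τ * I) * (X : ℂ) ^ ((5 : ℂ) / 6 + τ * I)‖ ^ 2 ≤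
      2 * CG (δ / 2) ^ 2 * M ^ 2 * K * ((1 + |τ|) * (1 + X)) ^ δ * ((N + τ ^ 2) * X) := by
  have hM := hW.M_nonneg
  have hN' : (1 : ℝ) ≤ N := by exact_mod_cast hN
  set mv : EuclideanSpace ℂ s := WithLp.toLp 2 (fun h : s => m h) with hmv
  have g1 := good_arith hB hcf
  have g2 := good_main mv
  -- the identity of norms
  have key : ∀ (V : ℝ → ℂ) (M' : ℝ), Continuous (fun u => V (Real.exp u)) →
      (∀ u, ‖V (Real.exp u)‖ ≤ M' * env u) → ∀ (Y σ : ℝ), 0 < Y →
      ∑ h ∈ s, ‖Sar cf V σ Y h -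
        m h * mellin V ((5 : ℂ) / 6 + σ * I) * (Y : ℂ) ^ ((5 : ℂ) / 6 + σ * I)‖ ^ 2 =
      ‖SG Measure.count (fun d : Eis => Real.log (nm d)) (cvec s cf)
        (fun u => V (Real.exp u)) σ (Real.log Y) -
       SG volume (fun u : ℝ => u) (fun u : ℝ => cexp ((5 / 6 : ℂ) * u) • mv)
        (fun u => V (Real.exp u)) σ (Real.log Y)‖ ^ 2 := by
    intro V M' hV hVb Y σ hY
    rw [EuclideanSpace.norm_sq_eq, ← Finset.sum_coe_sort s]
    apply Finset.sum_congr rfl
    intro h _
    congr 2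
    rw [PiLp.sub_apply, SG_arith hB hcf hV hVb σ hY h, SG_main mv V σ hY]
    simp only [PiLp.smul_apply, hmv, smul_eq_mul]
    ring
  have hbbc : Continuous fun u => v0 (Real.exp u) := by
    simp_rw [v0_exp]
    exact Complex.continuous_ofReal.comp continuous_bb
  have hbbb : ∀ u, ‖v0 (Real.exp u)‖ ≤ (1 + Real.exp 2) ^ 2 * env u := by
    intro u; rw [v0_exp]; exact bb_env u
  have hfun : (fun u => v0 (Real.exp u)) = fun u : ℝ => (bb u : ℂ) := by
    ext u; exact v0_exp u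
  have hyp' : ∀ σ x : ℝ, ‖SG Measure.count (fun d : Eis => Real.log (nm d)) (cvec s cf)
        (fun u => (bb u : ℂ)) σ x -
       SG volume (fun u : ℝ => u) (fun u : ℝ => cexp ((5 / 6 : ℂ) * u) • mv)
        (fun u => (bb u : ℂ)) σ x‖ ≤
      Real.sqrt K * ((1 + |σ|) * (1 + Real.exp x)) ^ (δ / 2) * (Real.sqrt N + |σ|) *
        Real.exp (x / 2) := by
    intro σ x
    have h1 := hyp (Real.exp x) σ (Real.exp_pos x)
    rw [key v0 _ hbbc hbbb (Real.exp x) σ (Real.exp_pos x), Real.log_exp, hfun] at h1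
    refine (sq_le_sq₀ (norm_nonneg _) (by positivity)).mp ?_
    refine h1.trans ?_
    have e1 : (((1 + |σ|) * (1 + Real.exp x)) ^ (δ / 2)) ^ 2 =
        ((1 + |σ|) * (1 + Real.exp x)) ^ δ := by
      rw [← Real.rpow_natCast, ← Real.rpow_mul (by positivity)]
      congr 1; push_cast; ring
    have e2 : Real.exp (x / 2) ^ 2 = Real.exp x := by
      rw [← Real.exp_nat_mul]; congr 1; push_cast; ring
    rw [mul_pow, mul_pow, mul_pow, Real.sq_sqrt hK, e1, e2]
    have e3 : (N : ℝ) + σ ^ 2 ≤ (Real.sqrt N + |σ|) ^ 2 := by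
      have hs := Real.sq_sqrt (show (0 : ℝ) ≤ N by positivity)
      have : σ ^ 2 = |σ| ^ 2 := (sq_abs σ).symm
      rw [this]
      nlinarith [mul_nonneg (Real.sqrt_nonneg (N : ℝ)) (abs_nonneg σ)]
    calc K * ((1 + |σ|) * (1 + Real.exp x)) ^ δ * ((N + σ ^ 2) * Real.exp x)
        ≤ K * ((1 + |σ|) * (1 + Real.exp x)) ^ δ * ((Real.sqrt N + |σ|) ^ 2 * Real.exp x) := by
          gcongr
      _ = _ := by ring
  have hA : (1 : ℝ) ≤ Real.sqrt N := by
    rw [show (1 : ℝ) = Real.sqrt 1 by simp]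
    exact Real.sqrt_le_sqrt hN'
  have fin := gen_bound g1 g2 (half_pos hδ) (by linarith) (Real.sqrt_nonneg K) hA hyp' hW τ
    (Real.log X)
  rw [key W M hW.continuous hW.bound X τ hX]
  have hcg := CG_nonneg (δ / 2)
  refine (pow_le_pow_left₀ (norm_nonneg _) fin 2).trans ?_
  rw [Real.exp_log hX]
  have e1 : (((1 + |τ|) * (1 + X)) ^ (δ / 2)) ^ 2 =
      ((1 + |τ|) * (1 + X)) ^ δ := by
    rw [← Real.rpow_natCast, ← Real.rpow_mul (by positivity)]
    congr 1; push_cast; ring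
  have e2 : Real.exp (Real.log X / 2) ^ 2 = X := by
    rw [← Real.exp_nat_mul]
    have : ((2 : ℕ) : ℝ) * (Real.log X / 2) = Real.log X := by push_cast; ring
    rw [this, Real.exp_log hX]
  have e3 : (Real.sqrt N + |τ|) ^ 2 ≤ 2 * (N + τ ^ 2) := by
    have hs := Real.sq_sqrt (show (0 : ℝ) ≤ N by positivity)
    have : τ ^ 2 = |τ| ^ 2 := (sq_abs τ).symm
    rw [this]
    nlinarith [sq_nonneg (Real.sqrt (N : ℝ) - |τ|)]
  rw [mul_pow, mul_pow, mul_pow, mul_pow, mul_pow, Real.sq_sqrt hK, e1, e2]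
  calc CG (δ / 2) ^ 2 * K * M ^ 2 * ((1 + |τ|) * (1 + X)) ^ δ * (Real.sqrt N + |τ|) ^ 2 * X
      ≤ CG (δ / 2) ^ 2 * K * M ^ 2 * ((1 + |τ|) * (1 + X)) ^ δ * (2 * (N + τ ^ 2)) * X := by
        gcongr
    _ = _ := by ring

end Crest.Agent.R012.MSgen49
end
end

-- ▼ part R012/MSgenD_49

/-!
# Row 12, part (M): general weights in `MS` and `TypeI`; `MS1 → MS` (helper49)

* `MS_gen`, `TypeI_gen` : the mean square theorems for ALL weights `W` with
  `LogW (fun u => W (exp u)) M` (three derivatives in `u = log x` bounded by `M/(1+x)^2`),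
  constant `C * M^2` with `C` independent of `W`.
* `MS_of_MS1`.
* constructors of `LogW` : `LogW.of_wt`, `logW_exp` (`exp (-x)`), `LogW.mul_bdd`, `bddW_expinv`
  (`exp (-c/x)`, uniformly in `c`), `LogW.add`, `LogW.const_mul`, `LogW.mono`.
-/

set_option autoImplicit false

noncomputable section

open MeasureTheory Complex Set Filter Topology
open Crest.Agent.R012.Weight600 Crest.Agent.R012.Eis

namespace Crest.Agent.R012.MSgen49

/-! ### bounds of the coefficients -/

lemma norm_ang_le (l : ℤ) (d : Eis) (hd : d ≠ 0) : ‖ang l d‖ = 1 := by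
  unfold ang
  have h1 : ‖toC d‖ ≠ 0 := by simpa using hd
  rw [norm_zpow, norm_div, Complex.norm_real, norm_norm, div_self h1, one_zpow]

lemma norm_gs_le (r : Eis) {c : Eis} (hc : IsPrim c) : ‖gs r c‖ ≤ nm c := by
  rw [Gauss880.gs_eq_gsum]
  exact Gauss880.norm_gsum_le hc.ne_zero (Gauss880.isCh_sy Gauss880.syG hc) r

/-- coefficients of `SS`. -/
def cfS (l : ℤ) (h d : Eis) : ℂ := gs h d / ((Real.sqrt (nm d) : ℝ) : ℂ) * ang l d

/-- coefficients of `TT`. -/
def cfT (l : ℤ) (a b : Eis) : ℂ := G (a * b) * ang l b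

lemma norm_cfS_le (l : ℤ) (h : Eis) {d : Eis} (hd : IsPrim d) :
    ‖cfS l h d‖ ≤ 1 * Real.sqrt (nm d) := by
  unfold cfS
  have hn : nm d ≠ 0 := fun h0 => hd.ne_zero (nm_eq_zero.mp h0)
  have hn' : (0 : ℝ) < nm d := by positivity
  rw [norm_mul, norm_ang_le l d hd.ne_zero, mul_one, norm_div, Complex.norm_real,
    Real.norm_of_nonneg (Real.sqrt_nonneg _), one_mul, div_le_iff₀ (Real.sqrt_pos.mpr hn'),
    Real.mul_self_sqrt hn'.le]
  exact norm_gs_le h hd

lemma norm_cfT_le (l : ℤ) {a b : Eis} (ha : IsPrim a) (hb : IsPrim b) :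
    ‖cfT l a b‖ ≤ 1 * Real.sqrt (nm b) := by
  unfold cfT
  have hn : nm b ≠ 0 := fun h0 => hb.ne_zero (nm_eq_zero.mp h0)
  have hn' : (1 : ℝ) ≤ nm b := by
    exact_mod_cast Nat.one_le_iff_ne_zero.mpr hn
  rw [norm_mul, norm_ang_le l b hb.ne_zero, mul_one, one_mul]
  refine (Gauss880.norm_G_le Gauss880.syG (ha.mul hb)).trans ?_
  rw [show (1 : ℝ) = Real.sqrt 1 by simp]
  exact Real.sqrt_le_sqrt hn'

lemma SS_eq_Sar (l : ℤ) (τ : ℝ) (v : ℝ → ℂ) (h : Eis) (X : ℝ) :
    M49.SS l τ v h X = Sar (cfS l) v τ X h := rfl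

lemma TT_eq_Sar (l : ℤ) (τ : ℝ) (v : ℝ → ℂ) (a : Eis) (X : ℝ) :
    M49.TT l τ v a X = Sar (cfT l) v τ X a := rfl

lemma rpow_mono_exp {Q δ' δ : ℝ} (hQ : 1 ≤ Q) (h : δ' ≤ δ) : Q ^ δ' ≤ Q ^ δ :=
  Real.rpow_le_rpow_of_exponent_le hQ h

/-! ### general weights in `MS` -/

/-- **(M) for all weights.** -/
theorem MS_gen {ρ : Eis → ℂ} (h : M49.MS ρ) (l : ℤ) {δ : ℝ} (hδ : 0 < δ) :
    ∃ C : ℝ, 0 ≤ C ∧ ∀ (W : ℝ → ℂ) (M : ℝ), LogW (fun u => W (Real.exp u)) M →
      ∀ (N : ℕ) (X τ : ℝ), 1 ≤ N → 0 < X →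
      ∑ h ∈ ball N, ‖M49.SS l τ W h X - (if l = 0 then
        ρ h * mellin W ((5 : ℂ) / 6 + τ * Complex.I) * (X : ℂ) ^ ((5 : ℂ) / 6 + τ * Complex.I)
        else 0)‖ ^ 2 ≤
      C * M ^ 2 * ((1 + |τ|) * (1 + X) * N) ^ δ * ((N + τ ^ 2) * X) := by
  classical
  set δ' := min δ 1 with hδ'
  have hδ'0 : 0 < δ' := lt_min hδ one_pos
  obtain ⟨C₀, hC₀⟩ := h l v0 v0_wt δ' hδ'0
  refine ⟨2 * CG (δ' / 2) ^ 2 * |C₀|, by positivity, fun W M hW N X τ hN hX => ?_⟩
  have hN' : (1 : ℝ) ≤ N := by exact_mod_cast hN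
  set m : Eis → ℂ := fun h => if l = 0 then ρ h else 0 with hm
  have hif : ∀ (V : ℝ → ℂ) (h : Eis) (Y σ : ℝ), (if l = 0 then
        ρ h * mellin V ((5 : ℂ) / 6 + σ * Complex.I) * (Y : ℂ) ^ ((5 : ℂ) / 6 + σ * Complex.I)
        else 0) =
        m h * mellin V ((5 : ℂ) / 6 + σ * Complex.I) * (Y : ℂ) ^ ((5 : ℂ) / 6 + σ * Complex.I) := by
    intro V h Y σ
    simp only [hm]
    split_ifs
    · rfl
    · simp
  have key := arith_gen (s := ball N) (cf := cfS l) (m := m) (B := 1) zero_le_one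
    (fun h _ d hd => norm_cfS_le l h hd) hN hδ'0 (min_le_right _ _)
    (K := |C₀| * (N : ℝ) ^ δ') (by positivity) ?_ hW X τ hX
  · simp only [hif, SS_eq_Sar]
    refine key.trans ?_
    have h1 : ((1 + |τ|) * (1 + X)) ^ δ' * (N : ℝ) ^ δ' ≤ ((1 + |τ|) * (1 + X) * N) ^ δ := by
      rw [← Real.mul_rpow (by positivity) (by positivity)]
      apply rpow_mono_exp _ (min_le_left _ _)
      have a1 : (1 : ℝ) ≤ 1 + |τ| := by linarith [abs_nonneg τ]
      have a2 : (1 : ℝ) ≤ 1 + X := by linarith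
      have a3 : (1 : ℝ) ≤ (1 + |τ|) * (1 + X) := by nlinarith
      nlinarith
    calc 2 * CG (δ' / 2) ^ 2 * M ^ 2 * (|C₀| * (N : ℝ) ^ δ') * ((1 + |τ|) * (1 + X)) ^ δ' *
          ((N + τ ^ 2) * X)
        = 2 * CG (δ' / 2) ^ 2 * |C₀| * M ^ 2 * (((1 + |τ|) * (1 + X)) ^ δ' * (N : ℝ) ^ δ') *
          ((N + τ ^ 2) * X) := by ring
      _ ≤ _ := by gcongr
  · intro Y σ hY
    have h1 := hC₀ N Y σ hN hY
    simp only [hif, SS_eq_Sar] at h1
    refine h1.trans ?_
    rw [Real.mul_rpow (by positivity) (by positivity)]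
    calc C₀ * (((1 + |σ|) * (1 + Y)) ^ δ' * (N : ℝ) ^ δ') * ((N + σ ^ 2) * Y)
        ≤ |C₀| * (((1 + |σ|) * (1 + Y)) ^ δ' * (N : ℝ) ^ δ') * ((N + σ ^ 2) * Y) := by
          gcongr
          exact le_abs_self _
      _ = _ := by ring

/-- **Type I for all weights.** -/
theorem TypeI_gen (h : M49.TypeI) (l : ℤ) {δ : ℝ} (hδ : 0 < δ) :
    ∃ C : ℝ, 0 ≤ C ∧ ∀ (W : ℝ → ℂ) (M : ℝ), LogW (fun u => W (Real.exp u)) M →
      ∀ (N : ℕ) (X τ : ℝ), 1 ≤ N → 0 < X →
      ∑ a ∈ (by classical exact (primBall N).filter (fun a => Squarefree a)),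
      ‖M49.TT l τ W a X - (if l = 0 then
        ((pC * M49.Dsf * M49.ga a * (nm a : ℝ) ^ (-(1 : ℝ) / 6) : ℝ) : ℂ) *
        mellin W ((5 : ℂ) / 6 + τ * Complex.I) * (X : ℂ) ^ ((5 : ℂ) / 6 + τ * Complex.I)
        else 0)‖ ^ 2 ≤
      C * M ^ 2 * ((1 + |τ|) * (1 + X) * N) ^ δ * ((N + τ ^ 2) * X) := by
  classical
  set δ' := min δ 1 with hδ'
  have hδ'0 : 0 < δ' := lt_min hδ one_pos
  obtain ⟨C₀, hC₀⟩ := h l v0 v0_wt δ' hδ'0
  refine ⟨2 * CG (δ' / 2) ^ 2 * |C₀|, by positivity, fun W M hW N X τ hN hX => ?_⟩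
  have hN' : (1 : ℝ) ≤ N := by exact_mod_cast hN
  set m : Eis → ℂ := fun a => if l = 0 then
    ((pC * M49.Dsf * M49.ga a * (nm a : ℝ) ^ (-(1 : ℝ) / 6) : ℝ) : ℂ) else 0 with hm
  have hif : ∀ (V : ℝ → ℂ) (a : Eis) (Y σ : ℝ), (if l = 0 then
        ((pC * M49.Dsf * M49.ga a * (nm a : ℝ) ^ (-(1 : ℝ) / 6) : ℝ) : ℂ) *
        mellin V ((5 : ℂ) / 6 + σ * Complex.I) * (Y : ℂ) ^ ((5 : ℂ) / 6 + σ * Complex.I)
        else 0) =
        m a * mellin V ((5 : ℂ) / 6 + σ * Complex.I) * (Y : ℂ) ^ ((5 : ℂ) / 6 + σ * Complex.I) := by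
    intro V a Y σ
    simp only [hm]
    split_ifs
    · rfl
    · simp
  have key := arith_gen (s := (primBall N).filter (fun a => Squarefree a)) (cf := cfT l)
    (m := m) (B := 1) zero_le_one
    (fun a ha d hd => norm_cfT_le l (mem_primBall.mp (Finset.mem_filter.mp ha).1).2 hd)
    hN hδ'0 (min_le_right _ _)
    (K := |C₀| * (N : ℝ) ^ δ') (by positivity) ?_ hW X τ hX
  · simp only [hif, TT_eq_Sar]
    refine le_trans (le_of_eq ?_) (key.trans ?_)
    · congr!
    have h1 : ((1 + |τ|) * (1 + X)) ^ δ' * (N : ℝ) ^ δ' ≤ ((1 + |τ|) * (1 + X) * N) ^ δ := by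
      rw [← Real.mul_rpow (by positivity) (by positivity)]
      apply rpow_mono_exp _ (min_le_left _ _)
      have a1 : (1 : ℝ) ≤ 1 + |τ| := by linarith [abs_nonneg τ]
      have a2 : (1 : ℝ) ≤ 1 + X := by linarith
      have a3 : (1 : ℝ) ≤ (1 + |τ|) * (1 + X) := by nlinarith
      nlinarith
    calc 2 * CG (δ' / 2) ^ 2 * M ^ 2 * (|C₀| * (N : ℝ) ^ δ') * ((1 + |τ|) * (1 + X)) ^ δ' *
          ((N + τ ^ 2) * X)
        = 2 * CG (δ' / 2) ^ 2 * |C₀| * M ^ 2 * (((1 + |τ|) * (1 + X)) ^ δ' * (N : ℝ) ^ δ') *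
          ((N + τ ^ 2) * X) := by ring
      _ ≤ _ := by gcongr
  · intro Y σ hY
    have h1 := hC₀ N Y σ hN hY
    simp only [hif, TT_eq_Sar] at h1
    refine le_trans (le_of_eq ?_) (h1.trans ?_)
    · congr!
    rw [Real.mul_rpow (by positivity) (by positivity)]
    calc C₀ * (((1 + |σ|) * (1 + Y)) ^ δ' * (N : ℝ) ^ δ') * ((N + σ ^ 2) * Y)
        ≤ |C₀| * (((1 + |σ|) * (1 + Y)) ^ δ' * (N : ℝ) ^ δ') * ((N + σ ^ 2) * Y) := by
          gcongr
          exact le_abs_self _
      _ = _ := by ring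

end Crest.Agent.R012.MSgen49
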