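import Crest.Agent.R012.SpecM_49
import Crest.Agent.R012.Base_666
import Crest.Agent.R012.Four_813
import Crest.Agent.R012.Trace_384
import Crest.Agent.R012.SpecK_384
import Crest.Agent.R012.AddChar_666
import Mathlib.Analysis.Calculus.BumpFunction.FiniteDimension

-- ▼ part R012/TItB_663
section

/-!
# Row 12, (M): from conjugate sums to `MS1` (helper663)

`CS w l t h X = Σ_{d ≡ 1 (3)} conj g(h,d) w(N d/X) (N d)^{it} (d/|d|)^l`.
`MS0 ρ` is the mean square statement for `CS`; `MS1_of_MS0 : MS0 ρ → MS1 (π conj ρ)`.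
-/

set_option autoImplicit false

noncomputable section

open MeasureTheory Complex Set Filter Topology
open Crest.Agent.R012.Eis
open scoped ComplexConjugate

namespace Crest.Agent.R012.TIt663

open Crest.Agent.R012 Crest.Agent.R012.M49

/-- `Σ_{d ≡ 1 (3)} conj g(h,d) w(N d/X) (N d)^{it} (d/|d|)^l`. -/
def CS (w : ℝ → ℂ) (l : ℤ) (t : ℝ) (h : Eis) (X : ℝ) : ℂ := by
  classical
  exact ∑' d : Eis, (if IsPrim d then
    conj (gs h d) * w (nm d / X) * (nm d : ℂ) ^ ((t : ℂ) * Complex.I) * ang l d else 0)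

/-- the main term `[l = 0] π w^(4/3 + it) X^{4/3 + it}`. -/
def mainT (w : ℝ → ℂ) (l : ℤ) (t : ℝ) (X : ℝ) : ℂ :=
  if l = 0 then (Real.pi : ℂ) * mellin w ((4 : ℂ) / 3 + t * Complex.I) *
    (X : ℂ) ^ ((4 : ℂ) / 3 + t * Complex.I) else 0

/-- the error term. -/
def DD (ρ : Eis → ℂ) (w : ℝ → ℂ) (l : ℤ) (t : ℝ) (h : Eis) (X : ℝ) : ℂ :=
  CS w l t h X - mainT w l t X * ρ h

/-- the mean square statement for the conjugate sums. -/
def MS0 (ρ : Eis → ℂ) : Prop :=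
  ∀ (l : ℤ) (w : ℝ → ℂ), Wt w → ∀ δ : ℝ, 0 < δ → ∃ C : ℝ, ∀ (N : ℕ) (X t : ℝ),
    1 ≤ N → 1 ≤ X →
    ∑ h ∈ ball N, ‖DD ρ w l t h X‖ ^ 2 ≤
      C * ((1 + |t|) * X * N) ^ δ * ((N + t ^ 2) * X ^ 2)

/-! ### conjugation -/


lemma conj_ang (l : ℤ) (z : Eis) : conj (ang l z) = ang (-l) z := by
  unfold ang
  rw [map_zpow₀, map_div₀, Complex.conj_ofReal]
  by_cases hz : toC z = 0
  · simp only [hz, map_zero, norm_zero, Complex.ofReal_zero, div_zero]
    by_cases hl : l = 0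
    · simp [hl]
    · rw [zero_zpow _ hl, zero_zpow _ (by omega)]
  · have hn : (‖toC z‖ : ℂ) ≠ 0 := by
      rw [Ne, Complex.ofReal_eq_zero, norm_eq_zero]; exact hz
    rw [zpow_neg, ← inv_zpow]
    congr 1
    rw [inv_div, div_eq_div_iff hn hz]
    rw [mul_comm, Complex.mul_conj, Complex.normSq_eq_norm_sq]
    push_cast
    ring

lemma conj_cpow_real {x : ℝ} (hx : 0 ≤ x) (s : ℂ) :
    conj ((x : ℂ) ^ s) = (x : ℂ) ^ (conj s) := by
  have := Complex.cpow_conj (x : ℂ) s (by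
    rw [Complex.arg_ofReal_of_nonneg hx]; exact Real.pi_pos.ne)
  rw [this, Complex.conj_ofReal]

lemma mellin_conj (w : ℝ → ℂ) (s : ℂ) :
    conj (mellin w s) = mellin (fun x => conj (w x)) (conj s) := by
  unfold mellin
  rw [← integral_conj]
  refine setIntegral_congr_fun measurableSet_Ioi fun x hx => ?_
  simp only [smul_eq_mul, map_mul]
  rw [conj_cpow_real (le_of_lt hx)]
  simp

/-! ### the weight `conj (v x) x^{-1/2}` -/

/-- `w(x) = conj (v x) x^{-1/2}`. -/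
def wOf (v : ℝ → ℂ) (x : ℝ) : ℂ := ((x ^ (-(1 : ℝ) / 2) : ℝ) : ℂ) * conj (v x)


lemma wt_wOf {v : ℝ → ℂ} (hv : Wt v) : Wt (wOf v) := by
  obtain ⟨a, b, ha, hab, h⟩ := hv.supp
  refine ⟨?_, a, b, ha, hab, fun x hx => ?_⟩
  · rw [contDiff_iff_contDiffAt]
    intro x
    by_cases hx : x < a
    · have : TIt663.wOf v =ᶠ[𝓝 x] fun _ => 0 := by
        filter_upwards [Iio_mem_nhds hx] with y hy
        simp [TIt663.wOf, h y (Or.inl hy)]
      exact contDiffAt_const.congr_of_eventuallyEq this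
    · have hx0 : x ≠ 0 := by
        have : a ≤ x := not_lt.mp hx
        linarith
      unfold TIt663.wOf
      refine ContDiffAt.mul ?_ ?_
      · exact (Complex.ofRealCLM.contDiff.contDiffAt).comp x
          (Real.contDiffAt_rpow_const_of_ne hx0)
      · exact (Complex.conjCLE.contDiff.contDiffAt).comp x (hv.smooth.contDiffAt)
  · simp [TIt663.wOf, h x hx]

lemma SS_eq_conj_CS (v : ℝ → ℂ) (l : ℤ) (τ : ℝ) (h : Eis) {X : ℝ} (hX : 0 < X) :
    SS l τ v h X = ((X ^ (-(1 : ℝ) / 2) : ℝ) : ℂ) * conj (CS (wOf v) (-l) (-τ) h X) := by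
  classical
  unfold SS CS
  rw [Complex.conj_tsum, ← tsum_mul_left]
  refine tsum_congr fun d => ?_
  by_cases hd : IsPrim d
  · have hnm : 0 < nm d := by
      rw [Nat.pos_iff_ne_zero, Ne, nm_eq_zero]; exact hd.ne_zero
    have hnm' : (0 : ℝ) < nm d := by exact_mod_cast hnm
    simp only [hd, if_true, map_mul, Complex.conj_conj]
    rw [conj_ang, neg_neg]
    have e1 : conj ((nm d : ℂ) ^ (((-τ : ℝ) : ℂ) * Complex.I)) =
        (nm d : ℂ) ^ ((τ : ℂ) * Complex.I) := by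
      have := conj_cpow_real hnm'.le (((-τ : ℝ) : ℂ) * Complex.I)
      rw [Complex.ofReal_natCast] at this
      rw [this]
      congr 1
      simp
    rw [e1]
    have e2 : conj (wOf v (nm d / X)) = (((nm d / X : ℝ) ^ (-(1 : ℝ) / 2) : ℝ) : ℂ) *
        v (nm d / X) := by
      simp [wOf]
    rw [e2]
    have e3 : (((X : ℝ) ^ (-(1 : ℝ) / 2) : ℝ) : ℂ) * (((nm d / X : ℝ) ^ (-(1 : ℝ) / 2) : ℝ) : ℂ) =
        (((Real.sqrt (nm d) : ℝ) : ℂ))⁻¹ := by
      rw [← Complex.ofReal_mul, ← Complex.ofReal_inv]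
      congr 1
      rw [← Real.mul_rpow hX.le (by positivity), mul_div_cancel₀ _ hX.ne',
        Real.sqrt_eq_rpow, ← Real.rpow_neg hnm'.le]
      norm_num
    rw [div_eq_mul_inv, ← e3]
    ring
  · simp [hd]

lemma mellin_wOf (v : ℝ → ℂ) (s : ℂ) :
    mellin (fun x => conj (wOf v x)) s = mellin v (s - 1 / 2) := by
  have e := mellin_cpow_smul v s (-(1 / 2 : ℂ))
  rw [show s - 1 / 2 = s + -(1 / 2 : ℂ) by ring, ← e]
  unfold mellin
  refine setIntegral_congr_fun measurableSet_Ioi fun x hx => ?_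
  have hx' : (0 : ℝ) < x := hx
  simp only [wOf, map_mul, Complex.conj_conj, Complex.conj_ofReal, smul_eq_mul]
  congr 2
  rw [Complex.ofReal_cpow hx'.le]
  congr 1
  push_cast
  ring

lemma main_eq (v : ℝ → ℂ) (l : ℤ) (τ : ℝ) (ρ : ℂ) {X : ℝ} (hX : 0 < X) :
    (if l = 0 then (Real.pi * conj ρ) * mellin v ((5 : ℂ) / 6 + τ * Complex.I) *
      (X : ℂ) ^ ((5 : ℂ) / 6 + τ * Complex.I) else 0) =
    ((X ^ (-(1 : ℝ) / 2) : ℝ) : ℂ) * conj (mainT (wOf v) (-l) (-τ) X * ρ) := by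
  unfold mainT
  by_cases hl : l = 0
  · subst hl
    simp only [if_true, neg_zero, map_mul, Complex.conj_ofReal]
    rw [mellin_conj, mellin_wOf, conj_cpow_real hX.le]
    have e1 : conj ((4 : ℂ) / 3 + ((-τ : ℝ) : ℂ) * Complex.I) = 4 / 3 + τ * Complex.I := by
      have h4 : conj (4 : ℂ) = 4 := Complex.conj_ofNat 4
      have h3 : conj (3 : ℂ) = 3 := Complex.conj_ofNat 3
      simp [h4, h3]
    have hX0 : (X : ℂ) ≠ 0 := by exact_mod_cast hX.ne'
    rw [e1, show (4 : ℂ) / 3 + τ * Complex.I - 1 / 2 = 5 / 6 + τ * Complex.I by ring]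
    have e2 : (X : ℂ) ^ ((5 : ℂ) / 6 + τ * Complex.I) =
        ((X ^ (-(1 : ℝ) / 2) : ℝ) : ℂ) * (X : ℂ) ^ ((4 : ℂ) / 3 + τ * Complex.I) := by
      rw [Complex.ofReal_cpow hX.le, ← Complex.cpow_add _ _ hX0]
      congr 1
      push_cast
      ring
    rw [e2]
    ring
  · simp [hl]

theorem MS1_of_MS0 {ρ : Eis → ℂ} (H : MS0 ρ) :
    MS1 (fun h => (Real.pi : ℂ) * conj (ρ h)) := by
  intro l v hv δ hδ
  obtain ⟨C, hC⟩ := H (-l) (wOf v) (wt_wOf hv) δ hδ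
  refine ⟨C, fun N X τ hN hX => ?_⟩
  have hX0 : 0 < X := by linarith
  have h1 := hC N X (-τ) hN hX
  rw [abs_neg, neg_sq] at h1
  have key : ∀ h : Eis, ‖SS l τ v h X - (if l = 0 then
        ((Real.pi : ℂ) * conj (ρ h)) * mellin v ((5 : ℂ) / 6 + τ * Complex.I) *
          (X : ℂ) ^ ((5 : ℂ) / 6 + τ * Complex.I) else 0)‖ ^ 2 =
      X⁻¹ * ‖DD ρ (wOf v) (-l) (-τ) h X‖ ^ 2 := by
    intro h
    rw [SS_eq_conj_CS v l τ h hX0, main_eq v l τ (ρ h) hX0, ← mul_sub, ← map_sub, norm_mul,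
      RCLike.norm_conj, mul_pow, Complex.norm_real, Real.norm_of_nonneg (by positivity)]
    congr 1
    rw [← Real.rpow_natCast, ← Real.rpow_mul hX0.le]
    norm_num
    rw [Real.rpow_neg_one]
  simp only [key]
  rw [← Finset.mul_sum]
  calc X⁻¹ * ∑ h ∈ ball N, ‖DD ρ (wOf v) (-l) (-τ) h X‖ ^ 2
      ≤ X⁻¹ * (C * ((1 + |τ|) * X * N) ^ δ * ((N + τ ^ 2) * X ^ 2)) := by gcongr
    _ = C * ((1 + |τ|) * X * N) ^ δ * ((N + τ ^ 2) * X) := by
        field_simp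

end Crest.Agent.R012.TIt663
end
end

-- ▼ part R012/TItC1_663
section

/-!
# Row 12, (M): the sums at the special frames in polar form (helper663)
-/

set_option autoImplicit false

noncomputable section

open MeasureTheory Complex Set Filter Topology
open Crest.Agent.R012.Eis
open scoped ComplexConjugate ENNReal

namespace Crest.Agent.R012.TIt663

open Crest.Agent.R012 Crest.Agent.R012.M49 Crest.Agent.R012.Four813

/-- the weight `W_{w,t,l,B}(z) = w(|z|²/B) |z|^{2it} (z/|z|)^l`. -/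
def Ww (w : ℝ → ℂ) (t : ℝ) (l : ℤ) (B : ℝ) (z : ℂ) : ℂ :=
  w (‖z‖ ^ 2 / B) * ((‖z‖ : ℝ) : ℂ) ^ (2 * (t : ℂ) * Complex.I) * (z / ((‖z‖ : ℝ) : ℂ)) ^ l

/-- the mass `∫ U(z) |z|^{2/3} dz`. -/
def mU (U : ℂ → ℂ) : ℂ := ∫ z, U z * ((‖z‖ ^ ((2 : ℝ) / 3) : ℝ) : ℂ)

/-- the phase `|e|^{2it} (e/|e|)^l`. -/
def ph (t : ℝ) (l : ℤ) (e : ℂ) : ℂ :=
  ((‖e‖ : ℝ) : ℂ) ^ (2 * (t : ℂ) * Complex.I) * (e / ((‖e‖ : ℝ) : ℂ)) ^ l

lemma norm_ph (t : ℝ) (l : ℤ) {e : ℂ} (he : e ≠ 0) : ‖ph t l e‖ = 1 := by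
  have h0 : 0 < ‖e‖ := norm_pos_iff.mpr he
  unfold ph
  rw [norm_mul, Complex.norm_cpow_eq_rpow_re_of_pos h0]
  have h1 : (2 * (t : ℂ) * Complex.I).re = 0 := by simp
  rw [h1, Real.rpow_zero, norm_zpow, norm_div, Complex.norm_real, norm_norm,
    div_self h0.ne', one_zpow, one_mul]

lemma Ww_mul (w : ℝ → ℂ) (t : ℝ) (l : ℤ) (B : ℝ) (z e : ℂ) :
    Ww w t l B (z * e) = w (‖z‖ ^ 2 * ‖e‖ ^ 2 / B) * ph t l z * ph t l e := by
  unfold Ww ph
  rw [norm_mul, mul_pow, Complex.ofReal_mul,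
    Complex.mul_cpow_ofReal_nonneg (norm_nonneg _) (norm_nonneg _), mul_div_mul_comm, mul_zpow]
  ring

lemma cpow_sq {x : ℝ} (hx : 0 < x) (t : ℂ) :
    (x : ℂ) ^ (2 * t * Complex.I) = ((x ^ 2 : ℝ) : ℂ) ^ (t * Complex.I) := by
  have h1 : (x : ℂ) ≠ 0 := by exact_mod_cast hx.ne'
  have h2 : ((x ^ 2 : ℝ) : ℂ) ≠ 0 := by
    rw [Ne, Complex.ofReal_eq_zero]; positivity
  rw [Complex.cpow_def_of_ne_zero h1, Complex.cpow_def_of_ne_zero h2, ← Complex.ofReal_log hx.le,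
    ← Complex.ofReal_log (by positivity), Real.log_pow]
  congr 1
  push_cast
  ring

lemma ph_toC (t : ℝ) (l : ℤ) {d : Eis} (hd : d ≠ 0) :
    ph t l (toC d) = (nm d : ℂ) ^ ((t : ℂ) * Complex.I) * ang l d := by
  have hn : toC d ≠ 0 := by rwa [Ne, toC_eq_zero]
  have h0 : 0 < ‖toC d‖ := norm_pos_iff.mpr hn
  unfold ph ang
  congr 1
  rw [cpow_sq h0, norm_toC_sq]
  simp

open Classical in
/-- the sum at a special frame. -/
lemma Sg_Ww (w : ℝ → ℂ) (t : ℝ) (l : ℤ) {B : ℝ} (u : Eis) {e : ℂ} (he : e ≠ 0) :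
    Sg (fun _ => 1) (Ww w t l B) u e = ph t l e * CS w l t u (B / ‖e‖ ^ 2) := by
  unfold Sg CS
  rw [← tsum_mul_left]
  refine tsum_congr fun d => ?_
  by_cases hd : IsPrim d
  · simp only [hd, if_true]
    rw [Ww_mul, ph_toC t l hd.ne_zero, norm_toC_sq]
    have h0 : ‖e‖ ≠ 0 := norm_ne_zero_iff.mpr he
    have : (nm d : ℝ) * ‖e‖ ^ 2 / B = nm d / (B / ‖e‖ ^ 2) := by
      rw [div_div_eq_mul_div]
    rw [this]
    ring
  · simp [hd]

/-! ### the mass -/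

lemma integral_polar_prod (f : ℝ → ℂ) (g : ℝ → ℂ) (F : ℂ → ℂ)
    (hF : ∀ p ∈ polarCoord.target, F (Complex.polarCoord.symm p) = f p.1 * g p.2) :
    ∫ z, F z = (∫ x in Ioi (0 : ℝ), (x : ℂ) * f x) * ∫ θ in Ioo (-Real.pi) Real.pi, g θ := by
  rw [← Complex.integral_comp_polarCoord_symm]
  have h1 : ∫ p in polarCoord.target, p.1 • F (Complex.polarCoord.symm p) =
      ∫ p in (Ioi (0 : ℝ)) ×ˢ (Ioo (-Real.pi) Real.pi), ((p.1 : ℂ) * f p.1) * g p.2 := by
    refine setIntegral_congr_fun polarCoord.open_target.measurableSet fun p hp => ?_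
    rw [hF p hp, Complex.real_smul]
    ring
  rw [h1, Measure.volume_eq_prod, ← setIntegral_prod_mul]

lemma integral_circle (l : ℤ) :
    ∫ θ in Ioo (-Real.pi) Real.pi, (Complex.exp (θ * Complex.I)) ^ l =
      if l = 0 then (2 * Real.pi : ℂ) else 0 := by
  rw [← integral_Ioc_eq_integral_Ioo, ← intervalIntegral.integral_of_le
    (by linarith [Real.pi_pos])]
  by_cases hl : l = 0
  · simp [hl]
    ring
  · simp only [hl, if_false]
    have h1 : ∀ θ : ℝ, (Complex.exp (θ * Complex.I)) ^ l = Complex.exp ((l * Complex.I) * θ) := by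
      intro θ
      rw [← Complex.exp_int_mul]
      congr 1; ring
    simp_rw [h1]
    have hl' : (l : ℂ) * Complex.I ≠ 0 := mul_ne_zero (by exact_mod_cast hl) Complex.I_ne_zero
    rw [integral_exp_mul_complex hl']
    have h2 : Complex.exp ((l : ℂ) * Complex.I * (Real.pi : ℝ)) =
        Complex.exp ((l : ℂ) * Complex.I * ((-Real.pi : ℝ) : ℂ)) := by
      rw [Complex.exp_eq_exp_iff_exists_int]
      refine ⟨l, ?_⟩
      push_cast
      ring
    rw [h2, sub_self, zero_div]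

lemma mellin_sq (w : ℝ → ℂ) (t : ℝ) {X : ℝ} (hX : 0 < X) :
    mellin (fun x => w (x ^ (2 : ℝ) * X⁻¹)) (8 / 3 + 2 * t * Complex.I) =
      (1 / 2) * (mellin w (4 / 3 + t * Complex.I) * (X : ℂ) ^ ((4 : ℂ) / 3 + t * Complex.I)) := by
  have h1 := mellin_comp_rpow (fun y => w (y * X⁻¹)) (8 / 3 + 2 * t * Complex.I) 2
  rw [h1]
  rw [show (8 / 3 + 2 * t * Complex.I) / ((2 : ℝ) : ℂ) = 4 / 3 + t * Complex.I by
    push_cast; ring]
  rw [mellin_comp_mul_right w _ (inv_pos.mpr hX)]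
  have h2 : ((X⁻¹ : ℝ) : ℂ) ^ (-((4 : ℂ) / 3 + t * Complex.I)) =
      (X : ℂ) ^ ((4 : ℂ) / 3 + t * Complex.I) := by
    rw [Complex.ofReal_inv, Complex.inv_cpow _ _ (by
      rw [Complex.arg_ofReal_of_nonneg hX.le]; exact Real.pi_pos.ne), Complex.cpow_neg, inv_inv]
  rw [h2]
  simp only [smul_eq_mul, Complex.real_smul]
  rw [show |(2 : ℝ)|⁻¹ = 1 / 2 by norm_num]
  push_cast
  ring

lemma mU_Ww (w : ℝ → ℂ) (t : ℝ) (l : ℤ) {B : ℝ} (hB : 0 < B) {e : ℂ} (he : e ≠ 0) :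
    mU (fun z => Ww w t l B (z * e)) = ph t l e * mainT w l t (B / ‖e‖ ^ 2) := by
  have h0 : 0 < ‖e‖ := norm_pos_iff.mpr he
  have hX : 0 < B / ‖e‖ ^ 2 := by positivity
  unfold mU
  rw [integral_polar_prod
    (fun x => ph t l e * (w (x ^ (2 : ℝ) * (B / ‖e‖ ^ 2)⁻¹) *
      ((x : ℂ) ^ (2 * (t : ℂ) * Complex.I) * (x : ℂ) ^ ((2 : ℂ) / 3))))
    (fun θ => (Complex.exp (θ * Complex.I)) ^ l)]
  · rw [integral_circle]
    unfold mainT
    by_cases hl : l = 0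
    · simp only [hl, if_true]
      have h1 : ∫ x in Ioi (0 : ℝ), (x : ℂ) * (ph t 0 e * (w (x ^ (2 : ℝ) * (B / ‖e‖ ^ 2)⁻¹) *
          ((x : ℂ) ^ (2 * (t : ℂ) * Complex.I) * (x : ℂ) ^ ((2 : ℂ) / 3)))) =
          ph t 0 e * mellin (fun x => w (x ^ (2 : ℝ) * (B / ‖e‖ ^ 2)⁻¹))
            (8 / 3 + 2 * t * Complex.I) := by
        unfold mellin
        rw [← integral_const_mul]
        refine setIntegral_congr_fun measurableSet_Ioi fun x hx => ?_
        have hx' : (x : ℂ) ≠ 0 := by exact_mod_cast (ne_of_gt hx)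
        simp only [smul_eq_mul]
        have h3 : (x : ℂ) ^ (8 / 3 + 2 * t * Complex.I - 1) =
            (x : ℂ) * ((x : ℂ) ^ (2 * (t : ℂ) * Complex.I) * (x : ℂ) ^ ((2 : ℂ) / 3)) := by
          rw [← Complex.cpow_add _ _ hx']
          nth_rewrite 2 [← Complex.cpow_one (x : ℂ)]
          rw [← Complex.cpow_add _ _ hx']
          congr 1
          ring
        rw [h3]
        ring
      rw [h1, mellin_sq w t hX]
      ring
    · simp [hl]
  · intro p hp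
    have hp1 : 0 < p.1 := by
      rw [polarCoord_target] at hp
      exact hp.1
    show Ww w t l B (Complex.polarCoord.symm p * e) * _ = _
    rw [Ww_mul]
    have h1 : ‖Complex.polarCoord.symm p‖ = p.1 := by
      rw [Complex.norm_polarCoord_symm, abs_of_pos hp1]
    have h2 : Complex.polarCoord.symm p = (p.1 : ℂ) * Complex.exp (p.2 * Complex.I) := by
      rw [Complex.polarCoord_symm_apply, Complex.exp_mul_I]
      push_cast
      ring
    have h3 : ph t l (Complex.polarCoord.symm p) =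
        (p.1 : ℂ) ^ (2 * (t : ℂ) * Complex.I) * (Complex.exp (p.2 * Complex.I)) ^ l := by
      unfold ph
      rw [h1, h2, mul_div_cancel_left₀]
      exact_mod_cast hp1.ne'
    rw [h3, h1, Complex.ofReal_cpow hp1.le]
    have h4 : p.1 ^ 2 * ‖e‖ ^ 2 / B = p.1 ^ (2 : ℝ) * (B / ‖e‖ ^ 2)⁻¹ := by
      rw [inv_div, Real.rpow_two]; ring
    rw [h4]
    push_cast
    ring

/-- the difference at a special frame. -/
lemma diff_special (ρ : Eis → ℂ) (w : ℝ → ℂ) (t : ℝ) (l : ℤ) {B : ℝ} (hB : 0 < B) (u : Eis)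
    {e : ℂ} (he : e ≠ 0) :
    ‖Sg (fun _ => 1) (Ww w t l B) u e - mU (fun z => Ww w t l B (z * e)) * ρ u‖ =
      ‖DD ρ w l t u (B / ‖e‖ ^ 2)‖ := by
  rw [Sg_Ww w t l u he, mU_Ww w t l hB he, mul_assoc, ← mul_sub, norm_mul, norm_ph t l he, one_mul]
  rfl

end Crest.Agent.R012.TIt663
end
end

-- ▼ part R012/TItC2_663
section

/-!
# Row 12, (M): dilation trace and polar lower bound (helper663)
-/

set_option autoImplicit false

noncomputable section

open MeasureTheory Complex Set Filter Topology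
open Crest.Agent.R012.Eis
open scoped ComplexConjugate ENNReal

namespace Crest.Agent.R012.TIt663

open Crest.Agent.R012 Crest.Agent.R012.M49 Crest.Agent.R012.Four813

/-! ### the Euler derivative of a weight -/

/-- `x w'(x)`. -/
def wD (w : ℝ → ℂ) (x : ℝ) : ℂ := (x : ℂ) * deriv w x

lemma wt_wD {w : ℝ → ℂ} (hw : Wt w) : Wt (wD w) := by
  obtain ⟨a, b, ha, hab, h⟩ := hw.supp
  have hd : ContDiff ℝ ((⊤ : ℕ∞) : WithTop ℕ∞) (deriv w) := by
    have := (contDiff_infty_iff_deriv (f := w)).mp hw.smooth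
    exact this.2
  refine ⟨?_, a, b, ha, hab, fun x hx => ?_⟩
  · exact (Complex.ofRealCLM.contDiff).mul hd
  · unfold wD
    have : deriv w x = 0 := by
      have h1 : w =ᶠ[𝓝 x] fun _ => 0 := by
        rcases hx with hx | hx
        · filter_upwards [Iio_mem_nhds hx] with y hy using h y (Or.inl hy)
        · filter_upwards [Ioi_mem_nhds hx] with y hy using h y (Or.inr hy)
      rw [h1.deriv_eq, deriv_const]
    rw [this, mul_zero]

lemma hasDerivAt_wt {w : ℝ → ℂ} (hw : Wt w) (x : ℝ) : HasDerivAt w (deriv w x) x :=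
  ((hw.smooth.differentiable (by simp)) x).hasDerivAt

lemma mellin_wD {w : ℝ → ℂ} (hw : Wt w) (s : ℂ) : mellin (wD w) s = -s * mellin w s := by
  obtain ⟨a, b, ha, hab, h⟩ := hw.supp
  have hdc : Continuous (deriv w) := by
    have := (contDiff_infty_iff_deriv (f := w)).mp hw.smooth
    exact this.2.continuous
  -- both Mellin transforms are interval integrals on `[a/2, b+1]`
  have hI : ∀ g : ℝ → ℂ, (∀ x, x < a ∨ b < x → g x = 0) → ∀ s : ℂ,
      mellin g s = ∫ x in (a / 2)..(b + 1), (x : ℂ) ^ (s - 1) * g x := by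
    intro g hg s
    unfold mellin
    rw [intervalIntegral.integral_of_le (by linarith)]
    refine setIntegral_eq_of_subset_of_forall_sdiff_eq_zero measurableSet_Ioi ?_ ?_
    · intro x hx
      have := hx.1
      simp only [mem_Ioi]
      linarith
    · intro x hx
      have h1 : ¬ (a / 2 < x ∧ x ≤ b + 1) := hx.2
      rw [not_and_or, not_lt, not_le] at h1
      rw [hg x (by
        rcases h1 with h1 | h1
        · left; linarith
        · right; linarith), smul_zero]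
  have hwD := (wt_wD hw)
  have h2 : ∀ x, x < a ∨ b < x → wD w x = 0 := by
    intro x hx
    unfold wD
    have : deriv w x = 0 := by
      have h1 : w =ᶠ[𝓝 x] fun _ => 0 := by
        rcases hx with hx | hx
        · filter_upwards [Iio_mem_nhds hx] with y hy using h y (Or.inl hy)
        · filter_upwards [Ioi_mem_nhds hx] with y hy using h y (Or.inr hy)
      rw [h1.deriv_eq, deriv_const]
    rw [this, mul_zero]
  rw [hI _ h2, hI _ h]
  by_cases hs : s = 0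
  · subst hs
    have h3 : ∀ x ∈ uIcc (a / 2) (b + 1), (x : ℂ) ^ ((0 : ℂ) - 1) * wD w x = deriv w x := by
      intro x hx
      rw [uIcc_of_le (by linarith)] at hx
      have hx0 : (x : ℂ) ≠ 0 := by
        have : 0 < x := by linarith [hx.1]
        exact_mod_cast this.ne'
      unfold wD
      rw [zero_sub, Complex.cpow_neg_one, ← mul_assoc, inv_mul_cancel₀ hx0, one_mul]
    rw [intervalIntegral.integral_congr h3, intervalIntegral.integral_deriv_eq_sub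
      (fun x _ => (hasDerivAt_wt hw x).differentiableAt) (hdc.intervalIntegrable _ _),
      h (a / 2) (Or.inl (by linarith)), h (b + 1) (Or.inr (by linarith))]
    simp
  · have hu : ∀ x ∈ uIcc (a / 2) (b + 1), HasDerivAt (fun x : ℝ => (x : ℂ) ^ s)
        (s * (x : ℂ) ^ (s - 1)) x := by
      intro x hx
      rw [uIcc_of_le (by linarith)] at hx
      have hx0 : 0 < x := by linarith [hx.1]
      exact hasDerivAt_ofReal_cpow_const hx0.ne' hs
    have hcont : ContinuousOn (fun x : ℝ => s * (x : ℂ) ^ (s - 1)) (uIcc (a / 2) (b + 1)) := by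
      intro x hx
      rw [uIcc_of_le (by linarith)] at hx
      have hx0 : 0 < x := by linarith [hx.1]
      refine ContinuousAt.continuousWithinAt ?_
      refine continuousAt_const.mul ?_
      exact (continuousAt_ofReal_cpow_const _ _ (Or.inr hx0.ne'))
    have h5 := intervalIntegral.integral_mul_deriv_eq_deriv_mul (a := a / 2) (b := b + 1)
      (u := fun x : ℝ => (x : ℂ) ^ s) (v := w) (u' := fun x : ℝ => s * (x : ℂ) ^ (s - 1))
      (v' := deriv w) hu (fun x _ => hasDerivAt_wt hw x) hcont.intervalIntegrable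
      (hdc.intervalIntegrable _ _)
    rw [h (a / 2) (Or.inl (by linarith)), h (b + 1) (Or.inr (by linarith))] at h5
    have h6 : ∫ x in (a / 2)..(b + 1), (x : ℂ) ^ (s - 1) * wD w x =
        ∫ x in (a / 2)..(b + 1), (x : ℂ) ^ s * deriv w x := by
      refine intervalIntegral.integral_congr fun x hx => ?_
      rw [uIcc_of_le (by linarith)] at hx
      have hx0 : (x : ℂ) ≠ 0 := by
        have : 0 < x := by linarith [hx.1]
        exact_mod_cast this.ne'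
      simp only [wD]
      rw [← mul_assoc]
      congr 1
      nth_rewrite 2 [← Complex.cpow_one (x : ℂ)]
      rw [← Complex.cpow_add _ _ hx0]
      congr 1; ring
    rw [h6, h5]
    have h7 : ∫ x in (a / 2)..(b + 1), s * (x : ℂ) ^ (s - 1) * w x =
        s * ∫ x in (a / 2)..(b + 1), (x : ℂ) ^ (s - 1) * w x := by
      rw [← intervalIntegral.integral_const_mul]
      refine intervalIntegral.integral_congr fun x _ => ?_
      ring
    rw [h7]
    ring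

/-! ### finite sums -/

/-- finite version of `CS`. -/
def CSf (M : ℕ) (w : ℝ → ℂ) (l : ℤ) (t : ℝ) (h : Eis) (X : ℝ) : ℂ :=
  ∑ d ∈ primBall M, conj (gs h d) * w (nm d / X) * (nm d : ℂ) ^ ((t : ℂ) * Complex.I) * ang l d

lemma CS_eq_CSf {w : ℝ → ℂ} {b : ℝ} (hw : ∀ x, b < x → w x = 0) (l : ℤ) (t : ℝ) (h : Eis)
    {X : ℝ} (hX : 0 < X) {M : ℕ} (hM : b * X ≤ M) : CS w l t h X = CSf M w l t h X := by
  classical
  unfold CS CSf
  rw [tsum_eq_sum (s := primBall M)]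
  · refine Finset.sum_congr rfl fun d hd => ?_
    rw [if_pos (mem_primBall.mp hd).2]
  · intro d hd
    by_cases hp : IsPrim d
    · rw [if_pos hp]
      have h1 : M < nm d := by
        by_contra hc
        exact hd (mem_primBall.mpr ⟨not_lt.mp hc, hp⟩)
      have h2 : b < nm d / X := by
        rw [lt_div_iff₀ hX]
        have : (M : ℝ) < nm d := by exact_mod_cast h1
        linarith
      rw [hw _ h2]
      simp
    · rw [if_neg hp]

/-- finite version of `DD`. -/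
def DDf (M : ℕ) (ρ : Eis → ℂ) (w : ℝ → ℂ) (l : ℤ) (t : ℝ) (h : Eis) (X : ℝ) : ℂ :=
  CSf M w l t h X - mainT w l t X * ρ h

lemma DD_eq_DDf (ρ : Eis → ℂ) {w : ℝ → ℂ} {b : ℝ} (hw : ∀ x, b < x → w x = 0) (l : ℤ) (t : ℝ)
    (h : Eis) {X : ℝ} (hX : 0 < X) {M : ℕ} (hM : b * X ≤ M) :
    DD ρ w l t h X = DDf M ρ w l t h X := by
  unfold DD DDf
  rw [CS_eq_CSf hw l t h hX hM]

lemma measurable_DDf (M : ℕ) (ρ : Eis → ℂ) {w : ℝ → ℂ} (hw : Continuous w) (l : ℤ) (t : ℝ)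
    (h : Eis) : Measurable (DDf M ρ w l t h) := by
  unfold DDf CSf mainT
  refine Measurable.sub ?_ ?_
  · refine Finset.measurable_sum _ fun d _ => ?_
    refine Measurable.mul (Measurable.mul (Measurable.mul measurable_const ?_) measurable_const)
      measurable_const
    exact hw.measurable.comp (measurable_const.div measurable_id)
  · refine Measurable.mul ?_ measurable_const
    by_cases hl : l = 0
    · simp only [hl, if_true]
      refine Measurable.mul measurable_const ?_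
      exact (Complex.measurable_ofReal).pow_const _
    · simp only [hl, if_false]
      exact measurable_const

/-! ### the dilation trace -/

/-- the scale `Y 4^{-s}`. -/
def sc (Y s : ℝ) : ℝ := Y * Real.exp (-(s * Real.log 4))

lemma sc_pos {Y : ℝ} (hY : 0 < Y) (s : ℝ) : 0 < sc Y s := by unfold sc; positivity


@[simp] lemma sc_zero (Y : ℝ) : sc Y 0 = Y := by simp [sc]

lemma hasDerivAt_w_sc {w : ℝ → ℂ} (hw : Wt w) {Y : ℝ} (hY : 0 < Y) (n s : ℝ) :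
    HasDerivAt (fun s => w (n / sc Y s)) (Real.log 4 * wD w (n / sc Y s)) s := by
  have h1 : ∀ s, n / sc Y s = (n / Y) * Real.exp (s * Real.log 4) := by
    intro s
    unfold sc
    rw [Real.exp_neg]
    field_simp
  have h2 : HasDerivAt (fun s : ℝ => (n / Y) * Real.exp (s * Real.log 4))
      ((n / Y) * (Real.exp (s * Real.log 4) * Real.log 4)) s := by
    refine HasDerivAt.const_mul _ ?_
    exact (((hasDerivAt_id s).mul_const (Real.log 4)).exp).congr_deriv (by simp)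
  have h3 := (hasDerivAt_wt hw ((n / Y) * Real.exp (s * Real.log 4))).scomp s h2
  simp only [h1]
  refine h3.congr_deriv ?_
  unfold wD
  rw [Complex.real_smul]
  push_cast
  ring

lemma hasDerivAt_pow_sc {Y : ℝ} (hY : 0 < Y) (z : ℂ) (s : ℝ) :
    HasDerivAt (fun s => ((sc Y s : ℝ) : ℂ) ^ z) (Real.log 4 * (-z * ((sc Y s : ℝ) : ℂ) ^ z)) s := by
  have h1 : ∀ s, ((sc Y s : ℝ) : ℂ) ^ z = (Y : ℂ) ^ z * Complex.exp (-(s * Real.log 4) * z) := by
    intro s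
    have h0 := sc_pos hY s
    have hY0 : (Y : ℂ) ≠ 0 := by exact_mod_cast hY.ne'
    have h00 : ((sc Y s : ℝ) : ℂ) ≠ 0 := by exact_mod_cast h0.ne'
    rw [Complex.cpow_def_of_ne_zero h00, Complex.cpow_def_of_ne_zero hY0, ← Complex.exp_add,
      ← Complex.ofReal_log h0.le, ← Complex.ofReal_log hY.le]
    congr 1
    unfold sc
    rw [Real.log_mul hY.ne' (Real.exp_pos _).ne', Real.log_exp]
    push_cast
    ring
  simp only [h1]
  have h2 : HasDerivAt (fun s : ℝ => -((s : ℂ) * Real.log 4) * z) (-(Real.log 4) * z) s := by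
    have : HasDerivAt (fun s : ℝ => (s : ℂ)) 1 s := Complex.ofRealCLM.hasDerivAt
    exact (((this.mul_const (Real.log 4 : ℂ)).neg).mul_const z).congr_deriv (by simp)
  exact ((h2.cexp).const_mul _).congr_deriv (by ring)

lemma hasDerivAt_DDf (M : ℕ) (ρ : Eis → ℂ) {w : ℝ → ℂ} (hw : Wt w) (l : ℤ) (t : ℝ) (u : Eis)
    {Y : ℝ} (hY : 0 < Y) (s : ℝ) :
    HasDerivAt (fun s => DDf M ρ w l t u (sc Y s)) (Real.log 4 * DDf M ρ (wD w) l t u (sc Y s)) s := by
  unfold DDf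
  have h1 : HasDerivAt (fun s => CSf M w l t u (sc Y s))
      (Real.log 4 * CSf M (wD w) l t u (sc Y s)) s := by
    unfold CSf
    rw [Finset.mul_sum]
    refine HasDerivAt.fun_sum fun d _ => ?_
    have := (((hasDerivAt_w_sc hw hY (nm d) s).const_mul (conj (gs u d))).mul_const
      ((nm d : ℂ) ^ ((t : ℂ) * Complex.I))).mul_const (ang l d)
    exact this.congr_deriv (by ring)
  have h2 : HasDerivAt (fun s => mainT w l t (sc Y s))
      (Real.log 4 * mainT (wD w) l t (sc Y s)) s := by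
    unfold mainT
    by_cases hl : l = 0
    · simp only [hl, if_true]
      have := (hasDerivAt_pow_sc hY ((4 : ℂ) / 3 + t * Complex.I) s).const_mul
        ((Real.pi : ℂ) * mellin w ((4 : ℂ) / 3 + t * Complex.I))
      refine this.congr_deriv ?_
      rw [mellin_wD hw]
      ring
    · simp only [hl, if_false, mul_zero]
      exact hasDerivAt_const _ _
  exact (h1.sub (h2.mul_const _)).congr_deriv (by ring)

lemma wD_zero {w : ℝ → ℂ} {b : ℝ} (hv1 : ∀ x, b < x → w x = 0) : ∀ x, b < x → wD w x = 0 := by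
  intro x hx
  unfold wD
  have h1 : w =ᶠ[𝓝 x] fun _ => 0 := by
    filter_upwards [Ioi_mem_nhds hx] with y hy using hv1 y hy
  rw [h1.deriv_eq, deriv_const, mul_zero]

lemma measurable_sc (Y : ℝ) : Measurable (sc Y) := by
  unfold sc; fun_prop

/-- the dilation trace, with the finite sums on the right. -/
theorem dil_trace (ρ : Eis → ℂ) {w : ℝ → ℂ} (hw : Wt w) (l : ℤ) (t : ℝ) (u : Eis)
    {Y : ℝ} (hY : 0 < Y) {b : ℝ} (hv1 : ∀ x, b < x → w x = 0) {M : ℕ}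
    (hMb : b * Y ≤ M) :
    ‖DD ρ w l t u Y‖ₑ ^ 2 ≤ 2 * ∫⁻ s in Icc (0 : ℝ) 1,
      (‖DDf M ρ w l t u (sc Y s)‖ₑ ^ 2 + 4 * ‖DDf M ρ (wD w) l t u (sc Y s)‖ₑ ^ 2) := by
  have key := Trace384.sob1 (h := fun s => DDf M ρ w l t u (sc Y s))
    (h' := fun s => Real.log 4 * DDf M ρ (wD w) l t u (sc Y s))
    (fun s => hasDerivAt_DDf M ρ hw l t u hY s)
    (continuous_const.mul (continuous_iff_continuousAt.mpr fun s =>
      (hasDerivAt_DDf M ρ (wt_wD hw) l t u hY s).continuousAt))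
  simp only [sc_zero] at key
  rw [DD_eq_DDf ρ hv1 l t u hY hMb]
  refine key.trans ?_
  gcongr 2 * ?_
  refine setLIntegral_mono' measurableSet_Icc fun s hs => ?_
  rw [enorm_mul, mul_pow]
  gcongr
  have h4 : ‖((Real.log 4 : ℝ) : ℂ)‖ₑ ≤ 2 := by
    rw [← ofReal_norm, Complex.norm_real, Real.norm_of_nonneg (Real.log_nonneg (by norm_num))]
    rw [show (2 : ℝ≥0∞) = ENNReal.ofReal 2 by simp]
    apply ENNReal.ofReal_le_ofReal
    have h5 : Real.log 4 = 2 * Real.log 2 := by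
      rw [show (4 : ℝ) = 2 ^ 2 by norm_num, Real.log_pow]; norm_num
    have := Real.log_two_lt_d9
    linarith
  calc ‖((Real.log 4 : ℝ) : ℂ)‖ₑ ^ 2 ≤ 2 ^ 2 := by gcongr
    _ = 4 := by norm_num

/-! ### polar lower bound -/

lemma lintegral_polar_radial (F : ℝ → ℝ≥0∞) (hF : Measurable F) :
    ∫⁻ e : ℂ, F ‖e‖ = ENNReal.ofReal (2 * Real.pi) * ∫⁻ x in Ioi (0 : ℝ), ENNReal.ofReal x * F x := by
  rw [← Complex.lintegral_comp_polarCoord_symm]
  have h1 : ∫⁻ p in polarCoord.target, ENNReal.ofReal p.1 • F ‖Complex.polarCoord.symm p‖ =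
      ∫⁻ p in (Ioi (0 : ℝ)) ×ˢ (Ioo (-Real.pi) Real.pi), (ENNReal.ofReal p.1 * F p.1) * 1 := by
    refine setLIntegral_congr_fun polarCoord.open_target.measurableSet fun p hp => ?_
    have hp1 : 0 < p.1 := by
      rw [polarCoord_target] at hp
      exact hp.1
    simp only [smul_eq_mul, mul_one]
    rw [Complex.norm_polarCoord_symm, abs_of_pos hp1]
  rw [h1, Measure.volume_eq_prod, ← Measure.prod_restrict]
  rw [lintegral_prod_mul (f := fun x => ENNReal.ofReal x * F x) (g := fun _ => 1)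
    (by fun_prop) (by fun_prop)]
  simp only [lintegral_const, Measure.restrict_apply, MeasurableSet.univ, univ_inter,
    Real.volume_Ioo, one_mul]
  rw [mul_comm]
  congr 2
  ring

theorem polar_lower (F : ℝ → ℝ≥0∞) (hF : Measurable F) {R : ℝ} (hR : 0 < R) :
    ENNReal.ofReal (R ^ 2) * ∫⁻ s in Icc (0 : ℝ) 1, F (R * Real.exp (s * Real.log 2)) ≤
      ∫⁻ e in {e : ℂ | R ≤ ‖e‖ ∧ ‖e‖ ≤ 2 * R}, F ‖e‖ := by
  have hA : MeasurableSet {e : ℂ | R ≤ ‖e‖ ∧ ‖e‖ ≤ 2 * R} :=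
    (measurableSet_le measurable_const measurable_norm).inter
      (measurableSet_le measurable_norm measurable_const)
  have hI : MeasurableSet (Icc R (2 * R)) := measurableSet_Icc
  rw [← lintegral_indicator hA]
  have h1 : ∀ e : ℂ, {e : ℂ | R ≤ ‖e‖ ∧ ‖e‖ ≤ 2 * R}.indicator (fun e => F ‖e‖) e =
      (Icc R (2 * R)).indicator F ‖e‖ := by
    intro e
    by_cases he : R ≤ ‖e‖ ∧ ‖e‖ ≤ 2 * R
    · rw [indicator_of_mem (s := {e : ℂ | R ≤ ‖e‖ ∧ ‖e‖ ≤ 2 * R}) he,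
        indicator_of_mem (s := Icc R (2 * R)) he]
    · rw [indicator_of_notMem (s := {e : ℂ | R ≤ ‖e‖ ∧ ‖e‖ ≤ 2 * R}) he,
        indicator_of_notMem (s := Icc R (2 * R)) he]
  simp only [h1]
  rw [lintegral_polar_radial _ (hF.indicator hI)]
  have hlog : 0 < Real.log 2 := Real.log_pos (by norm_num)
  -- change of variables
  have himg : ∫⁻ s in Icc (0 : ℝ) 1, ENNReal.ofReal (R ^ 2 * Real.log 2) *
      F (R * Real.exp (s * Real.log 2)) ≤
      ∫⁻ x in Ioi (0 : ℝ), ENNReal.ofReal x * (Icc R (2 * R)).indicator F x := by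
    have hd : ∀ s ∈ Icc (0 : ℝ) 1, HasDerivWithinAt (fun s => R * Real.exp (s * Real.log 2))
        (R * (Real.exp (s * Real.log 2) * Real.log 2)) (Icc 0 1) s := by
      intro s _
      refine HasDerivAt.hasDerivWithinAt ?_
      refine HasDerivAt.const_mul _ ?_
      exact (((hasDerivAt_id s).mul_const (Real.log 2)).exp).congr_deriv (by simp)
    have hinj : InjOn (fun s => R * Real.exp (s * Real.log 2)) (Icc (0 : ℝ) 1) := by
      intro x _ y _ hxy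
      have := mul_left_cancel₀ hR.ne' hxy
      rw [Real.exp_eq_exp] at this
      exact mul_right_cancel₀ hlog.ne' this
    have hmem : ∀ s ∈ Icc (0 : ℝ) 1, R * Real.exp (s * Real.log 2) ∈ Icc R (2 * R) := by
      intro s hs
      have e1 : 1 ≤ Real.exp (s * Real.log 2) := Real.one_le_exp (by nlinarith [hs.1])
      have e2 : Real.exp (s * Real.log 2) ≤ 2 := by
        calc Real.exp (s * Real.log 2) ≤ Real.exp (1 * Real.log 2) := by
              apply Real.exp_le_exp.mpr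
              nlinarith [hs.2]
          _ = 2 := by rw [one_mul, Real.exp_log (by norm_num)]
      constructor <;> nlinarith
    have hcv := lintegral_image_eq_lintegral_abs_deriv_mul measurableSet_Icc hd hinj
      (fun x => ENNReal.ofReal x * (Icc R (2 * R)).indicator F x)
    have hsub : (fun s => R * Real.exp (s * Real.log 2)) '' (Icc (0 : ℝ) 1) ⊆ Ioi 0 := by
      rintro x ⟨s, hs, rfl⟩
      simp only [mem_Ioi]
      positivity
    refine le_trans ?_ (lintegral_mono_set hsub)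
    rw [hcv]
    refine setLIntegral_mono' measurableSet_Icc fun s hs => ?_
    rw [indicator_of_mem (hmem s hs), ← mul_assoc, ← ENNReal.ofReal_mul (abs_nonneg _)]
    refine mul_le_mul' (ENNReal.ofReal_le_ofReal ?_) le_rfl
    rw [abs_of_nonneg (by positivity)]
    have e1 : 1 ≤ Real.exp (s * Real.log 2) := Real.one_le_exp (by nlinarith [hs.1])
    have e3 : 1 ≤ Real.exp (s * Real.log 2) * Real.exp (s * Real.log 2) := by nlinarith
    calc R ^ 2 * Real.log 2 = R ^ 2 * Real.log 2 * 1 := by ring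
      _ ≤ R ^ 2 * Real.log 2 * (Real.exp (s * Real.log 2) * Real.exp (s * Real.log 2)) := by gcongr
      _ = _ := by ring
  refine le_trans ?_ (mul_le_mul_right himg _)
  rw [lintegral_const_mul' _ _ ENNReal.ofReal_ne_top, ← mul_assoc,
    ← ENNReal.ofReal_mul (by positivity)]
  gcongr
  have h3 : (3 : ℝ) ≤ Real.pi := Real.pi_gt_three.le
  have h4 : 1 / 2 ≤ Real.log 2 := by
    have := Real.log_two_gt_d9
    linarith
  nlinarith [sq_nonneg R, mul_nonneg (sq_nonneg R) (by linarith : (0 : ℝ) ≤ Real.pi - 3),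
    mul_nonneg (sq_nonneg R) (by linarith : (0 : ℝ) ≤ Real.log 2 - 1 / 2),
    mul_le_mul h3 h4 (by norm_num) (by linarith)]

end Crest.Agent.R012.TIt663
end
end

-- ▼ part R012/TItFinal_663
section

/-!
# Row 12, (M): final assembly  `Lim4 ρ → MS1 (π conj ρ)` (helper663)
-/

set_option autoImplicit false

noncomputable section

open MeasureTheory Complex Set Filter Topology
open Crest.Agent.R012.Eis
open scoped ComplexConjugate ENNReal

namespace Crest.Agent.R012.TIt663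

open Crest.Agent.R012 Crest.Agent.R012.M49 Crest.Agent.R012.Four813
open Crest.Agent.R012.Parseval499

/-- the integrated quantity at the special frames. -/
def LimI (φ : ℂ → ℂ) (ρ : Eis → ℂ) (w : ℝ → ℂ) (l : ℤ) (t s B r : ℝ) (S : Finset Eis) : ℝ≥0∞ :=
  ∫⁻ v in {v : ℂ | r ≤ ‖v‖ ∧ ‖v‖ ≤ 2 * r}, ∫⁻ e in {e : ℂ | 1 / r ≤ ‖e‖ ∧ ‖e‖ ≤ 2 / r},
    ∑ u ∈ S, ENNReal.ofReal (‖Sg (fun _ => 1) (Ww w t l B) u e -
      mU (fun z => Ww w t l B (z * e)) * ρ u‖ ^ 2 *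
      (‖e / v‖ ^ 4 * ‖phat (fun z => φ (z / s)) (frq 3 u * e / v)‖ ^ 2))

/-- output of the limit step. -/
def Lim4 (φ : ℂ → ℂ) (ρ : Eis → ℂ) : Prop :=
  ∀ (l : ℤ) (w : ℝ → ℂ) (d : ℝ), 0 < d → Wt w → ∃ C : ℝ, ∀ (t s B r : ℝ), 0 < s →
    s * (1 + |t|) ≤ 1 → 0 < B → 0 < r → ∀ S : Finset Eis, LimI φ ρ w l t s B r S ≤
      ENNReal.ofReal (C * ((1 + r ^ 4) / r ^ 4) * (B ^ 2 * s ^ 2) * (1 + B) ^ d)

/-- lower bound for the Fourier transform near `0`. -/
def PhiLow (φ : ℂ → ℂ) : Prop :=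
  ∃ c₀ c : ℝ, 0 < c₀ ∧ 0 < c ∧ ∀ s : ℝ, 0 < s → ∀ ξ : ℂ, s * ‖ξ‖ ≤ c₀ →
    c * s ^ 2 ≤ ‖phat (fun z => φ (z / s)) ξ‖

lemma norm_frq (u : Eis) : ‖frq 3 u‖ ≤ Real.sqrt (nm u) / 5 := by
  unfold frq
  rw [norm_div, norm_toC, norm_mul, norm_toC]
  have h1 : nm s3 = 3 := by decide
  rw [h1]
  have h3 : (5 / 3 : ℝ) ≤ Real.sqrt ((3 : ℕ) : ℝ) := by
    apply Real.le_sqrt_of_sq_le; norm_num
  have h0 : 0 ≤ Real.sqrt (nm u) := Real.sqrt_nonneg _
  have h4 : ‖(3 : ℂ)‖ = 3 := by simp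
  rw [h4]
  refine div_le_div_of_nonneg_left h0 (by norm_num) ?_
  calc (5 : ℝ) = 3 * (5 / 3) := by norm_num
    _ ≤ 3 * Real.sqrt ((3 : ℕ) : ℝ) := by gcongr

/-- lower bound of the integrated quantity. -/
lemma LimI_lower (φ : ℂ → ℂ) (ρ : Eis → ℂ) {w : ℝ → ℂ} (hw : Continuous w) (l : ℤ) {t s B r : ℝ}
    (hB : 0 < B) (hr : 0 < r) (S : Finset Eis) {κ : ℝ} (hκ : 0 ≤ κ)
    (hlow : ∀ u ∈ S, ∀ v e : ℂ, r ≤ ‖v‖ → ‖v‖ ≤ 2 * r → 1 / r ≤ ‖e‖ → ‖e‖ ≤ 2 / r →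
      κ ≤ ‖e / v‖ ^ 4 * ‖phat (fun z => φ (z / s)) (frq 3 u * e / v)‖ ^ 2)
    {b : ℝ} (hb : 0 < b) (hv1 : ∀ x, b < x → w x = 0) {M : ℕ} (hMb : b * (B * r ^ 2) ≤ M) :
    ENNReal.ofReal κ * ∫⁻ x in Icc (0 : ℝ) 1, ∑ u ∈ S,
      ‖DDf M ρ w l t u (sc (B * r ^ 2) x)‖ₑ ^ 2 ≤ LimI φ ρ w l t s B r S := by
  set F : ℝ → ℝ≥0∞ := fun x => ENNReal.ofReal κ * ∑ u ∈ S, ‖DDf M ρ w l t u (B / x ^ 2)‖ₑ ^ 2 with hF
  have hFm : Measurable F := by
    refine Measurable.const_mul (Finset.measurable_sum _ fun u _ => ?_) _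
    have := (measurable_DDf M ρ hw l t u).comp
      (show Measurable fun x : ℝ => B / x ^ 2 by fun_prop)
    exact (this.enorm).pow_const 2
  have hr1 : 0 < 1 / r := by positivity
  -- inner integral
  have inner : ∀ v ∈ {v : ℂ | r ≤ ‖v‖ ∧ ‖v‖ ≤ 2 * r},
      ENNReal.ofReal ((1 / r) ^ 2) * ∫⁻ x in Icc (0 : ℝ) 1, F (1 / r * Real.exp (x * Real.log 2)) ≤
      ∫⁻ e in {e : ℂ | 1 / r ≤ ‖e‖ ∧ ‖e‖ ≤ 2 / r},
        ∑ u ∈ S, ENNReal.ofReal (‖Sg (fun _ => 1) (Ww w t l B) u e -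
        mU (fun z => Ww w t l B (z * e)) * ρ u‖ ^ 2 *
        (‖e / v‖ ^ 4 * ‖phat (fun z => φ (z / s)) (frq 3 u * e / v)‖ ^ 2)) := by
    intro v hv
    refine (polar_lower F hFm hr1).trans ?_
    have hset : {e : ℂ | 1 / r ≤ ‖e‖ ∧ ‖e‖ ≤ 2 * (1 / r)} =
        {e : ℂ | 1 / r ≤ ‖e‖ ∧ ‖e‖ ≤ 2 / r} := by
      rw [mul_one_div]
    rw [hset]
    have hA : MeasurableSet {e : ℂ | 1 / r ≤ ‖e‖ ∧ ‖e‖ ≤ 2 / r} :=
      (measurableSet_le measurable_const measurable_norm).inter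
        (measurableSet_le measurable_norm measurable_const)
    refine setLIntegral_mono' hA fun e he => ?_
    simp only [hF]
    rw [Finset.mul_sum]
    refine Finset.sum_le_sum fun u hu => ?_
    have he0 : 0 < ‖e‖ := lt_of_lt_of_le hr1 he.1
    have he1 : e ≠ 0 := norm_pos_iff.mp he0
    have hX : 0 < B / ‖e‖ ^ 2 := by positivity
    have hXle : B / ‖e‖ ^ 2 ≤ B * r ^ 2 := by
      rw [div_le_iff₀ (by positivity)]
      have h1 : 1 ≤ r * ‖e‖ := by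
        have := mul_le_mul_of_nonneg_left he.1 hr.le
        rwa [mul_one_div_cancel hr.ne'] at this
      have h2 : 1 ≤ (r * ‖e‖) ^ 2 := one_le_pow₀ h1
      calc B = B * 1 := by ring
        _ ≤ B * (r * ‖e‖) ^ 2 := by gcongr
        _ = B * r ^ 2 * ‖e‖ ^ 2 := by ring
    rw [diff_special ρ w t l hB u he1, DD_eq_DDf ρ hv1 l t u hX
      ((mul_le_mul_of_nonneg_left hXle hb.le).trans hMb)]
    have h5 := hlow u hu v e hv.1 hv.2 he.1 he.2
    rw [← ofReal_norm, ← ENNReal.ofReal_pow (norm_nonneg _), ← ENNReal.ofReal_mul hκ, mul_comm]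
    exact ENNReal.ofReal_le_ofReal (mul_le_mul_of_nonneg_left h5 (by positivity))
  -- outer integral
  have hV : MeasurableSet {v : ℂ | r ≤ ‖v‖ ∧ ‖v‖ ≤ 2 * r} :=
    (measurableSet_le measurable_const measurable_norm).inter
      (measurableSet_le measurable_norm measurable_const)
  have outer := polar_lower (fun _ => ENNReal.ofReal ((1 / r) ^ 2) *
    ∫⁻ x in Icc (0 : ℝ) 1, F (1 / r * Real.exp (x * Real.log 2))) measurable_const hr
  have h6 := outer.trans (setLIntegral_mono' hV inner)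
  refine le_trans (le_of_eq ?_) h6
  simp only [lintegral_const, Measure.restrict_apply, MeasurableSet.univ, univ_inter,
    Real.volume_Icc, sub_zero, ENNReal.ofReal_one, mul_one]
  rw [← mul_assoc, ← ENNReal.ofReal_mul (by positivity)]
  have h7 : r ^ 2 * (1 / r) ^ 2 = 1 := by field_simp
  rw [h7, ENNReal.ofReal_one, one_mul, ← lintegral_const_mul' _ _ ENNReal.ofReal_ne_top]
  refine lintegral_congr fun x => ?_
  simp only [hF]
  have h8 : B / (1 / r * Real.exp (x * Real.log 2)) ^ 2 = sc (B * r ^ 2) x := by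
    unfold sc
    have h9 : Real.log 4 = 2 * Real.log 2 := by
      rw [show (4 : ℝ) = 2 ^ 2 by norm_num, Real.log_pow]; norm_num
    rw [h9, Real.exp_neg, mul_pow, ← Real.exp_nat_mul]
    have h10 : ((2 : ℕ) : ℝ) * (x * Real.log 2) = x * (2 * Real.log 2) := by push_cast; ring
    rw [h10]
    field_simp
  rw [h8]

/-- the pointwise mean square bound from the integrated bounds. -/
theorem ms_of_LimI (φ : ℂ → ℂ) (ρ : Eis → ℂ) {w : ℝ → ℂ} (hw : Wt w) (l : ℤ) {t s B r : ℝ}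
    (hB : 0 < B) (hr : 0 < r) (S : Finset Eis) {κ : ℝ} (hκ : 0 ≤ κ)
    (hlow : ∀ u ∈ S, ∀ v e : ℂ, r ≤ ‖v‖ → ‖v‖ ≤ 2 * r → 1 / r ≤ ‖e‖ → ‖e‖ ≤ 2 / r →
      κ ≤ ‖e / v‖ ^ 4 * ‖phat (fun z => φ (z / s)) (frq 3 u * e / v)‖ ^ 2) :
    ENNReal.ofReal κ * ∑ u ∈ S, ‖DD ρ w l t u (B * r ^ 2)‖ₑ ^ 2 ≤
      2 * (LimI φ ρ w l t s B r S + 4 * LimI φ ρ (wD w) l t s B r S) := by
  obtain ⟨a, b, ha, hab, hsup⟩ := hw.supp
  have hb : 0 < b := by linarith
  have hv1 : ∀ x, b < x → w x = 0 := fun x hx => hsup x (Or.inr hx)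
  have hv2 := wD_zero hv1
  set M : ℕ := ⌈b * (B * r ^ 2)⌉₊ with hM
  have hMb : b * (B * r ^ 2) ≤ M := Nat.le_ceil _
  have hY : 0 < B * r ^ 2 := by positivity
  have m1 : ∀ (w' : ℝ → ℂ), Continuous w' → ∀ u, Measurable fun x =>
      ‖DDf M ρ w' l t u (sc (B * r ^ 2) x)‖ₑ ^ 2 := fun w' hw' u =>
    (((measurable_DDf M ρ hw' l t u).comp (measurable_sc _)).enorm).pow_const 2
  have hc1 := hw.smooth.continuous
  have hc2 := (wt_wD hw).smooth.continuous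
  have h1 : ∑ u ∈ S, ‖DD ρ w l t u (B * r ^ 2)‖ₑ ^ 2 ≤
      2 * ((∫⁻ x in Icc (0 : ℝ) 1, ∑ u ∈ S, ‖DDf M ρ w l t u (sc (B * r ^ 2) x)‖ₑ ^ 2) +
        4 * ∫⁻ x in Icc (0 : ℝ) 1, ∑ u ∈ S, ‖DDf M ρ (wD w) l t u (sc (B * r ^ 2) x)‖ₑ ^ 2) := by
    rw [lintegral_finsetSum _ (fun u _ => m1 w hc1 u),
      lintegral_finsetSum _ (fun u _ => m1 (wD w) hc2 u), Finset.mul_sum, ← Finset.sum_add_distrib,
      Finset.mul_sum]
    refine Finset.sum_le_sum fun u _ => ?_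
    refine (dil_trace ρ hw l t u hY hv1 hMb).trans (le_of_eq ?_)
    rw [lintegral_add_left (m1 w hc1 u), lintegral_const_mul _ (m1 (wD w) hc2 u)]
  have h2 := LimI_lower φ ρ hc1 l (t := t) hB hr S hκ hlow hb hv1 hMb
  have h3 := LimI_lower φ ρ hc2 l (t := t) hB hr S hκ hlow hb hv2 hMb
  calc ENNReal.ofReal κ * ∑ u ∈ S, ‖DD ρ w l t u (B * r ^ 2)‖ₑ ^ 2
      ≤ ENNReal.ofReal κ * (2 * ((∫⁻ x in Icc (0 : ℝ) 1, ∑ u ∈ S,
          ‖DDf M ρ w l t u (sc (B * r ^ 2) x)‖ₑ ^ 2) +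
        4 * ∫⁻ x in Icc (0 : ℝ) 1, ∑ u ∈ S, ‖DDf M ρ (wD w) l t u (sc (B * r ^ 2) x)‖ₑ ^ 2)) := by
        gcongr
    _ = 2 * ((ENNReal.ofReal κ * ∫⁻ x in Icc (0 : ℝ) 1, ∑ u ∈ S,
          ‖DDf M ρ w l t u (sc (B * r ^ 2) x)‖ₑ ^ 2) +
        4 * (ENNReal.ofReal κ * ∫⁻ x in Icc (0 : ℝ) 1, ∑ u ∈ S,
          ‖DDf M ρ (wD w) l t u (sc (B * r ^ 2) x)‖ₑ ^ 2)) := by ring
    _ ≤ _ := by gcongr

lemma pow_absorb {c₀ δ Z B : ℝ} (hc₀ : 0 < c₀) (hδ : 0 < δ) (hZ : 1 ≤ Z) (hB : 0 ≤ B)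
    (hBle : B ≤ c₀ * Z) : (1 + B) ^ δ ≤ (1 + c₀) ^ δ * Z ^ δ := by
  rw [← Real.mul_rpow (by positivity) (by positivity)]
  refine Real.rpow_le_rpow (by positivity) ?_ hδ.le
  nlinarith

lemma one_add_abs_sq (t : ℝ) : (1 + |t|) ^ 2 ≤ 2 * (1 + t ^ 2) := by
  nlinarith [sq_abs t, sq_nonneg (1 - |t|)]

lemma fin_ineq {k N t2 T2 : ℝ} (hk : 0 ≤ k) (hN : 1 ≤ N) (ht : 0 ≤ t2)
    (hT : T2 ≤ 2 * (1 + t2)) : T2 + N * k ≤ (2 + 2 * k) * (N + t2) := by
  nlinarith [mul_nonneg hk ht, mul_nonneg hk (by linarith : (0 : ℝ) ≤ N)]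

set_option maxHeartbeats 1600000 in
/-- **the final assembly**, conjugate sums. -/
theorem MS0_of_Lim4 {φ : ℂ → ℂ} (hφ : PhiLow φ) {ρ : Eis → ℂ} (H : Lim4 φ ρ) : MS0 ρ := by
  intro l w hw δ hδ
  obtain ⟨c₀, c, hc₀, hc, hlowφ⟩ := hφ
  obtain ⟨C₁, hC₁⟩ := H l w δ hδ hw
  obtain ⟨C₂, hC₂⟩ := H l (wD w) δ hδ (wt_wD hw)
  -- nonnegative constants
  set C : ℝ := |C₁| + 4 * |C₂| with hCdef
  have hC0 : 0 ≤ C := by positivity
  set Kl : ℝ := (1 + c₀) ^ δ with hKl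
  have hKl0 : 0 ≤ Kl := by positivity
  refine ⟨32 / c ^ 2 * C * Kl * (2 + 2 * (c₀ ^ 2)⁻¹), fun N X t hN hX => ?_⟩
  have hN0 : (1 : ℝ) ≤ N := by exact_mod_cast hN
  have hNpos : (0 : ℝ) < N := by linarith
  have hX0 : 0 < X := by linarith
  set T : ℝ := 1 + |t| with hT
  have hT1 : 1 ≤ T := by have := abs_nonneg t; linarith
  have hT0 : 0 < T := by linarith
  set s : ℝ := T⁻¹ with hs
  have hs0 : 0 < s := inv_pos.mpr hT0
  have hsT : s * (1 + |t|) ≤ 1 := by rw [hs, ← hT, inv_mul_cancel₀ hT0.ne']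
  set r : ℝ := Real.sqrt (s * Real.sqrt N / c₀) with hr
  have hr2 : r ^ 2 = s * Real.sqrt N / c₀ := Real.sq_sqrt (by positivity)
  have hr0 : 0 < r := by
    apply Real.sqrt_pos.mpr
    have : 0 < Real.sqrt N := Real.sqrt_pos.mpr hNpos
    positivity
  have hr4 : r ^ 4 = s ^ 2 * N / c₀ ^ 2 := by
    have : r ^ 4 = (r ^ 2) ^ 2 := by ring
    rw [this, hr2, div_pow, mul_pow, Real.sq_sqrt hNpos.le]
  set B : ℝ := X / r ^ 2 with hB
  have hB0 : 0 < B := by positivity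
  have hBX : B * r ^ 2 = X := by rw [hB]; field_simp
  -- weight
  set κ : ℝ := c ^ 2 * s ^ 4 / (16 * r ^ 8) with hκ
  have hκ0 : 0 < κ := by positivity
  have hlow : ∀ u ∈ ball N, ∀ v e : ℂ, r ≤ ‖v‖ → ‖v‖ ≤ 2 * r → 1 / r ≤ ‖e‖ → ‖e‖ ≤ 2 / r →
      κ ≤ ‖e / v‖ ^ 4 * ‖phat (fun z => φ (z / s)) (frq 3 u * e / v)‖ ^ 2 := by
    intro u hu v e hv1 hv2 he1 he2
    have hv0 : 0 < ‖v‖ := lt_of_lt_of_le hr0 hv1
    have hq1 : 1 / (2 * r ^ 2) ≤ ‖e / v‖ := by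
      rw [norm_div, le_div_iff₀ hv0]
      calc 1 / (2 * r ^ 2) * ‖v‖ ≤ 1 / (2 * r ^ 2) * (2 * r) := by gcongr
        _ = 1 / r := by field_simp
        _ ≤ ‖e‖ := he1
    have hq2 : ‖e / v‖ ≤ 2 / r ^ 2 := by
      rw [norm_div, div_le_iff₀ hv0]
      calc ‖e‖ ≤ 2 / r := he2
        _ = 2 / r ^ 2 * r := by field_simp
        _ ≤ 2 / r ^ 2 * ‖v‖ := by gcongr
    have hξ : s * ‖frq 3 u * e / v‖ ≤ c₀ := by
      rw [mul_div_assoc, norm_mul]
      have h1 : ‖frq 3 u‖ ≤ Real.sqrt N / 5 := by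
        refine (norm_frq u).trans ?_
        have : (nm u : ℝ) ≤ N := by exact_mod_cast mem_ball.mp hu
        gcongr
      have hsN : 0 < Real.sqrt N := Real.sqrt_pos.mpr hNpos
      calc s * (‖frq 3 u‖ * ‖e / v‖) ≤ s * (Real.sqrt N / 5 * (2 / r ^ 2)) := by gcongr
        _ = (2 / 5) * c₀ := by
          rw [hr2]; field_simp
        _ ≤ c₀ := by linarith
    have h2 := hlowφ s hs0 _ hξ
    calc κ = (1 / (2 * r ^ 2)) ^ 4 * (c * s ^ 2) ^ 2 := by
          rw [hκ]; field_simp; ring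
      _ ≤ _ := by gcongr
  have hmain := ms_of_LimI φ ρ hw l (t := t) (s := s) hB0 hr0 (ball N) hκ0.le hlow
  rw [hBX] at hmain
  -- the upper bounds
  set E : ℝ := ((1 + r ^ 4) / r ^ 4) * (B ^ 2 * s ^ 2) * (1 + B) ^ δ with hE
  have hE0 : 0 ≤ E := by positivity
  have hb1 : LimI φ ρ w l t s B r (ball N) ≤ ENNReal.ofReal (|C₁| * E) := by
    refine (hC₁ t s B r hs0 hsT hB0 hr0 (ball N)).trans (ENNReal.ofReal_le_ofReal ?_)
    calc C₁ * ((1 + r ^ 4) / r ^ 4) * (B ^ 2 * s ^ 2) * (1 + B) ^ δ = C₁ * E := by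
          rw [hE]; ring
      _ ≤ |C₁| * E := by gcongr; exact le_abs_self _
  have hb2 : LimI φ ρ (wD w) l t s B r (ball N) ≤ ENNReal.ofReal (|C₂| * E) := by
    refine (hC₂ t s B r hs0 hsT hB0 hr0 (ball N)).trans (ENNReal.ofReal_le_ofReal ?_)
    calc C₂ * ((1 + r ^ 4) / r ^ 4) * (B ^ 2 * s ^ 2) * (1 + B) ^ δ = C₂ * E := by
          rw [hE]; ring
      _ ≤ |C₂| * E := by gcongr; exact le_abs_self _
  have hreal : κ * ∑ u ∈ ball N, ‖DD ρ w l t u X‖ ^ 2 ≤ 2 * (C * E) := by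
    have h1 : ENNReal.ofReal (κ * ∑ u ∈ ball N, ‖DD ρ w l t u X‖ ^ 2) ≤
        ENNReal.ofReal (2 * (C * E)) := by
      calc ENNReal.ofReal (κ * ∑ u ∈ ball N, ‖DD ρ w l t u X‖ ^ 2)
          = ENNReal.ofReal κ * ∑ u ∈ ball N, ‖DD ρ w l t u X‖ₑ ^ 2 := by
            rw [ENNReal.ofReal_mul hκ0.le, ENNReal.ofReal_sum_of_nonneg (fun u _ => by positivity)]
            congr 1
            refine Finset.sum_congr rfl fun u _ => ?_
            rw [ENNReal.ofReal_pow (norm_nonneg _), ofReal_norm]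
        _ ≤ 2 * (ENNReal.ofReal (|C₁| * E) + 4 * ENNReal.ofReal (|C₂| * E)) := by
            refine hmain.trans ?_
            gcongr
        _ = ENNReal.ofReal (2 * (C * E)) := by
            rw [show (2 : ℝ≥0∞) = ENNReal.ofReal 2 by simp,
              show (4 : ℝ≥0∞) = ENNReal.ofReal 4 by simp, ← ENNReal.ofReal_mul (by norm_num),
              ← ENNReal.ofReal_add (by positivity) (by positivity),
              ← ENNReal.ofReal_mul (by norm_num)]
            congr 1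
            rw [hCdef]; ring
    exact (ENNReal.ofReal_le_ofReal_iff (by positivity)).mp h1
  -- the loss
  have hlog : (1 + B) ^ δ ≤ Kl * (T * X * N) ^ δ := by
    have hBle : B ≤ c₀ * (T * X) := by
      rw [hB, hr2, div_le_iff₀ (by positivity)]
      have hsN : 1 ≤ Real.sqrt N := Real.one_le_sqrt.mpr hN0
      have : s * T = 1 := inv_mul_cancel₀ hT0.ne'
      calc X = (s * T) * X * 1 := by rw [this]; ring
        _ ≤ (s * T) * X * Real.sqrt N := by gcongr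
        _ = c₀ * (T * X) * (s * Real.sqrt N / c₀) := by field_simp
    have hTX : 1 ≤ T * X := one_le_mul_of_one_le_of_one_le hT1 hX
    refine (pow_absorb hc₀ hδ hTX hB0.le hBle).trans ?_
    refine mul_le_mul_of_nonneg_left (Real.rpow_le_rpow (by positivity) ?_ hδ.le) (by positivity)
    exact le_mul_of_one_le_right (by positivity) hN0
  -- conclusion
  have hfin : ∑ u ∈ ball N, ‖DD ρ w l t u X‖ ^ 2 ≤
      32 / c ^ 2 * C * ((s ^ 2)⁻¹ * (1 + r ^ 4)) * X ^ 2 * (1 + B) ^ δ := by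
    have h1 : ∑ u ∈ ball N, ‖DD ρ w l t u X‖ ^ 2 ≤ κ⁻¹ * (2 * (C * E)) := by
      rw [← div_eq_inv_mul, le_div_iff₀ hκ0, mul_comm]
      exact hreal
    refine h1.trans (le_of_eq ?_)
    rw [hκ, hE, hB]
    have hs1 : s ≠ 0 := hs0.ne'
    have hr1 : r ≠ 0 := hr0.ne'
    have hc1 : c ≠ 0 := hc.ne'
    generalize (1 + X / r ^ 2) ^ δ = L
    clear_value s r C
    clear hlow hmain hb1 hb2 hreal hlog hlowφ hC₁ hC₂
    field_simp
    ring
  have hTt : (s ^ 2)⁻¹ * (1 + r ^ 4) ≤ (2 + 2 * (c₀ ^ 2)⁻¹) * (N + t ^ 2) := by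
    have h1 : (s ^ 2)⁻¹ * (1 + r ^ 4) = T ^ 2 + N * (c₀ ^ 2)⁻¹ := by
      rw [hr4, hs]; field_simp
    rw [h1]
    exact fin_ineq (by positivity) hN0 (sq_nonneg t) (one_add_abs_sq t)
  calc ∑ u ∈ ball N, ‖DD ρ w l t u X‖ ^ 2
      ≤ 32 / c ^ 2 * C * ((s ^ 2)⁻¹ * (1 + r ^ 4)) * X ^ 2 * (1 + B) ^ δ := hfin
    _ ≤ 32 / c ^ 2 * C * ((2 + 2 * (c₀ ^ 2)⁻¹) * (N + t ^ 2)) * X ^ 2 *
        (Kl * (T * X * N) ^ δ) := by gcongr
    _ = 32 / c ^ 2 * C * Kl * (2 + 2 * (c₀ ^ 2)⁻¹) * ((1 + |t|) * X * N) ^ δ *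
        ((N + t ^ 2) * X ^ 2) := by rw [← hT]; ring

/-- **the final assembly**. -/
theorem MS1_of_Lim4 {φ : ℂ → ℂ} (hφ : PhiLow φ) {ρ : Eis → ℂ} (H : Lim4 φ ρ) :
    MS1 (fun h => (Real.pi : ℂ) * conj (ρ h)) :=
  MS1_of_MS0 (MS0_of_Lim4 hφ H)

end Crest.Agent.R012.TIt663
end
end

-- ▼ part R012/Lim4_47
section

/-!
# Row 12, (ML): `K1_Prop → K3_Prop ρ → Lim4 φ (ρ/π)`

Adapter between `SpecK_384` and the final Type I assembly.
-/

set_option autoImplicit false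

noncomputable section

open MeasureTheory Set Filter Complex
open scoped ENNReal Topology ContDiff

namespace Crest.Agent.R012.Lim4_47

open Crest.Agent.R012 Crest.Agent.R012.Parseval499 Crest.Agent.R012.StripCo813
open Crest.Agent.R012.Four813 Crest.Agent.R012.ML384

/-- `w(|z|²/B) |z|^{2it} (z/|z|)^l`. -/
def Ww (w : ℝ → ℂ) (t : ℝ) (l : ℤ) (B : ℝ) (z : ℂ) : ℂ :=
  w (‖z‖ ^ 2 / B) * ((‖z‖ : ℝ) : ℂ) ^ (2 * (t : ℂ) * I) * (z / ((‖z‖ : ℝ) : ℂ)) ^ l

/-- `∫ U(z) |z|^(2/3) dz` -/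
def mU (U : ℂ → ℂ) : ℂ := ∫ z : ℂ, U z * ((‖z‖ ^ (2 / 3 : ℝ) : ℝ) : ℂ)

/-- The limit theorem, `t`-uniform form. -/
def Lim4 (phi : ℂ → ℂ) (rho : Eis → ℂ) : Prop :=
  ∀ (l : ℤ) (w : ℝ → ℂ) (d : ℝ), 0 < d → M49.Wt w →
    ∃ C : ℝ, 0 ≤ C ∧ ∀ (t s B r : ℝ), 0 < s → s * (1 + |t|) ≤ 1 → 0 < B → 0 < r →
      ∀ S : Finset Eis,
      ∫⁻ v in ann r (2 * r), ∫⁻ e in ann (1 / r) (2 / r), ∑ u ∈ S,
        ENNReal.ofReal (‖Sg (fun _ => 1) (Ww w t l B) u e -
            mU (fun z => Ww w t l B (z * e)) * rho u‖ ^ 2 *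
          (‖e / v‖ ^ 4 * ‖phat (fun z => phi (z / s)) (frq 3 u * e / v)‖ ^ 2)) ≤
        ENNReal.ofReal (C * ((1 + r ^ 4) / r ^ 4) * (B ^ 2 * s ^ 2) * (1 + B) ^ d)

/-! ### the profile `w(x) x^{it}` -/

/-- `w(x) x^{it}`. -/
def omt (w : ℝ → ℂ) (t : ℝ) (x : ℝ) : ℂ := w x * (x : ℂ) ^ ((t : ℂ) * I)

/-- `w(x) / x`. -/
def winv (w : ℝ → ℂ) (x : ℝ) : ℂ := ((x⁻¹ : ℝ) : ℂ) * w x

/-- smooth, supported in `[a,b]`. -/
structure SS (a b : ℝ) (w : ℝ → ℂ) : Prop where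
  cd : ContDiff ℝ ∞ w
  supp : ∀ x, x < a ∨ b < x → w x = 0

section

variable {a b : ℝ} {w : ℝ → ℂ}

lemma SS.ev_zero (h : SS a b w) {x : ℝ} (hx : x < a ∨ b < x) :
    w =ᶠ[𝓝 x] fun _ => 0 := by
  rcases hx with hx | hx
  · filter_upwards [gt_mem_nhds hx] with y hy
    exact h.supp y (Or.inl hy)
  · filter_upwards [lt_mem_nhds hx] with y hy
    exact h.supp y (Or.inr hy)

lemma SS.deriv (h : SS a b w) : SS a b (deriv w) where
  cd := (contDiff_infty_iff_deriv.mp h.cd).2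
  supp x hx := by rw [(h.ev_zero hx).deriv_eq]; simp

lemma SS.winv (ha : 0 < a) (h : SS a b w) : SS a b (winv w) where
  cd := by
    rw [contDiff_iff_contDiffAt]
    intro x
    by_cases hx : x < a
    · have : Lim4_47.winv w =ᶠ[𝓝 x] fun _ => 0 := by
        filter_upwards [gt_mem_nhds hx] with y hy
        simp [Lim4_47.winv, h.supp y (Or.inl hy)]
      exact contDiffAt_const.congr_of_eventuallyEq this
    · have hx0 : x ≠ 0 := by
        have : a ≤ x := not_lt.mp hx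
        linarith
      unfold Lim4_47.winv
      refine ContDiffAt.mul ?_ (h.cd.contDiffAt)
      exact (Complex.ofRealCLM.contDiff.contDiffAt).comp x (contDiffAt_inv ℝ hx0)
  supp x hx := by simp [Lim4_47.winv, h.supp x hx]

lemma SS.bdd (h : SS a b w) : ∃ K : ℝ, 0 ≤ K ∧ ∀ x, ‖w x‖ ≤ K := by
  obtain ⟨C, hC⟩ := (isCompact_Icc (a := a) (b := b)).exists_bound_of_continuousOn
    (h.cd.continuous.continuousOn)
  refine ⟨max C 0, le_max_right _ _, fun x => ?_⟩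
  by_cases hx : x < a ∨ b < x
  · rw [h.supp x hx, norm_zero]; exact le_max_right _ _
  · rw [not_or, not_lt, not_lt] at hx
    exact (hC x ⟨hx.1, hx.2⟩).trans (le_max_left _ _)

lemma cpow_eq {x : ℝ} (hx : 0 < x) (t : ℝ) :
    (x : ℂ) ^ ((t : ℂ) * I) = cexp (((Real.log x : ℝ) : ℂ) * ((t : ℂ) * I)) := by
  rw [Complex.cpow_def_of_ne_zero (by exact_mod_cast hx.ne'), Complex.ofReal_log hx.le]

lemma norm_cpow_it {x : ℝ} (hx : 0 < x) (t : ℝ) : ‖(x : ℂ) ^ ((t : ℂ) * I)‖ = 1 := by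
  rw [Complex.norm_cpow_eq_rpow_re_of_pos hx]
  simp

lemma norm_omt (ha : 0 < a) (h : SS a b w) (t x : ℝ) : ‖omt w t x‖ = ‖w x‖ := by
  by_cases hx : x < a
  · simp [omt, h.supp x (Or.inl hx)]
  · have hx0 : 0 < x := lt_of_lt_of_le ha (not_lt.mp hx)
    rw [omt, norm_mul, norm_cpow_it hx0, mul_one]

lemma hasDerivAt_cpow {x : ℝ} (hx : 0 < x) (t : ℝ) :
    HasDerivAt (fun y : ℝ => (y : ℂ) ^ ((t : ℂ) * I))
      (((x⁻¹ : ℝ) : ℂ) * ((t : ℂ) * I) * (x : ℂ) ^ ((t : ℂ) * I)) x := by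
  have h1 : HasDerivAt (fun y : ℝ => cexp (((Real.log y : ℝ) : ℂ) * ((t : ℂ) * I)))
      (cexp (((Real.log x : ℝ) : ℂ) * ((t : ℂ) * I)) * (((x⁻¹ : ℝ) : ℂ) * ((t : ℂ) * I))) x := by
    have h2 : HasDerivAt (fun y : ℝ => ((Real.log y : ℝ) : ℂ)) ((x⁻¹ : ℝ) : ℂ) x :=
      (Real.hasDerivAt_log hx.ne').ofReal_comp
    exact (h2.mul_const _).cexp
  rw [cpow_eq hx t]
  have h3 : (fun y : ℝ => (y : ℂ) ^ ((t : ℂ) * I)) =ᶠ[𝓝 x]
      fun y : ℝ => cexp (((Real.log y : ℝ) : ℂ) * ((t : ℂ) * I)) := by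
    filter_upwards [lt_mem_nhds hx] with y hy
    exact cpow_eq hy t
  refine (h1.congr_of_eventuallyEq h3).congr_deriv ?_
  ring

lemma contDiffAt_cpow {x : ℝ} (hx : 0 < x) (t : ℝ) :
    ContDiffAt ℝ ∞ (fun y : ℝ => (y : ℂ) ^ ((t : ℂ) * I)) x := by
  have h3 : (fun y : ℝ => (y : ℂ) ^ ((t : ℂ) * I)) =ᶠ[𝓝 x]
      fun y : ℝ => cexp (((Real.log y : ℝ) : ℂ) * ((t : ℂ) * I)) := by
    filter_upwards [lt_mem_nhds hx] with y hy
    exact cpow_eq hy t
  refine ContDiffAt.congr_of_eventuallyEq ?_ h3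
  refine ContDiffAt.cexp ?_
  refine ContDiffAt.mul ?_ contDiffAt_const
  exact (Complex.ofRealCLM.contDiff.contDiffAt).comp x (Real.contDiffAt_log.mpr hx.ne')

lemma SS.omt (ha : 0 < a) (h : SS a b w) (t : ℝ) : SS a b (omt w t) where
  cd := by
    rw [contDiff_iff_contDiffAt]
    intro x
    by_cases hx : x < a
    · have : Lim4_47.omt w t =ᶠ[𝓝 x] fun _ => 0 := by
        filter_upwards [gt_mem_nhds hx] with y hy
        simp [Lim4_47.omt, h.supp y (Or.inl hy)]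
      exact contDiffAt_const.congr_of_eventuallyEq this
    · have hx0 : 0 < x := lt_of_lt_of_le ha (not_lt.mp hx)
      exact (h.cd.contDiffAt).mul (contDiffAt_cpow hx0 t)
  supp x hx := by simp [Lim4_47.omt, h.supp x hx]

/-- `(w x^{it})' = w' x^{it} + it (w/x) x^{it}`. -/
lemma deriv_omt (ha : 0 < a) (h : SS a b w) (t : ℝ) :
    deriv (omt w t) = fun x => omt (deriv w) t x + ((t : ℂ) * I) * omt (winv w) t x := by
  funext x
  by_cases hx : x < a
  · rw [((h.omt ha t).ev_zero (Or.inl hx)).deriv_eq]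
    simp [omt, winv, h.supp x (Or.inl hx), h.deriv.supp x (Or.inl hx)]
  · have hx0 : 0 < x := lt_of_lt_of_le ha (not_lt.mp hx)
    have h1 : HasDerivAt w (deriv w x) x := (h.cd.differentiable (by simp) x).hasDerivAt
    have h2 := h1.mul (hasDerivAt_cpow hx0 t)
    have h3 : deriv (omt w t) x = _ := h2.deriv
    rw [h3]
    simp only [omt, winv]
    ring

lemma deriv_const_mul_omt (c : ℂ) (ha : 0 < a) (h : SS a b w) (t x : ℝ) :
    DifferentiableAt ℝ (fun x => c * omt w t x) x :=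
  ((h.omt ha t).cd.differentiable (by simp) x).const_mul c

/-- uniform bounds of the derivatives. -/
theorem cls_omt (ha : 0 < a) (h : SS a b w) :
    ∃ K : ℝ, 0 ≤ K ∧ ∀ t T : ℝ, 1 + |t| ≤ T → Cls a b K T (omt w t) := by
  obtain ⟨K0, hK0, h0⟩ := h.bdd
  obtain ⟨K1, hK1, h1⟩ := h.deriv.bdd
  obtain ⟨K2, hK2, h2⟩ := (h.winv ha).bdd
  obtain ⟨K3, hK3, h3⟩ := h.deriv.deriv.bdd
  obtain ⟨K4, hK4, h4⟩ := (h.deriv.winv ha).bdd
  obtain ⟨K5, hK5, h5⟩ := (h.winv ha).deriv.bdd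
  obtain ⟨K6, hK6, h6⟩ := ((h.winv ha).winv ha).bdd
  refine ⟨K0 + K1 + K2 + K3 + K4 + K5 + K6, by positivity, fun t T hT => ?_⟩
  have ht : 0 ≤ |t| := abs_nonneg t
  have hT1 : 1 ≤ T := by linarith
  have htT : |t| ≤ T := by linarith
  have hnt : ‖(t : ℂ) * I‖ = |t| := by
    rw [norm_mul, Complex.norm_I, mul_one, Complex.norm_real, Real.norm_eq_abs]
  have hom := h.omt ha t
  refine ⟨hom.cd, hom.supp, fun j hj x => ?_⟩
  have hTT : T ≤ T ^ 2 := by nlinarith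
  interval_cases j
  · rw [iteratedDeriv_zero, pow_zero, mul_one, norm_omt ha h]
    have := h0 x
    linarith
  · rw [iteratedDeriv_one, pow_one, deriv_omt ha h]
    have e1 : ‖omt (deriv w) t x + (t : ℂ) * I * omt (winv w) t x‖ ≤ K1 + |t| * K2 := by
      refine (norm_add_le _ _).trans ?_
      rw [norm_mul, hnt, norm_omt ha h.deriv, norm_omt ha (h.winv ha)]
      gcongr
      · exact h1 x
      · exact h2 x
    refine e1.trans ?_
    calc K1 + |t| * K2 ≤ K1 * T + T * K2 := by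
          gcongr
          nlinarith
      _ ≤ (K0 + K1 + K2 + K3 + K4 + K5 + K6) * T := by nlinarith
  · rw [iteratedDeriv_succ, iteratedDeriv_one, deriv_omt ha h]
    have hd1 : DifferentiableAt ℝ (fun x => omt (deriv w) t x) x :=
      (h.deriv.omt ha t).cd.differentiable (by simp) x
    have hd2 : DifferentiableAt ℝ (fun x => (t : ℂ) * I * omt (winv w) t x) x :=
      deriv_const_mul_omt _ ha (h.winv ha) t x
    have e0 : deriv (fun x => omt (deriv w) t x + (t : ℂ) * I * omt (winv w) t x) x =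
        deriv (omt (deriv w) t) x + (t : ℂ) * I * deriv (omt (winv w) t) x := by
      rw [deriv_fun_add hd1 hd2]
      congr 1
      exact deriv_const_mul _ ((h.winv ha).omt ha t |>.cd.differentiable (by simp) x)
    rw [e0, deriv_omt ha h.deriv, deriv_omt ha (h.winv ha)]
    have e1 : ‖omt (deriv (deriv w)) t x + (t : ℂ) * I * omt (winv (deriv w)) t x +
        (t : ℂ) * I * (omt (deriv (winv w)) t x + (t : ℂ) * I * omt (winv (winv w)) t x)‖ ≤
        K3 + |t| * K4 + |t| * (K5 + |t| * K6) := by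
      refine (norm_add_le _ _).trans ?_
      refine add_le_add ?_ ?_
      · refine (norm_add_le _ _).trans ?_
        rw [norm_mul, hnt, norm_omt ha h.deriv.deriv, norm_omt ha (h.deriv.winv ha)]
        gcongr
        · exact h3 x
        · exact h4 x
      · rw [norm_mul, hnt]
        gcongr
        refine (norm_add_le _ _).trans ?_
        rw [norm_mul, hnt, norm_omt ha (h.winv ha).deriv, norm_omt ha ((h.winv ha).winv ha)]
        gcongr
        · exact h5 x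
        · exact h6 x
    refine e1.trans ?_
    have e2 : |t| * |t| ≤ T ^ 2 := by nlinarith
    have e3 : |t| ≤ T ^ 2 := by linarith
    have e4 : 1 ≤ T ^ 2 := by nlinarith
    calc K3 + |t| * K4 + |t| * (K5 + |t| * K6) = K3 * 1 + |t| * K4 + |t| * K5 + |t| * |t| * K6 := by
          ring
      _ ≤ K3 * T ^ 2 + T ^ 2 * K4 + T ^ 2 * K5 + T ^ 2 * K6 := by gcongr
      _ ≤ (K0 + K1 + K2 + K3 + K4 + K5 + K6) * T ^ 2 := by
        have : 0 ≤ (K0 + K1 + K2) * T ^ 2 := by positivity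
        nlinarith

end

/-! ### the Mellin moment -/

lemma Ww_eq (w : ℝ → ℂ) (h0 : w 0 = 0) (t : ℝ) (l : ℤ) {B : ℝ} (hB : 0 < B) (z : ℂ) :
    Ww w t l B z = (B : ℂ) ^ ((t : ℂ) * I) * Uf (omt w t) l B z := by
  by_cases hz : z = 0
  · simp [Ww, Uf, omt, hz, h0]
  · have hn : 0 < ‖z‖ := norm_pos_iff.mpr hz
    have hn2 : 0 < ‖z‖ ^ 2 / B := by positivity
    have e1 : ((‖z‖ : ℝ) : ℂ) ^ (2 * (t : ℂ) * I) =
        (B : ℂ) ^ ((t : ℂ) * I) * ((‖z‖ ^ 2 / B : ℝ) : ℂ) ^ ((t : ℂ) * I) := by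
      rw [cpow_eq hB, cpow_eq hn2, ← Complex.exp_add,
        Complex.cpow_def_of_ne_zero (by exact_mod_cast hn.ne'), ← Complex.ofReal_log hn.le,
        Real.log_div (by positivity) hB.ne', Real.log_pow]
      congr 1
      push_cast
      ring
    unfold Ww Uf omt
    rw [e1]
    ring

lemma norm_B_it {B : ℝ} (hB : 0 < B) (t : ℝ) : ‖(B : ℂ) ^ ((t : ℂ) * I)‖ = 1 :=
  norm_cpow_it hB t

lemma mU_const_mul (c : ℂ) (U : ℂ → ℂ) : mU (fun z => c * U z) = c * mU U := by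
  unfold mU
  rw [← integral_const_mul]
  congr 1
  funext z
  ring

/-- dilation. -/
lemma mU_dil (U : ℂ → ℂ) {e : ℂ} (he : e ≠ 0) :
    mU (fun z => U (z * e)) = ((‖e‖ ^ (-(8 / 3) : ℝ) : ℝ) : ℂ) * mU U := by
  have hn : 0 < ‖e‖ := norm_pos_iff.mpr he
  unfold mU
  rw [integral_comp_mul_left' he (fun z => U z * ((‖z‖ ^ (2 / 3 : ℝ) : ℝ) : ℂ)),
    Complex.real_smul, ← mul_assoc, ← integral_const_mul]
  congr 1
  funext z
  rw [norm_mul, Real.mul_rpow hn.le (norm_nonneg _), mul_comm e z]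
  have e1 : ‖e‖ ^ (-(8 / 3) : ℝ) * ‖e‖ ^ 2 * ‖e‖ ^ (2 / 3 : ℝ) = 1 := by
    rw [← Real.rpow_natCast, ← Real.rpow_add hn, ← Real.rpow_add hn]
    norm_num
  have e2 : (((‖e‖ ^ (-(8 / 3) : ℝ) : ℝ) : ℂ) * ((‖e‖ ^ 2 : ℝ) : ℂ)) *
      ((‖e‖ ^ (2 / 3 : ℝ) : ℝ) : ℂ) = 1 := by
    rw [← Complex.ofReal_mul, ← Complex.ofReal_mul, e1, Complex.ofReal_one]
  push_cast at e2 ⊢
  linear_combination (-(U (z * e)) * ((‖z‖ ^ (2 / 3 : ℝ) : ℝ) : ℂ)) * e2

lemma mU_rot (U : ℂ → ℂ) {ζ c : ℂ} (hζ : ‖ζ‖ = 1) (hU : ∀ z, U (z * ζ) = c * U z) (hc : c ≠ 1) :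
    mU U = 0 := by
  have hζ0 : ζ ≠ 0 := by
    intro h; rw [h, norm_zero] at hζ; exact zero_ne_one hζ
  have h1 := mU_dil U hζ0
  have h2 : (fun z => U (z * ζ)) = fun z => c * U z := funext hU
  rw [h2, mU_const_mul, hζ, Real.one_rpow, Complex.ofReal_one, one_mul] at h1
  have h3 : (c - 1) * mU U = 0 := by rw [sub_mul, h1]; ring
  rcases mul_eq_zero.mp h3 with h | h
  · exact absurd (sub_eq_zero.mp h) hc
  · exact h

lemma Uf_rot (om : ℝ → ℂ) (l : ℤ) (B : ℝ) {ζ : ℂ} (hζ : ‖ζ‖ = 1) (z : ℂ) :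
    Uf om l B (z * ζ) = ζ ^ l * Uf om l B z := by
  unfold Uf
  rw [norm_mul, hζ, mul_one, show z * ζ / (‖z‖ : ℂ) = ζ * (z / (‖z‖ : ℂ)) by ring, mul_zpow]
  ring

/-- angular case. -/
lemma mU_Uf_ne (om : ℝ → ℂ) {l : ℤ} (hl : l ≠ 0) (B : ℝ) : mU (Uf om l B) = 0 := by
  have hl' : (l : ℂ) ≠ 0 := by exact_mod_cast hl
  refine mU_rot (ζ := cexp ((Real.pi / l : ℝ) * I)) (c := -1) _
    (Complex.norm_exp_ofReal_mul_I _) (fun z => ?_) (by norm_num)
  rw [Uf_rot om l B (Complex.norm_exp_ofReal_mul_I _)]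
  congr 1
  rw [← Complex.exp_int_mul]
  have : (l : ℂ) * (((Real.pi / l : ℝ) : ℂ) * I) = Real.pi * I := by
    push_cast
    field_simp
  rw [this, Complex.exp_pi_mul_I]

/-- radial case. -/
lemma mU_Uf_zero (om : ℝ → ℂ) {B : ℝ} (hB : 0 < B) :
    mU (Uf om 0 B) = (Real.pi : ℂ) * ((B ^ ((4 : ℝ) / 3) : ℝ) : ℂ) * mom om := by
  have e1 : mU (Uf om 0 B) = ∫ z : ℂ,
      (fun r : ℝ => om (r ^ 2 / B) * ((r ^ (2 / 3 : ℝ) : ℝ) : ℂ)) ‖z‖ := by
    unfold mU Uf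
    simp
  have e2 := integral_fun_norm_addHaar (volume : Measure ℂ)
    (fun r : ℝ => om (r ^ 2 / B) * ((r ^ (2 / 3 : ℝ) : ℝ) : ℂ))
  rw [e1, e2, Complex.finrank_real_complex]
  have e3 : (volume : Measure ℂ).real (Metric.ball 0 1) = Real.pi := by
    rw [Measure.real, Complex.volume_ball]
    simp
  rw [e3]
  set g : ℝ → ℂ := fun x => om (x / B) * ((x ^ ((1 : ℝ) / 3) : ℝ) : ℂ) with hg
  have e4 : ∫ y in Ioi (0 : ℝ), y ^ (2 - 1) • (om (y ^ 2 / B) * ((y ^ (2 / 3 : ℝ) : ℝ) : ℂ)) =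
      (1 / 2 : ℂ) * ∫ y in Ioi (0 : ℝ), g y := by
    rw [← integral_comp_rpow_Ioi_of_pos (g := g) (p := 2) (by norm_num), ← integral_const_mul]
    refine setIntegral_congr_fun measurableSet_Ioi fun y hy => ?_
    have hy' : (0 : ℝ) < y := hy
    simp only [hg, Complex.real_smul]
    have e5 : (y ^ (2 : ℝ)) ^ ((1 : ℝ) / 3) = y ^ (2 / 3 : ℝ) := by
      rw [← Real.rpow_mul hy'.le]; norm_num
    rw [e5]
    have e6 : y ^ ((2 : ℝ) - 1) = y := by norm_num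
    rw [e6, Real.rpow_two]
    push_cast
    ring
  have e7 : ∫ y in Ioi (0 : ℝ), g y = ((B ^ ((4 : ℝ) / 3) : ℝ) : ℂ) * mom om := by
    have h1 := integral_comp_mul_left_Ioi' g 0 hB
    rw [mul_zero] at h1
    rw [← h1, Complex.real_smul]
    unfold mom
    rw [← integral_const_mul, ← integral_const_mul]
    refine setIntegral_congr_fun measurableSet_Ioi fun y hy => ?_
    have hy' : (0 : ℝ) < y := hy
    simp only [hg]
    rw [mul_div_cancel_left₀ _ hB.ne', Real.mul_rpow hB.le hy'.le]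
    have e8 : (B : ℝ) ^ ((4 : ℝ) / 3) = B * B ^ ((1 : ℝ) / 3) := by
      rw [← Real.rpow_one_add' hB.le (by norm_num)]
      norm_num
    rw [e8]
    push_cast
    ring
  rw [e4, e7]
  simp only [Complex.real_smul, nsmul_eq_mul]
  push_cast
  ring

lemma mU_Ww (w : ℝ → ℂ) (h0 : w 0 = 0) (t : ℝ) (l : ℤ) {B : ℝ} (hB : 0 < B) {e : ℂ}
    (he : e ≠ 0) :
    mU (fun z => Ww w t l B (z * e)) =
      (B : ℂ) ^ ((t : ℂ) * I) * (if l = 0 then
        (Real.pi : ℂ) * (((B / ‖e‖ ^ 2) ^ ((4 : ℝ) / 3) : ℝ) : ℂ) * mom (omt w t) else 0) := by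
  have e1 : (fun z => Ww w t l B (z * e)) = fun z => (B : ℂ) ^ ((t : ℂ) * I) *
      Uf (omt w t) l B (z * e) := by
    funext z; exact Ww_eq w h0 t l hB _
  rw [e1, mU_const_mul, mU_dil _ he]
  congr 1
  by_cases hl : l = 0
  · rw [if_pos hl, hl, mU_Uf_zero _ hB]
    have hn : 0 < ‖e‖ := norm_pos_iff.mpr he
    have e2 : (B / ‖e‖ ^ 2) ^ ((4 : ℝ) / 3) = B ^ ((4 : ℝ) / 3) * ‖e‖ ^ (-(8 / 3) : ℝ) := by
      rw [Real.div_rpow hB.le (by positivity), ← Real.rpow_natCast, ← Real.rpow_mul hn.le,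
        div_eq_mul_inv, ← Real.rpow_neg hn.le]
      norm_num
    rw [e2]
    push_cast
    ring
  · rw [if_neg hl, mU_Uf_ne _ hl, mul_zero]

/-! ### the sums -/

lemma Sg_const_mul (c : ℂ) (W : ℂ → ℂ) (ψ : Eis → ℂ) (u : Eis) (e : ℂ) :
    Sg ψ (fun z => c * W z) u e = c * Sg ψ W u e := by
  classical
  unfold Sg
  rw [← tsum_mul_left]
  refine tsum_congr fun d => ?_
  by_cases hd : IsPrim d
  · simp only [hd, if_true]; ring
  · simp [hd]

lemma Sg_Ww (w : ℝ → ℂ) (h0 : w 0 = 0) (t : ℝ) (l : ℤ) {B : ℝ} (hB : 0 < B) (ψ : Eis → ℂ)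
    (u : Eis) (e : ℂ) :
    Sg ψ (Ww w t l B) u e = (B : ℂ) ^ ((t : ℂ) * I) * Sg ψ (Uf (omt w t) l B) u e := by
  rw [← Sg_const_mul]
  congr 1
  funext z
  exact Ww_eq w h0 t l hB z

lemma RH_eq {C r K s B τ : ℝ} (hs : 0 < s) :
    RH C r K s⁻¹ B τ = (C * K ^ 2) * ((1 + r ^ 4) / r ^ 4) * (B ^ 2 * s ^ 2) * (1 + B) ^ τ := by
  unfold RH
  have : ((s⁻¹ ^ 2 : ℝ))⁻¹ = s ^ 2 := by rw [inv_pow, inv_inv]
  rw [this]
  ring

lemma norm_sq_ofReal (x : ℂ) {y : ℝ} (hy : 0 ≤ y) :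
    ENNReal.ofReal (‖x‖ ^ 2 * y) = ‖x‖ₑ ^ 2 * ENNReal.ofReal y := by
  rw [ENNReal.ofReal_mul (by positivity), ENNReal.ofReal_pow (norm_nonneg _), ofReal_norm]

/-- **The adapter.** -/
theorem lim4 {ρ : Eis → ℂ} {phi : ℂ → ℂ} (hK1 : K1_Prop) (hK3 : K3_Prop ρ)
    (hφ : TestFn286.SP (1 / 4) phi) : Lim4 phi (fun u => ρ u / Real.pi) := by
  intro l w d hd hw
  obtain ⟨a, b, ha, hab, hsupp⟩ := hw.supp
  have hw0 : w 0 = 0 := hsupp 0 (Or.inl ha)
  have hS : SS a b w := ⟨hw.smooth, hsupp⟩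
  obtain ⟨K, hK, hcls⟩ := cls_omt ha hS
  have hpi : (Real.pi : ℂ) ≠ 0 := by exact_mod_cast Real.pi_ne_zero
  -- common part
  have key : ∀ (C : ℝ) (F : ℝ → ℝ → Eis → ℂ → ℂ),
      (∀ (t B : ℝ) (u : Eis) (e : ℂ), 0 < B → e ≠ 0 →
        ‖Sg (fun _ => 1) (Ww w t l B) u e -
            mU (fun z => Ww w t l B (z * e)) * (ρ u / Real.pi)‖ = ‖F t B u e‖) →
      (∀ (t T B r : ℝ) (S : Finset Eis), 1 + |t| ≤ T → 0 < B → 0 < r →
        BX r T phi S (F t B) ≤ ENNReal.ofReal (RH C r K T B d)) →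
      ∀ (t s B r : ℝ), 0 < s → s * (1 + |t|) ≤ 1 → 0 < B → 0 < r → ∀ S : Finset Eis,
      ∫⁻ v in ann r (2 * r), ∫⁻ e in ann (1 / r) (2 / r), ∑ u ∈ S,
        ENNReal.ofReal (‖Sg (fun _ => 1) (Ww w t l B) u e -
            mU (fun z => Ww w t l B (z * e)) * (ρ u / Real.pi)‖ ^ 2 *
          (‖e / v‖ ^ 4 * ‖phat (fun z => phi (z / s)) (frq 3 u * e / v)‖ ^ 2)) ≤
        ENNReal.ofReal ((C * K ^ 2) * ((1 + r ^ 4) / r ^ 4) * (B ^ 2 * s ^ 2) * (1 + B) ^ d) := by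
    intro C F hF hBX t s B r hs hst hB hr S
    have hT : 1 + |t| ≤ s⁻¹ := by
      rw [le_inv_comm₀ (by positivity) hs, ← one_div, le_div_iff₀ (by positivity)]
      exact hst
    have h := hBX t s⁻¹ B r S hT hB hr
    rw [RH_eq hs] at h
    refine le_trans (le_of_eq ?_) h
    unfold BX
    refine lintegral_congr fun v => ?_
    refine setLIntegral_congr_fun (measurableSet_ann _ _) fun e he => ?_
    have he0 : e ≠ 0 := by
      intro h0
      rw [h0] at he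
      have : 1 / r ≤ ‖(0 : ℂ)‖ := he.1
      rw [norm_zero] at this
      have : 0 < 1 / r := by positivity
      linarith
    refine Finset.sum_congr rfl fun u _ => ?_
    rw [hF t B u e hB he0, norm_sq_ofReal _ (by positivity)]
    congr 2
    unfold wtB
    congr 3
    congr 1
    funext z
    congr 1
    push_cast
    rw [div_eq_mul_inv, mul_comm]
  by_cases hl : l = 0
  · subst hl
    obtain ⟨C, hC, h3⟩ := hK3 a b phi d ha hab.le hφ hd
    refine ⟨C * K ^ 2, by positivity, ?_⟩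
    refine key C (fun t B u e => Sg (fun _ => 1) (Uf (omt w t) 0 B) u e -
        (((B / ‖e‖ ^ 2) ^ ((4 : ℝ) / 3) : ℝ) : ℂ) * mom (omt w t) * ρ u) ?_ ?_
    · intro t B u e hB he
      rw [Sg_Ww w hw0 t 0 hB, mU_Ww w hw0 t 0 hB he, if_pos rfl]
      have : (B : ℂ) ^ ((t : ℂ) * I) * Sg (fun _ => 1) (Uf (omt w t) 0 B) u e -
          (B : ℂ) ^ ((t : ℂ) * I) * ((Real.pi : ℂ) *
            (((B / ‖e‖ ^ 2) ^ ((4 : ℝ) / 3) : ℝ) : ℂ) * mom (omt w t)) * (ρ u / Real.pi) =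
          (B : ℂ) ^ ((t : ℂ) * I) * (Sg (fun _ => 1) (Uf (omt w t) 0 B) u e -
            (((B / ‖e‖ ^ 2) ^ ((4 : ℝ) / 3) : ℝ) : ℂ) * mom (omt w t) * ρ u) := by
        field_simp
      rw [this, norm_mul, norm_B_it hB, one_mul]
    · intro t T B r S hT hB hr
      have hT1 : 1 ≤ T := by
        have := abs_nonneg t
        linarith
      exact h3 K T (omt w t) B r S (hcls t T hT) hK hT1 hB hr
  · obtain ⟨C, hC, h1⟩ := hK1 a b l phi d ha hab.le hφ hd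
    refine ⟨C * K ^ 2, by positivity, ?_⟩
    refine key C (fun t B u e => Sg (fun _ => 1) (Uf (omt w t) l B) u e) ?_ ?_
    · intro t B u e hB he
      rw [Sg_Ww w hw0 t l hB, mU_Ww w hw0 t l hB he, if_neg hl, mul_zero, zero_mul, sub_zero,
        norm_mul, norm_B_it hB, one_mul]
    · intro t T B r S hT hB hr
      have hT1 : 1 ≤ T := by
        have := abs_nonneg t
        linarith
      exact h1 K T (omt w t) B r S (hcls t T hT) hK hT1 hB hr (Or.inl hl)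

end Crest.Agent.R012.Lim4_47
end
end

-- ▼ part R012/KRho_813
section

/-!
# Row 12, (ML): K1 implies K3

The sums `S_u(om;Y) = Σ_{d ≡ 1} conj g(u,d) om(N d / Y)` satisfy
`d/dY (Y^{-4/3} S_u(om;Y)) = Y^{-7/3} S_u(om1;Y)` with `om1 = -(4/3) om - x om'`, and `om1` has
`∫ om1 x^{1/3} = 0`.  Hence K1 shows that `Y^{-4/3} S_u(om;Y)` has a limit `ρ_u` and it gives the
mean-square bound of the difference.
-/

set_option autoImplicit false

noncomputable section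

open MeasureTheory Set Filter Complex
open scoped ENNReal Topology ContDiff ComplexConjugate

namespace Crest.Agent.R012.KRho813

open Crest.Agent.R012 Crest.Agent.R012.Eis Crest.Agent.R012.Parseval499
open Crest.Agent.R012.StripCo813 Crest.Agent.R012.Four813 Crest.Agent.R012.ML384

open Classical in
/-- `Σ_{d ≡ 1} conj g(u,d) om(N d / Y)`. -/
def St (om : ℝ → ℂ) (u : Eis) (Y : ℝ) : ℂ :=
  ∑' d : Eis, if IsPrim d then conj (gs u d) * om ((nm d : ℝ) / Y) else 0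

lemma Sg_Uf_zero (om : ℝ → ℂ) (u : Eis) (B : ℝ) (e : ℂ) :
    Sg (fun _ => 1) (Uf om 0 B) u e = St om u (B / ‖e‖ ^ 2) := by
  unfold Sg St Uf
  refine tsum_congr fun d => ?_
  by_cases hd : IsPrim d
  · simp only [hd, if_true, one_mul, zpow_zero, mul_one]
    congr 2
    rw [norm_mul, mul_pow, norm_toC_sq, div_div_eq_mul_div]
  · simp [hd]

open Classical in
lemma St_eq_sum {om : ℝ → ℂ} {b : ℝ} (hs : ∀ x, b < x → om x = 0) (u : Eis) {Y : ℝ} (hY : 0 < Y)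
    {N : ℕ} (hN : b * Y ≤ N) :
    St om u Y = ∑ d ∈ ball N, if IsPrim d then conj (gs u d) * om ((nm d : ℝ) / Y) else 0 := by
  unfold St
  refine tsum_eq_sum fun d hd => ?_
  rw [mem_ball, not_le] at hd
  split_ifs
  · rw [hs _ ?_, mul_zero]
    rw [lt_div_iff₀ hY]
    exact hN.trans_lt (by exact_mod_cast hd)
  · rfl

/-- `-(4/3) om - x om'`. -/
def om1 (om : ℝ → ℂ) (x : ℝ) : ℂ := -(4 / 3 : ℂ) * om x - (x : ℂ) * deriv om x

lemma deriv_zero_of_supp {om : ℝ → ℂ} {b : ℝ} (hs : ∀ x, b < x → om x = 0) {x : ℝ} (hx : b < x) :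
    deriv om x = 0 := by
  have h : om =ᶠ[𝓝 x] fun _ => 0 := by
    filter_upwards [lt_mem_nhds hx] with y hy using hs y hy
  rw [h.deriv_eq]; simp

lemma deriv_zero_of_supp' {om : ℝ → ℂ} {a : ℝ} (hs : ∀ x, x < a → om x = 0) {x : ℝ} (hx : x < a) :
    deriv om x = 0 := by
  have h : om =ᶠ[𝓝 x] fun _ => 0 := by
    filter_upwards [gt_mem_nhds hx] with y hy using hs y hy
  rw [h.deriv_eq]; simp

lemma om1_supp {om : ℝ → ℂ} {b : ℝ} (hs : ∀ x, b < x → om x = 0) : ∀ x, b < x → om1 om x = 0 := by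
  intro x hx
  simp [om1, hs x hx, deriv_zero_of_supp hs hx]

lemma om1_supp' {om : ℝ → ℂ} {a : ℝ} (hs : ∀ x, x < a → om x = 0) : ∀ x, x < a → om1 om x = 0 := by
  intro x hx
  simp [om1, hs x hx, deriv_zero_of_supp' hs hx]

lemma hasDerivAt_term {om : ℝ → ℂ} (hd : Differentiable ℝ om) (n : ℝ) {Y : ℝ} (hY : 0 < Y) :
    HasDerivAt (fun y : ℝ => ((y ^ (-(4 : ℝ) / 3) : ℝ) : ℂ) * om (n / y))
      (((Y ^ (-(7 : ℝ) / 3) : ℝ) : ℂ) * om1 om (n / Y)) Y := by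
  have h1 : HasDerivAt (fun y : ℝ => y ^ (-(4 : ℝ) / 3)) ((-(4 : ℝ) / 3) * Y ^ (-(4 : ℝ) / 3 - 1)) Y :=
    Real.hasDerivAt_rpow_const (Or.inl hY.ne')
  have h2 : HasDerivAt (fun y : ℝ => n / y) (-(n / Y ^ 2)) Y := by
    refine ((hasDerivAt_inv hY.ne').const_mul n).congr_deriv ?_
    ring
  have h3 : HasDerivAt (fun y : ℝ => om (n / y)) ((-(n / Y ^ 2)) • deriv om (n / Y)) Y :=
    HasDerivAt.scomp Y (hd _).hasDerivAt h2
  refine (h1.ofReal_comp.fun_mul h3).congr_deriv ?_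
  have e1 : (-(4 : ℝ) / 3 - 1) = -(7 : ℝ) / 3 := by norm_num
  have e2 : Y ^ (-(4 : ℝ) / 3) = Y * Y ^ (-(7 : ℝ) / 3) := by
    rw [← Real.rpow_one_add' hY.le (by norm_num)]
    norm_num
  rw [e1, e2]
  unfold om1
  have hY' : (Y : ℂ) ≠ 0 := by exact_mod_cast hY.ne'
  rw [Complex.real_smul]
  push_cast
  field_simp
  ring

open Classical in
theorem hasDerivAt_St {om : ℝ → ℂ} (hd : Differentiable ℝ om) {b : ℝ}
    (hs : ∀ x, b < x → om x = 0) (hb : 0 ≤ b) (u : Eis) {Y : ℝ} (hY : 0 < Y) :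
    HasDerivAt (fun y : ℝ => ((y ^ (-(4 : ℝ) / 3) : ℝ) : ℂ) * St om u y)
      (((Y ^ (-(7 : ℝ) / 3) : ℝ) : ℂ) * St (om1 om) u Y) Y := by
  obtain ⟨N, hN⟩ := exists_nat_ge (b * (Y + 1))
  have h1 : (fun y : ℝ => ((y ^ (-(4 : ℝ) / 3) : ℝ) : ℂ) * St om u y) =ᶠ[𝓝 Y]
      fun y => ∑ d ∈ ball N, if IsPrim d then
        conj (gs u d) * (((y ^ (-(4 : ℝ) / 3) : ℝ) : ℂ) * om ((nm d : ℝ) / y)) else 0 := by
    filter_upwards [lt_mem_nhds hY, gt_mem_nhds (lt_add_one Y)] with y h2 h3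
    rw [St_eq_sum hs u h2 (N := N) (le_trans (by gcongr) hN), Finset.mul_sum]
    refine Finset.sum_congr rfl fun d _ => ?_
    split_ifs
    · ring
    · simp
  refine HasDerivAt.congr_of_eventuallyEq ?_ h1
  rw [St_eq_sum (om1_supp hs) u hY (N := N) (le_trans (by gcongr; linarith) hN), Finset.mul_sum]
  refine HasDerivAt.fun_sum fun d _ => ?_
  split_ifs
  · refine ((hasDerivAt_term hd (nm d : ℝ) hY).const_mul (conj (gs u d))).congr_deriv ?_
    ring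
  · simpa using hasDerivAt_const Y (0 : ℂ)

open Classical in
theorem continuousOn_St {om : ℝ → ℂ} (hc : Continuous om) {b : ℝ}
    (hs : ∀ x, b < x → om x = 0) (hb : 0 ≤ b) (u : Eis) : ContinuousOn (St om u) (Ioi 0) := by
  intro Y hY
  have hY : 0 < Y := hY
  refine ContinuousAt.continuousWithinAt ?_
  obtain ⟨N, hN⟩ := exists_nat_ge (b * (Y + 1))
  have h1 : St om u =ᶠ[𝓝 Y]
      fun y => ∑ d ∈ ball N, if IsPrim d then conj (gs u d) * om ((nm d : ℝ) / y) else 0 := by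
    filter_upwards [lt_mem_nhds hY, gt_mem_nhds (lt_add_one Y)] with y h2 h3
    exact St_eq_sum hs u h2 (N := N) (le_trans (by gcongr) hN)
  refine ContinuousAt.congr ?_ h1.symm
  refine tendsto_finsetSum _ fun d _ => ?_
  split_ifs
  · refine ContinuousAt.mul continuousAt_const ?_
    refine ContinuousAt.comp (f := fun y : ℝ => (nm d : ℝ) / y) hc.continuousAt ?_
    exact continuousAt_const.div continuousAt_id hY.ne'
  · exact tendsto_const_nhds

/-- a measurable version of `St`. -/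
def Sm (om : ℝ → ℂ) (u : Eis) : ℝ → ℂ := (Ioi (0 : ℝ)).indicator (St om u)

lemma measurable_Sm {om : ℝ → ℂ} (hc : Continuous om) {b : ℝ}
    (hs : ∀ x, b < x → om x = 0) (hb : 0 ≤ b) (u : Eis) : Measurable (Sm om u) := by
  classical
  have := (continuousOn_St hc hs hb u).measurable_piecewise (g := (0 : ℝ → ℂ))
    continuousOn_const measurableSet_Ioi
  rwa [Set.piecewise_eq_indicator] at this

lemma Sm_eq (om : ℝ → ℂ) (u : Eis) {Y : ℝ} (hY : 0 < Y) : Sm om u Y = St om u Y :=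
  indicator_of_mem (show Y ∈ Ioi (0 : ℝ) from hY) _

/-! ### tools -/

lemma cs {f g : ℝ → ℝ≥0∞} {μ : Measure ℝ} (hf : AEMeasurable f μ) (hg : AEMeasurable g μ) :
    (∫⁻ x, f x * g x ∂μ) ^ 2 ≤ (∫⁻ x, f x ^ 2 ∂μ) * ∫⁻ x, g x ^ 2 ∂μ := by
  have h := ENNReal.lintegral_mul_le_Lp_mul_Lq μ (Real.HolderConjugate.two_two) hf hg
  have e : ∀ x : ℝ≥0∞, (x ^ ((1 : ℝ) / 2)) ^ 2 = x := by
    intro x
    rw [← ENNReal.rpow_natCast, ← ENNReal.rpow_mul]
    norm_num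
  calc (∫⁻ x, f x * g x ∂μ) ^ 2 ≤ ((∫⁻ x, f x ^ (2 : ℝ) ∂μ) ^ ((1 : ℝ) / 2) *
        (∫⁻ x, g x ^ (2 : ℝ) ∂μ) ^ ((1 : ℝ) / 2)) ^ 2 := by
        gcongr
        exact h
    _ = _ := by
        rw [mul_pow, e, e]
        simp only [ENNReal.rpow_two]

lemma lint_scale {Y : ℝ} (hY : 0 < Y) (F : ℝ → ℝ≥0∞) (c : ℝ) :
    ∫⁻ y in Ioi (c * Y), F y = ENNReal.ofReal Y * ∫⁻ k in Ioi c, F (k * Y) := by
  have h1 : Ioi (c * Y) = (fun k : ℝ => k * Y) '' Ioi c := by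
    ext y
    simp only [mem_Ioi, mem_image]
    constructor
    · intro h
      exact ⟨y / Y, by rwa [lt_div_iff₀ hY], by field_simp⟩
    · rintro ⟨k, hk, rfl⟩
      gcongr
  rw [h1, lintegral_image_eq_lintegral_abs_deriv_mul measurableSet_Ioi (f' := fun _ => Y)
    (fun x _ => by simpa using ((hasDerivAt_id x).mul_const Y).hasDerivWithinAt)
    (fun x _ y _ h => by simpa [hY.ne'] using h), abs_of_pos hY,
    lintegral_const_mul' _ _ ENNReal.ofReal_ne_top]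

lemma lint_rpow {a : ℝ} (ha : a < -1) {c : ℝ} (hc : 0 < c) :
    ∫⁻ t in Ioi c, ENNReal.ofReal (t ^ a) = ENNReal.ofReal (-c ^ (a + 1) / (a + 1)) := by
  rw [← ofReal_integral_eq_lintegral_ofReal, integral_Ioi_rpow_of_lt ha hc]
  · exact integrableOn_Ioi_rpow_of_lt ha hc
  · refine (ae_restrict_iff' measurableSet_Ioi).mpr (Eventually.of_forall fun t ht => ?_)
    have : 0 < t := hc.trans ht
    positivity

/-! ### the limit -/

/-- If `A' = y^{-7/3} g` and `∫^∞ y^{-10/3} |g|² < ∞` then `A` has a limit, with a bound. -/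
theorem exists_limit {A g : ℝ → ℂ} (hg : ContinuousOn g (Ioi 0))
    (hA : ∀ y, 0 < y → HasDerivAt A (((y ^ (-(7 : ℝ) / 3) : ℝ) : ℂ) * g y) y)
    {Y0 : ℝ} (hY0 : 0 < Y0)
    (hfin : ∫⁻ y in Ioi Y0, ENNReal.ofReal (y ^ (-(10 : ℝ) / 3)) * ‖g y‖ₑ ^ 2 ≠ ⊤) :
    ∃ ρ : ℂ, ∀ Y, 0 < Y → ‖A Y - ρ‖ₑ ^ 2 ≤ ENNReal.ofReal (3 * Y ^ (-(1 : ℝ) / 3)) *
      ∫⁻ y in Ioi Y, ENNReal.ofReal (y ^ (-(10 : ℝ) / 3)) * ‖g y‖ₑ ^ 2 := by
  have hmono : ∀ {Y : ℝ}, 0 < Y → Ioi Y ⊆ Ioi (0 : ℝ) := fun hY => Ioi_subset_Ioi hY.le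
  have hcont : ContinuousOn (fun y : ℝ => ((y ^ (-(7 : ℝ) / 3) : ℝ) : ℂ) * g y) (Ioi 0) := by
    refine ContinuousOn.mul ?_ hg
    refine Complex.continuous_ofReal.comp_continuousOn ?_
    exact ContinuousOn.rpow_const continuousOn_id fun x hx => Or.inl (ne_of_gt hx)
  have hcs : ∀ Y, 0 < Y → (∫⁻ y in Ioi Y, ‖((y ^ (-(7 : ℝ) / 3) : ℝ) : ℂ) * g y‖ₑ) ^ 2 ≤
      ENNReal.ofReal (3 * Y ^ (-(1 : ℝ) / 3)) *
      ∫⁻ y in Ioi Y, ENNReal.ofReal (y ^ (-(10 : ℝ) / 3)) * ‖g y‖ₑ ^ 2 := by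
    intro Y hY
    have hm1 : AEMeasurable (fun y : ℝ => ENNReal.ofReal (y ^ (-(2 : ℝ) / 3)))
        (volume.restrict (Ioi Y)) := by fun_prop
    have hm2 : AEMeasurable (fun y : ℝ => ENNReal.ofReal (y ^ (-(5 : ℝ) / 3)) * ‖g y‖ₑ)
        (volume.restrict (Ioi Y)) := by
      refine AEMeasurable.mul
        (by fun_prop : AEMeasurable (fun y : ℝ => ENNReal.ofReal (y ^ (-(5 : ℝ) / 3)))
          (volume.restrict (Ioi Y))) ?_
      exact ((hg.mono (hmono hY)).aemeasurable measurableSet_Ioi).enorm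
    have h := cs hm1 hm2
    calc (∫⁻ y in Ioi Y, ‖((y ^ (-(7 : ℝ) / 3) : ℝ) : ℂ) * g y‖ₑ) ^ 2
        = (∫⁻ y in Ioi Y, ENNReal.ofReal (y ^ (-(2 : ℝ) / 3)) *
            (ENNReal.ofReal (y ^ (-(5 : ℝ) / 3)) * ‖g y‖ₑ)) ^ 2 := by
          congr 1
          refine setLIntegral_congr_fun measurableSet_Ioi fun y hy => ?_
          have hy0 : 0 < y := hY.trans hy
          rw [enorm_mul, ← mul_assoc, ← ENNReal.ofReal_mul (by positivity), ← Real.rpow_add hy0]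
          congr 1
          rw [← ofReal_norm, Complex.norm_real, Real.norm_of_nonneg (by positivity)]
          norm_num
      _ ≤ _ := h
      _ = (∫⁻ y in Ioi Y, ENNReal.ofReal (y ^ (-(4 : ℝ) / 3))) *
          ∫⁻ y in Ioi Y, ENNReal.ofReal (y ^ (-(10 : ℝ) / 3)) * ‖g y‖ₑ ^ 2 := by
          congr 1
          · refine setLIntegral_congr_fun measurableSet_Ioi fun y hy => ?_
            have hy0 : 0 < y := hY.trans hy
            rw [← ENNReal.ofReal_pow (by positivity), ← Real.rpow_mul_natCast hy0.le]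
            norm_num
          · refine setLIntegral_congr_fun measurableSet_Ioi fun y hy => ?_
            have hy0 : 0 < y := hY.trans hy
            rw [mul_pow, ← ENNReal.ofReal_pow (by positivity), ← Real.rpow_mul_natCast hy0.le]
            norm_num
      _ = _ := by
          rw [lint_rpow (by norm_num) hY]
          congr 2
          norm_num
          ring
  -- integrability
  have hint0 : IntegrableOn (fun y : ℝ => ((y ^ (-(7 : ℝ) / 3) : ℝ) : ℂ) * g y) (Ioi Y0) := by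
    refine ⟨(hcont.mono (hmono hY0)).aestronglyMeasurable measurableSet_Ioi, ?_⟩
    have h1 := hcs Y0 hY0
    have h2 : (∫⁻ y in Ioi Y0, ‖((y ^ (-(7 : ℝ) / 3) : ℝ) : ℂ) * g y‖ₑ) ^ 2 < ⊤ :=
      h1.trans_lt (ENNReal.mul_lt_top ENNReal.ofReal_lt_top (lt_top_iff_ne_top.mpr hfin))
    exact (ENNReal.pow_lt_top_iff.mp h2).resolve_right (by norm_num)
  have hint : ∀ Y, 0 < Y →
      IntegrableOn (fun y : ℝ => ((y ^ (-(7 : ℝ) / 3) : ℝ) : ℂ) * g y) (Ioi Y) := by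
    intro Y hY
    have h1 : IntegrableOn (fun y : ℝ => ((y ^ (-(7 : ℝ) / 3) : ℝ) : ℂ) * g y) (Icc Y Y0) := by
      refine ContinuousOn.integrableOn_compact isCompact_Icc (hcont.mono ?_)
      intro y hy
      exact hY.trans_le hy.1
    refine (h1.union hint0).mono_set ?_
    intro y hy
    rcases le_or_gt y Y0 with h | h
    · exact Or.inl ⟨(mem_Ioi.mp hy).le, h⟩
    · exact Or.inr h
  refine ⟨limUnder atTop A, fun Y hY => ?_⟩
  have hlim : Tendsto A atTop (𝓝 (limUnder atTop A)) :=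
    tendsto_limUnder_of_hasDerivAt_of_integrableOn_Ioi
      (fun y hy => hA y (hY.trans hy)) (hint Y hY)
  have h3 := integral_Ioi_of_hasDerivAt_of_tendsto' (a := Y)
    (fun y hy => hA y (hY.trans_le hy)) (hint Y hY) hlim
  have h4 : ‖A Y - limUnder atTop A‖ₑ =
      ‖∫ y in Ioi Y, ((y ^ (-(7 : ℝ) / 3) : ℝ) : ℂ) * g y‖ₑ := by
    rw [h3, ← enorm_neg, neg_sub]
  rw [h4]
  refine le_trans ?_ (hcs Y hY)
  gcongr
  exact enorm_integral_le_lintegral_enorm _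

/-- The bound in scale-invariant form. -/
theorem St_bound {om : ℝ → ℂ} (hd : Differentiable ℝ om) (hc : Continuous (om1 om)) {b : ℝ}
    (hs : ∀ x, b < x → om x = 0) (hb : 0 ≤ b) (u : Eis) {Y0 : ℝ} (hY0 : 0 < Y0)
    (hfin : ∫⁻ y in Ioi Y0, ENNReal.ofReal (y ^ (-(10 : ℝ) / 3)) * ‖St (om1 om) u y‖ₑ ^ 2 ≠ ⊤) :
    ∃ ρ : ℂ, ∀ Y, 0 < Y → ‖St om u Y - ((Y ^ ((4 : ℝ) / 3) : ℝ) : ℂ) * ρ‖ₑ ^ 2 ≤
      3 * ∫⁻ k in Ioi (1 : ℝ), ENNReal.ofReal (k ^ (-(10 : ℝ) / 3)) *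
        ‖St (om1 om) u (k * Y)‖ₑ ^ 2 := by
  obtain ⟨ρ, hρ⟩ := exists_limit (A := fun y : ℝ => ((y ^ (-(4 : ℝ) / 3) : ℝ) : ℂ) * St om u y)
    (continuousOn_St hc (om1_supp hs) hb u)
    (fun y hy => hasDerivAt_St hd hs hb u hy) hY0 hfin
  refine ⟨ρ, fun Y hY => ?_⟩
  have h1 := hρ Y hY
  have e1 : St om u Y - ((Y ^ ((4 : ℝ) / 3) : ℝ) : ℂ) * ρ =
      ((Y ^ ((4 : ℝ) / 3) : ℝ) : ℂ) * (((Y ^ (-(4 : ℝ) / 3) : ℝ) : ℂ) * St om u Y - ρ) := by
    rw [mul_sub, ← mul_assoc, ← Complex.ofReal_mul, ← Real.rpow_add hY]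
    norm_num
  have e2 : ‖((Y ^ ((4 : ℝ) / 3) : ℝ) : ℂ)‖ₑ ^ 2 = ENNReal.ofReal (Y ^ ((8 : ℝ) / 3)) := by
    rw [← ofReal_norm, Complex.norm_real, Real.norm_of_nonneg (by positivity),
      ← ENNReal.ofReal_pow (by positivity), ← Real.rpow_mul_natCast hY.le]
    norm_num
  rw [e1, enorm_mul, mul_pow, e2]
  refine (mul_le_mul_right h1 _).trans (le_of_eq ?_)
  have h2 := lint_scale hY (fun y => ENNReal.ofReal (y ^ (-(10 : ℝ) / 3)) *
    ‖St (om1 om) u y‖ₑ ^ 2) 1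
  rw [one_mul] at h2
  have h3 : ∫⁻ k in Ioi (1 : ℝ), ENNReal.ofReal ((k * Y) ^ (-(10 : ℝ) / 3)) *
      ‖St (om1 om) u (k * Y)‖ₑ ^ 2 = ENNReal.ofReal (Y ^ (-(10 : ℝ) / 3)) *
      ∫⁻ k in Ioi (1 : ℝ), ENNReal.ofReal (k ^ (-(10 : ℝ) / 3)) *
        ‖St (om1 om) u (k * Y)‖ₑ ^ 2 := by
    rw [← lintegral_const_mul' _ _ ENNReal.ofReal_ne_top]
    refine setLIntegral_congr_fun measurableSet_Ioi fun k hk => ?_
    have hk0 : (0 : ℝ) < k := zero_lt_one.trans hk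
    rw [Real.mul_rpow hk0.le hY.le, ENNReal.ofReal_mul (by positivity)]
    ring
  rw [h2, h3, ← mul_assoc, ← mul_assoc, ← mul_assoc, ← ENNReal.ofReal_mul (by positivity),
    ← ENNReal.ofReal_mul (by positivity), ← ENNReal.ofReal_mul (by positivity)]
  congr 1
  have e3 : Y ^ ((8 : ℝ) / 3) * (3 * Y ^ (-(1 : ℝ) / 3)) * Y * Y ^ (-(10 : ℝ) / 3) = 3 := by
    have h5 : Y ^ ((8 : ℝ) / 3) * Y ^ (-(1 : ℝ) / 3) * Y * Y ^ (-(10 : ℝ) / 3) = 1 := by
      rw [← Real.rpow_add hY, ← Real.rpow_add_one hY.ne', ← Real.rpow_add hY]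
      norm_num
    linarith
  rw [e3]
  norm_num

/-! ### measurability and Tonelli -/

lemma continuous_phat {φ : ℂ → ℂ} (hφ : Integrable φ) : Continuous (phat φ) := by
  unfold phat
  refine continuous_of_dominated (F := fun ξ s => φ s * eC (-(ξ * s)))
    (bound := fun s => ‖φ s‖) ?_ ?_ hφ.norm ?_
  · intro ξ
    refine hφ.aestronglyMeasurable.mul (Continuous.aestronglyMeasurable ?_)
    unfold eC; fun_prop
  · intro ξ
    exact Eventually.of_forall fun s => by rw [norm_mul, norm_eC, mul_one]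
  · exact Eventually.of_forall fun s => by unfold eC; fun_prop

lemma integrable_dil {φ0 : ℂ → ℂ} (hφ : TestFn286.SP (1 / 4) φ0) {T : ℝ} (hT : 0 < T) :
    Integrable fun p : ℂ => φ0 ((T : ℂ) * p) := by
  refine Continuous.integrable_of_hasCompactSupport ?_ ?_
  · exact hφ.cd.continuous.comp (by fun_prop)
  · refine HasCompactSupport.intro (isCompact_closedBall (0 : ℂ) (1 / 4 / T)) fun x hx => ?_
    refine hφ.supp _ ?_
    rw [Metric.mem_closedBall, dist_zero_right, not_le, div_lt_iff₀ hT] at hx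
    rw [norm_mul, Complex.norm_real, Real.norm_of_nonneg hT.le]
    linarith

lemma measurable_wtB {φ0 : ℂ → ℂ} (hφ : TestFn286.SP (1 / 4) φ0) {T : ℝ} (hT : 0 < T) (u : Eis) :
    Measurable fun p : ℂ × ℂ => wtB T φ0 u p.1 p.2 := by
  unfold wtB
  have h := (continuous_phat (integrable_dil hφ hT)).measurable
  have h2 : Measurable fun p : ℂ × ℂ =>
      phat (fun q => φ0 ((T : ℂ) * q)) (frq 3 u * p.2 / p.1) := h.comp (by fun_prop)
  fun_prop

theorem tonelli {om : ℝ → ℂ} (hc : Continuous om) {b : ℝ} (hs : ∀ x, b < x → om x = 0)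
    (hb : 0 ≤ b) {φ0 : ℂ → ℂ} (hφ : TestFn286.SP (1 / 4) φ0) {T : ℝ} (hT : 0 < T) {r B : ℝ}
    (hr : 0 < r) (hB : 0 < B) (S : Finset Eis) :
    ∫⁻ v in ann r (2 * r), ∫⁻ e in ann (1 / r) (2 / r), ∑ u ∈ S,
      (∫⁻ k in Ioi (1 : ℝ), ENNReal.ofReal (k ^ (-(10 : ℝ) / 3)) *
        ‖St om u (k * (B / ‖e‖ ^ 2))‖ₑ ^ 2) * ENNReal.ofReal (wtB T φ0 u v e) =
    ∫⁻ k in Ioi (1 : ℝ), ENNReal.ofReal (k ^ (-(10 : ℝ) / 3)) *
      BX r T φ0 S (fun u e => Sg (fun _ => 1) (Uf om 0 (k * B)) u e) := by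
  set P : ℝ × (ℂ × ℂ) → ℝ≥0∞ := fun p => ENNReal.ofReal (p.1 ^ (-(10 : ℝ) / 3)) *
    ∑ u ∈ S, ‖Sm om u (p.1 * (B / ‖p.2.2‖ ^ 2))‖ₑ ^ 2 * ENNReal.ofReal (wtB T φ0 u p.2.1 p.2.2)
    with hP
  have hSm : ∀ u, Measurable (Sm om u) := measurable_Sm hc hs hb
  have hPm : Measurable P := by
    rw [hP]
    have hk : Measurable fun p : ℝ × (ℂ × ℂ) => ENNReal.ofReal (p.1 ^ (-(10 : ℝ) / 3)) := by
      fun_prop
    refine hk.mul ?_
    refine Finset.measurable_fun_sum _ fun u _ => ?_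
    have hA : Measurable fun p : ℝ × (ℂ × ℂ) => ‖Sm om u (p.1 * (B / ‖p.2.2‖ ^ 2))‖ₑ ^ 2 :=
      ((hSm u).comp (by fun_prop)).enorm.pow_const 2
    have hB : Measurable fun p : ℝ × (ℂ × ℂ) => ENNReal.ofReal (wtB T φ0 u p.2.1 p.2.2) :=
      ((measurable_wtB hφ hT u).comp measurable_snd).ennreal_ofReal
    exact hA.mul hB
  have he0 : ∀ e ∈ ann (1 / r) (2 / r), 0 < ‖e‖ := by
    intro e he
    exact lt_of_lt_of_le (by positivity) he.1
  have h1 : ∀ v : ℂ, ∀ e ∈ ann (1 / r) (2 / r), ∑ u ∈ S,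
      (∫⁻ k in Ioi (1 : ℝ), ENNReal.ofReal (k ^ (-(10 : ℝ) / 3)) *
        ‖St om u (k * (B / ‖e‖ ^ 2))‖ₑ ^ 2) * ENNReal.ofReal (wtB T φ0 u v e) =
      ∫⁻ k in Ioi (1 : ℝ), P (k, (v, e)) := by
    intro v e he
    have he' := he0 e he
    have h2 : ∀ u ∈ S, (∫⁻ k in Ioi (1 : ℝ), ENNReal.ofReal (k ^ (-(10 : ℝ) / 3)) *
        ‖St om u (k * (B / ‖e‖ ^ 2))‖ₑ ^ 2) * ENNReal.ofReal (wtB T φ0 u v e) =
        ∫⁻ k in Ioi (1 : ℝ), ENNReal.ofReal (k ^ (-(10 : ℝ) / 3)) *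
        (‖Sm om u (k * (B / ‖e‖ ^ 2))‖ₑ ^ 2 * ENNReal.ofReal (wtB T φ0 u v e)) := by
      intro u _
      rw [← lintegral_mul_const' _ _ ENNReal.ofReal_ne_top]
      refine setLIntegral_congr_fun measurableSet_Ioi fun k hk => ?_
      have hk0 : (0 : ℝ) < k := zero_lt_one.trans hk
      rw [Sm_eq _ _ (by positivity), mul_assoc]
    rw [Finset.sum_congr rfl h2, ← lintegral_finsetSum' _ ?_]
    · refine lintegral_congr fun k => ?_
      rw [hP]
      simp only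
      rw [Finset.mul_sum]
    · intro u _
      refine Measurable.aemeasurable ?_
      have hk : Measurable fun k : ℝ => ENNReal.ofReal (k ^ (-(10 : ℝ) / 3)) := by fun_prop
      refine hk.mul ?_
      have hA : Measurable fun k : ℝ => ‖Sm om u (k * (B / ‖e‖ ^ 2))‖ₑ ^ 2 :=
        ((hSm u).comp (by fun_prop)).enorm.pow_const 2
      exact hA.mul_const _
  have h3 : ∀ k ∈ Ioi (1 : ℝ), ENNReal.ofReal (k ^ (-(10 : ℝ) / 3)) *
      BX r T φ0 S (fun u e => Sg (fun _ => 1) (Uf om 0 (k * B)) u e) =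
      ∫⁻ v in ann r (2 * r), ∫⁻ e in ann (1 / r) (2 / r), P (k, (v, e)) := by
    intro k hk
    have hk0 : (0 : ℝ) < k := zero_lt_one.trans hk
    unfold BX
    rw [← lintegral_const_mul' _ _ ENNReal.ofReal_ne_top]
    refine lintegral_congr fun v => ?_
    rw [← lintegral_const_mul' _ _ ENNReal.ofReal_ne_top]
    refine setLIntegral_congr_fun (measurableSet_ann _ _) fun e he => ?_
    have he' := he0 e he
    rw [hP]
    simp only
    congr 1
    refine Finset.sum_congr rfl fun u _ => ?_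
    rw [Sg_Uf_zero, Sm_eq _ _ (by positivity), mul_div_assoc]
  calc ∫⁻ v in ann r (2 * r), ∫⁻ e in ann (1 / r) (2 / r), ∑ u ∈ S,
      (∫⁻ k in Ioi (1 : ℝ), ENNReal.ofReal (k ^ (-(10 : ℝ) / 3)) *
        ‖St om u (k * (B / ‖e‖ ^ 2))‖ₑ ^ 2) * ENNReal.ofReal (wtB T φ0 u v e)
      = ∫⁻ v in ann r (2 * r), ∫⁻ e in ann (1 / r) (2 / r), ∫⁻ k in Ioi (1 : ℝ),
          P (k, (v, e)) := by
        refine lintegral_congr fun v => ?_
        exact setLIntegral_congr_fun (measurableSet_ann _ _) fun e he => h1 v e he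
    _ = ∫⁻ v in ann r (2 * r), ∫⁻ k in Ioi (1 : ℝ), ∫⁻ e in ann (1 / r) (2 / r),
          P (k, (v, e)) := by
        refine lintegral_congr fun v => ?_
        refine lintegral_lintegral_swap (f := fun e k => P (k, (v, e))) ?_
        refine Measurable.aemeasurable ?_
        exact hPm.comp (by fun_prop : Measurable fun p : ℂ × ℝ => (p.2, (v, p.1)))
    _ = ∫⁻ k in Ioi (1 : ℝ), ∫⁻ v in ann r (2 * r), ∫⁻ e in ann (1 / r) (2 / r),
          P (k, (v, e)) := by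
        refine lintegral_lintegral_swap
          (f := fun v k => ∫⁻ e in ann (1 / r) (2 / r), P (k, (v, e))) ?_
        refine Measurable.aemeasurable ?_
        refine Measurable.lintegral_prod_right' (f := fun p : (ℂ × ℝ) × ℂ => P (p.1.2, (p.1.1, p.2)))
          ?_
        exact hPm.comp
          (by fun_prop : Measurable fun p : (ℂ × ℝ) × ℂ => (p.1.2, (p.1.1, p.2)))
    _ = _ := (setLIntegral_congr_fun measurableSet_Ioi h3).symm

end Crest.Agent.R012.KRho813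
end
end

-- ▼ part R012/KRho2_813
section

/-!
# Row 12, (ML): K1 implies K3 (second part)
-/

set_option autoImplicit false

noncomputable section

open MeasureTheory Set Filter Complex
open scoped ENNReal Topology ContDiff ComplexConjugate

namespace Crest.Agent.R012.KRho813

open Crest.Agent.R012 Crest.Agent.R012.Eis Crest.Agent.R012.Parseval499
open Crest.Agent.R012.StripCo813 Crest.Agent.R012.Four813 Crest.Agent.R012.ML384

/-! ### profiles -/

/-- smooth with support in `[a,b]`. -/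
structure Sup (a b : ℝ) (om : ℝ → ℂ) : Prop where
  cd : ContDiff ℝ ∞ om
  supp : ∀ x, x < a ∨ b < x → om x = 0

lemma Sup.hcs {a b : ℝ} {om : ℝ → ℂ} (h : Sup a b om) : HasCompactSupport om := by
  refine HasCompactSupport.intro (isCompact_Icc (a := a) (b := b)) fun x hx => ?_
  refine h.supp x ?_
  by_contra hc
  push Not at hc
  exact hx hc

lemma _root_.Crest.Agent.R012.ML384.Cls.sup {a b K T : ℝ} {om : ℝ → ℂ} (h : Cls a b K T om) :
    Sup a b om := ⟨h.cd, h.supp⟩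

lemma Sup.om1 {a b : ℝ} {om : ℝ → ℂ} (h : Sup a b om) : Sup a b (om1 om) where
  cd := by
    have hd : ContDiff ℝ ∞ (deriv om) := by
      have := contDiff_infty_iff_deriv.mp h.cd
      exact this.2
    unfold KRho813.om1
    exact (contDiff_const.mul h.cd).sub (Complex.ofRealCLM.contDiff.mul hd)
  supp x hx := by
    rcases hx with hx | hx
    · exact om1_supp' (fun y hy => h.supp y (Or.inl hy)) x hx
    · exact om1_supp (fun y hy => h.supp y (Or.inr hy)) x hx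

lemma Sup.bound {a b : ℝ} {om : ℝ → ℂ} (h : Sup a b om) :
    ∃ K : ℝ, 0 ≤ K ∧ ∀ j : ℕ, j ≤ 2 → ∀ x, ‖iteratedDeriv j om x‖ ≤ K := by
  have h1 : ∀ j : ℕ, ∃ K : ℝ, ∀ x, ‖iteratedDeriv j om x‖ ≤ K := by
    intro j
    have hc : Continuous (iteratedFDeriv ℝ j om) :=
      h.cd.continuous_iteratedFDeriv (by exact_mod_cast le_top)
    obtain ⟨K, hK⟩ := (h.hcs.iteratedFDeriv (𝕜 := ℝ) j).exists_bound_of_continuous hc
    refine ⟨K, fun x => ?_⟩
    rw [← norm_iteratedFDeriv_eq_norm_iteratedDeriv]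
    exact hK x
  choose K hK using h1
  refine ⟨|K 0| + |K 1| + |K 2|, by positivity, fun j hj x => ?_⟩
  have h0 := abs_nonneg (K 0)
  have h1 := abs_nonneg (K 1)
  have h2 := abs_nonneg (K 2)
  refine (hK j x).trans ?_
  interval_cases j
  · linarith [le_abs_self (K 0)]
  · linarith [le_abs_self (K 1)]
  · linarith [le_abs_self (K 2)]

lemma Sup.cls {a b : ℝ} {om : ℝ → ℂ} (h : Sup a b om) :
    ∃ K : ℝ, 0 ≤ K ∧ ∀ T : ℝ, 1 ≤ T → Cls a b K T om := by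
  obtain ⟨K, hK0, hK⟩ := h.bound
  refine ⟨K, hK0, fun T hT => ⟨h.cd, h.supp, fun j hj x => (hK j hj x).trans ?_⟩⟩
  exact le_mul_of_one_le_right hK0 (one_le_pow₀ hT)

lemma continuous_third : Continuous fun x : ℝ => ((x ^ ((1 : ℝ) / 3) : ℝ) : ℂ) :=
  Complex.continuous_ofReal.comp (Real.continuous_rpow_const (by norm_num))

lemma Sup.integrable {a b : ℝ} {om : ℝ → ℂ} (h : Sup a b om) :
    Integrable fun x : ℝ => om x * ((x ^ ((1 : ℝ) / 3) : ℝ) : ℂ) := by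
  refine Continuous.integrable_of_hasCompactSupport (h.cd.continuous.mul continuous_third) ?_
  exact h.hcs.mul_right

lemma mom_sub_smul {a b a' b' : ℝ} {om om' : ℝ → ℂ} (h : Sup a b om) (h' : Sup a' b' om')
    (c : ℂ) : mom (fun x => om x - c * om' x) = mom om - c * mom om' := by
  unfold mom
  rw [← integral_const_mul, ← integral_sub h.integrable.integrableOn
    (h'.integrable.integrableOn.const_mul c)]
  refine integral_congr_ae (Eventually.of_forall fun x => ?_)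
  simp only
  ring

lemma mom_om1 {a b : ℝ} {om : ℝ → ℂ} (h : Sup a b om) : mom (om1 om) = 0 := by
  have hd : Differentiable ℝ om := h.cd.differentiable (by simp)
  have hF : ∀ x ∈ Ici (0 : ℝ), HasDerivAt (fun x : ℝ => om x * ((x ^ ((4 : ℝ) / 3) : ℝ) : ℂ))
      (-(om1 om x * ((x ^ ((1 : ℝ) / 3) : ℝ) : ℂ))) x := by
    intro x hx
    have hx0 : (0 : ℝ) ≤ x := hx
    have h1 : HasDerivAt (fun y : ℝ => y ^ ((4 : ℝ) / 3)) (((4 : ℝ) / 3) * x ^ ((4 : ℝ) / 3 - 1)) x :=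
      Real.hasDerivAt_rpow_const (Or.inr (by norm_num))
    refine ((hd x).hasDerivAt.fun_mul h1.ofReal_comp).congr_deriv ?_
    have e1 : (4 : ℝ) / 3 - 1 = 1 / 3 := by norm_num
    have e2 : x ^ ((4 : ℝ) / 3) = x * x ^ ((1 : ℝ) / 3) := by
      rw [← Real.rpow_one_add' hx0 (by norm_num)]
      norm_num
    rw [e1, e2]
    unfold om1
    push_cast
    ring
  have hlim : Tendsto (fun x : ℝ => om x * ((x ^ ((4 : ℝ) / 3) : ℝ) : ℂ)) atTop (𝓝 0) := by
    refine tendsto_const_nhds.congr' ?_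
    filter_upwards [eventually_gt_atTop b] with x hx
    rw [h.supp x (Or.inr hx), zero_mul]
  have hI := integral_Ioi_of_hasDerivAt_of_tendsto' hF h.om1.integrable.integrableOn.neg hlim
  unfold mom
  rw [integral_neg] at hI
  have e0 : ((0 : ℝ) ^ ((4 : ℝ) / 3) : ℝ) = 0 := Real.zero_rpow (by norm_num)
  rw [e0] at hI
  simpa using hI

lemma norm_mom_le {a b K T : ℝ} {om : ℝ → ℂ} (h : Cls a b K T om) (ha : 0 < a) (hb : a ≤ b)
    (hK : 0 ≤ K) : ‖mom om‖ ≤ K * (b * b ^ ((1 : ℝ) / 3)) := by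
  have h1 : mom om = ∫ x in Ioc (0 : ℝ) b, om x * ((x ^ ((1 : ℝ) / 3) : ℝ) : ℂ) := by
    unfold mom
    rw [← integral_indicator measurableSet_Ioi, ← integral_indicator measurableSet_Ioc]
    congr 1
    funext x
    by_cases hx : x ∈ Ioc (0 : ℝ) b
    · rw [indicator_of_mem hx, indicator_of_mem (show x ∈ Ioi (0 : ℝ) from hx.1)]
    · rw [indicator_of_notMem hx]
      by_cases hx0 : x ∈ Ioi (0 : ℝ)
      · rw [indicator_of_mem hx0, h.supp x (Or.inr ?_), zero_mul]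
        by_contra hc
        exact hx ⟨hx0, not_lt.mp hc⟩
      · rw [indicator_of_notMem hx0]
  rw [h1]
  have hb0 : 0 < b := ha.trans_le hb
  have h2 := norm_setIntegral_le_of_norm_le_const (μ := volume) (s := Ioc (0 : ℝ) b)
    (f := fun x => om x * ((x ^ ((1 : ℝ) / 3) : ℝ) : ℂ)) (C := K * b ^ ((1 : ℝ) / 3))
    (by simp) (fun x hx => by
      rw [norm_mul, Complex.norm_real, Real.norm_of_nonneg (Real.rpow_nonneg hx.1.le _)]
      have h3 := h.bd 0 (by norm_num) x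
      simp only [iteratedDeriv_zero, pow_zero, mul_one] at h3
      have h4 : x ^ ((1 : ℝ) / 3) ≤ b ^ ((1 : ℝ) / 3) :=
        Real.rpow_le_rpow hx.1.le hx.2 (by norm_num)
      have := Real.rpow_nonneg hx.1.le ((1 : ℝ) / 3)
      gcongr)
  refine h2.trans (le_of_eq ?_)
  rw [Real.volume_real_Ioc_of_le hb0.le]
  ring

/-- A fixed profile with `∫ om x^{1/3} = 1`. -/
lemma exists_om0 : ∃ om0 : ℝ → ℂ, Sup 1 2 om0 ∧ mom om0 = 1 := by
  let f : ContDiffBump (3 / 2 : ℝ) := ⟨1 / 4, 1 / 2, by norm_num, by norm_num⟩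
  have hs0 : ∀ x : ℝ, x < 1 ∨ 2 < x → f x = 0 := by
    intro x hx
    refine f.zero_of_le_dist ?_
    change (1 / 2 : ℝ) ≤ dist x (3 / 2)
    rw [Real.dist_eq]
    rcases hx with hx | hx
    · rw [abs_of_neg (by linarith)]; linarith
    · rw [abs_of_pos (by linarith)]; linarith
  have hS : Sup 1 2 (fun x => (f x : ℂ)) := by
    refine ⟨?_, fun x hx => by rw [hs0 x hx]; simp⟩
    exact Complex.ofRealCLM.contDiff.comp f.contDiff
  set c : ℝ := ∫ x in Ioi (0 : ℝ), f x * x ^ ((1 : ℝ) / 3) with hc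
  have hmc : mom (fun x => (f x : ℂ)) = (c : ℂ) := by
    unfold mom
    rw [hc, ← integral_complex_ofReal]
    refine integral_congr_ae (Eventually.of_forall fun x => ?_)
    simp
  have hc0 : 0 < c := by
    rw [hc, setIntegral_pos_iff_support_of_nonneg_ae]
    · have : Ioo (5 / 4 : ℝ) (7 / 4) ⊆
          (Function.support fun x : ℝ => f x * x ^ ((1 : ℝ) / 3)) ∩ Ioi 0 := by
        intro x hx
        have hx0 : 0 < x := by linarith [hx.1]
        refine ⟨?_, hx0⟩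
        rw [Function.mem_support]
        refine mul_ne_zero ?_ (by positivity)
        refine (f.pos_of_mem_ball ?_).ne'
        have hr : f.rOut = 1 / 2 := rfl
        rw [Metric.mem_ball, Real.dist_eq, abs_lt, hr]
        constructor <;> linarith [hx.1, hx.2]
      refine lt_of_lt_of_le ?_ (measure_mono this)
      simp
      norm_num
    · refine (ae_restrict_iff' measurableSet_Ioi).mpr (Eventually.of_forall fun x hx => ?_)
      have := f.nonneg' x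
      have hx0 : 0 < x := hx
      simp only [Pi.zero_apply]
      positivity
    · refine Integrable.integrableOn ?_
      have h := hS.integrable
      have h2 := h.re
      refine h2.congr (Eventually.of_forall fun x => ?_)
      simp
  refine ⟨fun x => 0 - (-(c : ℂ)⁻¹) * (f x : ℂ), ⟨?_, ?_⟩, ?_⟩
  · exact contDiff_const.sub (contDiff_const.mul hS.cd)
  · intro x hx
    rw [hs0 x hx]; simp
  · have h := mom_sub_smul (a := 1) (b := 2) (om := fun _ => 0) ⟨contDiff_const, fun _ _ => rfl⟩ hS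
      (-(c : ℂ)⁻¹)
    rw [h, hmc]
    have : mom (fun _ => 0) = 0 := by simp [mom]
    rw [this]
    have hc' : (c : ℂ) ≠ 0 := by exact_mod_cast hc0.ne'
    field_simp
    ring

/-! ### the bound integrated over scales -/

lemma RH_scale {C r K T B τ k : ℝ} (hC : 0 ≤ C) (hr : 0 < r) (hB : 0 < B) (hT : 1 ≤ T)
    (hτ : 0 < τ) (hk : 1 ≤ k) : RH C r K T (k * B) τ ≤ k ^ (2 + τ) * RH C r K T B τ := by
  unfold RH
  have hk0 : 0 < k := by linarith
  have h1 : (1 + k * B) ^ τ ≤ k ^ τ * (1 + B) ^ τ := by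
    rw [← Real.mul_rpow hk0.le (by linarith)]
    exact Real.rpow_le_rpow (by positivity) (by nlinarith) hτ.le
  have h2 : k ^ (2 + τ) = k ^ 2 * k ^ τ := by
    rw [Real.rpow_add hk0]; norm_num
  rw [h2]
  calc C * ((1 + r ^ 4) * (r ^ 4)⁻¹ * K ^ 2 * (k * B) ^ 2 * (T ^ 2)⁻¹ * (1 + k * B) ^ τ)
      ≤ C * ((1 + r ^ 4) * (r ^ 4)⁻¹ * K ^ 2 * (k * B) ^ 2 * (T ^ 2)⁻¹ *
          (k ^ τ * (1 + B) ^ τ)) := by gcongr
    _ = _ := by ring

lemma RH_nonneg {C r K T B τ : ℝ} (hC : 0 ≤ C) (hB : 0 < B) : 0 ≤ RH C r K T B τ := by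
  unfold RH
  have : 0 ≤ (r ^ 4)⁻¹ := by positivity
  positivity

/-- The integral over the scales of the K1 bound. -/
theorem int_scales {F : ℝ → ℝ≥0∞} {C r K T B τ : ℝ} (hC : 0 ≤ C) (hr : 0 < r) (hB : 0 < B)
    (hT : 1 ≤ T) (hτ : 0 < τ) (hτ' : τ ≤ 1 / 6)
    (hF : ∀ k, 1 < k → F k ≤ ENNReal.ofReal (RH C r K T (k * B) τ)) :
    ∫⁻ k in Ioi (1 : ℝ), ENNReal.ofReal (k ^ (-(10 : ℝ) / 3)) * F k ≤
      ENNReal.ofReal (6 * RH C r K T B τ) := by
  have hR := RH_nonneg (r := r) (K := K) (T := T) (τ := τ) hC hB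
  calc ∫⁻ k in Ioi (1 : ℝ), ENNReal.ofReal (k ^ (-(10 : ℝ) / 3)) * F k
      ≤ ∫⁻ k in Ioi (1 : ℝ), ENNReal.ofReal (k ^ (-(4 : ℝ) / 3 + τ)) *
          ENNReal.ofReal (RH C r K T B τ) := by
        refine setLIntegral_mono' measurableSet_Ioi fun k hk => ?_
        have hk1 : (1 : ℝ) < k := hk
        have hk0 : 0 < k := by linarith
        refine (mul_le_mul_right (hF k hk1) _).trans ?_
        rw [← ENNReal.ofReal_mul (by positivity), ← ENNReal.ofReal_mul (by positivity)]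
        refine ENNReal.ofReal_le_ofReal ?_
        calc k ^ (-(10 : ℝ) / 3) * RH C r K T (k * B) τ
            ≤ k ^ (-(10 : ℝ) / 3) * (k ^ (2 + τ) * RH C r K T B τ) := by
              gcongr
              exact RH_scale hC hr hB hT hτ hk1.le
          _ = k ^ (-(4 : ℝ) / 3 + τ) * RH C r K T B τ := by
              rw [← mul_assoc, ← Real.rpow_add hk0]
              ring_nf
    _ = (∫⁻ k in Ioi (1 : ℝ), ENNReal.ofReal (k ^ (-(4 : ℝ) / 3 + τ))) *
          ENNReal.ofReal (RH C r K T B τ) := lintegral_mul_const' _ _ ENNReal.ofReal_ne_top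
    _ ≤ ENNReal.ofReal 6 * ENNReal.ofReal (RH C r K T B τ) := by
        gcongr
        rw [lint_rpow (by linarith) one_pos]
        refine ENNReal.ofReal_le_ofReal ?_
        rw [Real.one_rpow, div_le_iff_of_neg (by linarith)]
        linarith
    _ = _ := by rw [← ENNReal.ofReal_mul (by norm_num)]

/-! ### existence of the limit from K1 -/

lemma exists_phi0 : ∃ φ0 : ℂ → ℂ, TestFn286.SP (1 / 4) φ0 ∧ phat φ0 0 ≠ 0 := by
  let f : ContDiffBump (0 : ℂ) := ⟨1 / 8, 1 / 4, by norm_num, by norm_num⟩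
  refine ⟨fun z => (f z : ℂ), ⟨?_, ?_⟩, ?_⟩
  · exact Complex.ofRealCLM.contDiff.comp f.contDiff
  · intro z hz
    rw [f.zero_of_le_dist ?_]
    · simp
    · change (1 / 4 : ℝ) ≤ dist z 0
      rw [dist_zero_right]; exact hz.le
  · have h1 : phat (fun z => (f z : ℂ)) 0 = ((∫ z, f z : ℝ) : ℂ) := by
      unfold phat
      rw [← integral_complex_ofReal]
      refine integral_congr_ae (Eventually.of_forall fun z => ?_)
      simp
    rw [h1]
    have h2 : 0 < ∫ z, f z := f.integral_pos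
    exact_mod_cast h2.ne'

lemma volume_ann_ne_zero : (volume : Measure ℂ) (ann 1 2) ≠ 0 := by
  have h : Metric.ball (3 / 2 : ℂ) (1 / 4) ⊆ ann 1 2 := by
    intro z hz
    rw [Metric.mem_ball, dist_eq_norm] at hz
    have h3 : ‖(3 / 2 : ℂ)‖ = 3 / 2 := by norm_num
    have h1 := norm_sub_norm_le z (3 / 2)
    have h2 := norm_sub_norm_le (3 / 2) z
    rw [norm_sub_rev] at h2
    rw [h3] at h1 h2
    exact ⟨by linarith, by linarith⟩
  have h0 : 0 < (volume : Measure ℂ) (Metric.ball (3 / 2 : ℂ) (1 / 4)) :=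
    Metric.measure_ball_pos _ _ (by norm_num)
  exact (h0.trans_le (measure_mono h)).ne'

theorem finite_of_K1 (hK1 : K1_Prop) {om : ℝ → ℂ} (h : Sup 1 2 om) (hm : mom om = 0) (u : Eis) :
    ∃ Y0 : ℝ, 0 < Y0 ∧
      ∫⁻ y in Ioi Y0, ENNReal.ofReal (y ^ (-(10 : ℝ) / 3)) * ‖St om u y‖ₑ ^ 2 ≠ ⊤ := by
  obtain ⟨φ0, hφ, hφ0⟩ := exists_phi0
  obtain ⟨K, hK0, hK⟩ := h.cls
  obtain ⟨C, hC, hC1⟩ := hK1 1 2 0 φ0 (1 / 6) one_pos (by norm_num) hφ (by norm_num)
  have hint0 : Integrable φ0 := by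
    have := integrable_dil hφ one_pos
    simpa using this
  -- choose `T`
  have hcont := continuous_phat hint0
  have hev : ∀ᶠ ξ in 𝓝 (0 : ℂ), phat φ0 ξ ≠ 0 := hcont.continuousAt.eventually_ne hφ0
  obtain ⟨δ, hδ, hδ'⟩ := Metric.eventually_nhds_iff.mp hev
  obtain ⟨T, hT1, hT2⟩ : ∃ T : ℝ, 1 ≤ T ∧ 2 * ‖frq 3 u‖ / T < δ := by
    refine ⟨max 1 (2 * ‖frq 3 u‖ / δ + 1), le_max_left _ _, ?_⟩
    have h1 : 2 * ‖frq 3 u‖ / δ + 1 ≤ max 1 (2 * ‖frq 3 u‖ / δ + 1) := le_max_right _ _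
    have h2 : 0 < max 1 (2 * ‖frq 3 u‖ / δ + 1) := lt_of_lt_of_le one_pos (le_max_left _ _)
    rw [div_lt_iff₀ h2]
    have h3 : 2 * ‖frq 3 u‖ / δ < max 1 (2 * ‖frq 3 u‖ / δ + 1) := by linarith
    rw [div_lt_iff₀ hδ] at h3
    linarith
  have hT0 : 0 < T := by linarith
  have hw : ∀ v ∈ ann (1 : ℝ) (2 * 1), ∀ e ∈ ann (1 / 1 : ℝ) (2 / 1), 0 < wtB T φ0 u v e := by
    intro v hv e he
    have hv1 : (1 : ℝ) ≤ ‖v‖ := hv.1
    have he1 : (1 : ℝ) ≤ ‖e‖ := by have := he.1; simpa using this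
    have he2 : ‖e‖ ≤ 2 := by have := he.2; simpa using this
    have hv0 : v ≠ 0 := by rw [← norm_pos_iff]; linarith
    have he0 : e ≠ 0 := by rw [← norm_pos_iff]; linarith
    have hTc : (T : ℂ) ≠ 0 := by exact_mod_cast hT0.ne'
    have h1 : phat (fun p => φ0 ((T : ℂ) * p)) (frq 3 u * e / v) ≠ 0 := by
      have h2 : phat (fun p => φ0 ((T : ℂ) * p)) (frq 3 u * e / v) =
          ((‖(T : ℂ)‖ ^ 2)⁻¹ : ℝ) * phat φ0 (frq 3 u * e / v / (T : ℂ)) :=
        integral_dilate hTc φ0 _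
      rw [h2]
      refine mul_ne_zero ?_ (hδ' ?_)
      · have : 0 < ‖(T : ℂ)‖ := norm_pos_iff.mpr hTc
        exact_mod_cast (by positivity : (0 : ℝ) < (‖(T : ℂ)‖ ^ 2)⁻¹).ne'
      · rw [dist_zero_right, norm_div, norm_div, norm_mul, Complex.norm_real,
          Real.norm_of_nonneg hT0.le]
        refine lt_of_le_of_lt ?_ hT2
        have h3 := norm_nonneg (frq 3 u)
        gcongr
        rw [div_le_iff₀ (by linarith)]
        nlinarith
    unfold wtB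
    have h4 : 0 < ‖phat (fun p => φ0 ((T : ℂ) * p)) (frq 3 u * e / v)‖ := norm_pos_iff.mpr h1
    have h5 : 0 < ‖e / v‖ := norm_pos_iff.mpr (div_ne_zero he0 hv0)
    positivity
  set H : ℂ → ℝ≥0∞ := fun e => ∫⁻ k in Ioi (1 : ℝ), ENNReal.ofReal (k ^ (-(10 : ℝ) / 3)) *
        ‖St om u (k * (1 / ‖e‖ ^ 2))‖ₑ ^ 2 with hH
  have hton := tonelli h.cd.continuous (fun x hx => h.supp x (Or.inr hx)) (by norm_num) hφ hT0
    (r := 1) (B := 1) one_pos one_pos {u}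
  have hfin : ∫⁻ v in ann (1 : ℝ) (2 * 1), ∫⁻ e in ann (1 / 1 : ℝ) (2 / 1),
      H e * ENNReal.ofReal (wtB T φ0 u v e) ≠ ⊤ := by
    simp only [Finset.sum_singleton] at hton
    rw [hH, hton]
    refine ne_top_of_le_ne_top ENNReal.ofReal_ne_top
      (int_scales (C := C) (r := 1) (K := K) (T := T) (B := 1) (τ := 1 / 6) hC one_pos one_pos hT1
        (by norm_num) le_rfl fun k hk => ?_)
    exact hC1 K T om (k * 1) 1 {u} (hK T hT1) hK0 hT1 (by linarith) one_pos (Or.inr hm)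
  obtain ⟨e, he, hHe⟩ : ∃ e ∈ ann (1 / 1 : ℝ) (2 / 1), H e ≠ ⊤ := by
    by_contra hc
    push Not at hc
    refine hfin ?_
    have h1 : ∫⁻ v in ann (1 : ℝ) (2 * 1), ∫⁻ e in ann (1 / 1 : ℝ) (2 / 1),
        H e * ENNReal.ofReal (wtB T φ0 u v e) =
        ∫⁻ v in ann (1 : ℝ) (2 * 1), ∫⁻ e in ann (1 / 1 : ℝ) (2 / 1), ⊤ := by
      refine setLIntegral_congr_fun (measurableSet_ann _ _) fun v hv => ?_
      refine setLIntegral_congr_fun (measurableSet_ann _ _) fun e he => ?_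
      rw [hc e he, ENNReal.top_mul]
      exact (ENNReal.ofReal_pos.mpr (hw v hv e he)).ne'
    rw [h1]
    have h2 : (volume : Measure ℂ) (ann (1 / 1 : ℝ) (2 / 1)) ≠ 0 := by
      simpa using volume_ann_ne_zero
    have h3 : (volume : Measure ℂ) (ann (1 : ℝ) (2 * 1)) ≠ 0 := by
      simpa using volume_ann_ne_zero
    rw [setLIntegral_const, setLIntegral_const, ENNReal.top_mul h2, ENNReal.top_mul h3]
  have he0 : 0 < ‖e‖ := lt_of_lt_of_le (by norm_num) he.1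
  refine ⟨1 / ‖e‖ ^ 2, by positivity, ?_⟩
  have hY : 0 < 1 / ‖e‖ ^ 2 := by positivity
  have h4 := lint_scale hY (fun y => ENNReal.ofReal (y ^ (-(10 : ℝ) / 3)) * ‖St om u y‖ₑ ^ 2) 1
  rw [one_mul] at h4
  rw [h4]
  have h5 : ∫⁻ k in Ioi (1 : ℝ), ENNReal.ofReal ((k * (1 / ‖e‖ ^ 2)) ^ (-(10 : ℝ) / 3)) *
      ‖St om u (k * (1 / ‖e‖ ^ 2))‖ₑ ^ 2 = ENNReal.ofReal ((1 / ‖e‖ ^ 2) ^ (-(10 : ℝ) / 3)) *
      H e := by
    rw [hH]
    simp only
    rw [← lintegral_const_mul' _ _ ENNReal.ofReal_ne_top]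
    refine setLIntegral_congr_fun measurableSet_Ioi fun k hk => ?_
    have hk0 : (0 : ℝ) < k := zero_lt_one.trans hk
    rw [Real.mul_rpow hk0.le hY.le, ENNReal.ofReal_mul (by positivity)]
    ring
  rw [h5]
  exact ENNReal.mul_ne_top ENNReal.ofReal_ne_top (ENNReal.mul_ne_top ENNReal.ofReal_ne_top hHe)

/-! ### splitting -/

lemma St_split {a b a' b' : ℝ} {om om' : ℝ → ℂ} (h : Sup a b om) (h' : Sup a' b' om') (c : ℂ)
    (u : Eis) {Y : ℝ} (hY : 0 < Y) :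
    St (fun x => om x - c * om' x) u Y = St om u Y - c * St om' u Y := by
  classical
  have hs : ∀ x, max b b' < x → om x = 0 := fun x hx => h.supp x (Or.inr ((le_max_left _ _).trans_lt hx))
  have hs' : ∀ x, max b b' < x → om' x = 0 :=
    fun x hx => h'.supp x (Or.inr ((le_max_right _ _).trans_lt hx))
  have hs'' : ∀ x, max b b' < x → om x - c * om' x = 0 := by
    intro x hx; rw [hs x hx, hs' x hx]; simp
  obtain ⟨N, hN⟩ := exists_nat_ge (max b b' * Y)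
  rw [St_eq_sum hs u hY hN, St_eq_sum hs' u hY hN, St_eq_sum hs'' u hY hN, Finset.mul_sum,
    ← Finset.sum_sub_distrib]
  refine Finset.sum_congr rfl fun d _ => ?_
  split_ifs
  · ring
  · simp

lemma enorm_add_sq_le (x y : ℂ) : ‖x + y‖ₑ ^ 2 ≤ 2 * ‖x‖ₑ ^ 2 + 2 * ‖y‖ₑ ^ 2 := by
  have h : ‖x + y‖ ^ 2 ≤ 2 * ‖x‖ ^ 2 + 2 * ‖y‖ ^ 2 := by
    have h1 := norm_add_le x y
    have h2 := norm_nonneg (x + y)
    nlinarith [sq_nonneg (‖x‖ - ‖y‖)]
  have e : ∀ z : ℂ, ‖z‖ₑ ^ 2 = ENNReal.ofReal (‖z‖ ^ 2) := by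
    intro z
    rw [ENNReal.ofReal_pow (norm_nonneg _), ofReal_norm]
  rw [e, e, e]
  have e2 : (2 : ℝ≥0∞) = ENNReal.ofReal 2 := by norm_num
  rw [e2, ← ENNReal.ofReal_mul (by norm_num), ← ENNReal.ofReal_mul (by norm_num),
    ← ENNReal.ofReal_add (by positivity) (by positivity)]
  exact ENNReal.ofReal_le_ofReal h

lemma BX_congr {r T : ℝ} (hr : 0 < r) {φ0 : ℂ → ℂ} {S : Finset Eis} {f g : Eis → ℂ → ℂ}
    (h : ∀ u, ∀ e : ℂ, e ≠ 0 → f u e = g u e) : BX r T φ0 S f = BX r T φ0 S g := by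
  unfold BX
  refine lintegral_congr fun v => ?_
  refine setLIntegral_congr_fun (measurableSet_ann _ _) fun e he => ?_
  have he0 : e ≠ 0 := by
    rw [← norm_pos_iff]; exact lt_of_lt_of_le (by positivity) he.1
  refine Finset.sum_congr rfl fun u _ => ?_
  rw [h u e he0]

lemma BX_add_le {r T : ℝ} (hT : 0 < T) {φ0 : ℂ → ℂ} (hφ : TestFn286.SP (1 / 4) φ0)
    {S : Finset Eis} {f g : Eis → ℂ → ℂ} (hf : ∀ u, Measurable (f u)) :
    BX r T φ0 S (fun u e => f u e + g u e) ≤ 2 * BX r T φ0 S f + 2 * BX r T φ0 S g := by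
  have hm : Measurable fun p : ℂ × ℂ =>
      ∑ u ∈ S, ‖f u p.2‖ₑ ^ 2 * ENNReal.ofReal (wtB T φ0 u p.1 p.2) := by
    refine Finset.measurable_fun_sum _ fun u _ => ?_
    have h1 : Measurable fun p : ℂ × ℂ => ‖f u p.2‖ₑ ^ 2 :=
      ((hf u).comp measurable_snd).enorm.pow_const 2
    exact h1.mul (measurable_wtB hφ hT u).ennreal_ofReal
  have hm1 : ∀ v, Measurable fun e =>
      2 * ∑ u ∈ S, ‖f u e‖ₑ ^ 2 * ENNReal.ofReal (wtB T φ0 u v e) := by
    intro v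
    exact (hm.comp (by fun_prop : Measurable fun e : ℂ => (v, e))).const_mul 2
  have hm2 : Measurable fun v => ∫⁻ e in ann (1 / r) (2 / r),
      2 * ∑ u ∈ S, ‖f u e‖ₑ ^ 2 * ENNReal.ofReal (wtB T φ0 u v e) :=
    (hm.const_mul 2).lintegral_prod_right'
  unfold BX
  calc ∫⁻ v in ann r (2 * r), ∫⁻ e in ann (1 / r) (2 / r),
        ∑ u ∈ S, ‖f u e + g u e‖ₑ ^ 2 * ENNReal.ofReal (wtB T φ0 u v e)
      ≤ ∫⁻ v in ann r (2 * r), ∫⁻ e in ann (1 / r) (2 / r),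
          (2 * ∑ u ∈ S, ‖f u e‖ₑ ^ 2 * ENNReal.ofReal (wtB T φ0 u v e) +
            2 * ∑ u ∈ S, ‖g u e‖ₑ ^ 2 * ENNReal.ofReal (wtB T φ0 u v e)) := by
        refine lintegral_mono fun v => lintegral_mono fun e => ?_
        rw [Finset.mul_sum, Finset.mul_sum, ← Finset.sum_add_distrib]
        refine Finset.sum_le_sum fun u _ => ?_
        rw [← mul_assoc, ← mul_assoc, ← add_mul]
        gcongr
        exact enorm_add_sq_le _ _
    _ = ∫⁻ v in ann r (2 * r), ((∫⁻ e in ann (1 / r) (2 / r),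
          2 * ∑ u ∈ S, ‖f u e‖ₑ ^ 2 * ENNReal.ofReal (wtB T φ0 u v e)) +
          ∫⁻ e in ann (1 / r) (2 / r),
            2 * ∑ u ∈ S, ‖g u e‖ₑ ^ 2 * ENNReal.ofReal (wtB T φ0 u v e)) := by
        refine lintegral_congr fun v => ?_
        exact lintegral_add_left (hm1 v) _
    _ = (∫⁻ v in ann r (2 * r), ∫⁻ e in ann (1 / r) (2 / r),
          2 * ∑ u ∈ S, ‖f u e‖ₑ ^ 2 * ENNReal.ofReal (wtB T φ0 u v e)) +
          ∫⁻ v in ann r (2 * r), ∫⁻ e in ann (1 / r) (2 / r),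
            2 * ∑ u ∈ S, ‖g u e‖ₑ ^ 2 * ENNReal.ofReal (wtB T φ0 u v e) :=
        lintegral_add_left hm2 _
    _ = _ := by
        have h2 : ∀ F : ℂ → ℂ → ℝ≥0∞, ∫⁻ v in ann r (2 * r), ∫⁻ e in ann (1 / r) (2 / r),
            2 * F v e = 2 * ∫⁻ v in ann r (2 * r), ∫⁻ e in ann (1 / r) (2 / r), F v e := by
          intro F
          rw [← lintegral_const_mul' _ _ (by norm_num)]
          refine lintegral_congr fun v => ?_
          rw [← lintegral_const_mul' _ _ (by norm_num)]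
        rw [h2, h2]

lemma BX_const_mul {r T : ℝ} {φ0 : ℂ → ℂ} {S : Finset Eis} (c : ℂ) (f : Eis → ℂ → ℂ) :
    BX r T φ0 S (fun u e => c * f u e) = ‖c‖ₑ ^ 2 * BX r T φ0 S f := by
  have hc : ‖c‖ₑ ^ 2 ≠ ⊤ := by finiteness
  unfold BX
  rw [← lintegral_const_mul' _ _ hc]
  refine lintegral_congr fun v => ?_
  rw [← lintegral_const_mul' _ _ hc]
  refine lintegral_congr fun e => ?_
  rw [Finset.mul_sum]
  refine Finset.sum_congr rfl fun u _ => ?_
  rw [enorm_mul, mul_pow, mul_assoc]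

/-! ### the theorem -/

theorem K3_of_K1 (hK1 : K1_Prop) : ∃ ρ : Eis → ℂ, K3_Prop ρ := by
  obtain ⟨om0, h0, hm0⟩ := exists_om0
  have hd0 : Differentiable ℝ om0 := h0.cd.differentiable (by simp)
  have hex : ∀ u : Eis, ∃ ρ : ℂ, ∀ Y, 0 < Y →
      ‖St om0 u Y - ((Y ^ ((4 : ℝ) / 3) : ℝ) : ℂ) * ρ‖ₑ ^ 2 ≤
      3 * ∫⁻ k in Ioi (1 : ℝ), ENNReal.ofReal (k ^ (-(10 : ℝ) / 3)) *
        ‖St (om1 om0) u (k * Y)‖ₑ ^ 2 := by
    intro u
    obtain ⟨Y0, hY0, hfin⟩ := finite_of_K1 hK1 h0.om1 (mom_om1 h0) u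
    exact St_bound hd0 h0.om1.cd.continuous (fun x hx => h0.supp x (Or.inr hx)) (by norm_num) u
      hY0 hfin
  choose ρ hρ using hex
  refine ⟨ρ, ?_⟩
  intro a b φ0 τ0 ha hab hφ hτ0
  obtain ⟨K0, hK0, hK0'⟩ := h0.bound
  obtain ⟨K1, hK1c, hK1'⟩ := h0.om1.cls
  set τ : ℝ := min τ0 (1 / 6) with hτdef
  have hτ : 0 < τ := lt_min hτ0 (by norm_num)
  have hτ6 : τ ≤ 1 / 6 := min_le_right _ _
  have hττ : τ ≤ τ0 := min_le_left _ _
  obtain ⟨C1, hC1, hB1⟩ := hK1 (min a 1) (max b 2) 0 φ0 τ (lt_min ha one_pos)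
    (by
      have h1 := min_le_right a 1
      have h2 := le_max_right b 2
      linarith) hφ hτ
  obtain ⟨C2, hC2, hB2⟩ := hK1 1 2 0 φ0 τ one_pos (by norm_num) hφ hτ
  set cm : ℝ := b * b ^ ((1 : ℝ) / 3) with hcm
  have hb0 : 0 < b := ha.trans_le hab
  have hcm0 : 0 ≤ cm := by positivity
  refine ⟨2 * (C1 * (1 + cm * K0) ^ 2) + 36 * (cm ^ 2 * (C2 * K1 ^ 2)), by positivity, ?_⟩
  intro K T om B r S hom hK hT hB hr
  have hT0 : 0 < T := by linarith
  have hSup := hom.sup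
  set m : ℂ := mom om with hmdef
  have hm : ‖m‖ ≤ K * cm := norm_mom_le hom ha hab hK
  set rest : ℝ → ℂ := fun x => om x - m * om0 x with hrest
  have hSr : Sup (min a 1) (max b 2) rest := by
    refine ⟨hom.cd.sub (contDiff_const.mul h0.cd), fun x hx => ?_⟩
    have h1 : om x = 0 := by
      refine hom.supp x ?_
      rcases hx with hx | hx
      · exact Or.inl (hx.trans_le (min_le_left _ _))
      · exact Or.inr ((le_max_left _ _).trans_lt hx)
    have h2 : om0 x = 0 := by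
      refine h0.supp x ?_
      rcases hx with hx | hx
      · exact Or.inl (hx.trans_le (min_le_right _ _))
      · exact Or.inr ((le_max_right _ _).trans_lt hx)
    simp only [hrest, h1, h2, mul_zero, sub_zero]
  have hmr : mom rest = 0 := by
    rw [hrest, mom_sub_smul hSup h0 m, hm0, ← hmdef]; ring
  have hClr : Cls (min a 1) (max b 2) (K * (1 + cm * K0)) T rest := by
    refine ⟨hSr.cd, hSr.supp, fun j hj x => ?_⟩
    have h1 : iteratedDeriv j rest x = iteratedDeriv j om x - m * iteratedDeriv j om0 x := by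
      have hc1 : ContDiffAt ℝ j om x := (hom.cd.of_le (by exact_mod_cast le_top)).contDiffAt
      have hc2 : ContDiffAt ℝ j om0 x := (h0.cd.of_le (by exact_mod_cast le_top)).contDiffAt
      have h2 : rest = om - fun x => m * om0 x := rfl
      rw [h2, iteratedDeriv_sub hc1 (contDiffAt_const.mul hc2), iteratedDeriv_const_mul _ hc2]
    rw [h1]
    have hTj : 1 ≤ T ^ j := one_le_pow₀ hT
    calc ‖iteratedDeriv j om x - m * iteratedDeriv j om0 x‖
        ≤ ‖iteratedDeriv j om x‖ + ‖m‖ * ‖iteratedDeriv j om0 x‖ := by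
          refine (norm_sub_le _ _).trans ?_
          rw [norm_mul]
      _ ≤ K * T ^ j + (K * cm) * K0 := by
          have := hom.bd j hj x
          have := hK0' j hj x
          gcongr
      _ ≤ K * T ^ j + (K * cm) * K0 * T ^ j := by
          have : 0 ≤ (K * cm) * K0 := by positivity
          nlinarith
      _ = K * (1 + cm * K0) * T ^ j := by ring
  -- the two pieces
  have hBr := hB1 (K * (1 + cm * K0)) T rest B r S hClr (by positivity) hT hB hr (Or.inr hmr)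
  set f1 : Eis → ℂ → ℂ := fun u e => Sm rest u (B / ‖e‖ ^ 2) with hf1
  set f2 : Eis → ℂ → ℂ := fun u e =>
    St om0 u (B / ‖e‖ ^ 2) - (((B / ‖e‖ ^ 2) ^ ((4 : ℝ) / 3) : ℝ) : ℂ) * ρ u with hf2
  have hsplit : BX r T φ0 S (fun u e => Sg (fun _ => 1) (Uf om 0 B) u e -
        (((B / ‖e‖ ^ 2) ^ ((4 : ℝ) / 3) : ℝ) : ℂ) * m * ρ u) =
      BX r T φ0 S (fun u e => f1 u e + m * f2 u e) := by
    refine BX_congr hr fun u e he => ?_
    have hY : 0 < B / ‖e‖ ^ 2 := by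
      have := norm_pos_iff.mpr he
      positivity
    rw [Sg_Uf_zero, hf1, hf2]
    simp only
    rw [Sm_eq _ _ hY, hrest, St_split hSup h0 m u hY]
    ring
  have hf1m : ∀ u, Measurable (f1 u) := by
    intro u
    exact (measurable_Sm hSr.cd.continuous (fun x hx => hSr.supp x (Or.inr hx))
      (le_trans (by norm_num) (le_max_right b 2)) u).comp (by fun_prop)
  have hBf1 : BX r T φ0 S f1 ≤ ENNReal.ofReal (RH C1 r (K * (1 + cm * K0)) T B τ) := by
    refine le_trans (le_of_eq ?_) hBr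
    refine BX_congr hr fun u e he => ?_
    have hY : 0 < B / ‖e‖ ^ 2 := by
      have := norm_pos_iff.mpr he
      positivity
    rw [Sg_Uf_zero, hf1]
    simp only
    rw [Sm_eq _ _ hY]
  have hBf2 : BX r T φ0 S f2 ≤ 3 * ENNReal.ofReal (6 * RH C2 r K1 T B τ) := by
    have hton := tonelli h0.om1.cd.continuous (fun x hx => h0.om1.supp x (Or.inr hx))
      (by norm_num) hφ hT0 hr hB S
    calc BX r T φ0 S f2
        ≤ ∫⁻ v in ann r (2 * r), ∫⁻ e in ann (1 / r) (2 / r), 3 * ∑ u ∈ S,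
          (∫⁻ k in Ioi (1 : ℝ), ENNReal.ofReal (k ^ (-(10 : ℝ) / 3)) *
            ‖St (om1 om0) u (k * (B / ‖e‖ ^ 2))‖ₑ ^ 2) * ENNReal.ofReal (wtB T φ0 u v e) := by
          unfold BX
          refine lintegral_mono fun v => ?_
          refine setLIntegral_mono' (measurableSet_ann _ _) fun e he => ?_
          have he0 : 0 < ‖e‖ := lt_of_lt_of_le (by positivity) he.1
          rw [Finset.mul_sum]
          refine Finset.sum_le_sum fun u _ => ?_
          rw [← mul_assoc]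
          gcongr
          exact hρ u (B / ‖e‖ ^ 2) (by positivity)
      _ = 3 * ∫⁻ v in ann r (2 * r), ∫⁻ e in ann (1 / r) (2 / r), ∑ u ∈ S,
          (∫⁻ k in Ioi (1 : ℝ), ENNReal.ofReal (k ^ (-(10 : ℝ) / 3)) *
            ‖St (om1 om0) u (k * (B / ‖e‖ ^ 2))‖ₑ ^ 2) * ENNReal.ofReal (wtB T φ0 u v e) := by
          rw [← lintegral_const_mul' _ _ (by norm_num)]
          refine lintegral_congr fun v => ?_
          rw [← lintegral_const_mul' _ _ (by norm_num)]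
      _ ≤ _ := by
          rw [hton]
          gcongr
          refine int_scales hC2 hr hB hT hτ hτ6 fun k hk => ?_
          exact hB2 K1 T (om1 om0) (k * B) r S (hK1' T hT) hK1c hT (by positivity) hr
            (Or.inr (mom_om1 h0))
  rw [hsplit]
  refine (BX_add_le hT0 hφ hf1m).trans ?_
  rw [BX_const_mul]
  have hme : ‖m‖ₑ ^ 2 ≤ ENNReal.ofReal ((K * cm) ^ 2) := by
    rw [← ofReal_norm, ← ENNReal.ofReal_pow (norm_nonneg _)]
    refine ENNReal.ofReal_le_ofReal ?_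
    have := norm_nonneg m
    gcongr
  have hR1 := RH_nonneg (r := r) (K := K * (1 + cm * K0)) (T := T) (τ := τ) hC1 hB
  have hR2 := RH_nonneg (r := r) (K := K1) (T := T) (τ := τ) hC2 hB
  calc 2 * BX r T φ0 S f1 + 2 * (‖m‖ₑ ^ 2 * BX r T φ0 S f2)
      ≤ 2 * ENNReal.ofReal (RH C1 r (K * (1 + cm * K0)) T B τ) +
        2 * (ENNReal.ofReal ((K * cm) ^ 2) * (3 * ENNReal.ofReal (6 * RH C2 r K1 T B τ))) := by
        gcongr
    _ = ENNReal.ofReal (2 * RH C1 r (K * (1 + cm * K0)) T B τ +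
        36 * ((K * cm) ^ 2 * RH C2 r K1 T B τ)) := by
        rw [ENNReal.ofReal_add (by positivity) (by positivity)]
        have e2 : (2 : ℝ≥0∞) = ENNReal.ofReal 2 := by norm_num
        have e3 : (3 : ℝ≥0∞) = ENNReal.ofReal 3 := by norm_num
        rw [e2, e3, ← ENNReal.ofReal_mul (by norm_num), ← ENNReal.ofReal_mul (by norm_num),
          ← ENNReal.ofReal_mul (by positivity), ← ENNReal.ofReal_mul (by norm_num)]
        congr 2
        ring
    _ ≤ _ := by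
        refine ENNReal.ofReal_le_ofReal ?_
        unfold RH
        have hpow : (1 + B) ^ τ ≤ (1 + B) ^ τ0 :=
          Real.rpow_le_rpow_of_exponent_le (by linarith) hττ
        have hX : 0 ≤ (r ^ 4)⁻¹ := by positivity
        calc 2 * (C1 * ((1 + r ^ 4) * (r ^ 4)⁻¹ * (K * (1 + cm * K0)) ^ 2 * B ^ 2 * (T ^ 2)⁻¹ *
              (1 + B) ^ τ)) + 36 * ((K * cm) ^ 2 * (C2 * ((1 + r ^ 4) * (r ^ 4)⁻¹ * K1 ^ 2 * B ^ 2 *
              (T ^ 2)⁻¹ * (1 + B) ^ τ)))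
            = (2 * (C1 * (1 + cm * K0) ^ 2) + 36 * (cm ^ 2 * (C2 * K1 ^ 2))) *
              ((1 + r ^ 4) * (r ^ 4)⁻¹ * K ^ 2 * B ^ 2 * (T ^ 2)⁻¹ * (1 + B) ^ τ) := by ring
          _ ≤ _ := by gcongr

end Crest.Agent.R012.KRho813
end
end

-- ▼ part R012/TItMS1_663

/-!
# Row 12, (M): `K1_Prop → ∃ ρ, MS1 ρ` (helper663)
-/

set_option autoImplicit false

noncomputable section

open MeasureTheory Complex Set Filter Topology
open Crest.Agent.R012.Eis
open scoped ComplexConjugate ENNReal ContDiff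

namespace Crest.Agent.R012.TIt663

open Crest.Agent.R012 Crest.Agent.R012.M49 Crest.Agent.R012.Four813
open Crest.Agent.R012.Parseval499

lemma norm_eC (z : ℂ) : ‖eC z‖ = 1 := by
  unfold eC
  have h1 : z + conj z = ((2 * z.re : ℝ) : ℂ) := by
    rw [Complex.add_conj]
  rw [h1, show 2 * (Real.pi : ℂ) * Complex.I * ((2 * z.re : ℝ) : ℂ) =
    ((2 * Real.pi * (2 * z.re) : ℝ) : ℂ) * Complex.I by push_cast; ring]
  exact Complex.norm_exp_ofReal_mul_I _

lemma continuous_eC : Continuous eC := by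
  unfold eC
  fun_prop

lemma phat_dil (φ : ℂ → ℂ) {s : ℝ} (hs : 0 < s) (ξ : ℂ) :
    phat (fun z => φ (z / s)) ξ = ((s ^ 2 : ℝ) : ℂ) * phat φ (s * ξ) := by
  unfold phat
  have hs0 : (s : ℂ) ≠ 0 := by exact_mod_cast hs.ne'
  rw [integral_comp_mul_left' hs0 (fun z => φ (z / s) * eC (-(ξ * z)))]
  rw [Complex.norm_real, Real.norm_of_nonneg hs.le, Complex.real_smul]
  congr 1
  refine integral_congr_ae (Filter.Eventually.of_forall fun z => ?_)
  simp only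
  rw [mul_div_cancel_left₀ _ hs0]
  congr 2
  ring

lemma continuous_phat {φ : ℂ → ℂ} (hφ : Integrable φ) : Continuous (phat φ) := by
  unfold phat
  refine continuous_of_dominated (bound := fun z => ‖φ z‖) ?_ ?_ hφ.norm ?_
  · intro ξ
    refine hφ.aestronglyMeasurable.mul ?_
    exact (continuous_eC.comp (by fun_prop)).aestronglyMeasurable
  · intro ξ
    refine Filter.Eventually.of_forall fun z => ?_
    rw [norm_mul, norm_eC, mul_one]
  · refine Filter.Eventually.of_forall fun z => ?_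
    exact continuous_const.mul (continuous_eC.comp (by fun_prop))

lemma phiLow_of_integral {φ : ℂ → ℂ} (hφ : Integrable φ) (h0 : ∫ z, φ z ≠ 0) : PhiLow φ := by
  have hc := continuous_phat hφ
  have h1 : phat φ 0 = ∫ z, φ z := by
    unfold phat
    refine integral_congr_ae (Filter.Eventually.of_forall fun z => ?_)
    simp [eC]
  set m : ℝ := ‖∫ z, φ z‖ with hm
  have hm0 : 0 < m := norm_pos_iff.mpr h0
  have h2 : ∀ᶠ ξ in 𝓝 (0 : ℂ), m / 2 < ‖phat φ ξ‖ := by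
    have h3 : Tendsto (fun ξ => ‖phat φ ξ‖) (𝓝 0) (𝓝 ‖phat φ 0‖) := (hc.norm.tendsto 0)
    rw [h1] at h3
    exact h3.eventually_const_lt (by rw [← hm]; linarith)
  rw [Metric.eventually_nhds_iff] at h2
  obtain ⟨ε, hε, h4⟩ := h2
  refine ⟨ε / 2, m / 2, by positivity, by positivity, fun s hs ξ hξ => ?_⟩
  rw [phat_dil φ hs, norm_mul, Complex.norm_real, Real.norm_of_nonneg (by positivity), mul_comm]
  have h5 : m / 2 < ‖phat φ (s * ξ)‖ := by
    apply h4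
    rw [dist_zero_right, norm_mul, Complex.norm_real, Real.norm_of_nonneg hs.le]
    linarith
  exact mul_le_mul_of_nonneg_left h5.le (by positivity)

/-- existence of the test function. -/
lemma exists_phi : ∃ φ : ℂ → ℂ, TestFn286.SP (1 / 4) φ ∧ PhiLow φ := by
  let f : ContDiffBump (0 : ℂ) := ⟨1 / 16, 1 / 8, by norm_num, by norm_num⟩
  refine ⟨fun z => ((f z : ℝ) : ℂ), ⟨?_, ?_⟩, ?_⟩
  · exact Complex.ofRealCLM.contDiff.comp f.contDiff
  · intro z hz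
    have : f z = 0 := by
      apply f.zero_of_le_dist
      rw [dist_zero_right]
      have : f.rOut = 1 / 8 := rfl
      rw [this]; linarith
    simp [this]
  · refine phiLow_of_integral ?_ ?_
    · exact (f.continuous.integrable_of_hasCompactSupport f.hasCompactSupport).ofReal
    · have e : ∫ z, ((f z : ℝ) : ℂ) = ((∫ z, f z : ℝ) : ℂ) := integral_ofReal
      rw [e]
      have := f.integral_pos (μ := (volume : Measure ℂ))
      exact_mod_cast this.ne'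

/-- adapter to `Lim4_47`. -/
lemma lim4_adapt {φ : ℂ → ℂ} {ρ : Eis → ℂ} (H : Lim4_47.Lim4 φ ρ) : Lim4 φ ρ := by
  intro l w d hd hw
  obtain ⟨C, _, h⟩ := H l w d hd hw
  exact ⟨C, h⟩

/-- **Mean square theorem from `K1_Prop`.** -/
theorem MS1_of_K1 (H : ML384.K1_Prop) : ∃ ρ : Eis → ℂ, MS1 ρ := by
  obtain ⟨ρ, hρ⟩ := KRho813.K3_of_K1 H
  obtain ⟨φ, h1, h2⟩ := exists_phi
  exact ⟨_, MS1_of_Lim4 h2 (lim4_adapt (Lim4_47.lim4 H hρ h1))⟩

end Crest.Agent.R012.TIt663
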