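import Crest.Agent.R012.CubeA_777
import Crest.Agent.R012.Cst4_566
import Crest.Agent.R012.Mob_705
import Crest.Agent.R012.Rho_777
import Crest.Agent.R012.PoissonG_381
import Crest.Agent.R012.GaussInst_880
import Crest.Agent.R012.CharSum_852
import Crest.Agent.R012.Base_666
import Crest.Agent.R012.Dens_705
import Crest.Agent.R012.LatW_413
import Crest.Agent.R012.Sym6_645
import Crest.Agent.R012.Sign_51
import Crest.Agent.R012.MSgenD_49
import Crest.Agent.R012.MSgenF_49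
import Crest.Agent.R012.TItMS1_663
import Crest.Agent.R012.Cst7_566_Mg

-- ▼ part R012/Cube_777
section

/-!
# Row 12, item MC1c: the cube terms of the dual side of the first moment

`cube_limit` : `Xc w v N0 (B^(1-δ)) B / B^(-(1-δ)/3 + 5/6) → N0^(-1/3) (4π/√3) (Iw w) (mel v (5/6)) Dc`.

Proof: coprimality by the Moebius function `muE` over the primary divisors of `b`, then dominated
convergence over `d` (each term is `≤ C N(d)⁻²` by `sig_bound`), then `(Σ μ(d)/N(d)²) Zc = 1`.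
-/

set_option autoImplicit false

noncomputable section

open MeasureTheory Complex Set Filter Topology
open scoped ContDiff SchwartzMap FourierTransform

namespace Crest.Agent.R012.Cube777

open Crest.Agent.R012 Crest.Agent.R012.Eis Crest.Agent.R012.MC Crest.Agent.R012.LatSum413
  Crest.Agent.R012.Div277 Crest.Agent.R012.Mob705

/-- real version of `fw`. -/
def fr (g : ℝ → ℝ) (z : ℂ) : ℝ := g (‖z‖ ^ 2)

lemma fr_eq (g : ℝ → ℝ) : fr g = fun z => (fw g z).re := by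
  funext z; simp [fr, fw]

lemma fr_contDiff {g : ℝ → ℝ} (hg : Wgt g) : ContDiff ℝ ∞ (fr g) := by
  rw [fr_eq]
  exact Complex.reCLM.contDiff.comp (contDiff_fw hg)

lemma fr_compact {g : ℝ → ℝ} (hg : Wgt g) : HasCompactSupport (fr g) := by
  rw [fr_eq]
  exact (compact_fw hg).comp_left (g := Complex.re) Complex.zero_re

lemma integral_fr (g : ℝ → ℝ) : ∫ z, fr g z = Real.pi * ∫ x in Ioi (0 : ℝ), g x := by
  have h := TateC413.integral_radial (fun r : ℝ => g (r ^ 2))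
  have h0 : (∫ z, fr g z) = ∫ z : ℂ, (fun r : ℝ => g (r ^ 2)) ‖z‖ := rfl
  rw [h0, h]
  have h2 := integral_comp_rpow_Ioi_of_pos (g := fun y : ℝ => (1 / 2 : ℝ) * g y)
    (p := 2) (by norm_num)
  have e1 : ∫ x in Ioi (0 : ℝ), ((2 : ℝ) * x ^ ((2 : ℝ) - 1)) •
      (fun y : ℝ => (1 / 2 : ℝ) * g y) (x ^ (2 : ℝ)) =
      ∫ x in Ioi (0 : ℝ), x • g (x ^ 2) := by
    apply setIntegral_congr_fun measurableSet_Ioi
    intro x hx
    simp only [mem_Ioi] at hx
    simp only [smul_eq_mul]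
    have e2 : x ^ (2 : ℝ) = x ^ 2 := by
      rw [show (2 : ℝ) = ((2 : ℕ) : ℝ) by norm_num, Real.rpow_natCast]
    have e4 : x ^ ((2 : ℝ) - 1) = x := by
      rw [show (2 : ℝ) - 1 = 1 by norm_num, Real.rpow_one]
    rw [e2, e4]
    ring
  rw [← e1, h2, integral_const_mul]
  simp only [smul_eq_mul]
  ring

/-- reindexing of the primary multiples of `d`. -/
lemma tsum_prim_mult {d : Eis} (hd : IsPrim d) (F : Eis → ℝ) :
    (∑' b : Eis, open Classical in if IsPrim b ∧ d ∣ b then F b else 0) =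
      ∑' m : Eis, F (d * (1 + 3 * m)) := by
  classical
  have hinj : Function.Injective (fun m : Eis => d * (1 + 3 * m)) := by
    intro x y hxy
    have h1 := mul_left_cancel₀ hd.ne_zero hxy
    have h2 : (3 : Eis) * x = 3 * y := add_left_cancel h1
    exact mul_left_cancel₀ (by norm_num) h2
  have hp : ∀ m : Eis, IsPrim (d * (1 + 3 * m)) ∧ d ∣ d * (1 + 3 * m) := fun m =>
    ⟨hd.mul (by unfold IsPrim; exact ⟨m, by ring⟩), dvd_mul_right _ _⟩
  rw [← hinj.tsum_eq]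
  · refine tsum_congr fun m => ?_
    rw [if_pos (hp m)]
  · intro b hb
    rw [Function.mem_support] at hb
    split_ifs at hb with h
    · obtain ⟨h1, c, rfl⟩ := h
      have hc := IsPrim.of_mul_left h1 hd
      obtain ⟨m, hm⟩ := hc
      refine ⟨m, ?_⟩
      simp only
      rw [← hm]; ring
    · exact absurd rfl hb

lemma prim_limit {g : ℝ → ℝ} (hg : Wgt g) {d : Eis} (hd : IsPrim d) :
    Tendsto (fun B : ℝ => B⁻¹ * ∑' b : Eis,
      open Classical in if IsPrim b ∧ d ∣ b then g (nm b / B) else 0) atTop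
      (𝓝 (2 * Real.pi / (9 * Real.sqrt 3) / nm d * ∫ x in Ioi (0 : ℝ), g x)) := by
  classical
  have hc : Continuous (fr g) := (fr_contDiff hg).continuous
  obtain ⟨M, hM, h2⟩ := second_diff_of_contDiff ((fr_contDiff hg).of_le (by norm_cast)) (fr_compact hg)
  obtain ⟨c1, c2, h1, h12, hsup⟩ := hg.exists_bounds
  have hs : ∀ z : ℂ, Real.sqrt c2 < ‖z‖ → fr g z = 0 := by
    intro z hz
    by_contra hcon
    have h3 := (hsup _ hcon).2
    have h4 : ‖z‖ ≤ Real.sqrt c2 := Real.le_sqrt_of_sq_le h3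
    linarith
  have hd0 : (0 : ℝ) < nm d := by exact_mod_cast nm_pos.mpr hd.ne_zero
  have hdn : 0 < ‖toC d‖ := norm_toC_pos hd.ne_zero
  have key : ∀ B : ℝ, 0 < B → |B⁻¹ * ∑' b : Eis, (if IsPrim b ∧ d ∣ b then g (nm b / B) else 0) -
      2 * Real.pi / (9 * Real.sqrt 3) / nm d * ∫ x in Ioi (0 : ℝ), g x| ≤
      B⁻¹ * (8 * M * (Real.sqrt c2 + 3 * ‖toC d‖ / Real.sqrt B) ^ 2) := by
    intro B hB
    have hsB : 0 < Real.sqrt B := Real.sqrt_pos.mpr hB
    set q : ℂ := 3 * toC d / (Real.sqrt B : ℂ) with hq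
    have hqn : ‖q‖ = 3 * ‖toC d‖ / Real.sqrt B := by
      rw [hq, norm_div, norm_mul, Complex.norm_real, Real.norm_eq_abs, abs_of_pos hsB]
      norm_num
    have hq0 : q ≠ 0 := by
      rw [← norm_pos_iff, hqn]; positivity
    have h := (latSum_second hc (Real.sqrt_nonneg c2) hM hs h2 hq0 (toC d / (Real.sqrt B : ℂ))).2
    rw [smul_eq_mul, integral_fr, Real.norm_eq_abs] at h
    have e1 : ∀ m : Eis, fr g (q * toC m + toC d / (Real.sqrt B : ℂ)) =
        g (nm (d * (1 + 3 * m)) / B) := by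
      intro m
      unfold fr
      congr 1
      have e2 : q * toC m + toC d / (Real.sqrt B : ℂ) = toC (d * (1 + 3 * m)) / (Real.sqrt B : ℂ) := by
        rw [hq]
        simp only [map_mul, map_add, map_one, map_ofNat]
        ring
      rw [e2, norm_div, div_pow, norm_toC_sq, Complex.norm_real, Real.norm_eq_abs, sq_abs,
        Real.sq_sqrt hB.le]
    rw [tsum_prim_mult hd (fun b => g (nm b / B))]
    rw [tsum_congr e1, hqn] at h
    have e3 : 2 / Real.sqrt 3 / (3 * ‖toC d‖ / Real.sqrt B) ^ 2 *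
        (Real.pi * ∫ x in Ioi (0 : ℝ), g x) =
        B * (2 * Real.pi / (9 * Real.sqrt 3) / nm d * ∫ x in Ioi (0 : ℝ), g x) := by
      rw [div_pow, mul_pow, norm_toC_sq, Real.sq_sqrt hB.le]
      field_simp
      ring
    rw [e3] at h
    set S := ∑' m : Eis, g (nm (d * (1 + 3 * m)) / B) with hS
    set L := 2 * Real.pi / (9 * Real.sqrt 3) / nm d * ∫ x in Ioi (0 : ℝ), g x with hL
    have e4 : B⁻¹ * S - L = B⁻¹ * (S - B * L) := by field_simp
    rw [e4, abs_mul, abs_of_pos (inv_pos.mpr hB)]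
    exact mul_le_mul_of_nonneg_left h (inv_pos.mpr hB).le
  rw [tendsto_iff_norm_sub_tendsto_zero]
  refine squeeze_zero' (Eventually.of_forall fun _ => norm_nonneg _) 
    (g := fun B : ℝ => B⁻¹ * (8 * M * (Real.sqrt c2 + 3 * ‖toC d‖) ^ 2)) ?_ ?_
  · filter_upwards [eventually_ge_atTop 1] with B hB
    have hB0 : 0 < B := by linarith
    rw [Real.norm_eq_abs]
    refine (key B hB0).trans ?_
    have h5 : 1 ≤ Real.sqrt B := by rw [Real.one_le_sqrt]; exact hB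
    have h6 : 3 * ‖toC d‖ / Real.sqrt B ≤ 3 * ‖toC d‖ := div_le_self (by positivity) h5
    gcongr
  · have := tendsto_inv_atTop_zero (𝕜 := ℝ)
    simpa using this.mul_const (8 * M * (Real.sqrt c2 + 3 * ‖toC d‖) ^ 2)

/-! ### Step A -/

/-- `t_b = (c/N(b))^(1/6)/√3`. -/
def tb (c : ℝ) (b : Eis) : ℝ := (c / nm b) ^ ((1 : ℝ) / 6) / Real.sqrt 3

lemma nm_pos' {b : Eis} (hb : b ≠ 0) : (0 : ℝ) < nm b := by exact_mod_cast nm_pos.mpr hb

lemma tb_pos {c : ℝ} (hc : 0 < c) {b : Eis} (hb : b ≠ 0) : 0 < tb c b := by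
  have := nm_pos' hb
  unfold tb; positivity

lemma tb_sq {c : ℝ} (hc : 0 < c) {b : Eis} (hb : b ≠ 0) :
    tb c b ^ 2 = (c / nm b) ^ ((1 : ℝ) / 3) / 3 := by
  have := nm_pos' hb
  unfold tb
  rw [div_pow, Real.sq_sqrt (by norm_num), ← Real.rpow_natCast _ 2, ← Real.rpow_mul (by positivity)]
  norm_num

lemma tb_cube {c : ℝ} (hc : 0 < c) {b : Eis} (hb : b ≠ 0) :
    tb c b ^ 3 = Real.sqrt c / (3 * Real.sqrt 3) / Real.sqrt (nm b) := by
  have := nm_pos' hb
  unfold tb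
  have e1 : Real.sqrt 3 ^ 3 = 3 * Real.sqrt 3 := by
    rw [pow_succ, Real.sq_sqrt (by norm_num)]
  rw [div_pow, e1, ← Real.rpow_natCast _ 3, ← Real.rpow_mul (by positivity)]
  have e2 : (1 : ℝ) / 6 * ((3 : ℕ) : ℝ) = 1 / 2 := by norm_num
  rw [e2, ← Real.sqrt_eq_rpow, Real.sqrt_div hc.le]
  field_simp

lemma phi_f3 {w v : ℝ → ℝ} {B c : ℝ} (hc : 0 < c) {b : Eis} (hb : b ≠ 0) (m : Eis) :
    phi w v B (Real.sqrt (c * (nm m : ℝ) ^ 3) / (3 * Real.sqrt 3)) (toC b) =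
      v (nm b / B) / Real.sqrt (nm b) * f3 w ((tb c b : ℂ) * toC m) := by
  rw [phi_toC]
  congr 1
  unfold f3
  congr 1
  rw [norm_mul, mul_pow, Complex.norm_real, Real.norm_eq_abs, abs_of_pos (tb_pos hc hb),
    tb_cube hc hb, Real.sqrt_mul hc.le, norm_toC]
  have e1 : Real.sqrt ((nm m : ℝ) ^ 3) = ‖toC m‖ ^ 3 := by
    rw [← norm_toC_sq, ← pow_mul, mul_comm 2 3, pow_mul, Real.sqrt_sq (by positivity)]
  rw [e1, norm_toC]
  ring

/-! ### Step B -/

lemma summable_if {w : ℝ → ℝ} (hw : Wgt w) {t : ℂ} (ht : t ≠ 0) (P : Eis → Prop) [DecidablePred P] :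
    Summable (fun m : Eis => if m ≠ 0 ∧ P m then f3 w (t * toC m) else 0) := by
  classical
  obtain ⟨K, hK, h⟩ := f3_decay hw
  have hD : ∀ z : ℂ, z ≠ 0 → ‖f3 w z‖ ≤ K / ‖z‖ ^ 3 := fun z hz => by
    refine (h z).trans ?_
    have := mul_le_mul_of_nonneg_left (wt3_le_inv hz) hK
    rwa [mul_one_div] at this
  have hs := (summable_lsum hK hD ht).2.1
  refine Summable.of_norm_bounded hs fun m => ?_
  by_cases hm : m = 0
  · simp [hm]
  · rw [if_neg hm]
    split_ifs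
    · exact le_rfl
    · simp

lemma tsum_mult (f : ℂ → ℝ) {d : Eis} (hd : d ≠ 0) (t : ℂ) :
    (∑' m : Eis, open Classical in if m ≠ 0 ∧ d ∣ m then f (t * toC m) else 0) =
      lsum f (t * toC d) := by
  classical
  have hinj : Function.Injective (fun m : Eis => d * m) := mul_right_injective₀ hd
  unfold lsum
  rw [← hinj.tsum_eq]
  · refine tsum_congr fun m => ?_
    by_cases hm : m = 0
    · simp [hm]
    · rw [if_pos ⟨mul_ne_zero hd hm, dvd_mul_right _ _⟩, if_neg hm, map_mul]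
      congr 1; ring
  · intro b hb
    rw [Function.mem_support] at hb
    split_ifs at hb with h
    · obtain ⟨h1, c, rfl⟩ := h
      exact ⟨c, rfl⟩
    · exact absurd rfl hb

lemma cop_ind {b m : Eis} (hb : IsPrim b) (hm : m ≠ 0) :
    (open Classical in if IsCoprime m b then (1 : ℝ) else 0) =
      ∑ d ∈ dvs b, open Classical in if d ∣ m then (muE d : ℝ) else 0 := by
  classical
  have h := sum_muE_coprime hb hm
  have e1 : ∑ d ∈ dvs m, (if d ∣ b then muE d else 0) = ∑ d ∈ dvs b, (if d ∣ m then muE d else 0) := by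
    rw [← Finset.sum_filter, ← Finset.sum_filter]
    congr 1
    ext d
    simp only [Finset.mem_filter, mem_dvs hm, mem_dvs hb.ne_zero]
    tauto
  rw [e1] at h
  have h2 : ((∑ d ∈ dvs b, (if d ∣ m then muE d else 0) : ℤ) : ℝ) =
      ((if IsCoprime b m then 1 else 0 : ℤ) : ℝ) := by rw [h]
  push_cast at h2
  rw [h2]
  simp only [isCoprime_comm]

lemma tsum_cop {w : ℝ → ℝ} (hw : Wgt w) {b : Eis} (hb : IsPrim b) {t : ℂ} (ht : t ≠ 0) :
    (∑' m : Eis, open Classical in if m ≠ 0 ∧ IsCoprime m b then f3 w (t * toC m) else 0) =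
      ∑ d ∈ dvs b, (muE d : ℝ) * lsum (f3 w) (t * toC d) := by
  classical
  have e1 : ∀ m : Eis, (if m ≠ 0 ∧ IsCoprime m b then f3 w (t * toC m) else 0) =
      ∑ d ∈ dvs b, (muE d : ℝ) * (if m ≠ 0 ∧ d ∣ m then f3 w (t * toC m) else 0) := by
    intro m
    by_cases hm : m = 0
    · simp [hm]
    · have h := cop_ind hb hm
      have e2 : (if m ≠ 0 ∧ IsCoprime m b then f3 w (t * toC m) else 0) =
          (if IsCoprime m b then (1 : ℝ) else 0) * f3 w (t * toC m) := by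
        by_cases hc : IsCoprime m b <;> simp [hm, hc]
      rw [e2, h, Finset.sum_mul]
      refine Finset.sum_congr rfl fun d _ => ?_
      by_cases hc : d ∣ m <;> simp [hm, hc]
  rw [tsum_congr e1, Summable.tsum_finsetSum]
  · refine Finset.sum_congr rfl fun d hd => ?_
    rw [tsum_mul_left, tsum_mult (f3 w) (isPrim_of_mem_dvs hd).ne_zero t]
  · intro d _
    exact (summable_if hw ht (fun m => d ∣ m)).mul_left _

/-! ### Step C: the exact formula -/

open Classical in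
/-- the cube terms of the dual side of the first moment -/
def Xc (w v : ℝ → ℝ) (N0 A B : ℝ) : ℝ := ∑' m : Eis, if m = 0 then 0 else
  ∑' b : Eis, if IsPrim b ∧ IsCoprime m b then
    phi w v B (Real.sqrt (A * N0 * (nm m : ℝ) ^ 3) / (3 * Real.sqrt 3)) (toC b) else 0

/-- `v(x) x^(-1/6)` -/
def gw (v : ℝ → ℝ) (x : ℝ) : ℝ := v x * x ^ (-(1 / 6) : ℝ)

lemma wgt_gw {v : ℝ → ℝ} (hv : Wgt v) : Wgt (gw v) := Rho777.wgt_mul_rpow hv _

lemma gw_support {v : ℝ → ℝ} {x : ℝ} (h : gw v x ≠ 0) : v x ≠ 0 := left_ne_zero_of_mul h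

lemma mel_gw (v : ℝ → ℝ) : ∫ x in Ioi (0 : ℝ), gw v x = mel v (5 / 6) := by
  unfold mel gw
  norm_num

lemma Xc_eq {w v : ℝ → ℝ} (hw : Wgt w) {N0 A B : ℝ} (hc : 0 < A * N0) {N : ℕ}
    (hN : ∀ b : Eis, v (nm b / B) ≠ 0 → nm b ≤ N) :
    Xc w v N0 A B = ∑ b ∈ primBall N, v (nm b / B) / Real.sqrt (nm b) *
      ∑ d ∈ dvs b, (muE d : ℝ) * lsum (f3 w) ((tb (A * N0) b : ℂ) * toC d) := by
  classical
  have e1 : ∀ m : Eis, (if m = 0 then (0 : ℝ) else
      ∑' b : Eis, if IsPrim b ∧ IsCoprime m b then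
        phi w v B (Real.sqrt (A * N0 * (nm m : ℝ) ^ 3) / (3 * Real.sqrt 3)) (toC b) else 0) =
      ∑ b ∈ primBall N, v (nm b / B) / Real.sqrt (nm b) *
        (if m ≠ 0 ∧ IsCoprime m b then f3 w ((tb (A * N0) b : ℂ) * toC m) else 0) := by
    intro m
    by_cases hm : m = 0
    · simp [hm]
    · rw [if_neg hm, tsum_eq_sum (s := primBall N)]
      · refine Finset.sum_congr rfl fun b hb => ?_
        have hb' := (mem_primBall.mp hb).2
        rw [phi_f3 hc hb'.ne_zero]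
        by_cases hcop : IsCoprime m b
        · rw [if_pos ⟨hb', hcop⟩, if_pos ⟨hm, hcop⟩]
        · rw [if_neg (fun h => hcop h.2), if_neg (fun h => hcop h.2), mul_zero]
      · intro b hb
        split_ifs with h
        · rw [phi_f3 hc h.1.ne_zero]
          have : v (nm b / B) = 0 := by
            by_contra hcon
            exact hb (mem_primBall.mpr ⟨hN b hcon, h.1⟩)
          rw [this]; simp
        · rfl
  unfold Xc
  rw [tsum_congr e1, Summable.tsum_finsetSum]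
  · refine Finset.sum_congr rfl fun b hb => ?_
    have hb' := (mem_primBall.mp hb).2
    have ht : ((tb (A * N0) b : ℝ) : ℂ) ≠ 0 := by
      exact_mod_cast (tb_pos hc hb'.ne_zero).ne'
    rw [tsum_mul_left, tsum_cop hw hb' ht]
  · intro b hb
    have hb' := (mem_primBall.mp hb).2
    have ht : ((tb (A * N0) b : ℝ) : ℂ) ≠ 0 := by
      exact_mod_cast (tb_pos hc hb'.ne_zero).ne'
    exact (summable_if hw ht (fun m => IsCoprime m b)).mul_left _

lemma term_eq {w v : ℝ → ℝ} {c B : ℝ} (hc : 0 < c) (hB : 0 < B) {b d : Eis} (hb : b ≠ 0)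
    (hd : d ≠ 0) :
    v (nm b / B) / Real.sqrt (nm b) * lsum (f3 w) ((tb c b : ℂ) * toC d) =
      3 * c ^ (-(1 / 3) : ℝ) * B ^ (-(1 / 6) : ℝ) *
        (gw v (nm b / B) * ((nm d : ℝ)⁻¹ * sig w ((tb c b : ℂ) * toC d))) := by
  have hb0 := nm_pos' hb
  have hd0 := nm_pos' hd
  have ht := tb_pos hc hb
  unfold sig gw
  rw [norm_mul, mul_pow, Complex.norm_real, Real.norm_eq_abs, sq_abs, tb_sq hc hb, norm_toC_sq]
  set L := lsum (f3 w) ((tb c b : ℂ) * toC d)
  have e1 : (c / (nm b : ℝ)) ^ ((1 : ℝ) / 3) = c ^ ((1 : ℝ) / 3) * (nm b : ℝ) ^ (-(1 / 3) : ℝ) := by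
    rw [Real.div_rpow hc.le hb0.le, Real.rpow_neg hb0.le]; rfl
  have e2 : ((nm b : ℝ) / B) ^ (-(1 / 6) : ℝ) = (nm b : ℝ) ^ (-(1 / 6) : ℝ) * B ^ ((1 : ℝ) / 6) := by
    rw [Real.div_rpow hb0.le hB.le, Real.rpow_neg hB.le]
    field_simp
  have e3 : (Real.sqrt (nm b))⁻¹ = (nm b : ℝ) ^ (-(1 / 6) : ℝ) * (nm b : ℝ) ^ (-(1 / 3) : ℝ) := by
    rw [← Real.rpow_add hb0, Real.sqrt_eq_rpow, ← Real.rpow_neg hb0.le]
    norm_num
  have e4 : c ^ (-(1 / 3) : ℝ) * c ^ ((1 : ℝ) / 3) = 1 := by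
    rw [← Real.rpow_add hc]; norm_num
  have e5 : B ^ (-(1 / 6) : ℝ) * B ^ ((1 : ℝ) / 6) = 1 := by
    rw [← Real.rpow_add hB]; norm_num
  rw [e1, e2, div_eq_mul_inv, e3]
  have e6 : 3 * c ^ (-(1 / 3) : ℝ) * B ^ (-(1 / 6) : ℝ) *
      (v (nm b / B) * ((nm b : ℝ) ^ (-(1 / 6) : ℝ) * B ^ ((1 : ℝ) / 6)) *
        ((nm d : ℝ)⁻¹ * (c ^ ((1 : ℝ) / 3) * (nm b : ℝ) ^ (-(1 / 3) : ℝ) / 3 * (nm d) * L))) =
      (c ^ (-(1 / 3) : ℝ) * c ^ ((1 : ℝ) / 3)) * (B ^ (-(1 / 6) : ℝ) * B ^ ((1 : ℝ) / 6)) *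
      ((nm d : ℝ)⁻¹ * nm d) *
      (v (nm b / B) * ((nm b : ℝ) ^ (-(1 / 6) : ℝ) * (nm b : ℝ) ^ (-(1 / 3) : ℝ)) * L) := by
    ring
  rw [e6, e4, e5, inv_mul_cancel₀ hd0.ne']
  ring

open Classical in
/-- the `d`-th term -/
def aB (w v : ℝ → ℝ) (c B : ℝ) (N : ℕ) (d : Eis) : ℝ :=
  if IsPrim d then (muE d : ℝ) * (nm d : ℝ)⁻¹ * (B⁻¹ * ∑ b ∈ primBall N, if d ∣ b then
    gw v (nm b / B) * sig w ((tb c b : ℂ) * toC d) else 0) else 0

lemma Xc_eq_tsum {w v : ℝ → ℝ} (hw : Wgt w) {N0 A B : ℝ} (hc : 0 < A * N0) (hB : 0 < B) {N : ℕ}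
    (hN : ∀ b : Eis, v (nm b / B) ≠ 0 → nm b ≤ N) :
    Xc w v N0 A B = 3 * (A * N0) ^ (-(1 / 3) : ℝ) * B ^ (-(1 / 6) : ℝ) *
      (B * ∑' d : Eis, aB w v (A * N0) B N d) := by
  classical
  rw [Xc_eq hw hc hN]
  set c := A * N0 with hcdef
  have e1 : ∀ b ∈ primBall N, v (nm b / B) / Real.sqrt (nm b) *
      ∑ d ∈ dvs b, (muE d : ℝ) * lsum (f3 w) ((tb c b : ℂ) * toC d) =
      3 * c ^ (-(1 / 3) : ℝ) * B ^ (-(1 / 6) : ℝ) * ∑' d : Eis,
        (if IsPrim d ∧ d ∣ b then (muE d : ℝ) * (nm d : ℝ)⁻¹ *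
          (gw v (nm b / B) * sig w ((tb c b : ℂ) * toC d)) else 0) := by
    intro b hb
    have hb' := (mem_primBall.mp hb).2
    rw [tsum_eq_sum (s := dvs b), Finset.mul_sum, Finset.mul_sum]
    · refine Finset.sum_congr rfl fun d hd => ?_
      have hd' := (mem_dvs hb'.ne_zero).mp hd
      rw [if_pos hd']
      have := term_eq (w := w) (v := v) hc hB hb'.ne_zero hd'.1.ne_zero
      calc v (nm b / B) / Real.sqrt (nm b) * ((muE d : ℝ) * lsum (f3 w) ((tb c b : ℂ) * toC d))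
          = (muE d : ℝ) * (v (nm b / B) / Real.sqrt (nm b) *
              lsum (f3 w) ((tb c b : ℂ) * toC d)) := by ring
        _ = _ := by rw [this]; ring
    · intro d hd
      rw [if_neg]
      exact fun h => hd ((mem_dvs hb'.ne_zero).mpr h)
  rw [Finset.sum_congr rfl e1, ← Finset.mul_sum, ← Summable.tsum_finsetSum]
  · congr 1
    rw [← tsum_mul_left]
    refine tsum_congr fun d => ?_
    unfold aB
    by_cases hd : IsPrim d
    · rw [if_pos hd]
      have : B * ((muE d : ℝ) * (nm d : ℝ)⁻¹ * (B⁻¹ * ∑ b ∈ primBall N, if d ∣ b then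
          gw v (nm b / B) * sig w ((tb c b : ℂ) * toC d) else 0)) =
          (muE d : ℝ) * (nm d : ℝ)⁻¹ * ∑ b ∈ primBall N, (if d ∣ b then
          gw v (nm b / B) * sig w ((tb c b : ℂ) * toC d) else 0) := by
        generalize (∑ b ∈ primBall N, if d ∣ b then
          gw v (nm b / B) * sig w ((tb c b : ℂ) * toC d) else 0) = S
        field_simp
      rw [this, Finset.mul_sum]
      refine Finset.sum_congr rfl fun b _ => ?_
      by_cases hdb : d ∣ b
      · rw [if_pos ⟨hd, hdb⟩, if_pos hdb]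
      · rw [if_neg (fun h => hdb h.2), if_neg hdb, mul_zero]
    · rw [if_neg hd, mul_zero]
      apply Finset.sum_eq_zero
      intro b _
      rw [if_neg (fun h => hd h.1)]
  · intro b hb
    have hb' := (mem_primBall.mp hb).2
    apply summable_of_ne_finset_zero (s := dvs b)
    intro d hd
    rw [if_neg]
    exact fun h => hd ((mem_dvs hb'.ne_zero).mpr h)

/-! ### Step D: bounds and limits -/

open Classical in
lemma card_mult {d : Eis} (hd : IsPrim d) {X : ℝ} (hX : 0 ≤ X) :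
    (((primBall ⌊X⌋₊).filter (fun b => d ∣ b)).card : ℝ) ≤ 16 * (X / nm d) := by
  have hd0 := nm_pos' hd.ne_zero
  have hsub : (primBall ⌊X⌋₊).filter (fun b => d ∣ b) ⊆
      (primBall ⌊X / nm d⌋₊).image (fun x => d * x) := by
    intro b hb
    obtain ⟨h1, c, rfl⟩ := Finset.mem_filter.mp hb
    obtain ⟨h2, h3⟩ := mem_primBall.mp h1
    refine Finset.mem_image.mpr ⟨c, mem_primBall.mpr ⟨?_, h3.of_mul_left hd⟩, rfl⟩
    apply Nat.le_floor
    rw [le_div_iff₀ hd0]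
    have h4 : ((nm (d * c) : ℕ) : ℝ) ≤ X := (Nat.le_floor_iff hX).mp h2
    rw [nm_mul] at h4
    push_cast at h4
    linarith
  calc (((primBall ⌊X⌋₊).filter (fun b => d ∣ b)).card : ℝ)
      ≤ ((primBall ⌊X / nm d⌋₊).image (fun x => d * x)).card := by
        exact_mod_cast Finset.card_le_card hsub
    _ ≤ (primBall ⌊X / nm d⌋₊).card := by exact_mod_cast Finset.card_image_le
    _ ≤ 16 * (⌊X / nm d⌋₊ : ℝ) := Rho777.card_primBall _
    _ ≤ 16 * (X / nm d) := by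
        have := Nat.floor_le (a := X / nm d) (by positivity)
        linarith

open Classical in
lemma sum_mult_le {d : Eis} (hd : IsPrim d) {X : ℝ} (hX : 0 ≤ X) {F : Eis → ℝ} {K : ℝ}
    (hK : 0 ≤ K) (hF : ∀ b, IsPrim b → |F b| ≤ K) :
    |∑ b ∈ primBall ⌊X⌋₊, if d ∣ b then F b else 0| ≤ 16 * (X / nm d) * K := by
  rw [← Finset.sum_filter]
  refine (Finset.abs_sum_le_sum_abs _ _).trans ?_
  calc ∑ b ∈ (primBall ⌊X⌋₊).filter (fun b => d ∣ b), |F b|
      ≤ ∑ b ∈ (primBall ⌊X⌋₊).filter (fun b => d ∣ b), K := by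
        refine Finset.sum_le_sum fun b hb => hF b ?_
        exact (mem_primBall.mp (Finset.mem_filter.mp hb).1).2
    _ = (((primBall ⌊X⌋₊).filter (fun b => d ∣ b)).card : ℝ) * K := by
        rw [Finset.sum_const, nsmul_eq_mul]
    _ ≤ _ := mul_le_mul_of_nonneg_right (card_mult hd hX) hK

lemma gw_bound {v : ℝ → ℝ} (hv : Wgt v) : ∃ K : ℝ, 0 < K ∧ ∀ x, |gw v x| ≤ K :=
  Rho777.wgt_bound (wgt_gw hv)

open Classical in
lemma aB_bound {w v : ℝ → ℝ} (hw : Wgt w) (hv : Wgt v) {c2 : ℝ} (hc2 : 0 < c2) :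
    ∃ C : ℝ, 0 ≤ C ∧ ∀ c B : ℝ, 0 < c → 0 < B → ∀ d : Eis,
      |aB w v c B ⌊c2 * B⌋₊ d| ≤ C * (if IsPrim d then (nm d : ℝ) ^ (-2 : ℝ) else 0) := by
  obtain ⟨M, hM, hMb⟩ := gw_bound hv
  obtain ⟨K, hK, hK1, _⟩ := sig_bound hw
  refine ⟨16 * c2 * (M * K), by positivity, fun c B hc hB d => ?_⟩
  unfold aB
  by_cases hd : IsPrim d
  · rw [if_pos hd, if_pos hd]
    have hd0 := nm_pos' hd.ne_zero
    have h1 : |∑ b ∈ primBall ⌊c2 * B⌋₊, if d ∣ b then
        gw v (nm b / B) * sig w ((tb c b : ℂ) * toC d) else 0| ≤ 16 * (c2 * B / nm d) * (M * K) := by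
      apply sum_mult_le hd (by positivity) (by positivity)
      intro b hb
      rw [abs_mul]
      refine mul_le_mul (hMb _) (hK1 _ ?_) (abs_nonneg _) hM.le
      refine mul_ne_zero ?_ (by simpa using hd.ne_zero)
      exact_mod_cast (tb_pos hc hb.ne_zero).ne'
    rw [abs_mul, abs_mul, abs_mul, abs_of_pos (inv_pos.mpr hd0), abs_of_pos (inv_pos.mpr hB)]
    have e : (nm d : ℝ) ^ (-2 : ℝ) = (nm d : ℝ)⁻¹ * (nm d : ℝ)⁻¹ := by
      rw [show (-2 : ℝ) = -((2 : ℕ) : ℝ) by norm_num, Real.rpow_neg hd0.le, Real.rpow_natCast,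
        pow_two, mul_inv]
    rw [e]
    calc |(muE d : ℝ)| * (nm d : ℝ)⁻¹ * (B⁻¹ * |∑ b ∈ primBall ⌊c2 * B⌋₊, if d ∣ b then
        gw v (nm b / B) * sig w ((tb c b : ℂ) * toC d) else 0|)
        ≤ 1 * (nm d : ℝ)⁻¹ * (B⁻¹ * (16 * (c2 * B / nm d) * (M * K))) := by
          have := abs_muE_le_real d
          gcongr
      _ = _ := by field_simp
  · rw [if_neg hd, if_neg hd]; simp

lemma tb_le {N0 δ c1 B : ℝ} (hN0 : 0 < N0) (hc1 : 0 < c1) (hB : 0 < B) {b : Eis}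
    (hb : c1 * B ≤ nm b) :
    tb (B ^ (1 - δ) * N0) b ≤ (N0 / c1 * B ^ (-δ)) ^ ((1 : ℝ) / 6) := by
  have hb0 : (0 : ℝ) < nm b := lt_of_lt_of_le (by positivity) hb
  unfold tb
  have h1 : B ^ (1 - δ) * N0 / nm b ≤ N0 / c1 * B ^ (-δ) := by
    rw [div_le_iff₀ hb0]
    have e : B ^ (1 - δ) = B * B ^ (-δ) := by
      rw [show (1 - δ) = 1 + (-δ) by ring, Real.rpow_add hB, Real.rpow_one]
    rw [e]
    calc B * B ^ (-δ) * N0 = N0 / c1 * B ^ (-δ) * (c1 * B) := by field_simp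
      _ ≤ _ := mul_le_mul_of_nonneg_left hb (by positivity)
  have h2 : (B ^ (1 - δ) * N0 / nm b) ^ ((1 : ℝ) / 6) ≤ (N0 / c1 * B ^ (-δ)) ^ ((1 : ℝ) / 6) :=
    Real.rpow_le_rpow (by positivity) h1 (by norm_num)
  have h3 : 1 ≤ Real.sqrt 3 := by rw [Real.one_le_sqrt]; norm_num
  exact (div_le_self (by positivity) h3).trans h2

/-- the limit of `sig` at `0` -/
def s0 (w : ℝ → ℝ) : ℝ := 4 * Real.pi / (3 * Real.sqrt 3) * Iw w

/-- `2π/(9√3)` -/
def k0 : ℝ := 2 * Real.pi / (9 * Real.sqrt 3)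

open Classical in
lemma aB_limit {w v : ℝ → ℝ} (hw : Wgt w) (hv : Wgt v) {c1 c2 : ℝ} (h1 : 0 < c1) (h12 : c1 < c2)
    (hsup : ∀ x, v x ≠ 0 → c1 ≤ x ∧ x ≤ c2) {N0 δ : ℝ} (hN0 : 0 < N0) (hδ : 0 < δ) (d : Eis) :
    Tendsto (fun B : ℝ => aB w v (B ^ (1 - δ) * N0) B ⌊c2 * B⌋₊ d) atTop
      (𝓝 (if IsPrim d then (muE d : ℝ) * (nm d : ℝ)⁻¹ *
        (s0 w * (k0 / nm d * mel v (5 / 6))) else 0)) := by
  have hc2 : 0 < c2 := h1.trans h12
  unfold aB
  by_cases hd : IsPrim d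
  swap
  · simp only [if_neg hd]; exact tendsto_const_nhds
  simp only [if_pos hd]
  apply Tendsto.const_mul
  have hd0 := nm_pos' hd.ne_zero
  have hdn : 0 < ‖toC d‖ := norm_toC_pos hd.ne_zero
  obtain ⟨M, hM, hMb⟩ := gw_bound hv
  obtain ⟨K, hK, _, hK2⟩ := sig_bound hw
  -- the main part
  have hmain := (prim_limit (wgt_gw hv) hd).const_mul (s0 w)
  rw [mel_gw] at hmain
  -- the error
  set ε : ℝ → ℝ := fun B => (N0 / c1 * B ^ (-δ)) ^ ((1 : ℝ) / 6) with hε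
  have hε0 : Tendsto ε atTop (𝓝 0) := by
    have e1 : Tendsto (fun B : ℝ => N0 / c1 * B ^ (-δ)) atTop (𝓝 (N0 / c1 * 0)) :=
      (tendsto_rpow_neg_atTop hδ).const_mul _
    rw [mul_zero] at e1
    have e2 := e1.rpow_const (p := (1 : ℝ) / 6) (Or.inr (by norm_num))
    rwa [Real.zero_rpow (by norm_num)] at e2
  have herr : Tendsto (fun B : ℝ => B⁻¹ * ∑ b ∈ primBall ⌊c2 * B⌋₊, if d ∣ b then
      gw v (nm b / B) * (sig w ((tb (B ^ (1 - δ) * N0) b : ℂ) * toC d) - s0 w) else 0) atTop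
      (𝓝 0) := by
    rw [tendsto_zero_iff_norm_tendsto_zero]
    refine squeeze_zero' (Eventually.of_forall fun _ => norm_nonneg _)
      (g := fun B : ℝ => (16 * c2 / nm d * (M * K * ‖toC d‖)) * ε B) ?_ ?_
    · filter_upwards [eventually_gt_atTop 0] with B hB
      have hεB : 0 ≤ ε B := by simp only [hε]; positivity
      rw [Real.norm_eq_abs, abs_mul, abs_of_pos (inv_pos.mpr hB)]
      have h3 : |∑ b ∈ primBall ⌊c2 * B⌋₊, if d ∣ b then gw v (nm b / B) *
          (sig w ((tb (B ^ (1 - δ) * N0) b : ℂ) * toC d) - s0 w) else 0| ≤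
          16 * (c2 * B / nm d) * (M * (K * (ε B * ‖toC d‖))) := by
        apply sum_mult_le hd (by positivity) (by positivity)
        intro b hb
        by_cases hg : gw v (nm b / B) = 0
        · rw [hg]; simp; positivity
        · have h4 := (hsup _ (gw_support hg)).1
          rw [le_div_iff₀ hB] at h4
          have h5 := tb_le (δ := δ) hN0 h1 hB h4
          have ht := tb_pos (c := B ^ (1 - δ) * N0) (by positivity) hb.ne_zero
          rw [abs_mul]
          refine mul_le_mul (hMb _) ?_ (abs_nonneg _) hM.le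
          refine (hK2 _ (mul_ne_zero (by exact_mod_cast ht.ne')
            (by simpa using hd.ne_zero))).trans ?_
          rw [norm_mul, Complex.norm_real, Real.norm_eq_abs, abs_of_pos ht]
          gcongr
      calc B⁻¹ * |∑ b ∈ primBall ⌊c2 * B⌋₊, if d ∣ b then gw v (nm b / B) *
          (sig w ((tb (B ^ (1 - δ) * N0) b : ℂ) * toC d) - s0 w) else 0|
          ≤ B⁻¹ * (16 * (c2 * B / nm d) * (M * (K * (ε B * ‖toC d‖)))) :=
            mul_le_mul_of_nonneg_left h3 (inv_pos.mpr hB).le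
        _ = _ := by field_simp
    · simpa using hε0.const_mul (16 * c2 / nm d * (M * K * ‖toC d‖))
  have hsum := herr.add hmain
  rw [zero_add] at hsum
  refine hsum.congr' ?_
  filter_upwards [eventually_gt_atTop 0] with B hB
  have e1 : (∑' b : Eis, if IsPrim b ∧ d ∣ b then gw v (nm b / B) else 0) =
      ∑ b ∈ primBall ⌊c2 * B⌋₊, if d ∣ b then gw v (nm b / B) else 0 := by
    rw [tsum_eq_sum (s := primBall ⌊c2 * B⌋₊)]
    · refine Finset.sum_congr rfl fun b hb => ?_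
      have hb' := (mem_primBall.mp hb).2
      by_cases hdb : d ∣ b
      · rw [if_pos ⟨hb', hdb⟩, if_pos hdb]
      · rw [if_neg (fun h => hdb h.2), if_neg hdb]
    · intro b hb
      split_ifs with h
      · by_contra hcon
        apply hb
        refine mem_primBall.mpr ⟨?_, h.1⟩
        apply Nat.le_floor
        have := (hsup _ (gw_support hcon)).2
        rwa [div_le_iff₀ hB] at this
      · rfl
  rw [e1]
  have e2 : ∀ x y z : ℝ, s0 w * (x * y) = x * (s0 w * y) := fun x y _ => by ring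
  rw [e2 _ _ 0, ← mul_add, Finset.mul_sum, ← Finset.sum_add_distrib]
  congr 1
  refine Finset.sum_congr rfl fun b _ => ?_
  split_ifs <;> ring

/-! ### Step E : `(Σ μ(d)/N(d)²) · Zc = 1` -/

open Classical in
/-- `Σ_d μ(d)/N(d)²` -/
def Mu2 : ℝ := ∑' d : Eis, if IsPrim d then (muE d : ℝ) * ((nm d : ℝ) ^ 2)⁻¹ else 0

open Classical in
lemma summable_Zc : Summable fun k : Eis => if IsPrim k then ((nm k : ℝ) ^ 2)⁻¹ else 0 := by
  have h := Rho777.summable_prim (s := 2) (by norm_num)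
  refine h.congr fun k => ?_
  split_ifs
  · rw [show (-2 : ℝ) = -((2 : ℕ) : ℝ) by norm_num, Real.rpow_neg (Nat.cast_nonneg _),
      Real.rpow_natCast]
  · rfl

open Classical in
lemma tsum_prim_mul {d : Eis} (hd : IsPrim d) :
    HasSum (fun n : Eis => if IsPrim n ∧ d ∣ n then ((nm n : ℝ) ^ 2)⁻¹ else 0)
      (((nm d : ℝ) ^ 2)⁻¹ * Zc) := by
  have hinj : Function.Injective (fun m : Eis => d * m) := mul_right_injective₀ hd.ne_zero
  rw [← hinj.hasSum_iff]
  · have h := summable_Zc.hasSum.mul_left (((nm d : ℝ) ^ 2)⁻¹)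
    have e : ((fun n : Eis => if IsPrim n ∧ d ∣ n then ((nm n : ℝ) ^ 2)⁻¹ else 0) ∘
        fun m : Eis => d * m) =
        fun k => ((nm d : ℝ) ^ 2)⁻¹ * (if IsPrim k then ((nm k : ℝ) ^ 2)⁻¹ else 0) := by
      funext k
      simp only [Function.comp]
      by_cases hk : IsPrim k
      · rw [if_pos ⟨hd.mul hk, dvd_mul_right _ _⟩, if_pos hk, nm_mul]
        push_cast
        rw [mul_pow, mul_inv]
      · rw [if_neg (fun h => hk (h.1.of_mul_left hd)), if_neg hk, mul_zero]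
    rw [e]
    exact h
  · intro b hb
    rw [if_neg]
    rintro ⟨_, c, rfl⟩
    exact hb ⟨c, rfl⟩

lemma Mu2_mul_Zc : Mu2 * Zc = 1 := by
  classical
  set h : Eis → Eis → ℝ := fun d n =>
    if IsPrim d then (muE d : ℝ) * (if IsPrim n ∧ d ∣ n then ((nm n : ℝ) ^ 2)⁻¹ else 0) else 0
    with hh
  have hZ : 0 < Zc := by rw [← Rho777.Zk_eq]; exact Rho777.Zk_pos
  have hsum : Summable (Function.uncurry h) := by
    apply Summable.of_norm
    rw [summable_prod_of_nonneg (fun _ => norm_nonneg _)]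
    have hle : ∀ d n, ‖h d n‖ ≤ if IsPrim d then
        (if IsPrim n ∧ d ∣ n then ((nm n : ℝ) ^ 2)⁻¹ else 0) else 0 := by
      intro d n
      simp only [hh]
      split_ifs
      · rw [norm_mul, Real.norm_eq_abs, Real.norm_eq_abs]
        have h1 := abs_muE_le_real d
        have h2 : |((nm n : ℝ) ^ 2)⁻¹| = ((nm n : ℝ) ^ 2)⁻¹ := abs_of_nonneg (by positivity)
        rw [h2]
        exact mul_le_of_le_one_left (by positivity) h1
      · simp
      · simp
    have hs1 : ∀ d, Summable fun n => ‖h d n‖ := by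
      intro d
      by_cases hd : IsPrim d
      · refine Summable.of_nonneg_of_le (fun _ => norm_nonneg _) (fun n => ?_)
          (tsum_prim_mul hd).summable
        have := hle d n
        rwa [if_pos hd] at this
      · have : (fun n => ‖h d n‖) = fun _ => 0 := by
          funext n; simp only [hh]; rw [if_neg hd, norm_zero]
        rw [this]; exact summable_zero
    refine ⟨fun d => hs1 d, ?_⟩
    refine Summable.of_nonneg_of_le (fun d => tsum_nonneg fun _ => norm_nonneg _) (fun d => ?_)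
      (summable_Zc.mul_right Zc)
    by_cases hd : IsPrim d
    · rw [if_pos hd, ← (tsum_prim_mul hd).tsum_eq]
      refine (hs1 d).tsum_le_tsum (fun n => ?_) (tsum_prim_mul hd).summable
      have := hle d n
      rwa [if_pos hd] at this
    · rw [if_neg hd]
      have : (fun n => ‖Function.uncurry h (d, n)‖) = fun _ => 0 := by
        funext n; simp only [hh, Function.uncurry]; rw [if_neg hd, norm_zero]
      rw [this]; simp
  have hcomm := hsum.tsum_comm
  have hL : ∀ d, ∑' n, h d n = (if IsPrim d then (muE d : ℝ) * ((nm d : ℝ) ^ 2)⁻¹ else 0) * Zc := by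
    intro d
    simp only [hh]
    by_cases hd : IsPrim d
    · simp only [if_pos hd]
      rw [tsum_mul_left, (tsum_prim_mul hd).tsum_eq]
      ring
    · simp only [if_neg hd]; simp
  have hR : ∀ n, ∑' d, h d n = if n = 1 then 1 else 0 := by
    intro n
    simp only [hh]
    by_cases hn : IsPrim n
    · rw [tsum_eq_sum (s := dvs n)]
      · have e : ∀ d ∈ dvs n, (if IsPrim d then (muE d : ℝ) *
            (if IsPrim n ∧ d ∣ n then ((nm n : ℝ) ^ 2)⁻¹ else 0) else 0) =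
            (muE d : ℝ) * ((nm n : ℝ) ^ 2)⁻¹ := by
          intro d hd
          have hd' := (mem_dvs hn.ne_zero).mp hd
          rw [if_pos hd'.1, if_pos ⟨hn, hd'.2⟩]
        rw [Finset.sum_congr rfl e, ← Finset.sum_mul, ← Int.cast_sum, sum_dvs_muE_one hn]
        by_cases h1 : n = 1
        · simp [h1]
        · simp [h1]
      · intro d hd
        by_cases hdp : IsPrim d
        · rw [if_pos hdp, if_neg, mul_zero]
          exact fun h => hd ((mem_dvs hn.ne_zero).mpr ⟨hdp, h.2⟩)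
        · rw [if_neg hdp]
    · have h1 : n ≠ 1 := fun h => hn (h ▸ isPrim_one)
      rw [if_neg h1]
      have : (fun d => if IsPrim d then (muE d : ℝ) *
            (if IsPrim n ∧ d ∣ n then ((nm n : ℝ) ^ 2)⁻¹ else 0) else 0) = fun _ => (0 : ℝ) := by
        funext d
        rw [if_neg (fun h : IsPrim n ∧ d ∣ n => hn h.1), mul_zero, ite_self]
      rw [this]; simp
  rw [tsum_congr hL, tsum_congr hR, tsum_mul_right, tsum_ite_eq] at hcomm
  exact hcomm.symm

/-! ### the theorem -/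

/-- **Item MC1c.** -/
theorem cube_limit : ∀ w v : ℝ → ℝ, Wgt w → Wgt v → ∀ N0 : ℝ, 0 < N0 → ∀ δ : ℝ, 0 < δ → δ < 1 →
    Tendsto (fun B : ℝ => Xc w v N0 (B ^ (1 - δ)) B / B ^ (-(1 - δ) / 3 + 5 / 6)) atTop
      (𝓝 (N0 ^ (-(1 / 3) : ℝ) * (4 * Real.pi / Real.sqrt 3) * Iw w * mel v (5 / 6) * Dc)) := by
  classical
  intro w v hw hv N0 hN0 δ hδ _
  obtain ⟨c1, c2, h1, h12, hsup⟩ := hv.exists_bounds
  have hc2 : 0 < c2 := h1.trans h12
  obtain ⟨C, hC, hCb⟩ := aB_bound hw hv hc2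
  have hT : Tendsto (fun B : ℝ => ∑' d : Eis, aB w v (B ^ (1 - δ) * N0) B ⌊c2 * B⌋₊ d) atTop
      (𝓝 (∑' d : Eis, if IsPrim d then (muE d : ℝ) * (nm d : ℝ)⁻¹ *
        (s0 w * (k0 / nm d * mel v (5 / 6))) else 0)) := by
    refine tendsto_tsum_of_dominated_convergence
      ((Rho777.summable_prim (s := 2) (by norm_num)).mul_left C)
      (fun d => aB_limit hw hv h1 h12 hsup hN0 hδ d) ?_
    filter_upwards [eventually_gt_atTop 0] with B hB d
    exact hCb _ B (by positivity) hB d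
  have e1 : (∑' d : Eis, if IsPrim d then (muE d : ℝ) * (nm d : ℝ)⁻¹ *
        (s0 w * (k0 / nm d * mel v (5 / 6))) else 0) = s0 w * k0 * mel v (5 / 6) * Mu2 := by
    unfold Mu2
    rw [← tsum_mul_left]
    refine tsum_congr fun d => ?_
    split_ifs with hd
    · have := nm_pos' hd.ne_zero
      field_simp
    · simp
  have hZ : 0 < Zc := by rw [← Rho777.Zk_eq]; exact Rho777.Zk_pos
  have e2 : Mu2 = 1 / Zc := by
    rw [eq_div_iff hZ.ne']; exact Mu2_mul_Zc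
  rw [e1, e2] at hT
  have hfin := hT.const_mul (3 * N0 ^ (-(1 / 3) : ℝ))
  have e3 : 3 * N0 ^ (-(1 / 3) : ℝ) * (s0 w * k0 * mel v (5 / 6) * (1 / Zc)) =
      N0 ^ (-(1 / 3) : ℝ) * (4 * Real.pi / Real.sqrt 3) * Iw w * mel v (5 / 6) * Dc := by
    unfold s0 k0 Dc
    field_simp
  rw [e3] at hfin
  refine hfin.congr' ?_
  filter_upwards [eventually_gt_atTop 0] with B hB
  have hA : 0 < B ^ (1 - δ) := by positivity
  have hN : ∀ b : Eis, v (nm b / B) ≠ 0 → nm b ≤ ⌊c2 * B⌋₊ := by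
    intro b hb
    apply Nat.le_floor
    have := (hsup _ hb).2
    rwa [div_le_iff₀ hB] at this
  rw [Xc_eq_tsum hw (mul_pos hA hN0) hB hN]
  have e4 : (B ^ (1 - δ) * N0) ^ (-(1 / 3) : ℝ) * B ^ (-(1 / 6) : ℝ) * B =
      N0 ^ (-(1 / 3) : ℝ) * B ^ (-(1 - δ) / 3 + 5 / 6) := by
    rw [Real.mul_rpow hA.le hN0.le, ← Real.rpow_mul hB.le]
    have : B ^ ((1 - δ) * -(1 / 3)) * N0 ^ (-(1 / 3) : ℝ) * B ^ (-(1 / 6) : ℝ) * B =
        N0 ^ (-(1 / 3) : ℝ) * (B ^ ((1 - δ) * -(1 / 3)) * B ^ (-(1 / 6) : ℝ) * B ^ (1 : ℝ)) := by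
      rw [Real.rpow_one]; ring
    rw [this, ← Real.rpow_add hB, ← Real.rpow_add hB]
    congr 2
    ring
  have hP : 0 < B ^ (-(1 - δ) / 3 + 5 / 6) := by positivity
  rw [eq_div_iff hP.ne']
  calc 3 * N0 ^ (-(1 / 3) : ℝ) * (∑' d : Eis, aB w v (B ^ (1 - δ) * N0) B ⌊c2 * B⌋₊ d) *
      B ^ (-(1 - δ) / 3 + 5 / 6)
      = 3 * (∑' d : Eis, aB w v (B ^ (1 - δ) * N0) B ⌊c2 * B⌋₊ d) *
        (N0 ^ (-(1 / 3) : ℝ) * B ^ (-(1 - δ) / 3 + 5 / 6)) := by ring
    _ = _ := by rw [← e4]; ring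

end Crest.Agent.R012.Cube777
end
end

-- ▼ part R012/ThetaPoi_131
section

/-!
# Row 12, item MTH (part 1): exact Poisson identity

For `d` primary and `t > 0`

`Σ_{c ≡ 1 (3)} sy c d exp(-π t N(c)) = (2/√3)(9 t N(d))⁻¹ Σ_k ε_k g(k,d) exp(-4π N(k)/(27 t N(d)))`,

`ε_k = e(k/(3√-3))`.
-/

set_option autoImplicit false

noncomputable section

open MeasureTheory Complex Set Filter Topology

namespace Crest.Agent.R012.Theta131

open Crest.Agent.R012 Crest.Agent.R012.Eis Crest.Agent.R012.Poisson381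

/-- `ε_k = e(k/(3√-3))`. -/
def eps (k : Eis) : ℂ := eC (toC k / (3 * s3))

lemma norm_eps (k : Eis) : ‖eps k‖ = 1 := Poisson381.norm_eC _

lemma three_ne_zero' : (3 : Eis) ≠ 0 := by
  have h : (3 : Eis) = ((3 : ℕ) : Eis) := by norm_cast
  rw [h]
  exact Nat.cast_ne_zero.mpr (by norm_num)

lemma toC_three : toC (3 : Eis) = 3 := by
  have h : (3 : Eis) = ((3 : ℕ) : Eis) := by norm_cast
  rw [h, map_natCast]; norm_cast

open Classical in
/-- The primary cubic symbol in the numerator variable. -/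
def ps (d c : Eis) : ℂ := if IsPrim c then sy c d else 0

lemma isPrim_congr {x y : Eis} (h : (3 : Eis) ∣ x - y) : IsPrim x ↔ IsPrim y := by
  unfold IsPrim
  have e : x - 1 = (x - y) + (y - 1) := by ring
  rw [e]
  exact ⟨fun h1 => (dvd_add_right h).mp h1, fun h1 => dvd_add h h1⟩

lemma pmod_ps {d : Eis} (hd : IsPrim d) : PMod (3 * d) (ps d) := by
  intro x t
  unfold ps
  have h1 : IsPrim (x + 3 * d * t) ↔ IsPrim x :=
    isPrim_congr ⟨d * t, by ring⟩
  have h2 : sy (x + 3 * d * t) d = sy x d :=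
    Gauss880.syG.congr _ _ _ hd ⟨3 * t, by ring⟩
  by_cases hx : IsPrim x
  · rw [if_pos (h1.mpr hx), if_pos hx, h2]
  · rw [if_neg (fun h => hx (h1.mp h)), if_neg hx]

lemma norm_ps_le {d : Eis} (hd : IsPrim d) (c : Eis) : ‖ps d c‖ ≤ 1 := by
  unfold ps
  split_ifs with h
  · exact Gauss880.norm_sy_le Gauss880.syG hd
  · simp

lemma sy_sq3_cube {d : Eis} (hd : IsPrim d) (z : Eis) :
    sy (3 * (sq3 * z)) d = sy z d := by
  have hG := Gauss880.syG
  have e : (3 : Eis) * (sq3 * z) = (-1) * (sq3 ^ 3 * z) := by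
    have := sq3_sq
    have h3 : sq3 ^ 3 = -3 * sq3 := by rw [pow_succ, this]
    rw [h3]; ring
  rw [e, hG.mul_left _ _ _ hd, hG.mul_left _ _ _ hd, Gauss880.sy_neg_one hG hd]
  have hcop : IsCoprime sq3 d := by
    have h1 : IsCoprime (3 : Eis) d := hd.isCoprime_three.symm
    have h2 : (3 : Eis) = sq3 * (-sq3) := by
      have := sq3_sq
      linear_combination this
    rw [h2] at h1
    exact h1.of_mul_left_left
  have h3 : sy (sq3 ^ 3) d = 1 := by
    have := (Gauss880.isCh_sy hG hd).pow sq3 3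
    beta_reduce at this
    rw [this]
    exact hG.cube _ _ hd hcop
  rw [h3]; ring

lemma toC_sq3 : toC sq3 = s3 := by
  rw [s3_eq_toC]
  congr 1

/-- inner sum modulo `d`. -/
lemma inner_sum {d : Eis} (hd : IsPrim d) (k : Eis) :
    sumMod d (fun y => sy (3 * y) d * eC (toC y * toC k / (toC d * s3))) = gs k d := by
  have hd0 : d ≠ 0 := hd.ne_zero
  have hG := Gauss880.syG
  have hper : PMod d (fun y => sy (3 * y) d * eC (toC y * toC k / (toC d * s3))) := by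
    refine PMod.mul ?_ (Poisson381.pmod_eC hd0 k)
    intro x t
    exact hG.congr _ _ _ hd ⟨3 * t, by ring⟩
  have hcop : IsCoprime sq3 d := by
    have h1 : IsCoprime (3 : Eis) d := hd.isCoprime_three.symm
    have h2 : (3 : Eis) = sq3 * (-sq3) := by
      have := sq3_sq
      linear_combination this
    rw [h2] at h1
    exact h1.of_mul_left_left
  rw [← sumMod_mul_coprime hd0 hper hcop]
  unfold gs
  refine sumMod_congr fun x => ?_
  rw [sy_sq3_cube hd]
  congr 2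
  have h3 := s3_ne_zero
  have hdC : toC d ≠ 0 := by rwa [Ne, toC_eq_zero]
  rw [map_mul, toC_sq3]
  field_simp

/-- the complete sum modulo `3 d`. -/
lemma full_sum {d : Eis} (hd : IsPrim d) (k : Eis) :
    sumMod (3 * d) (fun a => ps d a * eC (toC a * toC k / (toC (3 * d) * s3))) =
      eps k * gs k d := by
  have hd0 : d ≠ 0 := hd.ne_zero
  have h30 : (3 : Eis) ≠ 0 := three_ne_zero'
  have hG := Gauss880.syG
  have hper : PMod (3 * d) (fun a => ps d a * eC (toC a * toC k / (toC (3 * d) * s3))) :=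
    (pmod_ps hd).mul (Poisson381.pmod_eC (mul_ne_zero h30 hd0) k)
  have h3 := s3_ne_zero
  have hdC : toC d ≠ 0 := by rwa [Ne, toC_eq_zero]
  have h3C : toC (3 : Eis) = 3 := toC_three
  have hprim : ∀ x y : Eis, IsPrim (d * x + 3 * y) ↔ IsPrim x := by
    intro x y
    have h1 : IsPrim (d * x + 3 * y) ↔ IsPrim (d * x) := isPrim_congr ⟨y, by ring⟩
    rw [h1]
    refine isPrim_congr ?_
    have : d * x - x = (d - 1) * x := by ring
    rw [this]
    exact (hd : (3 : Eis) ∣ d - 1).mul_right x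
  rw [sumMod_crt h30 hd0 hd.isCoprime_three.symm hper]
  -- value at `x`
  have hval : ∀ x y : Eis, ps d (d * x + 3 * y) *
      eC (toC (d * x + 3 * y) * toC k / (toC (3 * d) * s3)) =
      ps 1 x * eC (toC x * toC k / (3 * s3)) *
        (sy (3 * y) d * eC (toC y * toC k / (toC d * s3))) := by
    intro x y
    have e1 : toC (d * x + 3 * y) * toC k / (toC (3 * d) * s3) =
        toC x * toC k / (3 * s3) + toC y * toC k / (toC d * s3) := by
      rw [map_add, map_mul, map_mul, map_mul, h3C]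
      field_simp
    rw [e1, Poisson381.eC_add]
    have e2 : ps d (d * x + 3 * y) = ps 1 x * sy (3 * y) d := by
      unfold ps
      have h1 : sy (d * x + 3 * y) d = sy (3 * y) d :=
        hG.congr _ _ _ hd ⟨x, by ring⟩
      have h2 : sy x 1 = 1 := Sym645.sy_unit_right x isUnit_one
      by_cases hx : IsPrim x
      · rw [if_pos ((hprim x y).mpr hx), if_pos hx, h1, h2, one_mul]
      · rw [if_neg (fun h => hx ((hprim x y).mp h)), if_neg hx, zero_mul]
    rw [e2]; ring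
  have hin : ∀ x : Eis, sumMod d (fun y => ps d (d * x + 3 * y) *
      eC (toC (d * x + 3 * y) * toC k / (toC (3 * d) * s3))) =
      ps 1 x * eC (toC x * toC k / (3 * s3)) * gs k d := by
    intro x
    rw [sumMod_congr (fun y => hval x y), sumMod_mul_left hd0, inner_sum hd]
  rw [sumMod_congr hin, sumMod_mul_right h30]
  congr 1
  -- sum modulo 3
  have hp3 : PMod ((3 : ℕ) : Eis) (fun x => ps 1 x * eC (toC x * toC k / (3 * s3))) := by
    have h31 : IsPrim (1 : Eis) := by simp [IsPrim]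
    have a1 := pmod_ps h31
    have a2 := Poisson381.pmod_eC h30 k
    rw [mul_one] at a1
    rw [h3C] at a2
    exact_mod_cast a1.mul a2
  have e3 : (3 : Eis) = ((3 : ℕ) : Eis) := by norm_cast
  rw [e3, sumMod_natCast (by norm_num) hp3]
  have hpz : ∀ a b : ℕ, a < 3 → b < 3 → (IsPrim (⟨(a : ℤ), (b : ℤ)⟩ : Eis) ↔ (a = 1 ∧ b = 0)) := by
    intro a b ha hb
    rw [Sym645.isPrim_iff]
    simp only
    omega
  rw [Finset.sum_eq_single 1]
  · rw [Finset.sum_eq_single 0]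
    · unfold ps eps
      have h1 : (⟨((1 : ℕ) : ℤ), ((0 : ℕ) : ℤ)⟩ : Eis) = 1 := by
        apply ext' <;> simp
      rw [h1, if_pos (by simp [IsPrim]), Sym645.sy_unit_right 1 isUnit_one, map_one, one_mul,
        one_mul]
    · intro b hb hb0
      unfold ps
      rw [if_neg, zero_mul]
      rw [hpz 1 b (by norm_num) (by simpa using hb)]
      tauto
    · intro h; simp at h
  · intro a ha ha1
    refine Finset.sum_eq_zero fun b hb => ?_
    unfold ps
    rw [if_neg, zero_mul]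
    rw [hpz a b (by simpa using ha) (by simpa using hb)]
    tauto
  · intro h; simp at h

/-- **Poisson identity.** -/
theorem poisson_sy {d : Eis} (hd : IsPrim d) {t : ℝ} (ht : 0 < t) :
    HasSum (fun k : Eis => ((2 / Real.sqrt 3 * (t * (9 * nm d))⁻¹ : ℝ) : ℂ) *
        (gau (4 / (3 * (t * (9 * nm d)))) (toC k) * (eps k * gs k d)))
      (∑' c : Eis, ps d c * gau t (toC c)) := by
  have hd0 : d ≠ 0 := hd.ne_zero
  have h30 : (3 : Eis) ≠ 0 := three_ne_zero'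
  have h := poisson_gau_periodic ht (mul_ne_zero h30 hd0) (pmod_ps hd)
  have hn : (nm (3 * d) : ℝ) = 9 * nm d := by
    rw [nm_mul]
    have : nm (3 : Eis) = 9 := by
      have := nm_natCast 3
      simpa using this
    rw [this]; push_cast; ring
  simp_rw [full_sum hd, hn] at h
  exact h

end Crest.Agent.R012.Theta131
end
end

-- ▼ part R012/ThetaSym_131
section

/-!
# Row 12, item MTH (part 2): the symmetric sum

`S(C,D) = Σ_{c,d ≡ 1 (3)} sy c d exp(-N(c)/C - N(d)/D)`, `S(C,D) = S(D,C)` and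

`S(C,D) = (2πC/(9√3)) Σ_k ε_k T_k(C,D)`,
`T_k(C,D) = Σ_{d ≡ 1 (3)} g(k,d)/N(d) exp(-N(d)/D - β₀ C N(k)/N(d))`, `β₀ = 4π²/27`.
-/

set_option autoImplicit false

noncomputable section

open MeasureTheory Complex Set Filter Topology

namespace Crest.Agent.R012.Theta131

open Crest.Agent.R012 Crest.Agent.R012.Eis Crest.Agent.R012.Poisson381

/-- `exp(-N(c)/C)` -/
def ex (C : ℝ) (c : Eis) : ℝ := Real.exp (-(nm c / C))

lemma ex_pos (C : ℝ) (c : Eis) : 0 < ex C c := Real.exp_pos _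

lemma ex_eq_gau {C : ℝ} (hC : 0 < C) (c : Eis) :
    ((ex C c : ℝ) : ℂ) = gau (1 / (Real.pi * C)) (toC c) := by
  unfold ex gau
  congr 3
  rw [norm_toC_sq]
  have := Real.pi_pos
  field_simp

lemma summable_ex {C : ℝ} (hC : 0 < C) : Summable (ex C) := by
  have h := summable_gau_one (t := 1 / (Real.pi * C)) (by have := Real.pi_pos; positivity)
  have h2 : Summable fun c : Eis => ((ex C c : ℝ) : ℂ) := by
    simp_rw [ex_eq_gau hC]
    exact h
  exact Complex.summable_ofReal.mp h2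

open Classical in
/-- symmetric kernel -/
def sk (c d : Eis) : ℂ := if IsPrim c ∧ IsPrim d then sy c d else 0

lemma sk_comm (c d : Eis) : sk c d = sk d c := by
  unfold sk
  by_cases h : IsPrim c ∧ IsPrim d
  · rw [if_pos h, if_pos h.symm, Sym645.sy_reciprocity h.1 h.2]
  · rw [if_neg h, if_neg (fun h' => h h'.symm)]

open Classical in
lemma sk_eq (c d : Eis) : sk c d = if IsPrim d then ps d c else 0 := by
  classical
  unfold sk ps
  by_cases h1 : IsPrim c <;> by_cases h2 : IsPrim d <;> simp [h1, h2]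

lemma norm_sk_le (c d : Eis) : ‖sk c d‖ ≤ 1 := by
  classical
  rw [sk_eq]
  split_ifs with h
  · exact norm_ps_le h c
  · simp

/-- `S(C,D)` -/
def Ssum (C D : ℝ) : ℂ := ∑' p : Eis × Eis, sk p.1 p.2 * ((ex C p.1 * ex D p.2 : ℝ) : ℂ)

lemma summable_S {C D : ℝ} (hC : 0 < C) (hD : 0 < D) :
    Summable fun p : Eis × Eis => sk p.1 p.2 * ((ex C p.1 * ex D p.2 : ℝ) : ℂ) := by
  have h : Summable fun p : Eis × Eis => ex C p.1 * ex D p.2 :=
    (summable_ex hC).mul_of_nonneg (summable_ex hD) (fun c => (ex_pos C c).le)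
      (fun c => (ex_pos D c).le)
  refine Summable.of_norm_bounded h (fun p => ?_)
  rw [norm_mul, Complex.norm_real, Real.norm_of_nonneg (by have := ex_pos C p.1; have := ex_pos D p.2; positivity)]
  have h1 := norm_sk_le p.1 p.2
  have h2 : 0 ≤ ex C p.1 * ex D p.2 := by have := ex_pos C p.1; have := ex_pos D p.2; positivity
  nlinarith

theorem Ssum_comm (C D : ℝ) : Ssum C D = Ssum D C := by
  unfold Ssum
  rw [← (Equiv.prodComm Eis Eis).tsum_eq]
  refine tsum_congr fun p => ?_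
  simp only [Equiv.prodComm_apply, Prod.fst_swap, Prod.snd_swap]
  rw [sk_comm, mul_comm (ex C p.2)]

/-- `4π²/27` -/
def be0 : ℝ := 4 * Real.pi ^ 2 / 27

lemma be0_pos : 0 < be0 := by unfold be0; have := Real.pi_pos; positivity

open Classical in
/-- the general term -/
def tt (C D : ℝ) (k d : Eis) : ℂ :=
  if IsPrim d then gs k d / (nm d : ℂ) *
    ((Real.exp (-(nm d / D) - be0 * C * nm k / nm d) : ℝ) : ℂ) else 0

/-- `T_k(C,D)` -/
def Tk (C D : ℝ) (k : Eis) : ℂ := ∑' d : Eis, tt C D k d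

lemma norm_gs_le {d : Eis} (hd : IsPrim d) (k : Eis) : ‖gs k d‖ ≤ nm d := by
  rw [Gauss880.gs_eq_gsum]
  exact Gauss880.norm_gsum_le hd.ne_zero (Gauss880.isCh_sy Gauss880.syG hd) k

lemma amgm {a b : ℝ} (ha : 0 ≤ a) (hb : 0 ≤ b) : 2 * Real.sqrt (a * b) ≤ a + b := by
  rw [Real.sqrt_mul ha]
  nlinarith [sq_nonneg (Real.sqrt a - Real.sqrt b), Real.sq_sqrt ha, Real.sq_sqrt hb]

/-- the majorant in `k` -/
def mk (r : ℝ) (k : Eis) : ℝ := Real.exp (-(2 * Real.sqrt (r * nm k)))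

lemma norm_tt_le {C D : ℝ} (hC : 0 < C) (hD : 0 < D) (k d : Eis) :
    ‖tt C D k d‖ ≤ ex (2 * D) d * mk (be0 * C / (2 * D)) k := by
  unfold tt
  split_ifs with hd
  · have hn : (0 : ℝ) < nm d := by exact_mod_cast nm_pos.2 hd.ne_zero
    rw [norm_mul, norm_div, Complex.norm_real, Real.norm_of_nonneg (Real.exp_pos _).le]
    have h1 : ‖gs k d‖ / ‖(nm d : ℂ)‖ ≤ 1 := by
      rw [Complex.norm_natCast, div_le_one hn]
      exact norm_gs_le hd k
    have hb := be0_pos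
    have h2 : 2 * Real.sqrt (be0 * C / (2 * D) * nm k) ≤ nm d / (2 * D) + be0 * C * nm k / nm d := by
      have h3 := amgm (a := nm d / (2 * D)) (b := be0 * C * nm k / nm d) (by positivity)
        (by positivity)
      have h4 : (nm d / (2 * D) : ℝ) * (be0 * C * nm k / nm d) = be0 * C / (2 * D) * nm k := by
        field_simp
      rwa [h4] at h3
    have h5 : Real.exp (-(nm d / D) - be0 * C * nm k / nm d) ≤
        ex (2 * D) d * mk (be0 * C / (2 * D)) k := by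
      unfold ex mk
      rw [← Real.exp_add]
      apply Real.exp_le_exp.mpr
      have h6 : (nm d / D : ℝ) = nm d / (2 * D) + nm d / (2 * D) := by field_simp; ring
      linarith
    calc ‖gs k d‖ / ‖(nm d : ℂ)‖ * Real.exp (-(nm d / D) - be0 * C * nm k / nm d)
        ≤ 1 * Real.exp (-(nm d / D) - be0 * C * nm k / nm d) :=
          mul_le_mul_of_nonneg_right h1 (Real.exp_pos _).le
      _ ≤ _ := by rw [one_mul]; exact h5
  · rw [norm_zero]
    unfold mk
    have := ex_pos (2 * D) d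
    positivity

lemma exp_neg_two_sqrt_le {x : ℝ} (hx : 0 ≤ x) : Real.exp (-(2 * Real.sqrt x)) ≤ 120 / (1 + x) ^ 2 := by
  have h1 : (2 * Real.sqrt x) ^ 4 / 24 ≤ Real.exp (2 * Real.sqrt x) := by
    have := Real.pow_div_factorial_le_exp (2 * Real.sqrt x) (by positivity) 4
    simpa [Nat.factorial] using this
  have h2 : 1 ≤ Real.exp (2 * Real.sqrt x) := by
    rw [Real.one_le_exp_iff]; positivity
  have h3 : (2 * Real.sqrt x) ^ 4 = 16 * x ^ 2 := by
    have := Real.sq_sqrt hx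
    have h4 : Real.sqrt x ^ 4 = x ^ 2 := by
      rw [show Real.sqrt x ^ 4 = (Real.sqrt x ^ 2) ^ 2 by ring, this]
    rw [mul_pow, h4]; norm_num
  rw [Real.exp_neg, le_div_iff₀ (by positivity), inv_mul_le_iff₀ (Real.exp_pos _)]
  rw [h3] at h1
  nlinarith [sq_nonneg (x - 1)]

lemma mk_le {r : ℝ} (hr : 0 < r) (k : Eis) : mk r k ≤ 120 / (1 + r * nm k) ^ 2 :=
  exp_neg_two_sqrt_le (by positivity)

lemma summable_mk {r : ℝ} (hr : 0 < r) : Summable (mk r) := by
  have h0 := (summable_eis (b := 4) (by norm_num)).mul_left (120 * 4 * (1 + 1 / r ^ 2))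
  refine Summable.of_nonneg_of_le (fun k => (Real.exp_pos _).le) (fun k => ?_) h0
  refine (mk_le hr k).trans ?_
  have hn : (0 : ℝ) ≤ nm k := by positivity
  have h1 : (0 : ℝ) < 1 + ‖toC k‖ := by positivity
  rw [Real.rpow_neg h1.le, ← div_eq_mul_inv, div_le_div_iff₀ (by positivity)
    (Real.rpow_pos_of_pos h1 4)]
  have h4 : (1 + ‖toC k‖) ^ (4 : ℝ) = (1 + ‖toC k‖) ^ 4 := by
    rw [← Real.rpow_natCast]; norm_num
  rw [h4]
  have h5 : ‖toC k‖ ^ 2 = nm k := norm_toC_sq k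
  have h6 : (1 + ‖toC k‖) ^ 2 ≤ 2 * (1 + nm k) := by nlinarith [sq_nonneg (‖toC k‖ - 1)]
  have h7 : (1 + ‖toC k‖) ^ 4 ≤ 4 * (1 + nm k) ^ 2 := by
    have : (1 + ‖toC k‖) ^ 4 = ((1 + ‖toC k‖) ^ 2) ^ 2 := by ring
    rw [this]
    have h8 := pow_le_pow_left₀ (by positivity) h6 2
    nlinarith
  have h9 : ((1 : ℝ) + nm k) ^ 2 ≤ (1 + 1 / r ^ 2) * (1 + r * nm k) ^ 2 := by
    have hr2 : 0 < r ^ 2 := by positivity
    have h10 : (2 : ℝ) * nm k ≤ 2 * r * nm k + 1 / r ^ 2 * (2 * r * nm k) := by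
      have e1 : 2 * r * nm k + 1 / r ^ 2 * (2 * r * nm k) - 2 * nm k =
          2 * nm k * ((r + 1 / r) - 1) := by
        field_simp
      have h11 : 1 ≤ r + 1 / r := by
        rw [← sub_nonneg]
        have : r + 1 / r - 1 = ((r - 1) ^ 2 + r) / r := by field_simp; ring
        rw [this]; positivity
      nlinarith
    have h12 : (1 + 1 / r ^ 2) * (1 + r * (nm k : ℝ)) ^ 2 =
        1 + (2 * r * nm k + 1 / r ^ 2 * (2 * r * nm k)) + r ^ 2 * nm k ^ 2 + 1 / r ^ 2 +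
          nm k ^ 2 := by
      field_simp
      ring
    rw [h12]
    have h13 : 0 ≤ r ^ 2 * (nm k : ℝ) ^ 2 := by positivity
    have h14 : 0 ≤ 1 / r ^ 2 := by positivity
    nlinarith
  nlinarith

lemma summable_tt {C D : ℝ} (hC : 0 < C) (hD : 0 < D) :
    Summable fun p : Eis × Eis => tt C D p.2 p.1 := by
  have hb := be0_pos
  have h : Summable fun p : Eis × Eis => ex (2 * D) p.1 * mk (be0 * C / (2 * D)) p.2 :=
    (summable_ex (by positivity)).mul_of_nonneg (summable_mk (by positivity))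
      (fun c => (ex_pos _ c).le) (fun c => (Real.exp_pos _).le)
  exact Summable.of_norm_bounded h (fun p => norm_tt_le hC hD p.2 p.1)

/-- inner Poisson step -/
lemma inner_poisson {C D : ℝ} (hC : 0 < C) (d : Eis) :
    HasSum (fun k => ((2 * Real.pi * C / (9 * Real.sqrt 3) : ℝ) : ℂ) * (eps k * tt C D k d))
      (∑' c : Eis, sk c d * ((ex C c * ex D d : ℝ) : ℂ)) := by
  classical
  by_cases hd : IsPrim d
  · have hn : (0 : ℝ) < nm d := by exact_mod_cast nm_pos.2 hd.ne_zero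
    have hp := Real.pi_pos
    have h := (poisson_sy hd (t := 1 / (Real.pi * C)) (by positivity)).mul_right ((ex D d : ℝ) : ℂ)
    have e1 : (∑' c : Eis, ps d c * gau (1 / (Real.pi * C)) (toC c)) * ((ex D d : ℝ) : ℂ) =
        ∑' c : Eis, sk c d * ((ex C c * ex D d : ℝ) : ℂ) := by
      rw [← tsum_mul_right]
      refine tsum_congr fun c => ?_
      rw [sk_eq, if_pos hd, ← ex_eq_gau hC]
      push_cast; ring
    rw [e1] at h
    refine h.congr_fun ?_ |> fun h => h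
    intro k
    unfold tt
    rw [if_pos hd]
    have e2 : Real.exp (-(nm d / D) - be0 * C * nm k / nm d) =
        ex D d * Real.exp (-(Real.pi * (4 / (3 * (1 / (Real.pi * C) * (9 * nm d)))) * ‖toC k‖ ^ 2)) := by
      unfold ex be0
      rw [← Real.exp_add, norm_toC_sq]
      congr 1
      field_simp
      ring
    rw [e2]
    unfold gau
    push_cast
    have hs : (Real.sqrt 3 : ℂ) ≠ 0 := by
      exact_mod_cast (Real.sqrt_pos.mpr (by norm_num : (0:ℝ) < 3)).ne'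
    have hn' : (nm d : ℂ) ≠ 0 := by exact_mod_cast hn.ne'
    have hp' : (Real.pi : ℂ) ≠ 0 := by exact_mod_cast hp.ne'
    have hC' : (C : ℂ) ≠ 0 := by exact_mod_cast hC.ne'
    field_simp
  · have e1 : ∀ c, sk c d = 0 := fun c => by rw [sk_eq, if_neg hd]
    have e2 : ∀ k, tt C D k d = 0 := fun k => by unfold tt; rw [if_neg hd]
    simp only [e1, e2, zero_mul, mul_zero, tsum_zero]
    exact hasSum_zero

/-- **The symmetric sum as a dual sum.** -/
theorem Ssum_eq {C D : ℝ} (hC : 0 < C) (hD : 0 < D) :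
    Ssum C D = ((2 * Real.pi * C / (9 * Real.sqrt 3) : ℝ) : ℂ) * ∑' k : Eis, eps k * Tk C D k := by
  have h1 : Summable fun p : Eis × Eis => eps p.2 * tt C D p.2 p.1 := by
    refine Summable.of_norm_bounded (summable_tt hC hD).norm (fun p => ?_)
    rw [norm_mul, norm_eps, one_mul]
  have h2 : Summable fun p : Eis × Eis => sk p.2 p.1 * ((ex C p.2 * ex D p.1 : ℝ) : ℂ) :=
    ((Equiv.prodComm Eis Eis).summable_iff
      (f := fun p : Eis × Eis => sk p.1 p.2 * ((ex C p.1 * ex D p.2 : ℝ) : ℂ))).mpr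
      (summable_S hC hD)
  have e1 : Ssum C D = ∑' p : Eis × Eis, sk p.2 p.1 * ((ex C p.2 * ex D p.1 : ℝ) : ℂ) := by
    unfold Ssum
    rw [← (Equiv.prodComm Eis Eis).tsum_eq]
    rfl
  rw [e1, h2.tsum_prod]
  have e2 : ∀ d : Eis, ∑' c : Eis, sk c d * ((ex C c * ex D d : ℝ) : ℂ) =
      ((2 * Real.pi * C / (9 * Real.sqrt 3) : ℝ) : ℂ) * ∑' k : Eis, eps k * tt C D k d := by
    intro d
    rw [← (inner_poisson hC d).tsum_eq, tsum_mul_left]
  simp only [e2]
  rw [tsum_mul_left]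
  congr 1
  have h3 : Summable (Function.uncurry fun d k : Eis => eps k * tt C D k d) := h1
  rw [← h3.tsum_comm]
  refine tsum_congr fun k => ?_
  unfold Tk
  rw [tsum_mul_left]

end Crest.Agent.R012.Theta131
end
end

-- ▼ part R012/Cusp_852
section

/-!
# Row 12 (X): the cusp `∞` — rows `(c,d)` with `c ≡ 1`, `d ≡ 0 (mod 3)` and kernel `(d/c)_3`

* `exists_completion_inf`, `completion_unique_inf` : completions `(a b; c d)` of such rows with
  `a ≡ 0`, `b ≡ -1 (mod 3)`;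
* `T c = Σ_{d mod c} (d/c)_3` : `T_eq_zero` (c primary, not a cube), `T_cube`, `sumMod_coprime`;
* `Sinf c = Σ_{d mod 3c, 3 ∣ d} (d/c)_3` : `Sinf_eq_zero`, `Sinf_cube`: equal to `N(c) ψ(c)`;
* `prim_cube` : a primary cube is the cube of a unique primary element.
-/

set_option autoImplicit false

noncomputable section

namespace Crest.Agent.R012

open Eis

namespace Cusp852

open CharSum852



lemma isCoprime_add_mul {c x t : Eis} : IsCoprime c (x + c * t) ↔ IsCoprime c x := by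
  constructor
  · intro h
    have := h.add_mul_left_right (-t)
    have e : x + c * t + c * -t = x := by ring
    rwa [e] at this
  · intro h; exact h.add_mul_left_right t

/-- number of reduced residues modulo a primary `c`. -/
theorem sumMod_coprime {c : Eis} (hc : IsPrim c) :
    sumMod c (fun x => open Classical in if IsCoprime c x then (1 : ℂ) else 0) =
      ((nm c * Count852.psi c : ℝ) : ℂ) := by
  classical
  have hc0 : c ≠ 0 := hc.ne_zero
  have h30 : (3 : Eis) ≠ 0 := three_ne_zero'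
  set f : Eis → ℂ := fun x => if IsCoprime c x then (1 : ℂ) else 0 with hf
  set F : Eis → ℂ := fun x => if IsPrim x ∧ IsCoprime c x then (1 : ℂ) else 0 with hF
  set g : Eis → ℂ := fun x => if IsPrim x then (1 : ℂ) else 0 with hg
  have h3prim : ∀ x s : Eis, (3 : Eis) ∣ s → (IsPrim (x + s) ↔ IsPrim x) := by
    intro x s hs
    constructor
    · intro h
      have := isPrim_add (s := -s) h (by rwa [dvd_neg])
      simpa using this
    · intro h; exact isPrim_add h hs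
  have hFper : PMod (3 * c) F := by
    intro x t
    simp only [hF]
    rw [h3prim x (3 * c * t) (by rw [mul_assoc]; exact Dvd.intro _ rfl),
      show 3 * c * t = c * (3 * t) by ring, isCoprime_add_mul]
  have hcop : IsCoprime (3 : Eis) c := hc.isCoprime_three.symm
  have key := sumMod_crt_mul (c := 3) (d := c) (f := g) (g := f) h30 hc0 F hcop hFper
    (fun x y => by
      simp only [hF, hf, hg]
      have e1 : IsPrim (c * x + 3 * y) ↔ IsPrim x := by
        rw [h3prim (c * x) (3 * y) (Dvd.intro _ rfl)]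
        exact ⟨fun h => h.of_mul_left hc, fun h => hc.mul h⟩
      have e2 : IsCoprime c (c * x + 3 * y) ↔ IsCoprime c y := by
        rw [show c * x + 3 * y = 3 * y + c * x by ring, isCoprime_add_mul]
        constructor
        · intro h
          exact (IsCoprime.mul_right_iff.mp h).2
        · intro h
          exact hcop.symm.mul_right h
      rw [e1, e2]
      by_cases a1 : IsPrim x <;> by_cases a2 : IsCoprime c y <;> simp [a1, a2])
  have hg1 : sumMod 3 g = 1 := by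
    have hgper : PMod 3 g := by
      intro x t
      simp only [hg]
      rw [h3prim x (3 * t) (Dvd.intro _ rfl)]
    have hS := isCRS_crs h30
    rw [sumMod_eq_sum hS hgper]
    obtain ⟨s, ⟨hs1, hs2⟩, hs3⟩ := hS 1
    have hsp : IsPrim s := by
      have : s - 1 = -(1 - s) := by ring
      rw [IsPrim, this, dvd_neg]; exact hs2
    rw [Finset.sum_eq_single s]
    · simp only [hg]; rw [if_pos hsp]
    · intro b hb hne
      simp only [hg]
      rw [if_neg]
      intro hpb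
      refine hne (hs3 b ⟨hb, ?_⟩)
      have : 1 - b = -(b - 1) := by ring
      rw [this, dvd_neg]; exact hpb
    · intro h; exact absurd hs1 h
  rw [hg1, one_mul] at key
  rw [← key, ← Count852.ncard_prim_coprime (fun c _ => card_QE c) hc0]
  have hfin := finite_QE (mul_ne_zero h30 hc0)
  let _ := Fintype.ofFinite (QE (3 * c))
  unfold sumMod
  rw [finsum_eq_sum_of_fintype]
  simp only [hF]
  rw [Finset.sum_ite, Finset.sum_const_zero, add_zero, Finset.sum_const, nsmul_eq_mul, mul_one,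
    ← Set.ncard_coe_finset]
  push_cast
  congr 3
  ext q
  simp

/-- A primary cube is the cube of a primary element. -/
theorem prim_cube {e : Eis} (h : IsPrim (e ^ 3)) : ∃ n : Eis, IsPrim n ∧ e ^ 3 = n ^ 3 := by
  have hl : ¬ lam ∣ e := fun h' => h.not_lam_dvd (Dvd.dvd.mul_left h' _ |>.trans (by
    rw [pow_succ]))
  obtain ⟨u, hu⟩ := exists_unit_mul_isPrim hl
  refine ⟨u * e, hu, ?_⟩
  have h1 : IsPrim ((u * e) ^ 3) := by
    rw [pow_succ, pow_two]; exact (hu.mul hu).mul hu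
  refine (IsPrim.eq_of_associated h h1 ?_)
  rw [mul_pow]
  exact ⟨u ^ 3, by push_cast; ring⟩

/-- the complete character sum `Σ_{d mod c} (d/c)_3`. -/
def T (c : Eis) : ℂ := sumMod c (fun x => sy x c)


variable (H : SyFacts)
include H

lemma sy_pmod {c : Eis} (hc : IsPrim c) : PMod c (fun x => sy x c) := by
  intro x t
  exact H.congr _ _ c hc (by simp)

lemma exists_ne_one {c : Eis} (hc : IsPrim c) (hn : ¬ ∃ e, c = e ^ 3) :
    ∃ b, IsPrim b ∧ IsCoprime b c ∧ sy b c ≠ 1 := by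
  obtain ⟨b, hb, hcop, hne⟩ := H.nontriv c hc.ne_zero hn
  exact ⟨b, hb, hcop.symm, by rwa [H.recip b c hb hc]⟩

theorem T_eq_zero {c : Eis} (hc : IsPrim c) (hn : ¬ ∃ e, c = e ^ 3) : T c = 0 := by
  obtain ⟨b, hb, hcop, hne⟩ := exists_ne_one H hc hn
  have h1 := sumMod_mul_coprime hc.ne_zero (sy_pmod H hc) hcop
  have h2 : sumMod c (fun x => sy (b * x) c) = sy b c * T c := by
    rw [T, ← sumMod_mul_left hc.ne_zero]
    exact sumMod_congr fun x => H.mul_left _ _ _ hc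
  rw [h2] at h1
  have h3 : (sy b c - 1) * T c = 0 := by
    rw [sub_mul, one_mul, h1, T, sub_self]
  rcases mul_eq_zero.mp h3 with h | h
  · exact absurd (sub_eq_zero.mp h) hne
  · exact h

lemma sy_cube_right {n x : Eis} (hn : IsPrim n) :
    sy x (n ^ 3) = open Classical in if IsCoprime (n ^ 3) x then 1 else 0 := by
  classical
  have h1 : sy x (n ^ 3) = sy x n ^ 3 := by
    rw [pow_succ, pow_two, H.mul_right _ _ _ (hn.mul hn) hn, H.mul_right _ _ _ hn hn]; ring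
  rw [h1]
  by_cases hc : IsCoprime (n ^ 3) x
  · rw [if_pos hc]
    exact H.cube _ _ hn ((IsCoprime.pow_left_iff (by norm_num)).mp hc).symm
  · rw [if_neg hc, (H.eq_zero x n hn).mpr (fun h => hc h.symm.pow_left)]
    norm_num

theorem T_cube {n : Eis} (hn : IsPrim n) :
    T (n ^ 3) = ((nm (n ^ 3) * Count852.psi (n ^ 3) : ℝ) : ℂ) := by
  have h3 : IsPrim (n ^ 3) := by rw [pow_succ, pow_two]; exact (hn.mul hn).mul hn
  rw [← sumMod_coprime h3, T]
  exact sumMod_congr fun x => sy_cube_right H hn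




end Cusp852

end Crest.Agent.R012
end
end

-- ▼ part R012/ThetaCube_131
section

/-!
# Row 12, item MTH (part 3): the term `k = 0` of the dual sum

`D^(-1/3) T_0(C,D) → kap 1 * ∫_0^∞ 3 y³ exp(-y³) dy`.
-/

set_option autoImplicit false

noncomputable section

open MeasureTheory Complex Set Filter Topology

namespace Crest.Agent.R012.Theta131

open Crest.Agent.R012 Crest.Agent.R012.Eis Crest.Agent.R012.Poisson381 Crest.Agent.R012.Mob705
  Crest.Agent.R012.Div277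

/-- `∑_{N(n) ≤ Y} ∏_{p | n} (1 - 1/N p)` over primary `n`. -/
def AP (Y : ℝ) : ℝ := ∑ n ∈ pb Y, PE n

lemma AP_eq (Y : ℝ) : AP Y = ∑ e ∈ pb Y, (muE e : ℝ) * (1 / (nm e : ℝ)) * ((pb (Y / nm e)).card : ℝ) := by
  classical
  unfold AP
  have h2 : ∀ n ∈ pb Y, PE n =
      ∑ e ∈ pb Y, (if e ∣ n then (muE e : ℝ) * (1 / (nm e : ℝ)) else 0) := by
    intro n hn
    have hn' := mem_pb.mp hn
    rw [PE_eq_sum hn'.2.ne_zero, ← Finset.sum_filter]
    refine Finset.sum_congr ?_ fun _ _ => rfl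
    ext d
    rw [mem_dvs hn'.2.ne_zero, Finset.mem_filter, mem_pb]
    constructor
    · rintro ⟨h3, h4⟩
      refine ⟨⟨?_, h3⟩, h4⟩
      have h5 : (nm d : ℝ) ≤ nm n := by exact_mod_cast Div277.nm_le_of_dvd hn'.2.ne_zero h4
      exact h5.trans hn'.1
    · rintro ⟨⟨_, h3⟩, h4⟩
      exact ⟨h3, h4⟩
  rw [Finset.sum_congr rfl h2, Finset.sum_comm]
  refine Finset.sum_congr rfl fun d hd => ?_
  rw [← Finset.sum_filter, Finset.sum_const, pb_filter_dvd Y (mem_pb.mp hd).2,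
    Finset.card_map, nsmul_eq_mul, mul_comm]

/-- constant -/
def KA : ℝ := 61 * LatSum413.Zs (3 / 2) + 300


theorem AP_asymp {Y : ℝ} (hY : 0 ≤ Y) : |AP Y - kap 1 * Y| ≤ KA * Real.sqrt Y := by
  classical
  have hs := Real.sqrt_nonneg Y
  have hk0 := kap0_pos
  have hk1 := kap0_le_one
  have hkap : kap 1 = kap0 * Z 1 := kap_one
  have e1 : AP Y - kap 1 * Y =
      (∑ e ∈ pb Y, (muE e : ℝ) * (1 / (nm e : ℝ)) *
        (((pb (Y / nm e)).card : ℝ) - kap0 * (Y / nm e)))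
      - kap0 * Y * (Z 1 - ∑ e ∈ pb Y, zt 1 e) := by
    rw [AP_eq, hkap]
    have e2 : ∑ d ∈ pb Y, zt 1 d = ∑ d ∈ pb Y, (muE d : ℝ) / (nm d : ℝ) ^ 2 := by
      refine Finset.sum_congr rfl fun d hd => ?_
      unfold zt
      rw [if_pos ⟨(mem_pb.mp hd).2, isCoprime_one_right⟩]
    rw [e2]
    simp only [mul_sub, Finset.sum_sub_distrib, Finset.mul_sum]
    have e3 : ∑ x ∈ pb Y, (muE x : ℝ) * (1 / (nm x : ℝ)) * (kap0 * (Y / nm x)) =
        ∑ x ∈ pb Y, kap0 * Y * ((muE x : ℝ) / (nm x : ℝ) ^ 2) := by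
      refine Finset.sum_congr rfl fun d hd => ?_
      have : (nm d : ℝ) ≠ 0 := by
        exact_mod_cast fun h => (mem_pb.mp hd).2.ne_zero (nm_eq_zero.mp h)
      field_simp
    rw [e3]; ring
  rw [e1]
  refine (abs_sub _ _).trans ?_
  have b1 : |∑ e ∈ pb Y, (muE e : ℝ) * (1 / (nm e : ℝ)) *
        (((pb (Y / nm e)).card : ℝ) - kap0 * (Y / nm e))| ≤ 61 * LatSum413.Zs (3 / 2) * Real.sqrt Y := by
    refine (Finset.abs_sum_le_sum_abs _ _).trans ?_
    have h1 : ∀ e ∈ pb Y, |(muE e : ℝ) * (1 / (nm e : ℝ)) *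
        (((pb (Y / nm e)).card : ℝ) - kap0 * (Y / nm e))| ≤
        61 * Real.sqrt Y * (nm e : ℝ) ^ (-(3 / 2) : ℝ) := by
      intro e he
      have hpos : (0 : ℝ) < nm e := by
        exact_mod_cast nm_pos.mpr (mem_pb.mp he).2.ne_zero
      have h2 := card_pb (Y := Y / nm e) (by positivity)
      rw [abs_mul, abs_mul, abs_of_pos (by positivity : 0 < 1 / (nm e : ℝ))]
      have h3 := abs_muE_le_real e
      have h4 : (nm e : ℝ) ^ (-(3 / 2) : ℝ) = 1 / (nm e : ℝ) * (1 / Real.sqrt (nm e)) := by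
        rw [Real.rpow_neg hpos.le, show (3 / 2 : ℝ) = 1 + 1 / 2 by norm_num,
          Real.rpow_add hpos, Real.rpow_one, ← Real.sqrt_eq_rpow]
        field_simp
      calc |(muE e : ℝ)| * (1 / (nm e : ℝ)) * |((pb (Y / nm e)).card : ℝ) - kap0 * (Y / nm e)|
          ≤ 1 * (1 / (nm e : ℝ)) * (61 * Real.sqrt (Y / nm e)) := by
            gcongr
        _ = 61 * Real.sqrt Y * (nm e : ℝ) ^ (-(3 / 2) : ℝ) := by
            rw [h4, Real.sqrt_div hY]; ring
    refine (Finset.sum_le_sum h1).trans ?_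
    rw [← Finset.mul_sum]
    have h5 : ∑ e ∈ pb Y, (nm e : ℝ) ^ (-(3 / 2) : ℝ) ≤ LatSum413.Zs (3 / 2) :=
      (LatSum413.summable_nm_rpow (s := 3 / 2) (by norm_num)).sum_le_tsum _
        (fun _ _ => by positivity)
    calc 61 * Real.sqrt Y * ∑ e ∈ pb Y, (nm e : ℝ) ^ (-(3 / 2) : ℝ)
        ≤ 61 * Real.sqrt Y * LatSum413.Zs (3 / 2) := mul_le_mul_of_nonneg_left h5 (by positivity)
      _ = _ := by ring
  have b2 : |kap0 * Y * (Z 1 - ∑ e ∈ pb Y, zt 1 e)| ≤ 300 * Real.sqrt Y := by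
    rw [abs_mul, abs_of_nonneg (by positivity)]
    have h1 := abs_Z_sub_le 1 (pb Y) ⌊Y⌋₊ (fun d hd hp _ => by
      by_contra hc
      push Not at hc
      exact hd (mem_primBall.mpr ⟨hc, hp⟩))
    have h2 : Y < ⌊Y⌋₊ + 1 := Nat.lt_floor_add_one Y
    rcases lt_or_ge Y 1 with h | h
    · have h3 : Y ≤ Real.sqrt Y := by
        rw [Real.le_sqrt hY hY]; nlinarith
      have h4 : |Z 1 - ∑ e ∈ pb Y, zt 1 e| ≤ 300 := by
        refine h1.trans ?_
        rw [div_le_iff₀ (by positivity)]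
        have : (0 : ℝ) ≤ ⌊Y⌋₊ := by positivity
        nlinarith
      calc kap0 * Y * |Z 1 - ∑ e ∈ pb Y, zt 1 e| ≤ 1 * Real.sqrt Y * 300 := by
            gcongr
        _ = _ := by ring
    · have h3 : 1 ≤ Real.sqrt Y := by
        rw [show (1 : ℝ) = Real.sqrt 1 by simp]
        exact Real.sqrt_le_sqrt h
      calc kap0 * Y * |Z 1 - ∑ e ∈ pb Y, zt 1 e| ≤ 1 * Y * (300 / (⌊Y⌋₊ + 1)) := by
            gcongr
        _ ≤ 300 := by
            rw [one_mul, mul_div_assoc', div_le_iff₀ (by positivity)]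
            nlinarith
        _ ≤ 300 * Real.sqrt Y := by nlinarith
  unfold KA
  linarith

/-! ### Layer cake -/

/-- `3 y² exp(-y³)` -/
def gy (y : ℝ) : ℝ := 3 * y ^ 2 * Real.exp (-(y ^ 3))

lemma gy_nonneg (y : ℝ) : 0 ≤ gy y := by unfold gy; positivity

lemma continuous_gy : Continuous gy := by unfold gy; fun_prop

lemma hasDerivAt_exp3 (y : ℝ) : HasDerivAt (fun y : ℝ => -Real.exp (-(y ^ 3))) (gy y) y := by
  have h1 : HasDerivAt (fun y : ℝ => y ^ 3) (3 * y ^ 2) y := by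
    simpa using hasDerivAt_pow 3 y
  have h2 := h1.neg.exp.neg
  refine h2.congr_deriv ?_
  unfold gy
  simp only [Pi.neg_apply]
  ring

lemma tendsto_exp3 : Tendsto (fun y : ℝ => -Real.exp (-(y ^ 3))) atTop (𝓝 0) := by
  have h : Tendsto (fun y : ℝ => y ^ 3) atTop atTop := tendsto_pow_atTop (by norm_num)
  have := (Real.tendsto_exp_neg_atTop_nhds_zero.comp h).neg
  simpa using this

lemma integrableOn_gy {a : ℝ} : IntegrableOn gy (Ioi a) :=
  integrableOn_Ioi_deriv_of_nonneg (by fun_prop) (fun y _ => hasDerivAt_exp3 y)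
    (fun y _ => gy_nonneg y) tendsto_exp3

lemma integral_gy {a : ℝ} : ∫ y in Ioi a, gy y = Real.exp (-(a ^ 3)) := by
  rw [integral_Ioi_of_hasDerivAt_of_nonneg (by fun_prop) (fun y _ => hasDerivAt_exp3 y)
    (fun y _ => gy_nonneg y) tendsto_exp3]
  ring

/-- `F_n(y) = PE(n) 1[N(n) ≤ T y] g(y)` -/
def Fn (T : ℝ) (n : Eis) (y : ℝ) : ℝ :=
  open Classical in if IsPrim n ∧ (nm n : ℝ) ≤ T * y then PE n * gy y else 0

lemma Fn_nonneg (T : ℝ) (n : Eis) (y : ℝ) : 0 ≤ Fn T n y := by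
  unfold Fn
  have h1 := (PE_pos n).le
  have h2 := gy_nonneg y
  split_ifs <;> positivity


open Classical in
lemma integral_Fn {T : ℝ} (hT : 0 < T) (n : Eis) :
    IntegrableOn (Fn T n) (Ioi 0) ∧
    ∫ y in Ioi (0 : ℝ), Fn T n y = if IsPrim n then PE n * Real.exp (-((nm n / T) ^ 3)) else 0 := by
  by_cases hn : IsPrim n
  · have hpos : (0 : ℝ) < nm n := by exact_mod_cast nm_pos.mpr hn.ne_zero
    rw [if_pos hn]
    have e1 : ∀ y, Fn T n y = (Ici ((nm n : ℝ) / T)).indicator (fun y => PE n * gy y) y := by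
      intro y
      unfold Fn
      by_cases hy : (nm n : ℝ) ≤ T * y
      · rw [if_pos ⟨hn, hy⟩, indicator_of_mem]
        rw [mem_Ici, div_le_iff₀ hT]; linarith
      · rw [if_neg (fun h => hy h.2), indicator_of_notMem]
        rw [mem_Ici, div_le_iff₀ hT]
        intro h; exact hy (by linarith)
    have hi : IntegrableOn (fun y => PE n * gy y) (Ioi ((nm n : ℝ) / T)) :=
      (integrableOn_gy).const_mul _
    have hi' : IntegrableOn (fun y => PE n * gy y) (Ici ((nm n : ℝ) / T)) :=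
      Iff.mpr integrableOn_Ici_iff_integrableOn_Ioi hi
    have hinter : Ioi (0 : ℝ) ∩ Ici ((nm n : ℝ) / T) = Ici ((nm n : ℝ) / T) := by
      apply inter_eq_right.mpr
      intro y hy
      have : 0 < (nm n : ℝ) / T := by positivity
      exact lt_of_lt_of_le this hy
    constructor
    · have : Integrable (fun y => Fn T n y) (volume) := by
        simp_rw [e1]
        rw [integrable_indicator_iff measurableSet_Ici]
        exact hi'
      exact this.integrableOn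
    · simp_rw [e1]
      rw [setIntegral_indicator measurableSet_Ici, hinter, integral_Ici_eq_integral_Ioi,
        integral_const_mul, integral_gy]
  · rw [if_neg hn]
    have e1 : ∀ y, Fn T n y = 0 := by
      intro y
      unfold Fn
      rw [if_neg (fun h => hn h.1)]
    have e2 : Fn T n = fun _ => 0 := funext e1
    rw [e2]
    exact ⟨integrableOn_zero, by simp⟩

lemma exp_cube_le {x : ℝ} (hx : 0 ≤ x) : Real.exp (-(x ^ 3)) ≤ 3 * Real.exp (-x) := by
  rw [show (3 : ℝ) * Real.exp (-x) = Real.exp (Real.log 3) * Real.exp (-x) by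
    rw [Real.exp_log (by norm_num)], ← Real.exp_add]
  apply Real.exp_le_exp.mpr
  have h1 : (1 : ℝ) ≤ Real.log 3 := by
    rw [Real.le_log_iff_exp_le (by norm_num)]
    have := Real.exp_one_lt_d9
    linarith
  have h2 : x ≤ x ^ 3 + 1 := by
    by_cases h : x ≤ 1
    · have : 0 ≤ x ^ 3 := by positivity
      linarith
    · push Not at h
      nlinarith [sq_nonneg (x - 1), sq_nonneg x, mul_pos (by linarith : 0 < x) (by linarith : 0 < x - 1)]
  linarith

open Classical in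
/-- `∑ PE(n) exp(-(N(n)/T)³)` -/
def QT (T : ℝ) : ℝ := ∑' n : Eis, if IsPrim n then PE n * Real.exp (-((nm n / T) ^ 3)) else 0

open Classical in
lemma summable_QT {T : ℝ} (hT : 0 < T) :
    Summable fun n : Eis => if IsPrim n then PE n * Real.exp (-((nm n / T) ^ 3)) else 0 := by
  refine Summable.of_nonneg_of_le (fun n => ?_) (fun n => ?_) ((summable_ex hT).mul_left 3)
  · have := (PE_pos n).le
    split_ifs <;> positivity
  · have h0 := ex_pos T n
    split_ifs with h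
    · have h1 := PE_le_one n
      have h2 := (PE_pos n).le
      have h3 := exp_cube_le (x := (nm n : ℝ) / T) (by positivity)
      have h4 : 0 < Real.exp (-((nm n / T : ℝ) ^ 3)) := Real.exp_pos _
      unfold ex
      nlinarith
    · positivity

lemma tsum_Fn {T : ℝ} {y : ℝ} : ∑' n, Fn T n y = AP (T * y) * gy y := by
  classical
  rw [tsum_eq_sum (s := pb (T * y))]
  · unfold AP
    rw [Finset.sum_mul]
    refine Finset.sum_congr rfl fun n hn => ?_
    have := mem_pb.mp hn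
    unfold Fn
    rw [if_pos ⟨this.2, this.1⟩]
  · intro n hn
    unfold Fn
    rw [if_neg]
    rintro ⟨h1, h2⟩
    exact hn (mem_pb.mpr ⟨h2, h1⟩)

lemma AP_mono : Monotone AP := by
  intro a b hab
  unfold AP
  exact Finset.sum_le_sum_of_subset_of_nonneg (pb_mono hab) (fun n _ _ => (PE_pos n).le)


lemma integrableOn_pow_gy {s : ℝ} (hs : 0 ≤ s) : IntegrableOn (fun y => y ^ s * gy y) (Ioi 0) := by
  have h : IntegrableOn (fun y : ℝ => 3 * (y ^ (s + 2) * Real.exp (-y ^ (3 : ℝ)))) (Ioi 0) :=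
    (integrableOn_rpow_mul_exp_neg_rpow (p := 3) (s := s + 2) (by linarith)
      (by norm_num)).const_mul 3
  refine IntegrableOn.congr_fun h ?_ measurableSet_Ioi
  intro y hy
  have hy0 : (0 : ℝ) < y := hy
  unfold gy
  beta_reduce
  have e3 : y ^ (3 : ℝ) = y ^ 3 := by
    rw [show (3 : ℝ) = ((3 : ℕ) : ℝ) by norm_num, Real.rpow_natCast]
  have e2 : y ^ (s + 2) = y ^ s * y ^ 2 := by
    rw [Real.rpow_add hy0, show (2 : ℝ) = ((2 : ℕ) : ℝ) by norm_num, Real.rpow_natCast]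
  rw [e3, e2]
  ring

theorem QT_eq {T : ℝ} (hT : 0 < T) : QT T = ∫ y in Ioi (0 : ℝ), AP (T * y) * gy y := by
  classical
  have h1 : ∀ n : Eis, Integrable (Fn T n) (volume.restrict (Ioi 0)) := fun n => (integral_Fn hT n).1
  have h2 : Summable fun n : Eis => ∫ y in Ioi (0 : ℝ), ‖Fn T n y‖ := by
    have e : ∀ n : Eis, ∫ y in Ioi (0 : ℝ), ‖Fn T n y‖ =
        if IsPrim n then PE n * Real.exp (-((nm n / T) ^ 3)) else 0 := by
      intro n
      rw [← (integral_Fn hT n).2]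
      congr 1
      ext y
      rw [Real.norm_of_nonneg (Fn_nonneg T n y)]
    simp_rw [e]
    exact summable_QT hT
  have h3 := hasSum_integral_of_summable_integral_norm h1 h2
  have e2 : ∀ y, ∑' n, Fn T n y = AP (T * y) * gy y := fun y => tsum_Fn
  simp_rw [e2] at h3
  rw [← h3.tsum_eq]
  unfold QT
  refine tsum_congr fun n => ?_
  rw [(integral_Fn hT n).2]

/-- the constant `∫ y g(y) dy` -/
def I1 : ℝ := ∫ y in Ioi (0 : ℝ), y ^ (1 : ℝ) * gy y

def I2 : ℝ := ∫ y in Ioi (0 : ℝ), y ^ (1 / 2 : ℝ) * gy y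


lemma I1_pos : 0 < I1 := by
  unfold I1
  rw [setIntegral_pos_iff_support_of_nonneg_ae]
  · have : Ioi (0 : ℝ) ⊆ Function.support fun y : ℝ => y ^ (1 : ℝ) * gy y := by
      intro y hy
      have hy0 : (0 : ℝ) < y := hy
      rw [Function.mem_support]
      unfold gy
      positivity
    rw [inter_eq_right.mpr this]
    simp
  · filter_upwards [ae_restrict_mem measurableSet_Ioi] with y hy
    have hy0 : (0 : ℝ) < y := hy
    have := gy_nonneg y
    simp only [Pi.zero_apply]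
    positivity
  · exact integrableOn_pow_gy (by norm_num)

theorem QT_bound {T : ℝ} (hT : 0 < T) : |QT T - kap 1 * T * I1| ≤ KA * Real.sqrt T * I2 := by
  have i1 := integrableOn_pow_gy (s := 1) (by norm_num)
  have i2 := integrableOn_pow_gy (s := 1 / 2) (by norm_num)
  have hb : ∀ y ∈ Ioi (0 : ℝ), |AP (T * y) * gy y - kap 1 * T * (y ^ (1 : ℝ) * gy y)| ≤
      KA * Real.sqrt T * (y ^ (1 / 2 : ℝ) * gy y) := by
    intro y hy
    have hy0 : (0 : ℝ) < y := hy
    have h := AP_asymp (Y := T * y) (by positivity)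
    have hg := gy_nonneg y
    have e1 : AP (T * y) * gy y - kap 1 * T * (y ^ (1 : ℝ) * gy y) =
        (AP (T * y) - kap 1 * (T * y)) * gy y := by
      rw [Real.rpow_one]; ring
    rw [e1, abs_mul, abs_of_nonneg hg]
    calc |AP (T * y) - kap 1 * (T * y)| * gy y ≤ KA * Real.sqrt (T * y) * gy y :=
          mul_le_mul_of_nonneg_right h hg
      _ = _ := by
          rw [Real.sqrt_mul hT.le, ← Real.sqrt_eq_rpow]; ring
  have hmeas : AEStronglyMeasurable (fun y => AP (T * y) * gy y) (volume.restrict (Ioi 0)) := by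
    refine (Measurable.mul ?_ continuous_gy.measurable).aestronglyMeasurable
    exact AP_mono.measurable.comp (measurable_id.const_mul T)
  have i3 : IntegrableOn (fun y => AP (T * y) * gy y - kap 1 * T * (y ^ (1 : ℝ) * gy y))
      (Ioi 0) := by
    refine Integrable.mono' (i2.const_mul (KA * Real.sqrt T)) ?_ ?_
    · exact hmeas.sub (Integrable.const_mul i1 (kap 1 * T)).aestronglyMeasurable
    · filter_upwards [ae_restrict_mem measurableSet_Ioi] with y hy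
      rw [Real.norm_eq_abs]
      exact hb y hy
  have i4 : IntegrableOn (fun y => AP (T * y) * gy y) (Ioi 0) := by
    have := i3.add (i1.const_mul (kap 1 * T))
    refine this.congr ?_
    filter_upwards with y
    simp only [Pi.add_apply]
    ring
  have e1 : QT T - kap 1 * T * I1 =
      ∫ y in Ioi (0 : ℝ), (AP (T * y) * gy y - kap 1 * T * (y ^ (1 : ℝ) * gy y)) := by
    rw [integral_sub i4 (Integrable.const_mul i1 (kap 1 * T)), integral_const_mul, ← QT_eq hT]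
    rfl
  rw [e1, ← Real.norm_eq_abs]
  refine (norm_integral_le_integral_norm _).trans ?_
  unfold I2
  rw [← integral_const_mul]
  refine setIntegral_mono_on i3.norm (i2.const_mul _) measurableSet_Ioi ?_
  intro y hy
  rw [Real.norm_eq_abs]
  exact hb y hy

theorem QT_tendsto : Tendsto (fun T : ℝ => QT T / T) atTop (𝓝 (kap 1 * I1)) := by
  have h1 : Tendsto (fun T : ℝ => KA * I2 * (Real.sqrt T)⁻¹) atTop (𝓝 (KA * I2 * 0)) :=
    (tendsto_inv_atTop_zero.comp Real.tendsto_sqrt_atTop).const_mul _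
  rw [mul_zero] at h1
  rw [tendsto_iff_norm_sub_tendsto_zero]
  refine squeeze_zero' (Eventually.of_forall fun _ => norm_nonneg _) ?_ h1
  filter_upwards [eventually_gt_atTop 0] with T hT
  have h := QT_bound hT
  have hs : 0 < Real.sqrt T := Real.sqrt_pos.mpr hT
  have e1 : QT T / T - kap 1 * I1 = (QT T - kap 1 * T * I1) / T := by field_simp
  rw [e1, norm_div, Real.norm_eq_abs, Real.norm_of_nonneg hT.le, div_le_iff₀ hT]
  refine h.trans (le_of_eq ?_)
  have h2 : (Real.sqrt T)⁻¹ * T = Real.sqrt T := by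
    rw [inv_mul_eq_iff_eq_mul₀ hs.ne', Real.mul_self_sqrt hT.le]
  rw [mul_assoc _ _ T, h2]
  ring

/-- `C₀` -/
def C00 : ℝ := kap 1 * I1

lemma C00_pos : 0 < C00 := mul_pos kap_one_pos I1_pos

/-! ### `g(0, d)` -/

lemma gs_zero_eq (d : Eis) : gs 0 d = Cusp852.T d := by
  unfold gs Cusp852.T
  refine sumMod_congr fun x => ?_
  rw [map_zero, zero_mul, zero_div, Poisson381.eC_zero, mul_one]

lemma psi_cube {n : Eis} (hn : IsPrim n) : Count852.psi (n ^ 3) = PE n := by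
  classical
  unfold Count852.psi PE
  refine Finset.prod_congr ?_ fun _ _ => rfl
  ext p
  have hn0 := hn.ne_zero
  rw [Count852.mem_pdiv (pow_ne_zero 3 hn0), mem_pp hn0]
  unfold IsPP
  constructor
  · rintro ⟨h1, h2, h3⟩
    exact ⟨⟨h1, h2⟩, h2.dvd_of_dvd_pow h3⟩
  · rintro ⟨⟨h1, h2⟩, h3⟩
    exact ⟨h1, h2, h3.trans (dvd_pow_self n (by norm_num))⟩

lemma isPrim_cube {n : Eis} (hn : IsPrim n) : IsPrim (n ^ 3) := hn.pow 3

lemma cube_inj {m n : Eis} (hm : IsPrim m) (hn : IsPrim n) (h : m ^ 3 = n ^ 3) : m = n := by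
  apply hm.eq_of_associated hn
  exact associated_of_dvd_dvd
    ((UniqueFactorizationMonoid.pow_dvd_pow_iff_dvd (n := 3) (by norm_num)).mp (h ▸ dvd_rfl))
    ((UniqueFactorizationMonoid.pow_dvd_pow_iff_dvd (n := 3) (by norm_num)).mp (h ▸ dvd_rfl))

/-- the term `k = 0`. -/
theorem Tk_zero {C D : ℝ} (_hD : 0 < D) : Tk C (D ^ 3) 0 = ((QT D : ℝ) : ℂ) := by
  classical
  have hval : ∀ d : Eis, tt C (D ^ 3) 0 d =
      if IsPrim d then Cusp852.T d / (nm d : ℂ) * ((Real.exp (-(nm d / D ^ 3)) : ℝ) : ℂ) else 0 := by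
    intro d
    unfold tt
    rw [gs_zero_eq]
    simp
  have hc : ∀ n : Eis, IsPrim n → tt C (D ^ 3) 0 (n ^ 3) =
      ((PE n * Real.exp (-((nm n / D) ^ 3)) : ℝ) : ℂ) := by
    intro n hn
    have h3 := isPrim_cube hn
    rw [hval, if_pos h3, Cusp852.T_cube Sym645.syFacts hn, psi_cube hn]
    have hp : (nm (n ^ 3) : ℂ) ≠ 0 := by
      exact_mod_cast fun h => h3.ne_zero (nm_eq_zero.mp h)
    have e1 : ((nm n : ℝ) / D) ^ 3 = nm (n ^ 3) / D ^ 3 := by
      rw [nm_pow]; push_cast; rw [div_pow]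
    rw [e1]
    push_cast
    field_simp
  have hz : ∀ d : Eis, tt C (D ^ 3) 0 d ≠ 0 → ∃ n, IsPrim n ∧ d = n ^ 3 := by
    intro d hd
    rw [hval] at hd
    by_cases hp : IsPrim d
    · rw [if_pos hp] at hd
      by_contra hne
      apply hd
      rw [Cusp852.T_eq_zero Sym645.syFacts hp, zero_div, zero_mul]
      rintro ⟨e, he⟩
      obtain ⟨n, hn, hen⟩ := Cusp852.prim_cube (e := e) (by rwa [← he])
      exact hne ⟨n, hn, by rw [he, hen]⟩
    · rw [if_neg hp] at hd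
      exact absurd rfl hd
  have h1 : Tk C (D ^ 3) 0 = ∑' n : {n : Eis // IsPrim n}, tt C (D ^ 3) 0 ((n : Eis) ^ 3) := by
    unfold Tk
    have hinj : Function.Injective (fun n : {n : Eis // IsPrim n} => (n : Eis) ^ 3) := by
      intro a b h
      exact Subtype.ext (cube_inj a.2 b.2 h)
    rw [← hinj.tsum_eq]
    intro d hd
    obtain ⟨n, hn, rfl⟩ := hz d hd
    exact ⟨⟨n, hn⟩, rfl⟩
  rw [h1]
  unfold QT
  rw [Complex.ofReal_tsum]
  have h2 : ∀ n : {n : Eis // IsPrim n}, tt C (D ^ 3) 0 ((n : Eis) ^ 3) =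
      (fun n : Eis => (((if IsPrim n then PE n * Real.exp (-((nm n / D) ^ 3)) else 0 : ℝ)) : ℂ)) n := by
    intro n
    rw [hc n n.2]
    simp only
    rw [if_pos n.2]
  simp_rw [h2]
  refine tsum_subtype_eq_of_support_subset (s := {n : Eis | IsPrim n})
    (f := fun n : Eis => (((if IsPrim n then PE n * Real.exp (-((nm n / D) ^ 3)) else 0 : ℝ)) : ℂ)) ?_
  intro n hn
  by_contra hne
  apply hn
  have hne' : ¬ IsPrim n := hne
  simp only
  rw [if_neg hne']
  simp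

/-- **Limit of the term `k = 0`.** -/
theorem Tk_zero_tendsto (C : ℝ → ℝ) :
    Tendsto (fun D : ℝ => Tk (C D) D 0 / ((D ^ (1 / 3 : ℝ) : ℝ) : ℂ)) atTop (𝓝 ((C00 : ℝ) : ℂ)) := by
  have h1 : Tendsto (fun D : ℝ => D ^ (1 / 3 : ℝ)) atTop atTop :=
    tendsto_rpow_atTop (by norm_num)
  have h2 := (Complex.continuous_ofReal.tendsto _).comp (QT_tendsto.comp h1)
  refine h2.congr' ?_
  filter_upwards [eventually_gt_atTop 0] with D hD
  have h3 : 0 < D ^ (1 / 3 : ℝ) := Real.rpow_pos_of_pos hD _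
  have h4 := Tk_zero (C := C D) h3
  have h5 : (D ^ (1 / 3 : ℝ)) ^ 3 = D := by
    rw [← Real.rpow_natCast, ← Real.rpow_mul hD.le]; norm_num
  rw [h5] at h4
  rw [h4]
  simp only [Function.comp]
  push_cast
  rfl

end Crest.Agent.R012.Theta131
end
end

-- ▼ part R012/ThetaFE_131
section

/-!
# Row 12, item MTH (part 4): the functional equation

Input: `ThAs ρ` (asymptotics of `T_k`, `k ≠ 0`).  Output: helper51's inversion identity for
`ρ' k = ε_k ρ_k`.
-/

set_option autoImplicit false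

noncomputable section

open MeasureTheory Complex Set Filter Topology

namespace Crest.Agent.R012.Theta131

open Crest.Agent.R012 Crest.Agent.R012.Eis Crest.Agent.R012.Poisson381

/-- `J(t) = ∫_0^∞ x^(-2/3) exp(-x - β₀ t / x) dx` -/
def Jt (t : ℝ) : ℝ := ∫ x in Ioi (0 : ℝ), x ^ (-(2 / 3) : ℝ) * Real.exp (-x - be0 * t / x)

/-- the asymptotics of `T_k`, `k ≠ 0`. -/
structure ThAs (ρ : Eis → ℂ) : Prop where
  lim : ∀ Y : ℝ, 0 < Y → ∀ k : Eis, k ≠ 0 →
    Tendsto (fun D : ℝ => Tk (Y * D) D k / ((D ^ (1 / 3 : ℝ) : ℝ) : ℂ)) atTop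
      (𝓝 (ρ k * ((Jt (Y * nm k) : ℝ) : ℂ)))
  dom : ∀ Y : ℝ, 0 < Y → ∃ b : Eis → ℝ, Summable b ∧ ∀ D : ℝ, 1 ≤ D → ∀ k : Eis, k ≠ 0 →
    ‖Tk (Y * D) D k / ((D ^ (1 / 3 : ℝ) : ℝ) : ℂ)‖ ≤ b k

/-- limit of the `k`-th term -/
def Gk (ρ : Eis → ℂ) (Y : ℝ) (k : Eis) : ℂ :=
  if k = 0 then ((C00 : ℝ) : ℂ) else eps k * (ρ k * ((Jt (Y * nm k) : ℝ) : ℂ))

/-- normalised dual sum -/
def FF (Y D : ℝ) : ℂ := ∑' k : Eis, eps k * (Tk (Y * D) D k / ((D ^ (1 / 3 : ℝ) : ℝ) : ℂ))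

lemma eps_zero : eps 0 = 1 := by
  unfold eps
  rw [map_zero, zero_div, Poisson381.eC_zero]

theorem FF_tendsto {ρ : Eis → ℂ} (h : ThAs ρ) {Y : ℝ} (hY : 0 < Y) :
    Tendsto (fun D : ℝ => FF Y D) atTop (𝓝 (∑' k : Eis, Gk ρ Y k)) := by
  classical
  obtain ⟨b, hb, hd⟩ := h.dom Y hY
  have h0 := Tk_zero_tendsto (fun D => Y * D)
  set b' : Eis → ℝ := fun k => b k + (if k = 0 then |b 0| + (‖((C00 : ℝ) : ℂ)‖ + 1) else 0) with hb'
  have hs : Summable b' := by
    refine hb.add ?_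
    refine summable_of_ne_finset_zero (s := {0}) (fun k hk => ?_)
    rw [Finset.mem_singleton] at hk
    rw [if_neg hk]
  unfold FF
  refine tendsto_tsum_of_dominated_convergence hs ?_ ?_
  · intro k
    unfold Gk
    by_cases hk : k = 0
    · subst hk
      rw [if_pos rfl, eps_zero]
      simpa only [one_mul] using h0
    · rw [if_neg hk]
      exact (h.lim Y hY k hk).const_mul _
  · have h1 : ∀ᶠ D : ℝ in atTop, ‖Tk (Y * D) D 0 / ((D ^ (1 / 3 : ℝ) : ℝ) : ℂ)‖ <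
        ‖((C00 : ℝ) : ℂ)‖ + 1 :=
      (tendsto_norm.comp h0).eventually (gt_mem_nhds (by linarith))
    filter_upwards [h1, eventually_ge_atTop 1] with D h1 h2 k
    rw [norm_mul, norm_eps, one_mul, hb']
    by_cases hk : k = 0
    · subst hk
      simp only [if_true]
      have := neg_abs_le (b 0)
      linarith
    · simp only [if_neg hk, add_zero]
      exact hd D h2 k hk

lemma FF_rel {Y D : ℝ} (hY : 0 < Y) (hD : 0 < D) :
    ((Y : ℝ) : ℂ) * FF Y D = ((Y ^ (1 / 3 : ℝ) : ℝ) : ℂ) * FF Y⁻¹ (Y * D) := by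
  have hYD : 0 < Y * D := by positivity
  have h1 := Ssum_eq hYD hD
  have h2 := Ssum_eq hD hYD
  rw [Ssum_comm, h2] at h1
  have hp := Real.pi_pos
  have h3 : 0 < Real.sqrt 3 := Real.sqrt_pos.mpr (by norm_num)
  have hD3 : 0 < D ^ (1 / 3 : ℝ) := Real.rpow_pos_of_pos hD _
  have hY3 : 0 < Y ^ (1 / 3 : ℝ) := Real.rpow_pos_of_pos hY _
  have e1 : FF Y D = (∑' k : Eis, eps k * Tk (Y * D) D k) / ((D ^ (1 / 3 : ℝ) : ℝ) : ℂ) := by
    unfold FF
    rw [← tsum_div_const]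
    exact tsum_congr fun k => by ring
  have e2 : FF Y⁻¹ (Y * D) = (∑' k : Eis, eps k * Tk D (Y * D) k) /
      (((Y * D) ^ (1 / 3 : ℝ) : ℝ) : ℂ) := by
    unfold FF
    rw [← tsum_div_const]
    refine tsum_congr fun k => ?_
    have : Y⁻¹ * (Y * D) = D := by field_simp
    rw [this]
    ring
  rw [e1, e2, Real.mul_rpow hY.le hD.le]
  have h4 : ((2 * Real.pi * D / (9 * Real.sqrt 3) : ℝ) : ℂ) ≠ 0 := by
    have : (2 * Real.pi * D / (9 * Real.sqrt 3) : ℝ) ≠ 0 := by positivity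
    exact_mod_cast this
  have h5 : ((2 * Real.pi * (Y * D) / (9 * Real.sqrt 3) : ℝ) : ℂ) =
      ((2 * Real.pi * D / (9 * Real.sqrt 3) : ℝ) : ℂ) * ((Y : ℝ) : ℂ) := by
    rw [← Complex.ofReal_mul]
    congr 1
    ring
  rw [h5, mul_assoc (((2 * Real.pi * D / (9 * Real.sqrt 3) : ℝ) : ℂ))] at h1
  have h6 := mul_left_cancel₀ h4 h1
  have hD3' : ((D ^ (1 / 3 : ℝ) : ℝ) : ℂ) ≠ 0 := by exact_mod_cast hD3.ne'
  have hY3' : ((Y ^ (1 / 3 : ℝ) : ℝ) : ℂ) ≠ 0 := by exact_mod_cast hY3.ne'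
  rw [h6]
  push_cast
  field_simp

/-- **The functional equation.** -/
theorem fe_main {ρ : Eis → ℂ} (h : ThAs ρ) {Y : ℝ} (hY : 0 < Y) :
    ((Y : ℝ) : ℂ) * ∑' k : Eis, Gk ρ Y k =
      ((Y ^ (1 / 3 : ℝ) : ℝ) : ℂ) * ∑' k : Eis, Gk ρ Y⁻¹ k := by
  have h1 := (FF_tendsto h hY).const_mul ((Y : ℝ) : ℂ)
  have h2 : Tendsto (fun D : ℝ => Y * D) atTop atTop := tendsto_id.const_mul_atTop hY
  have h3 := ((FF_tendsto h (inv_pos.mpr hY)).comp h2).const_mul ((Y ^ (1 / 3 : ℝ) : ℝ) : ℂ)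
  refine tendsto_nhds_unique h1 (h3.congr' ?_)
  filter_upwards [eventually_gt_atTop 0] with D hD
  exact (FF_rel hY hD).symm

lemma summable_Gk {ρ : Eis → ℂ} (h : ThAs ρ) {Y : ℝ} (hY : 0 < Y) :
    Summable fun k : Eis => Gk ρ Y k := by
  classical
  obtain ⟨b, hb, hd⟩ := h.dom Y hY
  set b' : Eis → ℝ := fun k => b k + (if k = 0 then |b 0| + ‖((C00 : ℝ) : ℂ)‖ else 0) with hb'
  have hs : Summable b' := by
    refine hb.add ?_
    refine summable_of_ne_finset_zero (s := {0}) (fun k hk => ?_)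
    rw [Finset.mem_singleton] at hk
    rw [if_neg hk]
  refine Summable.of_norm_bounded hs (fun k => ?_)
  unfold Gk
  by_cases hk : k = 0
  · subst hk
    rw [if_pos rfl, hb']
    simp only [if_true]
    have := neg_abs_le (b 0)
    linarith
  · rw [if_neg hk, norm_mul, norm_eps, one_mul, hb']
    simp only [if_neg hk, add_zero]
    refine le_of_tendsto (tendsto_norm.comp (h.lim Y hY k hk)) ?_
    filter_upwards [eventually_ge_atTop 1] with D hD
    exact hd D hD k hk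

/-- change of variables: `y^(2/3) J(N y²) = Kf (√N/(3√3)) y` -/
lemma Kf_eq {N y : ℝ} (hN : 0 < N) (hy : 0 < y) :
    Sg51.Kf (Real.sqrt N / (3 * Real.sqrt 3)) y = y ^ (2 / 3 : ℝ) * Jt (y ^ 2 * N) := by
  have hs3 : 0 < Real.sqrt 3 := Real.sqrt_pos.mpr (by norm_num)
  have hsN : 0 < Real.sqrt N := Real.sqrt_pos.mpr hN
  set a : ℝ := Real.sqrt N / (3 * Real.sqrt 3) with ha
  have hap : 0 < a := by positivity
  have ha2 : a ^ 2 * 27 = N := by
    rw [ha, div_pow, mul_pow, Real.sq_sqrt hN.le, Real.sq_sqrt (by norm_num)]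
    norm_num
  unfold Sg51.Kf Jt
  have hc := MeasureTheory.integral_comp_mul_left_Ioi
    (fun x : ℝ => x ^ (-(2 / 3) : ℝ) * Real.exp (-x - be0 * (y ^ 2 * N) / x)) 0
    (b := a * y) (by positivity)
  rw [mul_zero] at hc
  have hay : 0 < a * y := by positivity
  have e1 : ∫ x in Ioi (0 : ℝ), x ^ (-(2 / 3) : ℝ) * Real.exp (-x - be0 * (y ^ 2 * N) / x) =
      (a * y) * ∫ w in Ioi (0 : ℝ), (a * y * w) ^ (-(2 / 3) : ℝ) *
        Real.exp (-(a * y * w) - be0 * (y ^ 2 * N) / (a * y * w)) := by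
    rw [hc, smul_eq_mul, mul_inv_cancel_left₀ hay.ne']
  rw [e1, ← integral_const_mul, ← integral_const_mul, ← integral_const_mul]
  refine setIntegral_congr_fun measurableSet_Ioi fun w hw => ?_
  have hw' : 0 < w := hw
  rw [Real.mul_rpow hay.le hw'.le, Real.mul_rpow hap.le hy.le]
  have e2 : -(a * y * w) - be0 * (y ^ 2 * N) / (a * y * w) =
      -(a * (w + 4 * Real.pi ^ 2 / w) * y) := by
    unfold be0
    rw [← ha2]
    field_simp
    ring
  rw [e2]
  have e3 : a ^ (1 / 3 : ℝ) = a * a ^ (-(2 / 3) : ℝ) := by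
    nth_rewrite 2 [← Real.rpow_one a]
    rw [← Real.rpow_add hap]
    norm_num
  have e4 : y = y ^ (2 / 3 : ℝ) * (y * y ^ (-(2 / 3) : ℝ)) := by
    have : y * y ^ (-(2 / 3) : ℝ) = y ^ (1 / 3 : ℝ) := by
      nth_rewrite 1 [← Real.rpow_one y]
      rw [← Real.rpow_add hy]
      norm_num
    rw [this, ← Real.rpow_add hy]
    norm_num
  have e5 : (-(2 : ℝ) / 3) = (-(2 / 3) : ℝ) := by norm_num
  rw [e3, e5]
  nth_rewrite 1 [e4]
  ring

lemma Kf_inv_eq {N y : ℝ} (hN : 0 < N) (hy : 0 < y) :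
    Sg51.Kf (Real.sqrt N / (3 * Real.sqrt 3)) y⁻¹ = y ^ (-(2 / 3) : ℝ) * Jt ((y ^ 2)⁻¹ * N) := by
  rw [Kf_eq hN (inv_pos.mpr hy), inv_pow, Real.inv_rpow hy.le, Real.rpow_neg hy.le]

/-- **helper51's inversion identity** for `ρ' k = ε_k ρ_k`, `c1 = 1`, `C0 = C00`. -/
theorem hid_of {ρ : Eis → ℂ} (h : ThAs ρ) {y : ℝ} (hy : 0 < y) :
    ((C00 * (y ^ ((2 : ℝ) / 3) - y ^ (-(2 : ℝ) / 3)) : ℝ) : ℂ) =
      ∑' r : Eis, (eps r * ρ r) * ((1 * Sg51.Bf y (‖toC r‖ / (3 * Real.sqrt 3)) : ℝ) : ℂ) := by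
  classical
  have hy2 : 0 < y ^ 2 := by positivity
  have hm := fe_main h hy2
  have s1 := summable_Gk h hy2
  have s2 := summable_Gk h (inv_pos.mpr hy2)
  have e43 : (y ^ 2) ^ (1 / 3 : ℝ) = y ^ (2 / 3 : ℝ) := by
    rw [← Real.rpow_natCast, ← Real.rpow_mul hy.le]; norm_num
  rw [e43] at hm
  have p1 : 0 < y ^ (2 / 3 : ℝ) := Real.rpow_pos_of_pos hy _
  have p2 : 0 < y ^ (-(2 / 3) : ℝ) := Real.rpow_pos_of_pos hy _
  have e6 : y ^ 2 = y ^ (2 / 3 : ℝ) * (y ^ (2 / 3 : ℝ) * y ^ (2 / 3 : ℝ)) := by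
    rw [← Real.rpow_add hy, ← Real.rpow_add hy, ← Real.rpow_natCast]; norm_num
  have e7 : y ^ (2 / 3 : ℝ) * y ^ (-(2 / 3) : ℝ) = 1 := by
    rw [← Real.rpow_add hy]; norm_num
  -- `y^(2/3) Σ G(y²) = y^(-2/3) Σ G(y⁻²)`
  have hm2 : ((y ^ (2 / 3 : ℝ) : ℝ) : ℂ) * ∑' k : Eis, Gk ρ (y ^ 2) k =
      ((y ^ (-(2 / 3) : ℝ) : ℝ) : ℂ) * ∑' k : Eis, Gk ρ (y ^ 2)⁻¹ k := by
    have q1 : ((y ^ (2 / 3 : ℝ) : ℝ) : ℂ) ≠ 0 := by exact_mod_cast p1.ne'
    apply mul_left_cancel₀ (mul_ne_zero q1 q1)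
    have l1 : (((y ^ (2 / 3 : ℝ) : ℝ) : ℂ) * ((y ^ (2 / 3 : ℝ) : ℝ) : ℂ)) *
        (((y ^ (2 / 3 : ℝ) : ℝ) : ℂ) * ∑' k : Eis, Gk ρ (y ^ 2) k) =
        ((y ^ 2 : ℝ) : ℂ) * ∑' k : Eis, Gk ρ (y ^ 2) k := by
      rw [e6]; push_cast; ring
    have l2 : (((y ^ (2 / 3 : ℝ) : ℝ) : ℂ) * ((y ^ (2 / 3 : ℝ) : ℝ) : ℂ)) *
        (((y ^ (-(2 / 3) : ℝ) : ℝ) : ℂ) * ∑' k : Eis, Gk ρ (y ^ 2)⁻¹ k) =
        ((y ^ (2 / 3 : ℝ) : ℝ) : ℂ) * ∑' k : Eis, Gk ρ (y ^ 2)⁻¹ k := by
      have : ((y ^ (2 / 3 : ℝ) : ℝ) : ℂ) * ((y ^ (-(2 / 3) : ℝ) : ℝ) : ℂ) = 1 := by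
        rw [← Complex.ofReal_mul, e7, Complex.ofReal_one]
      calc _ = ((y ^ (2 / 3 : ℝ) : ℝ) : ℂ) * (((y ^ (2 / 3 : ℝ) : ℝ) : ℂ) *
            ((y ^ (-(2 / 3) : ℝ) : ℝ) : ℂ)) * ∑' k : Eis, Gk ρ (y ^ 2)⁻¹ k := by ring
        _ = _ := by rw [this, mul_one]
    rw [l1, l2]
    exact hm
  -- termwise
  have hterm : ∀ r : Eis, (eps r * ρ r) * ((1 * Sg51.Bf y (‖toC r‖ / (3 * Real.sqrt 3)) : ℝ) : ℂ) =
      (((y ^ (-(2 / 3) : ℝ) : ℝ) : ℂ) * Gk ρ (y ^ 2)⁻¹ r -
        ((y ^ (2 / 3 : ℝ) : ℝ) : ℂ) * Gk ρ (y ^ 2) r) +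
      (if r = 0 then ((C00 * (y ^ ((2 : ℝ) / 3) - y ^ (-(2 : ℝ) / 3)) : ℝ) : ℂ) else 0) := by
    intro r
    by_cases hr : r = 0
    · subst hr
      have e5 : (-(2 : ℝ) / 3) = (-(2 / 3) : ℝ) := by norm_num
      rw [map_zero, norm_zero, zero_div, Sg51.Bf_zero, if_pos rfl, e5]
      unfold Gk
      rw [if_pos rfl, if_pos rfl]
      push_cast
      ring
    · rw [if_neg hr, add_zero]
      have hn : (0 : ℝ) < nm r := by exact_mod_cast nm_pos.2 hr
      have hsq : ‖toC r‖ = Real.sqrt (nm r) := by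
        rw [← norm_toC_sq, Real.sqrt_sq (norm_nonneg _)]
      unfold Sg51.Bf
      rw [hsq, Kf_eq hn hy, Kf_inv_eq hn hy]
      unfold Gk
      rw [if_neg hr, if_neg hr]
      push_cast
      ring
  simp_rw [hterm]
  have s3 : Summable fun r : Eis => ((y ^ (-(2 / 3) : ℝ) : ℝ) : ℂ) * Gk ρ (y ^ 2)⁻¹ r -
        ((y ^ (2 / 3 : ℝ) : ℝ) : ℂ) * Gk ρ (y ^ 2) r := (s2.mul_left _).sub (s1.mul_left _)
  have s4 : Summable fun r : Eis => (if r = 0 then
      ((C00 * (y ^ ((2 : ℝ) / 3) - y ^ (-(2 : ℝ) / 3)) : ℝ) : ℂ) else 0) := by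
    refine summable_of_ne_finset_zero (s := {0}) (fun k hk => ?_)
    rw [Finset.mem_singleton] at hk
    rw [if_neg hk]
  rw [s3.tsum_add s4, tsum_ite_eq, (s2.mul_left _).tsum_sub (s1.mul_left _), tsum_mul_left,
    tsum_mul_left, ← hm2, sub_self, zero_add]

end Crest.Agent.R012.Theta131
end
end

-- ▼ part R012/ThetaDom_131
section

/-!
# Row 12, item MTH (part 5): from the weighted sums `Σ g̃(h,d) φ_b(N(d)/D)` to `ThAs`
-/

set_option autoImplicit false

noncomputable section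

open MeasureTheory Complex Set Filter Topology

namespace Crest.Agent.R012.Theta131

open Crest.Agent.R012 Crest.Agent.R012.Eis Crest.Agent.R012.Poisson381

/-- `φ_b(x) = x^(-1/2) exp(-x - b/x)` -/
def phi (b x : ℝ) : ℝ := x ^ (-(1 / 2) : ℝ) * Real.exp (-x - b / x)

open Classical in
/-- `Σ_{d primary} g(h,d)/√N(d) φ_b(N(d)/D)` -/
def Ph (b D : ℝ) (h : Eis) : ℂ :=
  ∑' d : Eis, (if IsPrim d then
    gs h d / ((Real.sqrt (nm d) : ℝ) : ℂ) * ((phi b (nm d / D) : ℝ) : ℂ) else 0)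

/-- the asymptotics for the weights `φ_b`, with constants. -/
def PhiAs (ρ : Eis → ℂ) : Prop :=
  ∀ b0 : ℝ, 0 < b0 → ∃ K θ : ℝ, θ < 5 / 6 ∧ ∀ b : ℝ, b0 ≤ b → ∀ D : ℝ, 1 ≤ D → ∀ h : Eis, h ≠ 0 →
    ‖Ph b D h - ρ h * (((∫ x in Ioi (0 : ℝ), phi b x * x ^ (-(1 / 6) : ℝ)) * D ^ (5 / 6 : ℝ) : ℝ) : ℂ)‖ ≤
      K * (1 + nm h : ℝ) ^ K * Real.exp (-Real.sqrt b) * D ^ θ

lemma Tk_eq_Ph {Y D : ℝ} (hD : 0 < D) (k : Eis) :
    Tk (Y * D) D k = ((D ^ (-(1 / 2) : ℝ) : ℝ) : ℂ) * Ph (be0 * Y * nm k) D k := by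
  classical
  unfold Tk Ph
  rw [← tsum_mul_left]
  refine tsum_congr fun d => ?_
  unfold tt
  by_cases hd : IsPrim d
  · rw [if_pos hd, if_pos hd]
    have hn : (0 : ℝ) < nm d := by exact_mod_cast nm_pos.2 hd.ne_zero
    have hs : 0 < Real.sqrt (nm d) := Real.sqrt_pos.mpr hn
    unfold phi
    have e1 : -(nm d / D : ℝ) - be0 * (Y * D) * nm k / nm d =
        -(nm d / D : ℝ) - be0 * Y * nm k / (nm d / D) := by
      field_simp
    have e2 : D ^ (-(1 / 2) : ℝ) * (nm d / D : ℝ) ^ (-(1 / 2) : ℝ) = (Real.sqrt (nm d))⁻¹ := by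
      rw [Real.div_rpow hn.le hD.le, Real.rpow_neg hn.le, Real.sqrt_eq_rpow]
      have := Real.rpow_pos_of_pos hD (-(1 / 2) : ℝ)
      field_simp
    have e3 : (nm d : ℂ) = ((Real.sqrt (nm d) : ℝ) : ℂ) * ((Real.sqrt (nm d) : ℝ) : ℂ) := by
      rw [← Complex.ofReal_mul, Real.mul_self_sqrt hn.le]
      push_cast; rfl
    rw [e1]
    have hs' : ((Real.sqrt (nm d) : ℝ) : ℂ) ≠ 0 := by exact_mod_cast hs.ne'
    calc gs k d / (nm d : ℂ) * ((Real.exp (-(nm d / D : ℝ) - be0 * Y * nm k / (nm d / D)) : ℝ) : ℂ)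
        = gs k d / ((Real.sqrt (nm d) : ℝ) : ℂ) * ((((Real.sqrt (nm d))⁻¹ : ℝ) : ℂ) *
          ((Real.exp (-(nm d / D : ℝ) - be0 * Y * nm k / (nm d / D)) : ℝ) : ℂ)) := by
          rw [e3]; push_cast; field_simp
      _ = _ := by rw [← e2]; push_cast; ring
  · rw [if_neg hd, if_neg hd, mul_zero]

lemma int_phi (b : ℝ) : ∫ x in Ioi (0 : ℝ), phi b x * x ^ (-(1 / 6) : ℝ) =
    ∫ x in Ioi (0 : ℝ), x ^ (-(2 / 3) : ℝ) * Real.exp (-x - b / x) := by
  refine setIntegral_congr_fun measurableSet_Ioi fun x hx => ?_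
  have hx' : 0 < x := hx
  unfold phi
  have : x ^ (-(2 / 3) : ℝ) = x ^ (-(1 / 2) : ℝ) * x ^ (-(1 / 6) : ℝ) := by
    rw [← Real.rpow_add hx']; norm_num
  rw [this]
  ring

lemma exp_neg_sqrt_le (c : ℝ) (hc : 0 < c) (m : ℕ) : ∃ C : ℝ, 0 < C ∧ ∀ x : ℝ, 0 ≤ x →
    Real.exp (-Real.sqrt (c * x)) ≤ C * ((1 + x) ^ m)⁻¹ := by
  refine ⟨2 ^ m * (1 + (Nat.factorial (2 * m)) / c ^ m), by positivity, fun x hx => ?_⟩
  have h1 : (Real.sqrt (c * x)) ^ (2 * m) / Nat.factorial (2 * m) ≤ Real.exp (Real.sqrt (c * x)) :=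
    Real.pow_div_factorial_le_exp _ (by positivity) _
  have h2 : (Real.sqrt (c * x)) ^ (2 * m) = c ^ m * x ^ m := by
    rw [pow_mul, Real.sq_sqrt (by positivity), mul_pow]
  have h3 : 1 ≤ Real.exp (Real.sqrt (c * x)) := by rw [Real.one_le_exp_iff]; positivity
  rw [h2] at h1
  have h4 : x ^ m ≤ Nat.factorial (2 * m) / c ^ m * Real.exp (Real.sqrt (c * x)) := by
    have hf : (0 : ℝ) < Nat.factorial (2 * m) := by positivity
    rw [div_le_iff₀ hf] at h1
    rw [div_mul_eq_mul_div, le_div_iff₀ (by positivity)]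
    linarith
  have h5 : (1 + x) ^ m ≤ 2 ^ m * (1 + x ^ m) := by
    rcases le_total x 1 with h | h
    · calc (1 + x) ^ m ≤ 2 ^ m := pow_le_pow_left₀ (by positivity) (by linarith) m
        _ ≤ 2 ^ m * (1 + x ^ m) := by
          have : 0 ≤ x ^ m := by positivity
          nlinarith [pow_pos (show (0 : ℝ) < 2 by norm_num) m]
    · calc (1 + x) ^ m ≤ (2 * x) ^ m := pow_le_pow_left₀ (by positivity) (by linarith) m
        _ = 2 ^ m * x ^ m := mul_pow _ _ _
        _ ≤ 2 ^ m * (1 + x ^ m) := by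
          nlinarith [pow_pos (show (0 : ℝ) < 2 by norm_num) m]
  rw [Real.exp_neg, ← div_eq_mul_inv, le_div_iff₀ (by positivity), inv_mul_le_iff₀ (Real.exp_pos _)]
  calc (1 + x) ^ m ≤ 2 ^ m * (1 + x ^ m) := h5
    _ ≤ 2 ^ m * (Real.exp (Real.sqrt (c * x)) +
        Nat.factorial (2 * m) / c ^ m * Real.exp (Real.sqrt (c * x))) := by gcongr
    _ = _ := by ring

lemma summable_nm_two : Summable fun k : Eis => ((1 + nm k : ℝ) ^ 2)⁻¹ := by
  have h0 := (summable_eis (b := 4) (by norm_num)).mul_left 4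
  refine Summable.of_nonneg_of_le (fun k => by positivity) (fun k => ?_) h0
  have hn : (0 : ℝ) ≤ nm k := by positivity
  have h1 : (0 : ℝ) < 1 + ‖toC k‖ := by positivity
  rw [Real.rpow_neg h1.le, ← div_eq_mul_inv, ← one_div, div_le_div_iff₀ (by positivity)
    (Real.rpow_pos_of_pos h1 4)]
  have h4 : (1 + ‖toC k‖) ^ (4 : ℝ) = (1 + ‖toC k‖) ^ 4 := by
    rw [← Real.rpow_natCast]; norm_num
  rw [h4]
  have h5 : ‖toC k‖ ^ 2 = nm k := norm_toC_sq k
  have h6 : (1 + ‖toC k‖) ^ 2 ≤ 2 * (1 + nm k) := by nlinarith [sq_nonneg (‖toC k‖ - 1)]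
  have h8 := pow_le_pow_left₀ (by positivity) h6 2
  nlinarith

/-- the error coefficients -/
lemma summable_err (K c : ℝ) (hc : 0 < c) :
    Summable fun k : Eis => |K| * (1 + nm k : ℝ) ^ K * Real.exp (-Real.sqrt (c * nm k)) := by
  obtain ⟨m, hm⟩ := exists_nat_ge (K + 2)
  obtain ⟨C, hC, hb⟩ := exp_neg_sqrt_le c hc m
  refine Summable.of_nonneg_of_le (fun k => by positivity) (fun k => ?_)
    (summable_nm_two.mul_left (|K| * C))
  have hn : (0 : ℝ) ≤ nm k := by positivity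
  have h1 : (1 : ℝ) ≤ 1 + nm k := by linarith
  have h2 := hb (nm k) hn
  have h3 : (1 + nm k : ℝ) ^ K * ((1 + nm k : ℝ) ^ m)⁻¹ ≤ ((1 + nm k : ℝ) ^ 2)⁻¹ := by
    rw [← Real.rpow_natCast, ← Real.rpow_natCast, ← Real.rpow_neg (by positivity),
      ← Real.rpow_neg (by positivity), ← Real.rpow_add (by positivity)]
    apply Real.rpow_le_rpow_of_exponent_le h1
    push_cast
    linarith
  calc |K| * (1 + nm k : ℝ) ^ K * Real.exp (-Real.sqrt (c * nm k))
      ≤ |K| * (1 + nm k : ℝ) ^ K * (C * ((1 + nm k : ℝ) ^ m)⁻¹) := by gcongr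
    _ = |K| * C * ((1 + nm k : ℝ) ^ K * ((1 + nm k : ℝ) ^ m)⁻¹) := by ring
    _ ≤ |K| * C * ((1 + nm k : ℝ) ^ 2)⁻¹ := by gcongr

theorem ThAs_of_PhiAs {ρ : Eis → ℂ} (H : PhiAs ρ) : ThAs ρ := by
  have key : ∀ Y : ℝ, 0 < Y → ∃ K θ : ℝ, θ < 0 ∧ ∀ D : ℝ, 1 ≤ D → ∀ h : Eis, h ≠ 0 →
      ‖Tk (Y * D) D h / ((D ^ (1 / 3 : ℝ) : ℝ) : ℂ) - ρ h * ((Jt (Y * nm h) : ℝ) : ℂ)‖ ≤
        |K| * (1 + nm h : ℝ) ^ K * Real.exp (-Real.sqrt (be0 * Y * nm h)) * D ^ θ := by
    intro Y hY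
    have hb := be0_pos
    obtain ⟨K, θ, hθ, hK⟩ := H (be0 * Y) (by positivity)
    refine ⟨K, θ - 5 / 6, by linarith, fun D hD h hh => ?_⟩
    have hD0 : 0 < D := by linarith
    have hn : (1 : ℝ) ≤ nm h := by exact_mod_cast nm_pos.2 hh
    have hb1 : be0 * Y ≤ be0 * Y * nm h := by
      have : 0 < be0 * Y := by positivity
      nlinarith
    have h1 := hK _ hb1 D hD h hh
    have h13 : 0 < D ^ (1 / 3 : ℝ) := Real.rpow_pos_of_pos hD0 _
    have h56 : 0 < D ^ (-(5 / 6) : ℝ) := Real.rpow_pos_of_pos hD0 _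
    have eJ : (∫ x in Ioi (0 : ℝ), phi (be0 * Y * nm h) x * x ^ (-(1 / 6) : ℝ)) = Jt (Y * nm h) := by
      rw [int_phi]
      unfold Jt
      simp only [mul_assoc]
    rw [eJ] at h1
    have e1 : Tk (Y * D) D h / ((D ^ (1 / 3 : ℝ) : ℝ) : ℂ) - ρ h * ((Jt (Y * nm h) : ℝ) : ℂ) =
        ((D ^ (-(5 / 6) : ℝ) : ℝ) : ℂ) * (Ph (be0 * Y * nm h) D h -
          ρ h * ((Jt (Y * nm h) * D ^ (5 / 6 : ℝ) : ℝ) : ℂ)) := by
      rw [Tk_eq_Ph hD0]
      have e2 : D ^ (-(1 / 2) : ℝ) = D ^ (-(5 / 6) : ℝ) * D ^ (1 / 3 : ℝ) := by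
        rw [← Real.rpow_add hD0]; norm_num
      have e3 : D ^ (-(5 / 6) : ℝ) * D ^ (5 / 6 : ℝ) = 1 := by
        rw [← Real.rpow_add hD0]; norm_num
      have e4 : ((D ^ (-(5 / 6) : ℝ) : ℝ) : ℂ) * ((D ^ (5 / 6 : ℝ) : ℝ) : ℂ) = 1 := by
        rw [← Complex.ofReal_mul, e3, Complex.ofReal_one]
      have h13' : ((D ^ (1 / 3 : ℝ) : ℝ) : ℂ) ≠ 0 := by exact_mod_cast h13.ne'
      rw [e2]
      push_cast
      rw [mul_sub]
      congr 1
      · field_simp
      · calc ρ h * ((Jt (Y * nm h) : ℝ) : ℂ) = ρ h * ((Jt (Y * nm h) : ℝ) : ℂ) *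
              (((D ^ (-(5 / 6) : ℝ) : ℝ) : ℂ) * ((D ^ (5 / 6 : ℝ) : ℝ) : ℂ)) := by
              rw [e4, mul_one]
          _ = _ := by ring
    rw [e1, norm_mul, Complex.norm_real, Real.norm_of_nonneg h56.le]
    have e5 : D ^ (-(5 / 6) : ℝ) * D ^ θ = D ^ (θ - 5 / 6) := by
      rw [← Real.rpow_add hD0]; congr 1; ring
    calc D ^ (-(5 / 6) : ℝ) * _ ≤ D ^ (-(5 / 6) : ℝ) *
          (K * (1 + nm h : ℝ) ^ K * Real.exp (-Real.sqrt (be0 * Y * nm h)) * D ^ θ) := by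
          gcongr
      _ ≤ D ^ (-(5 / 6) : ℝ) *
          (|K| * (1 + nm h : ℝ) ^ K * Real.exp (-Real.sqrt (be0 * Y * nm h)) * D ^ θ) := by
          gcongr
          exact le_abs_self K
      _ = |K| * (1 + nm h : ℝ) ^ K * Real.exp (-Real.sqrt (be0 * Y * nm h)) *
          (D ^ (-(5 / 6) : ℝ) * D ^ θ) := by ring
      _ = _ := by rw [e5]
  constructor
  · intro Y hY k hk
    obtain ⟨K, θ, hθ, hK⟩ := key Y hY
    rw [tendsto_iff_norm_sub_tendsto_zero]
    have h1 : Tendsto (fun D : ℝ => |K| * (1 + nm k : ℝ) ^ K *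
        Real.exp (-Real.sqrt (be0 * Y * nm k)) * D ^ θ) atTop
        (𝓝 (|K| * (1 + nm k : ℝ) ^ K * Real.exp (-Real.sqrt (be0 * Y * nm k)) * 0)) := by
      have h2 := tendsto_rpow_neg_atTop (y := -θ) (by linarith)
      rw [neg_neg] at h2
      exact h2.const_mul _
    rw [mul_zero] at h1
    refine squeeze_zero' (Eventually.of_forall fun _ => norm_nonneg _) ?_ h1
    filter_upwards [eventually_ge_atTop 1] with D hD
    exact hK D hD k hk
  · intro Y hY
    have hb := be0_pos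
    obtain ⟨K, θ, hθ, hK⟩ := key Y hY
    set E : Eis → ℝ := fun k => |K| * (1 + nm k : ℝ) ^ K * Real.exp (-Real.sqrt (be0 * Y * nm k)) with hE
    have hEs : Summable E := summable_err K (be0 * Y) (by positivity)
    set B : ℝ := ∑' d : Eis, ex (2 * 1) d with hB
    set r : ℝ := be0 * Y / 2 with hr
    have hms : Summable (mk r) := summable_mk (by positivity)
    refine ⟨fun k => (B * mk r k + E k) + E k, ((hms.mul_left B).add hEs).add hEs, ?_⟩
    have hT1 : ∀ k : Eis, ‖Tk (Y * 1) 1 k‖ ≤ B * mk r k := by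
      intro k
      have h1 : ∀ d : Eis, ‖tt (Y * 1) 1 k d‖ ≤ ex (2 * 1) d * mk r k := by
        intro d
        have := norm_tt_le (C := Y * 1) (D := 1) (by positivity) one_pos k d
        rw [hr]
        convert this using 3
        ring
      have h2 : Summable fun d : Eis => ex (2 * 1) d * mk r k :=
        (summable_ex (by norm_num)).mul_right _
      unfold Tk
      refine (norm_tsum_le_tsum_norm (Summable.of_nonneg_of_le (fun _ => norm_nonneg _) h1 h2)).trans ?_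
      rw [hB, ← tsum_mul_right]
      exact Summable.tsum_le_tsum h1 (Summable.of_nonneg_of_le (fun _ => norm_nonneg _) h1 h2) h2
    intro D hD k hk
    have h1 := hK D hD k hk
    have h2 := hK 1 le_rfl k hk
    rw [Real.one_rpow, mul_one, Real.one_rpow, Complex.ofReal_one, div_one] at h2
    have hE0 : 0 ≤ E k := by rw [hE]; positivity
    have h3 : D ^ θ ≤ 1 := Real.rpow_le_one_of_one_le_of_nonpos hD hθ.le
    have h4 : |K| * (1 + nm k : ℝ) ^ K * Real.exp (-Real.sqrt (be0 * Y * nm k)) * D ^ θ ≤ E k := by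
      calc _ = E k * D ^ θ := rfl
        _ ≤ E k * 1 := by gcongr
        _ = E k := mul_one _
    have h5 : ‖ρ k * ((Jt (Y * nm k) : ℝ) : ℂ)‖ ≤ B * mk r k + E k := by
      have h6 := norm_sub_norm_le (ρ k * ((Jt (Y * nm k) : ℝ) : ℂ)) (Tk (Y * 1) 1 k)
      rw [norm_sub_rev] at h6
      have h7 := hT1 k
      rw [mul_one] at h6 h7
      have h8 : E k = |K| * (1 + nm k : ℝ) ^ K * Real.exp (-Real.sqrt (be0 * Y * nm k)) := rfl
      linarith
    have h9 := norm_sub_norm_le (Tk (Y * D) D k / ((D ^ (1 / 3 : ℝ) : ℝ) : ℂ))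
      (ρ k * ((Jt (Y * nm k) : ℝ) : ℂ))
    linarith

end Crest.Agent.R012.Theta131
end
end

-- ▼ part R012/PhiAs_858
section

/-!
# Row 12, item MTH: `PhiAs` (hence `ThAs`) from the mean square theorem `MS` with general weights
-/

set_option autoImplicit false

noncomputable section

open MeasureTheory Complex Set Filter Topology

namespace Crest.Agent.R012.PhiAs858

open Crest.Agent.R012 Crest.Agent.R012.Eis Crest.Agent.R012.Theta131 Crest.Agent.R012.MSgen49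

/-! ### polynomial times exponential -/

lemma pow_mul_exp_le (n : ℕ) {c : ℝ} (hc : 0 < c) : ∃ C : ℝ, 0 < C ∧ ∀ t : ℝ, 0 ≤ t →
    (1 + t) ^ n * Real.exp (-(c * t)) ≤ C := by
  refine ⟨n.factorial / c ^ n * Real.exp c, by positivity, fun t ht => ?_⟩
  have h1 : (c * (1 + t)) ^ n / n.factorial ≤ Real.exp (c * (1 + t)) :=
    Real.pow_div_factorial_le_exp _ (by positivity) _
  have hf : (0 : ℝ) < n.factorial := by positivity
  have hcn : (0 : ℝ) < c ^ n := by positivity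
  rw [div_le_iff₀ hf, mul_pow] at h1
  have h2 : (1 + t) ^ n ≤ n.factorial / c ^ n * Real.exp (c * (1 + t)) := by
    rw [div_mul_eq_mul_div, le_div_iff₀ hcn]
    linarith
  calc (1 + t) ^ n * Real.exp (-(c * t))
      ≤ (n.factorial / c ^ n * Real.exp (c * (1 + t))) * Real.exp (-(c * t)) := by gcongr
    _ = n.factorial / c ^ n * Real.exp c := by
      rw [mul_assoc, ← Real.exp_add]
      congr 2
      ring

/-! ### the chain of derivatives -/

/-- `E(u) = exp(-u/2 - e^u - b e^(-u))` -/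
def EE0 (b u : ℝ) : ℝ := Real.exp (-(1 / 2) * u - Real.exp u - b * Real.exp (-u))

def g0 (b u : ℝ) : ℝ := -(1 / 2) - Real.exp u + b * Real.exp (-u)
def g1 (b u : ℝ) : ℝ := -Real.exp u - b * Real.exp (-u)
def g2 (b u : ℝ) : ℝ := -Real.exp u + b * Real.exp (-u)

def E1 (b u : ℝ) : ℝ := g0 b u * EE0 b u
def E2 (b u : ℝ) : ℝ := (g1 b u + g0 b u ^ 2) * EE0 b u
def E3 (b u : ℝ) : ℝ := (g2 b u + 3 * (g0 b u * g1 b u) + g0 b u ^ 3) * EE0 b u

lemma hd_neg (u : ℝ) : HasDerivAt (fun u : ℝ => Real.exp (-u)) (-Real.exp (-u)) u := by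
  have := (hasDerivAt_neg u).exp
  simpa using this

lemma hd_E0 (b u : ℝ) : HasDerivAt (EE0 b) (E1 b u) u := by
  have h1 : HasDerivAt (fun u : ℝ => -(1 / 2) * u - Real.exp u - b * Real.exp (-u))
      (-(1 / 2) * 1 - Real.exp u - b * (-Real.exp (-u))) u :=
    (((hasDerivAt_id u).const_mul _).sub (Real.hasDerivAt_exp u)).sub ((hd_neg u).const_mul b)
  have h2 := h1.exp
  unfold EE0 E1
  convert h2 using 1
  unfold EE0 g0
  ring

lemma hd_g0 (b u : ℝ) : HasDerivAt (g0 b) (g1 b u) u := by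
  have h1 : HasDerivAt (fun u : ℝ => -(1 / 2) - Real.exp u + b * Real.exp (-u))
      (0 - Real.exp u + b * (-Real.exp (-u))) u :=
    ((hasDerivAt_const u _).sub (Real.hasDerivAt_exp u)).add ((hd_neg u).const_mul b)
  unfold g0 g1
  convert h1 using 1
  ring

lemma hd_g1 (b u : ℝ) : HasDerivAt (g1 b) (g2 b u) u := by
  have h1 : HasDerivAt (fun u : ℝ => -Real.exp u - b * Real.exp (-u))
      (-Real.exp u - b * (-Real.exp (-u))) u :=
    ((Real.hasDerivAt_exp u).neg).sub ((hd_neg u).const_mul b)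
  unfold g1 g2
  convert h1 using 1
  ring

lemma hd_E1 (b u : ℝ) : HasDerivAt (E1 b) (E2 b u) u := by
  have h := (hd_g0 b u).mul (hd_E0 b u)
  refine h.congr_deriv ?_
  unfold E2 E1
  ring

lemma hd_E2 (b u : ℝ) : HasDerivAt (E2 b) (E3 b u) u := by
  have h := ((hd_g1 b u).add ((hd_g0 b u).pow 2)).mul (hd_E0 b u)
  refine h.congr_deriv ?_
  unfold E3 E1
  simp only [Pi.add_apply, Pi.pow_apply, Nat.cast_ofNat]
  ring

lemma cont_E3 (b : ℝ) : Continuous (E3 b) := by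
  unfold E3 EE0 g0 g1 g2
  fun_prop

/-- the chain -/
def DD (b : ℝ) : ℕ → ℝ → ℂ
  | 0 => fun u => (EE0 b u : ℂ)
  | 1 => fun u => (E1 b u : ℂ)
  | 2 => fun u => (E2 b u : ℂ)
  | _ => fun u => (E3 b u : ℂ)

lemma abs_bounds {b : ℝ} (hb : 0 ≤ b) (u : ℝ) :
    |g0 b u| ≤ 1 + (Real.exp u + b * Real.exp (-u)) ∧
    |g1 b u| ≤ 1 + (Real.exp u + b * Real.exp (-u)) ∧
    |g2 b u| ≤ 1 + (Real.exp u + b * Real.exp (-u)) := by
  have h1 := Real.exp_pos u
  have h2 : 0 ≤ b * Real.exp (-u) := by positivity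
  unfold g0 g1 g2
  refine ⟨?_, ?_, ?_⟩ <;> rw [abs_le] <;> constructor <;> linarith

lemma poly_bounds {b : ℝ} (hb : 0 ≤ b) (u : ℝ) (j : ℕ) :
    ‖DD b j u‖ ≤ 5 * (1 + (Real.exp u + b * Real.exp (-u))) ^ 3 * EE0 b u := by
  set y : ℝ := 1 + (Real.exp u + b * Real.exp (-u)) with hy
  have hy1 : 1 ≤ y := by
    have h1 := Real.exp_pos u
    have h2 : 0 ≤ b * Real.exp (-u) := by positivity
    linarith
  obtain ⟨h0, h1, h2⟩ := abs_bounds hb u
  rw [← hy] at h0 h1 h2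
  have hE : 0 < EE0 b u := Real.exp_pos _
  have hy2 : y ≤ y ^ 2 := by nlinarith
  have hy3 : y ^ 2 ≤ y ^ 3 := by nlinarith [sq_nonneg y]
  have key : ∀ p : ℝ, |p| ≤ 5 * y ^ 3 → ‖((p * EE0 b u : ℝ) : ℂ)‖ ≤ 5 * y ^ 3 * EE0 b u := by
    intro p hp
    rw [Complex.norm_real, norm_mul, Real.norm_eq_abs, Real.norm_eq_abs, abs_of_pos hE]
    gcongr
  have h02 : |g0 b u ^ 2| ≤ y ^ 2 := by
    rw [abs_pow]; exact pow_le_pow_left₀ (abs_nonneg _) h0 2
  have h03 : |g0 b u ^ 3| ≤ y ^ 3 := by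
    rw [abs_pow]; exact pow_le_pow_left₀ (abs_nonneg _) h0 3
  have h01 : |g0 b u * g1 b u| ≤ y ^ 2 := by
    rw [abs_mul, sq]; exact mul_le_mul h0 h1 (abs_nonneg _) (by linarith)
  match j with
  | 0 =>
    have := key 1 (by rw [abs_one]; linarith)
    simpa [DD] using this
  | 1 => exact key _ (by linarith)
  | 2 =>
    refine key _ ((abs_add_le _ _).trans ?_)
    linarith
  | (n + 3) =>
    refine key _ ((abs_add_le _ _).trans ?_)
    have := abs_add_le (g2 b u) (3 * (g0 b u * g1 b u))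
    rw [abs_mul 3, abs_of_pos (show (0 : ℝ) < 3 by norm_num)] at this
    linarith

lemma EE0_eq (b u : ℝ) : EE0 b u = Real.exp (-(1 / 2) * u) *
    Real.exp (-(Real.exp u + b * Real.exp (-u))) := by
  unfold EE0
  rw [← Real.exp_add]
  congr 1
  ring

/-- uniform bound with the envelope. -/
lemma env_bound {b0 : ℝ} (hb0 : 0 < b0) : ∃ C : ℝ, 0 < C ∧ ∀ b : ℝ, b0 ≤ b → ∀ u : ℝ,
    5 * (1 + (Real.exp u + b * Real.exp (-u))) ^ 3 * EE0 b u ≤
      C * Real.exp (-Real.sqrt b) * env u := by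
  obtain ⟨C1, hC1, h1⟩ := pow_mul_exp_le 3 (show (0 : ℝ) < 1 / 4 by norm_num)
  obtain ⟨C2, hC2, h2⟩ := pow_mul_exp_le 2 (show (0 : ℝ) < 1 / 4 by norm_num)
  obtain ⟨C3, hC3, h3⟩ := pow_mul_exp_le 1 (show (0 : ℝ) < b0 / 4 by positivity)
  refine ⟨5 * C1 * C2 * C3, by positivity, fun b hb u => ?_⟩
  have hb' : 0 < b := by linarith
  set x : ℝ := Real.exp u with hx
  have hx0 : 0 < x := Real.exp_pos u
  have hxi : Real.exp (-u) = x⁻¹ := Real.exp_neg u
  rw [EE0_eq, ← hx, hxi]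
  set y : ℝ := x + b * x⁻¹ with hy
  have hy0 : 0 ≤ y := by positivity
  -- AM-GM
  have hamgm : 2 * Real.sqrt b ≤ y := by
    have hs : Real.sqrt b * Real.sqrt b = b := Real.mul_self_sqrt hb'.le
    have h : 0 ≤ (x - Real.sqrt b) ^ 2 * x⁻¹ := by positivity
    have h' : (x - Real.sqrt b) ^ 2 * x⁻¹ =
        x - 2 * Real.sqrt b + (Real.sqrt b * Real.sqrt b) * x⁻¹ := by
      field_simp
      ring
    rw [hs] at h'
    linarith
  have e1 : Real.exp (-y) ≤ Real.exp (-Real.sqrt b) *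
      (Real.exp (-(1 / 4 * y)) * (Real.exp (-(1 / 4 * x)) * Real.exp (-(b0 / 4 * x⁻¹)))) := by
    rw [← Real.exp_add, ← Real.exp_add, ← Real.exp_add]
    apply Real.exp_le_exp.mpr
    have : b0 * x⁻¹ ≤ b * x⁻¹ := by gcongr
    have h5 : y = x + b * x⁻¹ := hy
    linarith
  have e2 : Real.exp (-(1 / 2) * u) ≤ 1 + x⁻¹ := by
    rw [← hxi]
    rcases le_total 0 u with h | h
    · have : Real.exp (-(1 / 2) * u) ≤ Real.exp 0 := Real.exp_le_exp.mpr (by linarith)
      rw [Real.exp_zero] at this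
      linarith [Real.exp_pos (-u)]
    · have : Real.exp (-(1 / 2) * u) ≤ Real.exp (-u) := Real.exp_le_exp.mpr (by linarith)
      linarith
  have e3 : 1 ≤ (1 + x) ^ 2 * env u := by
    unfold env
    rw [← hx, mul_div_cancel₀ _ (by positivity)]
    exact Real.one_le_rpow (by linarith [Real.exp_pos (-u)]) (by norm_num)
  have f1 := h1 y hy0
  have f2 := h2 x hx0.le
  have f3 := h3 x⁻¹ (by positivity)
  rw [pow_one] at f3
  have henv := env_pos u
  calc 5 * (1 + y) ^ 3 * (Real.exp (-(1 / 2) * u) * Real.exp (-y))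
      ≤ 5 * (1 + y) ^ 3 * ((1 + x⁻¹) * (Real.exp (-Real.sqrt b) *
        (Real.exp (-(1 / 4 * y)) * (Real.exp (-(1 / 4 * x)) * Real.exp (-(b0 / 4 * x⁻¹)))))) := by
        gcongr
    _ = 5 * ((1 + y) ^ 3 * Real.exp (-(1 / 4 * y))) * ((1 + x⁻¹) * Real.exp (-(b0 / 4 * x⁻¹))) *
        (Real.exp (-(1 / 4 * x)) * 1) * Real.exp (-Real.sqrt b) := by ring
    _ ≤ 5 * C1 * C3 * (Real.exp (-(1 / 4 * x)) * ((1 + x) ^ 2 * env u)) *
        Real.exp (-Real.sqrt b) := by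
        gcongr
    _ = 5 * C1 * C3 * ((1 + x) ^ 2 * Real.exp (-(1 / 4 * x))) * env u *
        Real.exp (-Real.sqrt b) := by ring
    _ ≤ 5 * C1 * C3 * C2 * env u * Real.exp (-Real.sqrt b) := by gcongr
    _ = _ := by ring

lemma phi_exp (b u : ℝ) : phi b (Real.exp u) = EE0 b u := by
  unfold phi EE0
  rw [← Real.exp_mul, ← Real.exp_add]
  congr 1
  rw [Real.exp_neg]
  field_simp
  ring

/-- **the weights `φ_b` are admissible**, uniformly for `b ≥ b₀`. -/
theorem logW_phi {b0 : ℝ} (hb0 : 0 < b0) : ∃ C : ℝ, 0 < C ∧ ∀ b : ℝ, b0 ≤ b →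
    LogW (fun u => ((phi b (Real.exp u) : ℝ) : ℂ)) (C * Real.exp (-Real.sqrt b)) := by
  obtain ⟨C, hC, h⟩ := env_bound hb0
  refine ⟨C, hC, fun b hb => ⟨DD b, ?_, ?_, ?_, ?_⟩⟩
  · funext u
    simp only [DD, phi_exp]
  · intro j hj u
    interval_cases j
    · exact (hd_E0 b u).ofReal_comp
    · exact (hd_E1 b u).ofReal_comp
    · exact (hd_E2 b u).ofReal_comp
  · exact Complex.continuous_ofReal.comp (cont_E3 b)
  · intro j _ u
    exact (poly_bounds (by linarith) u j).trans (h b hb u)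

/-! ### the sums -/

lemma SS_eq_Ph (b D : ℝ) (h : Eis) :
    M49.SS 0 0 (fun x => ((phi b x : ℝ) : ℂ)) h D = Ph b D h := by
  unfold M49.SS Ph
  refine tsum_congr fun d => ?_
  by_cases hd : IsPrim d
  · rw [if_pos hd, if_pos hd]
    simp [ang]
  · rw [if_neg hd, if_neg hd]

lemma mellin_phi (b : ℝ) : mellin (fun x => ((phi b x : ℝ) : ℂ))
    ((5 : ℂ) / 6 + ((0 : ℝ) : ℂ) * Complex.I) =
      ((∫ x in Ioi (0 : ℝ), phi b x * x ^ (-(1 / 6) : ℝ) : ℝ) : ℂ) := by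
  rw [mellin, ← integral_complex_ofReal]
  refine setIntegral_congr_fun measurableSet_Ioi fun x hx => ?_
  have hx' : 0 < x := hx
  simp only [smul_eq_mul]
  rw [show (5 : ℂ) / 6 + ((0 : ℝ) : ℂ) * Complex.I - 1 = ((-(1 / 6) : ℝ) : ℂ) by
    push_cast; ring, ← Complex.ofReal_cpow hx'.le, ← Complex.ofReal_mul, mul_comm]

/-- **`PhiAs` from `MS`.** -/
theorem phiAs_of_MS {ρ : Eis → ℂ} (H : M49.MS ρ) : PhiAs ρ := by
  intro b0 hb0
  obtain ⟨C, hC, hW⟩ := logW_phi hb0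
  obtain ⟨C', hC', hM⟩ := MS_gen H 0 (δ := 1 / 2) (by norm_num)
  set A : ℝ := Real.sqrt (C' * C ^ 2 * 2) with hA
  refine ⟨A + 1, 3 / 4, by norm_num, fun b hb D hD h hh => ?_⟩
  have hn : 1 ≤ nm h := nm_pos.2 hh
  have hn' : (1 : ℝ) ≤ nm h := by exact_mod_cast hn
  have hD0 : 0 < D := by linarith
  have hA0 : 0 ≤ A := Real.sqrt_nonneg _
  have h1 := hM (fun x => ((phi b x : ℝ) : ℂ)) _ (hW b hb) (nm h) D 0 hn hD0
  have h2 := (Finset.single_le_sum (f := fun h => ‖M49.SS 0 0 (fun x => ((phi b x : ℝ) : ℂ)) h D -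
      (if (0 : ℤ) = 0 then
        ρ h * mellin (fun x => ((phi b x : ℝ) : ℂ)) ((5 : ℂ) / 6 + ((0 : ℝ) : ℂ) * Complex.I) *
          (D : ℂ) ^ ((5 : ℂ) / 6 + ((0 : ℝ) : ℂ) * Complex.I) else 0)‖ ^ 2)
    (fun i _ => sq_nonneg _) (mem_ball.mpr le_rfl : h ∈ ball (nm h))).trans h1
  simp only [if_true] at h2
  rw [SS_eq_Ph, mellin_phi] at h2
  have e1 : (D : ℂ) ^ ((5 : ℂ) / 6 + ((0 : ℝ) : ℂ) * Complex.I) = ((D ^ (5 / 6 : ℝ) : ℝ) : ℂ) := by
    rw [show (5 : ℂ) / 6 + ((0 : ℝ) : ℂ) * Complex.I = ((5 / 6 : ℝ) : ℂ) by push_cast; ring,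
      ← Complex.ofReal_cpow hD0.le]
  rw [e1, mul_assoc, ← Complex.ofReal_mul] at h2
  set Z : ℂ := Ph b D h - ρ h * (((∫ x in Ioi (0 : ℝ), phi b x * x ^ (-(1 / 6) : ℝ)) *
    D ^ (5 / 6 : ℝ) : ℝ) : ℂ) with hZ
  -- right-hand side
  have h3 : C' * (C * Real.exp (-Real.sqrt b)) ^ 2 *
      ((1 + |(0 : ℝ)|) * (1 + D) * (nm h : ℝ)) ^ (1 / 2 : ℝ) * (((nm h : ℝ) + 0 ^ 2) * D) ≤
      (A * (nm h : ℝ) * Real.exp (-Real.sqrt b) * D ^ (3 / 4 : ℝ)) ^ 2 := by
    have hsq : A ^ 2 = C' * C ^ 2 * 2 := Real.sq_sqrt (by positivity)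
    have g1 : ((1 + |(0 : ℝ)|) * (1 + D) * (nm h : ℝ)) ^ (1 / 2 : ℝ) ≤
        2 * (D ^ (1 / 2 : ℝ) * (nm h : ℝ)) := by
      rw [abs_zero, add_zero, one_mul]
      calc ((1 + D) * (nm h : ℝ)) ^ (1 / 2 : ℝ)
          ≤ ((2 * 2 * D) * ((nm h : ℝ) * nm h)) ^ (1 / 2 : ℝ) := by
            apply Real.rpow_le_rpow (by positivity) _ (by norm_num)
            apply mul_le_mul _ _ (by positivity) (by positivity)
            · linarith
            · nlinarith
        _ = 2 * (D ^ (1 / 2 : ℝ) * (nm h : ℝ)) := by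
            rw [Real.mul_rpow (by positivity) (by positivity),
              Real.mul_rpow (by norm_num) hD0.le, ← Real.sqrt_eq_rpow, ← Real.sqrt_eq_rpow,
              ← Real.sqrt_eq_rpow, Real.sqrt_mul_self (by norm_num),
              Real.sqrt_mul_self (by positivity)]
            ring
    have g2 : (D ^ (3 / 4 : ℝ)) ^ 2 = D ^ (1 / 2 : ℝ) * D := by
      rw [← Real.rpow_natCast, ← Real.rpow_mul hD0.le]
      nth_rewrite 3 [← Real.rpow_one D]
      rw [← Real.rpow_add hD0]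
      norm_num
    calc C' * (C * Real.exp (-Real.sqrt b)) ^ 2 *
        ((1 + |(0 : ℝ)|) * (1 + D) * (nm h : ℝ)) ^ (1 / 2 : ℝ) * (((nm h : ℝ) + 0 ^ 2) * D)
        ≤ C' * (C * Real.exp (-Real.sqrt b)) ^ 2 * (2 * (D ^ (1 / 2 : ℝ) * (nm h : ℝ))) *
          (((nm h : ℝ) + 0 ^ 2) * D) := by gcongr
      _ = C' * C ^ 2 * 2 * ((nm h : ℝ) * Real.exp (-Real.sqrt b)) ^ 2 * (D ^ (1 / 2 : ℝ) * D) := by
          ring
      _ = _ := by rw [← hsq, ← g2]; ring
  have h4 : ‖Z‖ ≤ A * (nm h : ℝ) * Real.exp (-Real.sqrt b) * D ^ (3 / 4 : ℝ) :=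
    le_of_sq_le_sq (h2.trans h3) (by positivity)
  refine h4.trans ?_
  have h5 : (nm h : ℝ) ≤ (1 + nm h : ℝ) ^ (A + 1) := by
    calc (nm h : ℝ) ≤ (1 + nm h : ℝ) ^ (1 : ℝ) := by rw [Real.rpow_one]; linarith
      _ ≤ _ := Real.rpow_le_rpow_of_exponent_le (by linarith) (by linarith)
  gcongr
  linarith

/-- **`ThAs` from `MS`.** -/
theorem thAs_of_MS {ρ : Eis → ℂ} (H : M49.MS ρ) : ThAs ρ := ThAs_of_PhiAs (phiAs_of_MS H)

end Crest.Agent.R012.PhiAs858
end
private theorem rz_b46d280073 : type_of% @_root_.Crest.Agent.R012.PhiAs858.DD.eq_1 := @_root_.Crest.Agent.R012.PhiAs858.DD.eq_1 -- L99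
end

-- ▼ part R012/MFinal_49

/-!
# Row 12, part (M): final assembly (helper49)

* `ms_all : ∃ ρ, MS1 ρ ∧ MS ρ ∧ RhoRel ρ`
* `rho_sq : ‖ρ (u λ^j)‖² = (pC Dsf)² κ(u λ^j)`
* `rhoOne_of_thAs : MS ρ → RhoRel ρ → ThAs ρ → RhoOne ρ`
* `m_final : ∃ ρ, MS ρ ∧ RhoRel ρ ∧ RhoOne ρ`
-/

set_option autoImplicit false

noncomputable section

open MeasureTheory Complex Set Filter Topology
open Crest.Agent.R012.Eis

namespace Crest.Agent.R012.MFinal49

/-- **(M-MS), (M-R).** -/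
theorem ms_all : ∃ ρ : Eis → ℂ, M49.MS1 ρ ∧ M49.MS ρ ∧ M49.RhoRel ρ := by
  obtain ⟨ρ, hρ⟩ := TIt663.MS1_of_K1 Gram858.k1
  exact ⟨ρ, hρ, MSgen49.MS_of_MS1 hρ, K695.GramQ988.rhoRel_of_MS1 hρ⟩

lemma cubeLimit : MC.CubeLimit := Cube777.cube_limit

lemma lamish_unit_lam {u : Eis} (hu : IsUnit u) (j : ℕ) : Rho777.Lamish (u * lam ^ j) := by
  refine ⟨mul_ne_zero hu.ne_zero (pow_ne_zero _ lam_ne_zero), fun p hp hpp hd => ?_⟩
  rcases hp.dvd_or_dvd hd with h | h
  · exact hp.not_isUnit (isUnit_of_dvd_unit h hu)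
  · have h1 := hp.dvd_of_dvd_pow h
    have h2 : IsCoprime p lam := by
      have := MC.isCoprime_unit_lam isUnit_one 1 p hpp
      simpa using this.symm
    exact hp.not_isUnit (h2.isUnit_of_dvd' dvd_rfl h1)

/-- **(M-C)** absolute values of the 18 basic residues. -/
theorem rho_sq {ρ : Eis → ℂ} (hMS : M49.MS ρ) (hR : M49.RhoRel ρ) {u : Eis} (hu : IsUnit u)
    {j : ℕ} (hj : j ≤ 2) :
    ‖ρ (u * lam ^ j)‖ ^ 2 = (pC * M49.Dsf) ^ 2 * MC.kapR (u * lam ^ j) := by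
  rw [Rho777.Dsf_eq]
  refine Rho777.rho_sq_of_spec Gauss880.syG hMS hR (lamish_unit_lam hu j) (δ := 2 / 5)
    (by norm_num) (by norm_num) ?_ ?_
  · intro w v hw hv
    exact MC.first_moment_limit_unit_lam cubeLimit hw hv hu hj (by norm_num) (by norm_num)
  · intro w hw
    have := TateC413.Iw_eq hw
    rw [this]
    norm_num

lemma kapR_le_one {r : Eis} (hr : r ≠ 0) : MC.kapR r ≤ 1 := by
  unfold MC.kapR
  split_ifs
  · apply Real.rpow_le_one_of_one_le_of_nonpos _ (by norm_num)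
    exact_mod_cast nm_pos.2 hr
  · exact zero_le_one

lemma rho_one_sq {ρ : Eis → ℂ} (hMS : M49.MS ρ) (hR : M49.RhoRel ρ) :
    ‖ρ 1‖ ^ 2 = (pC * M49.Dsf) ^ 2 := by
  have := rho_sq hMS hR isUnit_one (j := 0) (by norm_num)
  simpa [MC.kapR_one] using this

lemma h18 {ρ : Eis → ℂ} (hMS : M49.MS ρ) (hR : M49.RhoRel ρ) (u : Eis) (hu : IsUnit u) (j : ℕ)
    (hj : j ≤ 2) : ‖ρ (u * lam ^ j)‖ ≤ ‖ρ 1‖ := by
  have h1 := rho_sq hMS hR hu hj
  have h2 := rho_one_sq hMS hR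
  rw [← sq_le_sq₀ (norm_nonneg _) (norm_nonneg _), h1, h2]
  have h3 := kapR_le_one (mul_ne_zero hu.ne_zero (pow_ne_zero j lam_ne_zero))
  nlinarith [sq_nonneg (pC * M49.Dsf)]

lemma h18v {ρ : Eis → ℂ} (hMS : M49.MS ρ) (hR : M49.RhoRel ρ) (u : Eis) (hu : IsUnit u) (j : ℕ)
    (hj : j ≤ 2) (h3 : ¬ 3 ∣ (u * lam ^ j).im) : ρ (u * lam ^ j) = 0 := by
  have h1 := rho_sq hMS hR hu hj
  have h4 : MC.kapR (u * lam ^ j) = 0 := by
    unfold MC.kapR; rw [if_neg h3]
  rw [h4, mul_zero] at h1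
  exact norm_eq_zero.mp (pow_eq_zero_iff (by norm_num) |>.mp h1)

lemma eps_eq_ek (k : Eis) : Theta131.eps k = MC.ek k := by
  unfold Theta131.eps MC.ek
  have h : Poisson381.s3 = Po581.iS3 := by
    unfold Poisson381.s3 Po581.iS3
    apply Complex.ext <;> simp
  rw [h]

/-- **(M-Sg)** given the asymptotics `ThAs` of helper131. -/
theorem rhoOne_of_thAs {ρ : Eis → ℂ} (hMS : M49.MS ρ) (hR : M49.RhoRel ρ)
    (hTh : Theta131.ThAs ρ) : M49.RhoOne ρ := by
  refine Sg51.rhoOne_of ?_ (Sg51.rho_one_im hMS) (rho_one_sq hMS hR)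
  obtain ⟨hle, hvan⟩ := Sg51.rho_bd hR (Sg51.rho_lam3 hMS) (h18 hMS hR) (h18v hMS hR)
  refine Sg51.rho_one_pos ρ Theta131.C00 1 Theta131.C00_pos one_pos hle hvan
    (Sg51.rho_neg hMS 1) (Sg51.rho_one_im hMS) ?_
  have hy : 0 < Sg51.y0 := by unfold Sg51.y0; norm_num
  rw [Theta131.hid_of hTh hy]
  apply tsum_congr
  intro r
  by_cases h3 : 3 ∣ r.im
  · rw [eps_eq_ek, (MC.ek_one_iff r).mpr h3, one_mul]
  · rw [hvan r h3, mul_zero]

/-- **(M), final**: the mean square theorem, the relations and the value at `1`. -/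
theorem m_final : ∃ ρ : Eis → ℂ, M49.MS ρ ∧ M49.RhoRel ρ ∧ M49.RhoOne ρ := by
  obtain ⟨ρ, _, hMS, hR⟩ := ms_all
  exact ⟨ρ, hMS, hR, rhoOne_of_thAs hMS hR (PhiAs858.thAs_of_MS hMS)⟩

end Crest.Agent.R012.MFinal49
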