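import Crest.Agent.R012.LSAdd_879
import Crest.Agent.R012.Base_666
import Crest.Agent.R012.Sym4_645

-- ▼ part R012/LSArith_879
section

/-! R012, block L1: the additive large sieve over `ℤ[ω]` (fractions with primary denominators). -/

set_option autoImplicit false
set_option linter.unusedSimpArgs false

namespace Crest.Agent.R012.LS879

open Finset Crest.Agent.R012 Crest.Agent.R012.Eis

/-! ### The additive character -/

theorem eC_eq (z : ℂ) : eC z = e (2 * z.re) := by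
  unfold eC e
  congr 1
  rw [Complex.add_conj]
  push_cast
  ring

theorem eC_add (x y : ℂ) : eC (x + y) = eC x * eC y := by
  rw [eC_eq, eC_eq, eC_eq, ← e_add]
  congr 1
  simp
  ring



theorem eC_neg (x : ℂ) : eC (-x) = (starRingEnd ℂ) (eC x) := by
  rw [eC_eq, eC_eq, ← e_neg]
  congr 1
  simp

theorem eC_toC (z : Eis) : eC (toC z) = 1 := by
  rw [eC_eq, toC_re]
  have : (2 * ((z.re : ℝ) - z.im / 2) : ℝ) = ((2 * z.re - z.im : ℤ) : ℝ) := by
    push_cast; ring
  rw [this, e_int]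

theorem eC_add_toC (x : ℂ) (z : Eis) : eC (x + toC z) = eC x := by
  rw [eC_add, eC_toC, mul_one]

/-- First coordinate of a complex number with respect to the trace form. -/
noncomputable def cx (α : ℂ) : ℝ := 2 * α.re
/-- Second coordinate. -/
noncomputable def cy (α : ℂ) : ℝ := 2 * (wC * α).re

theorem cx_sub (a b : ℂ) : cx (a - b) = cx a - cx b := by
  unfold cx
  rw [Complex.sub_re]
  ring

theorem cy_sub (a b : ℂ) : cy (a - b) = cy a - cy b := by
  unfold cy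
  rw [mul_sub, Complex.sub_re]
  ring

theorem eC_mul_eq (b : Eis) (α : ℂ) : eC (toC b * α) = e (b.re * cx α + b.im * cy α) := by
  rw [eC_eq]
  congr 1
  rw [toC_apply]
  simp [cx, cy]
  ring

/-! ### `√-3` -/

/-- `√-3 = 1 + 2ω`. -/
def s3 : Eis := 1 + 2 * w

theorem s3_sq : s3 * s3 = -3 := by
  unfold s3
  have := w_sq
  linear_combination 4 * this

theorem toC_s3 : toC s3 = ⟨0, Real.sqrt 3⟩ := by
  apply Complex.ext
  · rw [toC_re]; simp [s3, re_mul', im_mul']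
  · rw [toC_im]; simp [s3, re_mul', im_mul']

theorem nm_s3 : nm s3 = 3 := by
  have : (nm s3 : ℤ) = 3 := by rw [nm_cast]; simp [s3, re_mul', im_mul']
  exact_mod_cast this

theorem s3_ne_zero : s3 ≠ 0 := by
  intro h
  have := nm_s3
  rw [h, nm_zero] at this
  omega

theorem toC_s3_ne_zero : toC s3 ≠ 0 := by
  rw [Ne, toC_eq_zero]; exact s3_ne_zero

theorem normSq_coord (δ : ℂ) :
    Complex.normSq δ = (cx δ ^ 2 + cx δ * cy δ + cy δ ^ 2) / 3 := by
  have h3 : Real.sqrt 3 ^ 2 = 3 := Real.sq_sqrt (by norm_num)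
  rw [Complex.normSq_apply]
  unfold cx cy
  simp only [Complex.mul_re]
  have hr : wC.re = -1 / 2 := rfl
  have hi : wC.im = Real.sqrt 3 / 2 := rfl
  rw [hr, hi]
  linear_combination (-(δ.im ^ 2) / 3) * h3

/-- The dual lattice: an element of `(1/√-3) Eis` with given coordinates. -/
theorem dual_coord (m₁ m₂ : ℤ) :
    cx (toC (⟨m₁ + m₂, m₁⟩ : Eis) / toC s3) = m₁ ∧ cy (toC (⟨m₁ + m₂, m₁⟩ : Eis) / toC s3) = m₂ := by
  have h3 : Real.sqrt 3 * Real.sqrt 3 = 3 := Real.mul_self_sqrt (by norm_num)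
  have hs : Real.sqrt 3 ≠ 0 := by positivity
  have hr : wC.re = -1 / 2 := rfl
  have hi : wC.im = Real.sqrt 3 / 2 := rfl
  have hdiv : ∀ z : ℂ, z / toC s3 = ⟨z.im / Real.sqrt 3, -(z.re / Real.sqrt 3)⟩ := by
    intro z
    rw [div_eq_iff toC_s3_ne_zero, toC_s3]
    apply Complex.ext
    · simp
    · simp
  constructor
  · rw [hdiv]
    unfold cx
    simp only
    rw [toC_im]
    field_simp
  · rw [hdiv]
    unfold cy
    rw [Complex.mul_re, hr, hi]
    simp only
    rw [toC_im, toC_re]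
    push_cast
    field_simp
    ring_nf

theorem not_sep {η t : ℝ} (hη : η ≤ 1 / 2) (h : ¬ Sep η t) : |t - round t| < η := by
  by_contra hc
  push Not at hc
  apply h
  have h1 := abs_sub_round t
  rcases le_or_gt 0 (t - round t) with h0 | h0
  · rw [abs_of_nonneg h0] at hc h1
    exact ⟨round t, hc, by linarith⟩
  · rw [abs_of_neg h0] at hc h1
    refine ⟨round t - 1, ?_, ?_⟩ <;> push_cast <;> linarith

/-- Distinct fractions with primary denominators are well separated. -/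
theorem sep_of_ne {a a' q q' : Eis} {Q η : ℝ} (hq : IsPrim q) (hq' : IsPrim q')
    (hQ1 : 1 ≤ Q) (hQ : (nm q : ℝ) ≤ Q) (hQ' : (nm q' : ℝ) ≤ Q) (hη0 : 0 < η)
    (hη : η * (2 * Q) ≤ 1) (hne : ¬ q * q' ∣ a * q' - a' * q) :
    Sep η (cx (toC a / toC q) - cx (toC a' / toC q')) ∨
      Sep η (cy (toC a / toC q) - cy (toC a' / toC q')) := by
  by_contra hcon
  push Not at hcon
  obtain ⟨h1, h2⟩ := hcon
  have hη2 : η ≤ 1 / 2 := by nlinarith
  have k1 := not_sep hη2 h1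
  have k2 := not_sep hη2 h2
  set m₁ := round (cx (toC a / toC q) - cx (toC a' / toC q')) with hm1
  set m₂ := round (cy (toC a / toC q) - cy (toC a' / toC q')) with hm2
  set z : Eis := ⟨m₁ + m₂, m₁⟩ with hz
  obtain ⟨d1, d2⟩ := dual_coord m₁ m₂
  rw [← hz] at d1 d2
  have hq0 : toC q ≠ 0 := by rw [Ne, toC_eq_zero]; exact hq.ne_zero
  have hq0' : toC q' ≠ 0 := by rw [Ne, toC_eq_zero]; exact hq'.ne_zero
  set δ : ℂ := toC a / toC q - toC a' / toC q' - toC z / toC s3 with hδ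
  set n : Eis := s3 * (a * q' - a' * q) - z * (q * q') with hn
  have hnδ : toC n = toC s3 * toC q * toC q' * δ := by
    rw [hn, hδ]
    simp only [map_sub, map_mul]
    have hs3 := toC_s3_ne_zero
    field_simp
  have c1 : |cx δ| < η := by
    rw [hδ, cx_sub, cx_sub, d1]; exact k1
  have c2 : |cy δ| < η := by
    rw [hδ, cy_sub, cy_sub, d2]; exact k2
  have hns : Complex.normSq δ < η ^ 2 := by
    rw [normSq_coord]
    obtain ⟨a1, a2⟩ := abs_lt.mp c1
    obtain ⟨b1, b2⟩ := abs_lt.mp c2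
    nlinarith [sq_nonneg (cx δ - cy δ), mul_pos (sub_pos.mpr a2) (by linarith : (0 : ℝ) < cx δ + η),
      mul_pos (sub_pos.mpr b2) (by linarith : (0 : ℝ) < cy δ + η)]
  have hnn : (nm n : ℝ) < 1 := by
    rw [← normSq_toC, hnδ]
    simp only [map_mul, normSq_toC, nm_s3]
    have hQ0 : (0 : ℝ) ≤ nm q := by positivity
    have hQ0' : (0 : ℝ) ≤ nm q' := by positivity
    have hprod : (nm q : ℝ) * nm q' ≤ Q * Q := mul_le_mul hQ hQ' hQ0' (by linarith)
    have hδ0 : 0 ≤ Complex.normSq δ := Complex.normSq_nonneg _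
    have hqq : (0 : ℝ) < nm q * nm q' := by
      have := nm_pos.mpr hq.ne_zero
      have := nm_pos.mpr hq'.ne_zero
      positivity
    calc ((3 : ℕ) : ℝ) * nm q * nm q' * Complex.normSq δ = 3 * ((nm q * nm q') * Complex.normSq δ) := by
          push_cast; ring
      _ < 3 * ((nm q * nm q') * η ^ 2) := by
          have := mul_lt_mul_of_pos_left hns hqq
          linarith
      _ ≤ 3 * ((Q * Q) * η ^ 2) := by
          have := mul_le_mul_of_nonneg_right hprod (sq_nonneg η)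
          linarith
      _ ≤ 1 := by
          have : (η * (2 * Q)) ^ 2 ≤ 1 := by
            have h0 : 0 ≤ η * (2 * Q) := by positivity
            nlinarith
          nlinarith
  have hn0 : n = 0 := by
    have : nm n < 1 := by exact_mod_cast hnn
    exact nm_eq_zero.mp (by omega)
  -- arithmetic conclusion
  apply hne
  have hqq : IsPrim (q * q') := hq.mul hq'
  obtain ⟨k, hk⟩ := hqq
  have e1 : s3 * (a * q' - a' * q) = z * (q * q') := by
    rw [hn] at hn0; exact sub_eq_zero.mp hn0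
  have e2 : q * q' = 1 + 3 * k := by linear_combination hk
  -- z = s3 * t
  have e3 : z = s3 * ((a * q' - a' * q) + s3 * (k * z)) := by
    have : z * (q * q') = z + 3 * k * z := by rw [e2]; ring
    have h3 := s3_sq
    linear_combination (-1 : Eis) * e1 - this - (k * z) * h3
  refine ⟨(a * q' - a' * q) + s3 * (k * z), ?_⟩
  have e4 : s3 * (a * q' - a' * q) = s3 * (q * q' * ((a * q' - a' * q) + s3 * (k * z))) := by
    rw [e1]
    nth_rewrite 1 [e3]
    ring
  exact mul_left_cancel₀ s3_ne_zero e4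

/-- **Additive large sieve over `ℤ[ω]`, dual form.** -/
theorem add_ls_dual {ι : Type*} [DecidableEq ι] (S : Finset ι) (a q : ι → Eis) (γ : ι → ℂ)
    {Q B : ℝ} (hQ1 : 1 ≤ Q) (hB : 0 ≤ B) (hq : ∀ r ∈ S, IsPrim (q r))
    (hQ : ∀ r ∈ S, (nm (q r) : ℝ) ≤ Q)
    (hne : ∀ r ∈ S, ∀ s ∈ S, r ≠ s → ¬ q r * q s ∣ a r * q s - a s * q r)
    (c : Eis) (Bx : Finset Eis) (hBx : ∀ b ∈ Bx, (nm (b - c) : ℝ) ≤ B) :
    ∑ b ∈ Bx, ‖∑ r ∈ S, γ r * eC (toC b * toC (a r) / toC (q r))‖ ^ 2 ≤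
      33 * (B + Q ^ 2) * ∑ r ∈ S, ‖γ r‖ ^ 2 := by
  set W : ℝ := Real.sqrt (4 * Q ^ 2 + 16 * B / 3) with hW
  have hWsq : W ^ 2 = 4 * Q ^ 2 + 16 * B / 3 := Real.sq_sqrt (by positivity)
  have hW0 : 0 < W := Real.sqrt_pos.mpr (by positivity)
  have hW2 : 2 * Q ≤ W := by
    apply Real.le_sqrt_of_sq_le
    nlinarith
  set η : ℝ := W⁻¹ with hη
  have hη0 : 0 < η := inv_pos.mpr hW0
  have hηQ : η * (2 * Q) ≤ 1 := by
    rw [hη, inv_mul_le_iff₀ hW0]
    linarith
  have hη1 : η ≤ 1 := by nlinarith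
  set emb : Eis → ℤ × ℤ := fun b => (b.re, b.im) with hemb
  have hinj : Function.Injective emb := by
    intro x y hxy
    simp only [hemb, Prod.mk.injEq] at hxy
    exact ext' hxy.1 hxy.2
  have hmain := ls2_dual S (fun r => cx (toC (a r) / toC (q r))) (fun r => cy (toC (a r) / toC (q r)))
    γ hη0 hη1 (fun r hr s hs hrs => sep_of_ne (hq r hr) (hq s hs) hQ1 (hQ r hr) (hQ s hs) hη0 hηQ
      (hne r hr s hs hrs)) c.re c.im (Bx.image emb) (by
      intro b hb
      obtain ⟨x, hx, rfl⟩ := Finset.mem_image.mp hb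
      have h1 := hBx x hx
      have hcast : ((nm (x - c) : ℕ) : ℝ) = ((x.re - c.re : ℤ) : ℝ) ^ 2 -
          ((x.re - c.re : ℤ) : ℝ) * ((x.im - c.im : ℤ) : ℝ) + ((x.im - c.im : ℤ) : ℝ) ^ 2 := by
        have : ((nm (x - c) : ℕ) : ℝ) = (((nm (x - c) : ℕ) : ℤ) : ℝ) := by norm_cast
        rw [this, nm_cast]
        simp only [QuadraticAlgebra.re_sub, QuadraticAlgebra.im_sub]
        push_cast
        ring
      rw [hcast] at h1
      simp only [hemb]
      set u : ℝ := ((x.re - c.re : ℤ) : ℝ) with hu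
      set v : ℝ := ((x.im - c.im : ℤ) : ℝ) with hv
      have hu2 : u ^ 2 * 4 ≤ W ^ 2 := by rw [hWsq]; nlinarith [sq_nonneg (u - 2 * v)]
      have hv2 : v ^ 2 * 4 ≤ W ^ 2 := by rw [hWsq]; nlinarith [sq_nonneg (v - 2 * u)]
      have hau : |u| ≤ W / 2 := abs_le_of_sq_le_sq (by nlinarith) (by positivity)
      have hav : |v| ≤ W / 2 := abs_le_of_sq_le_sq (by nlinarith) (by positivity)
      constructor
      · rw [hη, mul_inv_le_iff₀ hW0]; linarith
      · rw [hη, mul_inv_le_iff₀ hW0]; linarith)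
  rw [Finset.sum_image (fun x _ y _ h => hinj h)] at hmain
  have hterm : ∀ b ∈ Bx, ‖∑ r ∈ S, γ r * eC (toC b * toC (a r) / toC (q r))‖ ^ 2 =
      ‖∑ r ∈ S, γ r * e (((emb b).1 : ℝ) * cx (toC (a r) / toC (q r)) +
        ((emb b).2 : ℝ) * cy (toC (a r) / toC (q r)))‖ ^ 2 := by
    intro b _
    congr 2
    refine sum_congr rfl fun r _ => ?_
    rw [mul_div_assoc, eC_mul_eq]
  rw [sum_congr rfl hterm]
  refine hmain.trans ?_
  refine mul_le_mul_of_nonneg_right ?_ (sum_nonneg fun _ _ => by positivity)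
  rw [hη, inv_inv, hWsq]
  have hpi4 : Real.pi ^ 4 ≤ 98 := by
    have h1 := Real.pi_lt_d4
    have h0 := Real.pi_pos
    have h2 : Real.pi ^ 2 ≤ 9.87 := by nlinarith
    nlinarith [sq_nonneg (Real.pi ^ 2)]
  nlinarith [mul_nonneg hB (by linarith : (0 : ℝ) ≤ 98 - Real.pi ^ 4),
    mul_nonneg (sq_nonneg Q) (by linarith : (0 : ℝ) ≤ 98 - Real.pi ^ 4), sq_nonneg Q]


end Crest.Agent.R012.LS879
end

-- ▼ part R012/LSChar_879
section

/-! R012, block L1: the multiplicative large sieve over `ℤ[ω]` for families of primitive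
characters with primary conductors. -/

set_option autoImplicit false
set_option linter.unusedSimpArgs false

namespace Crest.Agent.R012.LS879

open Finset Crest.Agent.R012 Crest.Agent.R012.Eis

/-! ### Residue systems -/

/-- A canonical representative of `x` modulo `f`. -/
noncomputable def rp (f x : Eis) : Eis :=
  Quotient.out (Ideal.Quotient.mk (Ideal.span ({f} : Set Eis)) x)

theorem mk_rp (f x : Eis) : Ideal.Quotient.mk (Ideal.span ({f} : Set Eis)) (rp f x) =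
    Ideal.Quotient.mk (Ideal.span ({f} : Set Eis)) x := by
  unfold rp
  exact Quotient.out_eq _

theorem rp_eq_iff {f x y : Eis} : rp f x = rp f y ↔ f ∣ x - y := by
  constructor
  · intro h
    have h2 := congrArg (Ideal.Quotient.mk (Ideal.span ({f} : Set Eis))) h
    rw [mk_rp, mk_rp, Ideal.Quotient.eq, Ideal.mem_span_singleton] at h2
    exact h2
  · intro h
    unfold rp
    congr 1
    rw [Ideal.Quotient.eq, Ideal.mem_span_singleton]
    exact h

theorem dvd_sub_rp (f x : Eis) : f ∣ x - rp f x := by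
  have h := (mk_rp f x).symm
  rwa [Ideal.Quotient.eq, Ideal.mem_span_singleton] at h

theorem rp_rp (f x : Eis) : rp f (rp f x) = rp f x := by
  rw [rp_eq_iff, ← dvd_neg, neg_sub]
  exact dvd_sub_rp f x

theorem finite_range_rp {f : Eis} (hf : f ≠ 0) : (Set.range (rp f)).Finite := by
  have hfin : Finite (Eis ⧸ Ideal.span ({f} : Set Eis)) :=
    Ideal.finiteQuotientOfFreeOfNeBot _ (by
      rw [Ne, Ideal.span_singleton_eq_bot]; exact hf)
  refine Set.Finite.subset (Set.finite_range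
    (fun q : Eis ⧸ Ideal.span ({f} : Set Eis) => Quotient.out q)) ?_
  rintro _ ⟨x, rfl⟩
  exact ⟨_, rfl⟩

open Classical in
/-- A complete residue system modulo `f ≠ 0`. -/
noncomputable def Res (f : Eis) : Finset Eis :=
  if h : f ≠ 0 then (finite_range_rp h).toFinset else ∅

theorem mem_Res {f a : Eis} (hf : f ≠ 0) : a ∈ Res f ↔ rp f a = a := by
  rw [Res, dif_pos hf, Set.Finite.mem_toFinset]
  constructor
  · rintro ⟨x, rfl⟩; exact rp_rp f x
  · intro h; exact ⟨a, h⟩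

theorem rp_mem {f : Eis} (hf : f ≠ 0) (x : Eis) : rp f x ∈ Res f := by
  rw [mem_Res hf]; exact rp_rp f x

theorem eq_of_mem_Res {f a b : Eis} (hf : f ≠ 0) (ha : a ∈ Res f) (hb : b ∈ Res f)
    (h : f ∣ a - b) : a = b := by
  rw [mem_Res hf] at ha hb
  rw [← ha, ← hb, rp_eq_iff]
  exact h

theorem sum_Res_reindex {M : Type*} [AddCommMonoid M] {f : Eis} (hf : f ≠ 0) (F : Eis → M)
    (hF : ∀ x y, f ∣ x - y → F x = F y) (φ : Eis → Eis)
    (hφ : ∀ x y, f ∣ φ x - φ y → f ∣ x - y) :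
    ∑ a ∈ Res f, F (φ a) = ∑ a ∈ Res f, F a := by
  classical
  set i : Eis → Eis := fun a => rp f (φ a) with hi
  have hinj : Set.InjOn i (Res f : Set Eis) := by
    intro a ha b hb hab
    exact eq_of_mem_Res hf ha hb (hφ _ _ (rp_eq_iff.mp hab))
  have himg : (Res f).image i = Res f := by
    apply Finset.eq_of_subset_of_card_le
    · intro x hx
      obtain ⟨a, _, rfl⟩ := Finset.mem_image.mp hx
      exact rp_mem hf _
    · rw [Finset.card_image_of_injOn hinj]
  calc ∑ a ∈ Res f, F (φ a) = ∑ a ∈ Res f, F (i a) :=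
        sum_congr rfl fun a _ => hF _ _ (dvd_sub_rp f _)
    _ = ∑ a ∈ (Res f).image i, F a := (Finset.sum_image hinj).symm
    _ = _ := by rw [himg]

theorem Res_card_pos {f : Eis} (hf : f ≠ 0) : 0 < (Res f).card :=
  Finset.card_pos.mpr ⟨rp f 0, rp_mem hf 0⟩

/-! ### Additive orthogonality -/

theorem exists_int_of_e_eq_one {x : ℝ} (h : e x = 1) : ∃ n : ℤ, x = n := by
  unfold e at h
  rw [Complex.exp_eq_one_iff] at h
  obtain ⟨n, hn⟩ := h
  refine ⟨n, ?_⟩
  have h2 : (2 * Real.pi * Complex.I : ℂ) ≠ 0 := Complex.two_pi_I_ne_zero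
  have h3 : ((x : ℝ) : ℂ) = ((n : ℤ) : ℂ) := by
    apply mul_left_cancel₀ h2
    linear_combination hn
  exact_mod_cast h3

theorem exists_eC_ne_one {f z : Eis} (hf : IsPrim f) (hz : ¬ f ∣ z) :
    ∃ t : Eis, eC (toC t * toC z / toC f) ≠ 1 := by
  by_contra hcon
  push Not at hcon
  have h1 := hcon 1
  have h2 := hcon w
  rw [mul_div_assoc, eC_mul_eq] at h1 h2
  obtain ⟨m₁, hm1⟩ := exists_int_of_e_eq_one h1
  obtain ⟨m₂, hm2⟩ := exists_int_of_e_eq_one h2
  simp only [one_re', one_im', w_re, w_im, Int.cast_one, Int.cast_zero, one_mul, zero_mul,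
    add_zero, zero_add] at hm1 hm2
  obtain ⟨d1, d2⟩ := dual_coord m₁ m₂
  set z' : Eis := ⟨m₁ + m₂, m₁⟩ with hz'
  have hdiff : toC z / toC f - toC z' / toC s3 = 0 := by
    rw [← Complex.normSq_eq_zero, normSq_coord, cx_sub, cy_sub, d1, d2, hm1, hm2]
    ring
  have hf0 : toC f ≠ 0 := by rw [Ne, toC_eq_zero]; exact hf.ne_zero
  have hs := toC_s3_ne_zero
  have h3 : toC (z * s3) = toC (z' * f) := by
    rw [map_mul, map_mul]
    have := sub_eq_zero.mp hdiff
    rw [div_eq_div_iff hf0 hs] at this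
    exact this
  have h4 : z * s3 = z' * f := toC_injective h3
  obtain ⟨k, hk⟩ := hf
  apply hz
  have h5 := s3_sq
  refine ⟨z + s3 * k * z', ?_⟩
  have : f = 1 + 3 * k := by linear_combination hk
  linear_combination (s3 * k) * h4 - k * z * h5 - z * this

open Classical in
theorem sum_eC {f z : Eis} (hf : IsPrim f) :
    ∑ a ∈ Res f, eC (toC a * toC z / toC f) = if f ∣ z then ((Res f).card : ℂ) else 0 := by
  have hf0 : toC f ≠ 0 := by rw [Ne, toC_eq_zero]; exact hf.ne_zero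
  split_ifs with h
  · obtain ⟨k, rfl⟩ := h
    rw [sum_congr rfl (g := fun _ => (1 : ℂ))]
    · simp
    · intro a _
      have : toC a * toC (f * k) / toC f = toC (a * k) := by
        rw [map_mul, map_mul]
        field_simp
      rw [this, eC_toC]
  · obtain ⟨t, ht⟩ := exists_eC_ne_one hf h
    have hre := sum_Res_reindex hf.ne_zero (fun a => eC (toC a * toC z / toC f))
      (by
        rintro x y ⟨k, hk⟩
        have : x = y + f * k := by linear_combination hk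
        rw [this]
        have h2 : toC (y + f * k) * toC z / toC f = toC y * toC z / toC f + toC (k * z) := by
          simp only [map_add, map_mul]
          field_simp
        rw [h2, eC_add_toC]) (fun a => a + t) (by
        intro x y hxy
        simpa using hxy)
    have h3 : ∀ a ∈ Res f, eC (toC (a + t) * toC z / toC f) =
        eC (toC t * toC z / toC f) * eC (toC a * toC z / toC f) := by
      intro a _
      rw [← eC_add, map_add]
      congr 1
      ring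
    rw [sum_congr rfl h3, ← mul_sum] at hre
    have h4 : (eC (toC t * toC z / toC f) - 1) *
        ∑ a ∈ Res f, eC (toC a * toC z / toC f) = 0 := by
      rw [sub_mul, hre, one_mul, sub_self]
    rcases mul_eq_zero.mp h4 with h5 | h5
    · exact absurd (sub_eq_zero.mp h5) ht
    · exact h5

/-! ### Primitive characters -/

/-- `χ` is a primitive multiplicative character modulo the primary element `f`. -/
structure IsPrimChar (f : Eis) (χ : Eis → ℂ) : Prop where
  prim : IsPrim f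
  one : χ 1 = 1
  mul : ∀ x y, χ (x * y) = χ x * χ y
  per : ∀ x y, f ∣ x - y → χ x = χ y
  bd : ∀ x, ‖χ x‖ ≤ 1
  primitive : ∀ d k, f = d * k → ¬ IsUnit d → ∃ y, IsCoprime y f ∧ k ∣ y - 1 ∧ χ y ≠ 1

theorem IsPrimChar.norm_eq_one {f : Eis} {χ : Eis → ℂ} (h : IsPrimChar f χ) {x : Eis}
    (hx : IsCoprime x f) : ‖χ x‖ = 1 := by
  obtain ⟨u, v, huv⟩ := hx
  have h1 : χ (u * x) = 1 := by
    rw [← h.one]
    apply h.per
    exact ⟨-v, by linear_combination huv⟩
  rw [h.mul] at h1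
  have h2 : ‖χ u‖ * ‖χ x‖ = 1 := by rw [← norm_mul, h1, norm_one]
  have h3 := h.bd u
  have h4 := h.bd x
  have h5 := norm_nonneg (χ u)
  have h6 := norm_nonneg (χ x)
  nlinarith

theorem exists_common_factor {a f : Eis} (h : ¬ IsCoprime a f) :
    ∃ d k, f = d * k ∧ d ∣ a ∧ ¬ IsUnit d := by
  refine ⟨EuclideanDomain.gcd a f, ?_⟩
  obtain ⟨k, hk⟩ := EuclideanDomain.gcd_dvd_right a f
  refine ⟨k, hk, EuclideanDomain.gcd_dvd_left a f, ?_⟩
  rw [EuclideanDomain.gcd_isUnit_iff]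
  exact h

theorem IsPrimChar.eq_zero {f : Eis} {χ : Eis → ℂ} (h : IsPrimChar f χ) {x : Eis}
    (hx : ¬ IsCoprime x f) : χ x = 0 := by
  obtain ⟨d, k, hf, ⟨m, hm⟩, hd⟩ := exists_common_factor hx
  obtain ⟨y, _, ⟨n, hn⟩, hy1⟩ := h.primitive d k hf hd
  have h1 : χ (x * y) = χ x := by
    apply h.per
    refine ⟨m * n, ?_⟩
    rw [hf, hm]
    linear_combination (d * m) * hn
  rw [h.mul] at h1
  have h2 : χ x * (χ y - 1) = 0 := by linear_combination h1
  rcases mul_eq_zero.mp h2 with h3 | h3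
  · exact h3
  · exact absurd (sub_eq_zero.mp h3) hy1

theorem dvd_of_dvd_mul_coprime {f y x x' : Eis} (hy : IsCoprime y f)
    (h : f ∣ x * y - x' * y) : f ∣ x - x' := by
  rw [← sub_mul] at h
  exact hy.symm.dvd_of_dvd_mul_right h

theorem IsPrimChar.orth {f : Eis} {χ χ' : Eis → ℂ} (h : IsPrimChar f χ) (h' : IsPrimChar f χ')
    (hne : χ ≠ χ') : ∑ x ∈ Res f, χ x * (starRingEnd ℂ) (χ' x) = 0 := by
  have hex : ∃ y, χ y ≠ χ' y := by
    by_contra hcon
    push Not at hcon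
    exact hne (funext hcon)
  obtain ⟨y, hy⟩ := hex
  have hyc : IsCoprime y f := by
    by_contra hcon
    rw [h.eq_zero hcon, h'.eq_zero hcon] at hy
    exact hy rfl
  have hre := sum_Res_reindex h.prim.ne_zero (fun x => χ x * (starRingEnd ℂ) (χ' x))
    (fun x x' hxx => by rw [h.per x x' hxx, h'.per x x' hxx]) (fun x => x * y)
    (fun x x' hxx => dvd_of_dvd_mul_coprime hyc hxx)
  simp only [h.mul, h'.mul, map_mul] at hre
  have h3 : ∀ x ∈ Res f, χ x * χ y * ((starRingEnd ℂ) (χ' x) * (starRingEnd ℂ) (χ' y)) =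
      (χ y * (starRingEnd ℂ) (χ' y)) * (χ x * (starRingEnd ℂ) (χ' x)) := by
    intro x _; ring
  rw [sum_congr rfl h3, ← mul_sum] at hre
  have h4 : (χ y * (starRingEnd ℂ) (χ' y) - 1) *
      ∑ x ∈ Res f, χ x * (starRingEnd ℂ) (χ' x) = 0 := by
    rw [sub_mul, hre, one_mul, sub_self]
  rcases mul_eq_zero.mp h4 with h5 | h5
  · exfalso
    apply hy
    have h6 := sub_eq_zero.mp h5
    have h7 : (starRingEnd ℂ) (χ' y) * χ' y = 1 := by
      rw [mul_comm, Complex.mul_conj', h'.norm_eq_one hyc]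
      norm_num
    calc χ y = χ y * ((starRingEnd ℂ) (χ' y) * χ' y) := by rw [h7, mul_one]
      _ = (χ y * (starRingEnd ℂ) (χ' y)) * χ' y := by ring
      _ = χ' y := by rw [h6, one_mul]
  · exact h5

/-! ### Finite Fourier expansion -/

/-- Finite Fourier coefficient. -/
noncomputable def fc (f : Eis) (χ : Eis → ℂ) (a : Eis) : ℂ :=
  1 / ((Res f).card : ℂ) * ∑ x ∈ Res f, χ x * eC (-(toC x * toC a / toC f))

theorem card_ne_zero {f : Eis} (hf : f ≠ 0) : ((Res f).card : ℂ) ≠ 0 := by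
  have := Res_card_pos hf
  exact_mod_cast this.ne'

theorem fc_eq_zero {f : Eis} {χ : Eis → ℂ} (h : IsPrimChar f χ) {a : Eis}
    (ha : ¬ IsCoprime a f) : fc f χ a = 0 := by
  obtain ⟨d, k, hf, ⟨m, hm⟩, hd⟩ := exists_common_factor ha
  obtain ⟨y, hyc, ⟨n, hn⟩, hy1⟩ := h.primitive d k hf hd
  have hf0 : toC f ≠ 0 := by rw [Ne, toC_eq_zero]; exact h.prim.ne_zero
  have hre := sum_Res_reindex h.prim.ne_zero
    (fun x => χ x * eC (-(toC x * toC a / toC f)))
    (by
      intro x x' hxx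
      rw [h.per x x' hxx]
      obtain ⟨j, hj⟩ := hxx
      have : x = x' + f * j := by linear_combination hj
      rw [this]
      have h2 : -(toC (x' + f * j) * toC a / toC f) =
          -(toC x' * toC a / toC f) + toC (-(j * a)) := by
        simp only [map_add, map_mul, map_neg]
        field_simp
        ring
      rw [h2, eC_add_toC]) (fun x => x * y)
    (fun x x' hxx => dvd_of_dvd_mul_coprime hyc hxx)
  simp only [h.mul] at hre
  have h3 : ∀ x ∈ Res f, χ x * χ y * eC (-(toC (x * y) * toC a / toC f)) =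
      χ y * (χ x * eC (-(toC x * toC a / toC f))) := by
    intro x _
    have h4 : -(toC (x * y) * toC a / toC f) = -(toC x * toC a / toC f) + toC (-(x * m * n)) := by
      have hy2 : y = 1 + k * n := by linear_combination hn
      have h5 : toC f = toC d * toC k := by rw [hf, map_mul]
      have h6 : toC y = 1 + toC k * toC n := by rw [hy2, map_add, map_mul, map_one]
      have h7 : toC a = toC d * toC m := by rw [hm, map_mul]
      rw [h5] at hf0
      have hd0 := left_ne_zero_of_mul hf0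
      have hk0 := right_ne_zero_of_mul hf0
      rw [map_mul, map_neg, map_mul, map_mul, h5, h6, h7]
      field_simp
      ring
    rw [h4, eC_add_toC]
    ring
  rw [sum_congr rfl h3, ← mul_sum] at hre
  have h4 : (χ y - 1) * ∑ x ∈ Res f, χ x * eC (-(toC x * toC a / toC f)) = 0 := by
    rw [sub_mul, hre, one_mul, sub_self]
  rcases mul_eq_zero.mp h4 with h5 | h5
  · exact absurd (sub_eq_zero.mp h5) hy1
  · unfold fc
    rw [h5, mul_zero]

open Classical in
/-- Fourier inversion. -/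
theorem fc_expand {f : Eis} {χ : Eis → ℂ} (h : IsPrimChar f χ) (b : Eis) :
    χ b = ∑ a ∈ Res f, fc f χ a * eC (toC b * toC a / toC f) := by
  have hf0 : toC f ≠ 0 := by rw [Ne, toC_eq_zero]; exact h.prim.ne_zero
  have hc := card_ne_zero h.prim.ne_zero
  unfold fc
  have h1 : ∑ a ∈ Res f, 1 / ((Res f).card : ℂ) *
      (∑ x ∈ Res f, χ x * eC (-(toC x * toC a / toC f))) * eC (toC b * toC a / toC f) =
      1 / ((Res f).card : ℂ) * ∑ x ∈ Res f, χ x *
        ∑ a ∈ Res f, eC (toC a * toC (b - x) / toC f) := by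
    rw [mul_sum]
    simp_rw [mul_sum, sum_mul]
    rw [sum_comm]
    refine sum_congr rfl fun x _ => sum_congr rfl fun a _ => ?_
    have : eC (toC a * toC (b - x) / toC f) =
        eC (-(toC x * toC a / toC f)) * eC (toC b * toC a / toC f) := by
      rw [← eC_add]
      congr 1
      rw [map_sub]
      ring
    rw [this]
    ring
  rw [h1]
  simp_rw [sum_eC h.prim]
  have h2 : ∑ x ∈ Res f, χ x * (if f ∣ b - x then ((Res f).card : ℂ) else 0) =
      χ b * (Res f).card := by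
    rw [Finset.sum_eq_single (rp f b)]
    · rw [if_pos (dvd_sub_rp f b)]
      congr 1
      exact (h.per _ _ (dvd_sub_rp f b)).symm
    · intro x hx hne
      rw [if_neg, mul_zero]
      intro hdvd
      apply hne
      refine eq_of_mem_Res h.prim.ne_zero hx (rp_mem h.prim.ne_zero b) ?_
      have := dvd_sub (dvd_sub_rp f b) hdvd
      have e1 : b - rp f b - (b - x) = x - rp f b := by ring
      rwa [e1] at this
    · intro hn
      exact absurd (rp_mem h.prim.ne_zero b) hn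
  rw [h2]
  field_simp

open Classical in
/-- Plancherel. -/
theorem fc_plancherel {f : Eis} (hf : IsPrim f) (χ χ' : Eis → ℂ) :
    ∑ a ∈ Res f, fc f χ a * (starRingEnd ℂ) (fc f χ' a) =
      1 / ((Res f).card : ℂ) * ∑ x ∈ Res f, χ x * (starRingEnd ℂ) (χ' x) := by
  have hf0 : toC f ≠ 0 := by rw [Ne, toC_eq_zero]; exact hf.ne_zero
  have hc := card_ne_zero hf.ne_zero
  have h1 : ∀ a ∈ Res f, fc f χ a * (starRingEnd ℂ) (fc f χ' a) =
      (1 / ((Res f).card : ℂ)) ^ 2 * ∑ x ∈ Res f, ∑ x' ∈ Res f,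
        χ x * (starRingEnd ℂ) (χ' x') * eC (toC a * toC (x' - x) / toC f) := by
    intro a _
    unfold fc
    rw [map_mul, map_sum, map_div₀, map_one, map_natCast]
    have : (1 / ((Res f).card : ℂ) * ∑ x ∈ Res f, χ x * eC (-(toC x * toC a / toC f))) *
        (1 / ((Res f).card : ℂ) * ∑ x ∈ Res f, (starRingEnd ℂ)
          (χ' x * eC (-(toC x * toC a / toC f)))) =
        (1 / ((Res f).card : ℂ)) ^ 2 * ((∑ x ∈ Res f, χ x * eC (-(toC x * toC a / toC f))) *
          (∑ x ∈ Res f, (starRingEnd ℂ) (χ' x * eC (-(toC x * toC a / toC f))))) := by ring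
    rw [this, sum_mul_sum]
    congr 1
    refine sum_congr rfl fun x _ => sum_congr rfl fun x' _ => ?_
    rw [map_mul, ← eC_neg, neg_neg]
    have : eC (toC a * toC (x' - x) / toC f) =
        eC (-(toC x * toC a / toC f)) * eC (toC x' * toC a / toC f) := by
      rw [← eC_add]
      congr 1
      rw [map_sub]
      ring
    rw [this]
    ring
  rw [sum_congr rfl h1, ← mul_sum, sum_comm]
  have h2 : ∀ x ∈ Res f, ∑ a ∈ Res f, ∑ x' ∈ Res f,
      χ x * (starRingEnd ℂ) (χ' x') * eC (toC a * toC (x' - x) / toC f) =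
      (Res f).card * (χ x * (starRingEnd ℂ) (χ' x)) := by
    intro x hx
    rw [sum_comm]
    simp_rw [← mul_sum, sum_eC hf]
    rw [Finset.sum_eq_single x]
    · rw [if_pos (by simp)]
      ring
    · intro x' hx' hne
      rw [if_neg, mul_zero]
      intro hdvd
      exact hne (eq_of_mem_Res hf.ne_zero hx' hx hdvd)
    · intro hn; exact absurd hx hn
  rw [sum_congr rfl h2, ← mul_sum]
  field_simp

/-! ### The large sieve for primitive characters -/

/-- **Multiplicative large sieve, dual form.** -/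
theorem mult_ls_dual {ι : Type*} [DecidableEq ι] (H : Finset ι) (f : ι → Eis)
    (χ : ι → Eis → ℂ) (γ : ι → ℂ) {Q B : ℝ} (hQ1 : 1 ≤ Q) (hB : 0 ≤ B)
    (hχ : ∀ h ∈ H, IsPrimChar (f h) (χ h)) (hQ : ∀ h ∈ H, (nm (f h) : ℝ) ≤ Q)
    (hdist : ∀ h ∈ H, ∀ h' ∈ H, h ≠ h' → f h = f h' → χ h ≠ χ h')
    (c : Eis) (Bx : Finset Eis) (hBx : ∀ b ∈ Bx, (nm (b - c) : ℝ) ≤ B) :
    ∑ b ∈ Bx, ‖∑ h ∈ H, γ h * χ h b‖ ^ 2 ≤ 33 * (B + Q ^ 2) * ∑ h ∈ H, ‖γ h‖ ^ 2 := by
  classical
  set 𝓕 : Finset Eis := H.image f with h𝓕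
  have h𝓕p : ∀ g ∈ 𝓕, IsPrim g ∧ (nm g : ℝ) ≤ Q := by
    intro g hg
    obtain ⟨h, hh, rfl⟩ := Finset.mem_image.mp hg
    exact ⟨(hχ h hh).prim, hQ h hh⟩
  set S : Finset (Σ _ : Eis, Eis) :=
    𝓕.sigma (fun g => (Res g).filter (fun a => IsCoprime a g)) with hS
  set Γ : (Σ _ : Eis, Eis) → ℂ := fun p =>
    ∑ h ∈ H.filter (fun h => f h = p.1), γ h * fc p.1 (χ h) p.2 with hΓ
  have hadd := add_ls_dual S (fun p => p.2) (fun p => p.1) Γ hQ1 hB
    (fun p hp => (h𝓕p p.1 (Finset.mem_sigma.mp hp).1).1)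
    (fun p hp => (h𝓕p p.1 (Finset.mem_sigma.mp hp).1).2)
    (by
      rintro ⟨g, a⟩ hp ⟨g', a'⟩ hp' hne hdvd
      obtain ⟨hg, ha⟩ := Finset.mem_sigma.mp hp
      obtain ⟨hg', ha'⟩ := Finset.mem_sigma.mp hp'
      obtain ⟨haR, hac⟩ := Finset.mem_filter.mp ha
      obtain ⟨haR', hac'⟩ := Finset.mem_filter.mp ha'
      have hgp := (h𝓕p g hg).1
      have hgp' := (h𝓕p g' hg').1
      have h1 : g ∣ a * g' := by
        have h2 : g ∣ a * g' - a' * g := (dvd_mul_right g g').trans hdvd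
        have h3 : g ∣ a' * g := dvd_mul_left g a'
        have := dvd_add h2 h3
        simpa using this
      have h2 : g ∣ g' := hac.symm.dvd_of_dvd_mul_left h1
      have h3 : g' ∣ a' * g := by
        have h2 : g' ∣ a * g' - a' * g := (dvd_mul_left g' g).trans hdvd
        have h3 : g' ∣ a * g' := dvd_mul_left g' a
        have := dvd_sub h3 h2
        simpa using this
      have h4 : g' ∣ g := hac'.symm.dvd_of_dvd_mul_left h3
      have h5 : g = g' := hgp.eq_of_associated hgp' (associated_of_dvd_dvd h2 h4)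
      subst h5
      apply hne
      have h6 : g ∣ a - a' := by
        have h7 : g * g ∣ g * (a - a') := by
          have : a * g - a' * g = g * (a - a') := by ring
          rwa [this] at hdvd
        exact (mul_dvd_mul_iff_left hgp.ne_zero).mp h7
      have h8 : a = a' := eq_of_mem_Res hgp.ne_zero haR haR' h6
      rw [h8]) c Bx hBx
  -- left side
  have hL : ∀ b ∈ Bx, ‖∑ h ∈ H, γ h * χ h b‖ ^ 2 =
      ‖∑ p ∈ S, Γ p * eC (toC b * toC p.2 / toC p.1)‖ ^ 2 := by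
    intro b _
    congr 2
    rw [hS, Finset.sum_sigma]
    rw [← Finset.sum_fiberwise_of_maps_to (s := H) (t := 𝓕) (g := f)
      (fun h hh => Finset.mem_image_of_mem f hh)]
    refine sum_congr rfl fun g hg => ?_
    have h1 : ∀ a ∈ Res g, a ∉ (Res g).filter (fun a => IsCoprime a g) →
        Γ ⟨g, a⟩ * eC (toC b * toC a / toC g) = 0 := by
      intro a ha hna
      have hnc : ¬ IsCoprime a g := fun hc => hna (Finset.mem_filter.mpr ⟨ha, hc⟩)
      rw [hΓ]
      simp only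
      rw [sum_eq_zero, zero_mul]
      intro h hh
      obtain ⟨hhH, hhf⟩ := Finset.mem_filter.mp hh
      have := hχ h hhH
      rw [hhf] at this
      rw [fc_eq_zero this hnc, mul_zero]
    rw [Finset.sum_subset (Finset.filter_subset _ _) h1]
    have h2 : ∀ h ∈ H.filter (fun h => f h = g), γ h * χ h b =
        ∑ a ∈ Res g, γ h * fc g (χ h) a * eC (toC b * toC a / toC g) := by
      intro h hh
      obtain ⟨hhH, hhf⟩ := Finset.mem_filter.mp hh
      have h3 := hχ h hhH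
      rw [hhf] at h3
      rw [fc_expand h3 b, mul_sum]
      refine sum_congr rfl fun a _ => ?_
      ring
    rw [sum_congr rfl h2, sum_comm]
    refine sum_congr rfl fun a _ => ?_
    rw [hΓ]
    simp only
    rw [sum_mul]
  rw [sum_congr rfl hL]
  refine hadd.trans ?_
  refine mul_le_mul_of_nonneg_left ?_ (by positivity)
  -- norm of Γ
  rw [hS, Finset.sum_sigma]
  rw [← Finset.sum_fiberwise_of_maps_to (s := H) (t := 𝓕) (g := f)
      (fun h hh => Finset.mem_image_of_mem f hh)]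
  refine sum_le_sum fun g hg => ?_
  have h1 : ∑ a ∈ (Res g).filter (fun a => IsCoprime a g), ‖Γ ⟨g, a⟩‖ ^ 2 ≤
      ∑ a ∈ Res g, ‖Γ ⟨g, a⟩‖ ^ 2 :=
    Finset.sum_le_sum_of_subset_of_nonneg (Finset.filter_subset _ _) fun _ _ _ => by positivity
  refine h1.trans ?_
  have hgp := (h𝓕p g hg).1
  have h2 : ((∑ a ∈ Res g, ‖Γ ⟨g, a⟩‖ ^ 2 : ℝ) : ℂ) =
      ∑ h ∈ H.filter (fun h => f h = g), ((‖γ h‖ ^ 2 *
        (1 / ((Res g).card : ℝ) * ∑ x ∈ Res g, ‖χ h x‖ ^ 2) : ℝ) : ℂ) := by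
    push_cast
    have h3 : ∀ a ∈ Res g, ((‖Γ ⟨g, a⟩‖ : ℂ)) ^ 2 =
        ∑ h ∈ H.filter (fun h => f h = g), ∑ h' ∈ H.filter (fun h => f h = g),
          (γ h * (starRingEnd ℂ) (γ h')) * (fc g (χ h) a * (starRingEnd ℂ) (fc g (χ h') a)) := by
      intro a _
      rw [← Complex.mul_conj', hΓ]
      simp only
      rw [map_sum, sum_mul_sum]
      refine sum_congr rfl fun h _ => sum_congr rfl fun h' _ => ?_
      rw [map_mul]
      ring
    rw [sum_congr rfl h3, sum_comm]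
    refine sum_congr rfl fun h hh => ?_
    rw [sum_comm]
    simp_rw [← mul_sum, fc_plancherel hgp]
    obtain ⟨hhH, hhf⟩ := Finset.mem_filter.mp hh
    rw [Finset.sum_eq_single h]
    · rw [Complex.mul_conj']
      congr 2
      refine sum_congr rfl fun x _ => ?_
      rw [Complex.mul_conj']
    · intro h' hh' hne
      obtain ⟨hhH', hhf'⟩ := Finset.mem_filter.mp hh'
      have c1 := hχ h hhH
      have c2 := hχ h' hhH'
      rw [hhf] at c1
      rw [hhf'] at c2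
      rw [c1.orth c2 (hdist h hhH h' hhH' (Ne.symm hne) (hhf.trans hhf'.symm)), mul_zero, mul_zero]
    · intro hn; exact absurd hh hn
  have h3 : ∑ a ∈ Res g, ‖Γ ⟨g, a⟩‖ ^ 2 = ∑ h ∈ H.filter (fun h => f h = g), ‖γ h‖ ^ 2 *
        (1 / ((Res g).card : ℝ) * ∑ x ∈ Res g, ‖χ h x‖ ^ 2) := by
    exact_mod_cast h2
  rw [h3]
  refine sum_le_sum fun h hh => ?_
  obtain ⟨hhH, hhf⟩ := Finset.mem_filter.mp hh
  have h4 : 1 / ((Res g).card : ℝ) * ∑ x ∈ Res g, ‖χ h x‖ ^ 2 ≤ 1 := by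
    have hcp : (0 : ℝ) < (Res g).card := by exact_mod_cast Res_card_pos hgp.ne_zero
    have h5 : ∑ x ∈ Res g, ‖χ h x‖ ^ 2 ≤ ∑ x ∈ Res g, (1 : ℝ) := by
      refine sum_le_sum fun x _ => ?_
      have := (hχ h hhH).bd x
      have h0 := norm_nonneg (χ h x)
      nlinarith
    rw [sum_const, nsmul_eq_mul, mul_one] at h5
    rw [one_div, inv_mul_le_iff₀ hcp, mul_one]
    exact h5
  have h5 : 0 ≤ ‖γ h‖ ^ 2 := by positivity
  nlinarith


end Crest.Agent.R012.LS879
end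

-- ▼ part R012/LS1_879

/-! R012, block L1: the multiplicative large sieve for cubic residue symbols over `ℤ[ω]`.

* `ls_cubic`, `ls_cubic_dual` : the family `x ↦ (x/k₁) conj (x/k₂)`, `k₁ k₂` squarefree.
* `ls_num`, `ls_num_dual` : the family `b ↦ (ω^i λ^j k₁ k₂² / b)`, `b` primary. -/

set_option autoImplicit false
set_option linter.unusedSimpArgs false

namespace Crest.Agent.R012.LS879

open Finset Crest.Agent.R012 Crest.Agent.R012.Eis Crest.Agent.R012.Sym645

/-- `χ_{k₁,k₂}(x) = (x/k₁) conj (x/k₂)`. -/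
noncomputable def chi2 (k : Eis × Eis) (x : Eis) : ℂ := sy x k.1 * (starRingEnd ℂ) (sy x k.2)

/-- The index set: pairs of coprime squarefree primary elements. -/
def Good (k : Eis × Eis) : Prop :=
  IsPrim k.1 ∧ IsPrim k.2 ∧ Squarefree k.1 ∧ Squarefree k.2 ∧ IsCoprime k.1 k.2

theorem wC_ne_one : wC ≠ 1 := by
  intro h
  have := congrArg Complex.re h
  simp [wC] at this
  linarith

theorem conj_wC_ne_one : (starRingEnd ℂ) wC ≠ 1 := by
  intro h
  have := congrArg Complex.re h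
  simp [wC] at this
  linarith

theorem wC_ne_conj : wC ≠ (starRingEnd ℂ) wC := by
  intro h
  have := congrArg Complex.im h
  have h3 : 0 < Real.sqrt 3 := by positivity
  simp [wC] at this
  linarith

theorem exists_sy_eq_wC {p : Eis} (hp : Prime p) (hp3 : nm p % 3 = 1) : ∃ x, sy x p = wC := by
  have : Fact (Prime p) := ⟨hp⟩
  obtain ⟨x, hx⟩ := exists_cu_eq_w (p := p) hp3
  exact ⟨x, by rw [sy_prime_cu _ hp, hx, toC_w]⟩

theorem exists_local {p m : Eis} (hp : Prime p) (hp3 : nm p % 3 = 1) (hm : IsCoprime p m) :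
    ∃ y, sy y p = wC ∧ m ∣ y - 1 ∧ IsCoprime y (p * m) := by
  obtain ⟨x, hx⟩ := exists_sy_eq_wC hp hp3
  obtain ⟨u, v, huv⟩ := hm
  refine ⟨x * (v * m) + u * p, ?_, ⟨x * v - v, ?_⟩, ?_⟩
  · rw [← hx]
    apply sy_congr hp3
    refine ⟨u - x * u, ?_⟩
    linear_combination x * huv
  · linear_combination huv
  · have h1 : IsCoprime (x * (v * m) + u * p) p := by
      by_contra hcon
      have h0 := (sy_eq_zero_iff hp3).mpr hcon
      have h2 : sy (x * (v * m) + u * p) p = wC := by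
        rw [← hx]
        apply sy_congr hp3
        refine ⟨u - x * u, ?_⟩
        linear_combination x * huv
      rw [h2] at h0
      exact wC_ne_zero h0
    have h2 : IsCoprime (x * (v * m) + u * p) m := by
      refine ⟨1, v - x * v, ?_⟩
      linear_combination huv
    exact h1.mul_right h2

theorem sy_eq_one_of_dvd {c y : Eis} (hc : nm c % 3 = 1) (h : c ∣ y - 1) : sy y c = 1 := by
  rw [sy_congr hc h, sy_one_left hc]

theorem chi2_local_left {p c k₂ y : Eis} (h1 : IsPrim (p * c)) (h2 : IsPrim k₂)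
    (hy : sy y p = wC) (hd : c * k₂ ∣ y - 1) : chi2 (p * c, k₂) y = wC := by
  have hn := nm_mod_of_mul (prim_nm_mod h1)
  have hp0 : p ≠ 0 := ne_zero_of_nm_mod hn.1
  have hc0 : c ≠ 0 := ne_zero_of_nm_mod hn.2
  unfold chi2
  simp only
  rw [sy_mul_right _ hp0 hc0, hy, sy_eq_one_of_dvd hn.2 ((dvd_mul_right _ _).trans hd),
    sy_eq_one_of_dvd (prim_nm_mod h2) ((dvd_mul_left _ _).trans hd)]
  simp

theorem chi2_local_right {p c k₁ y : Eis} (h1 : IsPrim k₁) (h2 : IsPrim (p * c))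
    (hy : sy y p = wC) (hd : k₁ * c ∣ y - 1) : chi2 (k₁, p * c) y = (starRingEnd ℂ) wC := by
  have hn := nm_mod_of_mul (prim_nm_mod h2)
  have hp0 : p ≠ 0 := ne_zero_of_nm_mod hn.1
  have hc0 : c ≠ 0 := ne_zero_of_nm_mod hn.2
  unfold chi2
  simp only
  rw [sy_mul_right _ hp0 hc0, hy, sy_eq_one_of_dvd hn.2 ((dvd_mul_left _ _).trans hd),
    sy_eq_one_of_dvd (prim_nm_mod h1) ((dvd_mul_right _ _).trans hd)]
  simp

theorem coprime_of_squarefree_mul {p c : Eis} (hp : Prime p) (h : Squarefree (p * c)) :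
    IsCoprime p c := by
  apply isCoprime_of_prime_not_dvd hp
  rintro ⟨t, rfl⟩
  exact hp.not_isUnit (h p ⟨t, by ring⟩)

theorem exists_prime_dvd {d : Eis} (hd : ¬ IsUnit d) (h0 : d ≠ 0) : ∃ p, Prime p ∧ p ∣ d := by
  obtain ⟨p, hp, hpd⟩ := WfDvdMonoid.exists_irreducible_factor hd h0
  exact ⟨p, hp.prime, hpd⟩

theorem chi2_isPrimChar {k : Eis × Eis} (hk : Good k) : IsPrimChar (k.1 * k.2) (chi2 k) := by
  obtain ⟨k₁, k₂⟩ := k
  obtain ⟨h1, h2, s1, s2, hc⟩ := hk
  simp only at h1 h2 s1 s2 hc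
  have n1 := prim_nm_mod h1
  have n2 := prim_nm_mod h2
  refine ⟨h1.mul h2, ?_, ?_, ?_, ?_, ?_⟩
  · simp [chi2, sy_one_left n1, sy_one_left n2]
  · intro x y
    simp only [chi2, sy_mul_left n1, sy_mul_left n2, map_mul]
    ring
  · intro x y hxy
    simp only [chi2]
    rw [sy_congr n1 ((dvd_mul_right _ _).trans hxy), sy_congr n2 ((dvd_mul_left _ _).trans hxy)]
  · intro x
    simp only [chi2, norm_mul, Complex.norm_conj]
    have a1 := norm_sy_le_one n1 x
    have a2 := norm_sy_le_one n2 x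
    have b1 := norm_nonneg (sy x k₁)
    have b2 := norm_nonneg (sy x k₂)
    nlinarith
  · intro d k hdk hd
    simp only at hdk
    have hf0 : k₁ * k₂ ≠ 0 := (h1.mul h2).ne_zero
    have hd0 : d ≠ 0 := by
      rintro rfl
      rw [zero_mul] at hdk
      exact hf0 hdk
    obtain ⟨p, hp, d', rfl⟩ := exists_prime_dvd hd hd0
    have hpf : p ∣ k₁ * k₂ := ⟨d' * k, by rw [hdk]; ring⟩
    rcases hp.dvd_or_dvd hpf with ⟨c, rfl⟩ | ⟨c, rfl⟩
    · have hcop1 : IsCoprime p c := coprime_of_squarefree_mul hp s1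
      have hcop2 : IsCoprime p k₂ := hc.of_mul_left_left
      obtain ⟨y, y1, y2, y3⟩ := exists_local hp (nm_mod_of_mul n1).1 (hcop1.mul_right hcop2)
      refine ⟨y, ?_, ?_, ?_⟩
      · rwa [← mul_assoc] at y3
      · have h3 : d' * k = c * k₂ := by
          apply mul_left_cancel₀ hp.ne_zero
          linear_combination -hdk
        have h4 : k ∣ c * k₂ := ⟨d', by rw [← h3]; ring⟩
        exact h4.trans y2
      · rw [chi2_local_left h1 h2 y1 y2]
        exact wC_ne_one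
    · have hcop1 : IsCoprime p c := coprime_of_squarefree_mul hp s2
      have hcop2 : IsCoprime p k₁ := hc.symm.of_mul_left_left
      obtain ⟨y, y1, y2, y3⟩ := exists_local hp (nm_mod_of_mul n2).1 (hcop2.mul_right hcop1)
      refine ⟨y, ?_, ?_, ?_⟩
      · have : k₁ * (p * c) = p * (k₁ * c) := by ring
        simp only
        rw [this]
        exact y3
      · have h3 : d' * k = k₁ * c := by
          apply mul_left_cancel₀ hp.ne_zero
          linear_combination -hdk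
        have h4 : k ∣ k₁ * c := ⟨d', by rw [← h3]; ring⟩
        exact h4.trans y2
      · rw [chi2_local_right h1 h2 y1 y2]
        exact conj_wC_ne_one

theorem coprime_of_chi2_eq {k k' : Eis × Eis} (hk : Good k) (hk' : Good k')
    (hf : k.1 * k.2 = k'.1 * k'.2) (hχ : chi2 k = chi2 k') : IsCoprime k.1 k'.2 := by
  obtain ⟨k₁, k₂⟩ := k
  obtain ⟨l₁, l₂⟩ := k'
  obtain ⟨h1, h2, s1, s2, hc⟩ := hk
  obtain ⟨g1, g2, t1, t2, gc⟩ := hk'
  simp only at *
  by_contra hcon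
  obtain ⟨d, k, hd1, hd2, hd3⟩ := exists_common_factor hcon
  have hd0 : d ≠ 0 := by
    rintro rfl
    exact h1.ne_zero (by simpa using hd2)
  obtain ⟨p, hp, hpd⟩ := exists_prime_dvd hd3 hd0
  obtain ⟨c, rfl⟩ := hpd.trans hd2
  obtain ⟨c', rfl⟩ := hpd.trans ⟨k, hd1⟩
  have hcop1 : IsCoprime p c := coprime_of_squarefree_mul hp s1
  have hcop2 : IsCoprime p k₂ := hc.of_mul_left_left
  obtain ⟨y, y1, y2, _⟩ := exists_local hp (nm_mod_of_mul (prim_nm_mod h1)).1
    (hcop1.mul_right hcop2)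
  have h3 : c * k₂ = l₁ * c' := by
    apply mul_left_cancel₀ hp.ne_zero
    linear_combination hf
  have e1 := chi2_local_left h1 h2 y1 y2
  have e2 := chi2_local_right g1 g2 y1 (by rw [← h3]; exact y2)
  rw [hχ, e2] at e1
  exact wC_ne_conj e1.symm

theorem chi2_injective {k k' : Eis × Eis} (hk : Good k) (hk' : Good k')
    (hf : k.1 * k.2 = k'.1 * k'.2) (hχ : chi2 k = chi2 k') : k = k' := by
  have c1 := coprime_of_chi2_eq hk hk' hf hχ
  have c2 := coprime_of_chi2_eq hk' hk hf.symm hχ.symm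
  have d1 : k.1 ∣ k'.1 := c1.dvd_of_dvd_mul_right (by rw [← hf]; exact dvd_mul_right _ _)
  have d2 : k'.1 ∣ k.1 := c2.dvd_of_dvd_mul_right (by rw [hf]; exact dvd_mul_right _ _)
  have e1 : k.1 = k'.1 := hk.1.eq_of_associated hk'.1 (associated_of_dvd_dvd d1 d2)
  have e2 : k.2 = k'.2 := by
    rw [e1] at hf
    exact mul_left_cancel₀ hk'.1.ne_zero hf
  exact Prod.ext e1 e2

/-- **Large sieve for the cubic characters `x ↦ (x/k₁) conj(x/k₂)`, dual form.** -/
theorem ls_cubic_dual (K : Finset (Eis × Eis)) (γ : Eis × Eis → ℂ) {Q B : ℝ} (hQ1 : 1 ≤ Q)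
    (hB : 0 ≤ B) (hK : ∀ k ∈ K, Good k) (hQ : ∀ k ∈ K, (nm k.1 : ℝ) * nm k.2 ≤ Q)
    (c : Eis) (T : Finset Eis) (hT : ∀ b ∈ T, (nm (b - c) : ℝ) ≤ B) :
    ∑ b ∈ T, ‖∑ k ∈ K, γ k * chi2 k b‖ ^ 2 ≤ 33 * (B + Q ^ 2) * ∑ k ∈ K, ‖γ k‖ ^ 2 := by
  classical
  refine mult_ls_dual K (fun k => k.1 * k.2) chi2 γ hQ1 hB (fun k hk => chi2_isPrimChar (hK k hk))
    (fun k hk => ?_) (fun k hk k' hk' hne hf hχ => hne (chi2_injective (hK k hk) (hK k' hk') hf hχ))
    c T hT
  rw [nm_mul]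
  push_cast
  exact hQ k hk

/-- **Large sieve for the cubic characters `x ↦ (x/k₁) conj(x/k₂)`.** -/
theorem ls_cubic (K : Finset (Eis × Eis)) (β : Eis → ℂ) {Q B : ℝ} (hQ1 : 1 ≤ Q)
    (hB : 0 ≤ B) (hK : ∀ k ∈ K, Good k) (hQ : ∀ k ∈ K, (nm k.1 : ℝ) * nm k.2 ≤ Q)
    (c : Eis) (T : Finset Eis) (hT : ∀ b ∈ T, (nm (b - c) : ℝ) ≤ B) :
    ∑ k ∈ K, ‖∑ b ∈ T, β b * chi2 k b‖ ^ 2 ≤ 33 * (B + Q ^ 2) * ∑ b ∈ T, ‖β b‖ ^ 2 :=
  duality K T chi2 (by positivity)
    (fun γ => ls_cubic_dual K γ hQ1 hB hK hQ c T hT) β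

/-! ### Numerator form -/

/-- The symbol `(ω^i λ^j k₁ k₂² / b)` for primary `b`. -/
theorem sy_num {b k₁ k₂ : Eis} (i j : ℕ) (hb : IsPrim b) (h1 : IsPrim k₁) (h2 : IsPrim k₂) :
    sy (w ^ i * lam ^ j * k₁ * k₂ ^ 2) b =
      (sy w b ^ i * sy lam b ^ j) * chi2 (k₁, k₂) b := by
  have nb := prim_nm_mod hb
  rw [sy_mul_left nb, sy_mul_left nb, sy_mul_left nb, sy_pow_left nb, sy_pow_left nb,
    sy_pow_left nb, sy_reciprocity h1 hb, sy_reciprocity h2 hb]
  have hconj : sy b k₂ ^ 2 = (starRingEnd ℂ) (sy b k₂) := by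
    have n2 := prim_nm_mod h2
    by_cases hc : IsCoprime b k₂
    · have h3 := sy_cube n2 hc
      have h4 := norm_sy_of_isCoprime n2 hc
      have h5 : sy b k₂ * (starRingEnd ℂ) (sy b k₂) = 1 := by
        rw [Complex.mul_conj', h4]; norm_num
      have h6 : sy b k₂ ≠ 0 := by
        intro h0
        rw [h0, norm_zero] at h4
        exact zero_ne_one h4
      apply mul_left_cancel₀ h6
      rw [h5, ← h3]
      ring
    · have h0 := (sy_eq_zero_iff n2).mpr hc
      rw [h0]; simp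
  rw [hconj]
  unfold chi2
  ring

theorem norm_unit_part_le {b : Eis} (i j : ℕ) (hb : IsPrim b) :
    ‖sy w b ^ i * sy lam b ^ j‖ ≤ 1 := by
  have nb := prim_nm_mod hb
  rw [norm_mul, norm_pow, norm_pow]
  have a1 : ‖sy w b‖ ^ i ≤ 1 := pow_le_one₀ (norm_nonneg _) (norm_sy_le_one nb w)
  have a2 : ‖sy lam b‖ ^ j ≤ 1 := pow_le_one₀ (norm_nonneg _) (norm_sy_le_one nb lam)
  have b1 : 0 ≤ ‖sy w b‖ ^ i := by positivity
  have b2 : 0 ≤ ‖sy lam b‖ ^ j := by positivity
  nlinarith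

/-- **Large sieve, numerator form** (conductor version): the numerators are
`ω^i λ^j k₁ k₂²`, `i, j < 3`. -/
theorem ls_num (K : Finset (ℕ × ℕ × Eis × Eis)) (β : Eis → ℂ) {Q B : ℝ} (hQ1 : 1 ≤ Q)
    (hB : 0 ≤ B) (hij : ∀ k ∈ K, k.1 < 3 ∧ k.2.1 < 3) (hK : ∀ k ∈ K, Good k.2.2)
    (hQ : ∀ k ∈ K, (nm k.2.2.1 : ℝ) * nm k.2.2.2 ≤ Q)
    (c : Eis) (T : Finset Eis) (hTp : ∀ b ∈ T, IsPrim b) (hT : ∀ b ∈ T, (nm (b - c) : ℝ) ≤ B) :
    ∑ k ∈ K, ‖∑ b ∈ T, β b * sy (w ^ k.1 * lam ^ k.2.1 * k.2.2.1 * k.2.2.2 ^ 2) b‖ ^ 2 ≤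
      297 * (B + Q ^ 2) * ∑ b ∈ T, ‖β b‖ ^ 2 := by
  classical
  -- split into the nine classes
  set I : Finset (ℕ × ℕ) := Finset.range 3 ×ˢ Finset.range 3 with hI
  set K' : Finset (Eis × Eis) := K.image (fun k => k.2.2) with hK'
  have hsub : K ⊆ (I ×ˢ K').image (fun x => (x.1.1, x.1.2, x.2)) := by
    intro k hk
    rw [Finset.mem_image]
    refine ⟨((k.1, k.2.1), k.2.2), ?_, rfl⟩
    rw [Finset.mem_product, hI, Finset.mem_product]
    obtain ⟨h1, h2⟩ := hij k hk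
    exact ⟨⟨Finset.mem_range.mpr h1, Finset.mem_range.mpr h2⟩, Finset.mem_image_of_mem _ hk⟩
  have hinj : Function.Injective (fun x : (ℕ × ℕ) × (Eis × Eis) => (x.1.1, x.1.2, x.2)) := by
    rintro ⟨⟨a, b⟩, c⟩ ⟨⟨a', b'⟩, c'⟩ h
    simp only [Prod.mk.injEq] at h
    obtain ⟨rfl, rfl, rfl⟩ := h
    rfl
  have h1 : ∑ k ∈ K, ‖∑ b ∈ T, β b * sy (w ^ k.1 * lam ^ k.2.1 * k.2.2.1 * k.2.2.2 ^ 2) b‖ ^ 2 ≤
      ∑ x ∈ I, ∑ k ∈ K', ‖∑ b ∈ T, β b * sy (w ^ x.1 * lam ^ x.2 * k.1 * k.2 ^ 2) b‖ ^ 2 := by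
    rw [← Finset.sum_product (s := I) (t := K') (f := fun x => ‖∑ b ∈ T, β b *
      sy (w ^ x.1.1 * lam ^ x.1.2 * x.2.1 * x.2.2 ^ 2) b‖ ^ 2)]
    refine (Finset.sum_le_sum_of_subset_of_nonneg hsub fun _ _ _ => by positivity).trans ?_
    rw [Finset.sum_image (fun a _ b _ h => hinj h)]
  refine h1.trans ?_
  have h2 : ∀ x ∈ I, ∑ k ∈ K', ‖∑ b ∈ T, β b * sy (w ^ x.1 * lam ^ x.2 * k.1 * k.2 ^ 2) b‖ ^ 2 ≤
      33 * (B + Q ^ 2) * ∑ b ∈ T, ‖β b‖ ^ 2 := by
    intro x _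
    have hg : ∀ k ∈ K', Good k := by
      intro k hk
      obtain ⟨t, ht, rfl⟩ := Finset.mem_image.mp hk
      exact hK t ht
    have hq : ∀ k ∈ K', (nm k.1 : ℝ) * nm k.2 ≤ Q := by
      intro k hk
      obtain ⟨t, ht, rfl⟩ := Finset.mem_image.mp hk
      exact hQ t ht
    have h3 : ∀ k ∈ K', ‖∑ b ∈ T, β b * sy (w ^ x.1 * lam ^ x.2 * k.1 * k.2 ^ 2) b‖ ^ 2 =
        ‖∑ b ∈ T, (β b * (sy w b ^ x.1 * sy lam b ^ x.2)) * chi2 k b‖ ^ 2 := by
      intro k hk
      congr 2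
      refine sum_congr rfl fun b hb => ?_
      rw [sy_num x.1 x.2 (hTp b hb) (hg k hk).1 (hg k hk).2.1]
      ring
    rw [sum_congr rfl h3]
    refine (ls_cubic K' (fun b => β b * (sy w b ^ x.1 * sy lam b ^ x.2)) hQ1 hB hg hq c T hT).trans
      ?_
    refine mul_le_mul_of_nonneg_left ?_ (by positivity)
    refine sum_le_sum fun b hb => ?_
    rw [norm_mul]
    have a1 := norm_unit_part_le x.1 x.2 (hTp b hb)
    have a2 := norm_nonneg (β b)
    have a3 := norm_nonneg (sy w b ^ x.1 * sy lam b ^ x.2)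
    have : ‖β b‖ * ‖sy w b ^ x.1 * sy lam b ^ x.2‖ ≤ ‖β b‖ := by nlinarith
    exact pow_le_pow_left₀ (by positivity) this 2
  refine (sum_le_sum h2).trans ?_
  rw [sum_const, nsmul_eq_mul]
  have hcard : I.card = 9 := by rw [hI]; rfl
  rw [hcard]
  push_cast
  apply le_of_eq
  ring

/-- The same, in the shape `∃ C`. -/
theorem ls_num_exists : ∃ C : ℝ, 0 < C ∧ ∀ Q B : ℝ, 1 ≤ Q → 1 ≤ B →
    ∀ (K : Finset (ℕ × ℕ × Eis × Eis)),
    (∀ k ∈ K, k.1 < 3 ∧ k.2.1 < 3 ∧ IsPrim k.2.2.1 ∧ IsPrim k.2.2.2 ∧ Squarefree k.2.2.1 ∧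
      Squarefree k.2.2.2 ∧ IsCoprime k.2.2.1 k.2.2.2 ∧ (nm k.2.2.1 : ℝ) * nm k.2.2.2 ≤ Q) →
    ∀ T : Finset Eis, (∀ b ∈ T, IsPrim b ∧ (nm b : ℝ) ≤ B) → ∀ β : Eis → ℂ,
    ∑ k ∈ K, ‖∑ b ∈ T, β b * sy (w ^ k.1 * lam ^ k.2.1 * k.2.2.1 * k.2.2.2 ^ 2) b‖ ^ 2 ≤
      C * (B + Q ^ 2) * ∑ b ∈ T, ‖β b‖ ^ 2 := by
  refine ⟨297, by norm_num, fun Q B hQ hB K hK T hT β => ?_⟩
  refine ls_num K β hQ (by linarith) (fun k hk => ⟨(hK k hk).1, (hK k hk).2.1⟩)
    (fun k hk => ?_) (fun k hk => (hK k hk).2.2.2.2.2.2.2) 0 T (fun b hb => (hT b hb).1)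
    (fun b hb => by rw [sub_zero]; exact (hT b hb).2)
  obtain ⟨_, _, a1, a2, a3, a4, a5, _⟩ := hK k hk
  exact ⟨a1, a2, a3, a4, a5⟩



end Crest.Agent.R012.LS879
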