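import Crest.Agent.R012.Base_666

-- ▼ part R012/SumMod_880
section

/-!
# Row 12: sums over a complete residue system modulo `c` (`sumMod`), and the additive character `eC`

Everything is for `c ≠ 0`.

* `Per c f` : `f` is periodic modulo `c`
* `sumMod_eq_sum_of_inj` : the value of `sumMod c f` is the sum over any family of `nm c`
  pairwise incongruent representatives
* `sumMod_comp_mul`, `sumMod_comp_add` : substitutions
* `sumMod_mul_coprime` (CRT), `sumMod_mul` (tower)
* `sumMod_eC` : orthogonality.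
-/

set_option autoImplicit false

noncomputable section

open Complex

namespace Crest.Agent.R012.SumMod880

open Crest.Agent.R012 Crest.Agent.R012.Eis

/-! ### the additive character -/

lemma eC_zero : eC 0 = 1 := by simp [eC]

lemma eC_add (z z' : ℂ) : eC (z + z') = eC z * eC z' := by
  unfold eC
  rw [← Complex.exp_add]
  congr 1
  rw [map_add]; ring

lemma eC_neg (z : ℂ) : eC (-z) = (eC z)⁻¹ := by
  unfold eC
  rw [← Complex.exp_neg]
  congr 1
  rw [map_neg]; ring

lemma eC_eq_re (z : ℂ) : eC z = Complex.exp (((4 * Real.pi * z.re : ℝ) : ℂ) * Complex.I) := by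
  unfold eC
  rw [Complex.add_conj]
  congr 1
  push_cast; ring

lemma norm_eC (z : ℂ) : ‖eC z‖ = 1 := by
  rw [eC_eq_re, Complex.norm_exp_ofReal_mul_I]


lemma conj_eC (z : ℂ) : (starRingEnd ℂ) (eC z) = eC (-z) := by
  rw [eC_neg, Complex.inv_def, Complex.normSq_eq_norm_sq, norm_eC]
  simp


lemma eC_toC (t : Eis) : eC (toC t) = 1 := by
  rw [eC_eq_re, toC_re]
  have : (((4 * Real.pi * ((t.re : ℝ) - t.im / 2) : ℝ) : ℂ) * Complex.I)
      = ((2 * t.re - t.im : ℤ) : ℂ) * (2 * Real.pi * Complex.I) := by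
    push_cast; ring
  rw [this, Complex.exp_int_mul_two_pi_mul_I]

lemma eC_add_toC (z : ℂ) (t : Eis) : eC (z + toC t) = eC z := by
  rw [eC_add, eC_toC, mul_one]


/-- `eC z = 1` iff `z + z̄` is an integer. -/
lemma eC_eq_one_iff (z : ℂ) : eC z = 1 ↔ ∃ n : ℤ, 2 * z.re = n := by
  rw [eC_eq_re, Complex.exp_eq_one_iff]
  constructor
  · rintro ⟨n, hn⟩
    refine ⟨n, ?_⟩
    have h := congrArg Complex.im hn
    simp at h
    have hpi : Real.pi ≠ 0 := Real.pi_ne_zero
    have : Real.pi * (2 * z.re) = Real.pi * n := by linarith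
    exact mul_left_cancel₀ hpi this
  · rintro ⟨n, hn⟩
    refine ⟨n, ?_⟩
    have : 4 * Real.pi * z.re = 2 * Real.pi * n := by rw [← hn]; ring
    rw [this]; push_cast; ring

/-- the dual lattice: if `t ↦ e(z t)` is trivial on `Eis`, then `ω λ z ∈ Eis`. -/
lemma exists_of_eC_trivial {z : ℂ} (h : ∀ t : Eis, eC (z * toC t) = 1) :
    ∃ s : Eis, toC (w * lam) * z = toC s := by
  obtain ⟨a, ha⟩ := (eC_eq_one_iff _).mp (by simpa using h 1)
  obtain ⟨b, hb⟩ := (eC_eq_one_iff _).mp (h w)
  rw [toC_w] at hb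
  have h3 : Real.sqrt 3 * Real.sqrt 3 = 3 := Real.mul_self_sqrt (by norm_num)
  have hb' : -z.re - Real.sqrt 3 * z.im = b := by
    have : (z * wC).re = z.re * (-1 / 2) - z.im * (Real.sqrt 3 / 2) := by
      simp [wC, Complex.mul_re]
    rw [this] at hb
    linarith
  refine ⟨⟨a + b, a⟩, ?_⟩
  have e : toC (w * lam) = ⟨0, Real.sqrt 3⟩ := by
    have : w * lam = (⟨1, 2⟩ : Eis) := by
      apply ext' <;> simp [lam]
    rw [this, toC_apply]
    apply Complex.ext
    · simp [wC]; norm_num
    · simp [wC]; ring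
  rw [e]
  apply Complex.ext
  · rw [toC_re]
    simp [Complex.mul_re]
    linarith
  · rw [toC_im]
    simp [Complex.mul_im]
    rw [← ha]; ring

lemma exists_of_eC_trivial_div {r c : Eis} (hc : c ≠ 0)
    (h : ∀ t : Eis, eC (toC r * toC t / toC c) = 1) : c ∣ lam * r := by
  have hc' : toC c ≠ 0 := by rwa [Ne, toC_eq_zero]
  obtain ⟨s, hs⟩ := exists_of_eC_trivial (z := toC r / toC c) (fun t => by
    rw [div_mul_eq_mul_div]; exact h t)
  have h1 : toC (w * lam * r) = toC (c * s) := by
    rw [map_mul toC (w * lam) r, map_mul toC c s, ← hs]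
    field_simp
  have h2 : w * lam * r = c * s := toC_injective h1
  refine ⟨w ^ 2 * s, ?_⟩
  have h3 := w_cube
  linear_combination w ^ 2 * h2 - lam * r * h3

/-! ### the quotient -/

/-- `Eis/(c)` -/
abbrev Q (c : Eis) : Type := Eis ⧸ Ideal.span ({c} : Set Eis)

lemma finQ {c : Eis} (hc : c ≠ 0) : Finite (Q c) :=
  Ideal.finiteQuotientOfFreeOfNeBot _ (by
    rw [Ne, Ideal.span_singleton_eq_bot]; exact hc)

lemma algNorm_eq (c : Eis) : (Algebra.norm ℤ c).natAbs = nm c := by
  have h : Algebra.norm ℤ c = (nm c : ℤ) := by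
    rw [Algebra.norm_apply]
    have := QuadraticAlgebra.det_toLinearMap_eq_norm (R := ℤ) (a := -1) (b := -1) c
    rw [← norm_eq_nm, ← this]
    congr 1
  rw [h, Int.natAbs_natCast]

lemma card_Q {c : Eis} (_hc : c ≠ 0) : Nat.card (Q c) = nm c := by
  have h1 : Ideal.absNorm (Ideal.span ({c} : Set Eis)) = nm c := by
    rw [Ideal.absNorm_span_singleton, algNorm_eq]
  rw [← h1, Ideal.absNorm_apply, Submodule.cardQuot_apply]

/-- class of `x` modulo `c` -/
abbrev mk (c : Eis) : Eis →+* Q c := Ideal.Quotient.mk (Ideal.span ({c} : Set Eis))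

lemma mk_eq_iff {c x y : Eis} : mk c x = mk c y ↔ c ∣ x - y := by
  rw [Ideal.Quotient.eq, Ideal.mem_span_singleton]

lemma mk_out {c : Eis} (q : Q c) : mk c (Quotient.out q) = q := by
  have := Quotient.out_eq q
  exact this

lemma out_mk_sub {c : Eis} (x : Eis) : c ∣ Quotient.out (mk c x) - x := by
  rw [← mk_eq_iff, mk_out]

/-- periodicity modulo `c` -/
def Per (c : Eis) (f : Eis → ℂ) : Prop := ∀ x y, c ∣ x - y → f x = f y

lemma Per.out {c : Eis} {f : Eis → ℂ} (hf : Per c f) (x : Eis) :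
    f (Quotient.out (mk c x)) = f x := hf _ _ (out_mk_sub x)

lemma Per.mul {c : Eis} {f g : Eis → ℂ} (hf : Per c f) (hg : Per c g) :
    Per c (fun x => f x * g x) := fun x y h => by simp only [hf x y h, hg x y h]

lemma Per.add {c : Eis} {f g : Eis → ℂ} (hf : Per c f) (hg : Per c g) :
    Per c (fun x => f x + g x) := fun x y h => by simp only [hf x y h, hg x y h]

lemma Per.const {c : Eis} (a : ℂ) : Per c (fun _ => a) := fun _ _ _ => rfl

lemma Per.of_dvd {c d : Eis} {f : Eis → ℂ} (hf : Per c f) (h : c ∣ d) : Per d f :=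
  fun x y hxy => hf x y (h.trans hxy)


lemma Per.comp_add {c : Eis} {f : Eis → ℂ} (hf : Per c f) (u : Eis) :
    Per c (fun x => f (x + u)) := fun x y h => hf _ _ (by
  rw [add_sub_add_right_eq_sub]; exact h)

lemma Per.conj {c : Eis} {f : Eis → ℂ} (hf : Per c f) :
    Per c (fun x => (starRingEnd ℂ) (f x)) := fun x y h => by simp only [hf x y h]

lemma Per.comp {c : Eis} {f : Eis → ℂ} (hf : Per c f) (g : ℂ → ℂ) :
    Per c (fun x => g (f x)) := fun x y h => by simp only [hf x y h]

/-- the additive character `x ↦ e(r x / c)` is periodic mod `c`. -/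
lemma per_eC {c : Eis} (hc : c ≠ 0) (r : Eis) :
    Per c (fun x => eC (toC r * toC x / toC c)) := by
  rintro x y ⟨t, ht⟩
  have hc' : toC c ≠ 0 := by rwa [Ne, toC_eq_zero]
  have hx : x = y + c * t := by linear_combination ht
  have : toC r * toC x / toC c = toC r * toC y / toC c + toC (r * t) := by
    rw [hx, map_add, map_mul, map_mul]; field_simp
  simp only
  rw [this, eC_add_toC]

/-! ### `sumMod` as a finite sum -/

lemma sumMod_eq_sum {c : Eis} [Fintype (Q c)] (f : Eis → ℂ) :
    sumMod c f = ∑ q : Q c, f (Quotient.out q) := by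
  unfold sumMod
  rw [finsum_eq_sum_of_fintype]

/-- **main evaluation lemma**: a family of `nm c` pairwise incongruent representatives. -/
theorem sumMod_eq_sum_of_inj {c : Eis} (hc : c ≠ 0) {f : Eis → ℂ} (hf : Per c f)
    {ι : Type*} [Fintype ι] (φ : ι → Eis) (hinj : ∀ i j, c ∣ φ i - φ j → i = j)
    (hcard : Fintype.card ι = nm c) : sumMod c f = ∑ i, f (φ i) := by
  have := finQ hc
  have : Fintype (Q c) := Fintype.ofFinite _
  rw [sumMod_eq_sum]
  symm
  have hb : Function.Bijective (fun i => mk c (φ i)) := by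
    rw [Fintype.bijective_iff_injective_and_card]
    refine ⟨fun i j h => hinj i j (mk_eq_iff.mp h), ?_⟩
    rw [hcard, ← card_Q hc, Nat.card_eq_fintype_card]
  refine Fintype.sum_bijective _ hb _ _ (fun i => ?_)
  exact (hf.out _).symm


lemma sumMod_congr' {c : Eis} {f g : Eis → ℂ} (h : ∀ x, f x = g x) : sumMod c f = sumMod c g := by
  have : f = g := funext h
  rw [this]



lemma sumMod_sub {c : Eis} (hc : c ≠ 0) (f g : Eis → ℂ) :
    sumMod c (fun x => f x - g x) = sumMod c f - sumMod c g := by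
  have := finQ hc
  have : Fintype (Q c) := Fintype.ofFinite _
  rw [sumMod_eq_sum, sumMod_eq_sum, sumMod_eq_sum, Finset.sum_sub_distrib]

lemma sumMod_const_mul {c : Eis} (hc : c ≠ 0) (a : ℂ) (f : Eis → ℂ) :
    sumMod c (fun x => a * f x) = a * sumMod c f := by
  have := finQ hc
  have : Fintype (Q c) := Fintype.ofFinite _
  rw [sumMod_eq_sum, sumMod_eq_sum, Finset.mul_sum]

lemma sumMod_mul_const {c : Eis} (hc : c ≠ 0) (a : ℂ) (f : Eis → ℂ) :
    sumMod c (fun x => f x * a) = sumMod c f * a := by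
  have := finQ hc
  have : Fintype (Q c) := Fintype.ofFinite _
  rw [sumMod_eq_sum, sumMod_eq_sum, Finset.sum_mul]


lemma sumMod_const {c : Eis} (hc : c ≠ 0) (a : ℂ) : sumMod c (fun _ => a) = nm c * a := by
  have := finQ hc
  have : Fintype (Q c) := Fintype.ofFinite _
  rw [sumMod_eq_sum, Finset.sum_const, Finset.card_univ, ← card_Q hc, Nat.card_eq_fintype_card,
    nsmul_eq_mul]

lemma sumMod_zero {c : Eis} (hc : c ≠ 0) : sumMod c (fun _ => (0 : ℂ)) = 0 := by
  rw [sumMod_const hc, mul_zero]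

lemma conj_sumMod {c : Eis} (hc : c ≠ 0) (f : Eis → ℂ) :
    (starRingEnd ℂ) (sumMod c f) = sumMod c (fun x => (starRingEnd ℂ) (f x)) := by
  have := finQ hc
  have : Fintype (Q c) := Fintype.ofFinite _
  rw [sumMod_eq_sum, sumMod_eq_sum, map_sum]


lemma sumMod_comm {c d : Eis} (hc : c ≠ 0) (hd : d ≠ 0) (f : Eis → Eis → ℂ) :
    sumMod c (fun x => sumMod d (fun y => f x y)) =
      sumMod d (fun y => sumMod c (fun x => f x y)) := by
  have := finQ hc
  have : Fintype (Q c) := Fintype.ofFinite _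
  have := finQ hd
  have : Fintype (Q d) := Fintype.ofFinite _
  simp only [sumMod_eq_sum]
  rw [Finset.sum_comm]

/-- products of sums -/
lemma sumMod_mul_sumMod {c d : Eis} (hc : c ≠ 0) (hd : d ≠ 0) (f g : Eis → ℂ) :
    sumMod c f * sumMod d g = sumMod c (fun x => sumMod d (fun y => f x * g y)) := by
  have h : ∀ x, sumMod d (fun y => f x * g y) = f x * sumMod d g :=
    fun x => sumMod_const_mul hd _ _
  rw [sumMod_congr' h, sumMod_mul_const hc]

lemma isUnit_sumMod {c : Eis} (hc : IsUnit c) {f : Eis → ℂ} (hf : Per c f) :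
    sumMod c f = f 0 := by
  have hc0 : c ≠ 0 := hc.ne_zero
  rw [sumMod_eq_sum_of_inj hc0 hf (fun _ : Unit => (0 : Eis)) (fun _ _ _ => rfl)]
  · simp
  · rw [isUnit_iff.mp hc]; simp


/-! ### substitutions -/

lemma sumMod_comp_bij {c : Eis} (hc : c ≠ 0) {f : Eis → ℂ} (hf : Per c f) (g : Eis → Eis)
    (hg : ∀ x y, c ∣ g x - g y → c ∣ x - y) : sumMod c (fun x => f (g x)) = sumMod c f := by
  have := finQ hc
  have : Fintype (Q c) := Fintype.ofFinite _
  rw [sumMod_eq_sum (fun x => f (g x))]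
  rw [sumMod_eq_sum_of_inj hc hf (fun q : Q c => g (Quotient.out q))]
  · intro i j h
    have := hg _ _ h
    rw [← mk_eq_iff, mk_out, mk_out] at this
    exact this
  · rw [← card_Q hc, Nat.card_eq_fintype_card]

lemma sumMod_comp_mul {c u : Eis} (hc : c ≠ 0) {f : Eis → ℂ} (hf : Per c f)
    (hu : IsCoprime u c) : sumMod c (fun x => f (u * x)) = sumMod c f :=
  sumMod_comp_bij hc hf (fun x => u * x) (fun x y h => by
    rw [← mul_sub] at h
    exact hu.symm.dvd_of_dvd_mul_left h)

lemma sumMod_comp_add {c : Eis} (hc : c ≠ 0) {f : Eis → ℂ} (hf : Per c f) (u : Eis) :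
    sumMod c (fun x => f (x + u)) = sumMod c f :=
  sumMod_comp_bij hc hf (fun x => x + u) (fun x y h => by
    rwa [add_sub_add_right_eq_sub] at h)




/-! ### tower and CRT -/

/-- inner sums are periodic in the outer variable (tower form). -/
lemma per_inner {c d : Eis} (hd : d ≠ 0) {f : Eis → ℂ} (hf : Per (c * d) f) :
    Per c (fun x => sumMod d (fun y => f (x + c * y))) := by
  rintro x x' ⟨t, ht⟩
  have hx : x = x' + c * t := by linear_combination ht
  have hp : Per d (fun y => f (x' + c * y)) := fun y y' hyy => hf _ _ (by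
    have : x' + c * y - (x' + c * y') = c * (y - y') := by ring
    rw [this]; exact mul_dvd_mul_left c hyy)
  simp only
  rw [← sumMod_comp_add hd hp t]
  apply sumMod_congr'
  intro y
  rw [hx]; congr 1; ring

/-- **tower**: `x + c y` with `x mod c`, `y mod d`, runs through all classes mod `c d`. -/
theorem sumMod_mul {c d : Eis} (hc : c ≠ 0) (hd : d ≠ 0) {f : Eis → ℂ} (hf : Per (c * d) f) :
    sumMod (c * d) f = sumMod c (fun x => sumMod d (fun y => f (x + c * y))) := by
  have := finQ hc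
  have : Fintype (Q c) := Fintype.ofFinite _
  have := finQ hd
  have : Fintype (Q d) := Fintype.ofFinite _
  rw [sumMod_eq_sum_of_inj (mul_ne_zero hc hd) hf
    (fun q : Q c × Q d => Quotient.out q.1 + c * Quotient.out q.2)]
  · simp only [sumMod_eq_sum]
    rw [Fintype.sum_prod_type]
  · rintro ⟨x, y⟩ ⟨x', y'⟩ h
    simp only at h
    have h1 : c ∣ Quotient.out x - Quotient.out x' := by
      have h2 : c ∣ Quotient.out x + c * Quotient.out y - (Quotient.out x' + c * Quotient.out y') :=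
        (dvd_mul_right c d).trans h
      have : Quotient.out x - Quotient.out x' =
          (Quotient.out x + c * Quotient.out y - (Quotient.out x' + c * Quotient.out y'))
          - c * (Quotient.out y - Quotient.out y') := by ring
      rw [this]
      exact dvd_sub h2 (dvd_mul_right _ _)
    rw [← mk_eq_iff, mk_out, mk_out] at h1
    subst h1
    have h3 : d ∣ Quotient.out y - Quotient.out y' := by
      have : Quotient.out x + c * Quotient.out y - (Quotient.out x + c * Quotient.out y')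
        = c * (Quotient.out y - Quotient.out y') := by ring
      rw [this] at h
      exact (mul_dvd_mul_iff_left hc).mp h
    rw [← mk_eq_iff, mk_out, mk_out] at h3
    rw [h3]
  · rw [Fintype.card_prod, nm_mul, ← card_Q hc, ← card_Q hd, Nat.card_eq_fintype_card,
      Nat.card_eq_fintype_card]

/-- **CRT**: `d x + c y`. -/
theorem sumMod_mul_coprime {c d : Eis} (hc : c ≠ 0) (hd : d ≠ 0) (hcd : IsCoprime c d)
    {f : Eis → ℂ} (hf : Per (c * d) f) :
    sumMod (c * d) f = sumMod c (fun x => sumMod d (fun y => f (d * x + c * y))) := by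
  rw [sumMod_mul hc hd hf]
  have h := sumMod_comp_mul hc (per_inner hd hf) hcd.symm
  rw [← h]



/-! ### orthogonality -/

/-- If `f (x + t) = ζ f x` with `ζ ≠ 1`, the sum is zero. -/
lemma sumMod_eq_zero_of_shift {c : Eis} (hc : c ≠ 0) {f : Eis → ℂ} (hf : Per c f) (t : Eis)
    (ζ : ℂ) (hζ : ζ ≠ 1) (h : ∀ x, f (x + t) = ζ * f x) : sumMod c f = 0 := by
  have h1 := sumMod_comp_add hc hf t
  rw [sumMod_congr' h, sumMod_const_mul hc] at h1
  have h2 : (ζ - 1) * sumMod c f = 0 := by linear_combination h1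
  rcases mul_eq_zero.mp h2 with h3 | h3
  · exact absurd (sub_eq_zero.mp h3) hζ
  · exact h3

/-- multiplicative version: `f (u x) = ζ f x` with `ζ ≠ 1`, `u` prime to `c`. -/
lemma sumMod_eq_zero_of_mul {c : Eis} (hc : c ≠ 0) {f : Eis → ℂ} (hf : Per c f) {u : Eis}
    (hu : IsCoprime u c) (ζ : ℂ) (hζ : ζ ≠ 1) (h : ∀ x, f (u * x) = ζ * f x) :
    sumMod c f = 0 := by
  have h1 := sumMod_comp_mul hc hf hu
  rw [sumMod_congr' h, sumMod_const_mul hc] at h1
  have h2 : (ζ - 1) * sumMod c f = 0 := by linear_combination h1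
  rcases mul_eq_zero.mp h2 with h3 | h3
  · exact absurd (sub_eq_zero.mp h3) hζ
  · exact h3

/-- orthogonality of additive characters. -/
theorem sumMod_eC_of_not_dvd {c r : Eis} (hc : c ≠ 0) (h : ¬ c ∣ lam * r) :
    sumMod c (fun x => eC (toC r * toC x / toC c)) = 0 := by
  have : ∃ t : Eis, eC (toC r * toC t / toC c) ≠ 1 := by
    by_contra hcon
    push Not at hcon
    exact h (exists_of_eC_trivial_div hc hcon)
  obtain ⟨t, ht⟩ := this
  refine sumMod_eq_zero_of_shift hc (per_eC hc r) t _ ht (fun x => ?_)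
  rw [map_add, mul_add, add_div, eC_add]; ring

theorem sumMod_eC_of_dvd {c r : Eis} (hc : c ≠ 0) (h : c ∣ r) :
    sumMod c (fun x => eC (toC r * toC x / toC c)) = nm c := by
  obtain ⟨s, rfl⟩ := h
  have hc' : toC c ≠ 0 := by rwa [Ne, toC_eq_zero]
  have : ∀ x : Eis, eC (toC (c * s) * toC x / toC c) = 1 := by
    intro x
    have : toC (c * s) * toC x / toC c = toC (s * x) := by
      rw [map_mul, map_mul]; field_simp
    rw [this, eC_toC]
  rw [sumMod_congr' this, sumMod_const hc, mul_one]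

open Classical in
/-- orthogonality, `c` prime to `3`. -/
theorem sumMod_eC {c : Eis} (hc : IsCoprime c lam) (r : Eis) :
    sumMod c (fun x => eC (toC r * toC x / toC c)) = if c ∣ r then (nm c : ℂ) else 0 := by
  have hc0 : c ≠ 0 := by
    rintro rfl
    rw [isCoprime_zero_left] at hc
    exact prime_lam.not_isUnit hc
  split_ifs with h
  · exact sumMod_eC_of_dvd hc0 h
  · exact sumMod_eC_of_not_dvd hc0 (fun h' => h (hc.dvd_of_dvd_mul_left h'))

end Crest.Agent.R012.SumMod880
end
end

-- ▼ part R012/GaussLoc_283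

/-!
# Row 12, item R3c: local table of the cubic Gauss sums

`SyAx` bundles the (few) facts on the cubic symbol which are used; everything else is proved here.

Main results (all `c, d, p` primary, `p` prime, `q = nm p`):

* `gs_mul` : `gs r (c d) = sy c d * sy d c * gs r c * gs r d` and
  `gs_mul' : gs r (c d) = gs r c * gs (r c) d`   (`c, d` coprime)
* `gs_mul_left : gs (r u) c = conj (sy u c) * gs r c` (`u` coprime to `c`),
  `gs_cube_left : gs (r u^3) c = gs r c`
* `gs_pow_of_not_dvd : gs r (p^(k+1)) = 0` if `p^k ∤ r`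
* `gs_pow : gs (s p^k) (p^(k+1)) = q^k * tw (k+1) s p`,
  `tw j s p = Σ_{a mod p} (a/p)^j e(s a/p)`
* the table of `gs (r p^a) (p^k)`.
-/

set_option autoImplicit false
set_option linter.unusedSimpArgs false
set_option linter.unusedVariables false

noncomputable section

open Complex

namespace Crest.Agent.R012.GaussLoc283

open Crest.Agent.R012 Crest.Agent.R012.Eis Crest.Agent.R012.SumMod880

/-- The facts on the cubic symbol which are used here. -/
structure SyAx : Prop where
  mul_left : ∀ x y c : Eis, IsPrim c → sy (x * y) c = sy x c * sy y c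
  mul_right : ∀ x c d : Eis, IsPrim c → IsPrim d → sy x (c * d) = sy x c * sy x d
  congr : ∀ x y c : Eis, IsPrim c → c ∣ x - y → sy x c = sy y c
  eq_zero : ∀ x c : Eis, IsPrim c → (sy x c = 0 ↔ ¬ IsCoprime x c)
  cube : ∀ x c : Eis, IsPrim c → IsCoprime x c → sy x c ^ 3 = 1
  recip : ∀ a b : Eis, IsPrim a → IsPrim b → sy a b = sy b a
  nontriv : ∀ p : Eis, IsPrim p → Prime p → ∃ b, IsCoprime b p ∧ sy b p ≠ 1

variable (H : SyAx)
include H

namespace SyAx

lemma one_left {c : Eis} (hc : IsPrim c) : sy 1 c = 1 := by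
  have h1 := H.mul_left 1 1 c hc
  rw [one_mul] at h1
  have h2 : sy 1 c ≠ 0 := fun h => (H.eq_zero 1 c hc).mp h isCoprime_one_left
  field_simp at h1
  exact h1.symm

lemma one_right (x : Eis) : sy x 1 = 1 := by
  have h1 := H.mul_right x 1 1 isPrim_one isPrim_one
  rw [one_mul] at h1
  have h2 : sy x 1 ≠ 0 := fun h => (H.eq_zero x 1 isPrim_one).mp h isCoprime_one_right
  field_simp at h1
  exact h1.symm

lemma ne_zero {x c : Eis} (hc : IsPrim c) (h : IsCoprime x c) : sy x c ≠ 0 :=
  fun h' => (H.eq_zero x c hc).mp h' h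

lemma neg_one_left {c : Eis} (hc : IsPrim c) : sy (-1) c = 1 := by
  have h1 := H.mul_left (-1) (-1) c hc
  rw [neg_one_mul, neg_neg, H.one_left hc] at h1
  have h2 := H.cube (-1) c hc isCoprime_one_left.neg_left
  have h3 : sy (-1) c ^ 3 = sy (-1) c * (sy (-1) c * sy (-1) c) := by ring
  rw [h3, ← h1, mul_one] at h2
  exact h2

lemma neg_left (x : Eis) {c : Eis} (hc : IsPrim c) : sy (-x) c = sy x c := by
  have h1 := H.mul_left (-1) x c hc
  rw [neg_one_mul, H.neg_one_left hc, one_mul] at h1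
  exact h1

lemma pow_left (x : Eis) {c : Eis} (hc : IsPrim c) (k : ℕ) : sy (x ^ k) c = sy x c ^ k := by
  induction k with
  | zero => rw [pow_zero, pow_zero, H.one_left hc]
  | succ k ih => rw [pow_succ, H.mul_left _ _ _ hc, ih, pow_succ]

lemma pow_right (x : Eis) {c : Eis} (hc : IsPrim c) (k : ℕ) : sy x (c ^ k) = sy x c ^ k := by
  induction k with
  | zero => rw [pow_zero, pow_zero, H.one_right]
  | succ k ih => rw [pow_succ, H.mul_right _ _ _ (hc.pow k) hc, ih, pow_succ]

lemma norm_eq_one {x c : Eis} (hc : IsPrim c) (h : IsCoprime x c) : ‖sy x c‖ = 1 := by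
  have h1 := H.cube x c hc h
  have h2 : ‖sy x c‖ ^ 3 = 1 := by rw [← norm_pow, h1, norm_one]
  exact (pow_eq_one_iff_of_nonneg (norm_nonneg _) (by norm_num)).mp h2


lemma mul_conj {x c : Eis} (hc : IsPrim c) (h : IsCoprime x c) :
    sy x c * (starRingEnd ℂ) (sy x c) = 1 := by
  rw [Complex.mul_conj, Complex.normSq_eq_norm_sq, H.norm_eq_one hc h]; simp

lemma conj_mul {x c : Eis} (hc : IsPrim c) (h : IsCoprime x c) :
    (starRingEnd ℂ) (sy x c) * sy x c = 1 := by
  rw [mul_comm]; exact H.mul_conj hc h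

lemma conj_eq_sq (x : Eis) {c : Eis} (hc : IsPrim c) :
    (starRingEnd ℂ) (sy x c) = sy x c ^ 2 := by
  by_cases h : IsCoprime x c
  · have h1 := H.mul_conj hc h
    have h2 := H.cube x c hc h
    apply mul_left_cancel₀ (H.ne_zero hc h)
    rw [h1, ← h2]; ring
  · rw [(H.eq_zero x c hc).mpr h]; simp

lemma per {c : Eis} (hc : IsPrim c) : Per c (fun x => sy x c) := fun x y h => H.congr x y c hc h


end SyAx

/-! ### general properties of `gs` -/


lemma per_gs {c : Eis} (hc : IsPrim c) (r : Eis) :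
    Per c (fun x => sy x c * eC (toC r * toC x / toC c)) :=
  (H.per hc).mul (per_eC hc.ne_zero r)

lemma gs_one_right (r : Eis) : gs r 1 = 1 := by
  unfold gs
  rw [isUnit_sumMod isUnit_one (per_gs H isPrim_one r), H.one_right, map_zero, mul_zero, zero_div,
    eC_zero, one_mul]

/-- `gs (r u) c = conj (sy u c) * gs r c` for `u` coprime to `c`. -/
theorem gs_mul_left (r : Eis) {u c : Eis} (hc : IsPrim c) (hu : IsCoprime u c) :
    gs (r * u) c = (starRingEnd ℂ) (sy u c) * gs r c := by
  have h1 := sumMod_comp_mul hc.ne_zero (per_gs H hc r) hu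
  have h2 : ∀ x, sy (u * x) c * eC (toC r * toC (u * x) / toC c) =
      sy u c * (sy x c * eC (toC (r * u) * toC x / toC c)) := by
    intro x
    rw [H.mul_left _ _ _ hc, mul_assoc]
    congr 3
    rw [map_mul, map_mul]; ring
  rw [sumMod_congr' h2, sumMod_const_mul hc.ne_zero] at h1
  unfold gs
  rw [← h1, ← mul_assoc, H.conj_mul hc hu, one_mul]

theorem gs_cube_left (r : Eis) {u c : Eis} (hc : IsPrim c) (hu : IsCoprime u c) :
    gs (r * u ^ 3) c = gs r c := by
  rw [gs_mul_left H r hc (hu.pow_left), H.pow_left _ hc, H.cube _ _ hc hu, map_one, one_mul]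

theorem gs_neg_left (r : Eis) {c : Eis} (hc : IsPrim c) : gs (-r) c = gs r c := by
  have h := gs_mul_left H r (u := -1) hc isCoprime_one_left.neg_left
  rw [H.neg_one_left hc, map_one, one_mul, mul_neg_one] at h
  exact h

/-- `gs r c = conj (sy r c) * gs 1 c` for `r` coprime to `c`. -/
theorem gs_eq_conj_mul {r c : Eis} (hc : IsPrim c) (hr : IsCoprime r c) :
    gs r c = (starRingEnd ℂ) (sy r c) * gs 1 c := by
  have := gs_mul_left H 1 hc hr
  rwa [one_mul] at this

/-- twisted multiplicativity. -/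
theorem gs_mul (r : Eis) {c d : Eis} (hc : IsPrim c) (hd : IsPrim d) (hcd : IsCoprime c d) :
    gs r (c * d) = sy d c * sy c d * (gs r c * gs r d) := by
  have hc0 := hc.ne_zero
  have hd0 := hd.ne_zero
  have hc' : toC c ≠ 0 := by rwa [Ne, toC_eq_zero]
  have hd' : toC d ≠ 0 := by rwa [Ne, toC_eq_zero]
  unfold gs
  rw [sumMod_mul_coprime hc0 hd0 hcd (per_gs H (hc.mul hd) r), sumMod_mul_sumMod hc0 hd0,
    ← sumMod_const_mul hc0]
  apply sumMod_congr'
  intro x
  rw [← sumMod_const_mul hd0]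
  apply sumMod_congr'
  intro y
  have e1 : sy (d * x + c * y) c = sy d c * sy x c := by
    rw [← H.mul_left _ _ _ hc]
    apply H.congr _ _ _ hc
    exact ⟨y, by ring⟩
  have e2 : sy (d * x + c * y) d = sy c d * sy y d := by
    rw [← H.mul_left _ _ _ hd]
    apply H.congr _ _ _ hd
    exact ⟨x, by ring⟩
  have e3 : toC r * toC (d * x + c * y) / toC (c * d) =
      toC r * toC x / toC c + toC r * toC y / toC d := by
    rw [map_add, map_mul, map_mul, map_mul]
    field_simp
  rw [H.mul_right _ _ _ hc hd, e1, e2, e3, eC_add]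
  ring

/-- twisted multiplicativity, second form: `gs r (c d) = gs r c * gs (r c) d`. -/
theorem gs_mul' (r : Eis) {c d : Eis} (hc : IsPrim c) (hd : IsPrim d) (hcd : IsCoprime c d) :
    gs r (c * d) = gs r c * gs (r * c) d := by
  rw [gs_mul H r hc hd hcd, gs_mul_left H r hd hcd, H.recip d c hd hc, H.conj_eq_sq _ hd]
  ring


theorem conj_gs (r : Eis) {c : Eis} (hc : IsPrim c) :
    (starRingEnd ℂ) (gs r c) =
      sumMod c (fun x => (starRingEnd ℂ) (sy x c) * eC (toC r * toC x / toC c)) := by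
  have h1 : (starRingEnd ℂ) (gs (-r) c) =
      sumMod c (fun x => (starRingEnd ℂ) (sy x c) * eC (toC r * toC x / toC c)) := by
    unfold gs
    rw [conj_sumMod hc.ne_zero]
    apply sumMod_congr'
    intro x
    rw [map_mul, conj_eC]
    congr 2
    rw [map_neg]; ring
  rw [← h1, gs_neg_left H r hc]

/-! ### prime powers -/

/-- `tw j s p = Σ_{a mod p} (a/p)^j e(s a / p)`. -/
def tw (j : ℕ) (s p : Eis) : ℂ := sumMod p (fun a => sy a p ^ j * eC (toC s * toC a / toC p))

lemma sum_prime_pow (j : ℕ) (r : Eis) {p : Eis} (hp : IsPrim p) (k : ℕ) :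
    sumMod (p ^ (k + 1)) (fun x => sy x p ^ j * eC (toC r * toC x / toC (p ^ (k + 1)))) =
      open Classical in
      if p ^ k ∣ r then (nm p : ℂ) ^ k * sumMod p (fun a => sy a p ^ j *
        eC (toC r * toC a / toC (p ^ (k + 1)))) else 0 := by
  have hp0 := hp.ne_zero
  have hp' : toC p ≠ 0 := by rwa [Ne, toC_eq_zero]
  have hper : Per (p ^ (k + 1)) (fun x => sy x p ^ j * eC (toC r * toC x / toC (p ^ (k + 1)))) := by
    apply Per.mul
    · exact (((H.per hp).comp (fun z => z ^ j)).of_dvd (dvd_pow_self p (Nat.succ_ne_zero k)))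
    · exact per_eC (pow_ne_zero _ hp0) r
  have e0 : p ^ (k + 1) = p * p ^ k := by ring
  rw [e0] at hper ⊢
  rw [sumMod_mul hp0 (pow_ne_zero k hp0) hper]
  have h1 : ∀ x, sumMod (p ^ k) (fun y => sy (x + p * y) p ^ j *
      eC (toC r * toC (x + p * y) / toC (p * p ^ k))) =
      sy x p ^ j * eC (toC r * toC x / toC (p * p ^ k)) *
        (open Classical in if p ^ k ∣ r then ((nm p : ℂ) ^ k) else 0) := by
    intro x
    have h2 : ∀ y, sy (x + p * y) p ^ j * eC (toC r * toC (x + p * y) / toC (p * p ^ k)) =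
        (sy x p ^ j * eC (toC r * toC x / toC (p * p ^ k))) *
          eC (toC r * toC y / toC (p ^ k)) := by
      intro y
      have e1 : sy (x + p * y) p = sy x p := H.congr _ _ _ hp ⟨y, by ring⟩
      have hpk : toC (p ^ k) ≠ 0 := by rw [Ne, toC_eq_zero]; exact pow_ne_zero _ hp0
      have e2 : toC r * toC (x + p * y) / toC (p * p ^ k) =
          toC r * toC x / toC (p * p ^ k) + toC r * toC y / toC (p ^ k) := by
        rw [map_add, map_mul toC p y, map_mul toC p (p ^ k)]
        field_simp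
      rw [e1, e2, eC_add]; ring
    rw [sumMod_congr' h2, sumMod_const_mul (pow_ne_zero k hp0),
      sumMod_eC ((hp.pow k).isCoprime_lam), nm_pow]
    push_cast
    rfl
  rw [sumMod_congr' h1, sumMod_mul_const hp0]
  split_ifs
  · ring
  · rw [mul_zero]

omit H in
/-- picking out one residue class. -/
lemma sumMod_delta {c : Eis} (hc : c ≠ 0) {f : Eis → ℂ} (hf : Per c f) (x : Eis) :
    sumMod c (fun y => open Classical in if c ∣ y - x then f y else 0) = f x := by
  have := finQ hc
  have : Fintype (Q c) := Fintype.ofFinite _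
  rw [sumMod_eq_sum, Finset.sum_eq_single (mk c x)]
  · rw [if_pos (out_mk_sub x), hf.out]
  · intro q _ hq
    rw [if_neg]
    intro h
    apply hq
    rw [← mk_eq_iff, mk_out] at h
    exact h
  · intro h; exact absurd (Finset.mem_univ _) h

omit H in
lemma isCoprime_iff_not_dvd {p : Eis} (hp : Prime p) (x : Eis) : IsCoprime x p ↔ ¬ p ∣ x := by
  rw [isCoprime_comm]; exact hp.irreducible.coprime_iff_not_dvd

lemma sy_eq_zero_iff_dvd {p : Eis} (hp : IsPrim p) (hpp : Prime p) (x : Eis) :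
    sy x p = 0 ↔ p ∣ x := by
  rw [H.eq_zero x p hp, isCoprime_iff_not_dvd hpp, not_not]

lemma sy_cube_eq {p : Eis} (hp : IsPrim p) (hpp : Prime p) (x : Eis) :
    sy x p ^ 3 = 1 - (open Classical in if p ∣ x - 0 then 1 else 0) := by
  rw [sub_zero]
  split_ifs with h
  · rw [(sy_eq_zero_iff_dvd H hp hpp x).mpr h]; simp
  · rw [H.cube x p hp ((isCoprime_iff_not_dvd hpp x).mpr h), sub_zero]

omit H in
lemma tw_one (s p : Eis) : tw 1 s p = gs s p := by
  unfold tw gs
  simp only [pow_one]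

lemma tw_two (s : Eis) {p : Eis} (hp : IsPrim p) : tw 2 s p = (starRingEnd ℂ) (gs s p) := by
  rw [conj_gs H s hp]
  unfold tw
  apply sumMod_congr'
  intro x
  rw [H.conj_eq_sq x hp]

lemma tw_three (s : Eis) {p : Eis} (hp : IsPrim p) (hpp : Prime p) :
    tw 3 s p = (open Classical in if p ∣ s then (nm p : ℂ) else 0) - 1 := by
  classical
  unfold tw
  have hp0 := hp.ne_zero
  have h1 : ∀ a, sy a p ^ 3 * eC (toC s * toC a / toC p) = eC (toC s * toC a / toC p) -
      (if p ∣ a - 0 then eC (toC s * toC a / toC p) else 0) := by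
    intro a
    rw [sy_cube_eq H hp hpp]
    split_ifs <;> ring
  rw [sumMod_congr' h1, sumMod_sub hp0, sumMod_eC hp.isCoprime_lam, sumMod_delta hp0 (per_eC hp0 s) 0,
    map_zero, mul_zero, zero_div, eC_zero]

lemma tw_add_three (j : ℕ) (s : Eis) {p : Eis} (hp : IsPrim p) :
    tw (j + 1 + 3) s p = tw (j + 1) s p := by
  unfold tw
  apply sumMod_congr'
  intro a
  congr 1
  by_cases h : IsCoprime a p
  · rw [pow_add _ _ 3, H.cube a p hp h, mul_one]
  · rw [(H.eq_zero a p hp).mpr h]; simp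

lemma tw_of_mod_one {j : ℕ} (hj : j % 3 = 1) (s : Eis) {p : Eis} (hp : IsPrim p) :
    tw j s p = gs s p := by
  induction j using Nat.strong_induction_on with
  | _ j ih =>
    rcases Nat.lt_or_ge j 3 with h | h
    · have : j = 1 := by omega
      rw [this, tw_one]
    · obtain ⟨i, rfl⟩ : ∃ i, j = i + 1 + 3 := ⟨j - 4, by omega⟩
      rw [tw_add_three H i s hp]
      exact ih (i + 1) (by omega) (by omega)

lemma tw_of_mod_two {j : ℕ} (hj : j % 3 = 2) (s : Eis) {p : Eis} (hp : IsPrim p) :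
    tw j s p = (starRingEnd ℂ) (gs s p) := by
  induction j using Nat.strong_induction_on with
  | _ j ih =>
    rcases Nat.lt_or_ge j 3 with h | h
    · have : j = 2 := by omega
      rw [this, tw_two H s hp]
    · obtain ⟨i, rfl⟩ : ∃ i, j = i + 1 + 3 := ⟨j - 4, by omega⟩
      rw [tw_add_three H i s hp]
      exact ih (i + 1) (by omega) (by omega)

lemma tw_of_mod_zero {j : ℕ} (hj0 : j ≠ 0) (hj : j % 3 = 0) (s : Eis) {p : Eis} (hp : IsPrim p)
    (hpp : Prime p) :
    tw j s p = (open Classical in if p ∣ s then (nm p : ℂ) else 0) - 1 := by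
  induction j using Nat.strong_induction_on with
  | _ j ih =>
    rcases Nat.lt_or_ge j 4 with h | h
    · have : j = 3 := by omega
      rw [this, tw_three H s hp hpp]
    · obtain ⟨i, rfl⟩ : ∃ i, j = i + 1 + 3 := ⟨j - 4, by omega⟩
      rw [tw_add_three H i s hp]
      exact ih (i + 1) (by omega) (by omega) (by omega)


/-- `gs s p = 0` for `p | s`. -/
theorem gs_prime_of_dvd {s p : Eis} (hp : IsPrim p) (hpp : Prime p) (h : p ∣ s) : gs s p = 0 := by
  obtain ⟨b, hb, hb1⟩ := H.nontriv p hp hpp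
  unfold gs
  refine sumMod_eq_zero_of_mul hp.ne_zero (per_gs H hp s) hb (sy b p) hb1 (fun x => ?_)
  have h2 : ∀ y, eC (toC s * toC y / toC p) = 1 := by
    intro y
    have h3 := per_eC hp.ne_zero y s 0 (by simpa using h)
    simp only at h3
    rw [mul_comm (toC s), h3, map_zero, mul_zero, zero_div, eC_zero]
  rw [h2, h2, H.mul_left _ _ _ hp]; ring

/-- `|gs 1 p|^2 = nm p`. -/
theorem gs_one_prime_mul_conj {p : Eis} (hp : IsPrim p) (hpp : Prime p) :
    gs 1 p * (starRingEnd ℂ) (gs 1 p) = nm p := by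
  classical
  have hp0 := hp.ne_zero
  -- second moment, computed in two ways
  have h1 : sumMod p (fun s => gs s p * (starRingEnd ℂ) (gs s p)) =
      (nm p - 1) * (gs 1 p * (starRingEnd ℂ) (gs 1 p)) := by
    have h2 : ∀ s, gs s p * (starRingEnd ℂ) (gs s p) = gs 1 p * (starRingEnd ℂ) (gs 1 p) -
        (if p ∣ s - 0 then gs 1 p * (starRingEnd ℂ) (gs 1 p) else 0) := by
      intro s
      rw [sub_zero]
      split_ifs with h
      · rw [gs_prime_of_dvd H hp hpp h]; simp
      · have hs := (isCoprime_iff_not_dvd hpp s).mpr h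
        rw [gs_eq_conj_mul H hp hs, map_mul, Complex.conj_conj, sub_zero]
        linear_combination (gs 1 p * (starRingEnd ℂ) (gs 1 p)) * (H.conj_mul hp hs)
    rw [sumMod_congr' h2, sumMod_sub hp0, sumMod_const hp0, sumMod_delta hp0 (Per.const _) 0]
    ring
  have h3 : sumMod p (fun s => gs s p * (starRingEnd ℂ) (gs s p)) = nm p * (nm p - 1) := by
    have h4 : ∀ s, gs s p * (starRingEnd ℂ) (gs s p) =
        sumMod p (fun x => sumMod p (fun y => sy x p * (starRingEnd ℂ) (sy y p) *
          eC (toC (x - y) * toC s / toC p))) := by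
      intro s
      have : (starRingEnd ℂ) (gs s p) = sumMod p (fun y => (starRingEnd ℂ) (sy y p) *
          eC (-(toC s * toC y / toC p))) := by
        unfold gs
        rw [conj_sumMod hp0]
        apply sumMod_congr'
        intro x
        rw [map_mul, conj_eC]
      rw [this]
      unfold gs
      rw [sumMod_mul_sumMod hp0 hp0]
      apply sumMod_congr'
      intro x
      apply sumMod_congr'
      intro y
      have e1 : toC (x - y) * toC s / toC p = toC s * toC x / toC p + -(toC s * toC y / toC p) := by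
        rw [map_sub]; ring
      rw [e1, eC_add]; ring
    rw [sumMod_congr' h4, sumMod_comm hp0 hp0]
    have h5 : ∀ x, sumMod p (fun s => sumMod p (fun y => sy x p * (starRingEnd ℂ) (sy y p) *
          eC (toC (x - y) * toC s / toC p))) = nm p * (sy x p * (starRingEnd ℂ) (sy x p)) := by
      intro x
      rw [sumMod_comm hp0 hp0]
      have h6 : ∀ y, sumMod p (fun s => sy x p * (starRingEnd ℂ) (sy y p) *
          eC (toC (x - y) * toC s / toC p)) =
          if p ∣ y - x then nm p * (sy x p * (starRingEnd ℂ) (sy y p)) else 0 := by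
        intro y
        rw [sumMod_const_mul hp0, sumMod_eC hp.isCoprime_lam]
        by_cases h : p ∣ y - x
        · have h' : p ∣ x - y := by rw [← neg_sub]; exact (dvd_neg).mpr h
          rw [if_pos h, if_pos h']; ring
        · have h' : ¬ p ∣ x - y := by
            intro h''; apply h; rw [← neg_sub]; exact (dvd_neg).mpr h''
          rw [if_neg h, if_neg h', mul_zero]
      rw [sumMod_congr' h6]
      exact sumMod_delta hp0 (f := fun y => nm p * (sy x p * (starRingEnd ℂ) (sy y p)))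
        (fun y y' hy => by simp only [H.congr y y' p hp hy]) x
    rw [sumMod_congr' h5, sumMod_const_mul hp0]
    congr 1
    have h7 : ∀ x, sy x p * (starRingEnd ℂ) (sy x p) = 1 - (if p ∣ x - 0 then 1 else 0) := by
      intro x
      rw [H.conj_eq_sq x hp, ← sy_cube_eq H hp hpp x]; ring
    rw [sumMod_congr' h7, sumMod_sub hp0, sumMod_const hp0, sumMod_delta hp0 (Per.const _) 0]
    ring
  have hq : (nm p : ℂ) - 1 ≠ 0 := by
    have h8 : nm p ≠ 1 := fun h => hpp.not_isUnit (isUnit_iff.mpr h)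
    intro h
    apply h8
    have : (nm p : ℂ) = 1 := by linear_combination h
    exact_mod_cast this
  apply mul_left_cancel₀ hq
  rw [← h1, h3]; ring

theorem gs_prime_mul_conj {s p : Eis} (hp : IsPrim p) (hpp : Prime p) (h : ¬ p ∣ s) :
    gs s p * (starRingEnd ℂ) (gs s p) = nm p := by
  have hs := (isCoprime_iff_not_dvd hpp s).mpr h
  rw [gs_eq_conj_mul H hp hs, map_mul, Complex.conj_conj]
  linear_combination (gs 1 p * (starRingEnd ℂ) (gs 1 p)) * (H.conj_mul hp hs) +
    gs_one_prime_mul_conj H hp hpp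

theorem norm_gs_prime_sq {s p : Eis} (hp : IsPrim p) (hpp : Prime p) (h : ¬ p ∣ s) :
    ‖gs s p‖ ^ 2 = nm p := by
  have := gs_prime_mul_conj H hp hpp h
  rw [Complex.mul_conj, Complex.normSq_eq_norm_sq] at this
  exact_mod_cast this

/-! ### the table -/

/-- **vanishing**: `gs r (p^(k+1)) = 0` unless `p^k | r`. -/
theorem gs_pow_of_not_dvd {r p : Eis} (hp : IsPrim p) {k : ℕ} (h : ¬ p ^ k ∣ r) :
    gs r (p ^ (k + 1)) = 0 := by
  have h1 : gs r (p ^ (k + 1)) = sumMod (p ^ (k + 1)) (fun x => sy x p ^ (k + 1) *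
      eC (toC r * toC x / toC (p ^ (k + 1)))) := by
    unfold gs
    apply sumMod_congr'
    intro x
    rw [H.pow_right x hp]
  rw [h1, sum_prime_pow H (k + 1) r hp k, if_neg h]

/-- `gs (s p^k) (p^(k+1)) = nm p^k * tw (k+1) s p`. -/
theorem gs_pow (s : Eis) {p : Eis} (hp : IsPrim p) (k : ℕ) :
    gs (s * p ^ k) (p ^ (k + 1)) = (nm p : ℂ) ^ k * tw (k + 1) s p := by
  have hp' : toC p ≠ 0 := by rw [Ne, toC_eq_zero]; exact hp.ne_zero
  have h1 : gs (s * p ^ k) (p ^ (k + 1)) = sumMod (p ^ (k + 1)) (fun x => sy x p ^ (k + 1) *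
      eC (toC (s * p ^ k) * toC x / toC (p ^ (k + 1)))) := by
    unfold gs
    apply sumMod_congr'
    intro x
    rw [H.pow_right x hp]
  rw [h1, sum_prime_pow H (k + 1) _ hp k, if_pos (dvd_mul_left _ _)]
  congr 1
  unfold tw
  apply sumMod_congr'
  intro a
  congr 2
  rw [map_mul, map_pow, map_pow, pow_succ]
  field_simp

/-- `k ≡ 1 (mod 3)`: `gs (s p^(k-1)) (p^k) = nm p^(k-1) gs s p`. -/
theorem gs_pow_one (s : Eis) {p : Eis} (hp : IsPrim p) {k : ℕ} (hk : k % 3 = 0) :
    gs (s * p ^ k) (p ^ (k + 1)) = (nm p : ℂ) ^ k * gs s p := by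
  rw [gs_pow H s hp k, tw_of_mod_one H (by omega) s hp]

/-- `k ≡ 2 (mod 3)`. -/
theorem gs_pow_two (s : Eis) {p : Eis} (hp : IsPrim p) {k : ℕ} (hk : k % 3 = 1) :
    gs (s * p ^ k) (p ^ (k + 1)) = (nm p : ℂ) ^ k * (starRingEnd ℂ) (gs s p) := by
  rw [gs_pow H s hp k, tw_of_mod_two H (by omega) s hp]

/-- `k ≡ 0 (mod 3)`. -/
theorem gs_pow_three (s : Eis) {p : Eis} (hp : IsPrim p) (hpp : Prime p) {k : ℕ}
    (hk : k % 3 = 2) :
    gs (s * p ^ k) (p ^ (k + 1)) = (nm p : ℂ) ^ k *
      ((open Classical in if p ∣ s then (nm p : ℂ) else 0) - 1) := by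
  rw [gs_pow H s hp k, tw_of_mod_zero H (by omega) (by omega) s hp hpp]

/-- the complete table, `p ∤ r`, exponent `k ≤ a` (Ramanujan sum range). -/
theorem gs_table_le {r p : Eis} (hp : IsPrim p) (hpp : Prime p) {a k : ℕ}
    (hka : k + 1 ≤ a) : gs (r * p ^ a) (p ^ (k + 1)) =
      if (k + 1) % 3 = 0 then (nm p : ℂ) ^ k * (nm p - 1) else 0 := by
  have h1 : r * p ^ a = (r * p ^ (a - k)) * p ^ k := by
    rw [mul_assoc, ← pow_add]; congr 2; omega
  have h2 : p ∣ r * p ^ (a - k) := (dvd_pow_self p (by omega)).mul_left r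
  rw [h1]
  split_ifs with h
  · rw [gs_pow_three H _ hp hpp (by omega), if_pos h2]
  · have h3 : k % 3 = 0 ∨ k % 3 = 1 := by omega
    rcases h3 with h3 | h3
    · rw [gs_pow_one H _ hp h3, gs_prime_of_dvd H hp hpp h2, mul_zero]
    · rw [gs_pow_two H _ hp h3, gs_prime_of_dvd H hp hpp h2, map_zero, mul_zero]

/-- the complete table, `p ∤ r`, exponent `k = a + 1`. -/
theorem gs_table_succ {r p : Eis} (hp : IsPrim p) (hpp : Prime p) (hr : ¬ p ∣ r) (a : ℕ) :
    gs (r * p ^ a) (p ^ (a + 1)) = (nm p : ℂ) ^ a *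
      (if a % 3 = 0 then gs r p else if a % 3 = 1 then (starRingEnd ℂ) (gs r p) else -1) := by
  split_ifs with h h'
  · rw [gs_pow_one H _ hp h]
  · rw [gs_pow_two H _ hp h']
  · rw [gs_pow_three H _ hp hpp (by omega), if_neg hr, zero_sub]

/-- the complete table, `p ∤ r`, exponent `k ≥ a + 2`. -/
theorem gs_table_ge {r p : Eis} (hp : IsPrim p) (hpp : Prime p) (hr : ¬ p ∣ r) {a k : ℕ}
    (hk : a + 2 ≤ k) : gs (r * p ^ a) (p ^ k) = 0 := by
  obtain ⟨j, rfl⟩ : ∃ j, k = j + 1 := ⟨k - 1, by omega⟩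
  apply gs_pow_of_not_dvd H hp
  intro h
  apply hr
  have h1 : p ^ (a + 1) ∣ r * p ^ a := (pow_dvd_pow p (by omega)).trans h
  rw [pow_succ', mul_dvd_mul_iff_right (pow_ne_zero _ hp.ne_zero)] at h1
  exact h1

/-! ### the special cases used in the relations between residues -/

/-- `p ∤ h`: `gs h (p^k) = 0` for `k ≥ 2`. -/
theorem gs_pow_ge_two {h p : Eis} (hp : IsPrim p) (hpp : Prime p) (hh : ¬ p ∣ h) {k : ℕ}
    (hk : 2 ≤ k) : gs h (p ^ k) = 0 := by
  have := gs_table_ge H hp hpp hh (a := 0) (k := k) (by omega)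
  simpa using this

theorem gs_mul_p_prime {h p : Eis} (hp : IsPrim p) (hpp : Prime p) :
    gs (h * p) p = 0 := gs_prime_of_dvd H hp hpp (dvd_mul_left _ _)

/-- `gs (h p) (p^2) = N conj (gs h p)`. -/
theorem gs_p_sq {h p : Eis} (hp : IsPrim p) :
    gs (h * p) (p ^ 2) = nm p * (starRingEnd ℂ) (gs h p) := by
  have := gs_pow_two H h hp (k := 1) (by norm_num)
  simpa using this

/-- `p ∤ h`: `gs (h p) (p^k) = 0` for `k ≥ 3`. -/
theorem gs_p_pow_ge_three {h p : Eis} (hp : IsPrim p) (hpp : Prime p) (hh : ¬ p ∣ h) {k : ℕ}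
    (hk : 3 ≤ k) : gs (h * p) (p ^ k) = 0 := by
  have := gs_table_ge H hp hpp hh (a := 1) (k := k) (by omega)
  simpa using this

theorem gs_sq_p {h p : Eis} (hp : IsPrim p) (hpp : Prime p) : gs (h * p ^ 2) p = 0 :=
  gs_prime_of_dvd H hp hpp ((dvd_pow_self p two_ne_zero).mul_left h)

theorem gs_sq_sq {h p : Eis} (hp : IsPrim p) (hpp : Prime p) : gs (h * p ^ 2) (p ^ 2) = 0 := by
  have := gs_table_le H (r := h) hp hpp (a := 2) (k := 1) (by omega)
  simpa using this

theorem gs_sq_cube {h p : Eis} (hp : IsPrim p) (hpp : Prime p) (hh : ¬ p ∣ h) :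
    gs (h * p ^ 2) (p ^ 3) = -(nm p : ℂ) ^ 2 := by
  have := gs_table_succ H hp hpp hh 2
  simpa using this

theorem gs_sq_pow_ge_four {h p : Eis} (hp : IsPrim p) (hpp : Prime p) (hh : ¬ p ∣ h) {k : ℕ}
    (hk : 4 ≤ k) : gs (h * p ^ 2) (p ^ k) = 0 :=
  gs_table_ge H hp hpp hh (a := 2) (by omega)

end Crest.Agent.R012.GaussLoc283
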