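import Crest.Agent.R012.GaussInst_880
import Crest.Agent.R012.GaussLoc_283

/-!
# Row 12, item R3c (part 2): relations between the sums `Psi h f` at a prime

`Psi h f = Σ_{c primary} gs h c * f c`, `PsiP p h f` = the same over `p ∤ c`
(arbitrary `f` with summable series; in particular finitely supported `f`).

* `syAx : SyAx`, so all lemmas of `GaussLoc_283` are unconditional
* `Psi_eq_sum` : `Psi h f = Σ_{k ≤ K} gs h (p^k) * PsiP p (h p^k) (f (p^k ·))` if
  `gs h (p^k) = 0` for `k > K`
* `Psi_eq_zero_mod` (`p ∤ h`) : `Psi h f = PsiP p h f + gs h p * PsiP p (h p) (f (p ·))`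
* `Psi_eq_one_mod` : `Psi (h p) f = PsiP p (h p) f + N * conj (gs h p) * PsiP p h (f (p^2 ·))`
* `Psi_eq_two_mod` : `Psi (h p^2) f = PsiP p (h p^2) f - N^2 * PsiP p (h p^2) (f (p^3 ·))`
* `PsiP_cube` : `PsiP p (h p^3) f = PsiP p h f`, `PsiP_cube' : PsiP p (h c^3) ..` .
-/

set_option autoImplicit false
set_option linter.unusedSimpArgs false
set_option linter.unusedVariables false

noncomputable section

open Complex

namespace Crest.Agent.R012.GaussLoc283

open Crest.Agent.R012 Crest.Agent.R012.Eis Crest.Agent.R012.Gauss880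

/-- the facts on the cubic symbol hold. -/
theorem syAx : SyAx where
  mul_left := syG.mul_left
  mul_right := syG.mul_right
  congr := syG.congr
  eq_zero := syG.eq_zero
  cube := syG.cube
  recip := syG.recip
  nontriv p hp hpp := syG.nontriv p hp hpp

/-- general term of `Psi`. -/
def psiT (h : Eis) (f : Eis → ℂ) (c : Eis) : ℂ :=
  open Classical in if IsPrim c then gs h c * f c else 0

/-- `Psi h f = Σ_{c primary} gs h c * f c`. -/
def Psi (h : Eis) (f : Eis → ℂ) : ℂ := ∑' c : Eis, psiT h f c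

/-- general term of `PsiP`. -/
def psiPT (p h : Eis) (f : Eis → ℂ) (c : Eis) : ℂ :=
  open Classical in if IsPrim c ∧ ¬ p ∣ c then gs h c * f c else 0

/-- `PsiP p h f = Σ_{c primary, p ∤ c} gs h c * f c`. -/
def PsiP (p h : Eis) (f : Eis → ℂ) : ℂ := ∑' c : Eis, psiPT p h f c

lemma psiT_of {h : Eis} {f : Eis → ℂ} {c : Eis} (hc : IsPrim c) : psiT h f c = gs h c * f c := by
  unfold psiT; rw [if_pos hc]

lemma psiT_of_not {h : Eis} {f : Eis → ℂ} {c : Eis} (hc : ¬ IsPrim c) : psiT h f c = 0 := by
  unfold psiT; rw [if_neg hc]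

lemma psiPT_eq (p h : Eis) (f : Eis → ℂ) (c : Eis) :
    psiPT p h f c = open Classical in if p ∣ c then 0 else psiT h f c := by
  classical
  unfold psiPT psiT
  by_cases h1 : IsPrim c <;> by_cases h2 : p ∣ c <;> simp [h1, h2]

lemma summable_psiT_of_finite {h : Eis} {f : Eis → ℂ} (hf : (Function.support f).Finite) :
    Summable (psiT h f) := by
  apply summable_of_hasFiniteSupport
  refine hf.subset ?_
  intro c hc
  simp only [Function.mem_support, psiT] at hc ⊢
  intro h0
  apply hc
  rw [h0]; simp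



lemma summable_psiPT {p h : Eis} {f : Eis → ℂ} (hf : Summable (psiT h f)) :
    Summable (psiPT p h f) := by
  classical
  have : psiPT p h f = Set.indicator {c | ¬ p ∣ c} (psiT h f) := by
    funext c
    rw [psiPT_eq, Set.indicator_apply]
    by_cases h2 : p ∣ c <;> simp [h2]
  rw [this]
  exact hf.indicator _

/-- the part of `psiT` on which the exact power of `p` is `p^k`. -/
def psiK (p h : Eis) (f : Eis → ℂ) (k : ℕ) (c : Eis) : ℂ :=
  open Classical in if p ^ k ∣ c ∧ ¬ p ^ (k + 1) ∣ c then psiT h f c else 0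

lemma summable_psiK {p h : Eis} {f : Eis → ℂ} (k : ℕ) (hf : Summable (psiT h f)) :
    Summable (psiK p h f k) := by
  classical
  have : psiK p h f k = Set.indicator {c | p ^ k ∣ c ∧ ¬ p ^ (k + 1) ∣ c} (psiT h f) := by
    funext c
    unfold psiK
    rw [Set.indicator_apply]
    rfl
  rw [this]
  exact hf.indicator _

lemma tsum_psiK {p : Eis} (hp : IsPrim p) (hpp : Prime p) (h : Eis) (f : Eis → ℂ) (k : ℕ) :
    ∑' c, psiK p h f k c = gs h (p ^ k) * PsiP p (h * p ^ k) (fun c => f (p ^ k * c)) := by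
  classical
  have hp0 : p ^ k ≠ 0 := pow_ne_zero k hp.ne_zero
  have hinj : Function.Injective (fun m : Eis => p ^ k * m) := mul_right_injective₀ hp0
  have hsupp : Function.support (psiK p h f k) ⊆ Set.range (fun m : Eis => p ^ k * m) := by
    intro c hc
    simp only [Function.mem_support, psiK] at hc
    by_contra hcon
    apply hc
    rw [if_neg]
    rintro ⟨⟨m, hm⟩, -⟩
    exact hcon ⟨m, hm.symm⟩
  rw [← hinj.tsum_eq hsupp]
  unfold PsiP
  rw [← tsum_mul_left]
  apply tsum_congr
  intro m
  unfold psiK psiPT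
  have e1 : p ^ k ∣ p ^ k * m := dvd_mul_right _ _
  have e2 : p ^ (k + 1) ∣ p ^ k * m ↔ p ∣ m := by
    rw [pow_succ, mul_dvd_mul_iff_left hp0]
  by_cases h1 : p ∣ m
  · rw [if_neg (fun h => h.2 (e2.mpr h1)), if_neg (fun h => h.2 h1), mul_zero]
  · rw [if_pos ⟨e1, fun h => h1 (e2.mp h)⟩]
    by_cases h2 : IsPrim m
    · rw [if_pos ⟨h2, h1⟩, psiT_of ((hp.pow k).mul h2)]
      have hcop : IsCoprime (p ^ k) m := by
        apply IsCoprime.pow_left
        exact (hpp.irreducible.coprime_iff_not_dvd).mpr h1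
      rw [gs_mul' syAx h (hp.pow k) h2 hcop]
      ring
    · rw [if_neg (fun h => h2 h.1), psiT_of_not, mul_zero]
      intro h3
      exact h2 (h3.of_mul_left (hp.pow k))

/-- **decomposition by the exact power of `p`**. -/
theorem Psi_eq_sum {p : Eis} (hp : IsPrim p) (hpp : Prime p) {h : Eis} {f : Eis → ℂ}
    (hf : Summable (psiT h f)) (K : ℕ) (hK : ∀ k, K < k → gs h (p ^ k) = 0) :
    Psi h f = ∑ k ∈ Finset.range (K + 1),
      gs h (p ^ k) * PsiP p (h * p ^ k) (fun c => f (p ^ k * c)) := by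
  classical
  have h1 : ∀ c, psiT h f c = ∑ k ∈ Finset.range (K + 1), psiK p h f k c := by
    intro c
    by_cases hc : IsPrim c
    · obtain ⟨m, hcm, hm⟩ := (FiniteMultiplicity.of_prime_left hpp
        hc.ne_zero).exists_eq_pow_mul_and_not_dvd
      set k := multiplicity p c with hk
      clear_value k
      have hmp : IsPrim m := by
        rw [hcm] at hc; exact hc.of_mul_left (hp.pow k)
      have hp0 : p ^ k ≠ 0 := pow_ne_zero k hp.ne_zero
      have hcop : IsCoprime (p ^ k) m := by
        apply IsCoprime.pow_left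
        exact (hpp.irreducible.coprime_iff_not_dvd).mpr hm
      have hdk : ∀ j, p ^ j ∣ c ↔ j ≤ k := by
        intro j
        constructor
        · intro hj
          by_contra hlt
          push Not at hlt
          have h2 : p ^ (k + 1) ∣ c := (pow_dvd_pow p hlt).trans hj
          rw [hcm, pow_succ, mul_dvd_mul_iff_left hp0] at h2
          exact hm h2
        · intro hj
          rw [hcm]; exact (pow_dvd_pow p hj).mul_right m
      have hval : ∀ j, psiK p h f j c = if j = k then psiT h f c else 0 := by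
        intro j
        unfold psiK
        rw [hdk, hdk]
        by_cases hjk : j = k
        · subst hjk; rw [if_pos ⟨le_refl _, by omega⟩, if_pos rfl]
        · rw [if_neg (by omega), if_neg hjk]
      simp only [hval]
      rw [Finset.sum_ite_eq']
      split_ifs with h3
      · rfl
      · rw [Finset.mem_range] at h3
        rw [psiT_of hc, hcm, gs_mul' syAx h (hp.pow k) hmp hcop, hK k (by omega)]
        ring
    · rw [psiT_of_not hc]
      symm
      apply Finset.sum_eq_zero
      intro k _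
      unfold psiK
      rw [psiT_of_not hc]
      split_ifs <;> rfl
  unfold Psi
  rw [tsum_congr h1, Summable.tsum_finsetSum (fun k _ => summable_psiK k hf)]
  apply Finset.sum_congr rfl
  intro k _
  exact tsum_psiK hp hpp h f k

/-- `PsiP p (h p^3) = PsiP p h`. -/
theorem PsiP_cube {p : Eis} (hpp : Prime p) (h : Eis) (f : Eis → ℂ) :
    PsiP p (h * p ^ 3) f = PsiP p h f := by
  unfold PsiP
  apply tsum_congr
  intro c
  unfold psiPT
  split_ifs with h1
  · rw [gs_cube_left syAx h h1.1 ((hpp.irreducible.coprime_iff_not_dvd).mpr h1.2)]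
  · rfl

/-- `p ∤ h`: `Psi h f = PsiP p h f + gs h p * PsiP p (h p) (f (p ·))`. -/
theorem Psi_zero {p : Eis} (hp : IsPrim p) (hpp : Prime p) {h : Eis} (hh : ¬ p ∣ h)
    {f : Eis → ℂ} (hf : Summable (psiT h f)) :
    Psi h f = PsiP p h f + gs h p * PsiP p (h * p) (fun c => f (p * c)) := by
  rw [Psi_eq_sum hp hpp hf 1 (fun k hk => gs_pow_ge_two syAx hp hpp hh (by omega)),
    Finset.sum_range_succ, Finset.sum_range_one]
  simp [gs_one_right syAx]


/-- `p ∤ h`: `Psi (h p^2) f = PsiP p (h p^2) f - N^2 * PsiP p (h p^2) (f (p^3 ·))`. -/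
theorem Psi_two {p : Eis} (hp : IsPrim p) (hpp : Prime p) {h : Eis} (hh : ¬ p ∣ h)
    {f : Eis → ℂ} (hf : Summable (psiT (h * p ^ 2) f)) :
    Psi (h * p ^ 2) f = PsiP p (h * p ^ 2) f -
      (nm p : ℂ) ^ 2 * PsiP p (h * p ^ 2) (fun c => f (p ^ 3 * c)) := by
  rw [Psi_eq_sum hp hpp hf 3 (fun k hk => gs_sq_pow_ge_four syAx hp hpp hh (by omega)),
    Finset.sum_range_succ, Finset.sum_range_succ, Finset.sum_range_succ, Finset.sum_range_one,
    gs_sq_cube syAx hp hpp hh, gs_sq_sq syAx hp hpp, pow_one, gs_sq_p syAx hp hpp, PsiP_cube hpp]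
  simp [gs_one_right syAx]
  ring




end Crest.Agent.R012.GaussLoc283
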