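import Crest.Agent.R012.Mob_705
import Crest.Agent.R012.PoissonG_381
import Crest.Agent.R012.LS2Spec_381
import Crest.Agent.R012.GaussInst_880
import Crest.Agent.R012.GaussLoc_283
import Crest.Agent.R012.PsiRel_283
import Crest.Agent.R012.SpecM_49

-- ▼ part R012/TypeI_941
section

/-!
# Row 12, item TI (part 1): the local recursion for sums of Gauss sums with coprimality

`U g χ W r P Y = Σ_{b primary, (b, ∏P) = 1} g r b · χ b · W (N(b) / Y)`.

* `rel1`, `rel2` : adding a prime `p` to the coprimality condition `P`.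
-/

set_option autoImplicit false
set_option linter.unusedSimpArgs false

noncomputable section

open Complex
open scoped ENNReal

namespace Crest.Agent.R012.TypeI941

open Crest.Agent.R012 Eis

/-- Primary primes. -/
abbrev PP (p : Eis) : Prop := Mob705.IsPP p

/-- `b` is prime to all elements of `P`. -/
def cop (P : Finset Eis) (b : Eis) : Prop := ∀ p ∈ P, ¬ p ∣ b

/-- The local facts on normalised Gauss sums `g r b = gs r b / √N(b)` used in the recursion. -/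
structure LocalGauss (g : Eis → Eis → ℂ) : Prop where
  vanish0 : ∀ {r b p : Eis}, PP p → ¬ p ∣ r → IsPrim b → p ^ 2 ∣ b → g r b = 0
  mul1 : ∀ {r b p : Eis}, PP p → ¬ p ∣ r → IsPrim b → ¬ p ∣ b →
    g r (p * b) = g r p * g (r * p) b
  vanish1 : ∀ {r b p : Eis}, PP p → ¬ p ∣ r → IsPrim b → ¬ p ∣ b → g (r * p) (p * b) = 0
  vanish3 : ∀ {r b p : Eis}, PP p → ¬ p ∣ r → IsPrim b → p ^ 3 ∣ b → g (r * p) b = 0
  mul2 : ∀ {r b p : Eis}, PP p → ¬ p ∣ r → IsPrim b → ¬ p ∣ b →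
    g (r * p) (p ^ 2 * b) = g (r * p) (p ^ 2) * g r b
  norm1 : ∀ {r p : Eis}, PP p → ¬ p ∣ r → ‖g r p‖ = 1
  sq : ∀ {r p : Eis}, PP p → ¬ p ∣ r →
    g (r * p) (p ^ 2) = (Real.sqrt (nm p) : ℂ) * (starRingEnd ℂ) (g r p)
  sqv : ∀ {r b p : Eis}, PP p → ¬ p ∣ r → IsPrim b → ¬ p ∣ b → g (r * p ^ 2) (p * b) = 0
  sqv2 : ∀ {r b p : Eis}, PP p → ¬ p ∣ r → IsPrim b → ¬ p ∣ b → g (r * p ^ 2) (p ^ 2 * b) = 0
  sqv4 : ∀ {r b p : Eis}, PP p → ¬ p ∣ r → IsPrim b → p ^ 4 ∣ b → g (r * p ^ 2) b = 0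
  mul3 : ∀ {r b p : Eis}, PP p → ¬ p ∣ r → IsPrim b → ¬ p ∣ b →
    g (r * p ^ 2) (p ^ 3 * b) = -(Real.sqrt (nm p) : ℂ) * g (r * p ^ 2) b

open Classical in
/-- `U g χ W r P Y = Σ_{b primary, (b, P) = 1} g r b χ b W(N(b)/Y)`. -/
def U (g : Eis → Eis → ℂ) (χ : Eis → ℂ) (W : ℝ → ℂ) (r : Eis) (P : Finset Eis) (Y : ℝ) : ℂ :=
  ∑' b : Eis, if IsPrim b ∧ cop P b then g r b * χ b * W ((nm b : ℝ) / Y) else 0

/-! ### Splitting off a prime -/

lemma finite_support_of_bdd {F : Eis → ℂ} (X : ℝ) (hF : ∀ b : Eis, X < nm b → F b = 0) :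
    (Function.support F).Finite := by
  refine (ball ⌈max X 0⌉₊).finite_toSet.subset fun b hb => ?_
  rw [Finset.mem_coe, mem_ball]
  by_contra h
  push Not at h
  apply hb
  apply hF
  calc X ≤ max X 0 := le_max_left _ _
    _ ≤ (⌈max X 0⌉₊ : ℝ) := Nat.le_ceil _
    _ < nm b := by exact_mod_cast h

lemma tsum_split_prime {F : Eis → ℂ} (hF : (Function.support F).Finite) {p : Eis} (hp : p ≠ 0) :
    ∑' b, F b = (∑' b, open Classical in if p ∣ b then 0 else F b) + ∑' b, F (p * b) := by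
  classical
  have hs : Summable F := summable_of_hasFiniteSupport hF
  have hinj : Function.Injective (fun b : Eis => p * b) := mul_right_injective₀ hp
  have h1 : ∑' b, F (p * b) = ∑' b, if p ∣ b then F b else 0 := by
    have hsup : Function.support (fun b => if p ∣ b then F b else 0) ⊆
        Set.range (fun b : Eis => p * b) := by
      intro b hb
      by_cases h : p ∣ b
      · obtain ⟨c, rfl⟩ := h; exact ⟨c, rfl⟩
      · simp [h] at hb
    have := hinj.tsum_eq hsup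
    rw [← this]
    refine tsum_congr fun b => ?_
    simp
  rw [h1, ← Summable.tsum_add]
  · refine tsum_congr fun b => ?_
    by_cases h : p ∣ b <;> simp [h]
  · apply summable_of_hasFiniteSupport
    refine hF.subset fun b hb => ?_
    by_cases h : p ∣ b
    · simp [h] at hb
    · simpa [h] using hb
  · apply summable_of_hasFiniteSupport
    refine hF.subset fun b hb => ?_
    by_cases h : p ∣ b
    · simpa [h] using hb
    · simp [h] at hb

lemma PP.isPrim_mul_iff {p b : Eis} (hp : PP p) : IsPrim (p * b) ↔ IsPrim b :=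
  ⟨fun h => h.of_mul_left hp.isPrim, fun h => hp.isPrim.mul h⟩

lemma PP.dvd_mul_iff {p q b : Eis} (hp : PP p) (hq : PP q) (hne : p ≠ q) :
    p ∣ q * b ↔ p ∣ b := by
  constructor
  · intro h
    rcases hp.prime.dvd_or_dvd h with h | h
    · exfalso; apply hne
      exact hp.isPrim.eq_of_associated hq.isPrim (hp.prime.associated_of_dvd hq.prime h)
    · exact h
  · intro h; exact h.mul_left _

lemma cop_mul_iff {P : Finset Eis} (hP : ∀ q ∈ P, PP q) {p b : Eis} (hp : PP p) (hpP : p ∉ P) :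
    cop P (p * b) ↔ cop P b := by
  unfold cop
  refine forall₂_congr fun q hq => ?_
  rw [(hP q hq).dvd_mul_iff hp (fun h => hpP (h ▸ hq))]

lemma cop_insert {P : Finset Eis} [DecidableEq Eis] {p b : Eis} :
    cop (insert p P) b ↔ ¬ p ∣ b ∧ cop P b := by
  unfold cop; simp [Finset.forall_mem_insert]

variable {g : Eis → Eis → ℂ} {χ : Eis → ℂ} {W : ℝ → ℂ} {β : ℝ}

open Classical in
lemma support_term_finite (hW : ∀ x, β < x → W x = 0) (r : Eis) (P : Finset Eis) {Y : ℝ}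
    (hY : 0 < Y) :
    (Function.support fun b : Eis =>
      if IsPrim b ∧ cop P b then g r b * χ b * W ((nm b : ℝ) / Y) else 0).Finite := by
  apply finite_support_of_bdd (β * Y)
  intro b hb
  have : W ((nm b : ℝ) / Y) = 0 := hW _ (by rwa [lt_div_iff₀ hY])
  simp [this]

/-- Adding the prime `p` (prime to `r`) to the coprimality condition. -/
lemma rel1 [DecidableEq Eis] (hg : LocalGauss g) (hχ : ∀ a b, χ (a * b) = χ a * χ b)
    (hW : ∀ x, β < x → W x = 0) {P : Finset Eis} (hP : ∀ q ∈ P, PP q)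
    {p r : Eis} (hp : PP p) (hpP : p ∉ P) (hr : ¬ p ∣ r) {Y : ℝ} (hY : 0 < Y) :
    U g χ W r P Y = U g χ W r (insert p P) Y +
      g r p * χ p * U g χ W (r * p) (insert p P) (Y / nm p) := by
  classical
  have hn : (0 : ℝ) < nm p := by exact_mod_cast nm_pos.mpr hp.prime.ne_zero
  unfold U
  rw [tsum_split_prime (support_term_finite hW r P hY) hp.prime.ne_zero, ← tsum_mul_left]
  congr 1
  · refine tsum_congr fun b => ?_
    simp only [cop_insert]
    by_cases h : p ∣ b <;> simp [h]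
  · refine tsum_congr fun b => ?_
    simp only [cop_insert, cop_mul_iff hP hp hpP, hp.isPrim_mul_iff]
    by_cases hb : IsPrim b
    · by_cases h : p ∣ b
      · have : g r (p * b) = 0 := by
          refine hg.vanish0 hp hr (hp.isPrim.mul hb) ?_
          rw [pow_two]; exact mul_dvd_mul_left p h
        simp [h, this]
      · by_cases hc : cop P b
        · have e : ((nm (p * b) : ℕ) : ℝ) / Y = (nm b : ℝ) / (Y / nm p) := by
            rw [nm_mul]; push_cast; field_simp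
          simp only [hb, hc, h, not_false_eq_true, and_self, if_true, and_true, true_and]
          rw [hg.mul1 hp hr hb h, hχ, e]
          ring
        · simp [hc]
    · simp [hb]

/-- Adding the prime `p` (dividing the numerator exactly once) to the coprimality condition. -/
lemma rel2 [DecidableEq Eis] (hg : LocalGauss g) (hχ : ∀ a b, χ (a * b) = χ a * χ b)
    (hW : ∀ x, β < x → W x = 0) {P : Finset Eis} (hP : ∀ q ∈ P, PP q)
    {p r : Eis} (hp : PP p) (hpP : p ∉ P) (hr : ¬ p ∣ r) {Y : ℝ} (hY : 0 < Y) :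
    U g χ W (r * p) P Y = U g χ W (r * p) (insert p P) Y +
      g (r * p) (p ^ 2) * χ p ^ 2 * U g χ W r (insert p P) (Y / (nm p : ℝ) ^ 2) := by
  classical
  have hn : (0 : ℝ) < nm p := by exact_mod_cast nm_pos.mpr hp.prime.ne_zero
  unfold U
  have hfin := support_term_finite (g := g) (χ := χ) hW (r * p) P hY
  rw [tsum_split_prime hfin hp.prime.ne_zero, ← tsum_mul_left]
  congr 1
  · refine tsum_congr fun b => ?_
    simp only [cop_insert]
    by_cases h : p ∣ b <;> simp [h]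
  · have hfin2 : (Function.support fun b : Eis =>
        (fun b : Eis => if IsPrim b ∧ cop P b then g (r * p) b * χ b * W ((nm b : ℝ) / Y) else 0)
          (p * b)).Finite := by
      exact Set.Finite.preimage (mul_right_injective₀ hp.prime.ne_zero).injOn hfin
    rw [tsum_split_prime hfin2 hp.prime.ne_zero]
    have hzero : (∑' b : Eis, if p ∣ b then 0 else
        (fun b : Eis => (fun b : Eis => if IsPrim b ∧ cop P b then
          g (r * p) b * χ b * W ((nm b : ℝ) / Y) else 0) (p * b)) b) = 0 := by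
      rw [← tsum_zero (β := Eis)]
      refine tsum_congr fun b => ?_
      by_cases h : p ∣ b
      · simp [h]
      · simp only [h, if_false]
        by_cases hb : IsPrim b
        · simp [hg.vanish1 hp hr hb h]
        · simp [hp.isPrim_mul_iff, hb]
    rw [hzero, zero_add]
    refine tsum_congr fun b => ?_
    simp only [cop_insert, cop_mul_iff hP hp hpP, hp.isPrim_mul_iff]
    by_cases hb : IsPrim b
    · by_cases h : p ∣ b
      · have : g (r * p) (p * (p * b)) = 0 := by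
          refine hg.vanish3 hp hr (hp.isPrim.mul (hp.isPrim.mul hb)) ?_
          obtain ⟨c, rfl⟩ := h
          exact ⟨c, by ring⟩
        simp [h, this]
      · by_cases hc : cop P b
        · have e : ((nm (p * (p * b)) : ℕ) : ℝ) / Y = (nm b : ℝ) / (Y / (nm p : ℝ) ^ 2) := by
            rw [nm_mul, nm_mul]; push_cast; field_simp
          simp only [hb, hc, h, not_false_eq_true, and_self, if_true, and_true, true_and]
          have e2 : p * (p * b) = p ^ 2 * b := by ring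
          rw [e, e2, hg.mul2 hp hr hb h, hχ, pow_two p, hχ]
          ring
        · simp [hc]
    · simp [hb]

/-- Adding the prime `p` (dividing the numerator exactly twice) to the coprimality condition. -/
lemma rel3 [DecidableEq Eis] (hg : LocalGauss g) (hχ : ∀ a b, χ (a * b) = χ a * χ b)
    (hW : ∀ x, β < x → W x = 0) {P : Finset Eis} (hP : ∀ q ∈ P, PP q)
    {p r : Eis} (hp : PP p) (hpP : p ∉ P) (hr : ¬ p ∣ r) {Y : ℝ} (hY : 0 < Y) :
    U g χ W (r * p ^ 2) P Y = U g χ W (r * p ^ 2) (insert p P) Y +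
      -(Real.sqrt (nm p) : ℂ) * χ p ^ 3 * U g χ W (r * p ^ 2) (insert p P) (Y / (nm p : ℝ) ^ 3) := by
  classical
  have hn : (0 : ℝ) < nm p := by exact_mod_cast nm_pos.mpr hp.prime.ne_zero
  have hp0 := hp.prime.ne_zero
  unfold U
  set F : Eis → ℂ := fun b => if IsPrim b ∧ cop P b then
    g (r * p ^ 2) b * χ b * W ((nm b : ℝ) / Y) else 0 with hF
  have hfin : (Function.support F).Finite :=
    support_term_finite (g := g) (χ := χ) hW (r * p ^ 2) P hY
  have hfin1 : (Function.support fun b => F (p * b)).Finite :=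
    Set.Finite.preimage (mul_right_injective₀ hp0).injOn hfin
  have hfin2 : (Function.support fun b => F (p * (p * b))).Finite :=
    Set.Finite.preimage (mul_right_injective₀ hp0).injOn hfin1
  have hz1 : ∀ b, ¬ p ∣ b → F (p * b) = 0 := by
    intro b h
    simp only [hF]
    by_cases hb : IsPrim b
    · simp [hg.sqv hp hr hb h]
    · simp [hp.isPrim_mul_iff, hb]
  have hz2 : ∀ b, ¬ p ∣ b → F (p * (p * b)) = 0 := by
    intro b h
    simp only [hF]
    by_cases hb : IsPrim b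
    · have e : p * (p * b) = p ^ 2 * b := by ring
      simp [e, hg.sqv2 hp hr hb h]
    · simp [hp.isPrim_mul_iff, hb]
  rw [tsum_split_prime hfin hp0, tsum_split_prime hfin1 hp0, tsum_split_prime hfin2 hp0]
  have hzero1 : (∑' b : Eis, if p ∣ b then 0 else F (p * b)) = 0 := by
    rw [← tsum_zero (β := Eis)]
    refine tsum_congr fun b => ?_
    by_cases h : p ∣ b
    · simp [h]
    · simp [h, hz1 b h]
  have hzero2 : (∑' b : Eis, if p ∣ b then 0 else F (p * (p * b))) = 0 := by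
    rw [← tsum_zero (β := Eis)]
    refine tsum_congr fun b => ?_
    by_cases h : p ∣ b
    · simp [h]
    · simp [h, hz2 b h]
  rw [hzero1, zero_add, hzero2, zero_add, ← tsum_mul_left]
  congr 1
  · refine tsum_congr fun b => ?_
    simp only [cop_insert, hF]
    by_cases h : p ∣ b <;> simp [h]
  · refine tsum_congr fun b => ?_
    simp only [cop_insert, cop_mul_iff hP hp hpP, hp.isPrim_mul_iff, hF]
    by_cases hb : IsPrim b
    · by_cases h : p ∣ b
      · have : g (r * p ^ 2) (p * (p * (p * b))) = 0 := by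
          refine hg.sqv4 hp hr (hp.isPrim.mul (hp.isPrim.mul (hp.isPrim.mul hb))) ?_
          obtain ⟨c, rfl⟩ := h
          exact ⟨c, by ring⟩
        simp [h, this]
      · by_cases hc : cop P b
        · have e : ((nm (p * (p * (p * b))) : ℕ) : ℝ) / Y = (nm b : ℝ) / (Y / (nm p : ℝ) ^ 3) := by
            rw [nm_mul, nm_mul, nm_mul]; push_cast; field_simp
          simp only [hb, hc, h, not_false_eq_true, and_self, if_true, and_true, true_and]
          have e2 : p * (p * (p * b)) = p ^ 3 * b := by ring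
          rw [e, e2, hg.mul3 hp hr hb h, hχ, show p ^ 3 = p * (p * p) by ring, hχ, hχ]
          ring
        · simp [hc]
    · simp [hb]

end Crest.Agent.R012.TypeI941
end
end

-- ▼ part R012/TypeI2_941
section

/-!
# Row 12, item TI (part 2): inversion of the local recursion, pointwise bounds

If `E r P Y` satisfies the two local relations (`rel1`, `rel2`) then `E (∏P₁) (P₁ ∪ P₂) Y` is
bounded by a sum of `E h ∅ Y'` over squarefree `h`.
-/

set_option autoImplicit false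
set_option linter.unusedSimpArgs false

noncomputable section

open Complex
open scoped ENNReal

namespace Crest.Agent.R012.TypeI941

open Crest.Agent.R012 Eis

/-- One-prime iteration. -/
lemma iterate_bound {V F : ℝ → ℂ} {q : ℝ} (hq : 1 < q) {γ : ℂ} (hγ : ‖γ‖ ≤ q ^ ((1 : ℝ) / 2))
    (h : ∀ Y, 0 < Y → V Y = F Y + γ * V (Y / q ^ 3))
    {C : ℝ} (hC : ∀ Y, 0 < Y → Y ≤ 1 → ‖V Y‖ ≤ C * Y ^ ((5 : ℝ) / 6)) {Y : ℝ} (hY : 0 < Y) :
    ‖V Y‖ₑ ≤ ∑' j : ℕ, ENNReal.ofReal ((q ^ j) ^ ((1 : ℝ) / 2)) * ‖F (Y / (q ^ j) ^ 3)‖ₑ := by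
  have hq0 : 0 < q := by linarith
  have key : ∀ n : ℕ, V Y = (∑ j ∈ Finset.range n, γ ^ j * F (Y / (q ^ j) ^ 3)) +
      γ ^ n * V (Y / (q ^ n) ^ 3) := by
    intro n
    induction n with
    | zero => simp
    | succ n ih =>
      rw [ih, Finset.sum_range_succ, h (Y / (q ^ n) ^ 3) (by positivity)]
      have e : Y / (q ^ n) ^ 3 / q ^ 3 = Y / (q ^ (n + 1)) ^ 3 := by
        rw [div_div]; congr 1; ring
      rw [e]; ring
  have hγj : ∀ j : ℕ, ‖γ ^ j‖ ≤ (q ^ j) ^ ((1 : ℝ) / 2) := by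
    intro j
    rw [norm_pow]
    calc ‖γ‖ ^ j ≤ (q ^ ((1 : ℝ) / 2)) ^ j := by gcongr
      _ = (q ^ j) ^ ((1 : ℝ) / 2) := by
        rw [← Real.rpow_natCast, ← Real.rpow_mul hq0.le, ← Real.rpow_natCast q j,
          ← Real.rpow_mul hq0.le, mul_comm]
  -- the tail tends to zero
  have hn0 : ∃ n0 : ℕ, ∀ n, n0 ≤ n → Y / (q ^ n) ^ 3 ≤ 1 := by
    obtain ⟨n0, hn0⟩ := pow_unbounded_of_one_lt Y hq
    refine ⟨n0, fun n hn => ?_⟩
    rw [div_le_one (by positivity)]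
    have h1 : 1 ≤ q ^ n := one_le_pow₀ hq.le
    calc Y ≤ q ^ n0 := hn0.le
      _ ≤ q ^ n := pow_le_pow_right₀ hq.le hn
      _ = (q ^ n) ^ 1 := (pow_one _).symm
      _ ≤ (q ^ n) ^ 3 := pow_le_pow_right₀ h1 (by norm_num)
  obtain ⟨n0, hn0⟩ := hn0
  have hbound : ∀ n, n0 ≤ n → ‖γ ^ n * V (Y / (q ^ n) ^ 3)‖ ≤ (|C| * Y ^ ((5 : ℝ) / 6)) * (q⁻¹) ^ n := by
    intro n hn
    have hqn : 0 < q ^ n := by positivity
    rw [norm_mul]
    have h1 := hC (Y / (q ^ n) ^ 3) (by positivity) (hn0 n hn)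
    have h2 : (Y / (q ^ n) ^ 3) ^ ((5 : ℝ) / 6) = Y ^ ((5 : ℝ) / 6) / (q ^ n) ^ ((5 : ℝ) / 2) := by
      rw [Real.div_rpow hY.le (by positivity), ← Real.rpow_natCast (q ^ n) 3,
        ← Real.rpow_mul hqn.le]
      norm_num
    have h3 : (q ^ n) ^ ((1 : ℝ) / 2) / (q ^ n) ^ ((5 : ℝ) / 2) ≤ (q⁻¹) ^ n := by
      rw [← Real.rpow_sub hqn, inv_pow, ← Real.rpow_neg_one (q ^ n)]
      apply Real.rpow_le_rpow_of_exponent_le (one_le_pow₀ hq.le)
      norm_num
    calc ‖γ ^ n‖ * ‖V (Y / (q ^ n) ^ 3)‖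
        ≤ (q ^ n) ^ ((1 : ℝ) / 2) * (|C| * (Y / (q ^ n) ^ 3) ^ ((5 : ℝ) / 6)) := by
          apply mul_le_mul (hγj n) _ (norm_nonneg _) (by positivity)
          refine h1.trans ?_
          gcongr
          exact le_abs_self C
      _ = |C| * Y ^ ((5 : ℝ) / 6) * ((q ^ n) ^ ((1 : ℝ) / 2) / (q ^ n) ^ ((5 : ℝ) / 2)) := by
          rw [h2]; ring
      _ ≤ (|C| * Y ^ ((5 : ℝ) / 6)) * (q⁻¹) ^ n := by gcongr
  have htend : Filter.Tendsto (fun n => (|C| * Y ^ ((5 : ℝ) / 6)) * (q⁻¹) ^ n) Filter.atTop (nhds 0) := by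
    have := tendsto_pow_atTop_nhds_zero_of_lt_one (inv_nonneg.mpr hq0.le) (inv_lt_one_of_one_lt₀ hq)
    simpa using this.const_mul (|C| * Y ^ ((5 : ℝ) / 6))
  have htend2 : Filter.Tendsto (fun n => ENNReal.ofReal ((|C| * Y ^ ((5 : ℝ) / 6)) * (q⁻¹) ^ n))
      Filter.atTop (nhds 0) := by
    have := ENNReal.tendsto_ofReal htend
    simpa using this
  set S := ∑' j : ℕ, ENNReal.ofReal ((q ^ j) ^ ((1 : ℝ) / 2)) * ‖F (Y / (q ^ j) ^ 3)‖ₑ with hS
  have hle : ∀ n, n0 ≤ n → ‖V Y‖ₑ ≤ S + ENNReal.ofReal ((|C| * Y ^ ((5 : ℝ) / 6)) * (q⁻¹) ^ n) := by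
    intro n hn
    rw [key n]
    refine (enorm_add_le _ _).trans (add_le_add ?_ ?_)
    · refine (enorm_sum_le _ _).trans ?_
      refine le_trans (Finset.sum_le_sum fun j _ => ?_)
        (ENNReal.sum_le_tsum (Finset.range n))
      rw [enorm_mul]
      gcongr
      rw [← ofReal_norm]
      exact ENNReal.ofReal_le_ofReal (hγj j)
    · rw [← ofReal_norm]
      exact ENNReal.ofReal_le_ofReal (hbound n hn)
  have : Filter.Tendsto (fun n => S + ENNReal.ofReal ((|C| * Y ^ ((5 : ℝ) / 6)) * (q⁻¹) ^ n))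
      Filter.atTop (nhds (S + 0)) := htend2.const_add S
  rw [add_zero] at this
  exact ge_of_tendsto this (Filter.eventually_atTop.mpr ⟨n0, hle⟩)

/-- Primary elements all of whose primary prime divisors are in `P`. -/
def Gen (P : Finset Eis) : Set Eis := {m | IsPrim m ∧ ∀ q, PP q → q ∣ m → q ∈ P}

/-- `J P F Y = Σ_{m ∈ ⟨P⟩} N(m)^{1/2} F(Y/N(m)³)`. -/
def J (P : Finset Eis) (F : ℝ → ℝ≥0∞) (Y : ℝ) : ℝ≥0∞ :=
  ∑' m : Gen P, ENNReal.ofReal ((nm m.1 : ℝ) ^ ((1 : ℝ) / 2)) * F (Y / (nm m.1 : ℝ) ^ 3)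


lemma J_empty {F : ℝ → ℝ≥0∞} {Y : ℝ} : F Y ≤ J ∅ F Y := by
  have h1 : (1 : Eis) ∈ Gen ∅ := ⟨isPrim_one, fun q hq hd => absurd (isUnit_of_dvd_one hd) hq.prime.not_isUnit⟩
  have := ENNReal.le_tsum (f := fun m : Gen ∅ =>
    ENNReal.ofReal ((nm m.1 : ℝ) ^ ((1 : ℝ) / 2)) * F (Y / (nm m.1 : ℝ) ^ 3)) ⟨1, h1⟩
  unfold J
  simpa using this


lemma J_const_mul {P : Finset Eis} (c : ℝ≥0∞) (F : ℝ → ℝ≥0∞) (Y : ℝ) :
    J P (fun Y => c * F Y) Y = c * J P F Y := by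
  unfold J
  rw [← ENNReal.tsum_mul_left]
  exact tsum_congr fun m => by ring


/-- One-prime step for `J`. -/
lemma J_step {P : Finset Eis} [DecidableEq Eis] {p : Eis} (hp : PP p) (hpP : p ∉ P)
    (F : ℝ → ℝ≥0∞) (Y : ℝ) :
    ∑' j : ℕ, ENNReal.ofReal (((nm p : ℝ) ^ j) ^ ((1 : ℝ) / 2)) * J P F (Y / ((nm p : ℝ) ^ j) ^ 3)
      ≤ J (insert p P) F Y := by
  have hmem : ∀ (j : ℕ) (m : Gen P), p ^ j * m.1 ∈ Gen (insert p P) := by
    intro j m
    refine ⟨(hp.isPrim.pow j).mul m.2.1, fun q hq hd => ?_⟩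
    rcases hq.prime.dvd_or_dvd hd with h | h
    · have := hq.prime.dvd_of_dvd_pow h
      have e : q = p := hq.isPrim.eq_of_associated hp.isPrim (hq.prime.associated_of_dvd hp.prime this)
      simp [e]
    · exact Finset.mem_insert_of_mem (m.2.2 q hq h)
  have hnd : ∀ m : Gen P, ¬ p ∣ m.1 := fun m h => hpP (m.2.2 p hp h)
  have hinj : Function.Injective (fun x : ℕ × Gen P =>
      (⟨p ^ x.1 * x.2.1, hmem x.1 x.2⟩ : Gen (insert p P))) := by
    have aux : ∀ (j k : ℕ) (m m' : Gen P), j < k → p ^ j * m.1 = p ^ k * m'.1 → False := by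
      intro j k m m' hjk h
      obtain ⟨d, rfl⟩ := Nat.exists_eq_add_of_lt hjk
      have h2 : p ^ j * m.1 = p ^ j * (p * (p ^ d * m'.1)) := by rw [h]; ring
      have h3 := mul_left_cancel₀ (pow_ne_zero j hp.prime.ne_zero) h2
      exact hnd m ⟨_, h3⟩
    rintro ⟨j, m⟩ ⟨k, m'⟩ h
    simp only [Subtype.mk.injEq] at h
    have hjk : j = k := by
      rcases lt_trichotomy j k with h' | h' | h'
      · exact (aux j k m m' h' h).elim
      · exact h'
      · exact (aux k j m' m h' h.symm).elim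
    subst hjk
    have := mul_left_cancel₀ (pow_ne_zero j hp.prime.ne_zero) h
    exact Prod.ext rfl (Subtype.ext this)
  have h1 : (∑' j : ℕ, ENNReal.ofReal (((nm p : ℝ) ^ j) ^ ((1 : ℝ) / 2)) *
      J P F (Y / ((nm p : ℝ) ^ j) ^ 3)) =
      ∑' x : ℕ × Gen P, ENNReal.ofReal ((nm (p ^ x.1 * x.2.1) : ℝ) ^ ((1 : ℝ) / 2)) *
        F (Y / (nm (p ^ x.1 * x.2.1) : ℝ) ^ 3) := by
    rw [ENNReal.tsum_prod (f := fun (j : ℕ) (m : Gen P) =>
      ENNReal.ofReal ((nm (p ^ j * m.1) : ℝ) ^ ((1 : ℝ) / 2)) *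
        F (Y / (nm (p ^ j * m.1) : ℝ) ^ 3))]
    refine tsum_congr fun j => ?_
    unfold J
    rw [← ENNReal.tsum_mul_left]
    refine tsum_congr fun m => ?_
    have e : ((nm (p ^ j * m.1) : ℕ) : ℝ) = (nm p : ℝ) ^ j * nm m.1 := by
      rw [nm_mul, nm_pow]; push_cast; rfl
    rw [e, Real.mul_rpow (by positivity) (by positivity), ENNReal.ofReal_mul (by positivity),
      mul_assoc, mul_pow, div_div]
  rw [h1]
  unfold J
  exact ENNReal.tsum_comp_le_tsum_of_injective hinj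
    (fun m : Gen (insert p P) => ENNReal.ofReal ((nm m.1 : ℝ) ^ ((1 : ℝ) / 2)) *
      F (Y / (nm m.1 : ℝ) ^ 3))

/-- A family satisfying the two local relations. -/
structure Rec (E : Eis → Finset Eis → ℝ → ℂ) [DecidableEq Eis] : Prop where
  A : ∃ A B : Eis → Eis → ℂ, (∀ r p, PP p → ¬ p ∣ r → ‖A r p‖ ≤ 1) ∧
    (∀ r p, PP p → ¬ p ∣ r → ‖B r p‖ ≤ (nm p : ℝ) ^ ((1 : ℝ) / 2)) ∧
    (∀ (P : Finset Eis) (r p : Eis), (∀ q ∈ P, PP q) → PP p → p ∉ P → ¬ p ∣ r → ∀ Y : ℝ, 0 < Y →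
      E r P Y = E r (insert p P) Y + A r p * E (r * p) (insert p P) (Y / nm p)) ∧
    (∀ (P : Finset Eis) (r p : Eis), (∀ q ∈ P, PP q) → PP p → p ∉ P → ¬ p ∣ r → ∀ Y : ℝ, 0 < Y →
      E (r * p) P Y = E (r * p) (insert p P) Y + B r p * E r (insert p P) (Y / (nm p : ℝ) ^ 2))
  C : ∃ Γ : Eis → ℂ, (∀ p, PP p → ‖Γ p‖ ≤ (nm p : ℝ) ^ ((1 : ℝ) / 2)) ∧
    (∀ (P : Finset Eis) (r p : Eis), (∀ q ∈ P, PP q) → PP p → p ∉ P → ¬ p ∣ r → ∀ Y : ℝ, 0 < Y →
      E (r * p ^ 2) P Y = E (r * p ^ 2) (insert p P) Y +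
        Γ p * E (r * p ^ 2) (insert p P) (Y / (nm p : ℝ) ^ 3))
  growth : ∀ (r : Eis) (P : Finset Eis), ∃ C : ℝ, ∀ Y, 0 < Y → Y ≤ 1 → ‖E r P Y‖ ≤ C * Y ^ ((5 : ℝ) / 6)

lemma PP.one_lt_nmR {p : Eis} (hp : PP p) : (1 : ℝ) < nm p := by
  have h1 : nm p ≠ 1 := fun h => hp.prime.not_isUnit (isUnit_iff.mpr h)
  have h2 : 0 < nm p := nm_pos.mpr hp.prime.ne_zero
  exact_mod_cast (by omega : 1 < nm p)

variable [DecidableEq Eis] {E : Eis → Finset Eis → ℝ → ℂ}

/-- One prime, prime to `r`. -/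
lemma Rec.step1 (hE : Rec E) {P : Finset Eis} (hP : ∀ q ∈ P, PP q) {p r : Eis} (hp : PP p)
    (hpP : p ∉ P) (hr : ¬ p ∣ r) {Y : ℝ} (hY : 0 < Y) :
    ‖E r (insert p P) Y‖ₑ ≤ ∑' j : ℕ, ENNReal.ofReal (((nm p : ℝ) ^ j) ^ ((1 : ℝ) / 2)) *
      (‖E r P (Y / ((nm p : ℝ) ^ j) ^ 3)‖ₑ + ‖E (r * p) P (Y / ((nm p : ℝ) ^ j) ^ 3 / nm p)‖ₑ) := by
  obtain ⟨A, B, hA, hB, h1, h2⟩ := hE.A
  obtain ⟨C, hC⟩ := hE.growth r (insert p P)
  have hq := hp.one_lt_nmR
  have hq0 : (0 : ℝ) < nm p := by linarith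
  have hγ : ‖A r p * B r p‖ ≤ (nm p : ℝ) ^ ((1 : ℝ) / 2) := by
    rw [norm_mul]
    calc ‖A r p‖ * ‖B r p‖ ≤ 1 * (nm p : ℝ) ^ ((1 : ℝ) / 2) := by
          gcongr
          · exact hA r p hp hr
          · exact hB r p hp hr
      _ = _ := one_mul _
  have hrec : ∀ Y, 0 < Y → E r (insert p P) Y =
      (E r P Y - A r p * E (r * p) P (Y / nm p)) + (A r p * B r p) *
        E r (insert p P) (Y / (nm p : ℝ) ^ 3) := by
    intro Y hY
    have e1 := h1 P r p hP hp hpP hr Y hY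
    have e2 := h2 P r p hP hp hpP hr (Y / nm p) (by positivity)
    have e3 : Y / (nm p : ℝ) / (nm p : ℝ) ^ 2 = Y / (nm p : ℝ) ^ 3 := by rw [div_div]; congr 1; ring
    rw [e3] at e2
    rw [e1, e2]; ring
  refine (iterate_bound hq hγ hrec hC hY).trans ?_
  refine ENNReal.tsum_le_tsum fun j => ?_
  gcongr
  refine (enorm_sub_le).trans ?_
  gcongr
  rw [enorm_mul]
  calc ‖A r p‖ₑ * _ ≤ 1 * _ := by
        gcongr
        rw [← ofReal_norm, ← ENNReal.ofReal_one]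
        exact ENNReal.ofReal_le_ofReal (hA r p hp hr)
    _ = _ := one_mul _

/-- One prime, dividing the numerator once. -/
lemma Rec.step2 (hE : Rec E) {P : Finset Eis} (hP : ∀ q ∈ P, PP q) {p r : Eis} (hp : PP p)
    (hpP : p ∉ P) (hr : ¬ p ∣ r) {Y : ℝ} (hY : 0 < Y) :
    ‖E (r * p) (insert p P) Y‖ₑ ≤ ∑' j : ℕ, ENNReal.ofReal (((nm p : ℝ) ^ j) ^ ((1 : ℝ) / 2)) *
      (‖E (r * p) P (Y / ((nm p : ℝ) ^ j) ^ 3)‖ₑ + ENNReal.ofReal ((nm p : ℝ) ^ ((1 : ℝ) / 2)) *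
        ‖E r P (Y / ((nm p : ℝ) ^ j) ^ 3 / (nm p : ℝ) ^ 2)‖ₑ) := by
  obtain ⟨A, B, hA, hB, h1, h2⟩ := hE.A
  obtain ⟨C, hC⟩ := hE.growth (r * p) (insert p P)
  have hq := hp.one_lt_nmR
  have hq0 : (0 : ℝ) < nm p := by linarith
  have hγ : ‖A r p * B r p‖ ≤ (nm p : ℝ) ^ ((1 : ℝ) / 2) := by
    rw [norm_mul]
    calc ‖A r p‖ * ‖B r p‖ ≤ 1 * (nm p : ℝ) ^ ((1 : ℝ) / 2) := by
          gcongr
          · exact hA r p hp hr
          · exact hB r p hp hr
      _ = _ := one_mul _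
  have hrec : ∀ Y, 0 < Y → E (r * p) (insert p P) Y =
      (E (r * p) P Y - B r p * E r P (Y / (nm p : ℝ) ^ 2)) + (A r p * B r p) *
        E (r * p) (insert p P) (Y / (nm p : ℝ) ^ 3) := by
    intro Y hY
    have e1 := h2 P r p hP hp hpP hr Y hY
    have e2 := h1 P r p hP hp hpP hr (Y / (nm p : ℝ) ^ 2) (by positivity)
    have e3 : Y / (nm p : ℝ) ^ 2 / (nm p : ℝ) = Y / (nm p : ℝ) ^ 3 := by rw [div_div]; congr 1
    rw [e3] at e2
    rw [e1, e2]; ring
  refine (iterate_bound hq hγ hrec hC hY).trans ?_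
  refine ENNReal.tsum_le_tsum fun j => ?_
  gcongr
  refine (enorm_sub_le).trans ?_
  gcongr
  rw [enorm_mul]
  gcongr
  rw [← ofReal_norm]
  exact ENNReal.ofReal_le_ofReal (hB r p hp hr)

/-- One prime, dividing the numerator exactly twice. -/
lemma Rec.step3 (hE : Rec E) {P : Finset Eis} (hP : ∀ q ∈ P, PP q) {p r : Eis} (hp : PP p)
    (hpP : p ∉ P) (hr : ¬ p ∣ r) {Y : ℝ} (hY : 0 < Y) :
    ‖E (r * p ^ 2) (insert p P) Y‖ₑ ≤ ∑' j : ℕ, ENNReal.ofReal (((nm p : ℝ) ^ j) ^ ((1 : ℝ) / 2)) *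
      ‖E (r * p ^ 2) P (Y / ((nm p : ℝ) ^ j) ^ 3)‖ₑ := by
  obtain ⟨Γ, hΓ, h3⟩ := hE.C
  obtain ⟨C, hC⟩ := hE.growth (r * p ^ 2) (insert p P)
  have hrec : ∀ Y, 0 < Y → E (r * p ^ 2) (insert p P) Y =
      E (r * p ^ 2) P Y + (-Γ p) * E (r * p ^ 2) (insert p P) (Y / (nm p : ℝ) ^ 3) := by
    intro Y hY
    rw [h3 P r p hP hp hpP hr Y hY]; ring
  exact iterate_bound hp.one_lt_nmR (by rw [norm_neg]; exact hΓ p hp) hrec hC hY

omit [DecidableEq Eis] in
lemma PP.not_dvd_mul_prod {p r : Eis} (hp : PP p) (hr : ¬ p ∣ r) {T : Finset Eis}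
    (hT : ∀ q ∈ T, PP q) (hpT : p ∉ T) : ¬ p ∣ r * ∏ q ∈ T, q := by
  intro h
  rcases hp.prime.dvd_or_dvd h with h | h
  · exact hr h
  · obtain ⟨q, hq, hd⟩ := (Prime.dvd_finsetProd_iff hp.prime _).mp h
    have : p = q := hp.isPrim.eq_of_associated (hT q hq).isPrim (hp.prime.associated_of_dvd (hT q hq).prime hd)
    exact hpT (this ▸ hq)

omit [DecidableEq Eis] in
lemma nm_prod_pos {T : Finset Eis} (hT : ∀ q ∈ T, PP q) : (0 : ℝ) < nm (∏ q ∈ T, q) := by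
  have : (∏ q ∈ T, q) ≠ 0 := Finset.prod_ne_zero_iff.mpr fun q hq => (hT q hq).prime.ne_zero
  exact_mod_cast nm_pos.mpr this

/-- Removing a set of primes, all prime to the numerator. -/
lemma Rec.A1 (hE : Rec E) (P0 : Finset Eis) (hP0 : ∀ q ∈ P0, PP q) (P : Finset Eis) :
    (∀ q ∈ P, PP q) → Disjoint P P0 → ∀ r : Eis, (∀ q ∈ P, ¬ q ∣ r) → ∀ Y : ℝ, 0 < Y →
    ‖E r (P ∪ P0) Y‖ₑ ≤ ∑ T ∈ P.powerset,
      J P (fun Y' => ‖E (r * ∏ q ∈ T, q) P0 Y'‖ₑ) (Y / nm (∏ q ∈ T, q)) := by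
  induction P using Finset.induction_on with
  | empty =>
    intro _ _ r _ Y hY
    have := J_empty (F := fun Y' => ‖E r P0 Y'‖ₑ) (Y := Y)
    simpa using this
  | insert p P hpP ih =>
    intro hPP hdis r hr Y hY
    have hp : PP p := hPP p (Finset.mem_insert_self p P)
    have hP : ∀ q ∈ P, PP q := fun q hq => hPP q (Finset.mem_insert_of_mem hq)
    have hpP0 : p ∉ P0 := Finset.disjoint_left.mp hdis (Finset.mem_insert_self p P)
    have hdis' : Disjoint P P0 := Finset.disjoint_of_subset_left (Finset.subset_insert p P) hdis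
    have hrP : ∀ q ∈ P, ¬ q ∣ r := fun q hq => hr q (Finset.mem_insert_of_mem hq)
    have hrp : ¬ p ∣ r := hr p (Finset.mem_insert_self p P)
    have hrpP : ∀ q ∈ P, ¬ q ∣ r * p := by
      intro q hq h
      rcases (hP q hq).prime.dvd_or_dvd h with h | h
      · exact hrP q hq h
      · have : q = p := (hP q hq).isPrim.eq_of_associated hp.isPrim ((hP q hq).prime.associated_of_dvd hp.prime h)
        exact hpP (this ▸ hq)
    have hPu : ∀ q ∈ P ∪ P0, PP q := fun q hq => by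
      rcases Finset.mem_union.mp hq with h | h
      · exact hP q h
      · exact hP0 q h
    have hpu : p ∉ P ∪ P0 := by simp [hpP, hpP0]
    have hq0 : (0 : ℝ) < nm p := by linarith [hp.one_lt_nmR]
    rw [Finset.insert_union]
    refine (hE.step1 hPu hp hpu hrp hY).trans ?_
    have hb : ∀ j : ℕ, ENNReal.ofReal (((nm p : ℝ) ^ j) ^ ((1 : ℝ) / 2)) *
        (‖E r (P ∪ P0) (Y / ((nm p : ℝ) ^ j) ^ 3)‖ₑ +
          ‖E (r * p) (P ∪ P0) (Y / ((nm p : ℝ) ^ j) ^ 3 / nm p)‖ₑ) ≤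
        ∑ T ∈ P.powerset, ((ENNReal.ofReal (((nm p : ℝ) ^ j) ^ ((1 : ℝ) / 2)) *
          J P (fun Y' => ‖E (r * ∏ q ∈ T, q) P0 Y'‖ₑ)
            ((Y / nm (∏ q ∈ T, q)) / ((nm p : ℝ) ^ j) ^ 3)) +
          (ENNReal.ofReal (((nm p : ℝ) ^ j) ^ ((1 : ℝ) / 2)) *
          J P (fun Y' => ‖E (r * ∏ q ∈ insert p T, q) P0 Y'‖ₑ)
            ((Y / nm (∏ q ∈ insert p T, q)) / ((nm p : ℝ) ^ j) ^ 3))) := by
      intro j
      rw [Finset.sum_add_distrib, ← Finset.mul_sum, ← Finset.mul_sum, ← mul_add]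
      gcongr
      · refine (ih hP hdis' r hrP _ (by positivity)).trans (le_of_eq ?_)
        refine Finset.sum_congr rfl fun T _ => ?_
        congr 1
        rw [div_right_comm]
      · refine (ih hP hdis' (r * p) hrpP _ (by positivity)).trans (le_of_eq ?_)
        refine Finset.sum_congr rfl fun T hT => ?_
        have hpT : p ∉ T := fun h => hpP (Finset.mem_powerset.mp hT h)
        rw [Finset.prod_insert hpT, nm_mul]
        push_cast
        have e1 : r * p * ∏ q ∈ T, q = r * (p * ∏ q ∈ T, q) := by ring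
        rw [e1]
        congr 1
        field_simp
    refine (ENNReal.tsum_le_tsum hb).trans ?_
    rw [Summable.tsum_finsetSum (fun i _ => ENNReal.summable), Finset.sum_powerset_insert hpP,
      ← Finset.sum_add_distrib]
    refine Finset.sum_le_sum fun T _ => ?_
    rw [ENNReal.tsum_add]
    exact add_le_add (J_step hp hpP _ _) (J_step hp hpP _ _)

/-- Removing a set of primes, all dividing the numerator exactly once. -/
lemma Rec.A2 (hE : Rec E) (P0 : Finset Eis) (hP0 : ∀ q ∈ P0, PP q) (P : Finset Eis) :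
    (∀ q ∈ P, PP q) → Disjoint P P0 → ∀ r : Eis, (∀ q ∈ P, ¬ q ∣ r) → ∀ Y : ℝ, 0 < Y →
    ‖E (r * ∏ q ∈ P, q) (P ∪ P0) Y‖ₑ ≤ ∑ T ∈ P.powerset,
      ENNReal.ofReal ((nm (∏ q ∈ T, q) : ℝ) ^ ((1 : ℝ) / 2)) *
      J P (fun Y' => ‖E (r * ∏ q ∈ P \ T, q) P0 Y'‖ₑ) (Y / (nm (∏ q ∈ T, q) : ℝ) ^ 2) := by
  induction P using Finset.induction_on with
  | empty =>
    intro _ _ r _ Y hY
    have := J_empty (F := fun Y' => ‖E r P0 Y'‖ₑ) (Y := Y)
    simpa using this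
  | insert p P hpP ih =>
    intro hPP hdis r hr Y hY
    have hp : PP p := hPP p (Finset.mem_insert_self p P)
    have hP : ∀ q ∈ P, PP q := fun q hq => hPP q (Finset.mem_insert_of_mem hq)
    have hpP0 : p ∉ P0 := Finset.disjoint_left.mp hdis (Finset.mem_insert_self p P)
    have hdis' : Disjoint P P0 := Finset.disjoint_of_subset_left (Finset.subset_insert p P) hdis
    have hrP : ∀ q ∈ P, ¬ q ∣ r := fun q hq => hr q (Finset.mem_insert_of_mem hq)
    have hrp : ¬ p ∣ r := hr p (Finset.mem_insert_self p P)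
    have hrpP : ∀ q ∈ P, ¬ q ∣ r * p := by
      intro q hq h
      rcases (hP q hq).prime.dvd_or_dvd h with h | h
      · exact hrP q hq h
      · have : q = p := (hP q hq).isPrim.eq_of_associated hp.isPrim ((hP q hq).prime.associated_of_dvd hp.prime h)
        exact hpP (this ▸ hq)
    have hPu : ∀ q ∈ P ∪ P0, PP q := fun q hq => by
      rcases Finset.mem_union.mp hq with h | h
      · exact hP q h
      · exact hP0 q h
    have hpu : p ∉ P ∪ P0 := by simp [hpP, hpP0]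
    have hq0 : (0 : ℝ) < nm p := by linarith [hp.one_lt_nmR]
    have hrprod : ¬ p ∣ r * ∏ q ∈ P, q := hp.not_dvd_mul_prod hrp hP hpP
    rw [Finset.insert_union, Finset.prod_insert hpP]
    have e0 : r * (p * ∏ q ∈ P, q) = (r * ∏ q ∈ P, q) * p := by ring
    rw [e0]
    refine (hE.step2 hPu hp hpu hrprod hY).trans ?_
    have hb : ∀ j : ℕ, ENNReal.ofReal (((nm p : ℝ) ^ j) ^ ((1 : ℝ) / 2)) *
        (‖E (r * (∏ q ∈ P, q) * p) (P ∪ P0) (Y / ((nm p : ℝ) ^ j) ^ 3)‖ₑ +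
          ENNReal.ofReal ((nm p : ℝ) ^ ((1 : ℝ) / 2)) *
          ‖E (r * ∏ q ∈ P, q) (P ∪ P0) (Y / ((nm p : ℝ) ^ j) ^ 3 / (nm p : ℝ) ^ 2)‖ₑ) ≤
        ∑ T ∈ P.powerset, ((ENNReal.ofReal (((nm p : ℝ) ^ j) ^ ((1 : ℝ) / 2)) *
          J P (fun Y' => ENNReal.ofReal ((nm (∏ q ∈ T, q) : ℝ) ^ ((1 : ℝ) / 2)) *
            ‖E (r * ∏ q ∈ insert p P \ T, q) P0 Y'‖ₑ)
            ((Y / (nm (∏ q ∈ T, q) : ℝ) ^ 2) / ((nm p : ℝ) ^ j) ^ 3)) +
          (ENNReal.ofReal (((nm p : ℝ) ^ j) ^ ((1 : ℝ) / 2)) *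
          J P (fun Y' => ENNReal.ofReal ((nm (∏ q ∈ insert p T, q) : ℝ) ^ ((1 : ℝ) / 2)) *
            ‖E (r * ∏ q ∈ insert p P \ insert p T, q) P0 Y'‖ₑ)
            ((Y / (nm (∏ q ∈ insert p T, q) : ℝ) ^ 2) / ((nm p : ℝ) ^ j) ^ 3))) := by
      intro j
      rw [Finset.sum_add_distrib, ← Finset.mul_sum, ← Finset.mul_sum, ← mul_add]
      gcongr
      · have := ih hP hdis' (r * p) hrpP (Y / ((nm p : ℝ) ^ j) ^ 3) (by positivity)
        have e1 : r * (∏ q ∈ P, q) * p = r * p * ∏ q ∈ P, q := by ring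
        rw [e1]
        refine this.trans (le_of_eq ?_)
        refine Finset.sum_congr rfl fun T hT => ?_
        have hpT : p ∉ T := fun h => hpP (Finset.mem_powerset.mp hT h)
        rw [J_const_mul, Finset.insert_sdiff_of_notMem _ hpT,
          Finset.prod_insert (fun h => hpP (Finset.mem_sdiff.mp h).1), div_right_comm]
        have e2 : r * p * ∏ q ∈ P \ T, q = r * (p * ∏ q ∈ P \ T, q) := by ring
        rw [e2]
      · have := ih hP hdis' r hrP (Y / ((nm p : ℝ) ^ j) ^ 3 / (nm p : ℝ) ^ 2) (by positivity)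
        refine (mul_le_mul_right this _).trans (le_of_eq ?_)
        rw [Finset.mul_sum]
        refine Finset.sum_congr rfl fun T hT => ?_
        have hpT : p ∉ T := fun h => hpP (Finset.mem_powerset.mp hT h)
        rw [J_const_mul, Finset.prod_insert hpT, nm_mul]
        have e3 : insert p P \ insert p T = P \ T := by
          ext x; simp only [Finset.mem_sdiff, Finset.mem_insert]
          constructor
          · rintro ⟨h1 | h1, h2⟩
            · exact absurd (Or.inl h1) h2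
            · exact ⟨h1, fun h => h2 (Or.inr h)⟩
          · rintro ⟨h1, h2⟩
            refine ⟨Or.inr h1, ?_⟩
            rintro (h | h)
            · exact hpP (h ▸ h1)
            · exact h2 h
        rw [e3]
        push_cast
        rw [Real.mul_rpow (by positivity) (by positivity), ENNReal.ofReal_mul (by positivity),
          mul_assoc]
        congr 3
        field_simp
    refine (ENNReal.tsum_le_tsum hb).trans ?_
    rw [Summable.tsum_finsetSum (fun i _ => ENNReal.summable), Finset.sum_powerset_insert hpP,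
      ← Finset.sum_add_distrib]
    refine Finset.sum_le_sum fun T _ => ?_
    rw [ENNReal.tsum_add, ← J_const_mul, ← J_const_mul]
    exact add_le_add (J_step hp hpP _ _) (J_step hp hpP _ _)

/-- Removing a set of primes, all dividing the numerator exactly twice. -/
lemma Rec.A3 (hE : Rec E) (P0 : Finset Eis) (hP0 : ∀ q ∈ P0, PP q) (P : Finset Eis) :
    (∀ q ∈ P, PP q) → Disjoint P P0 → ∀ r : Eis, (∀ q ∈ P, ¬ q ∣ r) → ∀ Y : ℝ, 0 < Y →
    ‖E (r * (∏ q ∈ P, q) ^ 2) (P ∪ P0) Y‖ₑ ≤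
      J P (fun Y' => ‖E (r * (∏ q ∈ P, q) ^ 2) P0 Y'‖ₑ) Y := by
  induction P using Finset.induction_on with
  | empty =>
    intro _ _ r _ Y hY
    have := J_empty (F := fun Y' => ‖E r P0 Y'‖ₑ) (Y := Y)
    simpa using this
  | insert p P hpP ih =>
    intro hPP hdis r hr Y hY
    have hp : PP p := hPP p (Finset.mem_insert_self p P)
    have hP : ∀ q ∈ P, PP q := fun q hq => hPP q (Finset.mem_insert_of_mem hq)
    have hpP0 : p ∉ P0 := Finset.disjoint_left.mp hdis (Finset.mem_insert_self p P)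
    have hdis' : Disjoint P P0 := Finset.disjoint_of_subset_left (Finset.subset_insert p P) hdis
    have hrP : ∀ q ∈ P, ¬ q ∣ r := fun q hq => hr q (Finset.mem_insert_of_mem hq)
    have hrp : ¬ p ∣ r := hr p (Finset.mem_insert_self p P)
    have hrpP : ∀ q ∈ P, ¬ q ∣ r * p ^ 2 := by
      intro q hq h
      rcases (hP q hq).prime.dvd_or_dvd h with h | h
      · exact hrP q hq h
      · have h' := (hP q hq).prime.dvd_of_dvd_pow h
        have : q = p := (hP q hq).isPrim.eq_of_associated hp.isPrim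
          ((hP q hq).prime.associated_of_dvd hp.prime h')
        exact hpP (this ▸ hq)
    have hPu : ∀ q ∈ P ∪ P0, PP q := fun q hq => by
      rcases Finset.mem_union.mp hq with h | h
      · exact hP q h
      · exact hP0 q h
    have hpu : p ∉ P ∪ P0 := by simp [hpP, hpP0]
    have hq0 : (0 : ℝ) < nm p := by linarith [hp.one_lt_nmR]
    have hrprod : ¬ p ∣ r * (∏ q ∈ P, q) ^ 2 := by
      intro h
      rcases hp.prime.dvd_or_dvd h with h | h
      · exact hrp h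
      · have h' := hp.prime.dvd_of_dvd_pow h
        obtain ⟨q, hq, hd⟩ := (Prime.dvd_finsetProd_iff hp.prime _).mp h'
        have : p = q := hp.isPrim.eq_of_associated (hP q hq).isPrim
          (hp.prime.associated_of_dvd (hP q hq).prime hd)
        exact hpP (this ▸ hq)
    rw [Finset.insert_union, Finset.prod_insert hpP]
    have e0 : r * (p * ∏ q ∈ P, q) ^ 2 = (r * (∏ q ∈ P, q) ^ 2) * p ^ 2 := by ring
    rw [e0]
    refine (hE.step3 hPu hp hpu hrprod hY).trans ?_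
    have e1 : (r * (∏ q ∈ P, q) ^ 2) * p ^ 2 = (r * p ^ 2) * (∏ q ∈ P, q) ^ 2 := by ring
    rw [e1]
    refine (ENNReal.tsum_le_tsum fun j => mul_le_mul_right
      (ih hP hdis' (r * p ^ 2) hrpP _ (by positivity)) _).trans ?_
    exact J_step hp hpP _ _

end Crest.Agent.R012.TypeI941
end
end

-- ▼ part R012/TypeI3_941
section

/-!
# Row 12, item TI (part 3): the mean square over squarefree moduli

Main result: `Rec.meanSq`.
-/

set_option autoImplicit false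

noncomputable section

open Complex
open scoped ENNReal

namespace Crest.Agent.R012.TypeI941

open Crest.Agent.R012 Eis LS2 Mob705

/-- Primary elements as a type. -/
abbrev Prm : Type := {m : Eis // IsPrim m}

/-- `Z ε = Σ_m N(m)^{-(1+ε)}` over primary `m`. -/
def Z (ε : ℝ) : ℝ≥0∞ := ∑' m : Prm, ENNReal.ofReal ((nm m.1 : ℝ) ^ (-(1 + ε)))

lemma Prm.one_le (m : Prm) : (1 : ℝ) ≤ nm m.1 := by
  exact_mod_cast nm_pos.mpr m.2.ne_zero

lemma Prm.pos (m : Prm) : (0 : ℝ) < nm m.1 := by linarith [m.one_le]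

lemma Z_lt_top {ε : ℝ} (hε : 0 < ε) : Z ε < ⊤ := by
  have h1 : Summable fun h : Eis => (1 + ‖toC h‖) ^ (-(2 + 2 * ε)) :=
    Poisson381.summable_eis (by linarith)
  have h2 : Summable fun m : Prm => (2 : ℝ) ^ (2 + 2 * ε) * (1 + ‖toC m.1‖) ^ (-(2 + 2 * ε)) :=
    (h1.subtype _).mul_left _
  have h3 : ∀ m : Prm, (nm m.1 : ℝ) ^ (-(1 + ε)) ≤
      (2 : ℝ) ^ (2 + 2 * ε) * (1 + ‖toC m.1‖) ^ (-(2 + 2 * ε)) := by
    intro m
    have hm := m.one_le
    have hs : ‖toC m.1‖ = Real.sqrt (nm m.1) := norm_toC _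
    have h1s : 1 ≤ ‖toC m.1‖ := by rw [hs]; exact Real.one_le_sqrt.mpr hm
    have e1 : (nm m.1 : ℝ) ^ (-(1 + ε)) = ‖toC m.1‖ ^ (-(2 + 2 * ε)) := by
      rw [← norm_toC_sq, ← Real.rpow_natCast, ← Real.rpow_mul (norm_nonneg _)]
      congr 1; push_cast; ring
    rw [e1]
    have h0 : 0 < ‖toC m.1‖ := by linarith
    rw [Real.rpow_neg h0.le, Real.rpow_neg (by positivity), ← div_eq_mul_inv,
      le_div_iff₀ (by positivity), inv_mul_le_iff₀ (by positivity), mul_comm,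
      ← Real.mul_rpow (by norm_num) (by positivity)]
    apply Real.rpow_le_rpow (by positivity) _ (by linarith)
    linarith
  have h4 : Summable fun m : Prm => (nm m.1 : ℝ) ^ (-(1 + ε)) :=
    Summable.of_nonneg_of_le (fun m => by positivity) h3 h2
  unfold Z
  rw [← ENNReal.ofReal_tsum_of_nonneg (fun m => by positivity) h4]
  exact ENNReal.ofReal_lt_top

/-- Sum over all primary `m`. -/
def Ja (F : ℝ → ℝ≥0∞) (Y : ℝ) : ℝ≥0∞ :=
  ∑' m : Prm, ENNReal.ofReal ((nm m.1 : ℝ) ^ ((1 : ℝ) / 2)) * F (Y / (nm m.1 : ℝ) ^ 3)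

lemma J_le_Ja (P : Finset Eis) (F : ℝ → ℝ≥0∞) (Y : ℝ) : J P F Y ≤ Ja F Y := by
  have hinj : Function.Injective (fun m : Gen P => (⟨m.1, m.2.1⟩ : Prm)) := by
    intro a b h
    simp only [Subtype.mk.injEq] at h
    exact Subtype.ext h
  exact ENNReal.tsum_comp_le_tsum_of_injective hinj
    (fun m : Prm => ENNReal.ofReal ((nm m.1 : ℝ) ^ ((1 : ℝ) / 2)) * F (Y / (nm m.1 : ℝ) ^ 3))

lemma Ja_mono {F F' : ℝ → ℝ≥0∞} {Y : ℝ} (hY : 0 < Y)
    (h : ∀ Y, 0 < Y → F Y ≤ F' Y) : Ja F Y ≤ Ja F' Y := by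
  refine ENNReal.tsum_le_tsum fun m => ?_
  have := m.pos
  gcongr
  exact h _ (by positivity)

lemma Ja_sum {ι : Type*} (s : Finset ι) (F : ι → ℝ → ℝ≥0∞) (Y : ℝ) :
    Ja (fun Y => ∑ i ∈ s, F i Y) Y = ∑ i ∈ s, Ja (F i) Y := by
  unfold Ja
  simp only [Finset.mul_sum]
  exact Summable.tsum_finsetSum (fun i _ => ENNReal.summable)

lemma Ja_scale (c : ℝ) (F : ℝ → ℝ≥0∞) (Y : ℝ) :
    Ja (fun Y => F (Y / c)) Y = Ja F (Y / c) := by
  unfold Ja
  refine tsum_congr fun m => ?_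
  congr 2
  rw [div_right_comm]

/-- Cauchy–Schwarz for `tsum` in `ℝ≥0∞`. -/
lemma tsum_mul_sq_le {α : Type*} (f g : α → ℝ≥0∞) :
    (∑' a, f a * g a) ^ 2 ≤ (∑' a, f a ^ 2) * ∑' a, g a ^ 2 := by
  let _ : MeasurableSpace α := ⊤
  have h := ENNReal.lintegral_mul_le_Lp_mul_Lq (MeasureTheory.Measure.count (α := α))
    (p := 2) (q := 2) (by norm_num [Real.holderConjugate_iff]) (f := f) (g := g)
    (measurable_from_top.aemeasurable) (measurable_from_top.aemeasurable)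
  simp only [MeasureTheory.lintegral_count, Pi.mul_apply] at h
  have h2 := pow_le_pow_left' h 2
  rw [mul_pow, ← ENNReal.rpow_natCast (_ ^ ((1 : ℝ) / 2)), ← ENNReal.rpow_natCast (_ ^ ((1 : ℝ) / 2)),
    ← ENNReal.rpow_mul, ← ENNReal.rpow_mul] at h2
  norm_num at h2
  exact h2

/-- mean squares of `Ja`. -/
lemma meanSq_Ja {ι : Type*} (s : Finset ι) (F : ι → ℝ → ℝ≥0∞) {ε : ℝ} (hε : 0 < ε) (B : ℝ≥0∞)
    (h : ∀ Y, 0 < Y → ∑ i ∈ s, F i Y ^ 2 ≤ B * ENNReal.ofReal (Y ^ (1 + ε))) {Y : ℝ} (hY : 0 < Y) :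
    ∑ i ∈ s, Ja (F i) Y ^ 2 ≤ (Z ε ^ 2 * B) * ENNReal.ofReal (Y ^ (1 + ε)) := by
  have h1 : ∀ i, Ja (F i) Y ^ 2 ≤ Z ε * ∑' m : Prm, ENNReal.ofReal ((nm m.1 : ℝ) ^ (2 + ε)) *
      F i (Y / (nm m.1 : ℝ) ^ 3) ^ 2 := by
    intro i
    have := tsum_mul_sq_le (fun m : Prm => ENNReal.ofReal ((nm m.1 : ℝ) ^ (-(1 + ε) / 2)))
      (fun m : Prm => ENNReal.ofReal ((nm m.1 : ℝ) ^ ((2 + ε) / 2)) * F i (Y / (nm m.1 : ℝ) ^ 3))
    convert this using 1
    · congr 1
      unfold Ja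
      refine tsum_congr fun m => ?_
      have := m.pos
      rw [← mul_assoc, ← ENNReal.ofReal_mul (by positivity), ← Real.rpow_add this]
      congr 3
      ring
    · congr 1
      · unfold Z
        refine tsum_congr fun m => ?_
        have := m.pos
        rw [← ENNReal.ofReal_pow (by positivity), ← Real.rpow_natCast, ← Real.rpow_mul this.le]
        congr 2
        push_cast; ring
      · refine tsum_congr fun m => ?_
        have := m.pos
        have e : ((nm m.1 : ℝ) ^ ((2 + ε) / 2)) ^ 2 = (nm m.1 : ℝ) ^ (2 + ε) := by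
          rw [← Real.rpow_natCast, ← Real.rpow_mul this.le]
          congr 1
          push_cast; ring
        rw [mul_pow, ← ENNReal.ofReal_pow (by positivity), e]
  calc ∑ i ∈ s, Ja (F i) Y ^ 2
      ≤ ∑ i ∈ s, Z ε * ∑' m : Prm, ENNReal.ofReal ((nm m.1 : ℝ) ^ (2 + ε)) *
      F i (Y / (nm m.1 : ℝ) ^ 3) ^ 2 := Finset.sum_le_sum fun i _ => h1 i
    _ = Z ε * ∑' m : Prm, ENNReal.ofReal ((nm m.1 : ℝ) ^ (2 + ε)) *
        ∑ i ∈ s, F i (Y / (nm m.1 : ℝ) ^ 3) ^ 2 := by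
        rw [← Finset.mul_sum, ← Summable.tsum_finsetSum (fun i _ => ENNReal.summable)]
        congr 1
        refine tsum_congr fun m => ?_
        rw [Finset.mul_sum]
    _ ≤ Z ε * ∑' m : Prm, (B * ENNReal.ofReal (Y ^ (1 + ε))) *
        ENNReal.ofReal ((nm m.1 : ℝ) ^ (-(1 + ε))) := by
        refine mul_le_mul_right (ENNReal.tsum_le_tsum fun m => ?_) _
        have hm := m.pos
        have hm1 := m.one_le
        refine (mul_le_mul_right (h (Y / (nm m.1 : ℝ) ^ 3) (by positivity)) _).trans ?_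
        rw [mul_left_comm, mul_assoc, ← ENNReal.ofReal_mul (by positivity),
          ← ENNReal.ofReal_mul (by positivity)]
        refine mul_le_mul_right (ENNReal.ofReal_le_ofReal ?_) _
        rw [Real.div_rpow hY.le (by positivity), ← Real.rpow_natCast (nm m.1 : ℝ) 3,
          ← Real.rpow_mul hm.le, mul_div_assoc', mul_comm ((nm m.1 : ℝ) ^ (2 + ε)), mul_div_assoc,
          ← Real.rpow_sub hm]
        gcongr
        push_cast; linarith
    _ = _ := by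
        rw [ENNReal.tsum_mul_left]
        change Z ε * (B * ENNReal.ofReal (Y ^ (1 + ε)) * Z ε) = _
        ring

variable [DecidableEq Eis] {E : Eis → Finset Eis → ℝ → ℂ}

omit [DecidableEq Eis] in
lemma not_dvd_of_mul_prod {p : Eis} (hp : PP p) {r : Eis} (hr : ¬ p ∣ r) {T : Finset Eis}
    (hT : PPSet T) (hpT : p ∉ T) : ¬ p ∣ r * ∏ q ∈ T, q :=
  PP.not_dvd_mul_prod hp hr hT hpT

omit [DecidableEq Eis] in
lemma not_dvd_mul_prod_sq {p : Eis} (hp : PP p) {r : Eis} (hr : ¬ p ∣ r) {T : Finset Eis}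
    (hT : PPSet T) (hpT : p ∉ T) : ¬ p ∣ r * (∏ q ∈ T, q) ^ 2 := by
  intro h
  rcases hp.prime.dvd_or_dvd h with h | h
  · exact hr h
  · have h' : p ∣ 1 * ∏ q ∈ T, q := by rw [one_mul]; exact hp.prime.dvd_of_dvd_pow h
    exact not_dvd_of_mul_prod hp (fun h1 => hp.prime.not_isUnit (isUnit_of_dvd_one h1)) hT hpT h'

/-- The combined pointwise bound. -/
theorem Rec.pointwise (hE : Rec E) {P1 P2 P3 : Finset Eis} (h1 : PPSet P1) (h2 : PPSet P2)
    (h3 : PPSet P3) (h12 : Disjoint P1 P2) (h13 : Disjoint P1 P3) (h23 : Disjoint P2 P3)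
    {r0 : Eis} (hr1 : ∀ p ∈ P1, ¬ p ∣ r0) (hr2 : ∀ p ∈ P2, ¬ p ∣ r0) (hr3 : ∀ p ∈ P3, ¬ p ∣ r0)
    {Y : ℝ} (hY : 0 < Y) :
    ‖E (r0 * (∏ q ∈ P3, q) ^ 2 * ∏ q ∈ P1, q) (P1 ∪ (P2 ∪ P3)) Y‖ₑ ≤
      ∑ T1 ∈ P1.powerset, ∑ T2 ∈ P2.powerset,
        ENNReal.ofReal ((nm (∏ q ∈ T1, q) : ℝ) ^ ((1 : ℝ) / 2)) *
        Ja (Ja (Ja fun Y' =>
          ‖E (r0 * (∏ q ∈ P3, q) ^ 2 * (∏ q ∈ P1 \ T1, q) * ∏ q ∈ T2, q) ∅ Y'‖ₑ))
          (Y / ((nm (∏ q ∈ T1, q) : ℝ) ^ 2 * nm (∏ q ∈ T2, q))) := by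
  have h23P : ∀ q ∈ P2 ∪ P3, PP q := fun q hq => by
    rcases Finset.mem_union.mp hq with h | h
    · exact h2 q h
    · exact h3 q h
  have hd1 : Disjoint P1 (P2 ∪ P3) := Finset.disjoint_union_right.mpr ⟨h12, h13⟩
  refine (hE.A2 (P2 ∪ P3) h23P P1 h1 hd1 (r0 * (∏ q ∈ P3, q) ^ 2)
    (fun p hp => not_dvd_mul_prod_sq (h1 p hp) (hr1 p hp) h3
      (Finset.disjoint_left.mp h13 hp)) Y hY).trans ?_
  refine Finset.sum_le_sum fun T1 hT1 => ?_
  have hT1' := Finset.mem_powerset.mp hT1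
  have hT1P : PPSet T1 := h1.subset hT1'
  have hn1 : (0 : ℝ) < nm (∏ q ∈ T1, q) := nm_prod_pos hT1P
  rw [← Finset.mul_sum]
  gcongr
  refine (J_le_Ja _ _ _).trans ?_
  -- bound the inner function
  have key : ∀ Y', 0 < Y' → ‖E (r0 * (∏ q ∈ P3, q) ^ 2 * ∏ q ∈ P1 \ T1, q) (P2 ∪ P3) Y'‖ₑ ≤
      ∑ T2 ∈ P2.powerset, Ja (Ja fun Y'' =>
        ‖E (r0 * (∏ q ∈ P3, q) ^ 2 * (∏ q ∈ P1 \ T1, q) * ∏ q ∈ T2, q) ∅ Y''‖ₑ)
          (Y' / nm (∏ q ∈ T2, q)) := by
    intro Y' hY'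
    refine (hE.A1 P3 h3 P2 h2 h23 (r0 * (∏ q ∈ P3, q) ^ 2 * ∏ q ∈ P1 \ T1, q) ?_ Y' hY').trans ?_
    · intro p hp
      refine not_dvd_of_mul_prod (h2 p hp) ?_ (h1.subset Finset.sdiff_subset) ?_
      · exact not_dvd_mul_prod_sq (h2 p hp) (hr2 p hp) h3 (Finset.disjoint_left.mp h23 hp)
      · intro h
        exact Finset.disjoint_left.mp h12 (Finset.mem_sdiff.mp h).1 hp
    · refine Finset.sum_le_sum fun T2 hT2 => ?_
      have hT2' := Finset.mem_powerset.mp hT2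
      have hT2P : PPSet T2 := h2.subset hT2'
      have hn2 : (0 : ℝ) < nm (∏ q ∈ T2, q) := nm_prod_pos hT2P
      refine (J_le_Ja _ _ _).trans ?_
      refine Ja_mono (by positivity) fun Y3 hY3 => ?_
      have e1 : r0 * (∏ q ∈ P3, q) ^ 2 * (∏ q ∈ P1 \ T1, q) * ∏ q ∈ T2, q =
          (r0 * (∏ q ∈ P1 \ T1, q) * ∏ q ∈ T2, q) * (∏ q ∈ P3, q) ^ 2 := by ring
      rw [e1]
      have := hE.A3 ∅ (by simp) P3 h3 (Finset.disjoint_empty_right _)
        (r0 * (∏ q ∈ P1 \ T1, q) * ∏ q ∈ T2, q) ?_ Y3 hY3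
      · rw [Finset.union_empty] at this
        exact this.trans (J_le_Ja _ _ _)
      · intro p hp
        refine not_dvd_of_mul_prod (h3 p hp) ?_ hT2P ?_
        · refine not_dvd_of_mul_prod (h3 p hp) (hr3 p hp) (h1.subset Finset.sdiff_subset) ?_
          intro h
          exact Finset.disjoint_left.mp h13 (Finset.mem_sdiff.mp h).1 hp
        · intro h
          exact Finset.disjoint_left.mp h23 (hT2' h) hp
  refine (Ja_mono (by positivity) key).trans (le_of_eq ?_)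
  rw [Ja_sum]
  refine Finset.sum_congr rfl fun T2 hT2 => ?_
  rw [Ja_scale, div_div]

end Crest.Agent.R012.TypeI941
end
end

-- ▼ part R012/TypeI4_941
section

/-!
# Row 12, item TI (part 4): the mean square theorem `Rec.meanSq`
-/

set_option autoImplicit false

noncomputable section

open Complex
open scoped ENNReal

namespace Crest.Agent.R012.TypeI941

open Crest.Agent.R012 Eis LS2 Mob705

lemma sq_sum_le_card {ι : Type*} (s : Finset ι) (f : ι → ℝ≥0∞) :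
    (∑ i ∈ s, f i) ^ 2 ≤ (s.card : ℝ≥0∞) * ∑ i ∈ s, f i ^ 2 := by
  have := ENNReal.inner_le_Lp_mul_Lq s (fun _ => 1) f (p := 2) (q := 2)
    (by norm_num [Real.holderConjugate_iff])
  have h2 := pow_le_pow_left' this 2
  rw [mul_pow, ← ENNReal.rpow_natCast (_ ^ ((1 : ℝ) / 2)), ← ENNReal.rpow_natCast (_ ^ ((1 : ℝ) / 2)),
    ← ENNReal.rpow_mul, ← ENNReal.rpow_mul] at h2
  norm_num at h2
  exact h2

/-- real inequality used for the sum over `T₁`, `T₂`. -/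
lemma real_bound {N1 N2 DQ τ ε K Y : ℝ} (h1 : 1 ≤ N1) (h2 : 1 ≤ N2) (hD : 0 < DQ) (hτ : 0 ≤ τ)
    (hε : 0 < ε) (hK : 0 ≤ K) (hY : 0 < Y) :
    N1 * (K * (DQ * N2 / N1 + τ) * (DQ * N2 / N1) ^ ε * (Y / (N1 ^ 2 * N2)) ^ (1 + ε)) ≤
      (K * DQ ^ ε * (DQ + τ) * Y ^ (1 + ε)) * N1 ^ (-(1 + ε)) := by
  have hN1 : 0 < N1 := by linarith
  have hN2 : 0 < N2 := by linarith
  have a1 : DQ * N2 / N1 + τ ≤ (DQ + τ) * N2 := by
    have : DQ * N2 / N1 ≤ DQ * N2 := div_le_self (by positivity) h1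
    nlinarith
  have e1 : (DQ * N2 / N1) ^ ε = DQ ^ ε * N2 ^ ε * N1 ^ (-ε) := by
    rw [Real.div_rpow (by positivity) hN1.le, Real.mul_rpow hD.le hN2.le, Real.rpow_neg hN1.le,
      div_eq_mul_inv]
  have e2 : (Y / (N1 ^ 2 * N2)) ^ (1 + ε) = Y ^ (1 + ε) * N1 ^ (-(2 + 2 * ε)) * N2 ^ (-(1 + ε)) := by
    rw [Real.div_rpow hY.le (by positivity), Real.mul_rpow (by positivity) hN2.le,
      ← Real.rpow_natCast N1 2, ← Real.rpow_mul hN1.le, Real.rpow_neg hN1.le, Real.rpow_neg hN2.le,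
      div_eq_mul_inv, mul_inv, mul_assoc]
    congr 3
    push_cast; ring_nf
  rw [e1, e2]
  calc N1 * (K * (DQ * N2 / N1 + τ) * (DQ ^ ε * N2 ^ ε * N1 ^ (-ε)) *
        (Y ^ (1 + ε) * N1 ^ (-(2 + 2 * ε)) * N2 ^ (-(1 + ε))))
      ≤ N1 * (K * ((DQ + τ) * N2) * (DQ ^ ε * N2 ^ ε * N1 ^ (-ε)) *
        (Y ^ (1 + ε) * N1 ^ (-(2 + 2 * ε)) * N2 ^ (-(1 + ε)))) := by gcongr
    _ = (K * DQ ^ ε * (DQ + τ) * Y ^ (1 + ε)) * (N1 ^ (1 : ℝ) * N1 ^ (-ε) * N1 ^ (-(2 + 2 * ε))) *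
        (N2 ^ (1 : ℝ) * N2 ^ ε * N2 ^ (-(1 + ε))) := by
        rw [Real.rpow_one, Real.rpow_one]; ring
    _ = (K * DQ ^ ε * (DQ + τ) * Y ^ (1 + ε)) * N1 ^ (1 + -ε + -(2 + 2 * ε)) * 1 := by
        rw [← Real.rpow_add hN1, ← Real.rpow_add hN1, ← Real.rpow_add hN2, ← Real.rpow_add hN2]
        congr 1
        have : (1 : ℝ) + ε + -(1 + ε) = 0 := by ring
        rw [this, Real.rpow_zero]
    _ ≤ _ := by
        rw [mul_one]
        gcongr
        linarith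

/-- The sum over finite sets of primary primes is bounded by the sum over primary elements. -/
lemma sum_sets_le (s : Finset (Finset Eis)) (hs : ∀ T ∈ s, PPSet T) (ε : ℝ) :
    ∑ T ∈ s, ENNReal.ofReal ((nm (∏ q ∈ T, q) : ℝ) ^ (-(1 + ε))) ≤ Z ε := by
  classical
  have hinj : Function.Injective (fun T : s => (⟨∏ q ∈ T.1, q, (hs T.1 T.2).isPrim_prod⟩ : Prm)) := by
    intro a b h
    simp only [Subtype.mk.injEq] at h
    have h' := congrArg pp h
    rw [(hs a.1 a.2).pp_prod, (hs b.1 b.2).pp_prod] at h'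
    exact Subtype.ext h'
  have := ENNReal.tsum_comp_le_tsum_of_injective hinj
    (fun m : Prm => ENNReal.ofReal ((nm m.1 : ℝ) ^ (-(1 + ε))))
  refine le_trans (le_of_eq ?_) this
  rw [tsum_fintype, ← Finset.sum_coe_sort s]

variable [DecidableEq Eis] {E : Eis → Finset Eis → ℝ → ℂ}

omit [DecidableEq Eis] in
lemma one_le_nm_prod {T : Finset Eis} (hT : PPSet T) : (1 : ℝ) ≤ nm (∏ q ∈ T, q) := by
  exact_mod_cast nm_pos.mpr hT.prod_ne_zero

open Classical in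
/-- **Mean square over squarefree moduli.** -/
theorem Rec.meanSq (hE : Rec E) {P1 P2 P3 : Finset Eis} (h1 : PPSet P1) (h2 : PPSet P2)
    (h3 : PPSet P3) (h12 : Disjoint P1 P2) (h13 : Disjoint P1 P3) (h23 : Disjoint P2 P3)
    {r0 : Eis} (hr0 : ∀ p, IsPP p → ¬ p ∣ r0) {ε K τ Λ D : ℝ} (hε : 0 < ε) (hK : 0 ≤ K)
    (hτ : 0 ≤ τ) (hD : 1 ≤ D) (hΛ : ∀ d ∈ S D, (2 : ℝ) ^ (pp d).card ≤ Λ)
    (hM : ∀ H : ℝ, 1 ≤ H → ∀ Y : ℝ, 0 < Y →
      ∑ h ∈ (S H).filter (fun h => ∀ p ∈ P3, ¬ p ∣ h),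
        ‖E (r0 * (∏ q ∈ P3, q) ^ 2 * h) ∅ Y‖ₑ ^ 2 ≤
        ENNReal.ofReal (K * (H + τ) * H ^ ε) * ENNReal.ofReal (Y ^ (1 + ε)))
    {Y : ℝ} (hY : 0 < Y) :
    ∑ d ∈ (S D).filter (fun d => ∀ p ∈ P1 ∪ (P2 ∪ P3), ¬ p ∣ d),
      ‖E (r0 * (∏ q ∈ P3, q) ^ 2 * ∏ q ∈ pp d ∪ P1, q) ((pp d ∪ P1) ∪ (P2 ∪ P3)) Y‖ₑ ^ 2 ≤
      (Z ε) ^ 7 * ENNReal.ofReal (Λ * 2 ^ P1.card * 4 ^ P2.card *
        (K * (D * nm (∏ q ∈ P1, q)) ^ ε * (D * nm (∏ q ∈ P1, q) + τ) * Y ^ (1 + ε))) := by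
  classical
  set s0 := r0 * (∏ q ∈ P3, q) ^ 2 with hs0
  set Q1 : ℝ := ((nm (∏ q ∈ P1, q) : ℕ) : ℝ) with hQ1
  have hQ1' : 1 ≤ Q1 := one_le_nm_prod h1
  set I := (S D).filter (fun d => ∀ p ∈ P1 ∪ (P2 ∪ P3), ¬ p ∣ d) with hI
  have hDp : 0 < D := by linarith
  -- facts about members of `I`
  have hId : ∀ d ∈ I, (nm d : ℝ) ≤ D ∧ IsPrim d ∧ Squarefree d ∧ Disjoint (pp d) P1 ∧
      Disjoint (pp d) P2 ∧ Disjoint (pp d) P3 := by
    intro d hd
    rw [hI, Finset.mem_filter, mem_S hDp.le] at hd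
    obtain ⟨⟨ha, hb, hc⟩, hd'⟩ := hd
    refine ⟨ha, hb, hc, ?_, ?_, ?_⟩
    · exact Finset.disjoint_left.mpr fun q hq hq' =>
        hd' q (Finset.mem_union_left _ hq') (dvd_of_mem_pp hq)
    · exact Finset.disjoint_left.mpr fun q hq hq' =>
        hd' q (Finset.mem_union_right _ (Finset.mem_union_left _ hq')) (dvd_of_mem_pp hq)
    · exact Finset.disjoint_left.mpr fun q hq hq' =>
        hd' q (Finset.mem_union_right _ (Finset.mem_union_right _ hq')) (dvd_of_mem_pp hq)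
  have hPd : ∀ d, PPSet (pp d ∪ P1) := fun d p hp => by
    rcases Finset.mem_union.mp hp with h | h
    · exact isPP_of_mem_pp h
    · exact h1 p h
  -- the inner functions
  set F : Finset Eis → Finset Eis → Eis → ℝ → ℝ≥0∞ := fun T1 T2 d Y' =>
    ‖E (s0 * (∏ q ∈ (pp d ∪ P1) \ T1, q) * ∏ q ∈ T2, q) ∅ Y'‖ₑ with hF
  set B : ℝ := K * (D * Q1) ^ ε * (D * Q1 + τ) * Y ^ (1 + ε) with hB
  have hBnn : 0 ≤ B := by positivity
  set YT : Finset Eis → Finset Eis → ℝ := fun T1 T2 =>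
    Y / ((nm (∏ q ∈ T1, q) : ℝ) ^ 2 * nm (∏ q ∈ T2, q)) with hYT
  -- pointwise, squared
  have hpt : ∀ d ∈ I, ‖E (s0 * ∏ q ∈ pp d ∪ P1, q) ((pp d ∪ P1) ∪ (P2 ∪ P3)) Y‖ₑ ^ 2 ≤
      ENNReal.ofReal (Λ * 2 ^ P1.card * 2 ^ P2.card) *
      ∑ T1 ∈ (pp d ∪ P1).powerset, ∑ T2 ∈ P2.powerset,
        ENNReal.ofReal (nm (∏ q ∈ T1, q) : ℝ) * (Ja (Ja (Ja (F T1 T2 d))) (YT T1 T2)) ^ 2 := by
    intro d hd
    obtain ⟨hd1, hd2, hd3, hd4, hd5, hd6⟩ := hId d hd
    have hpw := hE.pointwise (hPd d) h2 h3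
      (Finset.disjoint_union_left.mpr ⟨hd5, h12⟩) (Finset.disjoint_union_left.mpr ⟨hd6, h13⟩) h23
      (r0 := r0) (fun p hp => hr0 p (hPd d p hp)) (fun p hp => hr0 p (h2 p hp))
      (fun p hp => hr0 p (h3 p hp)) hY
    rw [← Finset.sum_product'] at hpw
    refine (pow_le_pow_left' hpw 2).trans ((sq_sum_le_card _ _).trans ?_)
    rw [← Finset.sum_product']
    refine mul_le_mul' ?_ (Finset.sum_le_sum fun T hT => ?_)
    · rw [Finset.card_product, Finset.card_powerset, Finset.card_powerset,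
        Finset.card_union_of_disjoint hd4]
      rw [← ENNReal.ofReal_natCast]
      apply ENNReal.ofReal_le_ofReal
      push_cast
      rw [pow_add]
      have := hΛ d (Finset.mem_filter.mp hd).1
      gcongr
    · have e : (((nm (∏ q ∈ T.1, q) : ℕ) : ℝ) ^ ((1 : ℝ) / 2)) ^ 2 =
          ((nm (∏ q ∈ T.1, q) : ℕ) : ℝ) := by
        rw [← Real.rpow_natCast, ← Real.rpow_mul (by positivity)]
        norm_num
      rw [mul_pow, ← ENNReal.ofReal_pow (by positivity), e]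
  -- the exchange of summation
  set TT : Finset (Finset Eis) := ((S D).biUnion pp ∪ P1).powerset with hTT
  have hTTP : ∀ T ∈ TT, PPSet T := by
    intro T hT p hp
    rcases Finset.mem_union.mp (Finset.mem_powerset.mp hT hp) with h | h
    · obtain ⟨d, _, hd⟩ := Finset.mem_biUnion.mp h
      exact isPP_of_mem_pp hd
    · exact h1 p h
  have hsub : ∀ d ∈ I, (pp d ∪ P1).powerset ⊆ TT := by
    intro d hd
    apply Finset.powerset_mono.mpr
    apply Finset.union_subset_union_left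
    exact Finset.subset_biUnion_of_mem pp (Finset.mem_filter.mp hd).1
  -- bound for fixed T1, T2
  have hfix : ∀ T1 ∈ TT, ∀ T2 ∈ P2.powerset,
      ∑ d ∈ I.filter (fun d => T1 ⊆ pp d ∪ P1),
        ENNReal.ofReal (nm (∏ q ∈ T1, q) : ℝ) * (Ja (Ja (Ja (F T1 T2 d))) (YT T1 T2)) ^ 2 ≤
      (Z ε) ^ 6 * (ENNReal.ofReal B * ENNReal.ofReal ((nm (∏ q ∈ T1, q) : ℝ) ^ (-(1 + ε)))) := by
    intro T1 hT1 T2 hT2
    have hT1P := hTTP T1 hT1
    have hT2' := Finset.mem_powerset.mp hT2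
    have hT2P : PPSet T2 := h2.subset hT2'
    have hN1 := one_le_nm_prod hT1P
    have hN2 := one_le_nm_prod hT2P
    set N1 : ℝ := ((nm (∏ q ∈ T1, q) : ℕ) : ℝ) with hN1d
    set N2 : ℝ := ((nm (∏ q ∈ T2, q) : ℕ) : ℝ) with hN2d
    rcases (I.filter (fun d => T1 ⊆ pp d ∪ P1)).eq_empty_or_nonempty with hemp | hne
    · rw [hemp]; simp
    set I' := I.filter (fun d => T1 ⊆ pp d ∪ P1) with hI'
    set H : ℝ := D * Q1 * N2 / N1 with hH
    -- the map
    set hh : Eis → Eis := fun d => (∏ q ∈ (pp d ∪ P1) \ T1, q) * ∏ q ∈ T2, q with hhh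
    have hset : ∀ d ∈ I', PPSet (((pp d ∪ P1) \ T1) ∪ T2) ∧ Disjoint ((pp d ∪ P1) \ T1) T2 ∧
        hh d = ∏ q ∈ ((pp d ∪ P1) \ T1) ∪ T2, q := by
      intro d hd
      obtain ⟨hdI, hdT⟩ := Finset.mem_filter.mp hd
      obtain ⟨hd1, hd2, hd3, hd4, hd5, hd6⟩ := hId d hdI
      have hdis : Disjoint ((pp d ∪ P1) \ T1) T2 := by
        refine Finset.disjoint_of_subset_left Finset.sdiff_subset ?_
        exact Finset.disjoint_of_subset_right hT2' (Finset.disjoint_union_left.mpr ⟨hd5, h12⟩)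
      refine ⟨?_, hdis, ?_⟩
      · intro p hp
        rcases Finset.mem_union.mp hp with h | h
        · exact hPd d p (Finset.mem_sdiff.mp h).1
        · exact hT2P p h
      · rw [hhh, Finset.prod_union hdis]
    have hnmh : ∀ d ∈ I', (nm (hh d) : ℝ) = nm d * Q1 * N2 / N1 := by
      intro d hd
      obtain ⟨hdI, hdT⟩ := Finset.mem_filter.mp hd
      obtain ⟨hd1, hd2, hd3, hd4, hd5, hd6⟩ := hId d hdI
      have e1 : (∏ q ∈ (pp d ∪ P1) \ T1, q) * ∏ q ∈ T1, q = d * ∏ q ∈ P1, q := by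
        rw [Finset.prod_sdiff hdT, Finset.prod_union hd4, prod_pp hd2 hd3]
      have e2 := congrArg nm e1
      rw [nm_mul, nm_mul] at e2
      have e3 : (nm (∏ q ∈ (pp d ∪ P1) \ T1, q) : ℝ) * N1 = nm d * Q1 := by
        rw [hN1d, hQ1]; exact_mod_cast e2
      rw [hhh]
      simp only
      rw [nm_mul]
      push_cast
      rw [← hN2d, eq_div_iff (by positivity), ← e3]; ring
    have hHle : ∀ d ∈ I', (nm (hh d) : ℝ) ≤ H := by
      intro d hd
      rw [hnmh d hd, hH]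
      have := (hId d (Finset.mem_filter.mp hd).1).1
      gcongr
    have hH1 : 1 ≤ H := by
      obtain ⟨d, hd⟩ := hne
      refine le_trans ?_ (hHle d hd)
      rw [(hset d hd).2.2]
      exact one_le_nm_prod (hset d hd).1
    have hmem : ∀ d ∈ I', hh d ∈ (S H).filter (fun h => ∀ p ∈ P3, ¬ p ∣ h) := by
      intro d hd
      obtain ⟨hdI, hdT⟩ := Finset.mem_filter.mp hd
      obtain ⟨hd1, hd2, hd3, hd4, hd5, hd6⟩ := hId d hdI
      rw [Finset.mem_filter, mem_S (by linarith)]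
      have hs := hset d hd
      refine ⟨⟨hHle d hd, ?_, ?_⟩, ?_⟩
      · rw [hs.2.2]; exact hs.1.isPrim_prod
      · rw [hs.2.2]; exact hs.1.squarefree_prod
      · intro p hp hdvd
        rw [hs.2.2, hs.1.dvd_prod (h3 p hp)] at hdvd
        rcases Finset.mem_union.mp hdvd with h | h
        · rcases Finset.mem_union.mp (Finset.mem_sdiff.mp h).1 with h | h
          · exact Finset.disjoint_left.mp hd6 h hp
          · exact Finset.disjoint_left.mp h13 h hp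
        · exact Finset.disjoint_left.mp h23 (hT2' h) hp
    have hinj : Set.InjOn hh I' := by
      intro d hd d' hd' he
      have hd := Finset.mem_coe.mp hd
      have hd' := Finset.mem_coe.mp hd'
      obtain ⟨hdI, hdT⟩ := Finset.mem_filter.mp hd
      obtain ⟨hdI', hdT'⟩ := Finset.mem_filter.mp hd'
      obtain ⟨hd1, hd2, hd3, hd4, hd5, hd6⟩ := hId d hdI
      obtain ⟨hd1', hd2', hd3', hd4', hd5', hd6'⟩ := hId d' hdI'
      rw [(hset d hd).2.2, (hset d' hd').2.2] at he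
      have he2 := congrArg pp he
      rw [(hset d hd).1.pp_prod, (hset d' hd').1.pp_prod] at he2
      have key : ∀ x : Eis, x ∈ P1 → x ∉ pp d := fun x hx hx' => Finset.disjoint_left.mp hd4 hx' hx
      have key' : ∀ x : Eis, x ∈ P1 → x ∉ pp d' := fun x hx hx' =>
        Finset.disjoint_left.mp hd4' hx' hx
      have kT2 : ∀ x ∈ T2, x ∉ pp d := fun x hx hx' =>
        Finset.disjoint_left.mp hd5 hx' (hT2' hx)
      have kT2' : ∀ x ∈ T2, x ∉ pp d' := fun x hx hx' =>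
        Finset.disjoint_left.mp hd5' hx' (hT2' hx)
      have hpp : pp d = pp d' := by
        ext x
        have hx := Finset.ext_iff.mp he2 x
        simp only [Finset.mem_union, Finset.mem_sdiff] at hx
        constructor
        · intro hxd
          by_cases hxT : x ∈ T1
          · have := hdT' hxT
            rcases Finset.mem_union.mp this with h | h
            · exact h
            · exact absurd hxd (key x h)
          · rcases hx.mp (Or.inl ⟨Or.inl hxd, hxT⟩) with ⟨h | h, _⟩ | h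
            · exact h
            · exact absurd hxd (key x h)
            · exact absurd hxd (kT2 x h)
        · intro hxd
          by_cases hxT : x ∈ T1
          · have := hdT hxT
            rcases Finset.mem_union.mp this with h | h
            · exact h
            · exact absurd hxd (key' x h)
          · rcases hx.mpr (Or.inl ⟨Or.inl hxd, hxT⟩) with ⟨h | h, _⟩ | h
            · exact h
            · exact absurd hxd (key' x h)
            · exact absurd hxd (kT2' x h)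
      rw [← prod_pp hd2 hd3, ← prod_pp hd2' hd3', hpp]
    -- base mean square
    have hbase : ∀ Y', 0 < Y' → ∑ d ∈ I', F T1 T2 d Y' ^ 2 ≤
        ENNReal.ofReal (K * (H + τ) * H ^ ε) * ENNReal.ofReal (Y' ^ (1 + ε)) := by
      intro Y' hY'
      refine le_trans ?_ (hM H hH1 Y' hY')
      have e1 : ∑ d ∈ I', F T1 T2 d Y' ^ 2 = ∑ h ∈ I'.image hh, ‖E (s0 * h) ∅ Y'‖ₑ ^ 2 := by
        rw [Finset.sum_image hinj]
        refine Finset.sum_congr rfl fun d _ => ?_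
        rw [hF, hhh]
        simp only
        rw [mul_assoc]
      rw [e1]
      apply Finset.sum_le_sum_of_subset
      intro x hx
      obtain ⟨d, hd, rfl⟩ := Finset.mem_image.mp hx
      exact hmem d hd
    have hb1 := fun Y' (hY' : 0 < Y') => meanSq_Ja I' (F T1 T2) hε _ hbase hY'
    have hb2 := fun Y' (hY' : 0 < Y') => meanSq_Ja I' (fun d => Ja (F T1 T2 d)) hε _ hb1 hY'
    have hYTp : 0 < YT T1 T2 := by
      rw [hYT]; simp only; rw [← hN1d, ← hN2d]; positivity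
    have hb3 := meanSq_Ja I' (fun d => Ja (Ja (F T1 T2 d))) hε _ hb2 hYTp
    rw [← Finset.mul_sum]
    refine (mul_le_mul_right hb3 _).trans ?_
    have hre := real_bound (N1 := N1) (N2 := N2) (DQ := D * Q1) (τ := τ) (ε := ε) (K := K) (Y := Y)
      hN1 hN2 (by positivity) hτ hε hK hY
    calc ENNReal.ofReal N1 * ((Z ε ^ 2 * (Z ε ^ 2 * (Z ε ^ 2 *
          ENNReal.ofReal (K * (H + τ) * H ^ ε)))) * ENNReal.ofReal (YT T1 T2 ^ (1 + ε)))
        = Z ε ^ 6 * ENNReal.ofReal (N1 * (K * (H + τ) * H ^ ε * (YT T1 T2) ^ (1 + ε))) := by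
          rw [ENNReal.ofReal_mul (p := N1) (by positivity),
            ENNReal.ofReal_mul (p := K * (H + τ) * H ^ ε) (by positivity)]
          ring
      _ ≤ Z ε ^ 6 * ENNReal.ofReal (B * N1 ^ (-(1 + ε))) := by
          gcongr
      _ = _ := by rw [ENNReal.ofReal_mul hBnn]
  calc ∑ d ∈ I, ‖E (s0 * ∏ q ∈ pp d ∪ P1, q) ((pp d ∪ P1) ∪ (P2 ∪ P3)) Y‖ₑ ^ 2
      ≤ ∑ d ∈ I, ENNReal.ofReal (Λ * 2 ^ P1.card * 2 ^ P2.card) *
      ∑ T1 ∈ (pp d ∪ P1).powerset, ∑ T2 ∈ P2.powerset,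
        ENNReal.ofReal (nm (∏ q ∈ T1, q) : ℝ) * (Ja (Ja (Ja (F T1 T2 d))) (YT T1 T2)) ^ 2 :=
        Finset.sum_le_sum hpt
    _ = ENNReal.ofReal (Λ * 2 ^ P1.card * 2 ^ P2.card) * ∑ T1 ∈ TT, ∑ T2 ∈ P2.powerset,
        ∑ d ∈ I.filter (fun d => T1 ⊆ pp d ∪ P1),
        ENNReal.ofReal (nm (∏ q ∈ T1, q) : ℝ) * (Ja (Ja (Ja (F T1 T2 d))) (YT T1 T2)) ^ 2 := by
        rw [← Finset.mul_sum]
        congr 1
        have e1 : ∀ d ∈ I, ∑ T1 ∈ (pp d ∪ P1).powerset, ∑ T2 ∈ P2.powerset,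
            ENNReal.ofReal (nm (∏ q ∈ T1, q) : ℝ) * (Ja (Ja (Ja (F T1 T2 d))) (YT T1 T2)) ^ 2 =
            ∑ T1 ∈ TT, if T1 ⊆ pp d ∪ P1 then ∑ T2 ∈ P2.powerset,
            ENNReal.ofReal (nm (∏ q ∈ T1, q) : ℝ) * (Ja (Ja (Ja (F T1 T2 d))) (YT T1 T2)) ^ 2
            else 0 := by
          intro d hd
          rw [← Finset.sum_filter]
          apply Finset.sum_congr _ (fun _ _ => rfl)
          ext T
          simp only [Finset.mem_powerset, Finset.mem_filter]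
          exact ⟨fun h => ⟨hsub d hd (Finset.mem_powerset.mpr h), h⟩, fun h => h.2⟩
        rw [Finset.sum_congr rfl e1, Finset.sum_comm]
        refine Finset.sum_congr rfl fun T1 _ => ?_
        rw [← Finset.sum_filter, Finset.sum_comm]
    _ ≤ ENNReal.ofReal (Λ * 2 ^ P1.card * 2 ^ P2.card) * ∑ T1 ∈ TT, ∑ T2 ∈ P2.powerset,
        (Z ε) ^ 6 * (ENNReal.ofReal B *
          ENNReal.ofReal ((nm (∏ q ∈ T1, q) : ℝ) ^ (-(1 + ε)))) := by
        refine mul_le_mul_right (Finset.sum_le_sum fun T1 hT1 => Finset.sum_le_sum fun T2 hT2 => ?_) _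
        exact hfix T1 hT1 T2 hT2
    _ = ENNReal.ofReal (Λ * 2 ^ P1.card * 2 ^ P2.card) * (ENNReal.ofReal (2 ^ P2.card) *
        ((Z ε) ^ 6 * (ENNReal.ofReal B *
          ∑ T1 ∈ TT, ENNReal.ofReal ((nm (∏ q ∈ T1, q) : ℝ) ^ (-(1 + ε)))))) := by
        congr 1
        simp only [Finset.sum_const, Finset.card_powerset, ← Finset.mul_sum, ← Finset.smul_sum]
        rw [nsmul_eq_mul]
        congr 1
        rw [← ENNReal.ofReal_natCast]
        push_cast; rfl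
    _ ≤ ENNReal.ofReal (Λ * 2 ^ P1.card * 2 ^ P2.card) * (ENNReal.ofReal (2 ^ P2.card) *
        ((Z ε) ^ 6 * (ENNReal.ofReal B * Z ε))) := by
        gcongr
        exact sum_sets_le TT hTTP ε
    _ = _ := by
        have hΛ0 : 0 ≤ Λ := by
          have h1S : (1 : Eis) ∈ S D := by
            rw [mem_S hDp.le]
            exact ⟨by simpa using hD, isPrim_one, squarefree_one⟩
          exact le_trans (by positivity) (hΛ 1 h1S)
        have e4 : (4 : ℝ) ^ P2.card = 2 ^ P2.card * 2 ^ P2.card := by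
          rw [← mul_pow]; norm_num
        rw [e4, ENNReal.ofReal_mul (p := Λ * 2 ^ P1.card * (2 ^ P2.card * 2 ^ P2.card)) (by positivity),
          ← mul_assoc (Λ * 2 ^ P1.card), ENNReal.ofReal_mul (p := Λ * 2 ^ P1.card * 2 ^ P2.card)
            (by positivity)]
        ring

end Crest.Agent.R012.TypeI941
end
end

-- ▼ part R012/TypeI5_941

/-!
# Row 12, item TI (part 5): the instance given by the cubic Gauss sums

* `gt r b = gs r b / √N(b)`, `localGauss : LocalGauss gt`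
* `ch l τ b = ang l b * N(b)^{iτ}`
* `Ef` : the sum `U` minus its main term; `rec_Ef : Rec (Ef ...)` from `RhoRel`.
-/

set_option autoImplicit false

noncomputable section

open Complex
open scoped ENNReal

namespace Crest.Agent.R012.TypeI941

open Crest.Agent.R012 Eis LS2 Mob705 GaussLoc283

/-- normalised Gauss sum -/
def gt (r b : Eis) : ℂ := gs r b / ((Real.sqrt (nm b) : ℝ) : ℂ)

lemma exists_pow_mul {p b : Eis} (hp : PP p) (hb : IsPrim b) :
    ∃ (k : ℕ) (c : Eis), b = p ^ k * c ∧ ¬ p ∣ c ∧ IsPrim c := by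
  have hfin : FiniteMultiplicity p b := FiniteMultiplicity.of_prime_left hp.prime hb.ne_zero
  obtain ⟨c, hc, hnd⟩ := hfin.exists_eq_pow_mul_and_not_dvd
  refine ⟨_, c, hc, hnd, ?_⟩
  rw [hc] at hb
  exact hb.of_mul_left (hp.isPrim.pow _)

lemma le_of_pow_dvd {p c : Eis} (hp : PP p) (hc : ¬ p ∣ c) {j k : ℕ} (h : p ^ j ∣ p ^ k * c) :
    j ≤ k := by
  by_contra hlt
  push Not at hlt
  apply hc
  have h1 : p ^ (k + 1) ∣ p ^ k * c := (pow_dvd_pow p hlt).trans h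
  rw [pow_succ, mul_dvd_mul_iff_left (pow_ne_zero _ hp.prime.ne_zero)] at h1
  exact h1

lemma isCoprime_pow_left {p c : Eis} (hp : PP p) (hc : ¬ p ∣ c) (k : ℕ) :
    IsCoprime (p ^ k) c := ((hp.isCoprime_iff).mpr hc).pow_left

lemma gt_zero_of {r b : Eis} (h : gs r b = 0) : gt r b = 0 := by unfold gt; rw [h, zero_div]

lemma sqrt_nm_ne {b : Eis} (hb : b ≠ 0) : ((Real.sqrt (nm b) : ℝ) : ℂ) ≠ 0 := by
  have : (0 : ℝ) < nm b := by exact_mod_cast nm_pos.mpr hb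
  exact_mod_cast (Real.sqrt_pos.mpr this).ne'

lemma sqrt_nm_mul (a b : Eis) : ((Real.sqrt (nm (a * b)) : ℝ) : ℂ) =
    ((Real.sqrt (nm a) : ℝ) : ℂ) * ((Real.sqrt (nm b) : ℝ) : ℂ) := by
  rw [nm_mul]; push_cast
  rw [Real.sqrt_mul (by positivity)]; push_cast; rfl

/-- product formula for `gt`. -/
lemma gt_mul {r c d : Eis} (hc : IsPrim c) (hd : IsPrim d) (hcd : IsCoprime c d) :
    gt r (c * d) = gt r c * gt (r * c) d := by
  unfold gt
  rw [gs_mul' syAx r hc hd hcd, sqrt_nm_mul, mul_div_mul_comm]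

lemma gt_pow_mul {r p c : Eis} (hp : PP p) (hc : IsPrim c) (h : ¬ p ∣ c) (k : ℕ) :
    gt r (p ^ k * c) = gt r (p ^ k) * gt (r * p ^ k) c :=
  gt_mul (hp.isPrim.pow k) hc (isCoprime_pow_left hp h k)

lemma gt_cube {r p c : Eis} (hp : PP p) (hc : IsPrim c) (h : ¬ p ∣ c) :
    gt (r * p ^ 3) c = gt r c := by
  unfold gt
  rw [gs_cube_left syAx r hc ((hp.isCoprime_iff).mpr h)]

lemma sqrt_sq_nm (p : Eis) : ((Real.sqrt (nm p) : ℝ) : ℂ) * ((Real.sqrt (nm p) : ℝ) : ℂ) = nm p := by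
  rw [← Complex.ofReal_mul, Real.mul_self_sqrt (by positivity)]; push_cast; rfl

theorem localGauss : LocalGauss gt where
  vanish0 := by
    intro r b p hp hr hb h
    obtain ⟨k, c, rfl, hc, hcp⟩ := exists_pow_mul hp hb
    have hk := le_of_pow_dvd hp hc h
    rw [gt_pow_mul hp hcp hc, gt_zero_of (gs_pow_ge_two syAx hp.isPrim hp.prime hr hk), zero_mul]
  mul1 := by
    intro r b p hp hr hb h
    have := gt_pow_mul (r := r) hp hb h 1
    simpa using this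
  vanish1 := by
    intro r b p hp hr hb h
    have := gt_pow_mul (r := r * p) hp hb h 1
    rw [pow_one] at this
    rw [this, gt_zero_of (gs_mul_p_prime syAx hp.isPrim hp.prime), zero_mul]
  vanish3 := by
    intro r b p hp hr hb h
    obtain ⟨k, c, rfl, hc, hcp⟩ := exists_pow_mul hp hb
    have hk := le_of_pow_dvd hp hc h
    rw [gt_pow_mul hp hcp hc, gt_zero_of (gs_p_pow_ge_three syAx hp.isPrim hp.prime hr hk), zero_mul]
  mul2 := by
    intro r b p hp hr hb h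
    rw [gt_pow_mul hp hb h 2]
    have e : r * p * p ^ 2 = r * p ^ 3 := by ring
    rw [e, gt_cube hp hb h]
  norm1 := by
    intro r p hp hr
    unfold gt
    have h1 := norm_gs_prime_sq syAx hp.isPrim hp.prime hr
    rw [norm_div, Complex.norm_real, Real.norm_of_nonneg (Real.sqrt_nonneg _), ← h1,
      Real.sqrt_sq (norm_nonneg _)]
    apply div_self
    intro h0
    rw [h0] at h1
    have : (0 : ℝ) < nm p := by exact_mod_cast nm_pos.mpr hp.prime.ne_zero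
    rw [← h1] at this
    norm_num at this
  sq := by
    intro r p hp hr
    unfold gt
    have h0 := sqrt_nm_ne hp.prime.ne_zero
    rw [gs_p_sq syAx hp.isPrim, pow_two, sqrt_nm_mul, sqrt_sq_nm, map_div₀, Complex.conj_ofReal]
    have h2 : (nm p : ℂ) ≠ 0 := by exact_mod_cast (nm_pos.mpr hp.prime.ne_zero).ne'
    field_simp
  sqv := by
    intro r b p hp hr hb h
    have := gt_pow_mul (r := r * p ^ 2) hp hb h 1
    rw [pow_one] at this
    rw [this, gt_zero_of (gs_sq_p syAx hp.isPrim hp.prime), zero_mul]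
  sqv2 := by
    intro r b p hp hr hb h
    rw [gt_pow_mul hp hb h 2, gt_zero_of (gs_sq_sq syAx hp.isPrim hp.prime), zero_mul]
  sqv4 := by
    intro r b p hp hr hb h
    obtain ⟨k, c, rfl, hc, hcp⟩ := exists_pow_mul hp hb
    have hk := le_of_pow_dvd hp hc h
    rw [gt_pow_mul hp hcp hc, gt_zero_of (gs_sq_pow_ge_four syAx hp.isPrim hp.prime hr hk), zero_mul]
  mul3 := by
    intro r b p hp hr hb h
    rw [gt_pow_mul hp hb h 3, gt_cube hp hb h]
    congr 1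
    unfold gt
    have h0 := sqrt_nm_ne hp.prime.ne_zero
    have e : p ^ 3 = p * (p * p) := by ring
    rw [gs_sq_cube syAx hp.isPrim hp.prime hr, e, sqrt_nm_mul, sqrt_nm_mul, ← sqrt_sq_nm p]
    field_simp

/-- the twist `(b/|b|)^l N(b)^{iτ}`. -/
def ch (l : ℤ) (τ : ℝ) (b : Eis) : ℂ := ang l b * (nm b : ℂ) ^ ((τ : ℂ) * Complex.I)

lemma ch_mul (l : ℤ) (τ : ℝ) (a b : Eis) : ch l τ (a * b) = ch l τ a * ch l τ b := by
  unfold ch
  have h1 : ang l (a * b) = ang l a * ang l b := by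
    unfold ang
    rw [map_mul, norm_mul, Complex.ofReal_mul, mul_div_mul_comm, mul_zpow]
  have h2 : ((nm (a * b) : ℕ) : ℂ) ^ ((τ : ℂ) * Complex.I) =
      (nm a : ℂ) ^ ((τ : ℂ) * Complex.I) * (nm b : ℂ) ^ ((τ : ℂ) * Complex.I) := by
    rw [nm_mul]
    have := Complex.mul_cpow_ofReal_nonneg (a := (nm a : ℝ)) (b := (nm b : ℝ)) (by positivity)
      (by positivity) ((τ : ℂ) * Complex.I)
    push_cast at this ⊢
    exact this
  rw [h1, h2]; ring

lemma norm_ch {l : ℤ} {τ : ℝ} {b : Eis} (hb : b ≠ 0) : ‖ch l τ b‖ = 1 := by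
  unfold ch
  have h1 : ‖ang l b‖ = 1 := by
    unfold ang
    have : toC b ≠ 0 := by rwa [Ne, toC_eq_zero]
    rw [norm_zpow, norm_div, Complex.norm_real, norm_norm, div_self (norm_ne_zero_iff.mpr this),
      one_zpow]
  rw [norm_mul, h1, one_mul, Complex.norm_natCast_cpow_of_pos (nm_pos.mpr hb)]
  simp

/-- the exponent `5/6 + iτ`. -/
def se (τ : ℝ) : ℂ := (5 : ℂ) / 6 + τ * Complex.I

/-- local density factor -/
def dens (P : Finset Eis) : ℂ := ∏ p ∈ P, ((1 : ℂ) + 1 / (nm p : ℂ))⁻¹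

/-- the main term. -/
def Mt (l : ℤ) (τ : ℝ) (v : ℝ → ℂ) (ρ : Eis → ℂ) (r : Eis) (P : Finset Eis) (Y : ℝ) : ℂ :=
  if l = 0 then ρ r * dens P * mellin v (se τ) * (Y : ℂ) ^ (se τ) else 0

/-- sum minus main term. -/
def Ef (l : ℤ) (τ : ℝ) (v : ℝ → ℂ) (ρ : Eis → ℂ) (r : Eis) (P : Finset Eis) (Y : ℝ) : ℂ :=
  U gt (ch l τ) v r P Y - Mt l τ v ρ r P Y

lemma cpow_scale {Y c : ℝ} (hY : 0 < Y) (hc : 0 < c) (s : ℂ) :
    ((Y / c : ℝ) : ℂ) ^ s = (Y : ℂ) ^ s * (c : ℂ) ^ (-s) := by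
  rw [Complex.ofReal_div, Complex.div_cpow_ofReal_nonneg hY.le hc.le, Complex.cpow_neg,
    div_eq_mul_inv]

lemma ch_zero_cpow {τ : ℝ} {p : Eis} (hp : p ≠ 0) (k : ℕ) :
    ch 0 τ p ^ k * (((nm p : ℝ) ^ k : ℝ) : ℂ) ^ (-se τ) =
      (((nm p : ℝ) ^ (-((5 : ℝ) * k / 6)) : ℝ) : ℂ) := by
  have hn : (0 : ℝ) < nm p := by exact_mod_cast nm_pos.mpr hp
  have hne : ((nm p : ℝ) : ℂ) ≠ 0 := by exact_mod_cast hn.ne'
  unfold ch
  have h1 : ang 0 p = 1 := by unfold ang; simp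
  rw [h1, one_mul, Complex.ofReal_pow, ← Complex.cpow_natCast ((nm p : ℝ) : ℂ) k,
    ← Complex.cpow_natCast ((nm p : ℂ) ^ _) k]
  have e1 : ((nm p : ℕ) : ℂ) = ((nm p : ℝ) : ℂ) := by push_cast; rfl
  rw [e1]
  have hlog : ∀ x : ℂ, (((nm p : ℝ) : ℂ) ^ x) = Complex.exp (((Real.log (nm p) : ℝ) : ℂ) * x) := by
    intro x
    rw [Complex.cpow_def_of_ne_zero hne, Complex.ofReal_log hn.le]
  have hlogexp : ∀ (x : ℂ) (n : ℕ), (Complex.exp x) ^ (n : ℂ) = Complex.exp (x * n) := by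
    intro x n
    rw [Complex.cpow_natCast, ← Complex.exp_nat_mul]
    congr 1; ring
  have e2 : ∀ n : ℕ, (((nm p : ℝ) : ℂ) ^ (n : ℂ)) ^ (-se τ) =
      Complex.exp (((Real.log (nm p) : ℝ) : ℂ) * (n * (-se τ))) := by
    intro n
    have h3 : ((nm p : ℝ) : ℂ) ^ (n : ℂ) = (((nm p : ℝ) ^ n : ℝ) : ℂ) := by
      rw [Complex.cpow_natCast]; push_cast; rfl
    rw [h3]
    have hpos : (0 : ℝ) < (nm p : ℝ) ^ n := by positivity
    rw [Complex.cpow_def_of_ne_zero (by exact_mod_cast hpos.ne'), ← Complex.ofReal_log hpos.le,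
      Real.log_pow]
    congr 1
    push_cast; ring
  rw [e2, hlog, hlogexp, ← Complex.exp_add, Complex.ofReal_cpow hn.le, hlog]
  congr 1
  unfold se
  push_cast
  ring

lemma dens_insert [DecidableEq Eis] {p : Eis} {P : Finset Eis} (h : p ∉ P) :
    dens (insert p P) = ((1 : ℂ) + 1 / (nm p : ℂ))⁻¹ * dens P := by
  unfold dens; rw [Finset.prod_insert h]

lemma one_add_inv_ne {p : Eis} : ((1 : ℂ) + 1 / (nm p : ℂ)) ≠ 0 := by
  have : (0 : ℝ) < 1 + 1 / (nm p : ℝ) := by positivity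
  have h2 : ((1 + 1 / (nm p : ℝ) : ℝ) : ℂ) ≠ 0 := by exact_mod_cast this.ne'
  push_cast at h2
  exact h2

variable {ρ : Eis → ℂ}

/-- relation 1 for the main term. -/
lemma Mt_rel1 [DecidableEq Eis] (hρ : M49.RhoRel ρ) (l : ℤ) (τ : ℝ) (v : ℝ → ℂ) {P : Finset Eis}
    {p r : Eis} (hp : PP p) (hpP : p ∉ P) (hr : ¬ p ∣ r) {Y : ℝ} (hY : 0 < Y) :
    Mt l τ v ρ r P Y = Mt l τ v ρ r (insert p P) Y +
      gt r p * ch l τ p * Mt l τ v ρ (r * p) (insert p P) (Y / nm p) := by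
  unfold Mt
  by_cases hl : l = 0
  swap
  · simp [hl]
  subst hl
  simp only [if_true]
  have hn : (0 : ℝ) < nm p := by exact_mod_cast nm_pos.mpr hp.prime.ne_zero
  rw [cpow_scale hY hn, dens_insert hpP, hρ.one_p p r hp.prime hp.isPrim hr]
  have h1 := ch_zero_cpow (τ := τ) hp.prime.ne_zero 1
  rw [pow_one, pow_one] at h1
  have h2 : gt r p * (starRingEnd ℂ) (gt r p) = 1 := by
    rw [Complex.mul_conj, Complex.normSq_eq_norm_sq, localGauss.norm1 hp hr]; simp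
  have h3 : (starRingEnd ℂ) (gs r p / ((Real.sqrt (nm p) : ℝ) : ℂ)) = (starRingEnd ℂ) (gt r p) := rfl
  have h4 : (((nm p : ℝ) ^ (-(1 : ℝ) / 6) : ℝ) : ℂ) *
      (((nm p : ℝ) ^ (-((5 : ℝ) * ((1 : ℕ) : ℝ) / 6)) : ℝ) : ℂ) = 1 / (nm p : ℂ) := by
    rw [← Complex.ofReal_mul, ← Real.rpow_add hn]
    have : (-(1 : ℝ) / 6 + -((5 : ℝ) * ((1 : ℕ) : ℝ) / 6)) = -1 := by push_cast; norm_num
    rw [this, Real.rpow_neg_one]; push_cast; rw [one_div]
  rw [h3]
  have h5 : gt r p * ch 0 τ p * ((starRingEnd ℂ) (gt r p) * (((nm p : ℝ) ^ (-(1 : ℝ) / 6) : ℝ) : ℂ) *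
      ρ r * (((1 : ℂ) + 1 / (nm p : ℂ))⁻¹ * dens P) * mellin v (se τ) *
      ((Y : ℂ) ^ se τ * ((nm p : ℝ) : ℂ) ^ (-se τ))) =
      (gt r p * (starRingEnd ℂ) (gt r p)) * ((ch 0 τ p * ((nm p : ℝ) : ℂ) ^ (-se τ)) *
      (((nm p : ℝ) ^ (-(1 : ℝ) / 6) : ℝ) : ℂ)) * (ρ r * (((1 : ℂ) + 1 / (nm p : ℂ))⁻¹ * dens P) *
      mellin v (se τ) * (Y : ℂ) ^ se τ) := by ring
  rw [h5, h2, h1, mul_comm (((nm p : ℝ) ^ (-((5 : ℝ) * ((1 : ℕ) : ℝ) / 6)) : ℝ) : ℂ), h4]
  have h6 := one_add_inv_ne (p := p)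
  field_simp

/-- relation 2 for the main term. -/
lemma Mt_rel2 [DecidableEq Eis] (hρ : M49.RhoRel ρ) (l : ℤ) (τ : ℝ) (v : ℝ → ℂ) {P : Finset Eis}
    {p r : Eis} (hp : PP p) (hpP : p ∉ P) (hr : ¬ p ∣ r) {Y : ℝ} (hY : 0 < Y) :
    Mt l τ v ρ (r * p) P Y = Mt l τ v ρ (r * p) (insert p P) Y +
      gt (r * p) (p ^ 2) * ch l τ p ^ 2 * Mt l τ v ρ r (insert p P) (Y / (nm p : ℝ) ^ 2) := by
  unfold Mt
  by_cases hl : l = 0
  swap
  · simp [hl]
  subst hl
  simp only [if_true]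
  have hn : (0 : ℝ) < nm p := by exact_mod_cast nm_pos.mpr hp.prime.ne_zero
  rw [cpow_scale hY (by positivity), dens_insert hpP, hρ.one_p p r hp.prime hp.isPrim hr,
    localGauss.sq hp hr]
  have h1 := ch_zero_cpow (τ := τ) hp.prime.ne_zero 2
  have h3 : (starRingEnd ℂ) (gs r p / ((Real.sqrt (nm p) : ℝ) : ℂ)) = (starRingEnd ℂ) (gt r p) := rfl
  have h4 : (((nm p : ℝ) ^ (-((5 : ℝ) * ((2 : ℕ) : ℝ) / 6)) : ℝ) : ℂ) * ((Real.sqrt (nm p) : ℝ) : ℂ)
      = 1 / (nm p : ℂ) * (((nm p : ℝ) ^ (-(1 : ℝ) / 6) : ℝ) : ℂ) := by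
    have e : (1 : ℂ) / (nm p : ℂ) = (((nm p : ℝ) ^ (-1 : ℝ) : ℝ) : ℂ) := by
      rw [Real.rpow_neg_one]; push_cast; rw [one_div]
    rw [e, Real.sqrt_eq_rpow, ← Complex.ofReal_mul, ← Complex.ofReal_mul, ← Real.rpow_add hn,
      ← Real.rpow_add hn]
    congr 2
    push_cast; norm_num
  rw [h3]
  have h5 : ((Real.sqrt (nm p) : ℝ) : ℂ) * (starRingEnd ℂ) (gt r p) * ch 0 τ p ^ 2 * (
      ρ r * (((1 : ℂ) + 1 / (nm p : ℂ))⁻¹ * dens P) * mellin v (se τ) *
      ((Y : ℂ) ^ se τ * (((nm p : ℝ) ^ 2 : ℝ) : ℂ) ^ (-se τ))) =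
      (starRingEnd ℂ) (gt r p) * ((ch 0 τ p ^ 2 * (((nm p : ℝ) ^ 2 : ℝ) : ℂ) ^ (-se τ)) *
      ((Real.sqrt (nm p) : ℝ) : ℂ)) * (ρ r * (((1 : ℂ) + 1 / (nm p : ℂ))⁻¹ * dens P) *
      mellin v (se τ) * (Y : ℂ) ^ se τ) := by ring
  rw [h5, h1, h4]
  have h6 := one_add_inv_ne (p := p)
  field_simp

/-- relation 3 for the main term. -/
lemma Mt_rel3 [DecidableEq Eis] (hρ : M49.RhoRel ρ) (l : ℤ) (τ : ℝ) (v : ℝ → ℂ) {P : Finset Eis}
    {p r : Eis} (hp : PP p) (hr : ¬ p ∣ r) {Y : ℝ} :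
    Mt l τ v ρ (r * p ^ 2) P Y = Mt l τ v ρ (r * p ^ 2) (insert p P) Y +
      -(Real.sqrt (nm p) : ℂ) * ch l τ p ^ 3 *
        Mt l τ v ρ (r * p ^ 2) (insert p P) (Y / (nm p : ℝ) ^ 3) := by
  unfold Mt
  rw [hρ.two_p p r hp.prime hp.isPrim hr]
  simp

/-- growth near zero. -/
lemma growth_Ef {v : ℝ → ℂ} (hv : M49.Wt v) (l : ℤ) (τ : ℝ) (r : Eis) (P : Finset Eis) :
    ∃ C : ℝ, ∀ Y, 0 < Y → Y ≤ 1 → ‖Ef l τ v ρ r P Y‖ ≤ C * Y ^ ((5 : ℝ) / 6) := by
  classical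
  obtain ⟨a, b, ha, hab, hsup⟩ := hv.supp
  have hb : 0 < b := ha.trans hab
  obtain ⟨Cv, hCv⟩ : ∃ Cv : ℝ, ∀ x, ‖v x‖ ≤ Cv := by
    have hcont : Continuous v := hv.smooth.continuous
    have hcs : HasCompactSupport v := by
      refine HasCompactSupport.of_support_subset_isCompact (isCompact_Icc (a := a) (b := b)) ?_
      intro x hx
      by_contra h
      apply hx
      apply hsup
      rw [Set.mem_Icc, not_and_or] at h
      rcases h with h | h
      · left; exact not_le.mp h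
      · right; exact not_le.mp h
    exact hcont.bounded_above_of_compact_support hcs
  have hCv0 : 0 ≤ Cv := (norm_nonneg _).trans (hCv 0)
  -- the finite sum
  set T : Finset Eis := ball ⌈b⌉₊ with hT
  set C1 : ℝ := ∑ x ∈ T, ‖gt r x‖ * Cv with hC1
  have hC10 : 0 ≤ C1 := Finset.sum_nonneg fun x _ => by positivity
  have hU : ∀ Y, 0 < Y → Y ≤ 1 → ‖U gt (ch l τ) v r P Y‖ ≤ C1 * b ^ ((5 : ℝ) / 6) * Y ^ ((5 : ℝ) / 6) := by
    intro Y hY hY1
    by_cases hYb : Y * b < 1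
    · have : U gt (ch l τ) v r P Y = 0 := by
        unfold U
        have h0 : ∀ x : Eis, (if IsPrim x ∧ cop P x then
            gt r x * ch l τ x * v ((nm x : ℝ) / Y) else 0) = 0 := by
          intro x
          split_ifs with hx
          · have h1 : (1 : ℝ) ≤ nm x := by exact_mod_cast nm_pos.mpr hx.1.ne_zero
            have : v ((nm x : ℝ) / Y) = 0 := by
              apply hsup; right
              rw [lt_div_iff₀ hY]
              nlinarith
            rw [this, mul_zero]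
          · rfl
        simp only [h0, tsum_zero]
      rw [this, norm_zero]; positivity
    · push Not at hYb
      have h1 : U gt (ch l τ) v r P Y = ∑ x ∈ T, if IsPrim x ∧ cop P x then
          gt r x * ch l τ x * v ((nm x : ℝ) / Y) else 0 := by
        unfold U
        rw [tsum_eq_sum]
        intro x hx
        split_ifs with hxp
        · have : v ((nm x : ℝ) / Y) = 0 := by
            apply hsup; right
            rw [hT, mem_ball] at hx
            push Not at hx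
            have h2 : b < nm x := lt_of_le_of_lt (Nat.le_ceil b) (by exact_mod_cast hx)
            rw [lt_div_iff₀ hY]
            nlinarith
          rw [this, mul_zero]
        · rfl
      rw [h1]
      have h2 : ‖∑ x ∈ T, if IsPrim x ∧ cop P x then
          gt r x * ch l τ x * v ((nm x : ℝ) / Y) else 0‖ ≤ C1 := by
        refine (norm_sum_le _ _).trans (Finset.sum_le_sum fun x _ => ?_)
        split_ifs with hxp
        · rw [norm_mul, norm_mul, norm_ch hxp.1.ne_zero, mul_one]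
          gcongr
          exact hCv _
        · rw [norm_zero]; positivity
      refine h2.trans ?_
      rw [mul_assoc, ← Real.mul_rpow hb.le hY.le]
      have h3 : (1 : ℝ) ≤ (b * Y) ^ ((5 : ℝ) / 6) := by
        apply Real.one_le_rpow _ (by norm_num)
        rw [mul_comm]; exact hYb
      nlinarith
  refine ⟨C1 * b ^ ((5 : ℝ) / 6) + ‖ρ r * dens P * mellin v (se τ)‖, fun Y hY hY1 => ?_⟩
  unfold Ef
  refine (norm_sub_le _ _).trans ?_
  rw [add_mul]
  refine add_le_add (hU Y hY hY1) ?_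
  unfold Mt
  split_ifs
  · rw [norm_mul]
    gcongr
    rw [Complex.norm_cpow_eq_rpow_re_of_pos hY]
    apply le_of_eq
    congr 1
    unfold se; simp
  · rw [norm_zero]; positivity

/-- **The recursion holds for the Gauss sums.** -/
theorem rec_Ef [DecidableEq Eis] (hρ : M49.RhoRel ρ) {v : ℝ → ℂ} (hv : M49.Wt v) (l : ℤ) (τ : ℝ) :
    Rec (Ef l τ v ρ) := by
  obtain ⟨a, b, ha, hab, hsup⟩ := hv.supp
  have hW : ∀ x, b < x → v x = 0 := fun x hx => hsup x (Or.inr hx)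
  refine ⟨⟨fun r p => gt r p * ch l τ p, fun r p => gt (r * p) (p ^ 2) * ch l τ p ^ 2,
    ?_, ?_, ?_, ?_⟩, ⟨fun p => -(Real.sqrt (nm p) : ℂ) * ch l τ p ^ 3, ?_, ?_⟩, growth_Ef hv l τ⟩
  · intro r p hp hr
    rw [norm_mul, localGauss.norm1 hp hr, norm_ch hp.prime.ne_zero, one_mul]
  · intro r p hp hr
    rw [norm_mul, norm_pow, norm_ch hp.prime.ne_zero, one_pow, mul_one, localGauss.sq hp hr,
      norm_mul, Complex.norm_real, Real.norm_of_nonneg (Real.sqrt_nonneg _), RCLike.norm_conj,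
      localGauss.norm1 hp hr, mul_one, Real.sqrt_eq_rpow]
  · intro P r p hP hp hpP hr Y hY
    unfold Ef
    rw [rel1 localGauss (ch_mul l τ) hW hP hp hpP hr hY, Mt_rel1 hρ l τ v hp hpP hr hY]
    ring
  · intro P r p hP hp hpP hr Y hY
    unfold Ef
    rw [rel2 localGauss (ch_mul l τ) hW hP hp hpP hr hY, Mt_rel2 hρ l τ v hp hpP hr hY]
    ring
  · intro p hp
    rw [norm_mul, norm_pow, norm_ch hp.prime.ne_zero, one_pow, mul_one, norm_neg,
      Complex.norm_real, Real.norm_of_nonneg (Real.sqrt_nonneg _), Real.sqrt_eq_rpow]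
  · intro P r p hP hp hpP hr Y hY
    unfold Ef
    rw [rel3 localGauss (ch_mul l τ) hW hP hp hpP hr hY, Mt_rel3 hρ l τ v hp hr]
    ring

end Crest.Agent.R012.TypeI941
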