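import Crest.Agent.R012.CR2c_180
import Crest.Agent.R012.CR2SpecB_180
import Crest.Agent.R012.CR2f_180
import Mathlib
import Crest.Agent.R012.CR2Spec_180
import Crest.Agent.R012.BilG_811
import Crest.Agent.R012.GaussInst_880
import Crest.Agent.R012.CF_61
import Crest.Agent.R012.LS1_879
import Crest.Agent.R012.GLS_687
import Crest.Agent.R012.Sym6_645
import Crest.Agent.R012.CRA_106
import Crest.Agent.R012.TypeI5_941
import Crest.Agent.R012.ResOut_785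

-- ▼ part R012/CR2d_180
section

/-!
# Row 12 (CR2), part d: the `t`-integral and the sum over `d, e, f`
-/

set_option autoImplicit false
set_option linter.unusedVariables false
set_option linter.unusedSimpArgs false
set_option linter.unusedSectionVars false

noncomputable section

namespace Crest.Agent.R012.CR2

open Eis LS2 Mob705 Finset CharSum852 Tau671 MeasureTheory

local notation "cj" => starRingEnd ℂ

lemma integral_cauchy {T0 : ℝ} (hT : 0 < T0) :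
    Integrable (fun t : ℝ => (T0 ^ 2 + t ^ 2)⁻¹) ∧ ∫ t : ℝ, (T0 ^ 2 + t ^ 2)⁻¹ = Real.pi / T0 := by
  have e : (fun t : ℝ => (T0 ^ 2 + t ^ 2)⁻¹) = fun t : ℝ => (T0 ^ 2)⁻¹ * (1 + (t / T0) ^ 2)⁻¹ := by
    funext t
    rw [← mul_inv]
    congr 1
    field_simp
  constructor
  · rw [e]
    apply Integrable.const_mul
    exact (integrable_inv_one_add_sq).comp_div hT.ne'
  · rw [e, MeasureTheory.integral_const_mul,
      MeasureTheory.Measure.integral_comp_div (fun t : ℝ => (1 + t ^ 2)⁻¹),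
      integral_univ_inv_one_add_sq, smul_eq_mul, abs_of_pos hT]
    field_simp

/-- splitting the `t`-integral at `T0` -/
lemma int_le {F : ℝ → ℝ} {A B T0 : ℝ} (hF : ∀ t, 0 ≤ F t) (hA : 0 ≤ A) (hB : 0 ≤ B)
    (hT : 0 < T0) (h1 : ∀ t, |t| ≤ T0 → F t ≤ A) (h2 : ∀ t, F t ≤ A + B) :
    ∫ t : ℝ, (1 + t ^ 2)⁻¹ * F t ≤ 4 * A + 8 * (B / T0) := by
  have hi := integral_cauchy hT
  have hg : Integrable (fun t : ℝ => (1 + t ^ 2)⁻¹ * A + (T0 ^ 2 + t ^ 2)⁻¹ * (2 * B)) :=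
    (integrable_inv_one_add_sq.mul_const _).add (hi.1.mul_const _)
  calc ∫ t : ℝ, (1 + t ^ 2)⁻¹ * F t
      ≤ ∫ t : ℝ, ((1 + t ^ 2)⁻¹ * A + (T0 ^ 2 + t ^ 2)⁻¹ * (2 * B)) := by
        apply integral_mono_of_nonneg _ hg _
        · filter_upwards with t
          have := hF t
          positivity
        · filter_upwards with t
          have hp : 0 < (1 + t ^ 2)⁻¹ := by positivity
          have hp2 : 0 < (T0 ^ 2 + t ^ 2)⁻¹ := by positivity
          by_cases ht : |t| ≤ T0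
          · have := h1 t ht
            have h3 : (1 + t ^ 2)⁻¹ * F t ≤ (1 + t ^ 2)⁻¹ * A := by gcongr
            have h4 : 0 ≤ (T0 ^ 2 + t ^ 2)⁻¹ * (2 * B) := by positivity
            linarith
          · have hlt := not_le.mp ht
            have h3 : (1 + t ^ 2)⁻¹ * F t ≤ (1 + t ^ 2)⁻¹ * (A + B) := by
              have := h2 t
              gcongr
            have h5 : T0 ^ 2 ≤ t ^ 2 := by
              rw [← sq_abs t]
              gcongr
            have h4 : (1 + t ^ 2)⁻¹ ≤ (T0 ^ 2 + t ^ 2)⁻¹ * 2 := by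
              rw [inv_eq_one_div, inv_mul_eq_div, div_le_div_iff₀ (by positivity) (by positivity)]
              linarith
            calc (1 + t ^ 2)⁻¹ * F t ≤ (1 + t ^ 2)⁻¹ * (A + B) := h3
              _ = (1 + t ^ 2)⁻¹ * A + (1 + t ^ 2)⁻¹ * B := by ring
              _ ≤ (1 + t ^ 2)⁻¹ * A + (T0 ^ 2 + t ^ 2)⁻¹ * 2 * B := by gcongr
              _ = _ := by ring
    _ = Real.pi * A + Real.pi / T0 * (2 * B) := by
        rw [integral_add (integrable_inv_one_add_sq.mul_const _) (hi.1.mul_const _),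
          MeasureTheory.integral_mul_const, MeasureTheory.integral_mul_const,
          integral_univ_inv_one_add_sq, hi.2]
    _ ≤ 4 * A + 8 * (B / T0) := by
        have hpi : Real.pi ≤ 4 := Real.pi_le_four
        have h3 : 0 ≤ B / T0 := by positivity
        have e : Real.pi / T0 * (2 * B) = Real.pi * (2 * (B / T0)) := by ring
        rw [e]
        nlinarith

/-- the square mean of `w` on the multiples of `df` -/
def Wd (w : Eis → ℂ) (X : ℝ) (d f : Eis) : ℝ := ∑ k ∈ S X, ‖w (d * f * k)‖ ^ 2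

lemma Wd_nonneg (w : Eis → ℂ) (X : ℝ) (d f : Eis) : 0 ≤ Wd w X d f :=
  Finset.sum_nonneg fun _ _ => by positivity

/-- `Xi` in terms of `Wd` -/
lemma Xi_le {w : Eis → ℂ} {X Y σ : ℝ} (hX : 1 ≤ X) (hY : 0 < Y) (hσ0 : 0 ≤ σ)
    (hw : ∀ h, w h ≠ 0 → h ∈ S X) (hwY : ∀ h, w h ≠ 0 → Y ≤ nm h) {d f : Eis} (hd : IsPrim d)
    (hf : IsPrim f) :
    Xi w X d f σ ≤ (nm d * nm f / Y) * X ^ (2 * σ) * Wd w X d f := by
  have hd0 : (0 : ℝ) < nm d := by exact_mod_cast nm_pos.mpr hd.ne_zero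
  have hf0 : (0 : ℝ) < nm f := by exact_mod_cast nm_pos.mpr hf.ne_zero
  unfold Xi Wd
  rw [Finset.mul_sum]
  refine Finset.sum_le_sum fun k hk => ?_
  by_cases h0 : w (d * f * k) = 0
  · rw [h0]; simp
  have hk0 : (0 : ℝ) < nm k := by
    exact_mod_cast nm_pos.mpr (S_prim (by linarith) hk).ne_zero
  have hkX : (nm k : ℝ) ≤ X := S_le (by linarith) hk
  have h1 := hwY _ h0
  rw [nm_mul, nm_mul] at h1
  push_cast at h1
  rw [mul_comm]
  apply mul_le_mul_of_nonneg_right _ (by positivity)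
  rw [show (2 * σ - 1 : ℝ) = 2 * σ + (-1) by ring, Real.rpow_add hk0, Real.rpow_neg_one, mul_comm]
  have h2 : (nm k : ℝ)⁻¹ ≤ nm d * nm f / Y := by
    rw [inv_eq_one_div, div_le_div_iff₀ hk0 hY]
    linarith
  have h3 : (nm k : ℝ) ^ (2 * σ) ≤ X ^ (2 * σ) := by
    apply Real.rpow_le_rpow hk0.le hkX; linarith
  gcongr

end Crest.Agent.R012.CR2
end
end

-- ▼ part R012/CR2g_180
section

/-!
# Row 12 (CR2), part g: the bound for one triple `d, e, f`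
-/

set_option autoImplicit false
set_option linter.unusedVariables false
set_option linter.unusedSimpArgs false
set_option linter.unusedSectionVars false

noncomputable section

namespace Crest.Agent.R012.CR2

open Eis LS2 Mob705 Finset CharSum852 Tau671 MeasureTheory

local notation "cj" => starRingEnd ℂ

/-- the instance of `LargePart` which is used -/
def LargeI (CL κ : ℝ) : Prop := open Classical in
  ∀ X L K0 : ℝ, 1 ≤ X → 1 ≤ L → 1 ≤ K0 → ∀ w : Eis → ℂ, (∀ h, w h ≠ 0 → h ∈ S X) →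
  ∀ d e f : Eis, IsPrim d → IsPrim e → IsPrim f → ∀ σ t : ℝ, 0 ≤ σ → σ ≤ 1 / 2 →
    ∑ l ∈ (bl L).filter (fun l => ¬ Sm K0 l), ‖dsum w X d e f l (σ + t * Complex.I)‖ ^ 2 ≤
      CL * (X * L) ^ (κ / 1000) * (X / (nm d * nm f) + L ^ (1 + 6 * ((1 : ℝ) / 400))) *
        L ^ ((1 : ℝ) / 3) *
        (K0 ^ (-(1 : ℝ) / 3) + (X / (nm d * nm f) + L ^ (1 + 6 * ((1 : ℝ) / 400))) ^
          (-((1 : ℝ) / 400))) * Xi w X d f σ

lemma largeI_of (hL : LargePart) {κ : ℝ} (hκ : 0 < κ) : ∃ CL : ℝ, 0 < CL ∧ LargeI CL κ := by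
  obtain ⟨C, hC, h⟩ := hL (1 / 400) (κ / 1000) (by norm_num) (by norm_num) (by positivity)
  exact ⟨C, hC, h⟩

/-- the summand for one triple -/
def Trip (w : Eis → ℂ) (X Z σ : ℝ) (d e f : Eis) : ℝ :=
  Z / (nm e * nm f) * (nm e * (nm f : ℝ) ^ 2 / Z) ^ σ *
    ∫ t : ℝ, (1 + t ^ 2)⁻¹ * ∑ l ∈ bl (Lde X Z σ d e),
      (nm l : ℝ) ^ (-σ) * ‖dsum w X d e f l (σ + t * Complex.I)‖ ^ 2

/-- real arithmetic for the trivial bound -/
lemma trivial_real {H Z ε d e f : ℝ} (hH : 1 < H) (hZ1 : H ^ (1.05 : ℝ) ≤ Z)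
    (hZ2 : Z ≤ H ^ (1.85 : ℝ)) (hε : 0 ≤ ε) (hd : 1 ≤ d) (he : 1 ≤ e) (hf : 1 ≤ f) {L : ℝ}
    (hL : L = ((4 * H) * Z) ^ ε * (1 + e * (4 * H) ^ 2 / (d ^ 2 * Z))) :
    Z / (e * f) * (L ^ ((1 : ℝ) / 3) * (4 * H / (d * f))) * (d * f / (H / 2)) ≤
      128 * (((4 * H) * Z) ^ ε) ^ 2 * (H * Z) ^ ((2 : ℝ) / 3) *
        ((d * f) ^ (-(2 : ℝ) / 3) + H ^ (-(0.05 : ℝ))) := by
  have hA := claimA hH hZ1 hZ2 hε hd he hf
  rw [← hL] at hA
  have e1 : Z / (e * f) * (L ^ ((1 : ℝ) / 3) * (4 * H / (d * f))) * (d * f / (H / 2)) =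
      8 * (Z / (e * f) * L ^ ((1 : ℝ) / 3)) := by
    have hd0 : 0 < d := by linarith
    have hf0 : 0 < f := by linarith
    have he0 : 0 < e := by linarith
    have hH0 : 0 < H := by linarith
    field_simp
    ring
  rw [e1]
  linarith

variable (H : SyFacts)
include H

set_option maxHeartbeats 2000000 in
/-- the bound for the `l`-sum, split in large and small -/
lemma F_le (hG : GFacts) {CL κ : ℝ} (hκ0 : 0 < κ) (hκ : κ ≤ 1 / 10000) (hCL : 0 < CL)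
    (hL : LargeI CL κ) {H0 Z : ℝ} (hH : 1 < H0) (hZ1 : H0 ^ (1.05 : ℝ) ≤ Z)
    (hZ2 : Z ≤ H0 ^ (1.85 : ℝ)) {w : Eis → ℂ} (hw : ∀ h, w h ≠ 0 → h ∈ S (4 * H0))
    {d e f : Eis} (hd : IsPrim d) (he : IsPrim e) (hf : IsPrim f) (hed : e ∣ d) {σ t : ℝ}
    (hσ0 : 0 ≤ σ) (hσ : σ ≤ 1 / 2) {L A1 : ℝ} (hLd : L = Lde (4 * H0) Z (κ / 1000) d e)
    (hA1 : A1 = CL * (4 * H0 * L) ^ (κ / 1000) *
        (4 * H0 / (nm d * nm f) + L ^ (1 + 6 * ((1 : ℝ) / 400))) *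
        L ^ ((1 : ℝ) / 3) *
        ((H0 ^ κ) ^ (-(1 : ℝ) / 3) + (4 * H0 / (nm d * nm f) + L ^ (1 + 6 * ((1 : ℝ) / 400))) ^
          (-((1 : ℝ) / 400))) * Xi w (4 * H0) d f σ) :
    (∑ l ∈ bl L, (nm l : ℝ) ^ (-σ) * ‖dsum w (4 * H0) d e f l (σ + t * Complex.I)‖ ^ 2 ≤
      A1 + (open Classical in
      ∑ l ∈ (bl L).filter (Sm (H0 ^ κ)), ‖dsum w (4 * H0) d e f l (σ + t * Complex.I)‖ ^ 2)) := by
  classical
  have hd1 : (1 : ℝ) ≤ nm d := by exact_mod_cast nm_pos.mpr hd.ne_zero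
  have he1 : (1 : ℝ) ≤ nm e := by exact_mod_cast nm_pos.mpr he.ne_zero
  have hed1 : (nm e : ℝ) ≤ nm d := by exact_mod_cast LS448.nm_le_of_dvd hed hd.ne_zero
  have hL1 : 1 ≤ L := by
    rw [hLd]
    exact (L_le hH hZ1 hZ2 hκ0 hκ hd1 he1 hed1).2.1
  have h1 : ∑ l ∈ bl L, (nm l : ℝ) ^ (-σ) * ‖dsum w (4 * H0) d e f l (σ + t * Complex.I)‖ ^ 2 ≤
      ∑ l ∈ bl L, ‖dsum w (4 * H0) d e f l (σ + t * Complex.I)‖ ^ 2 := by
    refine Finset.sum_le_sum fun l hl => ?_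
    have hl1 : (1 : ℝ) ≤ nm l := by
      exact_mod_cast nm_pos.mpr ((mem_bl (by linarith)).mp hl).1
    have h2 : (nm l : ℝ) ^ (-σ) ≤ 1 :=
      Real.rpow_le_one_of_one_le_of_nonpos hl1 (by linarith)
    have h3 : 0 ≤ ‖dsum w (4 * H0) d e f l (σ + t * Complex.I)‖ ^ 2 := by positivity
    nlinarith
  refine h1.trans ?_
  rw [← Finset.sum_filter_add_sum_filter_not (bl L) (Sm (H0 ^ κ)), add_comm, hA1]
  have h2 := hL (4 * H0) L (H0 ^ κ) (by linarith) hL1 (Real.one_le_rpow hH.le hκ0.le) w hw d e f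
    hd he hf σ t hσ0 hσ
  have e1 : 6 * ((1 : ℝ) / 400) = 6 * (1 / 400) := rfl
  linarith

set_option maxHeartbeats 4000000 in
omit H in
/-- the pure real arithmetic of the triple bound -/
lemma trip_arith {H Z κ d e f CL Cτ τ U Xi' W L P : ℝ} (hκ0 : 0 < κ) (hκ : κ ≤ 1 / 10000)
    (hCL : 0 < CL) (hCτ : 1 ≤ Cτ) (hH : 1 < H) (hZ1 : H ^ (1.05 : ℝ) ≤ Z)
    (hZ2 : Z ≤ H ^ (1.85 : ℝ)) (hd : 1 ≤ d) (he : 1 ≤ e) (hf : 1 ≤ f) (hed : e ≤ d)
    (hdX : d ≤ 4 * H) (hτ0 : 0 ≤ τ) (hτC : τ ≤ Cτ * H ^ (κ / 100)) (hU0 : 0 ≤ U)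
    (hXi0 : 0 ≤ Xi') (hW0 : 0 ≤ W)
    (hXi : Xi' ≤ (d * f / (H / 2)) * (4 * H) ^ (2 * (κ / 1000)) * W)
    (hL : L = ((4 * H) * Z) ^ (κ / 1000) * (1 + e * (4 * H) ^ 2 / (d ^ 2 * Z)))
    (hP0 : 0 ≤ P) (hP : P ≤ Z / (e * f) * (4 * H) ^ (3 * (κ / 1000))) :
    P * (CL * (4 * H * L) ^ (κ / 1000) *
        (4 * H / (d * f) + L ^ (1 + 6 * ((1 : ℝ) / 400))) * L ^ ((1 : ℝ) / 3) *
        ((H ^ κ) ^ (-(1 : ℝ) / 3) + (4 * H / (d * f) + L ^ (1 + 6 * ((1 : ℝ) / 400))) ^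
          (-((1 : ℝ) / 400))) * Xi') ≤
      1000000000 * CL * (H ^ (κ / 100)) ^ 4 * (H * Z) ^ ((2 : ℝ) / 3) * H ^ (-κ / 3) * W ∧
    P * (L ^ ((1 : ℝ) / 3) * (4 * H / (d * f)) * Xi') ≤
      8192 * (H ^ (κ / 100)) ^ 3 * (H * Z) ^ ((2 : ℝ) / 3) *
        ((d * f) ^ (-(2 : ℝ) / 3) + H ^ (-(0.05 : ℝ))) * W ∧
    P * L ^ ((1 : ℝ) / 3) ≤ 2048 * (H ^ (κ / 100)) ^ 3 * (H * Z) ^ ((2 : ℝ) / 3) := by
  have hH0 : 0 < H := by linarith
  have hZ0 : 0 < Z := lt_of_lt_of_le (by positivity) hZ1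
  have hd0 : 0 < d := by linarith
  have hf0 : 0 < f := by linarith
  have he0 : 0 < e := by linarith
  have hK1 : 1 ≤ H ^ κ := Real.one_le_rpow hH.le hκ0.le
  obtain ⟨hX5, hE⟩ := small_pow hH hZ0 hZ2 hκ0 hκ
  obtain ⟨hL68, hL1, hXL⟩ := L_le hH hZ1 hZ2 hκ0 hκ hd he hed
  rw [← hL] at hL68 hL1 hXL
  have hLR := large_real hH hZ1 hZ2 (by positivity : 0 ≤ κ / 1000) hd he hf hed hdX hK1 hL hL1
  have hTR := trivial_real hH hZ1 hZ2 (by positivity : 0 ≤ κ / 1000) hd he hf hL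
  have hA := claimA hH hZ1 hZ2 (by positivity : 0 ≤ κ / 1000) hd he hf
  rw [← hL] at hA
  have hX52 : (4 * H) ^ (3 * (κ / 1000)) * (4 * H) ^ (2 * (κ / 1000)) =
      (4 * H) ^ (5 * (κ / 1000)) := by
    rw [← Real.rpow_add (by positivity)]
    congr 1; ring
  have hX35 : (4 * H) ^ (3 * (κ / 1000)) ≤ (4 * H) ^ (5 * (κ / 1000)) := by
    apply Real.rpow_le_rpow_of_exponent_le (by linarith)
    nlinarith
  set X3 : ℝ := (4 * H) ^ (3 * (κ / 1000)) with hX3d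
  set X2 : ℝ := (4 * H) ^ (2 * (κ / 1000)) with hX2d
  set X5 : ℝ := (4 * H) ^ (5 * (κ / 1000)) with hX5d
  set Q : ℝ := H ^ (κ / 100) with hQ
  set y0 : ℝ := (H * Z) ^ ((2 : ℝ) / 3) with hy0
  set h : ℝ := H ^ (-κ / 3) with hh
  set E : ℝ := ((4 * H) * Z) ^ (κ / 1000) with hEd
  set XL : ℝ := (4 * H * L) ^ (κ / 1000) with hXLd
  have hX30 : 0 ≤ X3 := by positivity
  have hX20 : 0 ≤ X2 := by positivity
  have hX50 : 0 ≤ X5 := by positivity
  have hQ0 : 0 ≤ Q := by positivity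
  have hy00 : 0 ≤ y0 := by positivity
  have hh0 : 0 ≤ h := by positivity
  have hE0 : 0 ≤ E := by positivity
  have hL0 : 0 < L := by linarith
  have hXL0 : 0 ≤ XL := by positivity
  have hk : (H ^ κ) ^ (-(1 : ℝ) / 3) = h := by
    rw [hh, ← Real.rpow_mul hH0.le]; congr 1; ring
  have hη : H ^ (-((1 : ℝ) / 400)) ≤ h :=
    Real.rpow_le_rpow_of_exponent_le hH.le (by linarith)
  have h02 : H ^ (-(0.02 : ℝ)) ≤ h :=
    Real.rpow_le_rpow_of_exponent_le hH.le (by linarith)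
  have hE2 : E ^ 2 ≤ 16 * Q ^ 2 := by
    calc E ^ 2 ≤ (4 * Q) ^ 2 := by gcongr
      _ = _ := by ring
  refine ⟨?_, ?_, ?_⟩
  · set B : ℝ := (4 * H / (d * f) + L ^ (1 + 6 * ((1 : ℝ) / 400))) * L ^ ((1 : ℝ) / 3) *
        ((H ^ κ) ^ (-(1 : ℝ) / 3) + (4 * H / (d * f) + L ^ (1 + 6 * ((1 : ℝ) / 400))) ^
          (-((1 : ℝ) / 400))) with hB
    have hB0 : 0 ≤ B := by positivity
    calc P * (CL * XL * (4 * H / (d * f) + L ^ (1 + 6 * ((1 : ℝ) / 400))) * L ^ ((1 : ℝ) / 3) *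
        ((H ^ κ) ^ (-(1 : ℝ) / 3) + (4 * H / (d * f) + L ^ (1 + 6 * ((1 : ℝ) / 400))) ^
          (-((1 : ℝ) / 400))) * Xi') = P * (CL * XL * B * Xi') := by rw [hB]; ring
      _ ≤ (Z / (e * f) * X3) * (CL * XL * B * ((d * f / (H / 2)) * X2 * W)) := by gcongr
      _ = CL * XL * (X3 * X2) * W * (Z / (e * f) * B * (d * f / (H / 2))) := by ring
      _ ≤ CL * (512 * Q) * (4 * Q) * W * (10000 * (16 * Q ^ 2) * y0 * (h + h + h)) := by
          rw [hX52]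
          have h5 : Z / (e * f) * B * (d * f / (H / 2)) ≤
              10000 * (16 * Q ^ 2) * y0 * (h + h + h) := by
            refine hLR.trans ?_
            rw [hk]
            gcongr
          have h6 : 0 ≤ Z / (e * f) * B * (d * f / (H / 2)) := by positivity
          gcongr
      _ = 983040000 * (CL * Q ^ 4 * y0 * h * W) := by ring
      _ ≤ 1000000000 * (CL * Q ^ 4 * y0 * h * W) := by
          have : 0 ≤ CL * Q ^ 4 * y0 * h * W := by positivity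
          linarith
      _ = _ := by ring
  · set B : ℝ := L ^ ((1 : ℝ) / 3) * (4 * H / (d * f)) with hB
    have hB0 : 0 ≤ B := by positivity
    set D : ℝ := (d * f) ^ (-(2 : ℝ) / 3) + H ^ (-(0.05 : ℝ)) with hD
    have hD0 : 0 ≤ D := by positivity
    calc P * (B * Xi') ≤ (Z / (e * f) * X3) * (B * ((d * f / (H / 2)) * X2 * W)) := by gcongr
      _ = (X3 * X2) * W * (Z / (e * f) * B * (d * f / (H / 2))) := by ring
      _ ≤ (4 * Q) * W * (128 * (16 * Q ^ 2) * y0 * D) := by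
          rw [hX52]
          have h5 : Z / (e * f) * B * (d * f / (H / 2)) ≤ 128 * (16 * Q ^ 2) * y0 * D := by
            refine hTR.trans ?_
            gcongr
          have h6 : 0 ≤ Z / (e * f) * B * (d * f / (H / 2)) := by positivity
          gcongr
      _ = 8192 * Q ^ 3 * y0 * D * W := by ring
  · set B : ℝ := L ^ ((1 : ℝ) / 3) with hB
    have hB0 : 0 ≤ B := by positivity
    have h1 : (d * f) ^ (-(2 : ℝ) / 3) ≤ 1 :=
      Real.rpow_le_one_of_one_le_of_nonpos (by nlinarith) (by norm_num)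
    have h2 : H ^ (-(0.05 : ℝ)) ≤ 1 :=
      Real.rpow_le_one_of_one_le_of_nonpos hH.le (by norm_num)
    calc P * B ≤ (Z / (e * f) * X3) * B := by gcongr
      _ = X3 * (Z / (e * f) * B) := by ring
      _ ≤ (4 * Q) * (16 * (16 * Q ^ 2) * y0 * (1 + 1)) := by
          have h5 : Z / (e * f) * B ≤ 16 * (16 * Q ^ 2) * y0 * (1 + 1) := by
            refine hA.trans ?_
            gcongr
          have h6 : 0 ≤ Z / (e * f) * B := by positivity
          have h7 : X3 ≤ 4 * Q := hX35.trans hX5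
          gcongr
      _ = 2048 * Q ^ 3 * y0 := by ring

set_option maxHeartbeats 4000000 in
/-- **the bound for one triple** -/
lemma triple_bound (hG : GFacts) {CL Cτ κ : ℝ} (hκ0 : 0 < κ) (hκ : κ ≤ 1 / 10000) (hCL : 0 < CL)
    (hCτ : 1 ≤ Cτ) (hL : LargeI CL κ) {H0 Z : ℝ} (hH : 1 < H0) (hZ1 : H0 ^ (1.05 : ℝ) ≤ Z)
    (hZ2 : Z ≤ H0 ^ (1.85 : ℝ)) {w : Eis → ℂ} (hw : ∀ h, w h ≠ 0 → h ∈ S (4 * H0))
    (hw2 : ∀ h, w h ≠ 0 → H0 / 2 ≤ nm h) {τ : ℝ} (hτ0 : 0 ≤ τ) (hτC : τ ≤ Cτ * H0 ^ (κ / 100))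
    (hτ : ∀ m ∈ bl (8 * H0), ((pdiv m).card : ℝ) ≤ τ)
    {d e f : Eis} (hd : IsPrim d) (he : IsPrim e) (hf : IsPrim f) (hed : e ∣ d)
    (hdX : (nm d : ℝ) ≤ 4 * H0) (hfX : (nm f : ℝ) ≤ 4 * H0) {U : ℝ} (hU0 : 0 ≤ U)
    (hU : (nm d : ℝ) * nm f ≤ H0 ^ (3 * κ) → ∀ t : ℝ, |t| ≤ H0 ^ (2 * κ) →
      ∀ r ∈ bl (H0 ^ κ), ∀ g, IsPrim g → (nm g : ℝ) ≤ H0 ^ (2 * κ) →
      ‖Bg w (4 * H0) d e f r g (((κ / 1000 : ℝ) : ℂ) + t * Complex.I)‖ ^ 2 ≤ U) :
    Trip w (4 * H0) Z (κ / 1000) d e f ≤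
      10000000000 * (CL + 1) * Cτ ^ 2 * (H0 ^ (κ / 100)) ^ 6 * (H0 * Z) ^ ((2 : ℝ) / 3) *
        H0 ^ (-κ / 3) * Wd w (4 * H0) d f +
      (open Classical in if (nm d : ℝ) * nm f ≤ H0 ^ (3 * κ) then
        10000000000 * Cτ * (H0 ^ (κ / 100)) ^ 4 * (H0 * Z) ^ ((2 : ℝ) / 3) * H0 ^ (3 * κ) * U
        else 0) := by
  classical
  have hH0 : 0 < H0 := by linarith
  have hZ0 : 0 < Z := lt_of_lt_of_le (by positivity) hZ1
  have hZ1' : 1 ≤ Z := le_trans (Real.one_le_rpow hH.le (by norm_num)) hZ1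
  have hd1 : (1 : ℝ) ≤ nm d := by exact_mod_cast nm_pos.mpr hd.ne_zero
  have he1 : (1 : ℝ) ≤ nm e := by exact_mod_cast nm_pos.mpr he.ne_zero
  have hf1 : (1 : ℝ) ≤ nm f := by exact_mod_cast nm_pos.mpr hf.ne_zero
  have hed1 : (nm e : ℝ) ≤ nm d := by exact_mod_cast LS448.nm_le_of_dvd hed hd.ne_zero
  set σ : ℝ := κ / 1000 with hσ
  have hσ0 : 0 ≤ σ := by positivity
  have hσ1 : σ ≤ 1 / 2 := by linarith
  set L : ℝ := Lde (4 * H0) Z σ d e with hLd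
  have hLf : L = ((4 * H0) * Z) ^ (κ / 1000) *
      (1 + (nm e : ℝ) * (4 * H0) ^ 2 / ((nm d : ℝ) ^ 2 * Z)) := by
    rw [hLd, Lde]
  obtain ⟨hL68, hL1, hXL⟩ := L_le hH hZ1 hZ2 hκ0 hκ hd1 he1 hed1
  rw [← hLf] at hL68 hL1 hXL
  have hL0 : 0 < L := by linarith
  set M : ℝ := L ^ ((1 : ℝ) / 3) with hM
  have hM0 : 0 ≤ M := by positivity
  have hM3 : M ^ 3 = L := by
    rw [hM, ← Real.rpow_natCast, ← Real.rpow_mul hL0.le]; norm_num
  have hM8 : M ≤ 8 * H0 := by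
    have h1 : M ^ 3 ≤ (8 * H0) ^ 3 := by
      rw [hM3]
      have : H0 ≤ H0 ^ 3 := by
        calc H0 = H0 ^ 1 := (pow_one _).symm
          _ ≤ H0 ^ 3 := pow_le_pow_right₀ hH.le (by norm_num)
      nlinarith
    exact le_of_pow_le_pow_left₀ (by norm_num) (by positivity) h1
  have hτM : ∀ m ∈ bl M, ((pdiv m).card : ℝ) ≤ τ := by
    intro m hm
    apply hτ
    rw [mem_bl hM0] at hm
    rw [mem_bl (by positivity)]
    exact ⟨hm.1, hm.2.trans hM8⟩
  have hτX : ∀ m ∈ S (4 * H0), ((pdiv m).card : ℝ) ≤ τ := by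
    intro m hm
    apply hτ
    rw [mem_bl (by positivity)]
    exact ⟨(S_prim (by positivity) hm).ne_zero, (S_le (by positivity) hm).trans (by linarith)⟩
  set Xi' : ℝ := Xi w (4 * H0) d f σ with hXid
  have hXi0 : 0 ≤ Xi' := Xi_nonneg _ _ _ _ _
  set W : ℝ := Wd w (4 * H0) d f with hWd
  have hW0 : 0 ≤ W := Wd_nonneg _ _ _ _
  have hXi : Xi' ≤ (nm d * nm f / (H0 / 2)) * (4 * H0) ^ (2 * (κ / 1000)) * W :=
    Xi_le (by linarith) (by positivity) hσ0 hw hw2 hd hf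
  set P : ℝ := Z / (nm e * nm f) * (nm e * (nm f : ℝ) ^ 2 / Z) ^ σ with hPd
  have hP0 : 0 ≤ P := by positivity
  have hP : P ≤ Z / (nm e * nm f) * (4 * H0) ^ (3 * (κ / 1000)) := by
    rw [hPd]
    apply mul_le_mul_of_nonneg_left _ (by positivity)
    rw [Real.rpow_mul (by positivity)]
    apply Real.rpow_le_rpow (by positivity) _ hσ0
    calc (nm e : ℝ) * (nm f : ℝ) ^ 2 / Z ≤ (nm e : ℝ) * (nm f : ℝ) ^ 2 :=
          div_le_self (by positivity) hZ1'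
      _ ≤ (4 * H0) * (4 * H0) ^ 2 := by
          gcongr
          exact hed1.trans hdX
      _ = (4 * H0) ^ (3 : ℝ) := by
          rw [show (3 : ℝ) = ((3 : ℕ) : ℝ) by norm_num, Real.rpow_natCast]; ring
  obtain ⟨q1, q2, q3⟩ := trip_arith (U := U) (τ := τ) hκ0 hκ hCL hCτ hH hZ1 hZ2 hd1 he1 hf1 hed1
    hdX hτ0 hτC hU0 hXi0 hW0 hXi hLf hP0 hP
  set A1 : ℝ := CL * (4 * H0 * L) ^ (κ / 1000) *
        (4 * H0 / (nm d * nm f) + L ^ (1 + 6 * ((1 : ℝ) / 400))) *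
        L ^ ((1 : ℝ) / 3) *
        ((H0 ^ κ) ^ (-(1 : ℝ) / 3) + (4 * H0 / (nm d * nm f) + L ^ (1 + 6 * ((1 : ℝ) / 400))) ^
          (-((1 : ℝ) / 400))) * Xi' with hA1
  set N : ℝ := 4 * H0 / (nm d * nm f) with hN
  have hN0 : 0 ≤ N := by positivity
  set K0 : ℝ := H0 ^ κ with hK0
  have hK1 : 1 ≤ K0 := Real.one_le_rpow hH.le hκ0.le
  have hK00 : 0 ≤ K0 := by linarith
  set G0 : ℝ := H0 ^ (2 * κ) with hG0
  have hG1 : 1 ≤ G0 := Real.one_le_rpow hH.le (by positivity)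
  have hG00 : 0 < G0 := by linarith
  set Q : ℝ := H0 ^ (κ / 100) with hQ
  have hQ1 : 1 ≤ Q := Real.one_le_rpow hH.le (by positivity)
  have hQ0 : 0 ≤ Q := by linarith
  set y0 : ℝ := (H0 * Z) ^ ((2 : ℝ) / 3) with hy0
  have hy00 : 0 ≤ y0 := by positivity
  set h : ℝ := H0 ^ (-κ / 3) with hh
  have hh0 : 0 ≤ h := by positivity
  have hA10 : 0 ≤ A1 := by
    rw [hA1]
    positivity
  set F : ℝ → ℝ := fun t => ∑ l ∈ bl L,
      (nm l : ℝ) ^ (-σ) * ‖dsum w (4 * H0) d e f l (σ + t * Complex.I)‖ ^ 2 with hF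
  have hF0 : ∀ t, 0 ≤ F t := fun t => Finset.sum_nonneg fun _ _ => by positivity
  have hFle : ∀ t, F t ≤ A1 + ∑ l ∈ (bl L).filter (Sm K0),
      ‖dsum w (4 * H0) d e f l (σ + t * Complex.I)‖ ^ 2 := by
    intro t
    have := F_le H hG hκ0 hκ hCL hL hH hZ1 hZ2 hw hd he hf hed (t := t) hσ0 hσ1 hLd hA1
    convert this using 3
  set A2 : ℝ := 16 * K0 * (16 * M * (16 * N * Xi')) with hA2
  have hA20 : 0 ≤ A2 := by positivity
  have hF2 : ∀ t, F t ≤ A1 + A2 := by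
    intro t
    refine (hFle t).trans ?_
    have := small_trivial H hG (by positivity : (0 : ℝ) ≤ 4 * H0) hw hd hf (e := e) (σ := σ)
      (t := t) hL0.le hM0 hM3.ge hK00
    gcongr
  -- the quantities with P
  set D : ℝ := ((nm d : ℝ) * nm f) ^ (-(2 : ℝ) / 3) + H0 ^ (-(0.05 : ℝ)) with hD
  have hD0 : 0 ≤ D := by positivity
  have hD2 : D ≤ 2 := by
    have h1 : ((nm d : ℝ) * nm f) ^ (-(2 : ℝ) / 3) ≤ 1 :=
      Real.rpow_le_one_of_one_le_of_nonpos (by nlinarith) (by norm_num)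
    have h2 : H0 ^ (-(0.05 : ℝ)) ≤ 1 :=
      Real.rpow_le_one_of_one_le_of_nonpos hH.le (by norm_num)
    linarith
  have q2' : P * A2 ≤ 33554432 * Q ^ 3 * y0 * (K0 * D) * W := by
    calc P * A2 = 4096 * K0 * (P * (M * N * Xi')) := by rw [hA2]; ring
      _ ≤ 4096 * K0 * (8192 * Q ^ 3 * y0 * D * W) := by gcongr
      _ = _ := by ring
  have hCτ0 : 0 ≤ Cτ := by linarith
  have hQ36 : Q ^ 3 ≤ Q ^ 6 := pow_le_pow_right₀ hQ1 (by norm_num)
  have hQ46 : Q ^ 4 ≤ Q ^ 6 := pow_le_pow_right₀ hQ1 (by norm_num)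
  have hQ56 : Q ^ 5 ≤ Q ^ 6 := pow_le_pow_right₀ hQ1 (by norm_num)
  have hCτ2 : 1 ≤ Cτ ^ 2 := one_le_pow₀ hCτ
  set R : ℝ := Q ^ 6 * y0 * h * W with hR
  have hR0 : 0 ≤ R := by positivity
  have q1' : P * A1 ≤ 1000000000 * CL * R := by
    calc P * A1 ≤ 1000000000 * CL * Q ^ 4 * y0 * h * W := q1
      _ ≤ 1000000000 * CL * Q ^ 6 * y0 * h * W := by gcongr
      _ = _ := by rw [hR]; ring
  have hTrip : Trip w (4 * H0) Z σ d e f = P * ∫ t : ℝ, (1 + t ^ 2)⁻¹ * F t := rfl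
  rw [hTrip]
  by_cases hdf : (nm d : ℝ) * nm f ≤ H0 ^ (3 * κ)
  · rw [if_pos hdf]
    set A3 : ℝ := 16 * K0 * (16 * τ * M * (16 * G0 * U + 16 * N / G0 * (τ * Xi'))) with hA3
    have hA30 : 0 ≤ A3 := by positivity
    have hF3 : ∀ t, |t| ≤ G0 → F t ≤ A1 + A3 := by
      intro t ht
      refine (hFle t).trans ?_
      have := small_struct H hG (by positivity : (0 : ℝ) ≤ 4 * H0) hw hd hf (e := e) (σ := σ)
        (t := t) hL0.le hM0 hM3.ge hK00 hG1 hU0 hτ0 hτM hτX (hU hdf t ht)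
      gcongr
    have hint := int_le (A := A1 + A3) (B := A2) hF0 (by positivity) hA20 hG00 hF3
      (fun t => (hF2 t).trans (by linarith))
    have hK0T : K0 * (1 / G0) = H0 ^ (-κ) := by
      rw [hK0, hG0, one_div, ← Real.rpow_neg hH0.le, ← Real.rpow_add hH0]; congr 1; ring
    have hKh : K0 * (1 / G0) ≤ h := by
      rw [hK0T]
      exact Real.rpow_le_rpow_of_exponent_le hH.le (by linarith)
    have hKG : K0 * G0 = H0 ^ (3 * κ) := by
      rw [hK0, hG0, ← Real.rpow_add hH0]; congr 1; ring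
    have r2 : P * (A2 / G0) ≤ 67108864 * R := by
      calc P * (A2 / G0) = (P * A2) * (1 / G0) := by ring
        _ ≤ (33554432 * Q ^ 3 * y0 * (K0 * D) * W) * (1 / G0) := by gcongr
        _ = 33554432 * Q ^ 3 * y0 * ((K0 * (1 / G0)) * D) * W := by ring
        _ ≤ 33554432 * Q ^ 6 * y0 * (h * 2) * W := by gcongr
        _ = _ := by rw [hR]; ring
    have r3 : P * A3 ≤ 8388608 * Cτ * Q ^ 4 * y0 * H0 ^ (3 * κ) * U + 67108864 * Cτ ^ 2 * R := by
      calc P * A3 = 4096 * (K0 * G0) * τ * U * (P * M) +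
            4096 * (K0 * (1 / G0)) * τ ^ 2 * (P * (M * N * Xi')) := by
            rw [hA3]; field_simp; ring
        _ ≤ 4096 * (K0 * G0) * (Cτ * Q) * U * (2048 * Q ^ 3 * y0) +
            4096 * h * (Cτ * Q) ^ 2 * (8192 * Q ^ 3 * y0 * 2 * W) := by
            have q2'' : P * (M * N * Xi') ≤ 8192 * Q ^ 3 * y0 * 2 * W := by
              refine q2.trans ?_
              gcongr
            gcongr
        _ = 8388608 * Cτ * Q ^ 4 * y0 * (K0 * G0) * U +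
            67108864 * Cτ ^ 2 * (Q ^ 5 * y0 * h * W) := by ring
        _ ≤ 8388608 * Cτ * Q ^ 4 * y0 * (K0 * G0) * U +
            67108864 * Cτ ^ 2 * (Q ^ 6 * y0 * h * W) := by gcongr
        _ = _ := by rw [hKG]
    have hRC : 0 ≤ (CL + 1) * Cτ ^ 2 * R := by positivity
    have s1 : CL * R ≤ (CL + 1) * Cτ ^ 2 * R := by
      have : CL * 1 * R ≤ (CL + 1) * Cτ ^ 2 * R := by gcongr; linarith
      linarith
    have s2 : R ≤ (CL + 1) * Cτ ^ 2 * R := by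
      have : (1 : ℝ) * 1 * R ≤ (CL + 1) * Cτ ^ 2 * R := by gcongr; linarith
      linarith
    have s3 : Cτ ^ 2 * R ≤ (CL + 1) * Cτ ^ 2 * R := by
      have : (1 : ℝ) * Cτ ^ 2 * R ≤ (CL + 1) * Cτ ^ 2 * R := by gcongr; linarith
      linarith
    have s4 : 0 ≤ Cτ * Q ^ 4 * y0 * H0 ^ (3 * κ) * U := by positivity
    calc P * ∫ t : ℝ, (1 + t ^ 2)⁻¹ * F t ≤ P * (4 * (A1 + A3) + 8 * (A2 / G0)) := by gcongr
      _ = 4 * (P * A1) + 4 * (P * A3) + 8 * (P * (A2 / G0)) := by ring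
      _ ≤ 4 * (1000000000 * CL * R) +
          4 * (8388608 * Cτ * Q ^ 4 * y0 * H0 ^ (3 * κ) * U + 67108864 * Cτ ^ 2 * R) +
          8 * (67108864 * R) := by gcongr
      _ ≤ 10000000000 * ((CL + 1) * Cτ ^ 2 * R) +
          10000000000 * (Cτ * Q ^ 4 * y0 * H0 ^ (3 * κ) * U) := by
          linarith
      _ = _ := by rw [hR]; ring
  · rw [if_neg hdf, add_zero]
    have hdf' := (not_le.mp hdf).le
    have hint := int_le (A := A1 + A2) (B := 0) (T0 := 1) hF0 (by positivity) le_rfl one_pos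
      (fun t _ => hF2 t) (fun t => (hF2 t).trans (by linarith))
    rw [zero_div, mul_zero, add_zero] at hint
    have hKD : K0 * D ≤ 2 * h := by
      have h1 : ((nm d : ℝ) * nm f) ^ (-(2 : ℝ) / 3) ≤ H0 ^ (-(2 * κ)) := by
        calc ((nm d : ℝ) * nm f) ^ (-(2 : ℝ) / 3) ≤ (H0 ^ (3 * κ)) ^ (-(2 : ℝ) / 3) := by
              apply Real.rpow_le_rpow_of_nonpos (by positivity) hdf' (by norm_num)
          _ = H0 ^ (-(2 * κ)) := by
              rw [← Real.rpow_mul hH0.le]; congr 1; ring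
      have h2 : K0 * H0 ^ (-(2 * κ)) ≤ h := by
        rw [hK0, ← Real.rpow_add hH0]
        exact Real.rpow_le_rpow_of_exponent_le hH.le (by linarith)
      have h3 : K0 * H0 ^ (-(0.05 : ℝ)) ≤ h := by
        rw [hK0, ← Real.rpow_add hH0]
        exact Real.rpow_le_rpow_of_exponent_le hH.le (by norm_num; linarith)
      calc K0 * D ≤ K0 * (H0 ^ (-(2 * κ)) + H0 ^ (-(0.05 : ℝ))) := by
            rw [hD]; gcongr
        _ = K0 * H0 ^ (-(2 * κ)) + K0 * H0 ^ (-(0.05 : ℝ)) := by ring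
        _ ≤ h + h := add_le_add h2 h3
        _ = 2 * h := by ring
    have r2 : P * A2 ≤ 67108864 * R := by
      calc P * A2 ≤ 33554432 * Q ^ 3 * y0 * (K0 * D) * W := q2'
        _ ≤ 33554432 * Q ^ 6 * y0 * (2 * h) * W := by gcongr
        _ = _ := by rw [hR]; ring
    have s1 : CL * R ≤ (CL + 1) * Cτ ^ 2 * R := by
      have : CL * 1 * R ≤ (CL + 1) * Cτ ^ 2 * R := by gcongr; linarith
      linarith
    have s2 : R ≤ (CL + 1) * Cτ ^ 2 * R := by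
      have : (1 : ℝ) * 1 * R ≤ (CL + 1) * Cτ ^ 2 * R := by gcongr; linarith
      linarith
    calc P * ∫ t : ℝ, (1 + t ^ 2)⁻¹ * F t ≤ P * (4 * (A1 + A2)) := by gcongr
      _ = 4 * (P * A1) + 4 * (P * A2) := by ring
      _ ≤ 4 * (1000000000 * CL * R) + 4 * (67108864 * R) := by gcongr
      _ ≤ 10000000000 * ((CL + 1) * Cτ ^ 2 * R) := by linarith
      _ = _ := by rw [hR]; ring

end Crest.Agent.R012.CR2
end
end

-- ▼ part R012/CR2h_180
section

/-!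
# Row 12 (CR2), part h: real arithmetic for the assembly
-/

set_option autoImplicit false
set_option linter.unusedVariables false
set_option linter.unusedSimpArgs false

noncomputable section

namespace Crest.Agent.R012.CR2

set_option maxHeartbeats 1000000 in
/-- the structured error is small -/
lemma U_arith {H Z κ A0 δ₁ K₁ KT Cτ : ℝ} (hH : 1 < H) (hZ0 : 0 < Z) (hZ2 : Z ≤ H ^ (1.85 : ℝ))
    (hκ0 : 0 < κ) (hA0 : 0 ≤ A0) (hA : 100 * (A0 + 1) * κ ≤ 1 / 100)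
    (hδ : 100 * (A0 + 1) * κ ≤ δ₁) (hK₁ : 0 < K₁) (hKT : 0 < KT) (hCτ : 1 ≤ Cτ) :
    (H ^ (3 * κ)) ^ 3 * (H ^ (κ / 100)) ^ 4 * H ^ (3 * κ) *
      ((Cτ * H ^ (κ / 100)) ^ 2 * (H ^ (38 * κ) * H ^ (2 * (κ / 1000) - 1) *
        (2 * (KT * (H ^ (38 * κ) * (1 + H ^ (2 * κ))) ^ A0 * H ^ ((5 : ℝ) / 6) *
          (K₁ * Z ^ ((5 : ℝ) / 6) * H ^ (-δ₁))) ^ 2 +
        2 * (K₁ * Z * (KT * (H ^ (38 * κ) * (1 + H ^ (2 * κ))) ^ A0 *
          (Z * H) ^ (1 + κ / 1000)))))) ≤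
      Cτ ^ 2 * (2 * (KT * K₁ * (2 : ℝ) ^ A0) ^ 2 + 2 * (KT * K₁ * (2 : ℝ) ^ A0)) *
        ((H * Z) ^ ((2 : ℝ) / 3) * Z * H ^ (-κ / 5)) := by
  have hH0 : 0 < H := by linarith
  have hAκ : 0 ≤ A0 * κ := by positivity
  have hB : (H ^ (38 * κ) * (1 + H ^ (2 * κ))) ^ A0 ≤ (2 : ℝ) ^ A0 * H ^ (40 * κ * A0) := by
    have h1 : 1 ≤ H ^ (2 * κ) := Real.one_le_rpow hH.le (by positivity)
    calc (H ^ (38 * κ) * (1 + H ^ (2 * κ))) ^ A0 ≤ (2 * H ^ (40 * κ)) ^ A0 := by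
          apply Real.rpow_le_rpow (by positivity) _ hA0
          calc H ^ (38 * κ) * (1 + H ^ (2 * κ)) ≤ H ^ (38 * κ) * (2 * H ^ (2 * κ)) := by
                gcongr; linarith
            _ = 2 * (H ^ (38 * κ) * H ^ (2 * κ)) := by ring
            _ = 2 * H ^ (40 * κ) := by
                rw [← Real.rpow_add hH0]; congr 2; ring
      _ = (2 : ℝ) ^ A0 * H ^ (40 * κ * A0) := by
          rw [Real.mul_rpow (by norm_num) (by positivity), ← Real.rpow_mul hH0.le]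
  set B : ℝ := (H ^ (38 * κ) * (1 + H ^ (2 * κ))) ^ A0 with hBd
  have hB0 : 0 ≤ B := by positivity
  set T : ℝ := (2 : ℝ) ^ A0 with hT
  have hT0 : 0 ≤ T := by positivity
  obtain ⟨z, rfl⟩ := exp_form hH hZ0
  have hz := (Real.rpow_le_rpow_left_iff hH).mp hZ2
  have pw : ∀ (a : ℝ) (n : ℕ), (H ^ a) ^ n = H ^ (a * n) := by
    intro a n
    rw [← Real.rpow_natCast, ← Real.rpow_mul hH0.le]
  have e1 : H * H ^ z = H ^ (1 + z) := by
    rw [Real.rpow_add hH0, Real.rpow_one]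
  have e2 : H ^ z * H = H ^ (1 + z) := by rw [mul_comm, e1]
  rw [e1, e2, ← Real.rpow_mul hH0.le, ← Real.rpow_mul hH0.le, ← Real.rpow_mul hH0.le]
  have t1 : (KT * B * H ^ ((5 : ℝ) / 6) * (K₁ * H ^ (z * (5 / 6)) * H ^ (-δ₁))) ^ 2 ≤
      (KT * K₁ * T) ^ 2 * H ^ (80 * κ * A0 + 5 / 3 + z * (5 / 3) - 2 * δ₁) := by
    calc (KT * B * H ^ ((5 : ℝ) / 6) * (K₁ * H ^ (z * (5 / 6)) * H ^ (-δ₁))) ^ 2
        ≤ (KT * (T * H ^ (40 * κ * A0)) * H ^ ((5 : ℝ) / 6) *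
            (K₁ * H ^ (z * (5 / 6)) * H ^ (-δ₁))) ^ 2 := by gcongr
      _ = (KT * K₁ * T) ^ 2 * (H ^ (40 * κ * A0) * H ^ ((5 : ℝ) / 6) * H ^ (z * (5 / 6)) *
            H ^ (-δ₁)) ^ 2 := by ring
      _ = _ := by
          rw [← Real.rpow_add hH0, ← Real.rpow_add hH0, ← Real.rpow_add hH0, pw]
          congr 2
          push_cast; ring
  have t2 : K₁ * H ^ z * (KT * B * H ^ ((1 + z) * (1 + κ / 1000))) ≤
      (KT * K₁ * T) * H ^ (40 * κ * A0 + z + (1 + z) * (1 + κ / 1000)) := by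
    calc K₁ * H ^ z * (KT * B * H ^ ((1 + z) * (1 + κ / 1000)))
        ≤ K₁ * H ^ z * (KT * (T * H ^ (40 * κ * A0)) * H ^ ((1 + z) * (1 + κ / 1000))) := by
          gcongr
      _ = (KT * K₁ * T) * (H ^ (40 * κ * A0) * H ^ z * H ^ ((1 + z) * (1 + κ / 1000))) := by ring
      _ = _ := by
          rw [← Real.rpow_add hH0, ← Real.rpow_add hH0]
  have hpre : (H ^ (3 * κ)) ^ 3 * (H ^ (κ / 100)) ^ 4 * H ^ (3 * κ) * (H ^ (κ / 100)) ^ 2 *
      (H ^ (38 * κ) * H ^ (2 * (κ / 1000) - 1)) = H ^ (50 * κ + 62 * κ / 1000 - 1) := by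
    rw [pw, pw, pw, ← Real.rpow_add hH0, ← Real.rpow_add hH0, ← Real.rpow_add hH0,
      ← Real.rpow_add hH0, ← Real.rpow_add hH0]
    congr 1
    push_cast; ring
  have r1 : H ^ (50 * κ + 62 * κ / 1000 - 1) *
      H ^ (80 * κ * A0 + 5 / 3 + z * (5 / 3) - 2 * δ₁) ≤
      H ^ ((1 + z) * (2 / 3)) * H ^ z * H ^ (-κ / 5) := by
    rw [← Real.rpow_add hH0, ← Real.rpow_add hH0, ← Real.rpow_add hH0]
    apply Real.rpow_le_rpow_of_exponent_le hH.le
    nlinarith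
  have r2 : H ^ (50 * κ + 62 * κ / 1000 - 1) *
      H ^ (40 * κ * A0 + z + (1 + z) * (1 + κ / 1000)) ≤
      H ^ ((1 + z) * (2 / 3)) * H ^ z * H ^ (-κ / 5) := by
    rw [← Real.rpow_add hH0, ← Real.rpow_add hH0, ← Real.rpow_add hH0]
    apply Real.rpow_le_rpow_of_exponent_le hH.le
    have : z * κ ≤ 1.85 * κ := by gcongr
    nlinarith
  set Y : ℝ := H ^ ((1 + z) * (2 / 3)) * H ^ z * H ^ (-κ / 5) with hY
  set pre : ℝ := H ^ (50 * κ + 62 * κ / 1000 - 1) with hpred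
  have hpre0 : 0 ≤ pre := by positivity
  calc _ = Cτ ^ 2 * (((H ^ (3 * κ)) ^ 3 * (H ^ (κ / 100)) ^ 4 * H ^ (3 * κ) *
        (H ^ (κ / 100)) ^ 2 * (H ^ (38 * κ) * H ^ (2 * (κ / 1000) - 1))) *
        (2 * (KT * B * H ^ ((5 : ℝ) / 6) * (K₁ * H ^ (z * (5 / 6)) * H ^ (-δ₁))) ^ 2 +
          2 * (K₁ * H ^ z * (KT * B * H ^ ((1 + z) * (1 + κ / 1000)))))) := by ring
    _ = Cτ ^ 2 * (pre *
        (2 * (KT * B * H ^ ((5 : ℝ) / 6) * (K₁ * H ^ (z * (5 / 6)) * H ^ (-δ₁))) ^ 2 +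
          2 * (K₁ * H ^ z * (KT * B * H ^ ((1 + z) * (1 + κ / 1000)))))) := by rw [hpre]
    _ ≤ Cτ ^ 2 * (pre *
        (2 * ((KT * K₁ * T) ^ 2 * H ^ (80 * κ * A0 + 5 / 3 + z * (5 / 3) - 2 * δ₁)) +
          2 * ((KT * K₁ * T) * H ^ (40 * κ * A0 + z + (1 + z) * (1 + κ / 1000))))) := by
        gcongr
    _ = Cτ ^ 2 * (2 * (KT * K₁ * T) ^ 2 *
        (pre * H ^ (80 * κ * A0 + 5 / 3 + z * (5 / 3) - 2 * δ₁)) +
          2 * (KT * K₁ * T) * (pre * H ^ (40 * κ * A0 + z + (1 + z) * (1 + κ / 1000)))) := by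
        ring
    _ ≤ Cτ ^ 2 * (2 * (KT * K₁ * T) ^ 2 * Y + 2 * (KT * K₁ * T) * Y) := by
        gcongr
    _ = _ := by rw [hY]; ring

/-- the quadratic inequality -/
lemma quad_ineq {s Y C h : ℝ} (hs : 0 ≤ s) (hY : 0 < Y) (hC : 0 ≤ C) (hh : 0 < h) (hh1 : h ≤ 1)
    (hq : s ^ 2 ≤ C * h ^ 2 * (Y * s + Y ^ 2)) : s ≤ (C + 1) * h * Y := by
  by_contra hcon
  have hcon := not_le.mp hcon
  have h1 : 0 < (C + 1) * h * Y := by positivity
  have h2 : ((C + 1) * h * Y) * s < s * s := by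
    have : 0 < s := h1.trans hcon
    exact mul_lt_mul_of_pos_right hcon this
  have h3 : C * h ^ 2 * (Y * s) ≤ C * h * Y * s := by
    have : h ^ 2 ≤ h := by nlinarith
    calc C * h ^ 2 * (Y * s) ≤ C * h * (Y * s) := by gcongr
      _ = _ := by ring
  have h4 : C * h ^ 2 * Y ^ 2 ≤ h * Y * s := by
    have h5 : h * Y * ((C + 1) * h * Y) ≤ h * Y * s := by
      have : 0 ≤ h * Y := by positivity
      exact mul_le_mul_of_nonneg_left hcon.le this
    have h6 : 0 ≤ h ^ 2 * Y ^ 2 := by positivity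
    nlinarith
  nlinarith

end Crest.Agent.R012.CR2
end
end

-- ▼ part R012/GF_569
section

/-!
# Row 12: the instances `CR2.GFacts` and `BilG811.GFacts`  (helper569)
-/

set_option autoImplicit false
set_option linter.unusedVariables false

namespace Crest.Agent.R012.GF569

open Crest.Agent.R012 Crest.Agent.R012.Eis

theorem gFacts : CR2.GFacts where
  mul a b ha hb := Gauss880.G_mul_all Gauss880.syG ha hb
  zero c hc h := Gauss880.G_eq_zero Gauss880.syG hc h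
  le_one c hc := Gauss880.norm_G_le Gauss880.syG hc


end Crest.Agent.R012.GF569
end

-- ▼ part R012/CR2L_569
section

/-!
# Row 12, item CR2-L: `LS2.Final → CR2.LargePart`  (helper569)
-/

set_option autoImplicit false

noncomputable section

open Finset

namespace Crest.Agent.R012.CR2L569

open Crest.Agent.R012 Crest.Agent.R012.Eis LS2 CR2

local notation "cj" => starRingEnd ℂ

/-- Heath-Brown input. -/
lemma hbin (HB : CR290.HBLS) {ε : ℝ} (hε : 0 < ε) : ∃ C : ℝ, 0 < C ∧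
    ∀ (S' : Finset Eis) (H : ℝ), 1 ≤ H → CR290.IsSF S' H →
      CF61.HBin S' H (C * (H * H) ^ ε) := by
  obtain ⟨K, hK, hb⟩ := HB ε hε
  refine ⟨K, hK, ?_⟩
  intro S' H hH hS A hA hAH v
  have hA0 : (0 : ℝ) < A := by linarith
  have hH0 : (0 : ℝ) < H := by linarith
  have h1 := hb A H hA hH (CF61.SF A) S' (fun a ha => by
    rw [CF61.mem_SF] at ha; exact ⟨ha.2.1, ha.2.2, ha.1⟩) hS v
  have h2 : (A * H) ^ ε ≤ (H * H) ^ ε :=
    Real.rpow_le_rpow (by positivity) (by nlinarith) hε.le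
  have h3 : 0 ≤ A + H + (A * H) ^ ((2 : ℝ) / 3) := by positivity
  have h4 := CF61.n2_nonneg S' v
  calc ∑ a ∈ CF61.SF A, CF61.T S' v a
      ≤ K * (A * H) ^ ε * (A + H + (A * H) ^ ((2 : ℝ) / 3)) * CF61.n2 S' v := h1
    _ ≤ K * (H * H) ^ ε * (A + H + (A * H) ^ ((2 : ℝ) / 3)) * CF61.n2 S' v := by gcongr

/-- Large sieve input. -/
lemma lsin : ∃ C : ℝ, 0 < C ∧ ∀ (S' : Finset Eis) (H : ℝ), 1 ≤ H → CR290.IsSF S' H →
    CF61.LSin S' H C := by
  classical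
  obtain ⟨C, hC, hb⟩ := LS879.ls_num_exists
  refine ⟨C, hC, ?_⟩
  intro S' H hH hS Q hQ P hP v
  have h1 := hb Q H hQ hH (P.image (fun q => ((0 : ℕ), (0 : ℕ), q.1, q.2))) (by
    intro k hk
    rw [mem_image] at hk
    obtain ⟨q, hq, rfl⟩ := hk
    obtain ⟨⟨a1, a2, a3, a4, a5⟩, a6⟩ := hP q hq
    exact ⟨by norm_num, by norm_num, a1, a2, a3, a4, a5, a6⟩) S'
    (fun b hb => ⟨(hS b hb).1, (hS b hb).2.2⟩) v
  rw [sum_image (by
    intro x _ y _ hxy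
    simp only [Prod.mk.injEq, true_and] at hxy
    exact Prod.ext hxy.1 hxy.2)] at h1
  simpa [CF61.T, CF61.n2] using h1

/-- the elementary bound for the powers of `log`. -/
lemma log_pow_le {δ H : ℝ} (hδ : 0 < δ) (hH : 1 ≤ H) :
    (1 + Real.log H) ^ 3 ≤ (1 + 1 / δ) ^ 3 * H ^ (3 * δ) := by
  have hH0 : (0 : ℝ) < H := by linarith
  have h1 : Real.log H ≤ H ^ δ / δ := Real.log_le_rpow_div hH0.le hδ
  have h2 : (1 : ℝ) ≤ H ^ δ := Real.one_le_rpow hH hδ.le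
  have h3 : 0 ≤ Real.log H := Real.log_nonneg hH
  have h4 : 1 + Real.log H ≤ (1 + 1 / δ) * H ^ δ := by
    have : (1 + 1 / δ) * H ^ δ = H ^ δ + H ^ δ / δ := by ring
    rw [this]; linarith
  calc (1 + Real.log H) ^ 3 ≤ ((1 + 1 / δ) * H ^ δ) ^ 3 := by gcongr
    _ = (1 + 1 / δ) ^ 3 * H ^ (3 * δ) := by
        rw [mul_pow]
        congr 1
        rw [← Real.rpow_natCast, ← Real.rpow_mul hH0.le]
        congr 1; push_cast; ring

set_option maxHeartbeats 1000000 in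
open Classical in
/-- **CR2-L.** -/
theorem largePart (HB : CR290.HBLS) : LargePart := by
  intro η ε hη0 hη hε
  obtain ⟨K, hK, hhb⟩ := hbin HB (show (0 : ℝ) < ε / 9 by positivity)
  obtain ⟨C2, hC2, hls⟩ := lsin
  refine ⟨150000 * (1 + 1 / (ε / 9)) ^ 3 * (K + C2) * 2 ^ (5 * ε / 9), by positivity, ?_⟩
  intro X L K0 hX hL hK0 w hw d e f hd he hf σ t hσ0 hσ1
  have hX0 : (0 : ℝ) < X := by linarith
  have hL0 : (0 : ℝ) < L := by linarith
  have hK00 : (0 : ℝ) < K0 := by linarith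
  have hd1 : (1 : ℝ) ≤ nm d := CF61.one_le_nm hd.ne_zero
  have hf1 : (1 : ℝ) ≤ nm f := CF61.one_le_nm hf.ne_zero
  set N : ℝ := X / (nm d * nm f) with hN
  have hN0 : 0 < N := by positivity
  have hNX : N ≤ X := div_le_self hX0.le (one_le_mul_of_one_le_of_one_le hd1 hf1)
  set H : ℝ := N + L ^ (1 + 6 * η) with hH
  have hLp1 : 1 ≤ L ^ (1 + 6 * η) := Real.one_le_rpow hL (by positivity)
  have hH1 : 1 ≤ H := by linarith
  have hH0 : 0 < H := by linarith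
  -- the length
  have hLH : L ≤ H ^ (1 - 3 * η) := by
    calc L = L ^ (1 : ℝ) := (Real.rpow_one L).symm
      _ ≤ L ^ ((1 + 6 * η) * (1 - 3 * η)) :=
          Real.rpow_le_rpow_of_exponent_le hL (by nlinarith)
      _ = (L ^ (1 + 6 * η)) ^ (1 - 3 * η) := by rw [Real.rpow_mul hL0.le]
      _ ≤ H ^ (1 - 3 * η) :=
          Real.rpow_le_rpow (by positivity) (by linarith) (by linarith)
  -- the set and the vector
  set S' : Finset Eis := (S X).filter (fun k => (nm k : ℝ) ≤ N) with hS'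
  have hSF : CR290.IsSF S' H := by
    intro k hk
    rw [hS', mem_filter] at hk
    exact ⟨S_prim hX0.le hk.1, S_sqf hX0.le hk.1, by linarith [hk.2]⟩
  set z : Eis → ℂ := fun k => w (d * f * k) * (sy (e * sq3) k * cj (sy f k) * G k) *
    (nm k : ℂ) ^ ((σ : ℂ) + t * Complex.I - 1 / 2) with hz
  have hdsum : ∀ l : Eis, ‖dsum w X d e f l (σ + t * Complex.I)‖ ^ 2
      = CF61.T S' (fun k => cj (z k)) l := by
    intro l
    unfold CF61.T dsum
    have h1 : ∑ h ∈ S', (fun k => cj (z k)) h * sy l h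
        = cj (∑ h ∈ S', z h * cj (sy l h)) := by
      rw [map_sum]
      refine sum_congr rfl fun h _ => ?_
      rw [map_mul, Complex.conj_conj]
    rw [h1, RCLike.norm_conj]
    congr 2
    rw [hS', sum_filter]
    refine sum_congr rfl fun k hk => ?_
    have hkp := S_prim hX0.le hk
    split_ifs with hkN
    · rw [hz]
      simp only
      rw [Sym645.syFacts.mul_left f l k hkp, map_mul]
      ring
    · have : w (d * f * k) = 0 := by
        by_contra hne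
        exact hkN (supp_le hX0.le hw hd.ne_zero hf.ne_zero hne)
      rw [this]; simp
  have hn2 : CF61.n2 S' (fun k => cj (z k)) ≤ Xi w X d f σ := by
    unfold CF61.n2 Xi
    refine (sum_le_sum_of_subset_of_nonneg (filter_subset _ _)
      fun _ _ _ => by positivity).trans ?_
    refine sum_le_sum fun k hk => ?_
    have hkp := S_prim hX0.le hk
    rw [RCLike.norm_conj, hz]
    simp only
    rw [norm_mul, norm_mul, mul_pow, mul_pow, norm_cpow_half (nm_pos.mpr hkp.ne_zero)]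
    have h1 : ‖sy (e * sq3) k * cj (sy f k) * G k‖ ≤ 1 := by
      rw [norm_mul, norm_mul, RCLike.norm_conj]
      calc _ ≤ (1 : ℝ) * 1 * 1 := by
            gcongr
            · exact CF61.norm_sy_le _ _
            · exact CF61.norm_sy_le _ _
            · exact Gauss880.norm_G_le Gauss880.syG hkp
        _ = 1 := by norm_num
    have h2 : ‖sy (e * sq3) k * cj (sy f k) * G k‖ ^ 2 ≤ 1 := by
      calc _ ≤ (1 : ℝ) ^ 2 := by gcongr
        _ = 1 := by norm_num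
    calc _ ≤ ‖w (d * f * k)‖ ^ 2 * 1 * (nm k : ℝ) ^ (2 * σ - 1) := by gcongr
      _ = _ := by ring
  have hXi : 0 ≤ Xi w X d f σ := Xi_nonneg w X d f σ
  -- the core estimate
  have hE1 : 0 ≤ K * (H * H) ^ (ε / 9) := by positivity
  have hcore := CF61.cf_core Sym645.syFacts.mul_left (S := S') (fun h hh => (hSF h hh).1)
    (H := H) (E1 := K * (H * H) ^ (ε / 9)) (E2 := C2) (d := η) (Y := L) (K := K0)
    hH1 hE1 hC2.le hη0 (by linarith) hK0 hL hLH (hhb S' H hH1 hSF) (hls S' H hH1 hSF)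
    (fun k => cj (z k)) ((bl L).filter (fun l => ¬ Sm K0 l)) (by
      intro x hx
      rw [mem_filter, mem_bl hL0.le] at hx
      refine ⟨hx.1.1, hx.1.2, fun m n0 h => ?_⟩
      by_contra hc
      exact hx.2 ⟨m, n0, h, not_le.mp hc⟩)
  rw [sum_congr rfl fun l _ => hdsum l]
  refine hcore.trans ?_
  -- bookkeeping
  have hHH : (H * H) ^ (ε / 9) = H ^ (2 * ε / 9) := by
    rw [← sq, ← Real.rpow_natCast, ← Real.rpow_mul hH0.le]
    congr 1; push_cast; ring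
  have hp1 : (1 : ℝ) ≤ H ^ (2 * ε / 9) := Real.one_le_rpow hH1 (by positivity)
  have hlog := log_pow_le (show (0 : ℝ) < ε / 9 by positivity) hH1
  have hHle : H ≤ 2 * (X * L) ^ ((3 : ℝ) / 2) := by
    have hXL : 1 ≤ X * L := one_le_mul_of_one_le_of_one_le hX hL
    have h1 : N ≤ (X * L) ^ ((3 : ℝ) / 2) := by
      calc N ≤ X := hNX
        _ ≤ X * L := le_mul_of_one_le_right hX0.le hL
        _ = (X * L) ^ (1 : ℝ) := (Real.rpow_one _).symm
        _ ≤ (X * L) ^ ((3 : ℝ) / 2) := Real.rpow_le_rpow_of_exponent_le hXL (by norm_num)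
    have h2 : L ^ (1 + 6 * η) ≤ (X * L) ^ ((3 : ℝ) / 2) := by
      calc L ^ (1 + 6 * η) ≤ L ^ ((3 : ℝ) / 2) :=
            Real.rpow_le_rpow_of_exponent_le hL (by linarith)
        _ ≤ (X * L) ^ ((3 : ℝ) / 2) :=
            Real.rpow_le_rpow hL0.le (le_mul_of_one_le_left hL0.le hX) (by norm_num)
    linarith
  have hpow : H ^ (5 * ε / 9) ≤ 2 ^ (5 * ε / 9) * (X * L) ^ ε := by
    have hXL : 1 ≤ X * L := one_le_mul_of_one_le_of_one_le hX hL
    calc H ^ (5 * ε / 9) ≤ (2 * (X * L) ^ ((3 : ℝ) / 2)) ^ (5 * ε / 9) :=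
          Real.rpow_le_rpow hH0.le hHle (by positivity)
      _ = 2 ^ (5 * ε / 9) * (X * L) ^ ((3 : ℝ) / 2 * (5 * ε / 9)) := by
          rw [Real.mul_rpow (by norm_num) (by positivity), ← Real.rpow_mul (by positivity)]
      _ ≤ 2 ^ (5 * ε / 9) * (X * L) ^ ε := by
          apply mul_le_mul_of_nonneg_left _ (by positivity)
          exact Real.rpow_le_rpow_of_exponent_le hXL (by nlinarith)
  set a : ℝ := K0 ^ (-(1 : ℝ) / 3) with ha
  have ha' : K0 ^ (-((1 : ℝ) / 3)) = a := by rw [ha]; congr 1; ring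
  set b : ℝ := H ^ (-η) with hb
  have ha0 : 0 ≤ a := by positivity
  have hb0 : 0 ≤ b := by positivity
  rw [ha', hHH]
  have hin : C2 * a + (K * H ^ (2 * ε / 9) + C2) * b ≤ (K + C2) * H ^ (2 * ε / 9) * (a + b) := by
    have h1 : C2 * a ≤ C2 * H ^ (2 * ε / 9) * a := by
      apply mul_le_mul_of_nonneg_right _ ha0
      exact le_mul_of_one_le_right hC2.le hp1
    have h2 : C2 * b ≤ C2 * H ^ (2 * ε / 9) * b := by
      apply mul_le_mul_of_nonneg_right _ hb0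
      exact le_mul_of_one_le_right hC2.le hp1
    have h3 : 0 ≤ K * H ^ (2 * ε / 9) * a := by positivity
    nlinarith
  have hlog0 : 0 ≤ Real.log H := Real.log_nonneg hH1
  have hL3 : 0 ≤ L ^ ((1 : ℝ) / 3) := by positivity
  calc 150000 * (1 + Real.log H) ^ 3 * (H * L ^ ((1 : ℝ) / 3) *
        (C2 * a + (K * H ^ (2 * ε / 9) + C2) * b)) * CF61.n2 S' (fun k => cj (z k))
      ≤ 150000 * ((1 + 1 / (ε / 9)) ^ 3 * H ^ (3 * (ε / 9))) * (H * L ^ ((1 : ℝ) / 3) *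
        ((K + C2) * H ^ (2 * ε / 9) * (a + b))) * Xi w X d f σ := by
        gcongr
        exact CF61.n2_nonneg _ _
    _ = 150000 * (1 + 1 / (ε / 9)) ^ 3 * (K + C2) * (H ^ (3 * (ε / 9)) * H ^ (2 * ε / 9)) *
          H * L ^ ((1 : ℝ) / 3) * (a + b) * Xi w X d f σ := by ring
    _ = 150000 * (1 + 1 / (ε / 9)) ^ 3 * (K + C2) * H ^ (5 * ε / 9) *
          H * L ^ ((1 : ℝ) / 3) * (a + b) * Xi w X d f σ := by
        rw [← Real.rpow_add hH0]
        congr 6; ring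
    _ ≤ 150000 * (1 + 1 / (ε / 9)) ^ 3 * (K + C2) * (2 ^ (5 * ε / 9) * (X * L) ^ ε) *
          H * L ^ ((1 : ℝ) / 3) * (a + b) * Xi w X d f σ := by
        gcongr
    _ = _ := by ring

/-- CR2-L from `LS2.Final`. -/
theorem largePart_of_final (HF : LS2.Final) : LargePart := largePart (GLS687.hbls_of_final HF)

end Crest.Agent.R012.CR2L569
end
end

-- ▼ part R012/CR2Fa_277
section

/-!
# Row 12 (CR2-F, helper277), part a: coefficients of powers of prime sums and the bilinear bound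

`bc P γ j n = Σ_{x ∈ P^j, ∏ x = n} ∏ γ(x_i)`.
-/

set_option autoImplicit false

noncomputable section

open Finset
open scoped ComplexConjugate

namespace Crest.Agent.R012.CR2F277

open Crest.Agent.R012 Crest.Agent.R012.Eis Crest.Agent.R012.LS2 Crest.Agent.R012.Mob705
  Crest.Agent.R012.GLS106

/-- `j`-tuples of elements of `P`. -/
abbrev TT (P : Finset Eis) (j : ℕ) : Finset (Fin j → Eis) := Fintype.piFinset (fun _ : Fin j => P)


variable {P : Finset Eis} {γ : Eis → ℂ}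








/-- the weight `N(n)^{-1/6} φ(n)`. -/
def wt (n : Eis) : ℝ := (nm n : ℝ) ^ (-(1 : ℝ) / 6) * CR2.phi n







/-- the function paired with the coefficients. -/
def WW (r n : Eis) : ℂ := conj (sy r n) * G n * (wt n : ℂ)


lemma gFacts : BilG811.GFacts where
  mul c d hc hd _ := Gauss880.G_mul_all Gauss880.syG hc hd
  nonsq _ hc h := Gauss880.G_eq_zero Gauss880.syG hc h
  norm_le _ hc := Gauss880.norm_G_le Gauss880.syG hc


end Crest.Agent.R012.CR2F277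
end
end

-- ▼ part R012/CR2Fc_277
section

/-!
# Row 12 (CR2-F, helper277), part c: splitting of the powers, dyadic blocks
-/

set_option autoImplicit false

noncomputable section

open Finset
open scoped ComplexConjugate

namespace Crest.Agent.R012.CR2F277

open Crest.Agent.R012 Crest.Agent.R012.Eis Crest.Agent.R012.LS2 Crest.Agent.R012.Mob705
  Crest.Agent.R012.GLS106









/-- halving: dyadic decomposition of a sum over `S H`. -/
lemma dyadic {f : Eis → ℝ} {B H : ℝ} (hH : 0 ≤ H) (i : ℕ)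
    (hb : ∀ m : ℕ, m < i → ∑ h ∈ (S (2 * (H / 2 ^ (m + 1)))).filter
      (fun h => H / 2 ^ (m + 1) < (nm h : ℝ)), f h ≤ B) :
    ∑ h ∈ S H, f h ≤ ∑ h ∈ S (H / 2 ^ i), f h + i * B := by
  classical
  induction i with
  | zero => simp
  | succ i ih =>
    have h1 := ih (fun m hm => hb m (by omega))
    have h2 := hb i (by omega)
    have e1 : 2 * (H / 2 ^ (i + 1)) = H / 2 ^ i := by
      rw [pow_succ]; field_simp
    rw [e1] at h2
    have h3 : ∑ h ∈ S (H / 2 ^ i), f h = ∑ h ∈ (S (H / 2 ^ i)).filter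
        (fun h => H / 2 ^ (i + 1) < (nm h : ℝ)), f h + ∑ h ∈ S (H / 2 ^ (i + 1)), f h := by
      rw [← sum_filter_add_sum_filter_not (S (H / 2 ^ i))
        (fun h => H / 2 ^ (i + 1) < (nm h : ℝ))]
      congr 1
      refine sum_congr ?_ fun _ _ => rfl
      ext h
      rw [mem_filter, mem_S (by positivity), mem_S (by positivity), not_lt]
      have : H / 2 ^ (i + 1) ≤ H / 2 ^ i := by
        apply div_le_div_of_nonneg_left hH (by positivity)
        exact pow_le_pow_right₀ (by norm_num) (by omega)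
      constructor
      · rintro ⟨⟨_, a⟩, b⟩; exact ⟨b, a⟩
      · rintro ⟨b, a⟩; exact ⟨⟨b.trans this, a⟩, b⟩
    push_cast
    linarith


end Crest.Agent.R012.CR2F277
end
end

-- ▼ part R012/CR2F_277
section

/-!
# Row 12 (CR2-F, helper277): the saved moment

`savedMom : LS2.Final → CR2.CoreB → CR290.SavedMom`.
-/

set_option autoImplicit false

noncomputable section

open Finset
open scoped ComplexConjugate

namespace Crest.Agent.R012.CR2F277

open Crest.Agent.R012 Crest.Agent.R012.Eis Crest.Agent.R012.LS2 Crest.Agent.R012.Mob705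
  Crest.Agent.R012.GLS106

lemma r1 {H Z : ℝ} (hH : 1 ≤ H) (hZ : H ^ (1.1 : ℝ) ≤ Z) :
    H ≤ H ^ (-(0.4 : ℝ)) * (H * Z) ^ ((2 : ℝ) / 3) := by
  have hH0 : 0 < H := by linarith
  calc H = H ^ (-(0.4 : ℝ)) * (H * H ^ (1.1 : ℝ)) ^ ((2 : ℝ) / 3) := by
        rw [← Real.rpow_one_add' hH0.le (by norm_num), ← Real.rpow_mul hH0.le,
          ← Real.rpow_add hH0]
        norm_num
    _ ≤ _ := by gcongr









end Crest.Agent.R012.CR2F277
end
end

-- ▼ part R012/TI7A_569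
section

/-!
# Row 12, CR2 type I (part A): mean square of the basic sums for all `Y > 0`  (helper569)
-/

set_option autoImplicit false

noncomputable section

open Complex
open scoped ENNReal

namespace Crest.Agent.R012.TI569

open Crest.Agent.R012 Eis LS2 Mob705 M49 TypeI941

/-- the main term. -/
def mainS (ρ : Eis → ℂ) (l : ℤ) (v : ℝ → ℂ) (τ : ℝ) (h : Eis) (X : ℝ) : ℂ :=
  if l = 0 then
    ρ h * mellin v ((5 : ℂ) / 6 + τ * Complex.I) * (X : ℂ) ^ ((5 : ℂ) / 6 + τ * Complex.I)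
  else 0

lemma SS_zero {v : ℝ → ℂ} {b : ℝ} (hv : ∀ x, b < x → v x = 0) {X : ℝ} (hX : 0 < X)
    (hXb : X * b < 1) (l : ℤ) (τ : ℝ) (h : Eis) : SS l τ v h X = 0 := by
  classical
  unfold SS
  have h0 : ∀ d : Eis, (if IsPrim d then
      gs h d / ((Real.sqrt (nm d) : ℝ) : ℂ) * ang l d * v (nm d / X) *
        (nm d : ℂ) ^ ((τ : ℂ) * Complex.I) else 0) = 0 := by
    intro d
    split_ifs with hd
    · have h1 : (1 : ℝ) ≤ nm d := by exact_mod_cast nm_pos.mpr hd.ne_zero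
      have h2 : v ((nm d : ℝ) / X) = 0 := by
        apply hv
        rw [lt_div_iff₀ hX]
        nlinarith
      rw [h2]; ring
    · rfl
  simp only [h0, tsum_zero]

lemma norm_mainS_scale (ρ : Eis → ℂ) (l : ℤ) (v : ℝ → ℂ) (τ : ℝ) (h : Eis) {X Y : ℝ} (hX : 0 < X)
    (hY : 0 < Y) :
    ‖mainS ρ l v τ h Y‖ ^ 2 = (Y / X) ^ ((5 : ℝ) / 3) * ‖mainS ρ l v τ h X‖ ^ 2 := by
  unfold mainS
  split_ifs
  · have hre : ((5 : ℂ) / 6 + τ * Complex.I).re = 5 / 6 := by simp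
    rw [norm_mul, norm_mul _ ((X : ℂ) ^ _), Complex.norm_cpow_eq_rpow_re_of_pos hY,
      Complex.norm_cpow_eq_rpow_re_of_pos hX, hre, mul_pow, mul_pow, ← Real.rpow_natCast
      (Y ^ ((5 : ℝ) / 6)), ← Real.rpow_natCast (X ^ ((5 : ℝ) / 6)), ← Real.rpow_mul hY.le,
      ← Real.rpow_mul hX.le, Real.div_rpow hY.le hX.le]
    have e : (5 : ℝ) / 6 * ((2 : ℕ) : ℝ) = 5 / 3 := by push_cast; norm_num
    rw [e]
    have : (0 : ℝ) < X ^ ((5 : ℝ) / 3) := Real.rpow_pos_of_pos hX _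
    field_simp
  · simp

/-- mean square for all `Y > 0`, with `Y^{1+ε}`. -/
theorem msy {ρ : Eis → ℂ} (hMS : MS ρ) (l : ℤ) {v : ℝ → ℂ} (hv : Wt v) {ε : ℝ} (hε : 0 < ε)
    (hε2 : ε ≤ 1 / 2) : ∃ C : ℝ, 0 ≤ C ∧ ∀ (N : ℕ) (Y τ : ℝ), 1 ≤ N → 0 < Y →
      ∑ h ∈ ball N, ‖SS l τ v h Y - mainS ρ l v τ h Y‖ ^ 2 ≤
        C * ((1 + |τ|) * N) ^ ε * (N + τ ^ 2) * Y ^ (1 + ε) := by
  obtain ⟨a, b, ha, hab, hsup⟩ := hv.supp
  have hb : 0 < b := ha.trans hab
  obtain ⟨C0, hC0⟩ := hMS l v hv ε hε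
  set Y0 : ℝ := 1 / (2 * b) with hY0
  have hY0p : 0 < Y0 := by positivity
  have hY0b : Y0 * b < 1 := by
    rw [hY0]; field_simp; norm_num
  have hvb : ∀ x, b < x → v x = 0 := fun x hx => hsup x (Or.inr hx)
  refine ⟨|C0| * (1 + 1 / Y0) ^ ε, by positivity, ?_⟩
  intro N Y τ hN hY
  have hNR : (1 : ℝ) ≤ N := by exact_mod_cast hN
  have hT : 0 ≤ (1 + |τ|) * (N : ℝ) := by positivity
  have hC : ∀ X : ℝ, 0 < X → ∑ h ∈ ball N, ‖SS l τ v h X - mainS ρ l v τ h X‖ ^ 2 ≤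
      |C0| * (((1 + |τ|) * N) ^ ε * (1 + X) ^ ε) * ((N + τ ^ 2) * X) := by
    intro X hX
    refine (hC0 N X τ hN hX).trans ?_
    have e : (1 + |τ|) * (1 + X) * (N : ℝ) = ((1 + |τ|) * N) * (1 + X) := by ring
    rw [e, Real.mul_rpow hT (by positivity)]
    gcongr
    exact le_abs_self C0
  rcases le_or_gt Y0 Y with hc | hc
  · refine (hC Y hY).trans ?_
    have h1 : 1 + Y ≤ (1 + 1 / Y0) * Y := by
      have : 1 ≤ 1 / Y0 * Y := by
        rw [one_div, inv_mul_eq_div, one_le_div hY0p]; exact hc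
      linarith
    have h2 : (1 + Y) ^ ε ≤ (1 + 1 / Y0) ^ ε * Y ^ ε := by
      rw [← Real.mul_rpow (by positivity) hY.le]
      exact Real.rpow_le_rpow (by positivity) h1 hε.le
    calc |C0| * (((1 + |τ|) * N) ^ ε * (1 + Y) ^ ε) * ((N + τ ^ 2) * Y)
        ≤ |C0| * (((1 + |τ|) * N) ^ ε * ((1 + 1 / Y0) ^ ε * Y ^ ε)) * ((N + τ ^ 2) * Y) := by
          gcongr
      _ = |C0| * (1 + 1 / Y0) ^ ε * ((1 + |τ|) * N) ^ ε * (N + τ ^ 2) * (Y * Y ^ ε) := by ring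
      _ = _ := by rw [Real.rpow_add hY, Real.rpow_one]
  · have hYb : Y * b < 1 := lt_of_le_of_lt (by gcongr) hY0b
    have h0 : ∑ h ∈ ball N, ‖mainS ρ l v τ h Y0‖ ^ 2 ≤
        |C0| * (((1 + |τ|) * N) ^ ε * (1 + Y0) ^ ε) * ((N + τ ^ 2) * Y0) := by
      refine le_trans (le_of_eq ?_) (hC Y0 hY0p)
      refine Finset.sum_congr rfl fun h _ => ?_
      rw [SS_zero hvb hY0p hY0b, zero_sub, norm_neg]
    calc ∑ h ∈ ball N, ‖SS l τ v h Y - mainS ρ l v τ h Y‖ ^ 2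
        = (Y / Y0) ^ ((5 : ℝ) / 3) * ∑ h ∈ ball N, ‖mainS ρ l v τ h Y0‖ ^ 2 := by
          rw [Finset.mul_sum]
          refine Finset.sum_congr rfl fun h _ => ?_
          rw [SS_zero hvb hY hYb, zero_sub, norm_neg, norm_mainS_scale ρ l v τ h hY0p hY]
      _ ≤ (Y / Y0) ^ (1 + ε) *
          (|C0| * (((1 + |τ|) * N) ^ ε * (1 + Y0) ^ ε) * ((N + τ ^ 2) * Y0)) := by
          have h1 : (Y / Y0) ^ ((5 : ℝ) / 3) ≤ (Y / Y0) ^ (1 + ε) := by
            apply Real.rpow_le_rpow_of_exponent_ge (by positivity)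
              ((div_le_one hY0p).mpr hc.le) (by linarith)
          exact mul_le_mul h1 h0 (Finset.sum_nonneg fun _ _ => by positivity) (by positivity)
      _ = |C0| * (1 + 1 / Y0) ^ ε * ((1 + |τ|) * N) ^ ε * (N + τ ^ 2) * Y ^ (1 + ε) := by
          have e1 : (1 + 1 / Y0) ^ ε = (1 + Y0) ^ ε / Y0 ^ ε := by
            rw [← Real.div_rpow (by positivity) hY0p.le]
            congr 1; field_simp; ring
          rw [e1, Real.div_rpow hY.le hY0p.le, Real.rpow_add hY0p, Real.rpow_one]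
          have : (0 : ℝ) < Y0 ^ ε := Real.rpow_pos_of_pos hY0p _
          field_simp

/-- `U` with empty coprimality condition is `SS`. -/
lemma U_empty (l : ℤ) (τ : ℝ) (v : ℝ → ℂ) (r : Eis) (Y : ℝ) :
    U gt (ch l τ) v r ∅ Y = SS l τ v r Y := by
  classical
  unfold U SS
  refine tsum_congr fun b => ?_
  have h0 : cop ∅ b := fun p hp => absurd hp (Finset.notMem_empty p)
  by_cases hb : IsPrim b
  · rw [if_pos ⟨hb, h0⟩, if_pos hb]
    unfold gt ch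
    ring
  · rw [if_neg (fun h => hb h.1), if_neg hb]

lemma Ef_empty (l : ℤ) (τ : ℝ) (v : ℝ → ℂ) (ρ : Eis → ℂ) (r : Eis) (Y : ℝ) :
    Ef l τ v ρ r ∅ Y = SS l τ v r Y - mainS ρ l v τ r Y := by
  unfold Ef Mt mainS se dens
  rw [U_empty]
  simp

/-- hypothesis `hM` of `Rec.meanSq`. -/
theorem hM_of_MS {ρ : Eis → ℂ} (hMS : MS ρ) (l : ℤ) {v : ℝ → ℂ} (hv : Wt v) {ε : ℝ} (hε : 0 < ε)
    (hε2 : ε ≤ 1 / 2) : ∃ C : ℝ, 0 ≤ C ∧ ∀ (s0 : Eis), s0 ≠ 0 → ∀ (τ H Y : ℝ), 1 ≤ H → 0 < Y →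
      ∑ h ∈ S H, ‖Ef l τ v ρ (s0 * h) ∅ Y‖ ^ 2 ≤
        (C * (1 + |τ|) ^ ε * (nm s0 : ℝ) ^ (1 + ε)) * (H + τ ^ 2) * H ^ ε * Y ^ (1 + ε) := by
  classical
  obtain ⟨C, hC, hb⟩ := msy hMS l hv hε hε2
  refine ⟨C, hC, ?_⟩
  intro s0 hs0 τ H Y hH hY
  have hn0 : (1 : ℝ) ≤ nm s0 := by exact_mod_cast nm_pos.mpr hs0
  have hH0 : (0 : ℝ) ≤ H := by linarith
  set N : ℕ := ⌊(nm s0 : ℝ) * H⌋₊ with hN
  have hN1 : 1 ≤ N := Nat.le_floor (by push_cast; nlinarith)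
  have hNle : (N : ℝ) ≤ nm s0 * H := Nat.floor_le (by positivity)
  have h1 : ∑ h ∈ S H, ‖Ef l τ v ρ (s0 * h) ∅ Y‖ ^ 2 ≤
      ∑ h ∈ ball N, ‖SS l τ v h Y - mainS ρ l v τ h Y‖ ^ 2 := by
    calc ∑ h ∈ S H, ‖Ef l τ v ρ (s0 * h) ∅ Y‖ ^ 2
        = ∑ h ∈ (S H).image (fun h => s0 * h), ‖SS l τ v h Y - mainS ρ l v τ h Y‖ ^ 2 := by
          rw [Finset.sum_image (fun x _ y _ hxy => mul_left_cancel₀ hs0 hxy)]
          exact Finset.sum_congr rfl fun h _ => by rw [Ef_empty]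
      _ ≤ _ := by
          apply Finset.sum_le_sum_of_subset_of_nonneg
          · intro x hx
            rw [Finset.mem_image] at hx
            obtain ⟨h, hh, rfl⟩ := hx
            rw [mem_S hH0] at hh
            rw [mem_ball]
            apply Nat.le_floor
            rw [nm_mul]
            push_cast
            exact mul_le_mul_of_nonneg_left hh.1 (by positivity)
          · intro _ _ _; positivity
  refine h1.trans ((hb N Y τ hN1 hY).trans ?_)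
  have h2 : ((1 + |τ|) * (N : ℝ)) ^ ε ≤ (1 + |τ|) ^ ε * ((nm s0 : ℝ) ^ ε * H ^ ε) := by
    rw [← Real.mul_rpow (by positivity) hH0, ← Real.mul_rpow (by positivity) (by positivity)]
    exact Real.rpow_le_rpow (by positivity) (by gcongr) hε.le
  have h3 : (N : ℝ) + τ ^ 2 ≤ nm s0 * (H + τ ^ 2) := by nlinarith [sq_nonneg τ]
  calc C * ((1 + |τ|) * N) ^ ε * (N + τ ^ 2) * Y ^ (1 + ε)
      ≤ C * ((1 + |τ|) ^ ε * ((nm s0 : ℝ) ^ ε * H ^ ε)) * (nm s0 * (H + τ ^ 2)) * Y ^ (1 + ε) := by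
        gcongr
    _ = _ := by
        rw [Real.rpow_add (by linarith : (0 : ℝ) < nm s0), Real.rpow_one]
        ring

/-- polynomial bound for `ρ h * mellin`. -/
theorem rho_mellin_le {ρ : Eis → ℂ} (hMS : MS ρ) {v : ℝ → ℂ} (hv : Wt v) :
    ∃ C : ℝ, 0 ≤ C ∧ ∀ (h : Eis), h ≠ 0 → ∀ τ : ℝ,
      ‖ρ h * mellin v (se τ)‖ ≤ C * (nm h * (1 + |τ|)) ^ 2 := by
  obtain ⟨a, b, ha, hab, hsup⟩ := hv.supp
  have hb : 0 < b := ha.trans hab
  obtain ⟨C, hC, hbd⟩ := msy hMS 0 hv (show (0 : ℝ) < 1 / 2 by norm_num) le_rfl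
  set Y0 : ℝ := 1 / (2 * b) with hY0
  have hY0p : 0 < Y0 := by positivity
  have hY0b : Y0 * b < 1 := by
    rw [hY0]; field_simp; norm_num
  have hvb : ∀ x, b < x → v x = 0 := fun x hx => hsup x (Or.inr hx)
  set D : ℝ := C * Y0 ^ ((1 : ℝ) + 1 / 2) / (Y0 ^ ((5 : ℝ) / 6)) ^ 2 with hD
  have hD0 : 0 ≤ D := by positivity
  refine ⟨Real.sqrt D, Real.sqrt_nonneg _, ?_⟩
  intro h hh τ
  have hn : (1 : ℝ) ≤ nm h := by exact_mod_cast nm_pos.mpr hh
  have h1 := hbd (nm h) Y0 τ (nm_pos.mpr hh) hY0p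
  have h2 : ‖SS 0 τ v h Y0 - mainS ρ 0 v τ h Y0‖ ^ 2 ≤
      ∑ h ∈ ball (nm h), ‖SS 0 τ v h Y0 - mainS ρ 0 v τ h Y0‖ ^ 2 :=
    Finset.single_le_sum (f := fun h => ‖SS 0 τ v h Y0 - mainS ρ 0 v τ h Y0‖ ^ 2)
      (fun _ _ => by positivity) (mem_ball.mpr le_rfl)
  rw [SS_zero hvb hY0p hY0b, zero_sub, norm_neg] at h2
  have hre : ((5 : ℂ) / 6 + τ * Complex.I).re = 5 / 6 := by simp
  have h3 : ‖mainS ρ 0 v τ h Y0‖ ^ 2 = ‖ρ h * mellin v (se τ)‖ ^ 2 * (Y0 ^ ((5 : ℝ) / 6)) ^ 2 := by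
    unfold mainS se
    rw [if_pos rfl, norm_mul, Complex.norm_cpow_eq_rpow_re_of_pos hY0p, hre, mul_pow]
  rw [h3] at h2
  have hYp : (0 : ℝ) < (Y0 ^ ((5 : ℝ) / 6)) ^ 2 := by positivity
  set T : ℝ := nm h * (1 + |τ|) with hT
  have hτ1 : 1 ≤ 1 + |τ| := by linarith [abs_nonneg τ]
  have hT1 : 1 ≤ T := one_le_mul_of_one_le_of_one_le hn hτ1
  have h4 : ((1 + |τ|) * (nm h : ℝ)) ^ ((1 : ℝ) / 2) ≤ T := by
    calc ((1 + |τ|) * (nm h : ℝ)) ^ ((1 : ℝ) / 2) = T ^ ((1 : ℝ) / 2) := by rw [hT, mul_comm]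
      _ ≤ T ^ (1 : ℝ) := Real.rpow_le_rpow_of_exponent_le hT1 (by norm_num)
      _ = T := Real.rpow_one T
  have h5 : (nm h : ℝ) + τ ^ 2 ≤ T ^ 2 := by
    have e : τ ^ 2 = |τ| ^ 2 := (sq_abs τ).symm
    have h6 := abs_nonneg τ
    have h7 : (nm h : ℝ) ≤ nm h ^ 2 := by nlinarith
    have h8 : |τ| ^ 2 ≤ nm h ^ 2 * |τ| ^ 2 := by
      apply le_mul_of_one_le_left (by positivity)
      exact one_le_pow₀ hn
    rw [e, hT, mul_pow]
    have h9 : (1 + |τ|) ^ 2 = 1 + 2 * |τ| + |τ| ^ 2 := by ring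
    rw [h9]
    have h10 : 0 ≤ (nm h : ℝ) ^ 2 * (2 * |τ|) := by positivity
    nlinarith
  have h6 : ‖ρ h * mellin v (se τ)‖ ^ 2 ≤ D * T ^ 3 := by
    have h7 : ‖ρ h * mellin v (se τ)‖ ^ 2 * (Y0 ^ ((5 : ℝ) / 6)) ^ 2 ≤
        C * T * T ^ 2 * Y0 ^ ((1 : ℝ) + 1 / 2) := by
      refine (h2.trans h1).trans ?_
      gcongr
    rw [← le_div_iff₀ hYp] at h7
    refine h7.trans (le_of_eq ?_)
    rw [hD]; ring
  have h7 : ‖ρ h * mellin v (se τ)‖ ^ 2 ≤ (Real.sqrt D * T ^ 2) ^ 2 := by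
    refine h6.trans ?_
    rw [mul_pow (Real.sqrt D), Real.sq_sqrt hD0, ← pow_mul]
    apply mul_le_mul_of_nonneg_left _ hD0
    exact pow_le_pow_right₀ hT1 (by norm_num)
  exact (pow_le_pow_iff_left₀ (norm_nonneg _) (by positivity) (by norm_num)).mp h7

end Crest.Agent.R012.TI569
end
end

-- ▼ part R012/TI7B_569
section

/-!
# Row 12, CR2 type I (part B): the sums `NatS` in terms of `U`, and the main term  (helper569)
-/

set_option autoImplicit false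

noncomputable section

open Complex
open scoped ENNReal

namespace Crest.Agent.R012.TI569

open Crest.Agent.R012 Eis LS2 Mob705 M49 TypeI941

local notation "cj" => starRingEnd ℂ

lemma two_pow_pp_le {d : Eis} (hd : d ≠ 0) : 2 ^ (pp d).card ≤ Div277.tau d := by
  classical
  rw [← Finset.card_powerset]
  unfold Div277.tau
  rw [← Finset.card_image_of_injOn (s := (pp d).powerset) (f := fun T => ∏ q ∈ T, q)]
  · apply Finset.card_le_card
    intro x hx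
    rw [Finset.mem_image] at hx
    obtain ⟨T, hT, rfl⟩ := hx
    rw [Finset.mem_powerset] at hT
    have hTP : PPSet T := (ppSet_pp d).subset hT
    rw [Div277.mem_dvs hd]
    exact ⟨hTP.isPrim_prod, hTP.prod_dvd.mpr fun p hp => dvd_of_mem_pp (hT hp)⟩
  · intro T hT T' hT' h
    rw [Finset.mem_coe, Finset.mem_powerset] at hT hT'
    have h1 : PPSet T := (ppSet_pp d).subset hT
    have h2 : PPSet T' := (ppSet_pp d).subset hT'
    simp only at h
    rw [← h1.pp_prod, ← h2.pp_prod, h]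

/-- `gt s k` for `k` coprime to `s`. -/
lemma gt_of_coprime {s k : Eis} (hk : IsPrim k) (h : IsCoprime s k) :
    gt s k = cj (sy s k) * G k := by
  unfold gt G
  rw [Gauss880.gs_of_coprime Gauss880.syG hk h]
  ring

/-- **the natural sum is a sum with a coprimality condition.** -/
lemma natS_eq_U {V : ℝ → ℝ} {s m n r : Eis} (hnr : n * r = s * m ^ 3) {P : Finset Eis}
    (hP1 : ∀ p ∈ P, IsPP p ∧ p ∣ n * r) (hP2 : ∀ p, IsPP p → p ∣ n * r → p ∈ P) (X t : ℝ) :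
    CR2.NatS V (n * r) X t = U gt (ch 0 t) (fun x => ((V x : ℝ) : ℂ)) s P X := by
  classical
  unfold CR2.NatS U
  refine tsum_congr fun k => ?_
  by_cases hk : IsPrim k
  · by_cases hc : cop P k
    · rw [if_pos hk, if_pos ⟨hk, hc⟩]
      have h1 : IsCoprime k (n * r) := by
        rw [isCoprime_iff_pp hk]
        intro p hp hpk hpn
        exact hc p (hP2 p hp hpn) hpk
      rw [hnr] at h1
      have hs : IsCoprime s k := h1.of_mul_right_left.symm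
      have hm3 : IsCoprime (m ^ 3) k := h1.of_mul_right_right.symm
      have hm : IsCoprime m k := hm3.of_isCoprime_of_dvd_left (dvd_pow_self m (by norm_num))
      rw [gt_of_coprime hk hs, hnr, Sym645.syFacts.mul_left s (m ^ 3) k hk,
        Tau671.sy_cube hk hm, mul_one]
      unfold ch
      have h0 : ang 0 k = 1 := by unfold ang; simp
      rw [h0, one_mul]
      ring
    · rw [if_pos hk, if_neg (fun h => hc h.2)]
      have : ∃ p ∈ P, p ∣ k := by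
        unfold cop at hc
        push Not at hc
        exact hc
      obtain ⟨p, hpP, hpk⟩ := this
      have hpp := hP1 p hpP
      have h0 : sy (n * r) k = 0 := by
        apply Tau671.sy_eq_zero hk
        intro hcop
        exact hpp.1.prime.not_isUnit (hcop.isUnit_of_dvd' hpp.2 hpk)
      rw [h0]
      simp
  · rw [if_neg hk, if_neg (fun h => hk h.1)]

/-- the standard decomposition of the numerator `r`. -/
structure RDec (r r0 a b m : Eis) : Prop where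
  hr0 : ∀ p, IsPP p → ¬ p ∣ r0
  ha : IsPrim a
  hb : IsPrim b
  hm : IsPrim m
  hsa : Squarefree a
  hsb : Squarefree b
  hab : IsCoprime a b
  heq : r = r0 * m ^ 3 * (a * b ^ 2)

lemma exists_dec {r : Eis} (hr : r ≠ 0) : ∃ r0 a b m : Eis, RDec r r0 a b m := by
  obtain ⟨u, j, m, a, b, hu, hm, ha, hb, hsa, hsb, hab, h⟩ := CF61.exists_decomp hr
  refine ⟨u * lam ^ j, a, b, m, ⟨?_, ha, hb, hm, hsa, hsb, hab, h⟩⟩
  intro p hp hdvd
  rcases hp.prime.dvd_or_dvd hdvd with h1 | h1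
  · exact hp.prime.not_isUnit (isUnit_of_dvd_unit h1 hu)
  · have h2 := hp.prime.dvd_of_dvd_pow h1
    have h3 : Associated p lam := (hp.prime.dvd_prime_iff_associated prime_lam).mp h2
    exact hp.isPrim.not_lam_dvd h3.symm.dvd

variable {r r0 a b m n : Eis}

lemma RDec.ne_zero (h : RDec r r0 a b m) (hr : r ≠ 0) : r0 ≠ 0 := by
  rintro rfl
  apply hr
  rw [h.heq]; ring

/-- `P2` -/
def P2 (a b m : Eis) : Finset Eis := by
  classical exact pp m \ (pp a ∪ pp b)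

open Classical in
lemma mem_P2 {p : Eis} : p ∈ P2 a b m ↔ p ∈ pp m ∧ p ∉ pp a ∧ p ∉ pp b := by
  unfold P2
  rw [Finset.mem_sdiff, Finset.mem_union]
  push Not
  rfl

open Classical in
/-- all primes dividing `r` -/
lemma RDec.mem_iff (h : RDec r r0 a b m) {p : Eis} (hp : IsPP p) :
    p ∈ pp a ∪ (P2 a b m ∪ pp b) ↔ p ∣ r := by
  rw [Finset.mem_union, Finset.mem_union, mem_P2, mem_pp h.ha.ne_zero, mem_pp h.hb.ne_zero,
    mem_pp h.hm.ne_zero, h.heq]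
  constructor
  · rintro (h1 | h1 | h1)
    · exact dvd_mul_of_dvd_right (dvd_mul_of_dvd_left h1.2 _) _
    · exact dvd_mul_of_dvd_left (dvd_mul_of_dvd_right (dvd_pow h1.1.2 (by norm_num)) _) _
    · exact dvd_mul_of_dvd_right (dvd_mul_of_dvd_right (dvd_pow h1.2 (by norm_num)) _) _
  · intro h1
    rcases hp.prime.dvd_or_dvd h1 with h2 | h2
    · rcases hp.prime.dvd_or_dvd h2 with h3 | h3
      · exact absurd h3 (h.hr0 p hp)
      · have h4 := hp.prime.dvd_of_dvd_pow h3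
        by_cases ha : p ∣ a
        · exact Or.inl ⟨hp, ha⟩
        · by_cases hb : p ∣ b
          · exact Or.inr (Or.inr ⟨hp, hb⟩)
          · exact Or.inr (Or.inl ⟨⟨hp, h4⟩, fun h => ha h.2, fun h => hb h.2⟩)
    · rcases hp.prime.dvd_or_dvd h2 with h3 | h3
      · exact Or.inl ⟨hp, h3⟩
      · exact Or.inr (Or.inr ⟨hp, hp.prime.dvd_of_dvd_pow h3⟩)

open Classical in
lemma ppset_all (a b m : Eis) : PPSet (pp a ∪ (P2 a b m ∪ pp b)) := by
  intro p hp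
  rw [Finset.mem_union, Finset.mem_union, mem_P2] at hp
  rcases hp with h | h | h
  · exact isPP_of_mem_pp h
  · exact isPP_of_mem_pp h.1
  · exact isPP_of_mem_pp h

lemma ppset_P2 (a b m : Eis) : PPSet (P2 a b m) := by
  intro p hp
  rw [mem_P2] at hp
  exact isPP_of_mem_pp hp.1

open Classical in
/-- the natural sum in terms of `U` -/
lemma RDec.natS_eq (h : RDec r r0 a b m) (hn : IsPrim n) {V : ℝ → ℝ} (X t : ℝ) :
    CR2.NatS V (n * r) X t =
      U gt (ch 0 t) (fun x => ((V x : ℝ) : ℂ)) (r0 * b ^ 2 * (n * a))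
        ((pp n ∪ pp a) ∪ (P2 a b m ∪ pp b)) X := by
  have hP : ∀ p, IsPP p → (p ∈ (pp n ∪ pp a) ∪ (P2 a b m ∪ pp b) ↔ p ∣ n * r) := by
    intro p hp
    rw [Finset.union_assoc, Finset.mem_union, h.mem_iff hp, mem_pp hn.ne_zero,
      hp.prime.dvd_mul]
    constructor
    · rintro (h1 | h1)
      · exact Or.inl h1.2
      · exact Or.inr h1
    · rintro (h1 | h1)
      · exact Or.inl ⟨hp, h1⟩
      · exact Or.inr h1
  have hPP : ∀ p ∈ (pp n ∪ pp a) ∪ (P2 a b m ∪ pp b), IsPP p := by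
    intro p hp
    rw [Finset.union_assoc, Finset.mem_union] at hp
    rcases hp with h1 | h1
    · exact isPP_of_mem_pp h1
    · exact ppset_all a b m p h1
  refine natS_eq_U (m := m) ?_ (fun p hp => ⟨hPP p hp, (hP p (hPP p hp)).mp hp⟩)
    (fun p hp h1 => (hP p hp).mpr h1) X t
  rw [h.heq]; ring

open Classical in
/-- the constant `c` -/
def cst (ρ : Eis → ℂ) (v : ℝ → ℂ) (r0 a b m : Eis) (X t : ℝ) : ℂ :=
  if b = 1 then
    ρ (r0 * a) * dens (pp a ∪ (P2 a b m ∪ pp b)) * mellin v (se t) * (X : ℂ) ^ (se t)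
  else 0

lemma dens_pp (n : Eis) : dens (pp n) = ((CR2.phi n : ℝ) : ℂ) := by
  unfold dens CR2.phi
  push_cast
  rfl

lemma norm_dens_le {P : Finset Eis} : ‖dens P‖ ≤ 1 := by
  unfold dens
  rw [norm_prod]
  apply Finset.prod_le_one (fun _ _ => norm_nonneg _)
  intro p _
  rw [norm_inv]
  have h1 : ((1 : ℂ) + 1 / (nm p : ℂ)) = ((1 + 1 / (nm p : ℝ) : ℝ) : ℂ) := by push_cast; rfl
  rw [h1, Complex.norm_real, Real.norm_of_nonneg (by positivity)]
  apply inv_le_one_of_one_le₀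
  have : (0 : ℝ) ≤ 1 / (nm p : ℝ) := by positivity
  linarith

open Classical in
/-- the main term -/
lemma RDec.main_eq (h : RDec r r0 a b m) {ρ : Eis → ℂ} (hρ : RhoRel ρ) (hn : IsPrim n)
    (hns : Squarefree n) (hnr : IsCoprime n r) (v : ℝ → ℂ) (X t : ℝ) :
    Mt 0 t v ρ (r0 * b ^ 2 * (n * a)) ((pp n ∪ pp a) ∪ (P2 a b m ∪ pp b)) X =
      cst ρ v r0 a b m X t * (sy r n * cj (G n) * (((nm n : ℝ) ^ (-(1 : ℝ) / 6) * CR2.phi n : ℝ) : ℂ)) := by
  -- coprimality facts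
  have hdvd : ∀ p, IsPP p → p ∣ n → ¬ p ∣ r := fun p hp h1 h2 =>
    hp.prime.not_isUnit (hnr.isUnit_of_dvd' h1 h2)
  have hdisj : Disjoint (pp n) (pp a ∪ (P2 a b m ∪ pp b)) := by
    rw [Finset.disjoint_left]
    intro p hp1 hp2
    have hpp := isPP_of_mem_pp hp1
    exact hdvd p hpp (dvd_of_mem_pp hp1) ((h.mem_iff hpp).mp hp2)
  have hdens : dens ((pp n ∪ pp a) ∪ (P2 a b m ∪ pp b)) =
      ((CR2.phi n : ℝ) : ℂ) * dens (pp a ∪ (P2 a b m ∪ pp b)) := by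
    rw [Finset.union_assoc, ← dens_pp]
    unfold dens
    rw [Finset.prod_union hdisj]
  unfold Mt cst
  rw [if_pos rfl, hdens]
  by_cases hb1 : b = 1
  · rw [if_pos hb1]
    subst hb1
    have hr' : r = r0 * a * m ^ 3 := by rw [h.heq]; ring
    have hcop : IsCoprime n (r0 * a) := by
      rw [hr'] at hnr
      exact hnr.of_mul_right_left
    have hcopm : IsCoprime n (m ^ 3) := by
      rw [hr'] at hnr
      exact hnr.of_mul_right_right
    have hcopm' : IsCoprime m n := (hcopm.of_isCoprime_of_dvd_right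
      (dvd_pow_self m (by norm_num))).symm
    have e1 : r0 * 1 ^ 2 * (n * a) = (r0 * a) * n := by ring
    rw [e1, hρ.sqfree hn (r0 * a) hns hcop.symm]
    have e2 : gs (r0 * a) n / ((Real.sqrt (nm n) : ℝ) : ℂ) = cj (sy (r0 * a) n) * G n :=
      gt_of_coprime hn hcop.symm
    rw [e2, map_mul, Complex.conj_conj]
    have e3 : sy r n = sy (r0 * a) n := by
      rw [hr', Sym645.syFacts.mul_left _ _ _ hn, Tau671.sy_cube hn hcopm', mul_one]
    rw [e3]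
    push_cast
    ring
  · rw [if_neg hb1]
    obtain ⟨p, hp, hpb⟩ := exists_pp_dvd_of_isPrim h.hb hb1
    obtain ⟨b1, hb1'⟩ := hpb
    have hpr : p ∣ r := by
      rw [h.heq, hb1']
      exact ⟨r0 * m ^ 3 * (a * (p * b1 ^ 2)), by ring⟩
    have hpn : ¬ p ∣ n := fun h1 => hdvd p hp h1 hpr
    have hpa : ¬ p ∣ a := by
      intro h1
      have : IsUnit p := h.hab.isUnit_of_dvd' h1 ⟨b1, hb1'⟩
      exact hp.prime.not_isUnit this
    have hpb1 : ¬ p ∣ b1 := by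
      rintro ⟨c, hc⟩
      apply hp.prime.not_isUnit
      apply h.hsb p
      exact ⟨c, by rw [hb1', hc]; ring⟩
    have e1 : r0 * b ^ 2 * (n * a) = (r0 * b1 ^ 2 * (n * a)) * p ^ 2 := by
      rw [hb1']; ring
    have h0 : ρ (r0 * b ^ 2 * (n * a)) = 0 := by
      rw [e1]
      apply hρ.two_p p _ hp.prime hp.isPrim
      intro h1
      rcases hp.prime.dvd_or_dvd h1 with h2 | h2
      · rcases hp.prime.dvd_or_dvd h2 with h3 | h3
        · exact h.hr0 p hp h3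
        · exact hpb1 (hp.prime.dvd_of_dvd_pow h3)
      · rcases hp.prime.dvd_or_dvd h2 with h3 | h3
        · exact hpn h3
        · exact hpa h3
    rw [h0]; simp

end Crest.Agent.R012.TI569
end
end

-- ▼ part R012/TypeI7_569

/-!
# Row 12, CR2 type I: `CR2.TypeI V` from `M49.MS` and `M49.RhoRel`  (helper569)
-/

set_option autoImplicit false

noncomputable section

open Complex
open scoped ENNReal

namespace Crest.Agent.R012.TI569

open Crest.Agent.R012 Eis LS2 Mob705 M49 TypeI941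

local notation "cj" => starRingEnd ℂ

lemma four_pow_card_le {P : Finset Eis} (hP : PPSet P) :
    (4 : ℝ) ^ P.card ≤ nm (∏ q ∈ P, q) := by
  rw [nm_prod, ← Finset.prod_const]
  push_cast
  apply Finset.prod_le_prod (fun _ _ => by norm_num)
  intro q hq
  exact_mod_cast (hP q hq).four_le_nm

lemma nm_le_of_dvd' {x y : Eis} (h : x ∣ y) (hy : y ≠ 0) : (nm x : ℝ) ≤ nm y := by
  obtain ⟨z, rfl⟩ := h
  have hz : z ≠ 0 := right_ne_zero_of_mul hy
  have h1 : 1 ≤ nm z := nm_pos.mpr hz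
  rw [nm_mul]
  push_cast
  have h2 : (1 : ℝ) ≤ nm z := by exact_mod_cast h1
  have h3 : (0 : ℝ) ≤ nm x := Nat.cast_nonneg _
  nlinarith

lemma norm_cst_le {ρ : Eis → ℂ} {v : ℝ → ℂ} {C : ℝ} (hC : 0 ≤ C)
    (hb : ∀ (h : Eis), h ≠ 0 → ∀ τ : ℝ, ‖ρ h * mellin v (se τ)‖ ≤ C * (nm h * (1 + |τ|)) ^ 2)
    {r r0 a b m : Eis} (hr : r ≠ 0) (h : RDec r r0 a b m) {X : ℝ} (hX : 1 ≤ X) (t : ℝ) :
    ‖cst ρ v r0 a b m X t‖ ≤ C * (nm r * (1 + |t|)) ^ 2 * X ^ ((5 : ℝ) / 6) := by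
  classical
  have hX0 : (0 : ℝ) < X := by linarith
  unfold cst
  split_ifs with hb1
  · have hra : r0 * a ≠ 0 := mul_ne_zero (h.ne_zero hr) h.ha.ne_zero
    have hdvd : r0 * a ∣ r := by
      rw [h.heq]; exact ⟨m ^ 3 * b ^ 2, by ring⟩
    have h1 := nm_le_of_dvd' hdvd hr
    have hre : (se t).re = 5 / 6 := by unfold se; simp
    rw [norm_mul, norm_cpow_eq_rpow_re_of_pos hX0, hre]
    have e : ‖ρ (r0 * a) * dens (pp a ∪ (P2 a b m ∪ pp b)) * mellin v (se t)‖ =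
        ‖dens (pp a ∪ (P2 a b m ∪ pp b))‖ * ‖ρ (r0 * a) * mellin v (se t)‖ := by
      rw [norm_mul, norm_mul, norm_mul]; ring
    rw [e]
    have h2 := hb (r0 * a) hra t
    have h3 := norm_dens_le (P := pp a ∪ (P2 a b m ∪ pp b))
    have h4 : (nm (r0 * a) * (1 + |t|) : ℝ) ^ 2 ≤ (nm r * (1 + |t|)) ^ 2 := by gcongr
    have h5 : ‖dens (pp a ∪ (P2 a b m ∪ pp b))‖ * ‖ρ (r0 * a) * mellin v (se t)‖ ≤
        1 * (C * (nm r * (1 + |t|)) ^ 2) := by
      apply mul_le_mul h3 _ (norm_nonneg _) zero_le_one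
      exact h2.trans (mul_le_mul_of_nonneg_left h4 hC)
    rw [one_mul] at h5
    exact mul_le_mul_of_nonneg_right h5 (by positivity)
  · rw [norm_zero]; positivity

/-- final numerical comparison -/
lemma num_bound {Cτ C1 ε1 nr na ns t D X ε p1 p2 : ℝ} (hCτ : 0 ≤ Cτ) (hC1 : 0 ≤ C1)
    (hε1 : 0 < ε1) (hε2 : ε1 ≤ 1 / 2) (hε : 2 * ε1 ≤ ε) (hnr : 1 ≤ nr) (hna : 1 ≤ na)
    (hns : 1 ≤ ns) (hna' : na ≤ nr) (hns' : ns ≤ nr) (hD : 1 ≤ D) (hX : 1 ≤ X) (hp1 : 0 ≤ p1)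
    (hp2 : 0 ≤ p2) (hp1' : p1 ≤ nr) (hp2' : p2 ≤ nr) :
    Cτ * D ^ ε1 * p1 * p2 * ((C1 * (1 + |t|) ^ ε1 * ns ^ (1 + ε1)) * (D * na) ^ ε1 *
      (D * na + t ^ 2) * X ^ (1 + ε1)) ≤
      Cτ * C1 * (nr * (1 + |t|)) ^ (8 : ℝ) * (D * X) ^ (1 + ε) := by
  have hT : 1 ≤ 1 + |t| := by linarith [abs_nonneg t]
  have hnr0 : 0 < nr := by linarith
  have hD0 : 0 < D := by linarith
  have hX0 : 0 < X := by linarith
  have hTn : 1 ≤ nr * (1 + |t|) := one_le_mul_of_one_le_of_one_le hnr hT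
  have h1 : (1 + |t|) ^ ε1 ≤ (1 + |t|) := by
    calc (1 + |t|) ^ ε1 ≤ (1 + |t|) ^ (1 : ℝ) :=
          Real.rpow_le_rpow_of_exponent_le hT (by linarith)
      _ = _ := Real.rpow_one _
  have h2 : ns ^ (1 + ε1) ≤ nr ^ 2 := by
    calc ns ^ (1 + ε1) ≤ nr ^ (1 + ε1) := Real.rpow_le_rpow (by linarith) hns' (by linarith)
      _ ≤ nr ^ ((2 : ℕ) : ℝ) := Real.rpow_le_rpow_of_exponent_le hnr (by push_cast; linarith)
      _ = nr ^ 2 := Real.rpow_natCast _ _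
  have h3 : (D * na) ^ ε1 ≤ D ^ ε1 * nr := by
    rw [Real.mul_rpow hD0.le (by linarith)]
    apply mul_le_mul_of_nonneg_left _ (by positivity)
    calc na ^ ε1 ≤ nr ^ ε1 := Real.rpow_le_rpow (by linarith) hna' hε1.le
      _ ≤ nr ^ (1 : ℝ) := Real.rpow_le_rpow_of_exponent_le hnr (by linarith)
      _ = nr := Real.rpow_one _
  have h4 : D * na + t ^ 2 ≤ D * nr * (1 + |t|) ^ 2 := by
    have e : t ^ 2 = |t| ^ 2 := (sq_abs t).symm
    rw [e]
    have h5 := abs_nonneg t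
    have h6 : 1 ≤ D * nr := one_le_mul_of_one_le_of_one_le hD hnr
    have h7 : (1 + |t|) ^ 2 = 1 + 2 * |t| + |t| ^ 2 := by ring
    rw [h7]
    have h8 : D * na ≤ D * nr := by gcongr
    have h9 : |t| ^ 2 ≤ D * nr * |t| ^ 2 := le_mul_of_one_le_left (by positivity) h6
    have h10 : 0 ≤ D * nr * (2 * |t|) := by positivity
    nlinarith
  have h5 : X ^ (1 + ε1) ≤ X ^ (1 + ε) := Real.rpow_le_rpow_of_exponent_le hX (by linarith)
  have hna0 : 0 ≤ na := by linarith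
  have hns0 : 0 ≤ ns := by linarith
  calc Cτ * D ^ ε1 * p1 * p2 * ((C1 * (1 + |t|) ^ ε1 * ns ^ (1 + ε1)) * (D * na) ^ ε1 *
      (D * na + t ^ 2) * X ^ (1 + ε1))
      ≤ Cτ * D ^ ε1 * nr * nr * ((C1 * (1 + |t|) * nr ^ 2) * (D ^ ε1 * nr) *
      (D * nr * (1 + |t|) ^ 2) * X ^ (1 + ε)) := by gcongr
    _ = Cτ * C1 * (nr ^ 6 * (1 + |t|) ^ 3) * (D ^ ε1 * D ^ ε1 * D) * X ^ (1 + ε) := by ring
    _ ≤ Cτ * C1 * (nr * (1 + |t|)) ^ (8 : ℝ) * D ^ (1 + ε) * X ^ (1 + ε) := by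
        have h6 : nr ^ 6 * (1 + |t|) ^ 3 ≤ (nr * (1 + |t|)) ^ (8 : ℝ) := by
          have e8 : (nr * (1 + |t|)) ^ (8 : ℝ) = (nr * (1 + |t|)) ^ 8 := by
            rw [← Real.rpow_natCast]; norm_num
          rw [e8, mul_pow]
          apply mul_le_mul
          · exact pow_le_pow_right₀ hnr (by norm_num)
          · exact pow_le_pow_right₀ hT (by norm_num)
          · positivity
          · positivity
        have h7 : D ^ ε1 * D ^ ε1 * D ≤ D ^ (1 + ε) := by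
          calc D ^ ε1 * D ^ ε1 * D = D ^ (ε1 + ε1 + 1) := by
                rw [Real.rpow_add hD0, Real.rpow_add hD0, Real.rpow_one]
            _ ≤ D ^ (1 + ε) := Real.rpow_le_rpow_of_exponent_le hD (by linarith)
        gcongr
    _ = _ := by rw [Real.mul_rpow hD0.le hX0.le]; ring

set_option maxHeartbeats 1000000 in
/-- **Type I mean square for the natural sums with a fixed twist.** -/
theorem typeI_nat {ρ : Eis → ℂ} (hMS : MS ρ) (hρ : RhoRel ρ) {V : ℝ → ℝ}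
    (hV : Wt (fun x => ((V x : ℝ) : ℂ))) : CR2.TypeI V := by
  classical
  refine ⟨8, by norm_num, ?_⟩
  intro ε hε
  set v : ℝ → ℂ := fun x => ((V x : ℝ) : ℂ) with hv
  set ε1 : ℝ := min (ε / 2) (1 / 2) with hε1def
  have hε1 : 0 < ε1 := lt_min (by positivity) (by norm_num)
  have hε1a : ε1 ≤ ε / 2 := min_le_left _ _
  have hε1b : ε1 ≤ 1 / 2 := min_le_right _ _
  obtain ⟨C1, hC1, hM⟩ := hM_of_MS hMS 0 hV hε1 hε1b
  obtain ⟨C2, hC2, hρb⟩ := rho_mellin_le hMS hV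
  obtain ⟨Cτ, hCτ, hτ⟩ := Div277.tau_le_rpow hε1
  have hCτ0 : 0 ≤ Cτ := by linarith
  have hZtop : (TypeI941.Z ε1) ^ 7 ≠ ⊤ := ENNReal.pow_ne_top (Z_lt_top hε1).ne
  set zr : ℝ := ((TypeI941.Z ε1) ^ 7).toReal with hzr
  have hzr0 : 0 ≤ zr := ENNReal.toReal_nonneg
  refine ⟨C2 + zr * (Cτ * C1) + 1, by positivity, ?_⟩
  intro r hr X D t hX hD hDX
  obtain ⟨r0, a, b, m, h⟩ := exists_dec hr
  have hX0 : (0 : ℝ) < X := by linarith
  have hD0 : (0 : ℝ) < D := by linarith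
  have hnr : (1 : ℝ) ≤ nm r := by exact_mod_cast nm_pos.mpr hr
  have hT1 : 1 ≤ 1 + |t| := by linarith [abs_nonneg t]
  have hTn : 1 ≤ nm r * (1 + |t|) := one_le_mul_of_one_le_of_one_le hnr hT1
  have hT8 : (nm r * (1 + |t|)) ^ 2 ≤ (nm r * (1 + |t|)) ^ (8 : ℝ) := by
    have e8 : (nm r * (1 + |t|)) ^ (8 : ℝ) = (nm r * (1 + |t|)) ^ 8 := by
      rw [← Real.rpow_natCast]; norm_num
    rw [e8]
    exact pow_le_pow_right₀ hTn (by norm_num)
  refine ⟨cst ρ v r0 a b m X t, ?_, ?_⟩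
  · refine (norm_cst_le hC2 hρb hr h hX t).trans ?_
    have h1 : C2 ≤ C2 + zr * (Cτ * C1) + 1 := by
      have : 0 ≤ zr * (Cτ * C1) := by positivity
      linarith
    gcongr
  · -- the mean square
    have hs0 : r0 * b ^ 2 ≠ 0 := mul_ne_zero (h.ne_zero hr) (pow_ne_zero _ h.hb.ne_zero)
    have hterm : ∀ n ∈ (S D).filter (fun n => IsCoprime n r),
        ‖CR2.NatS V (n * r) X t - cst ρ v r0 a b m X t * (sy r n * cj (G n) *
          (((nm n : ℝ) ^ (-(1 : ℝ) / 6) * CR2.phi n : ℝ) : ℂ))‖ =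
        ‖Ef 0 t v ρ (r0 * (∏ q ∈ pp b, q) ^ 2 * ∏ q ∈ pp n ∪ pp a, q)
          ((pp n ∪ pp a) ∪ (P2 a b m ∪ pp b)) X‖ := by
      intro n hn
      rw [Finset.mem_filter, mem_S hD0.le] at hn
      obtain ⟨⟨_, hnp, hns⟩, hnc⟩ := hn
      have hdisj : Disjoint (pp n) (pp a) := by
        apply pp_disjoint
        rw [h.heq] at hnc
        exact hnc.of_mul_right_right.of_mul_right_left
      have e1 : r0 * (∏ q ∈ pp b, q) ^ 2 * ∏ q ∈ pp n ∪ pp a, q = r0 * b ^ 2 * (n * a) := by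
        rw [prod_pp h.hb h.hsb, Finset.prod_union hdisj, prod_pp hnp hns, prod_pp h.ha h.hsa]
      rw [e1, h.natS_eq hnp, ← h.main_eq hρ hnp hns hnc]
      rfl
    have hmain := (rec_Ef hρ hV 0 t).meanSq (P1 := pp a) (P2 := P2 a b m) (P3 := pp b)
      (ppSet_pp a) (ppset_P2 a b m) (ppSet_pp b)
      (by
        rw [Finset.disjoint_left]
        intro p hp1 hp2
        exact (mem_P2.mp hp2).2.1 hp1)
      (pp_disjoint h.hab)
      (by
        rw [Finset.disjoint_left]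
        intro p hp1 hp2
        exact (mem_P2.mp hp1).2.2 hp2)
      (r0 := r0) h.hr0 (ε := ε1)
      (K := C1 * (1 + |t|) ^ ε1 * (nm (r0 * b ^ 2) : ℝ) ^ (1 + ε1)) (τ := t ^ 2)
      (Λ := Cτ * D ^ ε1) (D := D) hε1 (by positivity) (by positivity) hD
      (by
        intro d hd
        rw [mem_S hD0.le] at hd
        have h1 := hτ d hd.2.1.ne_zero
        have h2 : (2 : ℝ) ^ (pp d).card ≤ Div277.tau d := by
          exact_mod_cast two_pow_pp_le hd.2.1.ne_zero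
        refine h2.trans (h1.trans ?_)
        gcongr
        exact hd.1)
      (by
        intro H hH Y hY
        have h1 := hM (r0 * b ^ 2) hs0 t H Y hH hY
        rw [prod_pp h.hb h.hsb]
        calc ∑ h ∈ (S H).filter (fun h => ∀ p ∈ pp b, ¬ p ∣ h),
              ‖Ef 0 t v ρ (r0 * b ^ 2 * h) ∅ Y‖ₑ ^ 2
            ≤ ∑ h ∈ S H, ‖Ef 0 t v ρ (r0 * b ^ 2 * h) ∅ Y‖ₑ ^ 2 :=
              Finset.sum_le_sum_of_subset (Finset.filter_subset _ _)
          _ = ENNReal.ofReal (∑ h ∈ S H, ‖Ef 0 t v ρ (r0 * b ^ 2 * h) ∅ Y‖ ^ 2) := by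
              rw [ENNReal.ofReal_sum_of_nonneg (fun _ _ => by positivity)]
              refine Finset.sum_congr rfl fun x _ => ?_
              rw [ENNReal.ofReal_pow (norm_nonneg _), ofReal_norm_eq_enorm]
          _ ≤ _ := by
              rw [← ENNReal.ofReal_mul (by positivity)]
              exact ENNReal.ofReal_le_ofReal h1)
      (Y := X) hX0
    -- back to the reals
    set B : ℝ := Cτ * D ^ ε1 * 2 ^ (pp a).card * 4 ^ (P2 a b m).card *
        (C1 * (1 + |t|) ^ ε1 * (nm (r0 * b ^ 2) : ℝ) ^ (1 + ε1) *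
          (D * nm (∏ q ∈ pp a, q)) ^ ε1 * (D * nm (∏ q ∈ pp a, q) + t ^ 2) * X ^ (1 + ε1)) with hB
    have hB0 : 0 ≤ B := by positivity
    have hreal : ∑ n ∈ (S D).filter (fun n => IsCoprime n r),
        ‖Ef 0 t v ρ (r0 * (∏ q ∈ pp b, q) ^ 2 * ∏ q ∈ pp n ∪ pp a, q)
          ((pp n ∪ pp a) ∪ (P2 a b m ∪ pp b)) X‖ ^ 2 ≤ zr * B := by
      have h1 : ENNReal.ofReal (∑ n ∈ (S D).filter (fun n => IsCoprime n r),
          ‖Ef 0 t v ρ (r0 * (∏ q ∈ pp b, q) ^ 2 * ∏ q ∈ pp n ∪ pp a, q)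
            ((pp n ∪ pp a) ∪ (P2 a b m ∪ pp b)) X‖ ^ 2) ≤
          (TypeI941.Z ε1) ^ 7 * ENNReal.ofReal B := by
        rw [ENNReal.ofReal_sum_of_nonneg (fun _ _ => by positivity)]
        refine le_trans ?_ hmain
        refine le_trans (le_of_eq ?_) (Finset.sum_le_sum_of_subset (s :=
          (S D).filter (fun n => IsCoprime n r)) ?_)
        · refine Finset.sum_congr rfl fun x _ => ?_
          rw [ENNReal.ofReal_pow (norm_nonneg _), ofReal_norm_eq_enorm]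
        · intro n hn
          rw [Finset.mem_filter] at hn ⊢
          refine ⟨hn.1, fun p hp hpn => ?_⟩
          have hpp := ppset_all a b m p hp
          exact hpp.prime.not_isUnit (hn.2.isUnit_of_dvd' hpn ((h.mem_iff hpp).mp hp))
      have h2 : (TypeI941.Z ε1) ^ 7 * ENNReal.ofReal B = ENNReal.ofReal (zr * B) := by
        rw [ENNReal.ofReal_mul hzr0, hzr, ENNReal.ofReal_toReal hZtop]
      rw [h2] at h1
      exact (ENNReal.ofReal_le_ofReal_iff (by positivity)).mp h1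
    have hBle : B ≤ Cτ * C1 * (nm r * (1 + |t|)) ^ (8 : ℝ) * (D * X) ^ (1 + ε) := by
      rw [hB, prod_pp h.ha h.hsa]
      have hna : (1 : ℝ) ≤ nm a := by exact_mod_cast nm_pos.mpr h.ha.ne_zero
      have hns : (1 : ℝ) ≤ nm (r0 * b ^ 2) := by exact_mod_cast nm_pos.mpr hs0
      have hna' : (nm a : ℝ) ≤ nm r :=
        nm_le_of_dvd' (by rw [h.heq]; exact ⟨r0 * m ^ 3 * b ^ 2, by ring⟩) hr
      have hns' : (nm (r0 * b ^ 2) : ℝ) ≤ nm r :=
        nm_le_of_dvd' (by rw [h.heq]; exact ⟨m ^ 3 * a, by ring⟩) hr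
      have hm' : (nm m : ℝ) ≤ nm r :=
        nm_le_of_dvd' (by rw [h.heq]; exact ⟨r0 * m ^ 2 * (a * b ^ 2), by ring⟩) hr
      have hp1 : (2 : ℝ) ^ (pp a).card ≤ nm r := by
        calc (2 : ℝ) ^ (pp a).card ≤ 4 ^ (pp a).card := by gcongr; norm_num
          _ ≤ nm (∏ q ∈ pp a, q) := four_pow_card_le (ppSet_pp a)
          _ = nm a := by rw [prod_pp h.ha h.hsa]
          _ ≤ nm r := hna'
      have hp2 : (4 : ℝ) ^ (P2 a b m).card ≤ nm r := by
        calc (4 : ℝ) ^ (P2 a b m).card ≤ nm (∏ q ∈ P2 a b m, q) :=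
              four_pow_card_le (ppset_P2 a b m)
          _ ≤ nm m := nm_le_of_dvd' ((ppset_P2 a b m).prod_dvd.mpr fun p hp =>
              dvd_of_mem_pp (mem_P2.mp hp).1) h.hm.ne_zero
          _ ≤ nm r := hm'
      exact num_bound hCτ0 hC1 hε1 hε1b (by linarith) hnr hna hns hna' hns' hD hX
        (by positivity) (by positivity) hp1 hp2
    calc _ = ∑ n ∈ (S D).filter (fun n => IsCoprime n r),
          ‖Ef 0 t v ρ (r0 * (∏ q ∈ pp b, q) ^ 2 * ∏ q ∈ pp n ∪ pp a, q)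
            ((pp n ∪ pp a) ∪ (P2 a b m ∪ pp b)) X‖ ^ 2 := by
          refine Finset.sum_congr rfl fun n hn => ?_
          rw [hterm n hn]
      _ ≤ zr * B := hreal
      _ ≤ zr * (Cτ * C1 * (nm r * (1 + |t|)) ^ (8 : ℝ) * (D * X) ^ (1 + ε)) := by gcongr
      _ = (zr * (Cτ * C1)) * (nm r * (1 + |t|)) ^ (8 : ℝ) * (D * X) ^ (1 + ε) := by ring
      _ ≤ (C2 + zr * (Cτ * C1) + 1) * (nm r * (1 + |t|)) ^ (8 : ℝ) * (D * X) ^ (1 + ε) := by
          gcongr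
          linarith

end Crest.Agent.R012.TI569
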