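import Crest.Agent.R012.TNXk_766_Mg
import Crest.Agent.R012.CR2c_180
import Crest.Agent.R012.LS2Ineq_381
import Crest.Agent.R012.TypeI7_569_Mg
import Crest.Agent.R012.LS2Main_448
import Crest.Agent.R012.MFinal_49

-- ▼ part R012/TNXfin_52
section

/-!
# Row 12: `T411.TNXN` unconditionally
-/

set_option autoImplicit false

noncomputable section

namespace Crest.Agent.R012.NonCube52

open Finset Eis

theorem wSum_holds : WSum := by
  classical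
  obtain ⟨C, hC, h⟩ := TNXb470.wsum2
  refine ⟨C, hC, fun D hD Z hZ => ?_⟩
  have h1 := h D (fun e he => (hD e he).ne_zero) Z hZ
    (fun e => D.filter (fun g => Z ≤ (nm e : ℝ) * nm g))
    (fun e _ g hg => (mem_filter.mp hg))
  refine le_trans (sum_le_sum fun e he => sum_le_sum fun f hf => sum_le_sum fun g hg => ?_) h1
  have h2 : (nm f : ℝ) ^ (-(1 / 3) : ℝ) ≤ 1 :=
    Real.rpow_le_one_of_one_le_of_nonpos
      (LS448.one_le_nm' (Div277.isPrim_of_mem_dvs hf).ne_zero) (by norm_num)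
  have h3 : 0 ≤ (nm e : ℝ) ^ (-(5 / 3) : ℝ) := by positivity
  have h4 : 0 ≤ (nm g : ℝ) ^ (-(5 / 3) : ℝ) := by positivity
  calc (nm e : ℝ) ^ (-(5 / 3) : ℝ) * (nm f : ℝ) ^ (-(1 / 3) : ℝ) * (nm g : ℝ) ^ (-(5 / 3) : ℝ)
      ≤ (nm e : ℝ) ^ (-(5 / 3) : ℝ) * 1 * (nm g : ℝ) ^ (-(5 / 3) : ℝ) := by gcongr
    _ = _ := by ring

theorem reg2_holds : Reg2 := by
  classical
  intro ε hε
  obtain ⟨C, hC, h⟩ := TNXb470.region2 TNXk766.syH TNXk766.l1Prop TNXk766.hbProp hε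
  refine ⟨C, hC, fun X A B Z hX hB4 hBX hBA hA hAX hZ 𝓑 β hc => ?_⟩
  have hB : 1 ≤ B := (Real.one_le_rpow (by linarith) (by norm_num)).trans hB4
  have h1 := h 1 X A B Z hX hA hB hBX hZ 𝓑 β hc
  rw [Real.rpow_two] at h1
  refine le_trans (le_of_eq ?_) h1
  refine sum_congr rfl fun e _ => sum_congr rfl fun f _ => ?_
  conv_rhs => rw [sum_filter]

/-- **(TNX), non-critical case.** -/
theorem tnxN : T411.TNXN :=
  tnxN_of TNXk766.syH TNXk766.l1Prop TNXk766.hbProp wSum_holds reg2_holds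

end Crest.Agent.R012.NonCube52
end
end

-- ▼ part R012/CR2e_286
section

/-!
# Row 12 (CR2), part e (helper286): setup of the duality for `CoreB`

* `SV`         : the smoothed second moment
* `cs_setup`   : unsmoothing, `∑ ‖wS‖² ≤ 2 SV`, Cauchy–Schwarz `SV² ≤ ∑‖b‖² · (dual side)`
* `coreB_small`: the trivial bound
* `sum_def`    : `∑_{d,e,f,k} ‖w(dfk)‖² ≤ τ³ ∑ ‖w h‖²`
-/

set_option autoImplicit false
set_option linter.unusedVariables false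
set_option linter.unusedSimpArgs false
set_option linter.unusedSectionVars false

noncomputable section

namespace Crest.Agent.R012.CR2

open Eis LS2 Mob705 Finset CharSum852 Tau671

local notation "cj" => starRingEnd ℂ

/-- the smoothed second moment -/
def SV (V : ℝ → ℝ) (b : Eis → ℂ) (H0 Z s : ℝ) : ℝ :=
  ∑ h ∈ S (4 * H0), V ((nm h : ℝ) / H0) * ((nm h : ℝ) / H0) ^ (1 / 2 - s) * ‖Eb b Z h‖ ^ 2

lemma SV_nonneg {V : ℝ → ℝ} (hV0 : ∀ x, 0 ≤ V x) (b : Eis → ℂ) {H0 : ℝ} (hH : 0 ≤ H0) (Z s : ℝ) :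
    0 ≤ SV V b H0 Z s := by
  unfold SV
  refine Finset.sum_nonneg fun h _ => ?_
  have := hV0 ((nm h : ℝ) / H0)
  positivity

/-- unsmoothing -/
lemma le_SV {V : ℝ → ℝ} (hV0 : ∀ x, 0 ≤ V x) (hVs : ∀ x, 1 ≤ x → x ≤ 2 → V x = 1) {b : Eis → ℂ}
    {H0 Z s : ℝ} (hH : 1 ≤ H0) (hs : s ≤ 1 / 2) :
    ∑ h ∈ (S (2 * H0)).filter (fun h => H0 < nm h), ‖Eb b Z h‖ ^ 2 ≤ SV V b H0 Z s := by
  have hH0 : 0 < H0 := by linarith
  have hsub : (S (2 * H0)).filter (fun h => H0 < (nm h : ℝ)) ⊆ S (4 * H0) := by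
    intro h hh
    rw [Finset.mem_filter, mem_S (by linarith)] at hh
    rw [mem_S (by linarith)]
    exact ⟨by linarith [hh.1.1], hh.1.2⟩
  refine le_trans (Finset.sum_le_sum fun h hh => ?_)
    (Finset.sum_le_sum_of_subset_of_nonneg hsub fun h _ _ => ?_)
  · rw [Finset.mem_filter, mem_S (by linarith)] at hh
    have h1 : 1 ≤ (nm h : ℝ) / H0 := by rw [one_le_div hH0]; exact hh.2.le
    have h2 : (nm h : ℝ) / H0 ≤ 2 := by rw [div_le_iff₀ hH0]; exact hh.1.1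
    rw [hVs _ h1 h2, one_mul]
    exact le_mul_of_one_le_left (by positivity) (Real.one_le_rpow h1 (by linarith))
  · have := hV0 ((nm h : ℝ) / H0)
    positivity

lemma weight_le {V : ℝ → ℝ} (hV0 : ∀ x, 0 ≤ V x) (hV1 : ∀ x, V x ≤ 1) {H0 s : ℝ} (hH : 1 ≤ H0)
    (hs0 : 0 ≤ s) (hs : s ≤ 1 / 2) {h : Eis} (hh : h ∈ S (4 * H0)) :
    V ((nm h : ℝ) / H0) * ((nm h : ℝ) / H0) ^ (1 / 2 - s) ≤ 2 := by
  have hH0 : 0 < H0 := by linarith
  rw [mem_S (by linarith)] at hh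
  have h2 : (nm h : ℝ) / H0 ≤ 4 := by rw [div_le_iff₀ hH0]; exact hh.1
  have h0 : 0 ≤ (nm h : ℝ) / H0 := by positivity
  have h3 : ((nm h : ℝ) / H0) ^ (1 / 2 - s) ≤ 2 := by
    calc ((nm h : ℝ) / H0) ^ (1 / 2 - s) ≤ (4 : ℝ) ^ (1 / 2 - s) :=
          Real.rpow_le_rpow h0 h2 (by linarith)
      _ ≤ (4 : ℝ) ^ ((1 : ℝ) / 2) :=
          Real.rpow_le_rpow_of_exponent_le (by norm_num) (by linarith)
      _ = 2 := by
          rw [show (4 : ℝ) = 2 ^ (2 : ℝ) by norm_num, ← Real.rpow_mul (by norm_num)]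
          norm_num
  calc V ((nm h : ℝ) / H0) * ((nm h : ℝ) / H0) ^ (1 / 2 - s) ≤ 1 * 2 :=
        mul_le_mul (hV1 _) h3 (by positivity) (by norm_num)
    _ = 2 := by norm_num

/-- the norm of the structured weight -/
lemma norm_wS_sq {V : ℝ → ℝ} {b : Eis → ℂ} {H0 Z s : ℝ} {h : Eis} (hh : h ∈ S (4 * H0)) :
    ‖wS V b H0 Z s h‖ ^ 2 =
      (V ((nm h : ℝ) / H0) * ((nm h : ℝ) / H0) ^ (1 / 2 - s)) ^ 2 * ‖Eb b Z h‖ ^ 2 := by
  unfold wS
  rw [if_pos hh, norm_mul, mul_pow, RCLike.norm_conj, Complex.norm_real, Real.norm_eq_abs, sq_abs]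

lemma sum_wS_le {V : ℝ → ℝ} (hV0 : ∀ x, 0 ≤ V x) (hV1 : ∀ x, V x ≤ 1) {b : Eis → ℂ}
    {H0 Z s : ℝ} (hH : 1 ≤ H0) (hs0 : 0 ≤ s) (hs : s ≤ 1 / 2) :
    ∑ h ∈ S (4 * H0), ‖wS V b H0 Z s h‖ ^ 2 ≤ 2 * SV V b H0 Z s := by
  unfold SV
  rw [Finset.mul_sum]
  refine Finset.sum_le_sum fun h hh => ?_
  rw [norm_wS_sq hh]
  have h1 := weight_le hV0 hV1 hH hs0 hs hh
  have h0 : 0 ≤ V ((nm h : ℝ) / H0) * ((nm h : ℝ) / H0) ^ (1 / 2 - s) := by
    have := hV0 ((nm h : ℝ) / H0)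
    have : 0 ≤ (nm h : ℝ) / H0 := by positivity
    positivity
  calc _ = (V ((nm h : ℝ) / H0) * ((nm h : ℝ) / H0) ^ (1 / 2 - s)) *
        ((V ((nm h : ℝ) / H0) * ((nm h : ℝ) / H0) ^ (1 / 2 - s)) * ‖Eb b Z h‖ ^ 2) := by ring
    _ ≤ 2 * ((V ((nm h : ℝ) / H0) * ((nm h : ℝ) / H0) ^ (1 / 2 - s)) * ‖Eb b Z h‖ ^ 2) := by
        gcongr
    _ = _ := by ring

/-- `SV = ∑_n b_n ∑_h wS_h (n/h)` -/
lemma SV_eq {V : ℝ → ℝ} {b : Eis → ℂ} {H0 Z s : ℝ} :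
    ((SV V b H0 Z s : ℝ) : ℂ) =
      ∑ n ∈ S Z, b n * ∑ h ∈ S (4 * H0), wS V b H0 Z s h * sy n h := by
  have e1 : ∀ n ∈ S Z, b n * ∑ h ∈ S (4 * H0), wS V b H0 Z s h * sy n h =
      ∑ h ∈ S (4 * H0), wS V b H0 Z s h * (b n * sy n h) := by
    intro n _
    rw [Finset.mul_sum]
    exact Finset.sum_congr rfl fun h _ => by ring
  rw [Finset.sum_congr rfl e1, Finset.sum_comm]
  unfold SV
  rw [Complex.ofReal_sum]
  refine Finset.sum_congr rfl fun h hh => ?_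
  rw [← Finset.mul_sum]
  have e2 : ∑ n ∈ S Z, b n * sy n h = Eb b Z h := rfl
  rw [e2]
  unfold wS
  have e3 : cj (Eb b Z h) * Eb b Z h = ((‖Eb b Z h‖ ^ 2 : ℝ) : ℂ) := by
    rw [← Complex.normSq_eq_conj_mul_self, Complex.normSq_eq_norm_sq]
  rw [if_pos hh, mul_assoc (_ : ℂ) (cj (Eb b Z h)) (Eb b Z h), e3, ← Complex.ofReal_mul]

lemma cs_aux (H : SyFacts) {V : ℝ → ℝ} (hV0 : ∀ x, 0 ≤ V x) {b : Eis → ℂ} {H0 Z s : ℝ}
    (hH : 1 ≤ H0) (hZ : 1 ≤ Z) :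
    (SV V b H0 Z s) ^ 2 ≤ (∑ n ∈ S Z, ‖b n‖ ^ 2) * (Real.exp 1 * ∑' n : Eis,
      Real.exp (-(nm n : ℝ) / Z) * ‖∑ h ∈ S (4 * H0), wS V b H0 Z s h * sy n h‖ ^ 2) := by
  have hZ0 : 0 < Z := by linarith
  have h1 : |SV V b H0 Z s| ≤
      ∑ n ∈ S Z, ‖b n‖ * ‖∑ h ∈ S (4 * H0), wS V b H0 Z s h * sy n h‖ := by
    have e1 : |SV V b H0 Z s| = ‖((SV V b H0 Z s : ℝ) : ℂ)‖ := by
      rw [Complex.norm_real, Real.norm_eq_abs]
    rw [e1, SV_eq]
    refine (norm_sum_le _ _).trans (Finset.sum_le_sum fun n _ => ?_)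
    rw [norm_mul]
  have h2 := Finset.sum_mul_sq_le_sq_mul_sq (S Z) (fun n => ‖b n‖)
    (fun n => ‖∑ h ∈ S (4 * H0), wS V b H0 Z s h * sy n h‖)
  have h3 : (SV V b H0 Z s) ^ 2 ≤
      (∑ n ∈ S Z, ‖b n‖ * ‖∑ h ∈ S (4 * H0), wS V b H0 Z s h * sy n h‖) ^ 2 := by
    rw [← sq_abs]
    exact pow_le_pow_left₀ (abs_nonneg _) h1 2
  have h4 : ∑ n ∈ S Z, ‖∑ h ∈ S (4 * H0), wS V b H0 Z s h * sy n h‖ ^ 2 ≤
      Real.exp 1 * ∑' n : Eis,
      Real.exp (-(nm n : ℝ) / Z) * ‖∑ h ∈ S (4 * H0), wS V b H0 Z s h * sy n h‖ ^ 2 := by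
    have h5 : ∑ n ∈ S Z, Real.exp (-(nm n : ℝ) / Z) *
        ‖∑ h ∈ S (4 * H0), wS V b H0 Z s h * sy n h‖ ^ 2 ≤ ∑' n : Eis,
      Real.exp (-(nm n : ℝ) / Z) * ‖∑ h ∈ S (4 * H0), wS V b H0 Z s h * sy n h‖ ^ 2 :=
      (summable_lhs H (by linarith) hZ0 _).sum_le_tsum _ fun _ _ => by positivity
    calc ∑ n ∈ S Z, ‖∑ h ∈ S (4 * H0), wS V b H0 Z s h * sy n h‖ ^ 2
        ≤ ∑ n ∈ S Z, Real.exp 1 * (Real.exp (-(nm n : ℝ) / Z) *
          ‖∑ h ∈ S (4 * H0), wS V b H0 Z s h * sy n h‖ ^ 2) := by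
          refine Finset.sum_le_sum fun n hn => ?_
          rw [mem_S hZ0.le] at hn
          rw [← mul_assoc, ← Real.exp_add]
          refine le_mul_of_one_le_left (by positivity) (Real.one_le_exp ?_)
          have : (nm n : ℝ) / Z ≤ 1 := by rw [div_le_one hZ0]; exact hn.1
          rw [neg_div]; linarith
      _ = Real.exp 1 * ∑ n ∈ S Z, Real.exp (-(nm n : ℝ) / Z) *
          ‖∑ h ∈ S (4 * H0), wS V b H0 Z s h * sy n h‖ ^ 2 := by rw [Finset.mul_sum]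
      _ ≤ _ := by gcongr
  calc (SV V b H0 Z s) ^ 2 ≤ _ := h3
    _ ≤ _ := h2
    _ ≤ _ := by gcongr

/-- **(1)** -/
lemma cs_setup (H : SyFacts) {V : ℝ → ℝ} (hV0 : ∀ x, 0 ≤ V x) (hV1 : ∀ x, V x ≤ 1)
    (hVs : ∀ x, 1 ≤ x → x ≤ 2 → V x = 1) {b : Eis → ℂ} {H0 Z s : ℝ} (hH : 1 ≤ H0) (hZ : 1 ≤ Z)
    (hs0 : 0 ≤ s) (hs : s ≤ 1 / 2) :
    (∑ h ∈ (S (2 * H0)).filter (fun h => H0 < nm h), ‖Eb b Z h‖ ^ 2 ≤ SV V b H0 Z s) ∧
    (∑ h ∈ S (4 * H0), ‖wS V b H0 Z s h‖ ^ 2 ≤ 2 * SV V b H0 Z s) ∧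
    (SV V b H0 Z s) ^ 2 ≤ (∑ n ∈ S Z, ‖b n‖ ^ 2) * (Real.exp 1 * ∑' n : Eis,
      Real.exp (-(nm n : ℝ) / Z) * ‖∑ h ∈ S (4 * H0), wS V b H0 Z s h * sy n h‖ ^ 2) :=
  ⟨le_SV hV0 hVs hH hs, sum_wS_le hV0 hV1 hH hs0 hs, cs_aux H hV0 hH hZ⟩

lemma card_S_le {X : ℝ} (hX : 0 ≤ X) : ((S X).card : ℝ) ≤ 16 * X := by
  refine le_trans ?_ (card_bl_le hX)
  have : S X ⊆ bl X := fun n hn => by
    rw [mem_S hX] at hn
    rw [mem_bl hX]
    exact ⟨hn.2.1.ne_zero, hn.1⟩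
  exact_mod_cast Finset.card_le_card this

lemma norm_Eb_sq_le {b : Eis → ℂ} {Z : ℝ} (hZ : 0 ≤ Z) {h : Eis} (hh : IsPrim h) :
    ‖Eb b Z h‖ ^ 2 ≤ 16 * Z * ∑ n ∈ S Z, ‖b n‖ ^ 2 := by
  unfold Eb
  refine (norm_sum_sq_le_card _ _).trans ?_
  refine mul_le_mul (card_S_le hZ) (Finset.sum_le_sum fun n _ => ?_)
    (Finset.sum_nonneg fun _ _ => by positivity) (by positivity)
  rw [norm_mul]
  have h1 : ‖sy n h‖ ≤ 1 := Tau671.norm_sy_le hh
  have h2 : ‖b n‖ * ‖sy n h‖ ≤ ‖b n‖ := mul_le_of_le_one_right (norm_nonneg _) h1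
  exact pow_le_pow_left₀ (by positivity) h2 2

/-- **(2)** the trivial bound -/
lemma coreB_small (H : SyFacts) : ∀ H0 Z K1 : ℝ, 1 ≤ H0 → 1 ≤ Z → ∀ b : Eis → ℂ,
    (∑ n ∈ S Z, ‖b n‖ ^ 2 ≤ K1 * Z) →
    ∑ h ∈ (S (2 * H0)).filter (fun h => H0 < nm h), ‖Eb b Z h‖ ^ 2 ≤ 512 * K1 * H0 * Z ^ 2 := by
  intro H0 Z K1 hH hZ b hb
  have hZ0 : 0 ≤ Z := by linarith
  have hb0 : 0 ≤ ∑ n ∈ S Z, ‖b n‖ ^ 2 := Finset.sum_nonneg fun _ _ => by positivity
  have h1 : ∀ h ∈ (S (2 * H0)).filter (fun h => H0 < (nm h : ℝ)),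
      ‖Eb b Z h‖ ^ 2 ≤ 16 * Z * (K1 * Z) := by
    intro h hh
    rw [Finset.mem_filter, mem_S (by linarith)] at hh
    refine (norm_Eb_sq_le hZ0 hh.1.2.1).trans ?_
    gcongr
  refine (Finset.sum_le_sum h1).trans ?_
  rw [Finset.sum_const, nsmul_eq_mul]
  have h2 : (((S (2 * H0)).filter (fun h => H0 < (nm h : ℝ))).card : ℝ) ≤ 32 * H0 := by
    have h3 : (((S (2 * H0)).filter (fun h => H0 < (nm h : ℝ))).card : ℝ) ≤
        ((S (2 * H0)).card : ℝ) := by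
      exact_mod_cast Finset.card_le_card (Finset.filter_subset _ _)
    have h4 := card_S_le (X := 2 * H0) (by linarith)
    linarith
  have h5 : 0 ≤ 16 * Z * (K1 * Z) := by
    have : 0 ≤ K1 * Z := hb0.trans hb
    positivity
  calc _ ≤ 32 * H0 * (16 * Z * (K1 * Z)) := by gcongr
    _ = _ := by ring

open Classical in
/-- **(3)** -/
lemma sum_def {w : Eis → ℂ} {X τ : ℝ} (hX : 0 ≤ X) (hτ0 : 0 ≤ τ) (hw : ∀ h, w h ≠ 0 → h ∈ S X)
    (hτ : ∀ h ∈ S X, ((pdiv h).card : ℝ) ≤ τ) :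
    ∑ d ∈ S X, ∑ e ∈ (S X).filter (· ∣ d), ∑ f ∈ S X, ∑ k ∈ S X, ‖w (d * f * k)‖ ^ 2 ≤
      τ ^ 3 * ∑ h ∈ S X, ‖w h‖ ^ 2 := by
  have e1 : ∀ d f k : Eis, ‖w (d * f * k)‖ ^ 2 =
      ∑ h ∈ S X, if h = d * f * k then ‖w h‖ ^ 2 else 0 := by
    intro d f k
    rw [Finset.sum_ite_eq' (S X) (d * f * k) (fun h => ‖w h‖ ^ 2)]
    split_ifs with h0
    · rfl
    · by_contra hne
      apply h0
      apply hw
      intro h1
      rw [h1] at hne
      simp at hne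
  have e2 : ∑ d ∈ S X, ∑ e ∈ (S X).filter (· ∣ d), ∑ f ∈ S X, ∑ k ∈ S X, ‖w (d * f * k)‖ ^ 2 =
      ∑ h ∈ S X, ‖w h‖ ^ 2 * ∑ d ∈ S X, ∑ e ∈ (S X).filter (· ∣ d), ∑ f ∈ S X,
        ∑ k ∈ S X, if h = d * f * k then (1 : ℝ) else 0 := by
    calc _ = ∑ d ∈ S X, ∑ e ∈ (S X).filter (· ∣ d), ∑ f ∈ S X, ∑ k ∈ S X, ∑ h ∈ S X,
          (‖w h‖ ^ 2 * if h = d * f * k then (1 : ℝ) else 0) := by
          refine Finset.sum_congr rfl fun d _ => Finset.sum_congr rfl fun e _ =>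
            Finset.sum_congr rfl fun f _ => Finset.sum_congr rfl fun k _ => ?_
          rw [e1]
          refine Finset.sum_congr rfl fun h _ => ?_
          split_ifs <;> simp
      _ = ∑ d ∈ S X, ∑ e ∈ (S X).filter (· ∣ d), ∑ f ∈ S X, ∑ h ∈ S X, ∑ k ∈ S X,
          (‖w h‖ ^ 2 * if h = d * f * k then (1 : ℝ) else 0) := by
          refine Finset.sum_congr rfl fun d _ => Finset.sum_congr rfl fun e _ =>
            Finset.sum_congr rfl fun f _ => Finset.sum_comm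
      _ = ∑ d ∈ S X, ∑ e ∈ (S X).filter (· ∣ d), ∑ h ∈ S X, ∑ f ∈ S X, ∑ k ∈ S X,
          (‖w h‖ ^ 2 * if h = d * f * k then (1 : ℝ) else 0) := by
          refine Finset.sum_congr rfl fun d _ => Finset.sum_congr rfl fun e _ => Finset.sum_comm
      _ = ∑ d ∈ S X, ∑ h ∈ S X, ∑ e ∈ (S X).filter (· ∣ d), ∑ f ∈ S X, ∑ k ∈ S X,
          (‖w h‖ ^ 2 * if h = d * f * k then (1 : ℝ) else 0) := by
          refine Finset.sum_congr rfl fun d _ => Finset.sum_comm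
      _ = ∑ h ∈ S X, ∑ d ∈ S X, ∑ e ∈ (S X).filter (· ∣ d), ∑ f ∈ S X, ∑ k ∈ S X,
          (‖w h‖ ^ 2 * if h = d * f * k then (1 : ℝ) else 0) := Finset.sum_comm
      _ = _ := by
          refine Finset.sum_congr rfl fun h _ => ?_
          simp only [Finset.mul_sum]
  rw [e2, Finset.mul_sum]
  refine Finset.sum_le_sum fun h hh => ?_
  have hh' := (mem_S hX).mp hh
  have hh0 : h ≠ 0 := hh'.2.1.ne_zero
  have key : ∑ d ∈ S X, ∑ e ∈ (S X).filter (· ∣ d), ∑ f ∈ S X,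
        ∑ k ∈ S X, (if h = d * f * k then (1 : ℝ) else 0) ≤ τ ^ 3 := by
    have k1 : ∀ d ∈ S X, ∀ f ∈ S X, ∑ k ∈ S X, (if h = d * f * k then (1 : ℝ) else 0) ≤
        if d ∣ h ∧ f ∣ h then 1 else 0 := by
      intro d hd f hf
      have hd0 := ((mem_S hX).mp hd).2.1.ne_zero
      have hf0 := ((mem_S hX).mp hf).2.1.ne_zero
      by_cases hex : ∃ k ∈ S X, h = d * f * k
      · obtain ⟨k0, hk0, hk⟩ := hex
        rw [if_pos ⟨⟨f * k0, by rw [hk]; ring⟩, ⟨d * k0, by rw [hk]; ring⟩⟩]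
        rw [Finset.sum_eq_single_of_mem k0 hk0]
        · split_ifs <;> norm_num
        · intro k _ hne
          rw [if_neg]
          intro h1
          apply hne
          have : d * f * k = d * f * k0 := by rw [← h1, hk]
          exact mul_left_cancel₀ (mul_ne_zero hd0 hf0) this
      · rw [Finset.sum_eq_zero]
        · split_ifs
          · norm_num
          · norm_num
        · intro k hk
          rw [if_neg]
          intro h1
          exact hex ⟨k, hk, h1⟩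
    have k2 : ∀ d ∈ S X, ∀ e ∈ (S X).filter (· ∣ d),
        ∑ f ∈ S X, ∑ k ∈ S X, (if h = d * f * k then (1 : ℝ) else 0) ≤
        if d ∣ h ∧ e ∣ h then τ else 0 := by
      intro d hd e he
      rw [Finset.mem_filter] at he
      refine (Finset.sum_le_sum fun f hf => k1 d hd f hf).trans ?_
      by_cases hdh : d ∣ h
      · have heh : e ∣ h := he.2.trans hdh
        rw [if_pos ⟨hdh, heh⟩]
        simp only [hdh, true_and]
        rw [← Finset.sum_filter, Finset.sum_const, nsmul_eq_mul, mul_one]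
        refine le_trans ?_ (hτ h hh)
        have : (S X).filter (fun f => f ∣ h) ⊆ pdiv h := by
          intro f hf
          rw [Finset.mem_filter, mem_S hX] at hf
          rw [mem_pdiv hh0]
          exact ⟨hf.1.2.1, hf.2⟩
        exact_mod_cast Finset.card_le_card this
      · simp only [hdh, false_and, if_false]
        simp
    have k3 : ∀ d ∈ S X, ∑ e ∈ (S X).filter (· ∣ d),
        ∑ f ∈ S X, ∑ k ∈ S X, (if h = d * f * k then (1 : ℝ) else 0) ≤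
        if d ∣ h then τ ^ 2 else 0 := by
      intro d hd
      refine (Finset.sum_le_sum fun e he => k2 d hd e he).trans ?_
      by_cases hdh : d ∣ h
      · rw [if_pos hdh]
        simp only [hdh, true_and]
        rw [← Finset.sum_filter, Finset.sum_const, nsmul_eq_mul, sq]
        refine mul_le_mul_of_nonneg_right ?_ hτ0
        refine le_trans ?_ (hτ h hh)
        have : ((S X).filter (· ∣ d)).filter (fun e => e ∣ h) ⊆ pdiv h := by
          intro f hf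
          rw [Finset.mem_filter, Finset.mem_filter, mem_S hX] at hf
          rw [mem_pdiv hh0]
          exact ⟨hf.1.1.2.1, hf.2⟩
        exact_mod_cast Finset.card_le_card this
      · rw [if_neg hdh]
        simp [hdh]
    refine (Finset.sum_le_sum fun d hd => k3 d hd).trans ?_
    rw [← Finset.sum_filter, Finset.sum_const, nsmul_eq_mul]
    have : ((S X).filter (fun d => d ∣ h)).card ≤ (pdiv h).card := by
      apply Finset.card_le_card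
      intro f hf
      rw [Finset.mem_filter, mem_S hX] at hf
      rw [mem_pdiv hh0]
      exact ⟨hf.1.2.1, hf.2⟩
    have h1 : (((S X).filter (fun d => d ∣ h)).card : ℝ) ≤ τ :=
      le_trans (by exact_mod_cast this) (hτ h hh)
    calc _ ≤ τ * τ ^ 2 := by gcongr
      _ = τ ^ 3 := by ring
  calc _ ≤ ‖w h‖ ^ 2 * τ ^ 3 := by gcongr
    _ = _ := by ring

end Crest.Agent.R012.CR2
end
end

-- ▼ part R012/CR2i_180
section

/-!
# Row 12 (CR2), part i: the proof of `CoreB`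
-/

set_option autoImplicit false
set_option linter.unusedVariables false
set_option linter.unusedSimpArgs false
set_option linter.unusedSectionVars false

noncomputable section

namespace Crest.Agent.R012.CR2

open Eis LS2 Mob705 Finset CharSum852 Tau671 MeasureTheory

local notation "cj" => starRingEnd ℂ

/-- counting the triples -/
lemma sum_ind_le {X D0 Λ : ℝ} (hX : 0 ≤ X) (hD0 : 0 ≤ D0) (hΛ : 0 ≤ Λ) : (open Classical in
    ∑ d ∈ S X, ∑ e ∈ (S X).filter (· ∣ d), ∑ f ∈ S X,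
      (if (nm d : ℝ) * nm f ≤ D0 then Λ else 0)) ≤ (16 * D0) ^ 3 * Λ := by
  classical
  have hS : (((S X).filter (fun f => (nm f : ℝ) ≤ D0)).card : ℝ) ≤ 16 * D0 := by
    refine le_trans ?_ (card_bl_le hD0)
    have : (S X).filter (fun f => (nm f : ℝ) ≤ D0) ⊆ bl D0 := by
      intro n hn
      rw [Finset.mem_filter] at hn
      rw [mem_bl hD0]
      exact ⟨(S_prim hX hn.1).ne_zero, hn.2⟩
    exact_mod_cast Finset.card_le_card this
  have h1 : ∀ d ∈ S X, ∑ f ∈ S X, (if (nm d : ℝ) * nm f ≤ D0 then Λ else 0) ≤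
      if (nm d : ℝ) ≤ D0 then 16 * D0 * Λ else 0 := by
    intro d hd
    have hd1 : (1 : ℝ) ≤ nm d := by exact_mod_cast nm_pos.mpr (S_prim hX hd).ne_zero
    split_ifs with hdD
    · calc ∑ f ∈ S X, (if (nm d : ℝ) * nm f ≤ D0 then Λ else 0)
          ≤ ∑ f ∈ S X, (if (nm f : ℝ) ≤ D0 then Λ else 0) := by
            refine Finset.sum_le_sum fun f hf => ?_
            by_cases h2 : (nm d : ℝ) * nm f ≤ D0
            · rw [if_pos h2, if_pos]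
              have : (0 : ℝ) ≤ nm f := by positivity
              nlinarith
            · rw [if_neg h2]
              split_ifs
              · exact hΛ
              · exact le_rfl
        _ = (((S X).filter (fun f => (nm f : ℝ) ≤ D0)).card : ℝ) * Λ := by
            rw [← Finset.sum_filter, Finset.sum_const, nsmul_eq_mul]
        _ ≤ 16 * D0 * Λ := by gcongr
    · apply le_of_eq
      apply Finset.sum_eq_zero
      intro f hf
      have hf1 : (1 : ℝ) ≤ nm f := by exact_mod_cast nm_pos.mpr (S_prim hX hf).ne_zero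
      rw [if_neg]
      intro h2
      apply hdD
      nlinarith
  have h2 : ∀ d ∈ S X, ∑ e ∈ (S X).filter (· ∣ d), ∑ f ∈ S X,
      (if (nm d : ℝ) * nm f ≤ D0 then Λ else 0) ≤
      if (nm d : ℝ) ≤ D0 then 16 * D0 * (16 * D0 * Λ) else 0 := by
    intro d hd
    refine (Finset.sum_le_sum fun e _ => h1 d hd).trans ?_
    split_ifs with hdD
    · rw [Finset.sum_const, nsmul_eq_mul]
      have : (S X).filter (· ∣ d) ⊆ (S X).filter (fun f => (nm f : ℝ) ≤ D0) := by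
        intro e he
        rw [Finset.mem_filter] at he ⊢
        refine ⟨he.1, le_trans ?_ hdD⟩
        exact_mod_cast LS448.nm_le_of_dvd he.2 (S_prim hX hd).ne_zero
      have h3 : (((S X).filter (· ∣ d)).card : ℝ) ≤ 16 * D0 :=
        le_trans (by exact_mod_cast Finset.card_le_card this) hS
      gcongr
    · simp
  calc _ ≤ ∑ d ∈ S X, (if (nm d : ℝ) ≤ D0 then 16 * D0 * (16 * D0 * Λ) else 0) :=
        Finset.sum_le_sum h2
    _ = (((S X).filter (fun f => (nm f : ℝ) ≤ D0)).card : ℝ) * (16 * D0 * (16 * D0 * Λ)) := by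
        rw [← Finset.sum_filter, Finset.sum_const, nsmul_eq_mul]
    _ ≤ 16 * D0 * (16 * D0 * (16 * D0 * Λ)) := by gcongr
    _ = _ := by ring

/-- the small range of `H` -/
lemma small_H (Hs : SyFacts) {κ K₁ H0 Z : ℝ} (hκ0 : 0 < κ) (hK₁ : 0 < K₁) (hH : 1 ≤ H0)
    (hZ1 : H0 ^ (1.05 : ℝ) ≤ Z) (hZ2 : Z ≤ H0 ^ (1.85 : ℝ)) (h9 : H0 ^ κ < 9) {b : Eis → ℂ}
    (hb : ∑ n ∈ S Z, ‖b n‖ ^ 2 ≤ K₁ * Z) :
    ∑ h ∈ (S (2 * H0)).filter (fun h => H0 < nm h), ‖Eb b Z h‖ ^ 2 ≤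
      (9 * 512 * K₁ * (9 : ℝ) ^ (2.85 / κ)) * H0 ^ (-(κ / 10)) * (H0 * Z) ^ ((2 : ℝ) / 3) * Z := by
  have hH0 : 0 < H0 := by linarith
  have hZ : 1 ≤ Z := le_trans (Real.one_le_rpow hH (by norm_num)) hZ1
  have h1 := coreB_small Hs H0 Z K₁ hH hZ b hb
  refine h1.trans ?_
  have h2 : H0 * Z ≤ (9 : ℝ) ^ (2.85 / κ) := by
    calc H0 * Z ≤ H0 * H0 ^ (1.85 : ℝ) := by gcongr
      _ = (H0 ^ κ) ^ (2.85 / κ) := by
          rw [← Real.rpow_mul hH0.le, mul_div_cancel₀ _ hκ0.ne']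
          nth_rewrite 1 [← Real.rpow_one H0]
          rw [← Real.rpow_add hH0]
          norm_num
      _ ≤ (9 : ℝ) ^ (2.85 / κ) := by
          apply Real.rpow_le_rpow (by positivity) h9.le (by positivity)
  have h3 : 1 ≤ 9 * H0 ^ (-(κ / 10)) := by
    have e1 : H0 ^ (-(κ / 10)) = ((H0 ^ κ) ^ ((1 : ℝ) / 10))⁻¹ := by
      rw [Real.rpow_neg hH0.le, ← Real.rpow_mul hH0.le]
      congr 2; ring
    have h4 : (H0 ^ κ) ^ ((1 : ℝ) / 10) ≤ 9 := by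
      calc (H0 ^ κ) ^ ((1 : ℝ) / 10) ≤ (9 : ℝ) ^ ((1 : ℝ) / 10) := by
            apply Real.rpow_le_rpow (by positivity) h9.le (by norm_num)
        _ ≤ (9 : ℝ) ^ (1 : ℝ) := Real.rpow_le_rpow_of_exponent_le (by norm_num) (by norm_num)
        _ = 9 := Real.rpow_one 9
    have h5 : 0 < (H0 ^ κ) ^ ((1 : ℝ) / 10) := by positivity
    rw [e1, ← div_eq_mul_inv, one_le_div h5]
    exact h4
  have h5 : 1 ≤ (H0 * Z) ^ ((2 : ℝ) / 3) := Real.one_le_rpow (by nlinarith) (by norm_num)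
  have hZ0 : 0 < Z := by linarith
  calc 512 * K₁ * H0 * Z ^ 2 = 512 * K₁ * (H0 * Z) * Z * 1 * 1 := by ring
    _ ≤ 512 * K₁ * ((9 : ℝ) ^ (2.85 / κ)) * Z * (9 * H0 ^ (-(κ / 10))) *
        (H0 * Z) ^ ((2 : ℝ) / 3) := by gcongr
    _ = _ := by ring

set_option maxHeartbeats 4000000 in
/-- **the main range** -/
lemma main_H (Hs : SyFacts) (hG : GFacts) {V : ℝ → ℝ} (hV0 : ∀ x, 0 ≤ V x) (hV1 : ∀ x, V x ≤ 1)
    (hVs : ∀ x, 1 ≤ x → x ≤ 2 → V x = 1) (hVz : ∀ x, x < 1 / 2 → V x = 0)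
    (hV : ∀ x, 4 < x → V x = 0) {A0 δ₁ κ K₁ KT CL CD Cτ : ℝ} (hA0 : 0 ≤ A0) (hδ₁ : 0 < δ₁)
    (hκ0 : 0 < κ) (hA : 100 * (A0 + 1) * κ ≤ 1 / 100) (hAδ : 100 * (A0 + 1) * κ ≤ δ₁)
    (hK₁ : 0 < K₁) (hKT : 0 < KT) (hCL : 0 < CL) (hCD : 0 < CD) (hCτ : 1 ≤ Cτ)
    (hT : (open Classical in ∀ r : Eis, r ≠ 0 → ∀ X Z t : ℝ, 1 ≤ X → 1 ≤ Z → Z ≤ X ^ 2 → ∃ c : ℂ,
      ‖c‖ ≤ KT * (nm r * (1 + |t|)) ^ A0 * X ^ ((5 : ℝ) / 6) ∧
      ∑ n ∈ (S Z).filter (fun n => IsCoprime n r),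
        ‖NatS V (n * r) X t - c * Mn r n‖ ^ 2 ≤
        KT * (nm r * (1 + |t|)) ^ A0 * (Z * X) ^ (1 + κ / 1000)))
    (hD : ∀ X Z : ℝ, 1 ≤ X → 1 ≤ Z → ∀ w : Eis → ℂ, (∀ h, w h ≠ 0 → h ∈ S X) →
      ∑' n : Eis, Real.exp (-(nm n : ℝ) / Z) * ‖∑ h ∈ S X, w h * sy n h‖ ^ 2 ≤
      CD * Z * ∑ h ∈ S X, ‖w h‖ ^ 2 +
      CD * ∑ d ∈ S X, ∑ e ∈ (open Classical in (S X).filter (· ∣ d)), ∑ f ∈ S X,
        Trip w X Z (κ / 1000) d e f)
    (hL : LargeI CL κ)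
    (hτ : ∀ n : Eis, n ≠ 0 → ((pdiv n).card : ℝ) ≤ Cτ / 8 * (nm n : ℝ) ^ (κ / 1000))
    {H0 Z : ℝ} (hH : 1 < H0) (h9 : 9 ≤ H0 ^ κ)
    (hZ1 : H0 ^ (1.05 : ℝ) ≤ Z) (hZ2 : Z ≤ H0 ^ (1.85 : ℝ)) {b : Eis → ℂ}
    (hb : ∑ n ∈ S Z, ‖b n‖ ^ 2 ≤ K₁ * Z)
    (hcop : ∀ n ∈ S Z, b n ≠ 0 → ∀ r : Eis, r ≠ 0 → (nm r : ℝ) ≤ H0 ^ (38 * κ) → IsCoprime n r)
    (hBil : ∀ r : Eis, r ≠ 0 → (nm r : ℝ) ≤ H0 ^ (38 * κ) →
      ‖∑ n ∈ S Z, cj (b n) * Mn r n‖ ≤ K₁ * Z ^ ((5 : ℝ) / 6) * H0 ^ (-δ₁)) :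
    ∑ h ∈ (S (2 * H0)).filter (fun h => H0 < nm h), ‖Eb b Z h‖ ^ 2 ≤
      (K₁ * Real.exp 1 * CD * (2 + 20000000000 * (CL + 1) * Cτ ^ 5 + 50000000000000 * Cτ *
        (Cτ ^ 2 * (2 * (KT * K₁ * (2 : ℝ) ^ A0) ^ 2 + 2 * (KT * K₁ * (2 : ℝ) ^ A0)))) + 1) *
      H0 ^ (-(κ / 10)) * ((H0 * Z) ^ ((2 : ℝ) / 3) * Z) := by
  classical
  have hκ : κ ≤ 1 / 10000 := by nlinarith
  have hH0 : 0 < H0 := by linarith
  have hZ : 1 ≤ Z := le_trans (Real.one_le_rpow hH.le (by norm_num)) hZ1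
  have hZ0 : 0 < Z := by linarith
  have hσ0 : 0 ≤ κ / 1000 := by positivity
  have hσ1 : κ / 1000 ≤ 1 / 2 := by linarith
  have hCτ0 : 0 ≤ Cτ := by linarith
  obtain ⟨c1, c2, c3⟩ := cs_setup Hs hV0 hV1 hVs (b := b) (H0 := H0) (Z := Z) (s := κ / 1000)
    hH.le hZ hσ0 hσ1
  have hSV0 := SV_nonneg hV0 b hH0.le Z (κ / 1000)
  set w : Eis → ℂ := wS V b H0 Z (κ / 1000) with hw
  have hwS : ∀ h, w h ≠ 0 → h ∈ S (4 * H0) := by
    intro h hne
    by_contra hc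
    apply hne
    rw [hw]; unfold wS
    rw [if_neg hc]
  have hw2 : ∀ h, w h ≠ 0 → H0 / 2 ≤ nm h := by
    intro h hne
    by_contra hc
    apply hne
    rw [hw]; unfold wS
    have : (nm h : ℝ) / H0 < 1 / 2 := by
      rw [div_lt_iff₀ hH0]
      linarith [not_le.mp hc]
    rw [hVz _ this]
    simp
  -- the divisor bound
  set Q : ℝ := H0 ^ (κ / 100) with hQ
  have hQ1 : 1 ≤ Q := Real.one_le_rpow hH.le (by positivity)
  set τ : ℝ := Cτ * Q with hτd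
  have hτ0 : 0 ≤ τ := by positivity
  have hτb : ∀ m ∈ bl (8 * H0), ((pdiv m).card : ℝ) ≤ τ := by
    intro m hm
    rw [mem_bl (by positivity)] at hm
    refine (hτ m hm.1).trans ?_
    have h1 : (nm m : ℝ) ^ (κ / 1000) ≤ 8 * Q := by
      calc (nm m : ℝ) ^ (κ / 1000) ≤ (8 * H0) ^ (κ / 1000) := by
            apply Real.rpow_le_rpow (by positivity) hm.2 hσ0
        _ = 8 ^ (κ / 1000) * H0 ^ (κ / 1000) := Real.mul_rpow (by norm_num) hH0.le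
        _ ≤ 8 * Q := by
            have h8 : (8 : ℝ) ^ (κ / 1000) ≤ 8 := by
              calc (8 : ℝ) ^ (κ / 1000) ≤ (8 : ℝ) ^ (1 : ℝ) :=
                    Real.rpow_le_rpow_of_exponent_le (by norm_num) (by linarith)
                _ = 8 := Real.rpow_one 8
            refine mul_le_mul h8 (Real.rpow_le_rpow_of_exponent_le hH.le (by linarith))
              (by positivity) (by norm_num)
    calc Cτ / 8 * (nm m : ℝ) ^ (κ / 1000) ≤ Cτ / 8 * (8 * Q) := by gcongr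
      _ = τ := by rw [hτd]; ring
  have hτS : ∀ m ∈ S (4 * H0), ((pdiv m).card : ℝ) ≤ τ := by
    intro m hm
    apply hτb
    rw [mem_bl (by positivity)]
    exact ⟨(S_prim (by positivity) hm).ne_zero, (S_le (by positivity) hm).trans (by linarith)⟩
  -- parameters
  have hD1 : 1 ≤ H0 ^ (3 * κ) := Real.one_le_rpow hH.le (by positivity)
  have hG1 : 1 ≤ H0 ^ (2 * κ) := Real.one_le_rpow hH.le (by positivity)
  have hK1 : 1 ≤ H0 ^ κ := Real.one_le_rpow hH.le (by positivity)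
  have pw : ∀ (a : ℝ) (n : ℕ), (H0 ^ a) ^ n = H0 ^ (a * n) := by
    intro a n
    rw [← Real.rpow_natCast, ← Real.rpow_mul hH0.le]
  have hR0 : 9 * (H0 ^ (3 * κ)) ^ 10 * (H0 ^ (2 * κ)) ^ 3 * H0 ^ κ ≤ H0 ^ (38 * κ) := by
    calc 9 * (H0 ^ (3 * κ)) ^ 10 * (H0 ^ (2 * κ)) ^ 3 * H0 ^ κ
        ≤ H0 ^ κ * (H0 ^ (3 * κ)) ^ 10 * (H0 ^ (2 * κ)) ^ 3 * H0 ^ κ := by gcongr
      _ = H0 ^ (38 * κ) := by
          rw [pw, pw, ← Real.rpow_add hH0, ← Real.rpow_add hH0, ← Real.rpow_add hH0]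
          congr 1; push_cast; ring
  have hR1 : H0 ^ (38 * κ) ≤ H0 := by
    calc H0 ^ (38 * κ) ≤ H0 ^ (1 : ℝ) := Real.rpow_le_rpow_of_exponent_le hH.le (by linarith)
      _ = H0 := Real.rpow_one H0
  have hZR : Z ≤ (H0 / H0 ^ (38 * κ)) ^ 2 := by
    refine hZ2.trans ?_
    have e1 : H0 / H0 ^ (38 * κ) = H0 ^ (1 - 38 * κ) := by
      rw [Real.rpow_sub hH0, Real.rpow_one]
    rw [e1, pw]
    apply Real.rpow_le_rpow_of_exponent_le hH.le
    push_cast; linarith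
  set c0 : ℝ := KT * (H0 ^ (38 * κ) * (1 + H0 ^ (2 * κ))) ^ A0 * H0 ^ ((5 : ℝ) / 6) with hc0
  set Er : ℝ := KT * (H0 ^ (38 * κ) * (1 + H0 ^ (2 * κ))) ^ A0 * (Z * H0) ^ (1 + κ / 1000) with hEr
  set Bl : ℝ := K₁ * Z ^ ((5 : ℝ) / 6) * H0 ^ (-δ₁) with hBl
  have hEr0 : 0 ≤ Er := by positivity
  have hTI : ∀ ρ : Eis, ρ ≠ 0 → (nm ρ : ℝ) ≤ H0 ^ (38 * κ) → ∀ X1 : ℝ, 1 ≤ X1 → X1 ≤ H0 →
      Z ≤ X1 ^ 2 → ∀ t : ℝ, |t| ≤ H0 ^ (2 * κ) → ∃ c : ℂ, ‖c‖ ≤ c0 ∧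
        ∑ n ∈ (S Z).filter (fun n => IsCoprime n ρ), ‖NatS V (n * ρ) X1 t - c * Mn ρ n‖ ^ 2 ≤
        Er := by
    intro ρ hρ hρR X1 hX1 hX1H hZX t ht
    obtain ⟨c, hc, hs⟩ := hT ρ hρ X1 Z t hX1 hZ hZX
    have h1 : ((nm ρ : ℝ) * (1 + |t|)) ^ A0 ≤ (H0 ^ (38 * κ) * (1 + H0 ^ (2 * κ))) ^ A0 := by
      apply Real.rpow_le_rpow (by positivity) _ hA0
      gcongr
    refine ⟨c, hc.trans ?_, hs.trans ?_⟩
    · rw [hc0]
      have h2 : X1 ^ ((5 : ℝ) / 6) ≤ H0 ^ ((5 : ℝ) / 6) :=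
        Real.rpow_le_rpow (by linarith) hX1H (by norm_num)
      gcongr
    · rw [hEr]
      have h2 : (Z * X1) ^ (1 + κ / 1000) ≤ (Z * H0) ^ (1 + κ / 1000) := by
        apply Real.rpow_le_rpow (by positivity) _ (by positivity)
        gcongr
      gcongr
  set U : ℝ := τ ^ 2 * (H0 ^ (38 * κ) * H0 ^ (2 * (κ / 1000) - 1) *
    (2 * (c0 * Bl) ^ 2 + 2 * (K₁ * Z * Er))) with hU
  have hU0 : 0 ≤ U := by positivity
  set y0 : ℝ := (H0 * Z) ^ ((2 : ℝ) / 3) with hy0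
  have hy00 : 0 < y0 := by positivity
  set h3 : ℝ := H0 ^ (-κ / 3) with hh3
  have hh30 : 0 < h3 := by positivity
  set C1 : ℝ := 10000000000 * (CL + 1) * Cτ ^ 2 with hC1
  have hC10 : 0 ≤ C1 := by positivity
  -- the bound for each triple
  have htrip : ∀ d ∈ S (4 * H0), ∀ e ∈ (S (4 * H0)).filter (· ∣ d), ∀ f ∈ S (4 * H0),
      Trip w (4 * H0) Z (κ / 1000) d e f ≤
        C1 * Q ^ 6 * y0 * h3 * Wd w (4 * H0) d f +
        (if (nm d : ℝ) * nm f ≤ H0 ^ (3 * κ) then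
          10000000000 * Cτ * Q ^ 4 * y0 * H0 ^ (3 * κ) * U else 0) := by
    intro d hd e he f hf
    rw [Finset.mem_filter] at he
    have h4 : (0 : ℝ) ≤ 4 * H0 := by positivity
    have hdp := S_prim h4 hd
    have hep := S_prim h4 he.1
    have hfp := S_prim h4 hf
    have := triple_bound Hs hG hκ0 hκ hCL hCτ hL hH hZ1 hZ2 hwS hw2 hτ0 (le_refl τ) hτb hdp hep hfp
      he.2 (S_le h4 hd) (S_le h4 hf) hU0 (fun hdf t ht =>
        Bg_bound Hs hG hV hH.le hZ hσ0 hσ1 hD1 hG1 hK1 hR0 hR1 hZR hTI hcop hBil hb hEr0 hdp hep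
          he.2 hfp hdf (hτS d hd) ht)
    convert this using 2
  have hWsum := sum_def (w := w) (X := 4 * H0) (τ := τ) (by positivity) hτ0 hwS hτS
  have hsum : ∑ d ∈ S (4 * H0), ∑ e ∈ (S (4 * H0)).filter (· ∣ d), ∑ f ∈ S (4 * H0),
      Trip w (4 * H0) Z (κ / 1000) d e f ≤
      C1 * Q ^ 6 * y0 * h3 * (τ ^ 3 * (2 * SV V b H0 Z (κ / 1000))) +
      (16 * H0 ^ (3 * κ)) ^ 3 * (10000000000 * Cτ * Q ^ 4 * y0 * H0 ^ (3 * κ) * U) := by
    calc _ ≤ ∑ d ∈ S (4 * H0), ∑ e ∈ (S (4 * H0)).filter (· ∣ d), ∑ f ∈ S (4 * H0),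
          (C1 * Q ^ 6 * y0 * h3 * Wd w (4 * H0) d f +
          (if (nm d : ℝ) * nm f ≤ H0 ^ (3 * κ) then
            10000000000 * Cτ * Q ^ 4 * y0 * H0 ^ (3 * κ) * U else 0)) := by
          refine Finset.sum_le_sum fun d hd => Finset.sum_le_sum fun e he =>
            Finset.sum_le_sum fun f hf => htrip d hd e he f hf
      _ = C1 * Q ^ 6 * y0 * h3 * (∑ d ∈ S (4 * H0), ∑ e ∈ (S (4 * H0)).filter (· ∣ d),
            ∑ f ∈ S (4 * H0), Wd w (4 * H0) d f) +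
          ∑ d ∈ S (4 * H0), ∑ e ∈ (S (4 * H0)).filter (· ∣ d), ∑ f ∈ S (4 * H0),
          (if (nm d : ℝ) * nm f ≤ H0 ^ (3 * κ) then
            10000000000 * Cτ * Q ^ 4 * y0 * H0 ^ (3 * κ) * U else 0) := by
          simp only [Finset.sum_add_distrib, Finset.mul_sum]
      _ ≤ _ := by
          have h5 : ∑ d ∈ S (4 * H0), ∑ e ∈ (S (4 * H0)).filter (· ∣ d),
            ∑ f ∈ S (4 * H0), Wd w (4 * H0) d f ≤ τ ^ 3 * (2 * SV V b H0 Z (κ / 1000)) := by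
            refine le_trans hWsum ?_
            gcongr
          have h6 := sum_ind_le (X := 4 * H0) (D0 := H0 ^ (3 * κ))
            (Λ := 10000000000 * Cτ * Q ^ 4 * y0 * H0 ^ (3 * κ) * U) (by positivity) (by positivity)
            (by positivity)
          have h7 : 0 ≤ C1 * Q ^ 6 * y0 * h3 := by positivity
          have h8 := mul_le_mul_of_nonneg_left h5 h7
          have h9 : ∑ d ∈ S (4 * H0), ∑ e ∈ (S (4 * H0)).filter (· ∣ d), ∑ f ∈ S (4 * H0),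
            (if (nm d : ℝ) * nm f ≤ H0 ^ (3 * κ) then
              10000000000 * Cτ * Q ^ 4 * y0 * H0 ^ (3 * κ) * U else 0) ≤
              (16 * H0 ^ (3 * κ)) ^ 3 *
                (10000000000 * Cτ * Q ^ 4 * y0 * H0 ^ (3 * κ) * U) := by
            convert h6 using 2
          exact add_le_add h8 h9
  have hDI := hD (4 * H0) Z (by linarith) hZ w hwS
  have hDI' : ∑' n : Eis, Real.exp (-(nm n : ℝ) / Z) * ‖∑ h ∈ S (4 * H0), w h * sy n h‖ ^ 2 ≤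
      CD * Z * (2 * SV V b H0 Z (κ / 1000)) +
      CD * (C1 * Q ^ 6 * y0 * h3 * (τ ^ 3 * (2 * SV V b H0 Z (κ / 1000))) +
      (16 * H0 ^ (3 * κ)) ^ 3 * (10000000000 * Cτ * Q ^ 4 * y0 * H0 ^ (3 * κ) * U)) := by
    refine hDI.trans ?_
    gcongr
  -- the final arithmetic
  set sv : ℝ := SV V b H0 Z (κ / 1000) with hsv
  set h5 : ℝ := H0 ^ (-κ / 5) with hh5
  have hh50 : 0 < h5 := by positivity
  have hh5' : h5 = (H0 ^ (-(κ / 10))) ^ 2 := by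
    rw [pw, hh5]; congr 1; push_cast; ring
  have a1 : Z ≤ y0 * h5 := by
    refine (Z_le hH hZ0 hZ2).trans ?_
    have : H0 ^ (-(0.05 : ℝ)) ≤ h5 :=
      Real.rpow_le_rpow_of_exponent_le hH.le (by linarith)
    gcongr
  have a2 : Q ^ 9 * h3 ≤ h5 := by
    rw [hQ, pw, hh3, hh5, ← Real.rpow_add hH0]
    apply Real.rpow_le_rpow_of_exponent_le hH.le
    push_cast; linarith
  have a3 := U_arith (H := H0) (Z := Z) (κ := κ) (A0 := A0) (δ₁ := δ₁) (K₁ := K₁) (KT := KT)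
    (Cτ := Cτ) hH hZ0 hZ2 hκ0 hA0 hA hAδ hK₁ hKT hCτ
  rw [← hc0, ← hEr, ← hBl, ← hQ, ← hτd, ← hU, ← hy0, ← hh5] at a3
  set CU : ℝ := Cτ ^ 2 * (2 * (KT * K₁ * (2 : ℝ) ^ A0) ^ 2 + 2 * (KT * K₁ * (2 : ℝ) ^ A0)) with hCU
  have hCU0 : 0 ≤ CU := by positivity
  have b1 : C1 * Q ^ 6 * y0 * h3 * (τ ^ 3 * (2 * sv)) ≤
      20000000000 * (CL + 1) * Cτ ^ 5 * (y0 * h5 * sv) := by
    calc C1 * Q ^ 6 * y0 * h3 * (τ ^ 3 * (2 * sv)) =
          20000000000 * (CL + 1) * Cτ ^ 5 * (y0 * (Q ^ 9 * h3) * sv) := by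
          rw [hC1, hτd]; ring
      _ ≤ _ := by gcongr
  have b2 : (16 * H0 ^ (3 * κ)) ^ 3 * (10000000000 * Cτ * Q ^ 4 * y0 * H0 ^ (3 * κ) * U) ≤
      50000000000000 * Cτ * CU * (y0 * (y0 * Z * h5)) := by
    calc (16 * H0 ^ (3 * κ)) ^ 3 * (10000000000 * Cτ * Q ^ 4 * y0 * H0 ^ (3 * κ) * U) =
          40960000000000 * Cτ * y0 * ((H0 ^ (3 * κ)) ^ 3 * Q ^ 4 * H0 ^ (3 * κ) * U) := by ring
      _ ≤ 40960000000000 * Cτ * y0 * (CU * (y0 * Z * h5)) := by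
          gcongr
      _ ≤ 50000000000000 * Cτ * y0 * (CU * (y0 * Z * h5)) := by
          gcongr
          norm_num
      _ = _ := by ring
  set Y : ℝ := y0 * Z with hY
  have hY0 : 0 < Y := by positivity
  set CC : ℝ := K₁ * Real.exp 1 * CD * (2 + 20000000000 * (CL + 1) * Cτ ^ 5 +
    50000000000000 * Cτ * CU) with hCC
  have hCC0 : 0 ≤ CC := by positivity
  have hfin : sv ^ 2 ≤ CC * (H0 ^ (-(κ / 10))) ^ 2 * (Y * sv + Y ^ 2) := by
    rw [← hh5']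
    calc sv ^ 2 ≤ (∑ n ∈ S Z, ‖b n‖ ^ 2) * (Real.exp 1 * ∑' n : Eis,
          Real.exp (-(nm n : ℝ) / Z) * ‖∑ h ∈ S (4 * H0), w h * sy n h‖ ^ 2) := c3
      _ ≤ (K₁ * Z) * (Real.exp 1 * (CD * (y0 * h5) * (2 * sv) +
          CD * (20000000000 * (CL + 1) * Cτ ^ 5 * (y0 * h5 * sv) +
            50000000000000 * Cτ * CU * (y0 * (y0 * Z * h5))))) := by
          have hx : 0 ≤ ∑' n : Eis,
            Real.exp (-(nm n : ℝ) / Z) * ‖∑ h ∈ S (4 * H0), w h * sy n h‖ ^ 2 :=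
            tsum_nonneg fun _ => by positivity
          have hle : ∑' n : Eis,
            Real.exp (-(nm n : ℝ) / Z) * ‖∑ h ∈ S (4 * H0), w h * sy n h‖ ^ 2 ≤
            CD * (y0 * h5) * (2 * sv) +
            CD * (20000000000 * (CL + 1) * Cτ ^ 5 * (y0 * h5 * sv) +
            50000000000000 * Cτ * CU * (y0 * (y0 * Z * h5))) := by
            refine hDI'.trans ?_
            gcongr
          gcongr
      _ = K₁ * Real.exp 1 * CD * h5 * ((2 + 20000000000 * (CL + 1) * Cτ ^ 5) * (Y * sv) +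
            50000000000000 * Cτ * CU * Y ^ 2) := by rw [hY]; ring
      _ ≤ K₁ * Real.exp 1 * CD * h5 * ((2 + 20000000000 * (CL + 1) * Cτ ^ 5 +
            50000000000000 * Cτ * CU) * (Y * sv) + (2 + 20000000000 * (CL + 1) * Cτ ^ 5 +
            50000000000000 * Cτ * CU) * Y ^ 2) := by
          have hYs : 0 ≤ Y * sv := by positivity
          have hq1 : 0 ≤ 50000000000000 * Cτ * CU := by positivity
          have hq2 : 0 ≤ 2 + 20000000000 * (CL + 1) * Cτ ^ 5 := by positivity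
          have hq3 : (2 + 20000000000 * (CL + 1) * Cτ ^ 5) * (Y * sv) ≤
            (2 + 20000000000 * (CL + 1) * Cτ ^ 5 + 50000000000000 * Cτ * CU) * (Y * sv) := by
            apply mul_le_mul_of_nonneg_right _ hYs
            linarith
          have hq4 : 50000000000000 * Cτ * CU * Y ^ 2 ≤
            (2 + 20000000000 * (CL + 1) * Cτ ^ 5 + 50000000000000 * Cτ * CU) * Y ^ 2 := by
            apply mul_le_mul_of_nonneg_right _ (by positivity)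
            linarith
          gcongr
      _ = _ := by rw [hCC]; ring
  have hres := quad_ineq hSV0 hY0 hCC0 (by positivity : 0 < H0 ^ (-(κ / 10)))
    (Real.rpow_le_one_of_one_le_of_nonpos hH.le (by linarith)) hfin
  exact c1.trans hres

end Crest.Agent.R012.CR2
end
end

-- ▼ part R012/CR2j_180
section

/-!
# Row 12 (CR2), part j: `CoreB` from the dual inequality, the large part and the Type I estimate
-/

set_option autoImplicit false
set_option linter.unusedVariables false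
set_option linter.unusedSimpArgs false
set_option linter.unusedSectionVars false

noncomputable section

namespace Crest.Agent.R012.CR2

open Eis LS2 Mob705 Finset CharSum852 Tau671 MeasureTheory

local notation "cj" => starRingEnd ℂ

/-- **the saved moment for abstract coefficients** -/
theorem coreB_of (Hs : SyFacts) (hG : GFacts) (hD : DualIneq) (hL : LargePart) {V : ℝ → ℝ}
    (hV0 : ∀ x, 0 ≤ V x) (hV1 : ∀ x, V x ≤ 1) (hVs : ∀ x, 1 ≤ x → x ≤ 2 → V x = 1)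
    (hVz : ∀ x, x < 1 / 2 → V x = 0) (hV : ∀ x, 4 < x → V x = 0) (hT : TypeI V) : CoreB := by
  intro δ₁ κ₀ K₁ hδ₁ hκ₀ hK₁
  obtain ⟨A0, hA0, hT⟩ := hT
  set m : ℝ := min (min (1 / 100) δ₁) κ₀ with hm
  have hm0 : 0 < m := by
    rw [hm]; positivity
  have hm1 : m ≤ 1 / 100 := (min_le_left _ _).trans (min_le_left _ _)
  have hm2 : m ≤ δ₁ := (min_le_left _ _).trans (min_le_right _ _)
  have hm3 : m ≤ κ₀ := min_le_right _ _
  clear_value m
  set κ : ℝ := m / (100 * (A0 + 1)) with hκd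
  have hκ0 : 0 < κ := by positivity
  have hκm : 100 * (A0 + 1) * κ = m := by
    rw [hκd]; field_simp
  clear_value κ
  have hA : 100 * (A0 + 1) * κ ≤ 1 / 100 := by rw [hκm]; exact hm1
  have hAδ : 100 * (A0 + 1) * κ ≤ δ₁ := by rw [hκm]; exact hm2
  have hAκ : 0 ≤ A0 * κ := by positivity
  have hκ38 : 38 * κ ≤ κ₀ := by
    refine le_trans ?_ hm3
    rw [← hκm]
    nlinarith
  have hκ : κ ≤ 1 / 10000 := by nlinarith
  obtain ⟨KT, hKT, hT⟩ := hT (κ / 1000) (by positivity)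
  obtain ⟨CD, hCD, hD⟩ := hD (κ / 1000) (κ / 1000) (by positivity) (by linarith) (by positivity)
  obtain ⟨CL, hCL, hL⟩ := largeI_of hL hκ0
  obtain ⟨Ct, hCt, hτ⟩ := Div277.tau_le_rpow (ε := κ / 1000) (by positivity)
  set C0 : ℝ := K₁ * Real.exp 1 * CD * (2 + 20000000000 * (CL + 1) * (8 * Ct) ^ 5 +
    50000000000000 * (8 * Ct) * ((8 * Ct) ^ 2 * (2 * (KT * K₁ * (2 : ℝ) ^ A0) ^ 2 +
      2 * (KT * K₁ * (2 : ℝ) ^ A0)))) + 1 with hC0
  have hC00 : 0 < C0 := by positivity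
  set C9 : ℝ := 9 * 512 * K₁ * (9 : ℝ) ^ (2.85 / κ) with hC9
  have hC90 : 0 < C9 := by positivity
  refine ⟨κ / 10, 38 * κ, C0 + C9, by positivity, by positivity, hκ38, by positivity, ?_⟩
  intro H0 Z hH hZ1 hZ2 b hb hcop hBil
  have hH0 : 0 < H0 := by linarith
  have hZ0 : 0 < Z := lt_of_lt_of_le (by positivity) hZ1
  have hpos : 0 ≤ H0 ^ (-(κ / 10)) * (H0 * Z) ^ ((2 : ℝ) / 3) * Z := by positivity
  by_cases h9 : H0 ^ κ < 9
  · have h1 := small_H Hs hκ0 hK₁ hH hZ1 hZ2 h9 hb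
    rw [← hC9] at h1
    refine h1.trans ?_
    have : 0 ≤ C0 * (H0 ^ (-(κ / 10)) * (H0 * Z) ^ ((2 : ℝ) / 3) * Z) := by positivity
    linarith
  · have h9' := not_lt.mp h9
    have hH1 : 1 < H0 := by
      rcases hH.lt_or_eq with h | h
      · exact h
      · exfalso
        rw [← h, Real.one_rpow] at h9'
        norm_num at h9'
    have h1 := main_H Hs hG hV0 hV1 hVs hVz hV (A0 := A0) (δ₁ := δ₁) (κ := κ) (K₁ := K₁) (KT := KT)
      (CL := CL) (CD := CD) (Cτ := 8 * Ct) hA0 hδ₁ hκ0 hA hAδ hK₁ hKT hCL hCD (by linarith)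
      (by
        intro r hr X Z t hX hZ hZX
        obtain ⟨c, hc, hs⟩ := hT r hr X Z t hX hZ hZX
        exact ⟨c, hc, hs⟩)
      (by
        intro X Z hX hZ w hw
        exact hD X Z hX hZ w hw)
      hL
      (by
        intro n hn
        have := hτ n hn
        rw [show 8 * Ct / 8 = Ct by ring]
        exact this)
      hH1 h9' hZ1 hZ2 hb hcop (fun r hr hrR => hBil r hr hrR)
    rw [← hC0] at h1
    refine h1.trans ?_
    have : 0 ≤ C9 * (H0 ^ (-(κ / 10)) * (H0 * Z) ^ ((2 : ℝ) / 3) * Z) := by positivity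
    linarith

end Crest.Agent.R012.CR2
end
end

-- ▼ part R012/CR2k_180
section

/-!
# Row 12 (CR2), part k: `CoreB` and `CR290.SavedMom` from `TypeI V` alone
-/

set_option autoImplicit false
set_option linter.unusedVariables false

noncomputable section

namespace Crest.Agent.R012.CR2

open Eis LS2

/-- a smooth bump: `1` on `[1, 2]`, supported in `[1/2, 5/2]` -/
def Vb : ContDiffBump (3 / 2 : ℝ) := ⟨1 / 2, 1, by norm_num, by norm_num⟩

/-- the weight function used in (CR2) -/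
def V0 : ℝ → ℝ := fun x => Vb x

lemma V0_contDiff : ContDiff ℝ (⊤ : ℕ∞) V0 := Vb.contDiff

lemma V0_nonneg (x : ℝ) : 0 ≤ V0 x := Vb.nonneg

lemma V0_le_one (x : ℝ) : V0 x ≤ 1 := Vb.le_one

lemma V0_one (x : ℝ) (h1 : 1 ≤ x) (h2 : x ≤ 2) : V0 x = 1 := by
  apply Vb.one_of_mem_closedBall
  rw [Metric.mem_closedBall, Real.dist_eq, abs_le]
  have : Vb.rIn = 1 / 2 := rfl
  rw [this]
  constructor <;> linarith

lemma V0_zero (x : ℝ) (h : x ≤ 1 / 2 ∨ 5 / 2 ≤ x) : V0 x = 0 := by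
  apply Vb.zero_of_le_dist
  have : Vb.rOut = 1 := rfl
  rw [this, Real.dist_eq, le_abs]
  rcases h with h | h
  · right; linarith
  · left; linarith

lemma V0_small (x : ℝ) (h : x < 1 / 2) : V0 x = 0 := V0_zero x (Or.inl h.le)

lemma V0_large (x : ℝ) (h : 4 < x) : V0 x = 0 := V0_zero x (Or.inr (by linarith))

/-- **`CoreB`** from the Type I estimate alone -/
theorem coreB (hT : TypeI V0) : CoreB :=
  coreB_of Sym645.syFacts GF569.gFacts LS448.dualIneq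
    (CR2L569.largePart_of_final LS448.hb_final) V0_nonneg V0_le_one V0_one V0_small V0_large hT

end Crest.Agent.R012.CR2

namespace Crest.Agent.R012.CR2K180


end Crest.Agent.R012.CR2K180
end
end

-- ▼ part R012/CR2l_180

/-!
# Row 12 (CR2), part l: `CoreB` and `SavedMom`, unconditional
-/

set_option autoImplicit false
set_option linter.unusedVariables false

noncomputable section

namespace Crest.Agent.R012.CR2K180

open CR2

lemma wt_V0 : M49.Wt (fun x => ((V0 x : ℝ) : ℂ)) where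
  smooth := by
    have h : ContDiff ℝ ((⊤ : ℕ∞) : WithTop ℕ∞) V0 := V0_contDiff
    exact Complex.ofRealCLM.contDiff.comp h
  supp := by
    refine ⟨1 / 2, 5 / 2, by norm_num, by norm_num, fun x hx => ?_⟩
    have : V0 x = 0 := by
      apply V0_zero
      rcases hx with h | h
      · exact Or.inl h.le
      · exact Or.inr h.le
    simp [this]

/-- the Type I estimate, unconditional -/
theorem typeI : CR2.TypeI V0 := by
  obtain ⟨ρ, h1, h2, _⟩ := MFinal49.m_final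
  exact TI569.typeI_nat h1 h2 wt_V0

/-- **`CoreB`**, unconditional -/
theorem coreB_final : CR2.CoreB := CR2.coreB typeI


end Crest.Agent.R012.CR2K180
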