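import Mathlib

/-!
# Separation of a coupling `φ(p) < ψ(d)` with integer valued functions (finite Fourier analysis)

`1_{m<n} = ∑_{r<M} W_r a_r(m) b_r(n)` for `m < M`, `n ≤ M`, with `|a_r|, |b_r| ≤ 1`, `W_r ≥ 0` and
`∑ W_r ≤ 2 + log M`.
-/

set_option autoImplicit false

noncomputable section

open Complex Finset

namespace Crest.Agent.R012.Sep290

/-- primitive `M`-th root of unity -/
def zt (M : ℕ) : ℂ := Complex.exp (2 * Real.pi * I / M)

lemma zt_prim {M : ℕ} (hM : M ≠ 0) : IsPrimitiveRoot (zt M) M := Complex.isPrimitiveRoot_exp M hM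

lemma zt_pow_eq (M r : ℕ) : zt M ^ r = Complex.exp (I * ((2 * Real.pi * r / M : ℝ) : ℂ)) := by
  rw [zt, ← Complex.exp_nat_mul]
  congr 1
  push_cast
  ring

lemma norm_zt_pow (M r : ℕ) : ‖zt M ^ r‖ = 1 := by
  rw [zt_pow_eq, mul_comm, Complex.norm_exp_ofReal_mul_I]

lemma zt_ne_zero (M : ℕ) : zt M ≠ 0 := Complex.exp_ne_zero _

/-- orthogonality -/
lemma orth {M : ℕ} {k m : ℕ} (hk : k < M) (hm : m < M) :
    ∑ r ∈ range M, (zt M ^ r) ^ k * ((zt M ^ r) ^ m)⁻¹ = if k = m then (M : ℂ) else 0 := by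
  have hM : M ≠ 0 := by omega
  have hz := zt_prim hM
  have hz0 := zt_ne_zero M
  split_ifs with h
  · subst h
    rw [Finset.sum_congr rfl (g := fun _ => (1 : ℂ))]
    · simp
    · intro r _
      exact mul_inv_cancel₀ (pow_ne_zero _ (pow_ne_zero _ hz0))
  · set q : ℂ := zt M ^ k * (zt M ^ m)⁻¹ with hq
    have hterm : ∀ r, (zt M ^ r) ^ k * ((zt M ^ r) ^ m)⁻¹ = q ^ r := by
      intro r
      rw [hq, mul_pow, inv_pow, ← pow_mul, ← pow_mul, ← pow_mul, ← pow_mul, mul_comm r k,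
        mul_comm r m]
    simp_rw [hterm]
    have hq1 : q ≠ 1 := by
      intro h1
      have : zt M ^ k = zt M ^ m := by
        rw [hq] at h1
        exact (mul_inv_eq_one₀ (pow_ne_zero _ hz0)).mp h1
      exact h (hz.pow_inj hk hm this)
    have hqM : q ^ M = 1 := by
      rw [hq, mul_pow, inv_pow, ← pow_mul, ← pow_mul, mul_comm k M, mul_comm m M, pow_mul, pow_mul,
        hz.pow_eq_one]
      simp
    have := geom_sum_mul q M
    rw [hqM, sub_self] at this
    exact (mul_eq_zero.mp this).resolve_right (sub_ne_zero.mpr hq1)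

/-- weights -/
def W (M r : ℕ) : ℝ := if r = 0 then 1 else 1 / (2 * r) + 1 / (2 * ((M : ℝ) - r))

lemma W_nonneg {M r : ℕ} (hr : r < M) : 0 ≤ W M r := by
  unfold W
  split_ifs with h
  · norm_num
  · have : (r : ℝ) < M := by exact_mod_cast hr
    have h2 : 0 < (M : ℝ) - r := by linarith
    positivity

lemma W_pos {M r : ℕ} (hr : r < M) : 0 < W M r := by
  unfold W
  split_ifs with h
  · norm_num
  · have : (r : ℝ) < M := by exact_mod_cast hr
    have h2 : 0 < (M : ℝ) - r := by linarith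
    have h3 : 0 < (r : ℝ) := by exact_mod_cast Nat.pos_of_ne_zero h
    positivity

lemma sum_W_le {M : ℕ} (hM : 1 ≤ M) : ∑ r ∈ range M, W M r ≤ 2 + Real.log M := by
  obtain ⟨N, rfl⟩ : ∃ N, M = N + 1 := ⟨M - 1, by omega⟩
  rw [Finset.sum_range_succ']
  have h0 : W (N + 1) 0 = 1 := by simp [W]
  rw [h0]
  have h1 : ∑ k ∈ range N, W (N + 1) (k + 1) = ((harmonic N : ℚ) : ℝ) := by
    have e1 : ∀ k ∈ range N, W (N + 1) (k + 1)
        = (1 / 2) * (1 / ((k : ℝ) + 1)) + (1 / 2) * (1 / ((N : ℝ) - k)) := by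
      intro k hk
      have hk' : k < N := Finset.mem_range.mp hk
      have : (k : ℝ) < N := by exact_mod_cast hk'
      have h2 : (N : ℝ) - k ≠ 0 := by linarith
      have h3 : (k : ℝ) + 1 ≠ 0 := by positivity
      simp only [W, Nat.succ_ne_zero, if_false, Nat.add_eq_zero_iff, one_ne_zero, and_false]
      push_cast
      have h4 : (N : ℝ) + 1 - (k + 1) = N - k := by ring
      rw [h4]
      field_simp
    rw [Finset.sum_congr rfl e1, Finset.sum_add_distrib, ← Finset.mul_sum, ← Finset.mul_sum]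
    have e2 : ∑ k ∈ range N, 1 / ((N : ℝ) - k) = ∑ k ∈ range N, 1 / ((k : ℝ) + 1) := by
      rw [← Finset.sum_range_reflect]
      apply Finset.sum_congr rfl
      intro k hk
      have hk' : k < N := Finset.mem_range.mp hk
      congr 1
      have : ((N - 1 - k : ℕ) : ℝ) = (N : ℝ) - 1 - k := by
        rw [Nat.cast_sub (by omega), Nat.cast_sub (by omega)]; simp
      rw [this]; ring
    rw [e2, harmonic]
    push_cast
    rw [← add_mul]
    norm_num
  rw [h1]
  have h2 := harmonic_le_one_add_log N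
  have h3 : Real.log N ≤ Real.log ((N + 1 : ℕ) : ℝ) := by
    rcases Nat.eq_zero_or_pos N with h | h
    · subst h; simp
    · apply Real.log_le_log (by exact_mod_cast h)
      push_cast; linarith
  linarith

/-- partial geometric sums -/
def E (M r n : ℕ) : ℂ := ∑ k ∈ range n, (zt M ^ r) ^ k

lemma norm_zt_sub_one_ge {M r : ℕ} (hr0 : r ≠ 0) (hr : r < M) :
    4 * min (r : ℝ) (M - r) / M ≤ ‖zt M ^ r - 1‖ := by
  have hM : (0 : ℝ) < M := by exact_mod_cast (by omega : 0 < M)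
  have hrM : (r : ℝ) < M := by exact_mod_cast hr
  have hr1 : (0 : ℝ) < r := by exact_mod_cast Nat.pos_of_ne_zero hr0
  rw [zt_pow_eq, Complex.norm_exp_I_mul_ofReal_sub_one]
  have hx : 2 * Real.pi * r / M / 2 = Real.pi * r / M := by ring
  rw [hx, norm_mul]
  have hpi := Real.pi_pos
  have key : 2 * min (r : ℝ) (M - r) / M ≤ Real.sin (Real.pi * r / M) := by
    rcases le_total (r : ℝ) (M - r) with h | h
    · rw [min_eq_left h]
      have h1 : Real.pi * r / M ≤ Real.pi / 2 := by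
        rw [div_le_div_iff₀ hM (by norm_num)]
        nlinarith
      have h2 : 0 ≤ Real.pi * r / M := by positivity
      have h3 := Real.mul_le_sin h2 h1
      calc 2 * (r : ℝ) / M = 2 / Real.pi * (Real.pi * r / M) := by field_simp
        _ ≤ _ := h3
    · rw [min_eq_right h]
      have h1 : Real.pi * (M - r) / M ≤ Real.pi / 2 := by
        rw [div_le_div_iff₀ hM (by norm_num)]
        nlinarith
      have h2 : 0 ≤ Real.pi * (M - r) / M := by
        apply div_nonneg _ hM.le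
        apply mul_nonneg hpi.le
        linarith
      have h3 := Real.mul_le_sin h2 h1
      have h4 : Real.sin (Real.pi * (M - r) / M) = Real.sin (Real.pi * r / M) := by
        rw [← Real.sin_pi_sub]
        congr 1
        field_simp
        ring
      rw [h4] at h3
      calc 2 * ((M : ℝ) - r) / M = 2 / Real.pi * (Real.pi * (M - r) / M) := by field_simp
        _ ≤ _ := h3
  have h5 : ‖Real.sin (Real.pi * r / M)‖ ≥ Real.sin (Real.pi * r / M) := le_abs_self _
  have h6 : ‖(2 : ℝ)‖ = 2 := by norm_num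
  rw [h6]
  calc 4 * min (r : ℝ) (M - r) / M = 2 * (2 * min (r : ℝ) (M - r) / M) := by ring
    _ ≤ _ := by nlinarith

lemma norm_E_le {M r n : ℕ} (hM : 1 ≤ M) (hr : r < M) (hn : n ≤ M) :
    ‖E M r n‖ ≤ M * W M r := by
  have hM' : (0 : ℝ) < M := by exact_mod_cast hM
  by_cases hr0 : r = 0
  · subst hr0
    have : E M 0 n = n := by simp [E]
    rw [this]
    simp only [W, if_true, mul_one]
    simpa using (by exact_mod_cast hn : (n : ℝ) ≤ M)
  · have hrM : (r : ℝ) < M := by exact_mod_cast hr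
    have hr1 : (0 : ℝ) < r := by exact_mod_cast Nat.pos_of_ne_zero hr0
    have hge := norm_zt_sub_one_ge hr0 hr
    have hmin : 0 < min (r : ℝ) (M - r) := lt_min hr1 (by linarith)
    have hpos : 0 < ‖zt M ^ r - 1‖ := lt_of_lt_of_le (by positivity) hge
    have hg := geom_sum_mul (zt M ^ r) n
    have h1 : ‖E M r n‖ * ‖zt M ^ r - 1‖ ≤ 2 := by
      rw [← norm_mul]
      unfold E
      rw [hg]
      calc ‖(zt M ^ r) ^ n - 1‖ ≤ ‖(zt M ^ r) ^ n‖ + ‖(1 : ℂ)‖ := norm_sub_le _ _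
        _ = 2 := by rw [norm_pow, norm_zt_pow]; norm_num
    have h2 : ‖E M r n‖ * (4 * min (r : ℝ) (M - r) / M) ≤ 2 :=
      le_trans (mul_le_mul_of_nonneg_left hge (norm_nonneg _)) h1
    have h3 : ‖E M r n‖ ≤ M / (2 * min (r : ℝ) (M - r)) := by
      rw [le_div_iff₀ (by positivity)]
      have h4 : ‖E M r n‖ * (4 * min (r : ℝ) (M - r) / M) * M ≤ 2 * M :=
        mul_le_mul_of_nonneg_right h2 hM'.le
      have h5 : ‖E M r n‖ * (4 * min (r : ℝ) (M - r) / M) * M
          = ‖E M r n‖ * (4 * min (r : ℝ) (M - r)) := by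
        field_simp
      rw [h5] at h4
      linarith
    refine h3.trans ?_
    simp only [W, hr0, if_false]
    have hb : 1 / (2 * min (r : ℝ) (M - r)) ≤ 1 / (2 * (r : ℝ)) + 1 / (2 * ((M : ℝ) - r)) := by
      have ha1 : 0 < 1 / (2 * (r : ℝ)) := by positivity
      have ha2 : 0 < 1 / (2 * ((M : ℝ) - r)) := by
        have : 0 < (M : ℝ) - r := by linarith
        positivity
      rcases le_total (r : ℝ) (M - r) with h | h
      · rw [min_eq_left h]; linarith
      · rw [min_eq_right h]; linarith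
    calc (M : ℝ) / (2 * min (r : ℝ) (M - r)) = M * (1 / (2 * min (r : ℝ) (M - r))) := by ring
      _ ≤ _ := mul_le_mul_of_nonneg_left hb hM'.le

/-- the `p`-side coefficient -/
def aC (M r m : ℕ) : ℂ := ((zt M ^ r) ^ m)⁻¹

/-- the `d`-side coefficient -/
def bC (M r n : ℕ) : ℂ := E M r n / ((M * W M r : ℝ) : ℂ)

lemma norm_aC (M r m : ℕ) : ‖aC M r m‖ = 1 := by
  rw [aC, norm_inv, norm_pow, norm_zt_pow]; simp

lemma norm_bC_le {M r n : ℕ} (hM : 1 ≤ M) (hr : r < M) (hn : n ≤ M) : ‖bC M r n‖ ≤ 1 := by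
  have hpos : 0 < (M : ℝ) * W M r := mul_pos (by exact_mod_cast hM) (W_pos hr)
  rw [bC, norm_div, Complex.norm_real, Real.norm_of_nonneg hpos.le, div_le_one hpos]
  exact norm_E_le hM hr hn

/-- **Separation identity.** -/
theorem sep_identity {M m n : ℕ} (hm : m < M) (hn : n ≤ M) :
    (if m < n then (1 : ℂ) else 0) = ∑ r ∈ range M, (W M r : ℂ) * (aC M r m * bC M r n) := by
  have hM : 1 ≤ M := by omega
  have hM0 : (M : ℂ) ≠ 0 := by exact_mod_cast (by omega : M ≠ 0)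
  have h1 : ∀ r ∈ range M, (W M r : ℂ) * (aC M r m * bC M r n)
      = (1 / (M : ℂ)) * (((zt M ^ r) ^ m)⁻¹ * E M r n) := by
    intro r hr
    have hW : (W M r : ℂ) ≠ 0 := by
      exact_mod_cast (W_pos (Finset.mem_range.mp hr)).ne'
    rw [aC, bC]
    push_cast
    field_simp
  rw [Finset.sum_congr rfl h1, ← Finset.mul_sum]
  have h2 : ∑ r ∈ range M, ((zt M ^ r) ^ m)⁻¹ * E M r n
      = ∑ k ∈ range n, ∑ r ∈ range M, (zt M ^ r) ^ k * ((zt M ^ r) ^ m)⁻¹ := by
    rw [Finset.sum_comm]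
    apply Finset.sum_congr rfl
    intro r _
    rw [E, Finset.mul_sum]
    apply Finset.sum_congr rfl
    intro k _
    ring
  rw [h2]
  have h3 : ∀ k ∈ range n, ∑ r ∈ range M, (zt M ^ r) ^ k * ((zt M ^ r) ^ m)⁻¹
      = if k = m then (M : ℂ) else 0 := by
    intro k hk
    exact orth (by have := Finset.mem_range.mp hk; omega) hm
  rw [Finset.sum_congr rfl h3, Finset.sum_ite_eq']
  simp only [Finset.mem_range]
  split_ifs with h
  · field_simp
  · simp

/-! ### Application to bilinear forms -/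

/-- weighted Cauchy-Schwarz for a complex combination -/
lemma norm_sq_sum_le {ι : Type*} (R : Finset ι) (w : ι → ℝ) (hw : ∀ r ∈ R, 0 ≤ w r) (f : ι → ℂ) :
    ‖∑ r ∈ R, (w r : ℂ) * f r‖ ^ 2 ≤ (∑ r ∈ R, w r) * ∑ r ∈ R, w r * ‖f r‖ ^ 2 := by
  have h1 : ‖∑ r ∈ R, (w r : ℂ) * f r‖ ≤ ∑ r ∈ R, Real.sqrt (w r) * (Real.sqrt (w r) * ‖f r‖) := by
    refine (norm_sum_le _ _).trans (Finset.sum_le_sum ?_)
    intro r hr
    rw [norm_mul, Complex.norm_real, Real.norm_of_nonneg (hw r hr), ← mul_assoc,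
      Real.mul_self_sqrt (hw r hr)]
  have h2 : (∑ r ∈ R, Real.sqrt (w r) * (Real.sqrt (w r) * ‖f r‖)) ^ 2
      ≤ (∑ r ∈ R, Real.sqrt (w r) ^ 2) * ∑ r ∈ R, (Real.sqrt (w r) * ‖f r‖) ^ 2 :=
    Finset.sum_mul_sq_le_sq_mul_sq _ _ _
  have h3 : ∑ r ∈ R, Real.sqrt (w r) ^ 2 = ∑ r ∈ R, w r :=
    Finset.sum_congr rfl (fun r hr => Real.sq_sqrt (hw r hr))
  have h4 : ∑ r ∈ R, (Real.sqrt (w r) * ‖f r‖) ^ 2 = ∑ r ∈ R, w r * ‖f r‖ ^ 2 :=
    Finset.sum_congr rfl (fun r hr => by rw [mul_pow, Real.sq_sqrt (hw r hr)])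
  rw [h3, h4] at h2
  have h0 : 0 ≤ ‖∑ r ∈ R, (w r : ℂ) * f r‖ := norm_nonneg _
  exact (pow_le_pow_left₀ h0 h1 2).trans h2


/-- **Separation of one bilinear form** (no mean square): if `|∑ γ'(p) ξ'(d) K(p,d)| ≤ X` for all
twists `γ' = γ a(φ)`, `ξ' = ξ b(ψ)` with `|a|, |b| ≤ 1`, the coupled form is `≤ (2 + log M) X`. -/
theorem sep_bilin {α β : Type*} (P : Finset α) (T : Finset β) (Kf : α → β → ℂ)
    (φ : α → ℕ) (ψ : β → ℕ) (M : ℕ) (hM : 1 ≤ M) (hφ : ∀ p ∈ P, φ p < M) (hψ : ∀ d ∈ T, ψ d ≤ M)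
    (X : ℝ)
    (hX : ∀ (a b : ℕ → ℂ), (∀ m, ‖a m‖ ≤ 1) → (∀ n, n ≤ M → ‖b n‖ ≤ 1) →
      ‖∑ p ∈ P, ∑ d ∈ T, a (φ p) * b (ψ d) * Kf p d‖ ≤ X) :
    ‖∑ p ∈ P, ∑ d ∈ T, (if φ p < ψ d then (1 : ℂ) else 0) * Kf p d‖ ≤ (2 + Real.log M) * X := by
  classical
  have hX0 : 0 ≤ X := (norm_nonneg _).trans (hX (fun _ => 0) (fun _ => 0) (by simp) (by simp))
  have key : ∑ p ∈ P, ∑ d ∈ T, (if φ p < ψ d then (1 : ℂ) else 0) * Kf p d
      = ∑ r ∈ range M, (W M r : ℂ) * ∑ p ∈ P, ∑ d ∈ T, aC M r (φ p) * bC M r (ψ d) * Kf p d := by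
    have h1 : ∀ p ∈ P, ∀ d ∈ T, (if φ p < ψ d then (1 : ℂ) else 0) * Kf p d
        = ∑ r ∈ range M, (W M r : ℂ) * (aC M r (φ p) * bC M r (ψ d) * Kf p d) := by
      intro p hp d hd
      rw [sep_identity (hφ p hp) (hψ d hd), Finset.sum_mul]
      exact Finset.sum_congr rfl (fun r _ => by ring)
    rw [Finset.sum_congr rfl (fun p hp => Finset.sum_congr rfl (fun d hd => h1 p hp d hd)),
      Finset.sum_congr rfl (fun p _ => Finset.sum_comm), Finset.sum_comm]
    apply Finset.sum_congr rfl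
    intro r _
    rw [Finset.mul_sum]
    apply Finset.sum_congr rfl
    intro p _
    rw [Finset.mul_sum]
  rw [key]
  calc ‖∑ r ∈ range M, (W M r : ℂ) * ∑ p ∈ P, ∑ d ∈ T, aC M r (φ p) * bC M r (ψ d) * Kf p d‖
      ≤ ∑ r ∈ range M, W M r * X := by
        refine (norm_sum_le _ _).trans (Finset.sum_le_sum ?_)
        intro r hr
        have hr' := Finset.mem_range.mp hr
        rw [norm_mul, Complex.norm_real, Real.norm_of_nonneg (W_nonneg hr')]
        apply mul_le_mul_of_nonneg_left _ (W_nonneg hr')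
        exact hX (fun m => aC M r m) (fun n => bC M r n) (fun m => (norm_aC M r m).le)
          (fun n hn => norm_bC_le hM hr' hn)
    _ = (∑ r ∈ range M, W M r) * X := by rw [Finset.sum_mul]
    _ ≤ (2 + Real.log M) * X := mul_le_mul_of_nonneg_right (sum_W_le hM) hX0

end Crest.Agent.R012.Sep290
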