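import Crest.Agent.R012.CstDefs_566
import Crest.Agent.R012.PoissonS_581
import Crest.Agent.R012.Sym4_645

-- ▼ part R012/Cst1_566
section

/-!
# Row 12, item MC1 (1): the exact dual identity for the first moment

For `b` primary and `f` Schwartz on `ℂ`,
`Σ_{a primary} f(a) g(a,b) = (2/(9√3)) Σ_h (h/b) e(h/(3√-3)) f̂(h/(3√-3 b))` (`first_moment`).
-/

set_option autoImplicit false

noncomputable section

open MeasureTheory Complex Set Filter Topology
open scoped ContDiff SchwartzMap FourierTransform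

namespace Crest.Agent.R012.MC

open Crest.Agent.R012 Crest.Agent.R012.Eis

/-! ### finite sums -/

lemma isPrim_add_three {a t : Eis} : IsPrim (a + 3 * t) ↔ IsPrim a := by
  unfold IsPrim
  have h : a + 3 * t - 1 = (a - 1) + 3 * t := by ring
  rw [h]
  exact (dvd_add_left (dvd_mul_right 3 t))

lemma gs_congr {b r s : Eis} (h : b ∣ r - s) : gs r b = gs s b := by
  unfold gs
  exact sumMod_congr fun x => by rw [eC_congr_left h]

lemma sumMod_single {c : Eis} (hc : c ≠ 0) {f : Eis → ℂ} (hf : PMod c f) (a : Eis)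
    (h : ∀ x, ¬ c ∣ x - a → f x = 0) : sumMod c f = f a := by
  rw [sumMod_eq_sum (isCRS_crs hc) hf]
  obtain ⟨s, ⟨hs, hd⟩, huniq⟩ := isCRS_crs hc a
  rw [Finset.sum_eq_single s]
  · exact (hf.congr hd).symm
  · intro t ht hts
    apply h
    intro hdt
    apply hts
    apply huniq
    refine ⟨ht, ?_⟩
    rw [← neg_sub]
    exact (dvd_neg).mpr hdt
  · intro h'
    exact absurd hs h'

lemma prim_nm {b : Eis} (hb : IsPrim b) : nm b % 3 = 1 := hb.nm_mod

lemma pmod_sy {b : Eis} (hb : IsPrim b) : PMod b (fun x => sy x b) := by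
  intro x t
  exact Sym645.sy_congr (prim_nm hb) ⟨t, by ring⟩

open Classical in
/-- `a ↦ 1_{a primary} g(a, b)`. -/
def chiB (b a : Eis) : ℂ := if IsPrim a then gs a b else 0

lemma pmod_chiB (b : Eis) : PMod (3 * b) (chiB b) := by
  intro x t
  unfold chiB
  have h1 : IsPrim (x + 3 * b * t) ↔ IsPrim x := by
    rw [mul_assoc]; exact isPrim_add_three
  have h2 : gs (x + 3 * b * t) b = gs x b := gs_congr ⟨3 * t, by ring⟩
  by_cases h : IsPrim x
  · rw [if_pos h, if_pos (h1.mpr h), h2]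
  · rw [if_neg h, if_neg (fun h' => h (h1.mp h'))]

lemma toC_sq3 : toC sq3 = Po581.iS3 := Po581.toC_sq3

lemma sq3_cube : sq3 ^ 3 = -(3 * sq3) := by
  have : sq3 ^ 3 = sq3 ^ 2 * sq3 := by ring
  rw [this, sq3_sq]; ring

lemma isCoprime_sq3 {b : Eis} (hb : IsPrim b) : IsCoprime sq3 b :=
  (hb.isCoprime_lam.of_isCoprime_of_dvd_right associated_lam_sq3.symm.dvd).symm

lemma sy_sq3_cube {b : Eis} (hb : IsPrim b) (x : Eis) : sy (sq3 ^ 3 * x) b = sy x b := by
  rw [Sym645.sy_mul_left (prim_nm hb), Sym645.sy_pow_left (prim_nm hb),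
    Sym645.sy_cube (prim_nm hb) (isCoprime_sq3 hb), one_mul]

/-- The inner sum. -/
lemma sum_sy_indicator {b : Eis} (hb : IsPrim b) (k : Eis) :
    open Classical in
    sumMod b (fun x => sy x b * (if b ∣ 3 * sq3 * x + k then (nm b : ℂ) else 0)) =
      nm b * sy k b := by
  classical
  have hb0 := hb.ne_zero
  set f : Eis → ℂ := fun x => sy x b * (if b ∣ k - x then (nm b : ℂ) else 0) with hf
  have hfp : PMod b f := by
    intro x t
    have h1 : sy (x + b * t) b = sy x b := pmod_sy hb x t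
    have h2 : b ∣ k - (x + b * t) ↔ b ∣ k - x := by
      have e : k - (x + b * t) = (k - x) - b * t := by ring
      rw [e]
      exact dvd_sub_left (dvd_mul_right b t)
    simp only [hf, h1, h2]
  have h1 : sumMod b (fun x => sy x b * (if b ∣ 3 * sq3 * x + k then (nm b : ℂ) else 0)) =
      sumMod b (fun x => f (sq3 ^ 3 * x)) := by
    refine sumMod_congr fun x => ?_
    simp only [hf]
    rw [sy_sq3_cube hb]
    have e : k - sq3 ^ 3 * x = 3 * sq3 * x + k := by rw [sq3_cube]; ring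
    rw [e]
  rw [h1, sumMod_mul_coprime hb0 hfp ((isCoprime_sq3 hb).pow_left),
    sumMod_single hb0 hfp k]
  · simp only [hf, sub_self, dvd_zero, if_true]
    ring
  · intro x hx
    have : ¬ b ∣ k - x := fun h => hx (by rw [← neg_sub]; exact (dvd_neg).mpr h)
    simp only [hf, if_neg this, mul_zero]

lemma sum_gs_eC {b : Eis} (hb : IsPrim b) (k : Eis) :
    sumMod b (fun z => gs (3 * (sq3 * z)) b * eC (toC k * toC z / toC b)) = nm b * sy k b := by
  classical
  have hb0 := hb.ne_zero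
  have hbC := toC_ne_zero hb0
  rw [← sum_sy_indicator hb k]
  have h1 : ∀ z : Eis, gs (3 * (sq3 * z)) b * eC (toC k * toC z / toC b) =
      ∑ x ∈ crs b, sy x b * eC (toC (3 * sq3 * x + k) * toC z / toC b) := by
    intro z
    unfold gs
    have hp : PMod b (fun x => sy x b * eC (toC (3 * (sq3 * z)) * toC x / toC b)) :=
      (pmod_sy hb).mul (pmod_eC _ _)
    rw [sumMod_eq_sum (isCRS_crs hb0) hp, Finset.sum_mul]
    refine Finset.sum_congr rfl fun x _ => ?_
    rw [mul_assoc, ← eC_add]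
    congr 2
    simp only [map_mul, map_add]
    field_simp
  rw [sumMod_congr h1, sumMod_finset_sum hb0]
  have hp2 : PMod b (fun x => sy x b * (if b ∣ 3 * sq3 * x + k then (nm b : ℂ) else 0)) := by
    refine (pmod_sy hb).mul ?_
    intro x t
    have h2 : b ∣ 3 * sq3 * (x + b * t) + k ↔ b ∣ 3 * sq3 * x + k := by
      have e : 3 * sq3 * (x + b * t) + k = (3 * sq3 * x + k) + b * (3 * sq3 * t) := by ring
      rw [e]
      exact dvd_add_left (dvd_mul_right b _)
    simp only [h2]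
  rw [sumMod_eq_sum (isCRS_crs hb0) hp2]
  refine Finset.sum_congr rfl fun x _ => ?_
  rw [sumMod_mul_left hb0, sumMod_eC_of_not_lam_dvd hb.not_lam_dvd]

lemma dual_eq {b : Eis} (hb : IsPrim b) (k : Eis) :
    Po581.dualSum (3 * b) (chiB b) k =
      nm b * (sy k b * eC (toC k / (3 * Po581.iS3))) := by
  classical
  have hb0 := hb.ne_zero
  have hbC := toC_ne_zero hb0
  have h3 := Po581.iS3_ne_zero
  have h30 : (3 : Eis) ≠ 0 := three_ne_zero'
  unfold Po581.dualSum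
  set F : Eis → ℂ := fun a => chiB b a * eC (Po581.dl k / toC (3 * b) * toC a) with hF
  have hFp : PMod (3 * b) F := by
    refine (pmod_chiB b).mul ?_
    intro x t
    beta_reduce
    have e : Po581.dl k / toC (3 * b) * toC (x + 3 * b * t) =
        Po581.dl k / toC (3 * b) * toC x + Po581.dl k * toC t := by
      have : toC (3 * b) ≠ 0 := toC_ne_zero (mul_ne_zero h30 hb0)
      rw [map_add, map_mul toC (3 * b) t]
      field_simp
    rw [e, eC_add, Po581.eC_dl_mul, mul_one]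
  rw [sumMod_tower h30 hb0 hFp]
  have hIp : PMod 3 (fun x => sumMod b (fun y => F (x + 3 * y))) := by
    intro x t
    beta_reduce
    have hp1 : PMod b (fun y => F (x + 3 * y)) := fun y s => by
      have : x + 3 * (y + b * s) = (x + 3 * y) + 3 * b * s := by ring
      beta_reduce
      rw [this, hFp]
    have h := sumMod_shift hb0 hp1 t
    beta_reduce at h
    rw [← h]
    exact sumMod_congr fun y => by ring_nf
  rw [sumMod_single h30 hIp b]
  · -- value at `x = b`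
    have h1 : ∀ y : Eis, F (b + 3 * y) =
        eC (toC k / (3 * Po581.iS3)) *
          (gs (3 * y) b * eC (toC k * toC y / (Po581.iS3 * toC b))) := by
      intro y
      simp only [hF, chiB]
      rw [if_pos (isPrim_add_three.mpr hb), gs_congr (s := 3 * y) ⟨1, by ring⟩]
      have e : Po581.dl k / toC (3 * b) * toC (b + 3 * y) =
          toC k / (3 * Po581.iS3) + toC k * toC y / (Po581.iS3 * toC b) := by
        unfold Po581.dl
        simp only [map_add, map_mul, map_ofNat]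
        field_simp
      rw [e, eC_add]
      ring
    rw [sumMod_congr h1, sumMod_mul_left hb0]
    have hp2 : PMod b (fun y => gs (3 * y) b * eC (toC k * toC y / (Po581.iS3 * toC b))) := by
      intro y t
      beta_reduce
      have e1 : gs (3 * (y + b * t)) b = gs (3 * y) b := gs_congr ⟨3 * t, by ring⟩
      have e2 : toC k * toC (y + b * t) / (Po581.iS3 * toC b) =
          toC k * toC y / (Po581.iS3 * toC b) + Po581.dl k * toC t := by
        unfold Po581.dl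
        simp only [map_add, map_mul]
        field_simp
      rw [e1, e2, eC_add, Po581.eC_dl_mul, mul_one]
    rw [← sumMod_mul_coprime hb0 hp2 (isCoprime_sq3 hb)]
    have h4 : ∀ z : Eis, gs (3 * (sq3 * z)) b *
        eC (toC k * toC (sq3 * z) / (Po581.iS3 * toC b)) =
        gs (3 * (sq3 * z)) b * eC (toC k * toC z / toC b) := by
      intro z
      congr 2
      rw [map_mul, toC_sq3]
      field_simp
    rw [sumMod_congr h4, sum_gs_eC hb]
    ring
  · intro x hx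
    have hnp : ∀ y, ¬ IsPrim (x + 3 * y) := by
      intro y h
      apply hx
      have h1 : IsPrim x := isPrim_add_three.mp h
      have e : x - b = (x - 1) - (b - 1) := by ring
      rw [e]
      exact dvd_sub h1 hb
    have h1 : ∀ y, F (x + 3 * y) = 0 := by
      intro y
      simp only [hF, chiB, if_neg (hnp y), zero_mul]
    rw [sumMod_congr h1, sumMod_const hb0, mul_zero]

/-- **(★)** the dual identity. -/
theorem first_moment (f : 𝓢(ℂ, ℂ)) {b : Eis} (hb : IsPrim b) :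
    ∑' a : Eis, chiB b a * f (toC a) =
      ((2 / (9 * Real.sqrt 3) : ℝ) : ℂ) *
        ∑' k : Eis, sy k b * eC (toC k / (3 * Po581.iS3)) *
          Po581.fC f (toC k / (3 * Po581.iS3 * toC b)) := by
  have hb0 := hb.ne_zero
  have h3b : (3 * b : Eis) ≠ 0 := mul_ne_zero three_ne_zero' hb0
  rw [Po581.poisson_periodic f h3b (pmod_chiB b)]
  have hn : (nm b : ℝ) ≠ 0 := by
    have := nm_pos.mpr hb0
    positivity
  have h1 : ∀ k : Eis, Po581.dualSum (3 * b) (chiB b) k * Po581.fC f (Po581.dl k / toC (3 * b)) =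
      (nm b : ℂ) * (sy k b * eC (toC k / (3 * Po581.iS3)) *
          Po581.fC f (toC k / (3 * Po581.iS3 * toC b))) := by
    intro k
    rw [dual_eq hb]
    have e : Po581.dl k / toC (3 * b) = toC k / (3 * Po581.iS3 * toC b) := by
      have := toC_ne_zero hb0
      have := Po581.iS3_ne_zero
      unfold Po581.dl
      rw [map_mul, map_ofNat]
      field_simp
    rw [e]
    ring
  simp_rw [h1]
  rw [tsum_mul_left, ← mul_assoc]
  congr 1
  rw [nm_mul, nm_three]
  have hs : (Real.sqrt 3 : ℂ) ≠ 0 := by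
    have : Real.sqrt 3 ≠ 0 := by positivity
    exact_mod_cast this
  have hn' : (nm b : ℂ) ≠ 0 := by exact_mod_cast hn
  push_cast
  field_simp

lemma dual_summable (f : 𝓢(ℂ, ℂ)) {b : Eis} (hb : IsPrim b) :
    Summable (fun k : Eis => sy k b * eC (toC k / (3 * Po581.iS3)) *
          Po581.fC f (toC k / (3 * Po581.iS3 * toC b))) := by
  have hb0 := hb.ne_zero
  have h3b : toC (3 * b : Eis) ≠ 0 := toC_ne_zero (mul_ne_zero three_ne_zero' hb0)
  have h := Po581.fC_summable f h3b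
  have e : ∀ k : Eis, Po581.dl k / toC (3 * b) = toC k / (3 * Po581.iS3 * toC b) := by
    intro k
    have := toC_ne_zero hb0
    have := Po581.iS3_ne_zero
    unfold Po581.dl
    rw [map_mul, map_ofNat]
    field_simp
  simp_rw [e] at h
  refine Summable.of_norm_bounded h.norm fun k => ?_
  rw [norm_mul, norm_mul, norm_eC, mul_one]
  exact mul_le_of_le_one_left (norm_nonneg _) (Sym645.norm_sy_le_one (prim_nm hb) k)

end Crest.Agent.R012.MC
end
end

-- ▼ part R012/Cst2_566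
section

/-!
# Row 12, item MC1 (2): radial weights, scaling, decay
-/

set_option autoImplicit false

noncomputable section

open MeasureTheory Complex Set Filter Topology
open scoped ContDiff SchwartzMap FourierTransform

namespace Crest.Agent.R012.MC

open Crest.Agent.R012 Crest.Agent.R012.Eis

/-! ### radial functions -/

/-- `z ↦ w(|z|²)` -/
def fw (w : ℝ → ℝ) (z : ℂ) : ℂ := (w (‖z‖ ^ 2) : ℂ)

lemma contDiff_fw {w : ℝ → ℝ} (hw : Wgt w) : ContDiff ℝ ∞ (fw w) := by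
  unfold fw
  have h1 : ContDiff ℝ ∞ (fun z : ℂ => ‖z‖ ^ 2) := contDiff_norm_sq ℝ
  have h2 : ContDiff ℝ ∞ (fun z : ℂ => w (‖z‖ ^ 2)) := hw.smooth.comp h1
  exact Complex.ofRealCLM.contDiff.comp h2

lemma compact_fw {w : ℝ → ℝ} (hw : Wgt w) : HasCompactSupport (fw w) := by
  obtain ⟨c1, c2, h1, h2, h⟩ := hw.exists_bounds
  refine HasCompactSupport.of_support_subset_isCompact
    (isCompact_closedBall (0 : ℂ) (Real.sqrt c2)) ?_
  intro z hz
  have hz' : w (‖z‖ ^ 2) ≠ 0 := by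
    intro h0
    apply hz
    simp [fw, h0]
  have := (h _ hz').2
  rw [mem_closedBall_zero_iff]
  exact Real.le_sqrt_of_sq_le this

/-- the Schwartz function `z ↦ w(|z|²)` -/
def fS {w : ℝ → ℝ} (hw : Wgt w) : 𝓢(ℂ, ℂ) := (compact_fw hw).toSchwartzMap (contDiff_fw hw)

lemma fS_coe {w : ℝ → ℝ} (hw : Wgt w) : (fS hw : ℂ → ℂ) = fw w := rfl

lemma fC_fw_rot (w : ℝ → ℝ) (ξ : ℂ) {q : ℂ} (hq : ‖q‖ = 1) :
    Po581.fC (fw w) ξ = Po581.fC (fw w) (ξ / q) := by
  have hq0 : q ≠ 0 := by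
    intro h; rw [h] at hq; simp at hq
  have h := Po581.fC_affine (fw w) hq0 0 ξ
  have h1 : (fun z => fw w (q * z + 0)) = fw w := by
    funext z
    unfold fw
    rw [add_zero, norm_mul, hq, one_mul]
  rw [h1, hq] at h
  rw [h]
  simp

lemma fC_fw_real (w : ℝ → ℝ) (t : ℝ) : (Po581.fC (fw w) (t : ℂ)).im = 0 := by
  rw [← Complex.conj_eq_iff_im]
  have h2 : Po581.fC (fw w) (t : ℂ) = Po581.fC (fw w) (-(t : ℂ)) := by
    have := fC_fw_rot w (t : ℂ) (q := -1) (by simp)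
    rw [this]; congr 1; ring
  conv_rhs => rw [h2]
  unfold Po581.fC
  rw [← integral_conj]
  congr 1
  funext z
  rw [map_mul, star_eC]
  unfold fw
  rw [Complex.conj_ofReal]
  congr 2
  ring

/-- the Fourier transform of the radial function is radial and real -/
lemma fC_fw (w : ℝ → ℝ) (ξ : ℂ) : Po581.fC (fw w) ξ = (Wt w ‖ξ‖ : ℂ) := by
  have key : Po581.fC (fw w) ξ = Po581.fC (fw w) (-(‖ξ‖ : ℂ)) := by
    by_cases h : ξ = 0
    · subst h; simp
    · have hn : (‖ξ‖ : ℂ) ≠ 0 := by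
        exact_mod_cast norm_ne_zero_iff.mpr h
      have hq : ‖-(ξ / (‖ξ‖ : ℂ))‖ = 1 := by
        rw [norm_neg, norm_div, Complex.norm_real, norm_norm, div_self (norm_ne_zero_iff.mpr h)]
      rw [fC_fw_rot w ξ hq]
      congr 1
      field_simp
  have h2 : Po581.fC (fw w) (-(‖ξ‖ : ℂ)) = ∫ z : ℂ, (w (‖z‖ ^ 2) : ℂ) * eC (z * (‖ξ‖ : ℂ)) := by
    unfold Po581.fC fw
    congr 1
    funext z
    congr 2
    ring
  have h3 : (Po581.fC (fw w) (-(‖ξ‖ : ℂ))).im = 0 := by
    have := fC_fw_real w (-‖ξ‖)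
    push_cast at this
    exact this
  rw [key]
  apply Complex.ext
  · rw [Complex.ofReal_re, h2]; rfl
  · rw [Complex.ofReal_im, h3]

lemma Wt_eq (w : ℝ → ℝ) {t : ℝ} (ht : 0 ≤ t) : Wt w t = (Po581.fC (fw w) (t : ℂ)).re := by
  rw [fC_fw, Complex.ofReal_re, Complex.norm_real, Real.norm_of_nonneg ht]

/-! ### scaling -/

lemma Wgt.scale {w : ℝ → ℝ} (hw : Wgt w) {A : ℝ} (hA : 0 < A) : Wgt (fun x => w (x / A)) := by
  obtain ⟨c1, c2, h1, h2, h⟩ := hw.exists_bounds
  have hsub : tsupport (fun x => w (x / A)) ⊆ Set.Icc (c1 * A) (c2 * A) := by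
    apply closure_minimal _ isClosed_Icc
    intro x hx
    have h3 := h (x / A) hx
    rw [le_div_iff₀ hA, div_le_iff₀ hA] at h3
    exact h3
  refine ⟨?_, ?_, ?_⟩
  · exact hw.smooth.comp (contDiff_id.div_const A)
  · exact HasCompactSupport.of_support_subset_isCompact isCompact_Icc
      ((subset_tsupport _).trans hsub)
  · intro x hx
    have := (hsub hx).1
    have h4 : 0 < c1 * A := by positivity
    exact lt_of_lt_of_le h4 this

lemma fC_scale (w : ℝ → ℝ) {A : ℝ} (hA : 0 < A) (ξ : ℂ) :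
    Po581.fC (fw (fun x => w (x / A))) ξ = (A * Wt w (Real.sqrt A * ‖ξ‖) : ℝ) := by
  have hs : 0 < Real.sqrt A := Real.sqrt_pos.mpr hA
  have hq0 : (((Real.sqrt A)⁻¹ : ℝ) : ℂ) ≠ 0 := by
    exact_mod_cast (inv_pos.mpr hs).ne'
  have h := Po581.fC_affine (fw w) hq0 0 ξ
  have h1 : (fun z : ℂ => fw w ((((Real.sqrt A)⁻¹ : ℝ) : ℂ) * z + 0)) =
      fw (fun x => w (x / A)) := by
    funext z
    unfold fw
    rw [add_zero, norm_mul, Complex.norm_real, Real.norm_of_nonneg (inv_pos.mpr hs).le, mul_pow,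
      inv_pow, Real.sq_sqrt hA.le]
    congr 2
    rw [div_eq_inv_mul]
  rw [h1] at h
  rw [h, fC_fw]
  have h2 : ‖ξ / (((Real.sqrt A)⁻¹ : ℝ) : ℂ)‖ = Real.sqrt A * ‖ξ‖ := by
    rw [norm_div, Complex.norm_real, Real.norm_of_nonneg (inv_pos.mpr hs).le, div_inv_eq_mul]
    ring
  rw [h2]
  have h3 : (‖(((Real.sqrt A)⁻¹ : ℝ) : ℂ)‖ ^ 2)⁻¹ = A := by
    rw [Complex.norm_real, Real.norm_of_nonneg (inv_pos.mpr hs).le, inv_pow, inv_inv,
      Real.sq_sqrt hA.le]
  rw [h3]
  simp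

/-! ### decay and Lipschitz bound -/

lemma Wt_decay {w : ℝ → ℝ} (hw : Wgt w) (k : ℕ) :
    ∃ C : ℝ, 0 ≤ C ∧ ∀ t, 0 ≤ t → |Wt w t| ≤ C / (1 + t) ^ k := by
  obtain ⟨C, hC0, hC⟩ := Po581.fC_decay (fS hw) k
  refine ⟨C, hC0, fun t ht => ?_⟩
  have h := hC (t : ℂ)
  rw [fS_coe, fC_fw, Complex.norm_real, Complex.norm_real, Real.norm_of_nonneg ht,
    Real.norm_eq_abs] at h
  exact h

lemma Wt_lip {w : ℝ → ℝ} (hw : Wgt w) :
    ∃ L : ℝ, 0 ≤ L ∧ ∀ s t, 0 ≤ s → 0 ≤ t → |Wt w s - Wt w t| ≤ L * |s - t| := by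
  set F : 𝓢(ℂ, ℂ) := 𝓕 (fS hw) with hF
  obtain ⟨C, hC⟩ := F.decay' 0 1
  have hb : ∀ x, ‖fderiv ℝ F x‖ ≤ C := by
    intro x
    have := hC x
    rw [pow_zero, one_mul, norm_iteratedFDeriv_one] at this
    exact this
  have hC0 : 0 ≤ C := (norm_nonneg _).trans (hb 0)
  have hlip : ∀ x y : ℂ, ‖F x - F y‖ ≤ C * ‖x - y‖ := by
    intro x y
    exact Convex.norm_image_sub_le_of_norm_fderiv_le (𝕜 := ℝ) (f := F) (s := Set.univ)
      (fun z _ => F.differentiableAt) (fun z _ => hb z) convex_univ (Set.mem_univ _)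
      (Set.mem_univ _)
  refine ⟨2 * C, by positivity, fun s t hs ht => ?_⟩
  have e : ∀ t : ℝ, 0 ≤ t → Wt w t = (F (2 * (t : ℂ))).re := by
    intro t ht
    rw [Wt_eq w ht, Po581.fC_eq_fourier, Complex.conj_ofReal, hF, SchwartzMap.fourier_coe, fS_coe]
  rw [e s hs, e t ht, ← Complex.sub_re]
  refine (Complex.abs_re_le_norm _).trans ((hlip _ _).trans (le_of_eq ?_))
  rw [← mul_sub, norm_mul, ← Complex.ofReal_sub, Complex.norm_real, Real.norm_eq_abs]
  norm_num
  ring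


/-! ### the dual identity for weights -/

/-- the dual character `e(k/(3√-3))` -/
def ek (k : Eis) : ℂ := eC (toC k / (3 * Po581.iS3))

lemma norm_ek (k : Eis) : ‖ek k‖ = 1 := norm_eC _

lemma norm_arg {b : Eis} (k : Eis) :
    ‖toC k / (3 * Po581.iS3 * toC b)‖ = ‖toC k‖ / (3 * Real.sqrt 3 * ‖toC b‖) := by
  rw [norm_div, norm_mul, norm_mul, Po581.norm_iS3]
  norm_num

/-- the dual sum kernel: `Wt w (√A |k| / (3√3 |b|))`. -/
def kap (A : ℝ) (k : Eis) : ℝ := Real.sqrt A * ‖toC k‖ / (3 * Real.sqrt 3)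

lemma kap_nonneg (A : ℝ) (k : Eis) : 0 ≤ kap A k := by unfold kap; positivity

lemma fC_scaled {w : ℝ → ℝ} {A : ℝ} (hA : 0 < A) (b k : Eis) :
    Po581.fC (fw (fun x => w (x / A))) (toC k / (3 * Po581.iS3 * toC b)) =
      ((A * Wt w (kap A k / ‖toC b‖) : ℝ) : ℂ) := by
  rw [fC_scale w hA, norm_arg]
  congr 3
  unfold kap
  rw [div_div, mul_div_assoc]

theorem dual_weight {w : ℝ → ℝ} (hw : Wgt w) {A : ℝ} (hA : 0 < A) {b : Eis} (hb : IsPrim b) :
    ∑' a : Eis, chiB b a * (w (nm a / A) : ℂ) =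
      ((2 * A / (9 * Real.sqrt 3) : ℝ) : ℂ) *
        ∑' k : Eis, sy k b * ek k * (Wt w (kap A k / ‖toC b‖) : ℂ) := by
  have h := first_moment (fS (hw.scale hA)) hb
  have h1 : ∀ a : Eis, chiB b a * (fS (hw.scale hA)) (toC a) = chiB b a * (w (nm a / A) : ℂ) := by
    intro a
    rw [fS_coe]
    unfold fw
    rw [norm_toC_sq]
  simp_rw [h1] at h
  rw [h]
  simp_rw [fS_coe, fC_scaled hA]
  have h2 : ∀ k : Eis, sy k b * eC (toC k / (3 * Po581.iS3)) *
      ((A * Wt w (kap A k / ‖toC b‖) : ℝ) : ℂ) =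
      (A : ℂ) * (sy k b * ek k * (Wt w (kap A k / ‖toC b‖) : ℂ)) := by
    intro k
    unfold ek
    push_cast
    ring
  simp_rw [h2]
  rw [tsum_mul_left, ← mul_assoc]
  congr 1
  push_cast
  ring

lemma dual_weight_summable {w : ℝ → ℝ} (hw : Wgt w) {A : ℝ} (hA : 0 < A) {b : Eis}
    (hb : IsPrim b) :
    Summable (fun k : Eis => sy k b * ek k * (Wt w (kap A k / ‖toC b‖) : ℂ)) := by
  have h := dual_summable (fS (hw.scale hA)) hb
  simp_rw [fS_coe, fC_scaled hA] at h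
  have h2 := h.mul_left ((A : ℂ)⁻¹)
  refine h2.congr fun k => ?_
  have hA' : (A : ℂ) ≠ 0 := by exact_mod_cast hA.ne'
  unfold ek
  push_cast
  field_simp

end Crest.Agent.R012.MC
end
end

-- ▼ part R012/Cst3_566

/-!
# Row 12, item MC1 (3): mean zero periodic functions against Lipschitz functions; kernels

* `char_sum_bound` : `|Σ_b ψ(b) φ(b)| ≤ L |q| (3R + 4|q|)²` for `ψ` periodic mod `q` with mean zero,
  `|ψ| ≤ 1`, `φ` Lipschitz with constant `L`, supported in `|z| ≤ R`.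
* `phi w v B κ z = v(|z|²/B)/|z| · Wt w (κ/|z|)` : Lipschitz bound and size.
-/

set_option autoImplicit false

noncomputable section

open MeasureTheory Complex Set Filter Topology
open scoped ContDiff

namespace Crest.Agent.R012.MC

open Crest.Agent.R012 Crest.Agent.R012.Eis

/-! ### small representatives -/

/-- complete residue system with representatives of norm `< nm q` -/
def scrs (q : Eis) : Finset Eis := (crs q).image (fun r => r - q * quo r q)

lemma isCRS_scrs {q : Eis} (hq : q ≠ 0) : IsCRS q (scrs q) := by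
  intro x
  obtain ⟨s, ⟨hs, hd⟩, hu⟩ := isCRS_crs hq x
  refine ⟨s - q * quo s q, ⟨Finset.mem_image_of_mem _ hs, ?_⟩, ?_⟩
  · have e : x - (s - q * quo s q) = (x - s) + q * quo s q := by ring
    rw [e]
    exact dvd_add hd (dvd_mul_right _ _)
  · rintro t ⟨ht, htd⟩
    obtain ⟨r, hr, rfl⟩ := Finset.mem_image.mp ht
    have h1 : q ∣ x - r := by
      have e : x - r = (x - (r - q * quo r q)) - q * quo r q := by ring
      rw [e]
      exact dvd_sub htd (dvd_mul_right _ _)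
    rw [hu r ⟨hr, h1⟩]

lemma scrs_norm {q r : Eis} (hq : q ≠ 0) (hr : r ∈ scrs q) : ‖toC r‖ ≤ ‖toC q‖ := by
  obtain ⟨s, hs, rfl⟩ := Finset.mem_image.mp hr
  rw [norm_toC, norm_toC]
  apply Real.sqrt_le_sqrt
  exact_mod_cast (nm_sub_quo_lt s hq).le

/-! ### character sums against Lipschitz functions -/

lemma char_sum_bound {q : Eis} (hq : q ≠ 0) {ψ : Eis → ℂ} (hψ : PMod q ψ) (h0 : sumMod q ψ = 0)
    (h1 : ∀ x, ‖ψ x‖ ≤ 1) {φ : ℂ → ℂ} {L R : ℝ} (hL : 0 ≤ L) (hR : 0 ≤ R)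
    (hsupp : ∀ z, R < ‖z‖ → φ z = 0) (hlip : ∀ z z', ‖φ z - φ z'‖ ≤ L * ‖z - z'‖) :
    ‖∑' b : Eis, ψ b * φ (toC b)‖ ≤ L * ‖toC q‖ * (3 * R + 4 * ‖toC q‖) ^ 2 := by
  classical
  have hqC : 0 < ‖toC q‖ := norm_pos_iff.mpr (toC_ne_zero hq)
  have hS := isCRS_scrs hq
  have hfin : ∀ (s : Eis) (c : Eis), c ≠ 0 → (Function.support fun t : Eis => φ (toC (s + c * t))).Finite := by
    intro s c hc
    have hf := (Strip880.disc_finite_card (0 : ℂ) R hR).1
    have hinj : Function.Injective (fun t : Eis => s + c * t) := fun x y h =>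
      mul_left_cancel₀ hc (add_left_cancel h)
    refine (hf.preimage (f := fun t : Eis => s + c * t) hinj.injOn).subset ?_
    intro t ht
    simp only [Set.mem_preimage, Set.mem_ofPred_eq, sub_zero]
    by_contra hcon
    push Not at hcon
    exact ht (hsupp _ hcon)
  have hsum0 : Summable (fun b : Eis => ψ b * φ (toC b)) := by
    apply summable_of_hasFiniteSupport
    have h2 := hfin 0 1 one_ne_zero
    refine h2.subset ?_
    intro b hb
    simp only [Function.mem_support] at hb ⊢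
    intro h3
    apply hb
    simp only [zero_add, one_mul] at h3
    rw [h3, mul_zero]
  rw [tsum_eq_sum_crs hq hS hsum0]
  have e1 : ∀ s ∈ scrs q, ∑' t : Eis, ψ (s + q * t) * φ (toC (s + q * t)) =
      ψ s * ∑' t : Eis, φ (toC (s + q * t)) := by
    intro s _
    rw [← tsum_mul_left]
    exact tsum_congr fun t => by rw [hψ]
  rw [Finset.sum_congr rfl e1]
  have e2 : ∑ s ∈ scrs q, ψ s * ∑' t : Eis, φ (toC (q * t)) = 0 := by
    rw [← Finset.sum_mul, ← sumMod_eq_sum hS hψ, h0, zero_mul]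
  rw [← sub_zero (∑ s ∈ scrs q, _), ← e2, ← Finset.sum_sub_distrib]
  set ρ : ℝ := R / ‖toC q‖ + 1 with hρ
  have hρ0 : 0 ≤ ρ := by positivity
  obtain ⟨hDf, hDc⟩ := Strip880.disc_finite_card (0 : ℂ) ρ hρ0
  set D : Finset Eis := hDf.toFinset with hD
  have hDcard : (D.card : ℝ) ≤ (3 * ρ + 1) ^ 2 := by
    rw [hD, ← Set.ncard_eq_toFinset_card _ hDf]
    exact hDc
  have key : ∀ s ∈ scrs q,
      ‖ψ s * ∑' t : Eis, φ (toC (s + q * t)) - ψ s * ∑' t : Eis, φ (toC (q * t))‖ ≤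
        (3 * ρ + 1) ^ 2 * (L * ‖toC q‖) := by
    intro s hs
    have hsn := scrs_norm hq hs
    have hsa : Summable fun t : Eis => φ (toC (s + q * t)) :=
      summable_of_hasFiniteSupport (hfin s q hq)
    have hsb : Summable fun t : Eis => φ (toC (q * t)) := by
      have := hfin 0 q hq
      simp only [zero_add] at this
      exact summable_of_hasFiniteSupport this
    rw [← mul_sub, norm_mul, ← hsa.tsum_sub hsb]
    have hz : ∀ t ∉ D, φ (toC (s + q * t)) - φ (toC (q * t)) = 0 := by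
      intro t ht
      have ht' : ρ < ‖toC t‖ := by
        by_contra hcon
        push Not at hcon
        apply ht
        rw [hD, Set.Finite.mem_toFinset]
        simpa using hcon
      have h3 : R + ‖toC q‖ < ‖toC (q * t)‖ := by
        rw [map_mul, norm_mul]
        have : ρ * ‖toC q‖ < ‖toC t‖ * ‖toC q‖ := mul_lt_mul_of_pos_right ht' hqC
        rw [hρ, add_mul, div_mul_cancel₀ _ hqC.ne', one_mul] at this
        linarith
      have h4 : R < ‖toC (s + q * t)‖ := by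
        have h5 : ‖toC (q * t)‖ ≤ ‖toC (s + q * t)‖ + ‖toC s‖ := by
          calc ‖toC (q * t)‖ = ‖toC (s + q * t) - toC s‖ := by rw [map_add]; congr 1; ring
            _ ≤ _ := norm_sub_le _ _
        linarith
      rw [hsupp _ h4, hsupp _ (by linarith [norm_nonneg (toC q)]), sub_zero]
    rw [tsum_eq_sum hz]
    calc ‖ψ s‖ * ‖∑ t ∈ D, (φ (toC (s + q * t)) - φ (toC (q * t)))‖
        ≤ 1 * ‖∑ t ∈ D, (φ (toC (s + q * t)) - φ (toC (q * t)))‖ :=
          mul_le_mul_of_nonneg_right (h1 s) (norm_nonneg _)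
      _ = ‖∑ t ∈ D, (φ (toC (s + q * t)) - φ (toC (q * t)))‖ := one_mul _
      _ ≤ ∑ t ∈ D, ‖φ (toC (s + q * t)) - φ (toC (q * t))‖ := norm_sum_le _ _
      _ ≤ ∑ t ∈ D, L * ‖toC q‖ := by
          refine Finset.sum_le_sum fun t _ => (hlip _ _).trans ?_
          have : toC (s + q * t) - toC (q * t) = toC s := by rw [map_add]; ring
          rw [this]
          exact mul_le_mul_of_nonneg_left hsn hL
      _ = D.card * (L * ‖toC q‖) := by rw [Finset.sum_const, nsmul_eq_mul]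
      _ ≤ _ := mul_le_mul_of_nonneg_right hDcard (by positivity)
  refine (norm_sum_le _ _).trans ((Finset.sum_le_sum key).trans (le_of_eq ?_))
  rw [Finset.sum_const, nsmul_eq_mul, hS.card, ← norm_toC_sq, hρ]
  field_simp
  ring

/-! ### the one variable profile -/

/-- `s ↦ v(s²)/s` -/
def gv (v : ℝ → ℝ) (s : ℝ) : ℝ := v (s ^ 2) / s

lemma gv_support {v : ℝ → ℝ} (hv : Wgt v) :
    ∃ s0 s1 : ℝ, 0 < s0 ∧ s0 < s1 ∧ ∀ s, v (s ^ 2) ≠ 0 → s0 ≤ |s| ∧ |s| ≤ s1 := by
  obtain ⟨c1, c2, h1, h2, h⟩ := hv.exists_bounds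
  refine ⟨Real.sqrt c1, Real.sqrt c2, Real.sqrt_pos.mpr h1, Real.sqrt_lt_sqrt h1.le h2,
    fun s hs => ?_⟩
  obtain ⟨h3, h4⟩ := h _ hs
  constructor
  · exact Real.sqrt_le_iff.mpr ⟨abs_nonneg _, by rwa [sq_abs]⟩
  · exact Real.le_sqrt_of_sq_le (by rwa [sq_abs])

lemma contDiff_gv {v : ℝ → ℝ} (hv : Wgt v) : ContDiff ℝ ∞ (gv v) := by
  obtain ⟨s0, s1, h0, h01, h⟩ := gv_support hv
  rw [contDiff_iff_contDiffAt]
  intro s
  by_cases hs : s = 0
  · subst hs
    have : gv v =ᶠ[𝓝 0] fun _ => 0 := by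
      have hn : {x : ℝ | |x| < s0} ∈ 𝓝 (0 : ℝ) := by
        have : Metric.ball (0 : ℝ) s0 ∈ 𝓝 (0 : ℝ) := Metric.ball_mem_nhds _ h0
        refine Filter.mem_of_superset this fun x hx => ?_
        simpa using hx
      filter_upwards [hn] with x hx
      unfold gv
      by_cases hx2 : v (x ^ 2) = 0
      · rw [hx2, zero_div]
      · exact absurd (h x hx2).1 (not_le.mpr hx)
    exact (contDiffAt_const (c := (0 : ℝ))).congr_of_eventuallyEq this
  · unfold gv
    apply ContDiffAt.div _ contDiffAt_id hs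
    exact (hv.smooth.comp (contDiff_id.pow 2)).contDiffAt

lemma compact_gv {v : ℝ → ℝ} (hv : Wgt v) : HasCompactSupport (gv v) := by
  obtain ⟨s0, s1, h0, h01, h⟩ := gv_support hv
  refine HasCompactSupport.of_support_subset_isCompact (isCompact_closedBall (0 : ℝ) s1) ?_
  intro s hs
  have : v (s ^ 2) ≠ 0 := by
    intro h'
    apply hs
    simp [gv, h']
  rw [mem_closedBall_zero_iff, Real.norm_eq_abs]
  exact (h s this).2

lemma gv_lip {v : ℝ → ℝ} (hv : Wgt v) : ∃ L : ℝ, 0 ≤ L ∧ ∀ s t, |gv v s - gv v t| ≤ L * |s - t| := by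
  obtain ⟨C, hC⟩ := ContDiff.lipschitzWith_of_hasCompactSupport (𝕂 := ℝ) (compact_gv hv)
    (contDiff_gv hv) (by simp)
  refine ⟨C, C.2, fun s t => ?_⟩
  have := hC.dist_le_mul s t
  rwa [Real.dist_eq, Real.dist_eq] at this

lemma gv_bdd {v : ℝ → ℝ} (hv : Wgt v) : ∃ M : ℝ, 0 ≤ M ∧ ∀ s, |gv v s| ≤ M := by
  obtain ⟨C, hC⟩ := (compact_gv hv).exists_bound_of_continuous (contDiff_gv hv).continuous
  refine ⟨max C 0, le_max_right _ _, fun s => ?_⟩
  have := hC s
  rw [Real.norm_eq_abs] at this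
  exact this.trans (le_max_left _ _)

/-! ### the kernel `φ` -/

/-- `v(|z|²/B)/|z| · Wt w (κ/|z|)` -/
def phi (w v : ℝ → ℝ) (B κ : ℝ) (z : ℂ) : ℝ := v (‖z‖ ^ 2 / B) / ‖z‖ * Wt w (κ / ‖z‖)

lemma phi_eq (w v : ℝ → ℝ) {B : ℝ} (hB : 0 < B) (κ : ℝ) (z : ℂ) :
    phi w v B κ z = (Real.sqrt B)⁻¹ *
      (gv v (‖z‖ / Real.sqrt B) * Wt w (κ / Real.sqrt B / (‖z‖ / Real.sqrt B))) := by
  have hs : Real.sqrt B ≠ 0 := (Real.sqrt_pos.mpr hB).ne'
  unfold phi gv
  have e1 : (‖z‖ / Real.sqrt B) ^ 2 = ‖z‖ ^ 2 / B := by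
    rw [div_pow, Real.sq_sqrt hB.le]
  have e2 : κ / Real.sqrt B / (‖z‖ / Real.sqrt B) = κ / ‖z‖ := by
    by_cases hz : ‖z‖ = 0
    · rw [hz]; simp
    · field_simp
  rw [e1, e2]
  by_cases hz : ‖z‖ = 0
  · rw [hz]; simp
  · field_simp

lemma phi_lip {w v : ℝ → ℝ} (hw : Wgt w) (hv : Wgt v) :
    ∃ C : ℝ, 0 ≤ C ∧ ∀ B κ : ℝ, 0 < B → 0 ≤ κ → ∀ z z' : ℂ,
      |phi w v B κ z - phi w v B κ z'| ≤ C * (1 + κ / Real.sqrt B) / B * ‖z - z'‖ := by
  obtain ⟨L1, hL1, h1⟩ := gv_lip hv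
  obtain ⟨M1, hM1, h2⟩ := gv_bdd hv
  obtain ⟨L2, hL2, h3⟩ := Wt_lip hw
  obtain ⟨M2, hM2, h4⟩ := Wt_decay hw 0
  obtain ⟨s0, s1, hs0, hs01, hs⟩ := gv_support hv
  have h4' : ∀ t, 0 ≤ t → |Wt w t| ≤ M2 := by
    intro t ht
    have := h4 t ht
    rwa [pow_zero, div_one] at this
  refine ⟨L1 * M2 + M1 * L2 / s0 ^ 2, by positivity, fun B κ hB hκ z z' => ?_⟩
  have hsB : 0 < Real.sqrt B := Real.sqrt_pos.mpr hB
  set β := κ / Real.sqrt B with hβ
  have hβ0 : 0 ≤ β := by positivity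
  set s := ‖z‖ / Real.sqrt B with hsdef
  set s' := ‖z'‖ / Real.sqrt B with hsdef'
  have hs_nn : 0 ≤ s := by positivity
  have hs'_nn : 0 ≤ s' := by positivity
  have hmax : ∀ x : ℝ, 0 ≤ x → gv v x * Wt w (β / x) = gv v x * Wt w (β / max x s0) := by
    intro x hx
    by_cases hx2 : v (x ^ 2) = 0
    · unfold gv; rw [hx2]; simp
    · have := (hs x hx2).1
      rw [abs_of_nonneg hx] at this
      rw [max_eq_left this]
  rw [phi_eq w v hB, phi_eq w v hB, ← hβ, ← hsdef, ← hsdef', hmax s hs_nn, hmax s' hs'_nn,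
    ← mul_sub, abs_mul, abs_of_pos (inv_pos.mpr hsB)]
  have hdist : |s - s'| ≤ ‖z - z'‖ / Real.sqrt B := by
    rw [hsdef, hsdef', ← sub_div, abs_div, abs_of_pos hsB]
    exact div_le_div_of_nonneg_right (abs_norm_sub_norm_le z z') hsB.le
  have hm1 : 0 < max s s0 := lt_of_lt_of_le hs0 (le_max_right _ _)
  have hm2 : 0 < max s' s0 := lt_of_lt_of_le hs0 (le_max_right _ _)
  have hA : |β / max s s0 - β / max s' s0| ≤ β / s0 ^ 2 * |s - s'| := by
    have e : β / max s s0 - β / max s' s0 = β * (max s' s0 - max s s0) / (max s s0 * max s' s0) := by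
      field_simp
    rw [e, abs_div, abs_mul, abs_of_nonneg hβ0, abs_of_pos (mul_pos hm1 hm2)]
    have e2 : |max s' s0 - max s s0| ≤ |s - s'| := by
      rw [abs_sub_comm s s']
      exact abs_max_sub_max_le_abs _ _ _
    have e3 : s0 ^ 2 ≤ max s s0 * max s' s0 := by
      rw [pow_two]
      exact mul_le_mul (le_max_right _ _) (le_max_right _ _) hs0.le hm1.le
    have e4 : β / s0 ^ 2 * |s - s'| = β * |s - s'| / s0 ^ 2 := by ring
    rw [e4]
    exact div_le_div₀ (by positivity) (mul_le_mul_of_nonneg_left e2 hβ0) (by positivity) e3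
  have hmain : |gv v s * Wt w (β / max s s0) - gv v s' * Wt w (β / max s' s0)| ≤
      (L1 * M2 + M1 * L2 / s0 ^ 2) * (1 + β) * |s - s'| := by
    have e : gv v s * Wt w (β / max s s0) - gv v s' * Wt w (β / max s' s0) =
        (gv v s - gv v s') * Wt w (β / max s s0) +
          gv v s' * (Wt w (β / max s s0) - Wt w (β / max s' s0)) := by ring
    rw [e]
    refine (abs_add_le _ _).trans ?_
    rw [abs_mul, abs_mul]
    have t1 : |gv v s - gv v s'| * |Wt w (β / max s s0)| ≤ (L1 * |s - s'|) * M2 :=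
      mul_le_mul (h1 _ _) (h4' _ (by positivity)) (abs_nonneg _) (by positivity)
    have t2 : |gv v s'| * |Wt w (β / max s s0) - Wt w (β / max s' s0)| ≤
        M1 * (L2 * (β / s0 ^ 2 * |s - s'|)) := by
      refine mul_le_mul (h2 _) ((h3 _ _ (by positivity) (by positivity)).trans ?_)
        (abs_nonneg _) hM1
      exact mul_le_mul_of_nonneg_left hA hL2
    have t3 : (L1 * |s - s'|) * M2 ≤ L1 * M2 * (1 + β) * |s - s'| := by
      have : 0 ≤ L1 * M2 * |s - s'| * β := by positivity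
      nlinarith
    have t4 : M1 * (L2 * (β / s0 ^ 2 * |s - s'|)) ≤ M1 * L2 / s0 ^ 2 * (1 + β) * |s - s'| := by
      have : 0 ≤ M1 * L2 / s0 ^ 2 * |s - s'| := by positivity
      have e5 : M1 * (L2 * (β / s0 ^ 2 * |s - s'|)) = M1 * L2 / s0 ^ 2 * |s - s'| * β := by
        field_simp
      rw [e5]
      nlinarith
    linarith
  calc (Real.sqrt B)⁻¹ * |gv v s * Wt w (β / max s s0) - gv v s' * Wt w (β / max s' s0)|
      ≤ (Real.sqrt B)⁻¹ * ((L1 * M2 + M1 * L2 / s0 ^ 2) * (1 + β) * |s - s'|) :=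
        mul_le_mul_of_nonneg_left hmain (inv_pos.mpr hsB).le
    _ ≤ (Real.sqrt B)⁻¹ * ((L1 * M2 + M1 * L2 / s0 ^ 2) * (1 + β) * (‖z - z'‖ / Real.sqrt B)) := by
        refine mul_le_mul_of_nonneg_left ?_ (inv_pos.mpr hsB).le
        exact mul_le_mul_of_nonneg_left hdist (by positivity)
    _ = (L1 * M2 + M1 * L2 / s0 ^ 2) * (1 + β) / (Real.sqrt B * Real.sqrt B) * ‖z - z'‖ := by
        field_simp
    _ = _ := by rw [Real.mul_self_sqrt hB.le]

lemma phi_support {v : ℝ → ℝ} (hv : Wgt v) :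
    ∃ c1 c2 : ℝ, 0 < c1 ∧ c1 < c2 ∧ ∀ (w : ℝ → ℝ) (B κ : ℝ), 0 < B → ∀ z : ℂ,
      phi w v B κ z ≠ 0 → c1 * B ≤ ‖z‖ ^ 2 ∧ ‖z‖ ^ 2 ≤ c2 * B := by
  obtain ⟨c1, c2, h1, h2, h⟩ := hv.exists_bounds
  refine ⟨c1, c2, h1, h2, fun w B κ hB z hz => ?_⟩
  have : v (‖z‖ ^ 2 / B) ≠ 0 := by
    intro h0
    apply hz
    unfold phi
    rw [h0]; simp
  have h3 := h _ this
  rw [le_div_iff₀ hB, div_le_iff₀ hB] at h3
  exact h3

lemma phi_size {w v : ℝ → ℝ} (hw : Wgt w) (hv : Wgt v) (j : ℕ) :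
    ∃ C : ℝ, 0 ≤ C ∧ ∀ B κ : ℝ, 0 < B → 0 ≤ κ → ∀ z : ℂ,
      |phi w v B κ z| * (κ / Real.sqrt B) ^ j ≤ C * (Real.sqrt B)⁻¹ := by
  obtain ⟨M1, hM1, h2⟩ := gv_bdd hv
  obtain ⟨M2, hM2, h4⟩ := Wt_decay hw j
  obtain ⟨s0, s1, hs0, hs01, hs⟩ := gv_support hv
  have hs1 : 0 < s1 := hs0.trans hs01
  refine ⟨M1 * M2 * s1 ^ j, by positivity, fun B κ hB hκ z => ?_⟩
  have hsB : 0 < Real.sqrt B := Real.sqrt_pos.mpr hB
  rw [phi_eq w v hB]
  set β := κ / Real.sqrt B with hβ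
  have hβ0 : 0 ≤ β := by positivity
  set s := ‖z‖ / Real.sqrt B with hsdef
  have hs_nn : 0 ≤ s := by positivity
  rw [abs_mul, abs_of_pos (inv_pos.mpr hsB), abs_mul]
  by_cases hv0 : v (s ^ 2) = 0
  · have : gv v s = 0 := by unfold gv; rw [hv0, zero_div]
    rw [this]; simp; positivity
  · obtain ⟨ha, hb⟩ := hs s hv0
    rw [abs_of_nonneg hs_nn] at ha hb
    have hspos : 0 < s := lt_of_lt_of_le hs0 ha
    have h5 := h4 (β / s) (by positivity)
    have h6 : |Wt w (β / s)| * β ^ j ≤ M2 * s1 ^ j := by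
      have h7 : β ^ j ≤ (1 + β / s) ^ j * s1 ^ j := by
        rw [← mul_pow]
        refine pow_le_pow_left₀ hβ0 ?_ j
        have : β = β / s * s := by field_simp
        have h8 : β / s * s ≤ β / s * s1 := mul_le_mul_of_nonneg_left hb (by positivity)
        nlinarith
      calc |Wt w (β / s)| * β ^ j ≤ (M2 / (1 + β / s) ^ j) * ((1 + β / s) ^ j * s1 ^ j) :=
            mul_le_mul h5 h7 (by positivity) (by positivity)
        _ = M2 * s1 ^ j := by field_simp
    calc (Real.sqrt B)⁻¹ * (|gv v s| * |Wt w (β / s)|) * β ^ j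
        = (Real.sqrt B)⁻¹ * (|gv v s| * (|Wt w (β / s)| * β ^ j)) := by ring
      _ ≤ (Real.sqrt B)⁻¹ * (M1 * (M2 * s1 ^ j)) := by
          refine mul_le_mul_of_nonneg_left ?_ (inv_pos.mpr hsB).le
          exact mul_le_mul (h2 _) h6 (by positivity) hM1
      _ = _ := by ring

end Crest.Agent.R012.MC
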