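import Crest.Agent.R012.TateC_413
import Crest.Agent.R012.PoissonS_581
import Crest.Agent.R012.CstDefs_566
import Crest.Agent.R012.Cst3_566
import Crest.Agent.R012.LatW_413

-- ▼ part R012/TateS_413
section

/-!
# Row 12 (MK12): the Tate identity for Schwartz functions and the constant `Iw`

* `tate_schwartz`
* `Iw_eq : Iw w = π^(1/3) 2^(-5/3) Γ(1/3)/Γ(2/3) mel w (2/3)`.
-/

set_option autoImplicit false

noncomputable section

open MeasureTheory Set Complex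
open scoped SchwartzMap ContDiff

namespace Crest.Agent.R012.TateC413

open Crest.Agent.R012 Crest.Agent.R012.Po581 Crest.Agent.R012.MC

lemma integrable_mul_rpow {g : ℂ → ℂ} (hg : AEStronglyMeasurable g volume) {C : ℝ}
    (hC : ∀ z, ‖g z‖ ≤ C / (1 + ‖z‖) ^ 3) {σ : ℝ} (hσ0 : 0 ≤ σ) (hσ1 : σ < 1) :
    Integrable (fun z => ((‖z‖ ^ (-(2 * σ)) : ℝ) : ℂ) * g z) := by
  have hdom : Integrable (fun z : ℂ => C * (‖z‖ ^ (-(2 * σ)) / (1 + ‖z‖) ^ 3)) := by
    apply Integrable.const_mul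
    rw [integrable_radial (f := fun y => y ^ (-(2 * σ)) / (1 + y) ^ 3)]
    have hsplit : Ioi (0 : ℝ) = Ioc 0 1 ∪ Ioi 1 := (Ioc_union_Ioi_eq_Ioi zero_le_one).symm
    rw [hsplit]
    apply IntegrableOn.union
    · have h1 : IntegrableOn (fun y : ℝ => y ^ (1 - 2 * σ)) (Ioc 0 1) := by
        rw [← intervalIntegrable_iff_integrableOn_Ioc_of_le zero_le_one]
        exact intervalIntegral.intervalIntegrable_rpow' (by linarith)
      refine h1.mono' ?_ ?_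
      · apply Measurable.aestronglyMeasurable
        apply Measurable.mul measurable_id
        exact (measurable_id.pow_const _).div (by fun_prop)
      · filter_upwards [ae_restrict_mem measurableSet_Ioc] with y hy
        have hy0 : 0 < y := hy.1
        rw [smul_eq_mul, Real.norm_of_nonneg (by positivity)]
        have e : y ^ (1 - 2 * σ) = y * y ^ (-(2 * σ)) := by
          rw [sub_eq_add_neg, Real.rpow_add hy0, Real.rpow_one]
        rw [e]
        gcongr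
        apply div_le_self (by positivity)
        have : 1 ≤ 1 + y := by linarith
        exact one_le_pow₀ this
    · have h1 : IntegrableOn (fun y : ℝ => y ^ (-2 : ℝ)) (Ioi 1) :=
        integrableOn_Ioi_rpow_of_lt (by norm_num) one_pos
      refine h1.mono' ?_ ?_
      · apply Measurable.aestronglyMeasurable
        apply Measurable.mul measurable_id
        exact (measurable_id.pow_const _).div (by fun_prop)
      · filter_upwards [ae_restrict_mem measurableSet_Ioi] with y hy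
        have hy1 : 1 < y := hy
        have hy0 : 0 < y := by linarith
        rw [smul_eq_mul, Real.norm_of_nonneg (by positivity)]
        have h2 : y ^ (-(2 * σ)) ≤ 1 := Real.rpow_le_one_of_one_le_of_nonpos hy1.le (by linarith)
        have h3 : y ^ (-2 : ℝ) = y / y ^ 3 := by
          rw [Real.rpow_neg hy0.le, show (2 : ℝ) = ((2 : ℕ) : ℝ) by norm_num, Real.rpow_natCast]
          field_simp
        rw [h3, ← mul_div_assoc]
        have h4 : y * y ^ (-(2 * σ)) ≤ y := by nlinarith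
        have h5 : y ^ 3 ≤ (1 + y) ^ 3 := by gcongr; linarith
        exact div_le_div₀ hy0.le h4 (by positivity) h5
  refine hdom.mono' ?_ ?_
  · exact ((Complex.measurable_ofReal.comp
      (continuous_norm.measurable.pow_const _)).aestronglyMeasurable).mul hg
  · refine Filter.Eventually.of_forall fun z => ?_
    rw [norm_mul, Complex.norm_real, Real.norm_of_nonneg (by positivity)]
    have := hC z
    calc ‖z‖ ^ (-(2 * σ)) * ‖g z‖ ≤ ‖z‖ ^ (-(2 * σ)) * (C / (1 + ‖z‖) ^ 3) := by gcongr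
      _ = C * (‖z‖ ^ (-(2 * σ)) / (1 + ‖z‖) ^ 3) := by ring

lemma ft_eq_fC (f : ℂ → ℂ) (u : ℂ) : ∫ z, f z * eC (z * u) = fC f (-u) := by
  unfold fC
  congr 1
  funext z
  congr 2
  ring

/-- **Tate identity, Schwartz functions**, for `fC f ξ = ∫ f(z) e(-ξ z) dz`. -/
theorem tate_schwartz (f : 𝓢(ℂ, ℂ)) {σ : ℝ} (hσ0 : 0 < σ) (hσ1 : σ < 1) :
    ∫ u, ((‖u‖ ^ (-(2 * σ)) : ℝ) : ℂ) * fC f u =
      ((Real.pi * Real.Gamma (1 - σ) / Real.Gamma σ * (4 * Real.pi ^ 2) ^ (σ - 1) : ℝ) : ℂ) *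
        ∫ z, ((‖z‖ ^ (-(2 * (1 - σ))) : ℝ) : ℂ) * f z := by
  obtain ⟨C, hC0, hC⟩ := schwartz_decay' f 3
  obtain ⟨C', hC0', hC'⟩ := fC_decay f 3
  have hF : Integrable (fun u => ((‖u‖ ^ (-(2 * σ)) : ℝ) : ℂ) * fC f u) :=
    integrable_mul_rpow (fC_continuous f).aestronglyMeasurable hC' hσ0.le hσ1
  have h := tate (f := f) hσ0 hσ1 f.integrable
    (integrable_mul_rpow f.continuous.aestronglyMeasurable hC (by linarith) (by linarith))
    (by
      simp_rw [ft_eq_fC]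
      have := hF.comp_neg
      simpa using this)
  rw [← h]
  simp_rw [ft_eq_fC]
  rw [← integral_neg_eq_self]
  simp

/-- Substitution `x = y²`. -/
lemma mel_sq (w : ℝ → ℝ) (s : ℝ) :
    ∫ y in Ioi (0 : ℝ), y * (y ^ (2 * s - 2) * w (y ^ 2)) = 1 / 2 * mel w s := by
  have h := integral_comp_rpow_Ioi_of_pos (g := fun x => w x * x ^ (s - 1)) (p := 2) (by norm_num)
  unfold mel
  rw [← h, ← integral_const_mul]
  apply setIntegral_congr_fun measurableSet_Ioi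
  intro y hy
  have hy' : (0 : ℝ) < y := hy
  simp only [smul_eq_mul]
  rw [← Real.rpow_mul hy'.le, Real.rpow_two, show (2 : ℝ) - 1 = 1 by norm_num, Real.rpow_one,
    show 2 * (s - 1) = 2 * s - 2 by ring]
  ring

/-- `z ↦ w(|z|²)` as a Schwartz function. -/
def radS {w : ℝ → ℝ} (hw : Wgt w) : 𝓢(ℂ, ℂ) :=
  HasCompactSupport.toSchwartzMap (f := fun z : ℂ => (w (‖z‖ ^ 2) : ℂ)) (by
    obtain ⟨c1, c2, h1, h2, h⟩ := hw.exists_bounds
    apply HasCompactSupport.intro (K := Metric.closedBall (0 : ℂ) (Real.sqrt c2))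
      (isCompact_closedBall _ _)
    intro z hz
    rw [mem_closedBall_zero_iff, not_le] at hz
    have : w (‖z‖ ^ 2) = 0 := by
      by_contra h0
      have h3 := (h _ h0).2
      exact absurd (Real.le_sqrt_of_sq_le h3) (not_le.mpr hz)
    rw [this, Complex.ofReal_zero]) (by
    exact Complex.ofRealCLM.contDiff.comp (hw.smooth.comp (contDiff_norm_sq ℝ)))

@[simp] lemma radS_apply {w : ℝ → ℝ} (hw : Wgt w) (z : ℂ) : radS hw z = (w (‖z‖ ^ 2) : ℂ) := rfl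

/-- The transform of a radial function is radial. -/
lemma fC_radial (w : ℝ → ℝ) (u : ℂ) :
    fC (fun z => (w (‖z‖ ^ 2) : ℂ)) u = fC (fun z => (w (‖z‖ ^ 2) : ℂ)) (‖u‖ : ℂ) := by
  by_cases hu : u = 0
  · subst hu; simp
  have hun : (‖u‖ : ℂ) ≠ 0 := by exact_mod_cast (norm_pos_iff.mpr hu).ne'
  have hc : ‖u / (‖u‖ : ℂ)‖ = 1 := by
    rw [norm_div, Complex.norm_real, norm_norm, div_self (norm_pos_iff.mpr hu).ne']
  set c : Circle := ⟨u / (‖u‖ : ℂ), mem_sphere_zero_iff_norm.2 hc⟩ with hcdef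
  have hmp := (rotation c).measurePreserving
  unfold fC
  conv_rhs => rw [← hmp.integral_comp (rotation c).toHomeomorph.measurableEmbedding]
  congr 1
  funext z
  have e1 : ‖rotation c z‖ = ‖z‖ := LinearIsometryEquiv.norm_map _ _
  simp only [e1]
  congr 3
  rw [rotation_apply]
  simp only [hcdef]
  field_simp

lemma fC_radial_eq_Wt {w : ℝ → ℝ} (hw : Wgt w) (t : ℝ) :
    fC (fun z => (w (‖z‖ ^ 2) : ℂ)) (t : ℂ) = (Wt w t : ℂ) := by
  have hcont : Continuous (fun z : ℂ => (w (‖z‖ ^ 2) : ℂ)) := by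
    have := hw.smooth.continuous
    fun_prop
  have e1 : fC (fun z => (w (‖z‖ ^ 2) : ℂ)) (t : ℂ) = ∫ z : ℂ, (w (‖z‖ ^ 2) : ℂ) * eC (z * (t : ℂ)) := by
    unfold fC
    rw [← integral_neg_eq_self]
    congr 1
    funext z
    simp only [norm_neg]
    congr 2
    ring
  have e2 : (starRingEnd ℂ) (∫ z : ℂ, (w (‖z‖ ^ 2) : ℂ) * eC (z * (t : ℂ))) =
      ∫ z : ℂ, (w (‖z‖ ^ 2) : ℂ) * eC (z * (t : ℂ)) := by
    rw [← integral_conj, ← integral_neg_eq_self]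
    congr 1
    funext z
    rw [norm_neg, map_mul, Complex.conj_ofReal]
    congr 1
    rw [eC_eq, eC_eq, ← Complex.exp_conj]
    congr 1
    rw [map_mul, Complex.conj_I, Complex.conj_ofReal]
    simp
  rw [e1, Wt]
  exact (Complex.conj_eq_iff_re.mp e2).symm

/-- **The constant of the first moment.** -/
theorem Iw_eq {w : ℝ → ℝ} (hw : Wgt w) :
    Iw w = Real.pi ^ ((1 : ℝ) / 3) * 2 ^ (-((5 : ℝ) / 3)) * Real.Gamma (1 / 3) /
      Real.Gamma (2 / 3) * mel w (2 / 3) := by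
  have h := tate_schwartz (radS hw) (σ := 2 / 3) (by norm_num) (by norm_num)
  have e0 : (radS hw : ℂ → ℂ) = fun z => (w (‖z‖ ^ 2) : ℂ) := rfl
  -- left side
  have hl : ∫ u, ((‖u‖ ^ (-(2 * (2 / 3 : ℝ))) : ℝ) : ℂ) * fC (radS hw) u =
      ((2 * Real.pi * Iw w : ℝ) : ℂ) := by
    have e1 : ∀ u : ℂ, ((‖u‖ ^ (-(2 * (2 / 3 : ℝ))) : ℝ) : ℂ) * fC (radS hw) u =
        (((fun y : ℝ => y ^ (-(2 * (2 / 3 : ℝ))) * Wt w y) ‖u‖ : ℝ) : ℂ) := by
      intro u
      rw [e0, fC_radial, fC_radial_eq_Wt hw]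
      push_cast
      rfl
    simp_rw [e1]
    rw [integral_complex_ofReal,
      integral_radial (fun y : ℝ => y ^ (-(2 * (2 / 3 : ℝ))) * Wt w y)]
    congr 1
    rw [smul_eq_mul, Iw]
    congr 1
    apply setIntegral_congr_fun measurableSet_Ioi
    intro y hy
    have hy' : (0 : ℝ) < y := hy
    simp only [smul_eq_mul]
    have e2 : y ^ (-(1 / 3) : ℝ) = y * y ^ (-(2 * (2 / 3 : ℝ))) := by
      rw [← Real.rpow_one_add' hy'.le (by norm_num)]
      norm_num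
    rw [e2]; ring
  have hr : ∫ z, ((‖z‖ ^ (-(2 * (1 - 2 / 3 : ℝ))) : ℝ) : ℂ) * radS hw z =
      ((Real.pi * mel w (2 / 3) : ℝ) : ℂ) := by
    have e1 : ∀ z : ℂ, ((‖z‖ ^ (-(2 * (1 - 2 / 3 : ℝ))) : ℝ) : ℂ) * radS hw z =
        (((fun y : ℝ => y ^ (2 * (2 / 3 : ℝ) - 2) * w (y ^ 2)) ‖z‖ : ℝ) : ℂ) := by
      intro z
      rw [radS_apply, ← Complex.ofReal_mul]
      congr 3
      norm_num
    simp_rw [e1]
    rw [integral_complex_ofReal,
      integral_radial (fun y : ℝ => y ^ (2 * (2 / 3 : ℝ) - 2) * w (y ^ 2))]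
    congr 1
    simp only [smul_eq_mul]
    rw [mel_sq]
    ring
  rw [hl, hr, ← Complex.ofReal_mul, Complex.ofReal_inj] at h
  have hpi := Real.pi_pos
  have h3 : Iw w = (1 / (2 * Real.pi)) * (Real.pi * Real.Gamma (1 - 2 / 3) / Real.Gamma (2 / 3) *
      (4 * Real.pi ^ 2) ^ ((2 : ℝ) / 3 - 1) * (Real.pi * mel w (2 / 3))) := by
    rw [← h]; field_simp
  rw [h3, show (1 : ℝ) - 2 / 3 = 1 / 3 by norm_num, show (2 : ℝ) / 3 - 1 = -(1 / 3) by norm_num]
  have e5 : (4 * Real.pi ^ 2 : ℝ) ^ (-(1 / 3) : ℝ) = 2 ^ (-(2 / 3) : ℝ) * Real.pi ^ (-(2 / 3) : ℝ) := by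
    rw [show (4 * Real.pi ^ 2 : ℝ) = (2 * Real.pi) ^ (2 : ℝ) by rw [Real.rpow_two]; ring,
      ← Real.rpow_mul (by positivity), Real.mul_rpow (by norm_num) hpi.le]
    norm_num
  have e6 : (2 : ℝ) ^ (-(5 / 3) : ℝ) = 2 ^ (-(2 / 3) : ℝ) * (1 / 2) := by
    rw [show (-(5 / 3) : ℝ) = -(2 / 3) - 1 by norm_num, Real.rpow_sub_one (by norm_num)]; ring
  have e7 : Real.pi ^ ((1 : ℝ) / 3) = Real.pi * Real.pi ^ (-(2 / 3) : ℝ) := by
    rw [← Real.rpow_one_add' hpi.le (by norm_num)]; norm_num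
  rw [e5, e6, e7]
  field_simp

end Crest.Agent.R012.TateC413
end
end

-- ▼ part R012/CubeA_777

/-!
# Row 12, item MC1c (1): the lattice sum `Σ_{m ≠ 0} Wt w (|u m|³)`

`sig w u = |u|² Σ_{m ≠ 0} Wt w (|u m|³)` is bounded and tends to `(4π/(3√3)) Iw w` as `u → 0`.
-/

set_option autoImplicit false

noncomputable section

open MeasureTheory Complex Set Filter Topology
open scoped ContDiff SchwartzMap FourierTransform

namespace Crest.Agent.R012.Cube777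

open Crest.Agent.R012 Crest.Agent.R012.Eis Crest.Agent.R012.MC Crest.Agent.R012.LatSum413

/-- `z ↦ 2 conj(z³)`. -/
def g3 (z : ℂ) : ℂ := 2 * (starRingEnd ℂ) (z ^ 3)

lemma g3_temperate : Function.HasTemperateGrowth g3 := by
  have h1 : Function.HasTemperateGrowth (fun z : ℂ => z ^ 3) := by
    have := (Function.HasTemperateGrowth.id' (E := ℂ)).pow 3
    exact this
  have h2 : Function.HasTemperateGrowth (fun z : ℂ => (2 : ℂ) * (starRingEnd ℂ) z) := by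
    have := ((2 : ℝ) • (Complex.conjCLE : ℂ →L[ℝ] ℂ)).hasTemperateGrowth
    convert this using 2 with z
    simp
  exact h2.comp h1

lemma g3_upper : ∃ (k : ℕ) (C : ℝ), ∀ x, ‖x‖ ≤ C * (1 + ‖g3 x‖) ^ k := by
  refine ⟨1, 1, fun x => ?_⟩
  rw [pow_one, one_mul]
  unfold g3
  rw [norm_mul, RCLike.norm_conj, norm_pow]
  have h2 : ‖(2 : ℂ)‖ = 2 := by simp
  rw [h2]
  rcases le_total ‖x‖ 1 with h | h
  · have : 0 ≤ ‖x‖ ^ 3 := by positivity
    linarith
  · have : ‖x‖ ≤ ‖x‖ ^ 3 := le_self_pow₀ h (by norm_num)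
    linarith

/-- `z ↦ Wt w (|z|³)` as a Schwartz function. -/
def F3 {w : ℝ → ℝ} (hw : Wgt w) : 𝓢(ℂ, ℂ) :=
  SchwartzMap.compCLM ℂ g3_temperate g3_upper (𝓕 (fS hw))

lemma F3_apply {w : ℝ → ℝ} (hw : Wgt w) (z : ℂ) : F3 hw z = ((Wt w (‖z‖ ^ 3) : ℝ) : ℂ) := by
  have h1 : F3 hw z = (𝓕 (fS hw)) (g3 z) := rfl
  rw [h1, SchwartzMap.fourier_coe, fS_coe]
  unfold g3
  rw [← Po581.fC_eq_fourier, fC_fw, norm_pow]

/-- `z ↦ Wt w (|z|³)`. -/
def f3 (w : ℝ → ℝ) (z : ℂ) : ℝ := Wt w (‖z‖ ^ 3)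

lemma f3_eq {w : ℝ → ℝ} (hw : Wgt w) (z : ℂ) : f3 w z = (F3 hw z).re := by
  rw [F3_apply]; rfl

lemma f3_continuous {w : ℝ → ℝ} (hw : Wgt w) : Continuous (f3 w) := by
  have : f3 w = fun z => (F3 hw z).re := funext (f3_eq hw)
  rw [this]
  exact Complex.continuous_re.comp (F3 hw).continuous

lemma f3_integrable {w : ℝ → ℝ} (hw : Wgt w) : Integrable (f3 w) := by
  have : f3 w = fun z => (F3 hw z).re := funext (f3_eq hw)
  rw [this]
  exact (F3 hw).integrable.re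

lemma f3_decay {w : ℝ → ℝ} (hw : Wgt w) : ∃ K, 0 ≤ K ∧ ∀ z, ‖f3 w z‖ ≤ K * wt3 z := by
  obtain ⟨K, hK, h⟩ := decay_schwartz (F3 hw)
  refine ⟨K, hK, fun z => ?_⟩
  rw [f3_eq hw]
  exact (Complex.abs_re_le_norm _).trans (h z)

lemma f3_second {w : ℝ → ℝ} (hw : Wgt w) : ∃ M, 0 ≤ M ∧ ∀ z h, ‖h‖ ≤ 1 →
    ‖f3 w (z + h) + f3 w (z - h) - (2 : ℝ) • f3 w z‖ ≤ M * wt3 z * ‖h‖ ^ 2 := by
  obtain ⟨M, hM, h⟩ := second_diff_schwartz (F3 hw)
  refine ⟨M, hM, fun z y hy => ?_⟩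
  have e : f3 w (z + y) + f3 w (z - y) - (2 : ℝ) • f3 w z =
      (F3 hw (z + y) + F3 hw (z - y) - (2 : ℝ) • F3 hw z).re := by
    rw [f3_eq hw, f3_eq hw, f3_eq hw]
    simp
  rw [e]
  exact (Complex.abs_re_le_norm _).trans (h z y hy)

lemma integral_f3 (w : ℝ → ℝ) : ∫ z, f3 w z = 2 * Real.pi / 3 * Iw w := by
  have h := TateC413.integral_radial (fun r : ℝ => Wt w (r ^ 3))
  have h0 : (∫ z, f3 w z) = ∫ z : ℂ, (fun r : ℝ => Wt w (r ^ 3)) ‖z‖ := rfl
  rw [h0, h]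
  unfold Iw
  have h2 := integral_comp_rpow_Ioi_of_pos (g := fun y : ℝ => (1 / 3 : ℝ) * (Wt w y * y ^ (-(1 / 3) : ℝ)))
    (p := 3) (by norm_num)
  have e1 : ∫ x in Ioi (0 : ℝ), ((3 : ℝ) * x ^ ((3 : ℝ) - 1)) •
      (fun y : ℝ => (1 / 3 : ℝ) * (Wt w y * y ^ (-(1 / 3) : ℝ))) (x ^ (3 : ℝ)) =
      ∫ x in Ioi (0 : ℝ), x • Wt w (x ^ 3) := by
    apply setIntegral_congr_fun measurableSet_Ioi
    intro x hx
    simp only [mem_Ioi] at hx
    simp only [smul_eq_mul]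
    have e2 : x ^ (3 : ℝ) = x ^ 3 := by
      rw [show (3 : ℝ) = ((3 : ℕ) : ℝ) by norm_num, Real.rpow_natCast]
    have e3 : (x ^ 3) ^ (-(1 / 3) : ℝ) = x⁻¹ := by
      rw [← Real.rpow_natCast x 3, ← Real.rpow_mul hx.le]
      norm_num
      rw [Real.rpow_neg_one]
    have e4 : x ^ ((3 : ℝ) - 1) = x ^ 2 := by
      rw [show (3 : ℝ) - 1 = ((2 : ℕ) : ℝ) by norm_num, Real.rpow_natCast]
    rw [e2, e3, e4]
    field_simp
  rw [← e1, h2, integral_const_mul]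
  simp only [smul_eq_mul]
  ring

/-- `|u|² Σ_{m ≠ 0} Wt w (|u m|³)`. -/
def sig (w : ℝ → ℝ) (u : ℂ) : ℝ := ‖u‖ ^ 2 * lsum (f3 w) u

/-- bound and asymptotics at `0`. -/
theorem sig_bound {w : ℝ → ℝ} (hw : Wgt w) : ∃ K : ℝ, 0 ≤ K ∧
    (∀ u : ℂ, u ≠ 0 → |sig w u| ≤ K) ∧
    (∀ u : ℂ, u ≠ 0 → |sig w u - 4 * Real.pi / (3 * Real.sqrt 3) * Iw w| ≤ K * ‖u‖) := by
  obtain ⟨M, hM, h2⟩ := f3_second hw
  obtain ⟨K₀, hK₀, h0⟩ := f3_decay hw
  set D := Kdec (f3 w) M K₀ with hD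
  have hD0 : 0 ≤ D := Kdec_nonneg _ hM hK₀
  have hI := integral_f3 w
  set I := ∫ z, f3 w z with hIdef
  have hs3 : 0 < Real.sqrt 3 := by positivity
  refine ⟨D + 2 / Real.sqrt 3 * |I|, by positivity, fun u hu => ?_, fun u hu => ?_⟩
  · have hun := norm_pos_iff.mpr hu
    have h := lsum_decay (f3_continuous hw) (f3_integrable hw) hM hK₀ h2 h0 (β := 2)
      (by norm_num) le_rfl hu
    rw [← hD, ← hIdef, smul_eq_mul, Real.norm_eq_abs] at h
    have e : sig w u = ‖u‖ ^ 2 * (lsum (f3 w) u - 2 / Real.sqrt 3 / ‖u‖ ^ 2 * I) +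
        2 / Real.sqrt 3 * I := by
      unfold sig; field_simp; ring
    rw [e]
    refine (abs_add_le _ _).trans ?_
    rw [abs_mul, abs_mul, abs_of_nonneg (a := ‖u‖ ^ 2) (by positivity),
      abs_of_nonneg (a := 2 / Real.sqrt 3) (by positivity)]
    have h3 : ‖u‖ ^ 2 * |lsum (f3 w) u - 2 / Real.sqrt 3 / ‖u‖ ^ 2 * I| ≤ D := by
      calc _ ≤ ‖u‖ ^ 2 * (D * ‖u‖ ^ (-(2 : ℝ))) := mul_le_mul_of_nonneg_left h (by positivity)
        _ = D := by
          rw [Real.rpow_neg hun.le, show (2 : ℝ) = ((2 : ℕ) : ℝ) by norm_num, Real.rpow_natCast]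
          field_simp
    linarith
  · have hun := norm_pos_iff.mpr hu
    have h := lsum_decay (f3_continuous hw) (f3_integrable hw) hM hK₀ h2 h0 (β := 1)
      (by norm_num) (by norm_num) hu
    rw [← hD, ← hIdef, smul_eq_mul, Real.norm_eq_abs] at h
    have e : sig w u - 4 * Real.pi / (3 * Real.sqrt 3) * Iw w =
        ‖u‖ ^ 2 * (lsum (f3 w) u - 2 / Real.sqrt 3 / ‖u‖ ^ 2 * I) := by
      have : 4 * Real.pi / (3 * Real.sqrt 3) * Iw w = 2 / Real.sqrt 3 * I := by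
        rw [hI]; field_simp; ring
      rw [this]; unfold sig; field_simp
    rw [e, abs_mul, abs_of_nonneg (a := ‖u‖ ^ 2) (by positivity)]
    calc _ ≤ ‖u‖ ^ 2 * (D * ‖u‖ ^ (-(1 : ℝ))) := mul_le_mul_of_nonneg_left h (by positivity)
      _ = D * ‖u‖ := by
        rw [Real.rpow_neg hun.le, Real.rpow_one]
        field_simp
      _ ≤ _ := by
        have : 0 ≤ 2 / Real.sqrt 3 * |I| * ‖u‖ := by positivity
        linarith

end Crest.Agent.R012.Cube777
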