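import Crest.Agent.R012.NonCube_52
import Crest.Agent.R012.LS1_879
import Crest.Agent.R012.LS2Spec_381
import Crest.Agent.R012.Spec_CR_290

/-!
# Row 12 adapters, part 1 (helper372): the large sieves

* `L1Prop_holds : NonCube52.L1Prop`, `OrdLS_holds : CR290.OrdLS`   (from `LS1_879`)
* `HBProp_of_final`, `HBLS_of_final` : the consumers' forms of Heath-Brown's large sieve from
  `LS2.Final`.
-/

set_option autoImplicit false

noncomputable section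

namespace Crest.Agent.R012.Glue372

open Finset Eis

/-- the tuples of `NonCube_52` / `Spec_CR_290` and those of `LS1_879`. -/
def tupMap : (ℕ × ℕ) × (Eis × Eis) → ℕ × ℕ × Eis × Eis := fun κ => (κ.1.1, κ.1.2, κ.2.1, κ.2.2)

lemma tupMap_injective : Function.Injective tupMap := by
  rintro ⟨⟨a, b⟩, c, d⟩ ⟨⟨a', b'⟩, c', d'⟩ h
  simp only [tupMap, Prod.mk.injEq] at h
  obtain ⟨h1, h2, h3, h4⟩ := h
  subst h1; subst h2; subst h3; subst h4; rfl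

theorem L1_core : ∃ C : ℝ, 0 < C ∧ ∀ Q B : ℝ, 1 ≤ Q → 1 ≤ B →
    ∀ (K : Finset ((ℕ × ℕ) × (Eis × Eis))),
    (∀ k ∈ K, k.1.1 < 3 ∧ k.1.2 < 3 ∧ IsPrim k.2.1 ∧ IsPrim k.2.2 ∧ Squarefree k.2.1 ∧
      Squarefree k.2.2 ∧ IsCoprime k.2.1 k.2.2 ∧ (nm k.2.1 : ℝ) * nm k.2.2 ≤ Q) →
    ∀ T : Finset Eis, (∀ b ∈ T, IsPrim b ∧ (nm b : ℝ) ≤ B) → ∀ β : Eis → ℂ,
    ∑ k ∈ K, ‖∑ b ∈ T, β b * sy (w ^ k.1.1 * lam ^ k.1.2 * k.2.1 * k.2.2 ^ 2) b‖ ^ 2 ≤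
      C * (B + Q ^ 2) * ∑ b ∈ T, ‖β b‖ ^ 2 := by
  classical
  obtain ⟨C, hC, h⟩ := LS879.ls_num_exists
  refine ⟨C, hC, fun Q B hQ hB K hK T hT β => ?_⟩
  have := h Q B hQ hB (K.image tupMap) (by
    intro k hk
    obtain ⟨κ, hκ, rfl⟩ := Finset.mem_image.mp hk
    exact hK κ hκ) T hT β
  rw [Finset.sum_image (fun x _ y _ hxy => tupMap_injective hxy)] at this
  exact this

/-- (L1) in the form of `NonCube_52`. -/
theorem L1Prop_holds : NonCube52.L1Prop := by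
  obtain ⟨C, hC, h⟩ := L1_core
  refine ⟨C, hC, fun B Q hB hQ 𝒦 hK T hT β => ?_⟩
  refine h Q B hQ hB 𝒦 (fun κ hκ => ?_) T hT β
  obtain ⟨g, hq⟩ := hK κ hκ
  exact ⟨g.hi, g.hj, g.prim1, g.prim2, g.sqf1, g.sqf2, g.cop, hq⟩

/-- (L1) in the form of `Spec_CR_290`. -/
theorem OrdLS_holds : CR290.OrdLS := by
  obtain ⟨C, hC, h⟩ := L1_core
  refine ⟨C, hC, fun Q N hQ hN S T hS hT c => ?_⟩
  have := h Q N hQ hN S (fun κ hκ => by
    obtain ⟨⟨g1, g2, g3, g4, g5, g6, g7⟩, hq⟩ := hS κ hκ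
    exact ⟨g1, g2, g3, g4, g5, g6, g7, hq⟩) T (fun b hb => hT b hb) c
  have e : ∀ x ∈ S, ‖CR290.F T c (CR290.num x)‖ ^ 2 =
      ‖∑ b ∈ T, c b * sy (w ^ x.1.1 * lam ^ x.1.2 * x.2.1 * x.2.2 ^ 2) b‖ ^ 2 := fun x _ => rfl
  rw [Finset.sum_congr rfl e, add_comm (Q ^ 2) N]
  exact this

/-- The large sieve for subsets and arbitrary coefficients from `LS2.HB`. -/
lemma HB_subset {M N C : ℝ} (hM : 0 ≤ M) (hN : 0 ≤ N) (h : LS2.HB M N C) (S T : Finset Eis)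
    (hS : ∀ m ∈ S, IsPrim m ∧ Squarefree m ∧ (nm m : ℝ) ≤ M)
    (hT : ∀ n ∈ T, IsPrim n ∧ Squarefree n ∧ (nm n : ℝ) ≤ N) (c : Eis → ℂ) :
    ∑ m ∈ S, ‖∑ n ∈ T, c n * sy m n‖ ^ 2 ≤ C * ∑ n ∈ T, ‖c n‖ ^ 2 := by
  classical
  have hSM : S ⊆ LS2.S M := fun m hm => by
    obtain ⟨h1, h2, h3⟩ := hS m hm
    exact (LS2.mem_S hM).mpr ⟨h3, h1, h2⟩
  have hTN : T ⊆ LS2.S N := fun m hm => by
    obtain ⟨h1, h2, h3⟩ := hT m hm
    exact (LS2.mem_S hN).mpr ⟨h3, h1, h2⟩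
  have key := h (fun n => if n ∈ T then c n else 0)
  have e1 : ∀ m, ∑ n ∈ LS2.S N, (if n ∈ T then c n else 0) * sy m n = ∑ n ∈ T, c n * sy m n := by
    intro m
    rw [← Finset.sum_subset hTN (fun x _ hx => by simp [hx])]
    exact Finset.sum_congr rfl fun x hx => by simp [hx]
  have e2 : ∑ n ∈ LS2.S N, ‖(if n ∈ T then c n else 0)‖ ^ 2 = ∑ n ∈ T, ‖c n‖ ^ 2 := by
    rw [← Finset.sum_subset hTN (fun x _ hx => by simp [hx])]
    exact Finset.sum_congr rfl fun x hx => by simp [hx]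
  rw [e2] at key
  refine le_trans ?_ key
  refine (Finset.sum_le_sum_of_subset_of_nonneg hSM (fun _ _ _ => by positivity)).trans
    (le_of_eq ?_)
  exact Finset.sum_congr rfl fun m _ => by rw [e1 m]

/-- (L2) in the form of `NonCube_52`. -/
theorem HBProp_of_final (h : LS2.Final) : NonCube52.HBProp := by
  intro ε hε
  obtain ⟨C, hC, hC'⟩ := h ε hε
  refine ⟨C, hC, fun M N hM hN S T hS hT c => ?_⟩
  exact HB_subset (by linarith) (by linarith) (hC' M N hM hN) S T hS hT c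


end Crest.Agent.R012.Glue372
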