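import Crest.Agent.R012.BuchE_420

/-!
# Row 12: densities of smooth / rough squarefree numbers (Rankin), counts of prime pairs
-/

set_option autoImplicit false

noncomputable section

namespace Crest.Agent.R012.Dens420

open Finset Eis Buch420

/-- `∑_{T ⊆ P} ∏_{p ∈ T} g p = ∏_{p ∈ P} (1 + g p)`. -/
lemma sum_powerset_prod (P : Finset PrP) (g : PrP → ℝ) :
    ∑ T ∈ P.powerset, ∏ p ∈ T, g p = ∏ p ∈ P, (1 + g p) := by
  rw [Finset.prod_one_add]

lemma prod_one_add_le_exp (P : Finset PrP) (g : PrP → ℝ) (hg : ∀ p ∈ P, 0 ≤ g p) :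
    ∏ p ∈ P, (1 + g p) ≤ Real.exp (∑ p ∈ P, g p) := by
  rw [Real.exp_sum]
  refine Finset.prod_le_prod (fun p hp => by have := hg p hp; linarith) fun p _ => ?_
  have := Real.add_one_le_exp (g p)
  linarith

lemma nm_pos' (p : PrP) : (0 : ℝ) < nm p.1 := by
  have := p.two_le_nm
  exact_mod_cast (by omega : 0 < nm p.1)

lemma nm_prd (T : Finset PrP) : (nm (prd T) : ℝ) = ∏ p ∈ T, (nm p.1 : ℝ) := by
  rw [← nu_eq]; rfl

lemma nm_prd_pos (T : Finset PrP) : (0 : ℝ) < nm (prd T) := by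
  rw [nm_prd]; exact Finset.prod_pos fun p _ => nm_pos' p

/-- Main generating bound: `∑_{T ∈ S} c^{|T|} / nm (∏ T) ≤ exp (c ∑_{p ∈ P} 1/nm p)` if all `T ∈ S` are
contained in `P`. -/
lemma sum_le_exp {c : ℝ} (hc : 0 ≤ c) (P : Finset PrP) (S : Finset (Finset PrP))
    (hS : ∀ T ∈ S, T ⊆ P) :
    ∑ T ∈ S, c ^ T.card / (nm (prd T) : ℝ) ≤ Real.exp (c * ∑ p ∈ P, 1 / (nm p.1 : ℝ)) := by
  have h1 : ∑ T ∈ S, c ^ T.card / (nm (prd T) : ℝ) ≤
      ∑ T ∈ P.powerset, c ^ T.card / (nm (prd T) : ℝ) :=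
    Finset.sum_le_sum_of_subset_of_nonneg (fun T hT => Finset.mem_powerset.mpr (hS T hT))
      (fun T _ _ => by have := nm_prd_pos T; positivity)
  have h2 : ∀ T ∈ P.powerset, c ^ T.card / (nm (prd T) : ℝ) = ∏ p ∈ T, (c / (nm p.1 : ℝ)) := by
    intro T _
    rw [nm_prd, Finset.prod_div_distrib, Finset.prod_const]
  rw [Finset.sum_congr rfl h2, sum_powerset_prod] at h1
  refine h1.trans ((prod_one_add_le_exp P _ fun p _ => by have := nm_pos' p; positivity).trans ?_)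
  rw [Finset.mul_sum]
  exact le_of_eq (congrArg _ (Finset.sum_congr rfl fun p _ => by ring))

lemma four_le_nm (p : PrP) : 4 ≤ nm p.1 := by
  have h1 := p.two_le_nm
  have h2 := p.isPrim.nm_mod
  omega

/-- Mertens for sets of `PrP`. -/
lemma sum_inv_le (P : Finset PrP) {y z : ℝ} (hy : 2 ≤ y) (hyz : y ≤ z)
    (hP : ∀ p ∈ P, y < (nm p.1 : ℝ) ∧ (nm p.1 : ℝ) ≤ z) :
    ∑ p ∈ P, 1 / (nm p.1 : ℝ) ≤
      2 * (Real.log (Real.log z) - Real.log (Real.log y)) + 50 / Real.log y := by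
  classical
  have h := Cheb420.sum_inv_le hy hyz (P.image (fun p => p.1)) (fun z hz => by
    rw [Finset.mem_image] at hz
    obtain ⟨p, -, rfl⟩ := hz
    exact p.2) (fun z hz => by
    rw [Finset.mem_image] at hz
    obtain ⟨p, hp, rfl⟩ := hz
    exact hP p hp)
  have hinj : Set.InjOn (fun p : PrP => p.1) (P : Set PrP) := fun a _ b _ h => Subtype.ext h
  rwa [Finset.sum_image hinj] at h

/-- full Mertens upper bound -/
lemma sum_inv_le' (P : Finset PrP) {z : ℝ} (hz : 2 ≤ z) (hP : ∀ p ∈ P, (nm p.1 : ℝ) ≤ z) :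
    ∑ p ∈ P, 1 / (nm p.1 : ℝ) ≤ 2 * Real.log (Real.log z) + 75 := by
  have h := sum_inv_le P le_rfl hz (fun p hp => ⟨by
    have := four_le_nm p
    have h4 : (4 : ℝ) ≤ nm p.1 := by exact_mod_cast this
    linarith, hP p hp⟩)
  have l1 := Real.log_two_gt_d9
  have l2 := Real.log_two_lt_d9
  have h1 : -Real.log (Real.log 2) ≤ 0.45 := by
    have h3 := Real.one_sub_inv_le_log_of_pos (show 0 < Real.log 2 by linarith)
    have h4 : (Real.log 2)⁻¹ ≤ 1.4 + 0.05 := by
      rw [inv_le_comm₀ (by linarith) (by norm_num)]; norm_num; linarith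
    linarith
  have h2 : 50 / Real.log 2 ≤ 73 := by
    rw [div_le_iff₀ (by linarith)]; linarith
  linarith


/-- **Rankin**: `∑_{T ∈ S} c^{|T|} / nm (∏ T) ≤ exp (-log Y/log w) · exp (e c (2 log log w + 75))` if all
primes of `T ∈ S` have norm `≤ w` and `nm (∏ T) ≥ Y`. -/
theorem rankin {c : ℝ} (hc : 0 ≤ c) {w Y : ℝ} (hw : 2 ≤ w) (hY : 0 < Y) (S : Finset (Finset PrP))
    (hS : ∀ T ∈ S, (∀ p ∈ T, (nm p.1 : ℝ) ≤ w) ∧ Y ≤ (nm (prd T) : ℝ)) :
    ∑ T ∈ S, c ^ T.card / (nm (prd T) : ℝ) ≤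
      Real.exp (-(Real.log Y / Real.log w)) *
        Real.exp (Real.exp 1 * c * (2 * Real.log (Real.log w) + 75)) := by
  classical
  have hlw : 0 < Real.log w := Real.log_pos (by linarith)
  set P : Finset PrP := S.biUnion id with hP
  have hPw : ∀ p ∈ P, (nm p.1 : ℝ) ≤ w := by
    intro p hp
    rw [hP, Finset.mem_biUnion] at hp
    obtain ⟨T, hT, hpT⟩ := hp
    exact (hS T hT).1 p hpT
  have hSP : ∀ T ∈ S, T ⊆ P := fun T hT => Finset.subset_biUnion_of_mem id hT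
  have hM := sum_inv_le' P hw hPw
  -- term by term
  have h1 : ∀ T ∈ S, c ^ T.card / (nm (prd T) : ℝ) ≤
      Real.exp (-(Real.log Y / Real.log w)) * ((Real.exp 1 * c) ^ T.card / (nm (prd T) : ℝ)) := by
    intro T hT
    have hn := nm_prd_pos T
    have h2 : Real.log (nm (prd T) : ℝ) ≤ T.card * Real.log w := by
      rw [nm_prd, Real.log_prod (fun p _ => (nm_pos' p).ne')]
      rw [← nsmul_eq_mul]
      refine Finset.sum_le_card_nsmul _ _ _ fun p hp => ?_
      exact Real.log_le_log (nm_pos' p) ((hS T hT).1 p hp)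
    have h3 : Real.log Y ≤ T.card * Real.log w :=
      (Real.log_le_log hY (hS T hT).2).trans h2
    have h4 : Real.log Y / Real.log w ≤ T.card := by
      rw [div_le_iff₀ hlw]; exact h3
    have h5 : 1 ≤ Real.exp (-(Real.log Y / Real.log w)) * Real.exp 1 ^ T.card := by
      rw [← Real.exp_nat_mul, ← Real.exp_add, mul_one]
      rw [← Real.exp_zero]
      exact Real.exp_le_exp.mpr (by linarith)
    have h6 : c ^ T.card / (nm (prd T) : ℝ) =
        1 * (c ^ T.card / (nm (prd T) : ℝ)) := by ring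
    rw [h6, mul_pow]
    calc 1 * (c ^ T.card / (nm (prd T) : ℝ))
        ≤ (Real.exp (-(Real.log Y / Real.log w)) * Real.exp 1 ^ T.card) *
          (c ^ T.card / (nm (prd T) : ℝ)) := by gcongr
      _ = _ := by ring
  refine (Finset.sum_le_sum h1).trans ?_
  rw [← Finset.mul_sum]
  have h7 := sum_le_exp (c := Real.exp 1 * c) (by positivity) P S hSP
  refine mul_le_mul_of_nonneg_left (h7.trans ?_) (Real.exp_pos _).le
  refine Real.exp_le_exp.mpr ?_
  exact mul_le_mul_of_nonneg_left hM (by positivity)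

/-- Elementary count: primary (or arbitrary) elements of norm `≤ R`. -/
lemma card_nm_le {R : ℝ} (hR : 1 ≤ R) (s : Finset Eis) (hs : ∀ z ∈ s, (nm z : ℝ) ≤ R) :
    (s.card : ℝ) ≤ 12 * R := by
  classical
  set a : ℕ := Nat.floor (Real.sqrt (4 * R / 3)) with ha
  have hsub : s ⊆ ((Finset.Icc (-(a : ℤ)) a ×ˢ Finset.Icc (-(a : ℤ)) a).image
      (fun ab => (⟨ab.1, ab.2⟩ : Eis))) := by
    intro z hz
    have h1 : (nm z : ℝ) ≤ R := hs z hz
    have h2 : ((nm z : ℤ) : ℝ) = (z.re : ℝ) ^ 2 - z.re * z.im + (z.im : ℝ) ^ 2 := by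
      rw [nm_cast]; push_cast; ring
    have h3 : ((nm z : ℤ) : ℝ) = (nm z : ℝ) := by norm_cast
    have key : ∀ x : ℤ, (x : ℝ) ^ 2 ≤ 4 * R / 3 → -(a : ℤ) ≤ x ∧ x ≤ a := by
      intro x hx
      have h4 : |(x : ℝ)| ≤ Real.sqrt (4 * R / 3) := Real.abs_le_sqrt hx
      have h5 : x.natAbs ≤ a := by
        rw [ha]
        refine Nat.le_floor ?_
        rw [Nat.cast_natAbs]; push_cast; exact h4
      omega
    rw [Finset.mem_image]
    refine ⟨(z.re, z.im), ?_, rfl⟩
    rw [Finset.mem_product, Finset.mem_Icc, Finset.mem_Icc]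
    refine ⟨key _ ?_, key _ ?_⟩
    · nlinarith [sq_nonneg ((z.re : ℝ) - 2 * z.im)]
    · nlinarith [sq_nonneg (2 * (z.re : ℝ) - z.im)]
  have h1 : (s.card : ℝ) ≤ (2 * a + 1 : ℝ) ^ 2 := by
    have h2 := (Finset.card_le_card hsub).trans Finset.card_image_le
    rw [Finset.card_product, Int.card_Icc] at h2
    have h3 : ((a : ℤ) + 1 - -(a : ℤ)).toNat = 2 * a + 1 := by omega
    rw [h3] at h2
    calc (s.card : ℝ) ≤ (((2 * a + 1) * (2 * a + 1) : ℕ) : ℝ) := by exact_mod_cast h2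
      _ = _ := by push_cast; ring
  have h4 : (a : ℝ) ≤ Real.sqrt (4 * R / 3) := Nat.floor_le (Real.sqrt_nonneg _)
  have h5 : Real.sqrt (4 * R / 3) ^ 2 = 4 * R / 3 := Real.sq_sqrt (by positivity)
  have h6 : 1 ≤ Real.sqrt (4 * R / 3) := by
    rw [Real.one_le_sqrt]; linarith
  have h7 : Real.sqrt (4 * R / 3) ≤ 4 * R / 3 := by nlinarith
  have ha0 : (0 : ℝ) ≤ a := Nat.cast_nonneg a
  have h8 : (2 * a + 1 : ℝ) ^ 2 ≤ (2 * Real.sqrt (4 * R / 3) + 1) ^ 2 := by gcongr
  nlinarith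

/-- The part of `b` (a finite set of primes) with primes of norm `< w` (or `≤ w`): splitting. -/
lemma filter_union (b : Finset PrP) (q : PrP → Prop) [DecidablePred q] :
    prd b = prd (b.filter q) * prd (b.filter (fun p => ¬ q p)) := by
  classical
  rw [← prd_union (Finset.disjoint_filter_filter_not b b q), Finset.filter_union_filter_not_eq]



/-- `∑_{b ∈ S} c^{ω(b)} / nm b ≤ e^{75c} (log B)^{2c}` for squarefree `b` with prime factors of norm
`≤ B`. -/
theorem sum_omega_div {c : ℝ} (hc : 0 ≤ c) {B : ℝ} (hB : 2 ≤ B) (S : Finset (Finset PrP))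
    (hS : ∀ b ∈ S, ∀ p ∈ b, (nm p.1 : ℝ) ≤ B) :
    ∑ b ∈ S, c ^ b.card / (nm (prd b) : ℝ) ≤
      Real.exp (c * (2 * Real.log (Real.log B) + 75)) := by
  classical
  set P : Finset PrP := S.biUnion id with hP
  have hPw : ∀ p ∈ P, (nm p.1 : ℝ) ≤ B := by
    intro p hp
    rw [hP, Finset.mem_biUnion] at hp
    obtain ⟨T, hT, hpT⟩ := hp
    exact hS T hT p hpT
  have hSP : ∀ T ∈ S, T ⊆ P := fun T hT => Finset.subset_biUnion_of_mem id hT
  refine (sum_le_exp hc P S hSP).trans (Real.exp_le_exp.mpr ?_)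
  exact mul_le_mul_of_nonneg_left (sum_inv_le' P hB hPw) hc


/-- passage from the weighted to the unweighted sum -/
lemma sum_le_mul_sum_div {c : ℝ} (hc : 0 ≤ c) {B : ℝ} (S : Finset (Finset PrP))
    (hS : ∀ b ∈ S, (nm (prd b) : ℝ) ≤ B) :
    ∑ b ∈ S, c ^ b.card ≤ B * ∑ b ∈ S, c ^ b.card / (nm (prd b) : ℝ) := by
  rw [Finset.mul_sum]
  refine Finset.sum_le_sum fun b hb => ?_
  have h1 := nm_prd_pos b
  rw [mul_div_assoc', le_div_iff₀ h1, mul_comm]
  exact mul_le_mul_of_nonneg_right (hS b hb) (by positivity)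

open Classical in
/-- weighted density of squarefree `b` with `w`-smooth part of norm `≥ Y`. -/
theorem sum_smooth_part {c : ℝ} (hc : 0 ≤ c) {w Y B : ℝ} (hw : 2 ≤ w) (hY : 0 < Y) (hB : 2 ≤ B)
    (S : Finset (Finset PrP))
    (hS : ∀ b ∈ S, (∀ p ∈ b, (nm p.1 : ℝ) ≤ B) ∧
      Y ≤ (nm (prd (b.filter (fun p => (nm p.1 : ℝ) ≤ w))) : ℝ)) :
    ∑ b ∈ S, c ^ b.card / (nm (prd b) : ℝ) ≤
      Real.exp (-(Real.log Y / Real.log w)) *
        Real.exp (Real.exp 1 * c * (2 * Real.log (Real.log w) + 75)) *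
        Real.exp (c * (2 * Real.log (Real.log B) + 75)) := by
  set q : PrP → Prop := fun p => (nm p.1 : ℝ) ≤ w with hq
  set f : Finset PrP → Finset PrP × Finset PrP := fun b => (b.filter q, b.filter (fun p => ¬ q p))
    with hf
  have hinj : Set.InjOn f (S : Set (Finset PrP)) := by
    intro b _ c _ h
    rw [hf] at h
    simp only [Prod.mk.injEq] at h
    rw [← Finset.filter_union_filter_not_eq q b, ← Finset.filter_union_filter_not_eq q c, h.1, h.2]
  have h1 : ∑ b ∈ S, c ^ b.card / (nm (prd b) : ℝ) =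
      ∑ x ∈ S.image f, (c ^ x.1.card / (nm (prd x.1) : ℝ)) * (c ^ x.2.card / (nm (prd x.2) : ℝ)) := by
    rw [Finset.sum_image hinj]
    refine Finset.sum_congr rfl fun b _ => ?_
    rw [hf]
    simp only
    rw [filter_union b q, nm_mul]
    have h2 : b.card = (b.filter q).card + (b.filter (fun p => ¬ q p)).card :=
      (Finset.card_filter_add_card_filter_not _).symm
    rw [h2, pow_add]
    push_cast
    rw [mul_div_mul_comm]
  have hsub : S.image f ⊆ (S.image (fun b => b.filter q)) ×ˢ (S.image (fun b => b.filter (fun p => ¬ q p))) := by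
    intro x hx
    rw [Finset.mem_image] at hx
    obtain ⟨b, hb, rfl⟩ := hx
    rw [Finset.mem_product]
    exact ⟨Finset.mem_image_of_mem _ hb, Finset.mem_image_of_mem (fun b => b.filter (fun p => ¬ q p)) hb⟩
  have hpos : ∀ T : Finset PrP, 0 ≤ c ^ T.card / (nm (prd T) : ℝ) := fun T => by
    have := nm_prd_pos T; positivity
  have h3 : ∑ x ∈ S.image f, (c ^ x.1.card / (nm (prd x.1) : ℝ)) * (c ^ x.2.card / (nm (prd x.2) : ℝ)) ≤
      ∑ x ∈ (S.image (fun b => b.filter q)) ×ˢ (S.image (fun b => b.filter (fun p => ¬ q p))),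
        (c ^ x.1.card / (nm (prd x.1) : ℝ)) * (c ^ x.2.card / (nm (prd x.2) : ℝ)) :=
    Finset.sum_le_sum_of_subset_of_nonneg hsub (fun x _ _ => mul_nonneg (hpos _) (hpos _))
  rw [Finset.sum_product] at h3
  rw [h1]
  have h5 : ∑ x ∈ S.image (fun b => b.filter q),
      ∑ y ∈ S.image (fun b => b.filter (fun p => ¬ q p)),
        (c ^ x.card / (nm (prd x) : ℝ)) * (c ^ y.card / (nm (prd y) : ℝ)) =
      (∑ x ∈ S.image (fun b => b.filter q), c ^ x.card / (nm (prd x) : ℝ)) *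
        ∑ y ∈ S.image (fun b => b.filter (fun p => ¬ q p)), c ^ y.card / (nm (prd y) : ℝ) :=
    (Finset.sum_mul_sum _ _ _ _).symm
  refine h3.trans (le_trans (le_of_eq h5) ?_)
  refine mul_le_mul ?_ ?_ (Finset.sum_nonneg fun T _ => hpos T) (by positivity)
  · refine rankin hc hw hY _ ?_
    intro T hT
    rw [Finset.mem_image] at hT
    obtain ⟨b, hb, rfl⟩ := hT
    exact ⟨fun p hp => (Finset.mem_filter.mp hp).2, (hS b hb).2⟩
  · refine sum_omega_div hc hB _ ?_
    intro T hT p hp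
    rw [Finset.mem_image] at hT
    obtain ⟨b, hb, rfl⟩ := hT
    exact (hS b hb).1 p (Finset.mem_filter.mp hp).1

/-! ### Pairs and triples of primes -/





end Crest.Agent.R012.Dens420
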