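import Crest.Agent.R012.Base_666
import Crest.Agent.R012.LatW_413
import Crest.Agent.R012.CharSum_852
import Crest.Agent.R012.Mob_705

-- ▼ part R012/GramA_858
section

/-!
# Row 12, item MG (part A): integrals of functions of `det (u, z)` on `ℂ² × ℂ²`

* `dt u z = u₁ z₂ - u₂ z₁`
* `Fr r₁ r₂ r₃ K F` : the class of test functions, `F` measurable, `‖F‖ ≤ K`, supported in
  `r₁ ≤ ‖u₁‖ ≤ r₂`, `‖u₂‖ ≤ r₃`
* `lintegral_dt_le` : `∫∫ Φ(det(u,z)) ‖F u‖ ‖F' z‖ ≤ (explicit) * ∫_{‖y‖ ≤ Y} Φ`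
* `mm τ D = min (D^(-4/3)) (D^(-2+τ))` (`0 < τ < 2/3`), `lintegral_mm_le`.
-/

set_option autoImplicit false

noncomputable section

open MeasureTheory Set Complex
open scoped ENNReal

namespace Crest.Agent.R012.Gram858

/-! ## Change of variables in `ℂ` -/

/-- Multiplication by `c` as an `ℝ`-linear map. -/
lemma det_lmul (c : ℂ) : LinearMap.det (LinearMap.mulLeft ℝ c) = ‖c‖ ^ 2 := by
  have h : LinearMap.mulLeft ℝ c = Algebra.lmul ℝ ℂ c := rfl
  rw [h, ← Algebra.norm_apply, Algebra.norm_complex_apply, Complex.normSq_eq_norm_sq]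

lemma map_mul_left {c : ℂ} (hc : c ≠ 0) :
    Measure.map (fun z : ℂ => c * z) (volume : Measure ℂ)
      = ENNReal.ofReal ((‖c‖ ^ 2)⁻¹) • (volume : Measure ℂ) := by
  have hdet : LinearMap.det (LinearMap.mulLeft ℝ c) ≠ 0 := by
    rw [det_lmul]; positivity
  have := Measure.map_linearMap_addHaar_eq_smul_addHaar (volume : Measure ℂ) hdet
  rw [det_lmul, abs_of_nonneg (by positivity)] at this
  exact this

lemma lintegral_mul_left {c : ℂ} (hc : c ≠ 0) (f : ℂ → ℝ≥0∞) :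
    ∫⁻ z, f (c * z) = ENNReal.ofReal ((‖c‖ ^ 2)⁻¹) * ∫⁻ z, f z := by
  have h := (Homeomorph.mulLeft₀ c hc).measurableEmbedding.lintegral_map (μ := volume) f
  have h2 : Measure.map (Homeomorph.mulLeft₀ c hc) (volume : Measure ℂ)
      = ENNReal.ofReal ((‖c‖ ^ 2)⁻¹) • (volume : Measure ℂ) := map_mul_left hc
  rw [h2, lintegral_smul_measure] at h
  exact h.symm

lemma lintegral_affine {c : ℂ} (hc : c ≠ 0) (b : ℂ) (f : ℂ → ℝ≥0∞) :
    ∫⁻ z, f (b - z * c) = ENNReal.ofReal ((‖c‖ ^ 2)⁻¹) * ∫⁻ z, f z := by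
  have h1 := lintegral_mul_left (c := -c) (neg_ne_zero.mpr hc) (fun z => f (b + z))
  rw [norm_neg] at h1
  rw [lintegral_add_left_eq_self (fun z => f z) b] at h1
  rw [← h1]
  congr 1
  ext z
  congr 1
  ring

lemma integral_mul_left' {E : Type*} [NormedAddCommGroup E] [NormedSpace ℝ E]
    {c : ℂ} (hc : c ≠ 0) (f : ℂ → E) :
    ∫ z, f (c * z) = ((‖c‖ ^ 2)⁻¹ : ℝ) • ∫ z, f z := by
  have h := (Homeomorph.mulLeft₀ c hc).measurableEmbedding.integral_map (μ := volume) f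
  have h2 : Measure.map (Homeomorph.mulLeft₀ c hc) (volume : Measure ℂ)
      = ENNReal.ofReal ((‖c‖ ^ 2)⁻¹) • (volume : Measure ℂ) := map_mul_left hc
  rw [h2, integral_smul_measure, ENNReal.toReal_ofReal (by positivity)] at h
  exact h.symm

/-! ## The determinant and the class of test functions -/

/-- The determinant of the frame `(u, z)`. -/
def dt (u z : ℂ × ℂ) : ℂ := u.1 * z.2 - u.2 * z.1

lemma continuous_dt : Continuous fun p : (ℂ × ℂ) × (ℂ × ℂ) => dt p.1 p.2 := by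
  unfold dt; fun_prop

lemma norm_dt_le (u z : ℂ × ℂ) : ‖dt u z‖ ≤ ‖u.1‖ * ‖z.2‖ + ‖u.2‖ * ‖z.1‖ := by
  unfold dt
  refine (norm_sub_le _ _).trans ?_
  rw [norm_mul, norm_mul]

/-- Test functions: measurable, bounded by `K`, supported in `r₁ ≤ ‖u₁‖ ≤ r₂`, `‖u₂‖ ≤ r₃`. -/
structure Fr (r₁ r₂ r₃ K : ℝ) (F : ℂ × ℂ → ℂ) : Prop where
  meas : Measurable F
  bd : ∀ u, ‖F u‖ ≤ K
  supp : ∀ u, F u ≠ 0 → r₁ ≤ ‖u.1‖ ∧ ‖u.1‖ ≤ r₂ ∧ ‖u.2‖ ≤ r₃

lemma volume_closedBall_C (r : ℝ) :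
    volume (Metric.closedBall (0 : ℂ) r) = ENNReal.ofReal r ^ 2 * NNReal.pi := by
  exact Complex.volume_closedBall 0 r

/-- Bound for the inner integral over `u`. -/
lemma lintegral_u_le {Φ : ℂ → ℝ≥0∞} (hΦ : Measurable Φ) {r₁ r₂ r₃ K : ℝ} {F : ℂ × ℂ → ℂ}
    (hF : Fr r₁ r₂ r₃ K F) {Y : ℝ} {z : ℂ × ℂ} (hz : z.1 ≠ 0)
    (hY : r₂ * ‖z.2‖ + r₃ * ‖z.1‖ ≤ Y) :
    ∫⁻ u : ℂ × ℂ, Φ (dt u z) * ‖F u‖ₑ ≤
      ENNReal.ofReal K * (ENNReal.ofReal r₂ ^ 2 * NNReal.pi) *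
        (ENNReal.ofReal ((‖z.1‖ ^ 2)⁻¹) * ∫⁻ y in Metric.closedBall (0 : ℂ) Y, Φ y) := by
  classical
  have hpt : ∀ u : ℂ × ℂ, Φ (dt u z) * ‖F u‖ₑ ≤
      (Metric.closedBall (0 : ℂ) r₂).indicator (fun _ => ENNReal.ofReal K) u.1 *
        (Metric.closedBall (0 : ℂ) Y).indicator Φ (dt u z) := by
    intro u
    by_cases h0 : F u = 0
    · simp [h0]
    · obtain ⟨h1, h2, h3⟩ := hF.supp u h0
      have hu1 : u.1 ∈ Metric.closedBall (0 : ℂ) r₂ := by simpa using h2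
      have hdt : dt u z ∈ Metric.closedBall (0 : ℂ) Y := by
        simp only [mem_closedBall_zero_iff]
        refine (norm_dt_le u z).trans (le_trans ?_ hY)
        gcongr
      rw [indicator_of_mem hu1, indicator_of_mem hdt, mul_comm]
      gcongr
      rw [← ofReal_norm]
      exact ENNReal.ofReal_le_ofReal (hF.bd u)
  have hm1 : Measurable fun u : ℂ × ℂ =>
      (Metric.closedBall (0 : ℂ) r₂).indicator (fun _ => ENNReal.ofReal K) u.1 *
        (Metric.closedBall (0 : ℂ) Y).indicator Φ (dt u z) := by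
    apply Measurable.mul
    · exact (measurable_const.indicator Metric.isClosed_closedBall.measurableSet).comp
        measurable_fst
    · refine (hΦ.indicator Metric.isClosed_closedBall.measurableSet).comp ?_
      unfold dt
      fun_prop
  calc ∫⁻ u : ℂ × ℂ, Φ (dt u z) * ‖F u‖ₑ
      ≤ ∫⁻ u : ℂ × ℂ, (Metric.closedBall (0 : ℂ) r₂).indicator (fun _ => ENNReal.ofReal K) u.1 *
        (Metric.closedBall (0 : ℂ) Y).indicator Φ (dt u z) := lintegral_mono hpt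
    _ = ∫⁻ x : ℂ, ∫⁻ y : ℂ,
        (Metric.closedBall (0 : ℂ) r₂).indicator (fun _ => ENNReal.ofReal K) x *
        (Metric.closedBall (0 : ℂ) Y).indicator Φ (dt (x, y) z) := by
        rw [Measure.volume_eq_prod, lintegral_prod _ hm1.aemeasurable]
    _ = ∫⁻ x : ℂ, (Metric.closedBall (0 : ℂ) r₂).indicator (fun _ => ENNReal.ofReal K) x *
          (ENNReal.ofReal ((‖z.1‖ ^ 2)⁻¹) * ∫⁻ y in Metric.closedBall (0 : ℂ) Y, Φ y) := by
        congr 1
        ext x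
        rw [lintegral_const_mul' _ _ (by
          by_cases hx : x ∈ Metric.closedBall (0 : ℂ) r₂
          · rw [indicator_of_mem hx]; exact ENNReal.ofReal_ne_top
          · rw [indicator_of_notMem hx]; exact ENNReal.zero_ne_top)]
        congr 1
        have := lintegral_affine hz (x * z.2) ((Metric.closedBall (0 : ℂ) Y).indicator Φ)
        rw [lintegral_indicator Metric.isClosed_closedBall.measurableSet] at this
        exact this
    _ = ENNReal.ofReal K * (ENNReal.ofReal r₂ ^ 2 * NNReal.pi) *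
        (ENNReal.ofReal ((‖z.1‖ ^ 2)⁻¹) * ∫⁻ y in Metric.closedBall (0 : ℂ) Y, Φ y) := by
        rw [lintegral_mul_const _
          (measurable_const.indicator Metric.isClosed_closedBall.measurableSet)]
        rw [lintegral_indicator_const Metric.isClosed_closedBall.measurableSet,
          volume_closedBall_C]

/-- Bound for the double integral. -/
lemma lintegral_dt_le {Φ : ℂ → ℝ≥0∞} (hΦ : Measurable Φ) {r₁ r₂ r₃ K : ℝ} {F : ℂ × ℂ → ℂ}
    (hF : Fr r₁ r₂ r₃ K F) {s₁ s₂ s₃ L : ℝ} {F' : ℂ × ℂ → ℂ} (hF' : Fr s₁ s₂ s₃ L F')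
    (hs₁ : 0 < s₁) (hr₂ : 0 ≤ r₂) (hr₃ : 0 ≤ r₃) {Y : ℝ} (hY : r₂ * s₃ + r₃ * s₂ ≤ Y) :
    ∫⁻ z : ℂ × ℂ, (∫⁻ u : ℂ × ℂ, Φ (dt u z) * ‖F u‖ₑ) * ‖F' z‖ₑ ≤
      ENNReal.ofReal K * (ENNReal.ofReal r₂ ^ 2 * NNReal.pi) *
        (ENNReal.ofReal ((s₁ ^ 2)⁻¹) * ∫⁻ y in Metric.closedBall (0 : ℂ) Y, Φ y) *
        (ENNReal.ofReal L * ((ENNReal.ofReal s₂ ^ 2 * NNReal.pi) *
          (ENNReal.ofReal s₃ ^ 2 * NNReal.pi))) := by
  classical
  set C : ℝ≥0∞ := ENNReal.ofReal K * (ENNReal.ofReal r₂ ^ 2 * NNReal.pi) *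
        (ENNReal.ofReal ((s₁ ^ 2)⁻¹) * ∫⁻ y in Metric.closedBall (0 : ℂ) Y, Φ y) with hC
  have hms : MeasurableSet ((Metric.closedBall (0 : ℂ) s₂) ×ˢ (Metric.closedBall (0 : ℂ) s₃)) :=
    Metric.isClosed_closedBall.measurableSet.prod Metric.isClosed_closedBall.measurableSet
  have hpt : ∀ z : ℂ × ℂ, (∫⁻ u : ℂ × ℂ, Φ (dt u z) * ‖F u‖ₑ) * ‖F' z‖ₑ ≤
      C * (((Metric.closedBall (0 : ℂ) s₂) ×ˢ (Metric.closedBall (0 : ℂ) s₃)).indicator
        (fun _ => ENNReal.ofReal L) z) := by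
    intro z
    by_cases h0 : F' z = 0
    · simp [h0]
    · obtain ⟨h1, h2, h3⟩ := hF'.supp z h0
      have hz1 : z.1 ≠ 0 := by
        intro h; rw [h, norm_zero] at h1; linarith
      have hzmem : z ∈ (Metric.closedBall (0 : ℂ) s₂) ×ˢ (Metric.closedBall (0 : ℂ) s₃) := by
        simp only [mem_prod, mem_closedBall_zero_iff]
        exact ⟨h2, h3⟩
      rw [indicator_of_mem hzmem]
      have hle : ENNReal.ofReal ((‖z.1‖ ^ 2)⁻¹) ≤ ENNReal.ofReal ((s₁ ^ 2)⁻¹) := by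
        apply ENNReal.ofReal_le_ofReal
        gcongr
      have hYz : r₂ * ‖z.2‖ + r₃ * ‖z.1‖ ≤ Y := le_trans (by gcongr) hY
      have := lintegral_u_le hΦ hF hz1 hYz
      gcongr
      · refine this.trans ?_
        rw [hC]
        gcongr
      · rw [← ofReal_norm]
        exact ENNReal.ofReal_le_ofReal (hF'.bd z)
  calc ∫⁻ z : ℂ × ℂ, (∫⁻ u : ℂ × ℂ, Φ (dt u z) * ‖F u‖ₑ) * ‖F' z‖ₑ
      ≤ ∫⁻ z : ℂ × ℂ, C * (((Metric.closedBall (0 : ℂ) s₂) ×ˢ
          (Metric.closedBall (0 : ℂ) s₃)).indicator (fun _ => ENNReal.ofReal L) z) :=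
        lintegral_mono hpt
    _ = C * (ENNReal.ofReal L * ((ENNReal.ofReal s₂ ^ 2 * NNReal.pi) *
          (ENNReal.ofReal s₃ ^ 2 * NNReal.pi))) := by
        rw [lintegral_const_mul _ (measurable_const.indicator hms),
          lintegral_indicator_const hms, Measure.volume_eq_prod, Measure.prod_prod,
          volume_closedBall_C, volume_closedBall_C]


/-! ## The majorant `mm` -/

/-- `min (D^(-4/3)) (D^(-2+τ))`, where `0 < τ < 2/3`. -/
def mm (τ D : ℝ) : ℝ := min (D ^ (-(4 / 3) : ℝ)) (D ^ (-2 + τ))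

lemma mm_nonneg {τ D : ℝ} (hD : 0 ≤ D) : 0 ≤ mm τ D := by
  unfold mm; positivity

lemma mm_zero {τ : ℝ} (hτ : τ < 2 / 3) : mm τ 0 = 0 := by
  unfold mm
  rw [Real.zero_rpow (by norm_num), Real.zero_rpow (by linarith), min_self]

lemma mm_of_le_one {τ D : ℝ} (hτ : τ < 2 / 3) (h0 : 0 < D) (h1 : D ≤ 1) :
    mm τ D = D ^ (-(4 / 3) : ℝ) := by
  unfold mm
  apply min_eq_left
  exact Real.rpow_le_rpow_of_exponent_ge h0 h1 (by linarith)

lemma mm_of_one_le {τ D : ℝ} (hτ : τ < 2 / 3) (h1 : 1 ≤ D) : mm τ D = D ^ (-2 + τ) := by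
  unfold mm
  apply min_eq_right
  exact Real.rpow_le_rpow_of_exponent_le h1 (by linarith)

lemma measurable_mm {τ : ℝ} : Measurable (mm τ) := by
  unfold mm; fun_prop

/-- `∫_{‖y‖ ≤ Y} mm τ ‖y‖ ≤ 2π (3/2 + 1/τ) Y^τ` for `Y ≥ 1`. -/
lemma lintegral_mm_le {τ Y : ℝ} (hτ0 : 0 < τ) (hτ : τ < 2 / 3) (hY : 1 ≤ Y) :
    ∫⁻ y in Metric.closedBall (0 : ℂ) Y, ENNReal.ofReal (mm τ ‖y‖) ≤
      ENNReal.ofReal (2 * Real.pi * (3 / 2 + 1 / τ) * Y ^ τ) := by
  have hY0 : 0 < Y := by linarith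
  -- the integrand as a radial function
  set f : ℝ → ℝ := (Iic Y).indicator (mm τ) with hf
  have hfn : ∀ y : ℂ, (Metric.closedBall (0 : ℂ) Y).indicator
      (fun y => ENNReal.ofReal (mm τ ‖y‖)) y = ENNReal.ofReal (f ‖y‖) := by
    intro y
    by_cases hy : y ∈ Metric.closedBall (0 : ℂ) Y
    · rw [indicator_of_mem hy, hf, indicator_of_mem]
      simpa using hy
    · rw [indicator_of_notMem hy, hf, indicator_of_notMem]
      · simp
      · simpa using hy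
  have hrr : ∀ (r e : ℝ), 0 < r → r * r ^ e = r ^ (1 + e) := by
    intro r e hr
    have : r * r ^ e = r ^ (1 : ℝ) * r ^ e := by rw [Real.rpow_one]
    rw [this, ← Real.rpow_add hr]
  have hint1 : IntegrableOn (fun r : ℝ => r ^ (-(1 / 3) : ℝ)) (Ioc 0 1) := by
    have h1 : IntervalIntegrable (fun r : ℝ => r ^ (-(1 / 3) : ℝ)) volume 0 1 :=
      intervalIntegral.intervalIntegrable_rpow' (by norm_num)
    rwa [intervalIntegrable_iff_integrableOn_Ioc_of_le zero_le_one] at h1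
  have hval1 : ∫ r in Ioc (0 : ℝ) 1, r ^ (-(1 / 3) : ℝ) = 3 / 2 := by
    rw [← intervalIntegral.integral_of_le zero_le_one, integral_rpow (Or.inl (by norm_num))]
    norm_num
  have hint2 : IntegrableOn (fun r : ℝ => r ^ (-1 + τ)) (Ioc 1 Y) := by
    have h1 : IntervalIntegrable (fun r : ℝ => r ^ (-1 + τ)) volume 1 Y :=
      intervalIntegral.intervalIntegrable_rpow' (by linarith)
    rwa [intervalIntegrable_iff_integrableOn_Ioc_of_le hY] at h1
  have hval2 : ∫ r in Ioc (1 : ℝ) Y, r ^ (-1 + τ) = (Y ^ τ - 1) / τ := by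
    rw [← intervalIntegral.integral_of_le hY, integral_rpow (Or.inl (by linarith))]
    congr 1
    · rw [Real.one_rpow]; congr 2; ring
    · ring
  have hsplit : Ioc (0 : ℝ) Y = Ioc 0 1 ∪ Ioc 1 Y := (Ioc_union_Ioc_eq_Ioc zero_le_one hY).symm
  have heq1 : EqOn (fun r : ℝ => r * mm τ r) (fun r : ℝ => r ^ (-(1 / 3) : ℝ)) (Ioc 0 1) := by
    intro r hr
    simp only
    rw [mm_of_le_one hτ hr.1 hr.2, hrr _ _ hr.1]
    norm_num
  have heq2 : EqOn (fun r : ℝ => r * mm τ r) (fun r : ℝ => r ^ (-1 + τ)) (Ioc 1 Y) := by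
    intro r hr
    simp only
    have hr1 : 1 ≤ r := hr.1.le
    have hr0 : 0 < r := by linarith
    rw [mm_of_one_le hτ hr1, hrr _ _ hr0]
    congr 1
    ring
  have hI : IntegrableOn (fun r : ℝ => r * mm τ r) (Ioc 0 Y) := by
    rw [hsplit]
    exact (hint1.congr_fun heq1.symm measurableSet_Ioc).union
      (hint2.congr_fun heq2.symm measurableSet_Ioc)
  have hIv : ∫ r in Ioc (0 : ℝ) Y, r * mm τ r = 3 / 2 + (Y ^ τ - 1) / τ := by
    rw [hsplit, setIntegral_union (by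
      rw [Set.disjoint_left]
      intro x hx hx2
      exact absurd hx.2 (not_le.mpr hx2.1)) measurableSet_Ioc
      (hint1.congr_fun heq1.symm measurableSet_Ioc) (hint2.congr_fun heq2.symm measurableSet_Ioc),
      setIntegral_congr_fun measurableSet_Ioc heq1, setIntegral_congr_fun measurableSet_Ioc heq2,
      hval1, hval2]
  have hcong : EqOn (fun y : ℝ => y ^ (Module.finrank ℝ ℂ - 1) • f y)
      ((Ioc 0 Y).indicator (fun r => r * mm τ r)) (Ioi 0) := by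
    intro r hr
    have hr' : (0 : ℝ) < r := hr
    simp only [Complex.finrank_real_complex, smul_eq_mul]
    by_cases h : r ≤ Y
    · rw [hf, indicator_of_mem (show r ∈ Iic Y from h),
        indicator_of_mem (show r ∈ Ioc 0 Y from ⟨hr', h⟩)]
      norm_num
    · rw [hf, indicator_of_notMem (show r ∉ Iic Y from h),
        indicator_of_notMem (show r ∉ Ioc 0 Y from fun h' => h h'.2)]
      norm_num
  have hIf : IntegrableOn (fun y : ℝ => y ^ (Module.finrank ℝ ℂ - 1) • f y) (Ioi 0) := by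
    rw [integrableOn_congr_fun hcong measurableSet_Ioi]
    exact (hI.integrable_indicator measurableSet_Ioc).integrableOn
  have hint : Integrable (fun y : ℂ => f ‖y‖) :=
    (integrable_fun_norm_addHaar (volume : Measure ℂ)).mpr hIf
  have hval : ∫ y : ℂ, f ‖y‖ = 2 * Real.pi * (3 / 2 + (Y ^ τ - 1) / τ) := by
    rw [integral_fun_norm_addHaar]
    rw [setIntegral_congr_fun measurableSet_Ioi hcong, setIntegral_indicator measurableSet_Ioc]
    have : Ioi (0 : ℝ) ∩ Ioc 0 Y = Ioc 0 Y := by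
      ext x; simp only [mem_inter_iff, mem_Ioi, mem_Ioc]; tauto
    rw [this, hIv]
    have hv : (volume : Measure ℂ).real (Metric.ball 0 1) = Real.pi := by
      rw [Measure.real, Complex.volume_ball]
      simp
    rw [hv, Complex.finrank_real_complex]
    simp only [smul_eq_mul, nsmul_eq_mul]
    push_cast
    ring
  have hfin : 2 * Real.pi * (3 / 2 + (Y ^ τ - 1) / τ) ≤ 2 * Real.pi * (3 / 2 + 1 / τ) * Y ^ τ := by
    rw [mul_assoc (2 * Real.pi)]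
    gcongr
    have hYt : 1 ≤ Y ^ τ := Real.one_le_rpow hY hτ0.le
    have : (3 / 2 + 1 / τ) * Y ^ τ - (3 / 2 + (Y ^ τ - 1) / τ) = 3 / 2 * (Y ^ τ - 1) + 1 / τ := by
      field_simp
      ring
    have h2 : 0 ≤ 3 / 2 * (Y ^ τ - 1) + 1 / τ := by
      have : 0 < 1 / τ := by positivity
      nlinarith
    linarith
  rw [← lintegral_indicator Metric.isClosed_closedBall.measurableSet]
  simp_rw [hfn]
  rw [← ofReal_integral_eq_lintegral_ofReal hint, hval]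
  · exact ENNReal.ofReal_le_ofReal hfin
  refine Filter.Eventually.of_forall (fun y => ?_)
  exact indicator_apply_nonneg (fun _ => mm_nonneg (norm_nonneg y))

end Crest.Agent.R012.Gram858
end
end

-- ▼ part R012/GramB_858
section

/-!
# Row 12, item MG (part B): the Gram sum over cubes

* `Lsum P w D = Σ_{m ≠ 0} P m |λm|^(-6) w(D / |λm|^3)`
* `Lsum_bound` : `|Lsum P w D - κ D^(-4/3)| ≤ C mm τ D`, given the lattice sum asymptotics
* `gram_main` : the same, integrated against `F(u) conj F'(z)`, `D = |det(u,z)|`.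
-/

set_option autoImplicit false

noncomputable section

open MeasureTheory Set Complex
open scoped ENNReal ComplexConjugate

namespace Crest.Agent.R012.Gram858

open Crest.Agent.R012.Eis

/-- `‖√3 m‖` -/
def rho3 (m : Eis) : ℝ := Real.sqrt 3 * ‖toC m‖

lemma one_le_norm_toC {m : Eis} (hm : m ≠ 0) : 1 ≤ ‖toC m‖ := by
  have h1 : ‖toC m‖ ^ 2 = nm m := norm_toC_sq m
  have h2 : (1 : ℝ) ≤ nm m := by exact_mod_cast nm_pos.mpr hm
  nlinarith [norm_nonneg (toC m)]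

lemma one_lt_sqrt3 : (1 : ℝ) < Real.sqrt 3 := by
  rw [Real.lt_sqrt (by norm_num)]; norm_num

lemma one_lt_rho3 {m : Eis} (hm : m ≠ 0) : 1 < rho3 m := by
  unfold rho3
  have := one_le_norm_toC hm
  have := one_lt_sqrt3
  nlinarith

lemma rho3_pos {m : Eis} (hm : m ≠ 0) : 0 < rho3 m := lt_trans one_pos (one_lt_rho3 hm)


/-- The radial profile `r ↦ r^(-6) w(r^(-3))`. -/
def gr (w : ℝ → ℝ) (r : ℝ) : ℝ := (r ^ 6)⁻¹ * w ((r ^ 3)⁻¹)

/-- The general term of the cube sum. -/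
def Lterm (P : Eis → ℂ) (w : ℝ → ℝ) (D : ℝ) (m : Eis) : ℂ :=
  if m = 0 then 0 else P m * (((rho3 m ^ 6)⁻¹ * w (D / rho3 m ^ 3) : ℝ) : ℂ)

/-- The cube sum. -/
def Lsum (P : Eis → ℂ) (w : ℝ → ℝ) (D : ℝ) : ℂ := ∑' m : Eis, Lterm P w D m

/-- Hypothesis on the coefficients: lattice sum asymptotics for the profile `gr w`. -/
def LatHyp (P : Eis → ℂ) (w : ℝ → ℝ) (κ : ℂ) (C₀ τ : ℝ) : Prop :=
  ∀ S : ℝ, 0 < S →
    ‖(∑' m : Eis, if m = 0 then (0 : ℂ) else P m * ((gr w (rho3 m / S) : ℝ) : ℂ)) - κ * (S : ℂ) ^ 2‖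
      ≤ C₀ * (1 + S) ^ (3 * τ)

lemma Lterm_scale (P : Eis → ℂ) (w : ℝ → ℝ) {S : ℝ} (hS : 0 < S) (m : Eis) :
    Lterm P w (S ^ 3) m = (((S ^ 6)⁻¹ : ℝ) : ℂ) *
      (if m = 0 then (0 : ℂ) else P m * ((gr w (rho3 m / S) : ℝ) : ℂ)) := by
  unfold Lterm gr
  split_ifs with h
  · simp
  · have hr := rho3_pos h
    have h1 : ((rho3 m / S) ^ 3)⁻¹ = S ^ 3 / rho3 m ^ 3 := by
      rw [div_pow, inv_div]
    have h2 : (S ^ 6)⁻¹ * ((rho3 m / S) ^ 6)⁻¹ = (rho3 m ^ 6)⁻¹ := by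
      rw [div_pow]
      field_simp
    rw [h1, ← h2]
    push_cast
    ring

lemma Lterm_eq_zero (P : Eis → ℂ) {w : ℝ → ℝ} {α : ℝ} (hw : ∀ x < α, w x = 0) {D : ℝ}
    {m : Eis} (h : D / rho3 m ^ 3 < α) : Lterm P w D m = 0 := by
  unfold Lterm
  split_ifs with h0
  · rfl
  · rw [hw _ h]; simp

lemma rho3_cube_ge {m : Eis} (hm : m ≠ 0) : (nm m : ℝ) ≤ rho3 m ^ 3 ∧ 1 ≤ rho3 m ^ 3 := by
  have h1 : ‖toC m‖ ^ 2 = nm m := norm_toC_sq m
  have h2 := one_le_norm_toC hm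
  have h3 := one_lt_sqrt3
  have h4 : ‖toC m‖ ≤ rho3 m := by unfold rho3; nlinarith
  have h5 := one_lt_rho3 hm
  constructor
  · rw [← h1]
    calc ‖toC m‖ ^ 2 ≤ rho3 m ^ 2 := by gcongr
      _ ≤ rho3 m ^ 3 := pow_le_pow_right₀ h5.le (by norm_num)
  · exact one_le_pow₀ h5.le

lemma Lsum_eq_zero (P : Eis → ℂ) {w : ℝ → ℝ} {α : ℝ} (hw : ∀ x < α, w x = 0)
    {D : ℝ} (hD0 : 0 ≤ D) (hD : D < α) : Lsum P w D = 0 := by
  unfold Lsum
  have : ∀ m : Eis, Lterm P w D m = 0 := by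
    intro m
    by_cases hm : m = 0
    · simp [Lterm, hm]
    · apply Lterm_eq_zero P hw
      have := (rho3_cube_ge hm).2
      exact lt_of_le_of_lt (div_le_self hD0 this) hD
  simp [this]

/-- (MG1) pointwise bound. -/
theorem Lsum_bound {P : Eis → ℂ} {w : ℝ → ℝ} {κ : ℂ} {C₀ τ α : ℝ} (hL : LatHyp P w κ C₀ τ)
    (hα : 0 < α) (hw : ∀ x < α, w x = 0) (hτ0 : 0 < τ) (hτ : τ < 2 / 3) :
    ∀ D : ℝ, 0 ≤ D → ‖Lsum P w D - κ * ((D ^ (-(4 / 3) : ℝ) : ℝ) : ℂ)‖ ≤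
      (‖κ‖ * (1 + α) ^ (2 / 3 : ℝ) + |C₀| * 4 * (1 + α ^ (-(2 / 3) : ℝ))) * mm τ D := by
  intro D hD0
  have hm0 := mm_nonneg (τ := τ) hD0
  have hαr : 0 < α ^ (-(2 / 3) : ℝ) := by positivity
  rcases hD0.eq_or_lt with h | hDpos
  · rw [← h, mm_zero hτ, Lsum_eq_zero P hw le_rfl hα, Real.zero_rpow (by norm_num)]
    simp
  by_cases hDα : D < α
  · rw [Lsum_eq_zero P hw hD0 hDα, zero_sub, norm_neg, norm_mul, Complex.norm_real,
      Real.norm_of_nonneg (by positivity)]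
    have key : D ^ (-(4 / 3) : ℝ) ≤ (1 + α) ^ (2 / 3 : ℝ) * mm τ D := by
      rcases le_total D 1 with h1 | h1
      · rw [mm_of_le_one hτ hDpos h1]
        have : (1 : ℝ) ≤ (1 + α) ^ (2 / 3 : ℝ) := Real.one_le_rpow (by linarith) (by norm_num)
        have h3 : 0 < D ^ (-(4 / 3) : ℝ) := by positivity
        nlinarith
      · rw [mm_of_one_le hτ h1]
        have h4 : D ^ (-(4 / 3) : ℝ) = D ^ (2 / 3 - τ) * D ^ (-2 + τ) := by
          rw [← Real.rpow_add hDpos]; congr 1; ring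
        rw [h4]
        gcongr
        calc D ^ (2 / 3 - τ) ≤ D ^ (2 / 3 : ℝ) :=
              Real.rpow_le_rpow_of_exponent_le h1 (by linarith)
          _ ≤ (1 + α) ^ (2 / 3 : ℝ) := by gcongr; linarith
    calc ‖κ‖ * D ^ (-(4 / 3) : ℝ) ≤ ‖κ‖ * ((1 + α) ^ (2 / 3 : ℝ) * mm τ D) := by gcongr
      _ ≤ _ := by
        have : 0 ≤ |C₀| * 4 * (1 + α ^ (-(2 / 3) : ℝ)) * mm τ D := by positivity
        nlinarith
  · push Not at hDα
    set S : ℝ := D ^ (1 / 3 : ℝ) with hS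
    have hSpos : 0 < S := by positivity
    have hS3 : S ^ 3 = D := by
      rw [hS, ← Real.rpow_natCast, ← Real.rpow_mul hD0]; norm_num
    have hS6 : S ^ 6 = D ^ 2 := by
      rw [← hS3]; ring
    have hS2 : S ^ 2 = D ^ (2 / 3 : ℝ) := by
      rw [hS, ← Real.rpow_natCast, ← Real.rpow_mul hD0]; norm_num
    have h1 : Lsum P w D = (((S ^ 6)⁻¹ : ℝ) : ℂ) *
        (∑' m : Eis, if m = 0 then (0 : ℂ) else P m * ((gr w (rho3 m / S) : ℝ) : ℂ)) := by
      unfold Lsum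
      rw [← tsum_mul_left]
      congr 1
      ext m
      rw [← Lterm_scale P w hSpos m, hS3]
    have h2 : ((D ^ (-(4 / 3) : ℝ) : ℝ) : ℂ) = (((S ^ 6)⁻¹ : ℝ) : ℂ) * (S : ℂ) ^ 2 := by
      have : D ^ (-(4 / 3) : ℝ) = (S ^ 6)⁻¹ * S ^ 2 := by
        rw [hS6, hS2, ← Real.rpow_natCast, ← Real.rpow_neg hD0, ← Real.rpow_add hDpos]
        norm_num
      rw [this]; push_cast; ring
    have h3 : Lsum P w D - κ * ((D ^ (-(4 / 3) : ℝ) : ℝ) : ℂ) = (((S ^ 6)⁻¹ : ℝ) : ℂ) *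
        ((∑' m : Eis, if m = 0 then (0 : ℂ) else P m * ((gr w (rho3 m / S) : ℝ) : ℂ))
          - κ * (S : ℂ) ^ 2) := by
      rw [h1, h2]; ring
    rw [h3, norm_mul, Complex.norm_real, Real.norm_of_nonneg (by positivity)]
    have h4 := hL S hSpos
    have h5 : C₀ * (1 + S) ^ (3 * τ) ≤ |C₀| * (1 + S) ^ (3 * τ) := by
      gcongr; exact le_abs_self _
    have key : (S ^ 6)⁻¹ * (1 + S) ^ (3 * τ) ≤ 4 * (1 + α ^ (-(2 / 3) : ℝ)) * mm τ D := by
      have h6 : (S ^ 6)⁻¹ = D ^ (-2 : ℝ) := by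
        rw [hS6, Real.rpow_neg hD0]; norm_num
      have h2t : (2 : ℝ) ^ (3 * τ) ≤ 4 := by
        calc (2 : ℝ) ^ (3 * τ) ≤ (2 : ℝ) ^ (2 : ℝ) :=
              Real.rpow_le_rpow_of_exponent_le (by norm_num) (by linarith)
          _ = 4 := by norm_num
      rw [h6]
      rcases le_total D 1 with hD1 | hD1
      · rw [mm_of_le_one hτ hDpos hD1]
        have hS1 : S ≤ 1 := Real.rpow_le_one hD0 hD1 (by norm_num)
        have h7 : (1 + S) ^ (3 * τ) ≤ 4 := by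
          calc (1 + S) ^ (3 * τ) ≤ (2 : ℝ) ^ (3 * τ) := by gcongr; linarith
            _ ≤ 4 := h2t
        have h8 : D ^ (-2 : ℝ) = D ^ (-(2 / 3) : ℝ) * D ^ (-(4 / 3) : ℝ) := by
          rw [← Real.rpow_add hDpos]; norm_num
        have h9 : D ^ (-(2 / 3) : ℝ) ≤ α ^ (-(2 / 3) : ℝ) :=
          Real.rpow_le_rpow_of_nonpos hα hDα (by norm_num)
        have h10 : 0 < D ^ (-(4 / 3) : ℝ) := by positivity
        calc D ^ (-2 : ℝ) * (1 + S) ^ (3 * τ) ≤ D ^ (-2 : ℝ) * 4 := by gcongr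
          _ = 4 * (D ^ (-(2 / 3) : ℝ)) * D ^ (-(4 / 3) : ℝ) := by rw [h8]; ring
          _ ≤ 4 * (1 + α ^ (-(2 / 3) : ℝ)) * D ^ (-(4 / 3) : ℝ) := by gcongr; linarith
      · rw [mm_of_one_le hτ hD1]
        have hS1 : 1 ≤ S := Real.one_le_rpow hD1 (by norm_num)
        have h7 : (1 + S) ^ (3 * τ) ≤ 4 * D ^ τ := by
          calc (1 + S) ^ (3 * τ) ≤ (2 * S) ^ (3 * τ) := by gcongr; linarith
            _ = 2 ^ (3 * τ) * S ^ (3 * τ) := Real.mul_rpow (by norm_num) hSpos.le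
            _ = 2 ^ (3 * τ) * D ^ τ := by
              congr 1
              rw [hS, ← Real.rpow_mul hD0]; congr 1; ring
            _ ≤ 4 * D ^ τ := by gcongr
        calc D ^ (-2 : ℝ) * (1 + S) ^ (3 * τ) ≤ D ^ (-2 : ℝ) * (4 * D ^ τ) := by gcongr
          _ = 4 * D ^ (-2 + τ) := by rw [Real.rpow_add hDpos]; ring
          _ ≤ 4 * (1 + α ^ (-(2 / 3) : ℝ)) * D ^ (-2 + τ) := by
            have : 0 < D ^ (-2 + τ) := by positivity
            nlinarith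
    calc (S ^ 6)⁻¹ * ‖(∑' m : Eis, if m = 0 then (0 : ℂ) else
            P m * ((gr w (rho3 m / S) : ℝ) : ℂ)) - κ * (S : ℂ) ^ 2‖
        ≤ (S ^ 6)⁻¹ * (|C₀| * (1 + S) ^ (3 * τ)) := by gcongr; exact h4.trans h5
      _ = |C₀| * ((S ^ 6)⁻¹ * (1 + S) ^ (3 * τ)) := by ring
      _ ≤ |C₀| * (4 * (1 + α ^ (-(2 / 3) : ℝ)) * mm τ D) := by gcongr
      _ ≤ _ := by
        have : 0 ≤ ‖κ‖ * (1 + α) ^ (2 / 3 : ℝ) * mm τ D := by positivity
        nlinarith

/-! ## Integrals against test functions -/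

/-- The measure space of frames. -/
abbrev X2 : Type := (ℂ × ℂ) × (ℂ × ℂ)

/-- `F(u) conj F'(z)`. -/
def FF (F F' : ℂ × ℂ → ℂ) (p : X2) : ℂ := F p.1 * conj (F' p.2)

lemma measurable_FF {F F' : ℂ × ℂ → ℂ} (hF : Measurable F) (hF' : Measurable F') :
    Measurable (FF F F') := by
  unfold FF
  exact (hF.comp measurable_fst).mul
    (Complex.continuous_conj.measurable.comp (hF'.comp measurable_snd))

lemma measurable_dt : Measurable fun p : X2 => dt p.1 p.2 := continuous_dt.measurable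

lemma norm_dt_le_of {r₁ r₂ r₃ K s₁ s₂ s₃ L Y : ℝ} {F F' : ℂ × ℂ → ℂ}
    (hF : Fr r₁ r₂ r₃ K F) (hF' : Fr s₁ s₂ s₃ L F') (hY : r₂ * s₃ + r₃ * s₂ ≤ Y)
    {p : X2} (hp : FF F F' p ≠ 0) : ‖dt p.1 p.2‖ ≤ Y := by
  have h1 : F p.1 ≠ 0 := fun h => hp (by simp [FF, h])
  have h2 : F' p.2 ≠ 0 := fun h => hp (by simp [FF, h])
  obtain ⟨a1, a2, a3⟩ := hF.supp _ h1
  obtain ⟨b1, b2, b3⟩ := hF'.supp _ h2
  have hr2 : 0 ≤ r₂ := (norm_nonneg _).trans a2
  have hr3 : 0 ≤ r₃ := (norm_nonneg _).trans a3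
  refine (norm_dt_le _ _).trans (le_trans ?_ hY)
  gcongr

/-- lintegral over the product. -/
lemma lintegral_X2 {Φ : ℂ → ℝ≥0∞} (hΦ : Measurable Φ) {F F' : ℂ × ℂ → ℂ} (hF : Measurable F)
    (hF' : Measurable F') :
    ∫⁻ p : X2, Φ (dt p.1 p.2) * ‖FF F F' p‖ₑ =
      ∫⁻ z : ℂ × ℂ, (∫⁻ u : ℂ × ℂ, Φ (dt u z) * ‖F u‖ₑ) * ‖F' z‖ₑ := by
  have hm : Measurable fun p : X2 => Φ (dt p.1 p.2) * ‖FF F F' p‖ₑ :=
    (hΦ.comp measurable_dt).mul (measurable_FF hF hF').enorm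
  rw [Measure.volume_eq_prod, lintegral_prod_symm _ hm.aemeasurable]
  congr 1
  ext z
  rw [← lintegral_mul_const']
  · congr 1
    ext u
    simp only [FF]
    rw [enorm_mul, mul_assoc]
    congr 2
    rw [← ofReal_norm, ← ofReal_norm]
    simp
  · exact enorm_ne_top

/-- The constant in the Gram bounds. -/
def gc (r₂ K s₁ s₂ s₃ L : ℝ) : ℝ := Real.pi ^ 3 * (K * L * r₂ ^ 2 * s₂ ^ 2 * s₃ ^ 2 / s₁ ^ 2)

lemma lintegral_mm_X2 {r₁ r₂ r₃ K s₁ s₂ s₃ L Y τ : ℝ} {F F' : ℂ × ℂ → ℂ}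
    (hF : Fr r₁ r₂ r₃ K F) (hF' : Fr s₁ s₂ s₃ L F') (hs₁ : 0 < s₁) (hK : 0 ≤ K) (hL : 0 ≤ L)
    (hr₂ : 0 ≤ r₂) (hr₃ : 0 ≤ r₃) (hs₂ : 0 ≤ s₂) (hs₃ : 0 ≤ s₃)
    (hY1 : 1 ≤ Y) (hY : r₂ * s₃ + r₃ * s₂ ≤ Y) (hτ0 : 0 < τ) (hτ : τ < 2 / 3) :
    ∫⁻ p : X2, ENNReal.ofReal (mm τ ‖dt p.1 p.2‖) * ‖FF F F' p‖ₑ ≤
      ENNReal.ofReal (gc r₂ K s₁ s₂ s₃ L * (2 * Real.pi * (3 / 2 + 1 / τ) * Y ^ τ)) := by
  have hΦ : Measurable fun y : ℂ => ENNReal.ofReal (mm τ ‖y‖) :=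
    (measurable_mm.comp measurable_norm).ennreal_ofReal
  rw [lintegral_X2 hΦ hF.meas hF'.meas]
  refine (lintegral_dt_le hΦ hF hF' hs₁ hr₂ hr₃ hY).trans ?_
  have hpi : (NNReal.pi : ℝ≥0∞) = ENNReal.ofReal Real.pi := by
    rw [← NNReal.coe_real_pi, ENNReal.ofReal_coe_nnreal]
  have hY0 : 0 ≤ Y := by linarith
  calc ENNReal.ofReal K * (ENNReal.ofReal r₂ ^ 2 * NNReal.pi) *
        (ENNReal.ofReal ((s₁ ^ 2)⁻¹) *
          ∫⁻ y in Metric.closedBall (0 : ℂ) Y, ENNReal.ofReal (mm τ ‖y‖)) *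
        (ENNReal.ofReal L * ((ENNReal.ofReal s₂ ^ 2 * NNReal.pi) *
          (ENNReal.ofReal s₃ ^ 2 * NNReal.pi)))
      ≤ ENNReal.ofReal K * (ENNReal.ofReal r₂ ^ 2 * NNReal.pi) *
        (ENNReal.ofReal ((s₁ ^ 2)⁻¹) *
          ENNReal.ofReal (2 * Real.pi * (3 / 2 + 1 / τ) * Y ^ τ)) *
        (ENNReal.ofReal L * ((ENNReal.ofReal s₂ ^ 2 * NNReal.pi) *
          (ENNReal.ofReal s₃ ^ 2 * NNReal.pi))) := by
        gcongr
        exact lintegral_mm_le hτ0 hτ hY1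
    _ = ENNReal.ofReal (gc r₂ K s₁ s₂ s₃ L * (2 * Real.pi * (3 / 2 + 1 / τ) * Y ^ τ)) := by
        rw [hpi]
        rw [← ENNReal.ofReal_pow hr₂, ← ENNReal.ofReal_pow hs₂, ← ENNReal.ofReal_pow hs₃]
        rw [← ENNReal.ofReal_mul (by positivity), ← ENNReal.ofReal_mul (by positivity),
          ← ENNReal.ofReal_mul (by positivity), ← ENNReal.ofReal_mul (by positivity),
          ← ENNReal.ofReal_mul (by positivity), ← ENNReal.ofReal_mul (by positivity),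
          ← ENNReal.ofReal_mul (by positivity), ← ENNReal.ofReal_mul (by positivity),
          ← ENNReal.ofReal_mul (by positivity)]
        congr 1
        unfold gc
        field_simp

lemma rpow_le_mm {τ D Y : ℝ} (hD0 : 0 ≤ D) (hDY : D ≤ Y) (hY : 1 ≤ Y) (hτ : τ < 2 / 3) :
    D ^ (-(4 / 3) : ℝ) ≤ Y ^ (2 / 3 - τ) * mm τ D := by
  have hY0 : 0 < Y := by linarith
  rcases hD0.eq_or_lt with h | h
  · rw [← h, mm_zero hτ, Real.zero_rpow (by norm_num)]; simp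
  rcases le_total D 1 with h1 | h1
  · rw [mm_of_le_one hτ h h1]
    have : (1 : ℝ) ≤ Y ^ (2 / 3 - τ) := Real.one_le_rpow hY (by linarith)
    have h3 : 0 < D ^ (-(4 / 3) : ℝ) := by positivity
    nlinarith
  · rw [mm_of_one_le hτ h1]
    have h4 : D ^ (-(4 / 3) : ℝ) = D ^ (2 / 3 - τ) * D ^ (-2 + τ) := by
      rw [← Real.rpow_add h]; congr 1; ring
    rw [h4]
    gcongr

/-- Integrability criterion. -/
lemma integrable_of_bound {r₁ r₂ r₃ K s₁ s₂ s₃ L Y τ : ℝ} {F F' : ℂ × ℂ → ℂ}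
    (hF : Fr r₁ r₂ r₃ K F) (hF' : Fr s₁ s₂ s₃ L F') (hs₁ : 0 < s₁) (hK : 0 ≤ K) (hL : 0 ≤ L)
    (hr₂ : 0 ≤ r₂) (hr₃ : 0 ≤ r₃) (hs₂ : 0 ≤ s₂) (hs₃ : 0 ≤ s₃)
    (hY1 : 1 ≤ Y) (hY : r₂ * s₃ + r₃ * s₂ ≤ Y) (hτ0 : 0 < τ) (hτ : τ < 2 / 3)
    {g : ℝ → ℂ} (hg : Measurable g) {C : ℝ} (hC : 0 ≤ C)
    (hgb : ∀ D, 0 ≤ D → D ≤ Y → ‖g D‖ ≤ C * mm τ D) :
    Integrable (fun p : X2 => g ‖dt p.1 p.2‖ * FF F F' p) ∧
    ‖∫ p : X2, g ‖dt p.1 p.2‖ * FF F F' p‖ ≤
      C * (gc r₂ K s₁ s₂ s₃ L * (2 * Real.pi * (3 / 2 + 1 / τ) * Y ^ τ)) := by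
  have hm : Measurable fun p : X2 => g ‖dt p.1 p.2‖ * FF F F' p :=
    (hg.comp (measurable_norm.comp measurable_dt)).mul (measurable_FF hF.meas hF'.meas)
  have hpt : ∀ p : X2, ‖g ‖dt p.1 p.2‖ * FF F F' p‖ₑ ≤
      ENNReal.ofReal C * (ENNReal.ofReal (mm τ ‖dt p.1 p.2‖) * ‖FF F F' p‖ₑ) := by
    intro p
    by_cases hp : FF F F' p = 0
    · simp [hp]
    · have hY' := norm_dt_le_of hF hF' hY hp
      rw [enorm_mul, ← mul_assoc, ← ENNReal.ofReal_mul hC]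
      gcongr
      rw [← ofReal_norm]
      exact ENNReal.ofReal_le_ofReal (hgb _ (norm_nonneg _) hY')
  have hgc : 0 ≤ gc r₂ K s₁ s₂ s₃ L := by unfold gc; positivity
  have hY0 : 0 ≤ Y := by linarith
  have hlin : ∫⁻ p : X2, ‖g ‖dt p.1 p.2‖ * FF F F' p‖ₑ ≤
      ENNReal.ofReal (C * (gc r₂ K s₁ s₂ s₃ L * (2 * Real.pi * (3 / 2 + 1 / τ) * Y ^ τ))) := by
    calc ∫⁻ p : X2, ‖g ‖dt p.1 p.2‖ * FF F F' p‖ₑ
        ≤ ∫⁻ p : X2, ENNReal.ofReal C *
          (ENNReal.ofReal (mm τ ‖dt p.1 p.2‖) * ‖FF F F' p‖ₑ) := lintegral_mono hpt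
      _ = ENNReal.ofReal C * ∫⁻ p : X2, ENNReal.ofReal (mm τ ‖dt p.1 p.2‖) * ‖FF F F' p‖ₑ :=
          lintegral_const_mul' _ _ ENNReal.ofReal_ne_top
      _ ≤ ENNReal.ofReal C * ENNReal.ofReal (gc r₂ K s₁ s₂ s₃ L *
            (2 * Real.pi * (3 / 2 + 1 / τ) * Y ^ τ)) := by
          gcongr
          exact lintegral_mm_X2 hF hF' hs₁ hK hL hr₂ hr₃ hs₂ hs₃ hY1 hY hτ0 hτ
      _ = _ := (ENNReal.ofReal_mul hC).symm
  refine ⟨⟨hm.aestronglyMeasurable, lt_of_le_of_lt hlin ENNReal.ofReal_lt_top⟩, ?_⟩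
  have h1 := enorm_integral_le_lintegral_enorm (fun p : X2 => g ‖dt p.1 p.2‖ * FF F F' p)
    (μ := volume)
  have h2 := h1.trans hlin
  rw [← ofReal_norm, ENNReal.ofReal_le_ofReal_iff (by positivity)] at h2
  exact h2

/-- (MG3) the Gram sum, integrated against test functions. -/
theorem gram_main {P : Eis → ℂ} {w : ℝ → ℝ} (hwm : Measurable w) {W₀ : ℝ} (hwb : ∀ x, |w x| ≤ W₀)
    {κ : ℂ} {C₀ τ α : ℝ} (hL : LatHyp P w κ C₀ τ)
    (hα : 0 < α) (hw : ∀ x < α, w x = 0) (hτ0 : 0 < τ) (hτ : τ < 2 / 3)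
    {r₁ r₂ r₃ K s₁ s₂ s₃ L Y : ℝ} {F F' : ℂ × ℂ → ℂ}
    (hF : Fr r₁ r₂ r₃ K F) (hF' : Fr s₁ s₂ s₃ L F') (hs₁ : 0 < s₁) (hK : 0 ≤ K) (hLL : 0 ≤ L)
    (hr₂ : 0 ≤ r₂) (hr₃ : 0 ≤ r₃) (hs₂ : 0 ≤ s₂) (hs₃ : 0 ≤ s₃)
    (hY1 : 1 ≤ Y) (hY : r₂ * s₃ + r₃ * s₂ ≤ Y) :
    ‖(∑' m : Eis, if m = 0 then (0 : ℂ) else P m * (((rho3 m ^ 6)⁻¹ : ℝ) : ℂ) *
        ∫ p : X2, ((w (‖dt p.1 p.2‖ / rho3 m ^ 3) : ℝ) : ℂ) * FF F F' p) -
      κ * ∫ p : X2, ((‖dt p.1 p.2‖ ^ (-(4 / 3) : ℝ) : ℝ) : ℂ) * FF F F' p‖ ≤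
      (‖κ‖ * (1 + α) ^ (2 / 3 : ℝ) + |C₀| * 4 * (1 + α ^ (-(2 / 3) : ℝ))) *
        (gc r₂ K s₁ s₂ s₃ L * (2 * Real.pi * (3 / 2 + 1 / τ) * Y ^ τ)) := by
  have hY0 : 0 < Y := by linarith
  have hW₀ : 0 ≤ W₀ := (abs_nonneg _).trans (hwb 0)
  set C₁ : ℝ := ‖κ‖ * (1 + α) ^ (2 / 3 : ℝ) + |C₀| * 4 * (1 + α ^ (-(2 / 3) : ℝ)) with hC₁
  have hC₁0 : 0 ≤ C₁ := by rw [hC₁]; positivity
  -- the finite set of relevant `m`
  set N : ℕ := ⌈Y / α⌉₊ with hN
  have hvan : ∀ m : Eis, m ∉ ball N → ∀ D : ℝ, 0 ≤ D → D ≤ Y → D / rho3 m ^ 3 < α := by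
    intro m hm D hD0 hDY
    have h1 : N < nm m := by
      rw [mem_ball] at hm; omega
    have hm0 : m ≠ 0 := by
      intro h; rw [h, nm_zero] at h1; omega
    have h2 : Y / α ≤ N := Nat.le_ceil _
    have h3 : (N : ℝ) < nm m := by exact_mod_cast h1
    have h4 := (rho3_cube_ge hm0).1
    have h5 : Y / α < rho3 m ^ 3 := by linarith
    have h6 : 0 < rho3 m ^ 3 := pow_pos (rho3_pos hm0) 3
    rw [div_lt_iff₀ h6]
    rw [div_lt_iff₀ hα] at h5
    calc D ≤ Y := hDY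
      _ < rho3 m ^ 3 * α := h5
      _ = α * rho3 m ^ 3 := mul_comm _ _
  have hFF0 : ∀ p : X2, Y < ‖dt p.1 p.2‖ → FF F F' p = 0 := by
    intro p hp
    by_contra h
    exact absurd (norm_dt_le_of hF hF' hY h) (not_le.mpr hp)
  have hI0 : ∀ m : Eis, m ∉ ball N →
      ∫ p : X2, ((w (‖dt p.1 p.2‖ / rho3 m ^ 3) : ℝ) : ℂ) * FF F F' p = 0 := by
    intro m hm
    have : ∀ p : X2, ((w (‖dt p.1 p.2‖ / rho3 m ^ 3) : ℝ) : ℂ) * FF F F' p = 0 := by
      intro p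
      by_cases hp : Y < ‖dt p.1 p.2‖
      · rw [hFF0 p hp, mul_zero]
      · rw [hw _ (hvan m hm _ (norm_nonneg _) (not_lt.mp hp))]; simp
    simp [this]
  have hsum1 : (∑' m : Eis, if m = 0 then (0 : ℂ) else P m * (((rho3 m ^ 6)⁻¹ : ℝ) : ℂ) *
        ∫ p : X2, ((w (‖dt p.1 p.2‖ / rho3 m ^ 3) : ℝ) : ℂ) * FF F F' p) =
      ∑ m ∈ ball N, if m = 0 then (0 : ℂ) else P m * (((rho3 m ^ 6)⁻¹ : ℝ) : ℂ) *
        ∫ p : X2, ((w (‖dt p.1 p.2‖ / rho3 m ^ 3) : ℝ) : ℂ) * FF F F' p := by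
    apply tsum_eq_sum
    intro m hm
    rw [hI0 m hm]
    split_ifs <;> simp
  have hsumL : ∀ D : ℝ, 0 ≤ D → D ≤ Y → Lsum P w D = ∑ m ∈ ball N, Lterm P w D m := by
    intro D hD0 hDY
    unfold Lsum
    apply tsum_eq_sum
    intro m hm
    exact Lterm_eq_zero P hw (hvan m hm D hD0 hDY)
  -- integrability of each term
  have hTerm : ∀ m : Eis, Integrable (fun p : X2 => Lterm P w ‖dt p.1 p.2‖ m * FF F F' p) := by
    intro m
    by_cases hm : m = 0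
    · simp [Lterm, hm]
    have hr := rho3_pos hm
    have hr3 : 1 ≤ rho3 m ^ 3 := (rho3_cube_ge hm).2
    have hmeas : Measurable fun D : ℝ => Lterm P w D m := by
      unfold Lterm
      simp only [hm, if_false]
      apply Measurable.const_mul
      apply Complex.measurable_ofReal.comp
      exact (hwm.comp (measurable_id.div_const _)).const_mul _
    -- a lower bound for `mm` on `[α, Y]`
    have hlow : ∀ D : ℝ, α ≤ D → D ≤ Y → min (Y ^ (-(4 / 3) : ℝ)) (Y ^ (-2 + τ)) ≤ mm τ D := by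
      intro D hD1 hD2
      have hD0 : 0 < D := lt_of_lt_of_le hα hD1
      unfold mm
      apply min_le_min
      · exact Real.rpow_le_rpow_of_nonpos hD0 hD2 (by norm_num)
      · exact Real.rpow_le_rpow_of_nonpos hD0 hD2 (by linarith)
    set μ₀ : ℝ := min (Y ^ (-(4 / 3) : ℝ)) (Y ^ (-2 + τ)) with hμ₀
    have hμpos : 0 < μ₀ := by
      rw [hμ₀]; exact lt_min (by positivity) (by positivity)
    refine (integrable_of_bound hF hF' hs₁ hK hLL hr₂ hr₃ hs₂ hs₃ hY1 hY hτ0 hτ hmeas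
      (C := ‖P m‖ * ((rho3 m ^ 6)⁻¹ * W₀) / μ₀) (by positivity) ?_).1
    intro D hD0 hDY
    by_cases hDα : D / rho3 m ^ 3 < α
    · rw [Lterm_eq_zero P hw hDα, norm_zero]
      have := mm_nonneg (τ := τ) hD0
      positivity
    · push Not at hDα
      have hDα' : α ≤ D := hDα.trans (div_le_self hD0 hr3)
      have h1 := hlow D hDα' hDY
      have h2 : ‖Lterm P w D m‖ ≤ ‖P m‖ * ((rho3 m ^ 6)⁻¹ * W₀) := by
        unfold Lterm
        simp only [hm, if_false]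
        rw [norm_mul, Complex.norm_real, norm_mul, Real.norm_of_nonneg (by positivity)]
        gcongr
        exact hwb _
      calc ‖Lterm P w D m‖ ≤ ‖P m‖ * ((rho3 m ^ 6)⁻¹ * W₀) := h2
        _ = ‖P m‖ * ((rho3 m ^ 6)⁻¹ * W₀) / μ₀ * μ₀ := by field_simp
        _ ≤ ‖P m‖ * ((rho3 m ^ 6)⁻¹ * W₀) / μ₀ * mm τ D := by gcongr
  have hstep : (∑ m ∈ ball N, if m = 0 then (0 : ℂ) else P m * (((rho3 m ^ 6)⁻¹ : ℝ) : ℂ) *
        ∫ p : X2, ((w (‖dt p.1 p.2‖ / rho3 m ^ 3) : ℝ) : ℂ) * FF F F' p) =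
      ∫ p : X2, ∑ m ∈ ball N, Lterm P w ‖dt p.1 p.2‖ m * FF F F' p := by
    rw [integral_finsetSum _ (fun m _ => hTerm m)]
    refine Finset.sum_congr rfl (fun m _ => ?_)
    split_ifs with hm
    · simp [Lterm, hm]
    · rw [← integral_const_mul]
      congr 1
      ext p
      simp only [Lterm, hm, if_false]
      push_cast
      ring
  have hpt : ∀ p : X2, ∑ m ∈ ball N, Lterm P w ‖dt p.1 p.2‖ m * FF F F' p =
      Lsum P w ‖dt p.1 p.2‖ * FF F F' p := by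
    intro p
    by_cases hp : Y < ‖dt p.1 p.2‖
    · simp [hFF0 p hp]
    · rw [hsumL _ (norm_nonneg _) (not_lt.mp hp), Finset.sum_mul]
  -- the main term
  have hMain : Integrable (fun p : X2 =>
      ((‖dt p.1 p.2‖ ^ (-(4 / 3) : ℝ) : ℝ) : ℂ) * FF F F' p) := by
    have hmeas : Measurable fun D : ℝ => ((D ^ (-(4 / 3) : ℝ) : ℝ) : ℂ) := by fun_prop
    refine (integrable_of_bound hF hF' hs₁ hK hLL hr₂ hr₃ hs₂ hs₃ hY1 hY hτ0 hτ hmeas
      (C := Y ^ (2 / 3 - τ)) (by positivity) ?_).1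
    intro D hD0 hDY
    rw [Complex.norm_real, Real.norm_of_nonneg (by positivity)]
    exact rpow_le_mm hD0 hDY hY1 hτ
  -- the truncated difference
  set gd : ℝ → ℂ := fun D => (∑ m ∈ ball N, Lterm P w D m) - κ * ((D ^ (-(4 / 3) : ℝ) : ℝ) : ℂ)
    with hgd
  have hgdm : Measurable gd := by
    rw [hgd]
    apply Measurable.sub
    · apply Finset.measurable_fun_sum
      intro m _
      unfold Lterm
      split_ifs with hm
      · exact measurable_const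
      · apply Measurable.const_mul
        apply Complex.measurable_ofReal.comp
        exact (hwm.comp (measurable_id.div_const _)).const_mul _
    · fun_prop
  have hgdb : ∀ D, 0 ≤ D → D ≤ Y → ‖gd D‖ ≤ C₁ * mm τ D := by
    intro D hD0 hDY
    simp only [hgd]
    rw [← hsumL D hD0 hDY]
    exact Lsum_bound hL hα hw hτ0 hτ D hD0
  have hfinal := (integrable_of_bound hF hF' hs₁ hK hLL hr₂ hr₃ hs₂ hs₃ hY1 hY hτ0 hτ hgdm
      hC₁0 hgdb).2
  have hdiff : (∑' m : Eis, if m = 0 then (0 : ℂ) else P m * (((rho3 m ^ 6)⁻¹ : ℝ) : ℂ) *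
        ∫ p : X2, ((w (‖dt p.1 p.2‖ / rho3 m ^ 3) : ℝ) : ℂ) * FF F F' p) -
      κ * ∫ p : X2, ((‖dt p.1 p.2‖ ^ (-(4 / 3) : ℝ) : ℝ) : ℂ) * FF F F' p =
      ∫ p : X2, gd ‖dt p.1 p.2‖ * FF F F' p := by
    rw [hsum1, hstep, ← integral_const_mul, ← integral_sub]
    · congr 1
      ext p
      simp only [hgd]
      rw [← Finset.sum_mul]
      ring
    · exact integrable_finsetSum _ (fun m _ => hTerm m)
    · exact hMain.const_mul _
  rw [hdiff]
  exact hfinal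

end Crest.Agent.R012.Gram858
end
end

-- ▼ part R012/GramC_858
section

/-!
# Row 12, item MG (part C)

* `latHyp_C2` : the hypothesis `LatHyp` for the weights `Pw a` (helper413's `weighted_C2`)
* `LatHyp.add`, `LatHyp.smul`, `LatHyp.dvd`
* `prodF U φ`, `mU U`, `JJ φ φ'` and the product formula for the main term of the Gram sum.
-/

set_option autoImplicit false

noncomputable section

open MeasureTheory Set Complex Filter
open scoped ENNReal ComplexConjugate Topology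

namespace Crest.Agent.R012.Gram858

open Crest.Agent.R012.Eis Crest.Agent.R012.LatSum413

/-! ## Smoothness of the radial profile -/

/-- The radial profile as a function on `ℂ`. -/
def grC (w : ℝ → ℝ) (z : ℂ) : ℂ := ((gr w (Real.sqrt 3 * ‖z‖) : ℝ) : ℂ)

lemma gr_zero_of_small {w : ℝ → ℝ} {α β : ℝ} (hα : 0 < α) (hβ : 0 ≤ β)
    (hw : ∀ x, w x ≠ 0 → α ≤ x ∧ x ≤ β) {z : ℂ} (hz : Real.sqrt 3 * ‖z‖ < 1 / (1 + β)) :
    grC w z = 0 := by
  unfold grC gr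
  have h3 : w ((Real.sqrt 3 * ‖z‖) ^ 3)⁻¹ = 0 := by
    by_contra h
    obtain ⟨h1, h2⟩ := hw _ h
    set r := Real.sqrt 3 * ‖z‖ with hr
    have hr0 : 0 ≤ r := by positivity
    rcases hr0.eq_or_lt with h0 | h0
    · rw [← h0] at h1; norm_num at h1; linarith
    · have hb : 0 < 1 + β := by linarith
      have h5 : 1 / (1 + β) ≤ 1 := by
        rw [div_le_one hb]; linarith
      have h4 : r ^ 3 ≤ r := by
        have : r ≤ 1 := by linarith
        nlinarith [mul_nonneg hr0 hr0, mul_nonneg (mul_nonneg hr0 hr0) hr0]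
      have h6 : r ^ 3 < 1 / (1 + β) := by linarith
      have h7 : 1 + β < (r ^ 3)⁻¹ := by
        rw [lt_inv_comm₀ hb (by positivity)]
        simpa using h6
      linarith
  rw [h3]; simp

lemma gr_zero_of_large {w : ℝ → ℝ} {α β : ℝ} (hα : 0 < α)
    (hw : ∀ x, w x ≠ 0 → α ≤ x ∧ x ≤ β) {z : ℂ} (hz : 1 + 1 / α < ‖z‖) :
    grC w z = 0 := by
  unfold grC gr
  have h3 : w ((Real.sqrt 3 * ‖z‖) ^ 3)⁻¹ = 0 := by
    by_contra h
    obtain ⟨h1, -⟩ := hw _ h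
    have hz0 : 0 ≤ 1 / α := by positivity
    set r := Real.sqrt 3 * ‖z‖ with hr
    have hr1 : ‖z‖ ≤ r := by
      have := one_lt_sqrt3
      rw [hr]; nlinarith [norm_nonneg z]
    have hr2 : 1 + 1 / α < r := by linarith
    have hr3 : r ≤ r ^ 3 := by
      have h1r : 1 ≤ r := by linarith
      calc r = r ^ 1 := (pow_one r).symm
        _ ≤ r ^ 3 := pow_le_pow_right₀ h1r (by norm_num)
    have h5 : 1 / α < r ^ 3 := by linarith
    have h6 : (r ^ 3)⁻¹ < α := by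
      rw [inv_lt_comm₀ (by linarith [hz0]) hα]
      simpa using h5
    linarith
  rw [h3]; simp

lemma contDiff_grC {w : ℝ → ℝ} (hwd : ContDiff ℝ 2 w) {α β : ℝ} (hα : 0 < α) (hβ : 0 ≤ β)
    (hw : ∀ x, w x ≠ 0 → α ≤ x ∧ x ≤ β) : ContDiff ℝ 2 (grC w) := by
  rw [contDiff_iff_contDiffAt]
  intro z
  by_cases hz : z = 0
  · have hev : grC w =ᶠ[𝓝 z] fun _ => 0 := by
      have hopen : IsOpen {z : ℂ | Real.sqrt 3 * ‖z‖ < 1 / (1 + β)} :=
        isOpen_lt (by fun_prop) continuous_const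
      have hmem : z ∈ {z : ℂ | Real.sqrt 3 * ‖z‖ < 1 / (1 + β)} := by
        rw [hz]; simp only [mem_ofPred_eq, norm_zero, mul_zero]; positivity
      filter_upwards [hopen.mem_nhds hmem] with y hy
      exact gr_zero_of_small hα hβ hw hy
    exact contDiffAt_const.congr_of_eventuallyEq hev
  · have hn : ContDiffAt ℝ 2 (fun z : ℂ => Real.sqrt 3 * ‖z‖) z :=
      contDiffAt_const.mul (contDiffAt_norm ℝ hz)
    have hne : Real.sqrt 3 * ‖z‖ ≠ 0 := by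
      have := norm_pos_iff.mpr hz; positivity
    have h6 : ContDiffAt ℝ 2 (fun z : ℂ => ((Real.sqrt 3 * ‖z‖) ^ 6)⁻¹) z :=
      (hn.pow 6).inv (pow_ne_zero _ hne)
    have h3 : ContDiffAt ℝ 2 (fun z : ℂ => ((Real.sqrt 3 * ‖z‖) ^ 3)⁻¹) z :=
      (hn.pow 3).inv (pow_ne_zero _ hne)
    have h4 : ContDiffAt ℝ 2 (fun z : ℂ => w (((Real.sqrt 3 * ‖z‖) ^ 3)⁻¹)) z :=
      hwd.contDiffAt.comp z h3
    have h5 : ContDiffAt ℝ 2 (fun z : ℂ => gr w (Real.sqrt 3 * ‖z‖)) z := h6.mul h4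
    exact Complex.ofRealCLM.contDiff.contDiffAt.comp z h5

lemma hasCompactSupport_grC {w : ℝ → ℝ} {α β : ℝ} (hα : 0 < α)
    (hw : ∀ x, w x ≠ 0 → α ≤ x ∧ x ≤ β) : HasCompactSupport (grC w) := by
  apply HasCompactSupport.of_support_subset_isCompact
    (isCompact_closedBall (0 : ℂ) (1 + 1 / α))
  intro z hz
  rw [Function.mem_support] at hz
  rw [mem_closedBall_zero_iff]
  by_contra h
  push Not at h
  exact hz (gr_zero_of_large hα hw h)

/-- The value `∫_ℂ |√3 z|^(-6) w(|√3 z|^(-3)) dz`. -/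
def grI (w : ℝ → ℝ) : ℂ := ∫ z : ℂ, grC w z

open Classical in
/-- The hypothesis `LatHyp` for `Pw a`. -/
theorem latHyp_C2 {w : ℝ → ℝ} (hwd : ContDiff ℝ 2 w) {α β : ℝ} (hα : 0 < α) (hβ : 0 ≤ β)
    (hw : ∀ x, w x ≠ 0 → α ≤ x ∧ x ≤ β) {τ : ℝ} (hτ0 : 0 < τ) (hτ : τ < 2 / 3) :
    ∃ C₀ : ℝ, 0 ≤ C₀ ∧ ∀ a : Eis → ℝ, (∀ d ≠ 0, |a d| ≤ 1 / nm d) →
      LatHyp (fun m => ((Pw a m : ℝ) : ℂ)) w
        (((2 / Real.sqrt 3 * ∑' d : Eis, a d / nm d : ℝ) : ℂ) * grI w) C₀ τ := by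
  obtain ⟨C, hC, h⟩ := weighted_C2 (contDiff_grC hwd hα hβ hw) (hasCompactSupport_grC hα hw)
    (β := 3 * τ) (by linarith) (by linarith)
  refine ⟨C, hC, fun a ha S hS => ?_⟩
  have h1 := (h a ha S hS).2
  have h2 : ∀ m : Eis, (if m = 0 then (0 : ℂ) else
      ((Pw a m : ℝ) : ℂ) * ((gr w (rho3 m / S) : ℝ) : ℂ)) =
      (if m = 0 then 0 else Pw a m • grC w (toC m / S)) := by
    intro m
    split_ifs with hm
    · rfl
    · rw [Complex.real_smul]
      unfold grC rho3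
      rw [norm_div, Complex.norm_real, Real.norm_of_nonneg hS.le, mul_div_assoc]
  rw [tsum_congr h2]
  have h3 : ((2 / Real.sqrt 3 * ∑' d : Eis, a d / nm d : ℝ) : ℂ) * grI w * (S : ℂ) ^ 2 =
      (2 / Real.sqrt 3 * (∑' d : Eis, a d / nm d) * S ^ 2) • ∫ z, grC w z := by
    rw [Complex.real_smul]
    unfold grI
    push_cast
    ring
  rw [h3]
  refine h1.trans ?_
  gcongr
  linarith

/-! ## Operations on `LatHyp` -/

lemma LatHyp.mono {P : Eis → ℂ} {w : ℝ → ℝ} {κ : ℂ} {C₀ C₁ τ : ℝ} (h : LatHyp P w κ C₀ τ)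
    (hC : C₀ ≤ C₁) : LatHyp P w κ C₁ τ := by
  intro S hS
  refine (h S hS).trans ?_
  gcongr

lemma LatHyp.smul {P : Eis → ℂ} {w : ℝ → ℝ} {κ : ℂ} {C₀ τ : ℝ} (h : LatHyp P w κ C₀ τ)
    (c : ℂ) : LatHyp (fun m => c * P m) w (c * κ) (‖c‖ * C₀) τ := by
  intro S hS
  have h1 : ∀ m : Eis, (if m = 0 then (0 : ℂ) else c * P m * ((gr w (rho3 m / S) : ℝ) : ℂ)) =
      c * (if m = 0 then (0 : ℂ) else P m * ((gr w (rho3 m / S) : ℝ) : ℂ)) := by
    intro m; split_ifs <;> ring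
  rw [tsum_congr h1, tsum_mul_left]
  have h2 : c * (∑' m : Eis, if m = 0 then (0 : ℂ) else P m * ((gr w (rho3 m / S) : ℝ) : ℂ)) -
      c * κ * (S : ℂ) ^ 2 = c * ((∑' m : Eis, if m = 0 then (0 : ℂ) else
        P m * ((gr w (rho3 m / S) : ℝ) : ℂ)) - κ * (S : ℂ) ^ 2) := by ring
  rw [h2, norm_mul, mul_assoc]
  gcongr
  exact h S hS

/-- The terms of the lattice sum have finite support. -/
lemma summable_term (P : Eis → ℂ) {w : ℝ → ℝ} {α : ℝ} (hα : 0 < α) (hw : ∀ x < α, w x = 0)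
    {S : ℝ} (hS : 0 < S) :
    Summable (fun m : Eis => if m = 0 then (0 : ℂ) else P m * ((gr w (rho3 m / S) : ℝ) : ℂ)) := by
  have key : ∀ m : Eis, m ∉ ball ⌈S ^ 3 / α⌉₊ → Lterm P w (S ^ 3) m = 0 := by
    intro m hm
    have h1 : ⌈S ^ 3 / α⌉₊ < nm m := by
      rw [mem_ball] at hm; omega
    have hm0 : m ≠ 0 := by
      intro h; rw [h, nm_zero] at h1; omega
    apply Lterm_eq_zero P hw
    have h2 : S ^ 3 / α ≤ ⌈S ^ 3 / α⌉₊ := Nat.le_ceil _
    have h3 : ((⌈S ^ 3 / α⌉₊ : ℕ) : ℝ) < nm m := by exact_mod_cast h1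
    have h4 := (rho3_cube_ge hm0).1
    have h5 : S ^ 3 / α < rho3 m ^ 3 := by linarith
    have h6 : 0 < rho3 m ^ 3 := pow_pos (rho3_pos hm0) 3
    rw [div_lt_iff₀ h6]
    rw [div_lt_iff₀ hα] at h5
    linarith
  apply summable_of_ne_finset_zero (s := ball ⌈S ^ 3 / α⌉₊)
  intro m hm
  have h1 := key m hm
  rw [Lterm_scale P w hS m] at h1
  rcases mul_eq_zero.mp h1 with h | h
  · exfalso
    have : ((S ^ 6)⁻¹ : ℝ) ≠ 0 := by positivity
    exact this (by exact_mod_cast h)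
  · exact h

lemma LatHyp.add {P Q : Eis → ℂ} {w : ℝ → ℝ} {κ κ' : ℂ} {C₀ C₁ τ α : ℝ} (hα : 0 < α)
    (hw : ∀ x < α, w x = 0) (h : LatHyp P w κ C₀ τ) (h' : LatHyp Q w κ' C₁ τ) :
    LatHyp (fun m => P m + Q m) w (κ + κ') (C₀ + C₁) τ := by
  intro S hS
  have h1 : ∀ m : Eis, (if m = 0 then (0 : ℂ) else (P m + Q m) * ((gr w (rho3 m / S) : ℝ) : ℂ)) =
      (if m = 0 then (0 : ℂ) else P m * ((gr w (rho3 m / S) : ℝ) : ℂ)) +
      (if m = 0 then (0 : ℂ) else Q m * ((gr w (rho3 m / S) : ℝ) : ℂ)) := by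
    intro m; split_ifs <;> ring
  rw [tsum_congr h1, (summable_term P hα hw hS).tsum_add (summable_term Q hα hw hS)]
  have h2 := h S hS
  have h3 := h' S hS
  calc _ = ‖((∑' m : Eis, if m = 0 then (0 : ℂ) else P m * ((gr w (rho3 m / S) : ℝ) : ℂ)) -
        κ * (S : ℂ) ^ 2) + ((∑' m : Eis, if m = 0 then (0 : ℂ) else
          Q m * ((gr w (rho3 m / S) : ℝ) : ℂ)) - κ' * (S : ℂ) ^ 2)‖ := by
        congr 1; ring
    _ ≤ C₀ * (1 + S) ^ (3 * τ) + C₁ * (1 + S) ^ (3 * τ) := (norm_add_le _ _).trans (by gcongr)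
    _ = (C₀ + C₁) * (1 + S) ^ (3 * τ) := by ring

open Classical in
/-- Weights supported on multiples of `p`. -/
lemma LatHyp.dvd {P Q : Eis → ℂ} {w : ℝ → ℝ} {κ : ℂ} {C₀ τ : ℝ} (hτ0 : 0 ≤ τ) (hC₀ : 0 ≤ C₀)
    {p : Eis} (hp : p ≠ 0) (h : LatHyp Q w κ C₀ τ)
    (hP : ∀ m, P m = if p ∣ m then Q (m / p) else 0) :
    LatHyp P w (κ / nm p) C₀ τ := by
  intro S hS
  have hpC : 1 ≤ ‖toC p‖ := one_le_norm_toC hp
  have hp0 : 0 < ‖toC p‖ := by linarith
  have h1 := h (S / ‖toC p‖) (by positivity)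
  have hinj : Function.Injective (fun m : Eis => p * m) := mul_right_injective₀ hp
  have h2 : (∑' m : Eis, if m = 0 then (0 : ℂ) else P m * ((gr w (rho3 m / S) : ℝ) : ℂ)) =
      ∑' m : Eis, if m = 0 then (0 : ℂ) else
        Q m * ((gr w (rho3 m / (S / ‖toC p‖)) : ℝ) : ℂ) := by
    rw [← hinj.tsum_eq (f := fun m : Eis => if m = 0 then (0 : ℂ) else
      P m * ((gr w (rho3 m / S) : ℝ) : ℂ))]
    · apply tsum_congr
      intro m
      by_cases hm : m = 0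
      · simp [hm]
      · have hpm : p * m ≠ 0 := mul_ne_zero hp hm
        simp only [hm, hpm, if_false]
        rw [hP, if_pos (dvd_mul_right p m), mul_div_cancel_left₀ m hp]
        congr 3
        unfold rho3
        rw [map_mul, norm_mul]
        field_simp
    · intro m hm
      rw [Function.mem_support] at hm
      by_contra hn
      apply hm
      have : ¬ p ∣ m := by
        rintro ⟨t, rfl⟩
        exact hn ⟨t, rfl⟩
      rw [hP, if_neg this]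
      simp
  rw [h2]
  have h3 : κ / nm p * (S : ℂ) ^ 2 = κ * ((S / ‖toC p‖ : ℝ) : ℂ) ^ 2 := by
    have h4 : ((nm p : ℕ) : ℂ) = ((‖toC p‖ ^ 2 : ℝ) : ℂ) := by
      rw [norm_toC_sq]; push_cast; rfl
    rw [h4]
    push_cast
    rw [div_pow]
    ring
  rw [h3]
  refine h1.trans ?_
  gcongr
  exact div_le_self hS.le hpC

/-! ## The product formula -/

/-- Test functions of product type. -/
def prodF (U φ : ℂ → ℂ) (u : ℂ × ℂ) : ℂ := U u.1 * φ (u.2 / u.1)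

/-- `∫ U(z) |z|^(2/3) dz` -/
def mU (U : ℂ → ℂ) : ℂ := ∫ z : ℂ, U z * ((‖z‖ ^ (2 / 3 : ℝ) : ℝ) : ℂ)

/-- `∫∫ φ(s) conj φ'(t) |s - t|^(-4/3)` -/
def JJ (φ φ' : ℂ → ℂ) : ℂ :=
  ∫ s : ℂ, φ s * ∫ t : ℂ, ((‖t - s‖ ^ (-(4 / 3) : ℝ) : ℝ) : ℂ) * conj (φ' t)

lemma integral_scale {c : ℂ} (hc : c ≠ 0) (f : ℂ → ℂ) :
    ∫ z, f z = ((‖c‖ ^ 2 : ℝ) : ℂ) * ∫ z, f (c * z) := by
  rw [integral_mul_left' hc f, Complex.real_smul, ← mul_assoc, ← Complex.ofReal_mul,
    mul_inv_cancel₀ (by positivity), Complex.ofReal_one, one_mul]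

/-- **Product formula** for the main term. -/
theorem prod_formula {U φ U' φ' : ℂ → ℂ}
    (hint : Integrable (fun p : X2 => ((‖dt p.1 p.2‖ ^ (-(4 / 3) : ℝ) : ℝ) : ℂ) *
      FF (prodF U φ) (prodF U' φ') p)) :
    ∫ p : X2, ((‖dt p.1 p.2‖ ^ (-(4 / 3) : ℝ) : ℝ) : ℂ) * FF (prodF U φ) (prodF U' φ') p =
      mU U * conj (mU U') * JJ φ φ' := by
  have hae : ∀ᵐ x : ℂ, x ≠ 0 := by
    rw [ae_iff]; simp
  set Gf : X2 → ℂ := fun p => ((‖dt p.1 p.2‖ ^ (-(4 / 3) : ℝ) : ℝ) : ℂ) *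
      FF (prodF U φ) (prodF U' φ') p with hG
  have h1 : ∫ p : X2, Gf p = ∫ u : ℂ × ℂ, ∫ z : ℂ × ℂ, Gf (u, z) := by
    rw [Measure.volume_eq_prod, integral_prod]
    exact hint
  have hint' : Integrable Gf ((volume : Measure (ℂ × ℂ)).prod volume) := hint
  have h2 : ∀ᵐ u : ℂ × ℂ, ∫ z : ℂ × ℂ, Gf (u, z) = ∫ y : ℂ, ∫ z2 : ℂ, Gf (u, (y, z2)) := by
    filter_upwards [hint'.prod_right_ae] with u hu
    have hu' : Integrable (fun z : ℂ × ℂ => Gf (u, z)) ((volume : Measure ℂ).prod volume) := hu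
    rw [Measure.volume_eq_prod, integral_prod _ hu']
  have h3 : Integrable (fun u : ℂ × ℂ => ∫ y : ℂ, ∫ z2 : ℂ, Gf (u, (y, z2)))
      ((volume : Measure ℂ).prod volume) := by
    have := hint'.integral_prod_left
    refine this.congr ?_
    exact h2
  have h4 : ∫ p : X2, Gf p = ∫ x : ℂ, ∫ u2 : ℂ, ∫ y : ℂ, ∫ z2 : ℂ, Gf ((x, u2), (y, z2)) := by
    rw [h1, integral_congr_ae h2]
    rw [Measure.volume_eq_prod, integral_prod _ h3]
  rw [h4]
  -- inner evaluation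
  have h5 : ∀ (x s : ℂ), x ≠ 0 → ∫ y : ℂ, ∫ z2 : ℂ, Gf ((x, x * s), (y, z2)) =
      (((‖x‖ ^ (-(4 / 3) : ℝ) : ℝ) : ℂ) * U x * φ s) * (conj (mU U') *
        ∫ t : ℂ, ((‖t - s‖ ^ (-(4 / 3) : ℝ) : ℝ) : ℂ) * conj (φ' t)) := by
    intro x s hx
    have h6 : ∀ᵐ y : ℂ, ∫ z2 : ℂ, Gf ((x, x * s), (y, z2)) =
        (((‖x‖ ^ (-(4 / 3) : ℝ) : ℝ) : ℂ) * U x * φ s) *
          ((conj (U' y) * ((‖y‖ ^ (2 / 3 : ℝ) : ℝ) : ℂ)) *
        ∫ t : ℂ, ((‖t - s‖ ^ (-(4 / 3) : ℝ) : ℝ) : ℂ) * conj (φ' t)) := by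
      filter_upwards [hae] with y hy
      rw [integral_scale hy]
      rw [← integral_const_mul, ← integral_const_mul, ← integral_const_mul]
      congr 1
      ext t
      simp only [hG, FF, prodF, dt]
      rw [mul_div_cancel_left₀ _ hx, mul_div_cancel_left₀ _ hy]
      have h7 : x * (y * t) - x * s * y = x * y * (t - s) := by ring
      rw [h7, norm_mul, norm_mul, Real.mul_rpow (by positivity) (by positivity),
        Real.mul_rpow (by positivity) (by positivity)]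
      have hy0 : 0 < ‖y‖ := norm_pos_iff.mpr hy
      have h8 : ‖y‖ ^ 2 * ‖y‖ ^ (-(4 / 3) : ℝ) = ‖y‖ ^ (2 / 3 : ℝ) := by
        rw [← Real.rpow_natCast, ← Real.rpow_add hy0]; norm_num
      rw [map_mul]
      have h9 : ((‖y‖ ^ (2 / 3 : ℝ) : ℝ) : ℂ) = ((‖y‖ ^ 2 : ℝ) : ℂ) *
          ((‖y‖ ^ (-(4 / 3) : ℝ) : ℝ) : ℂ) := by
        rw [← Complex.ofReal_mul, h8]
      rw [h9]
      push_cast
      ring
    rw [integral_congr_ae h6, integral_const_mul, integral_mul_const]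
    congr 2
    unfold mU
    rw [← integral_conj]
    congr 1
    ext y
    rw [map_mul, Complex.conj_ofReal]
  have h10 : ∀ᵐ x : ℂ, ∫ u2 : ℂ, ∫ y : ℂ, ∫ z2 : ℂ, Gf ((x, u2), (y, z2)) =
      (U x * ((‖x‖ ^ (2 / 3 : ℝ) : ℝ) : ℂ)) * (conj (mU U') * JJ φ φ') := by
    filter_upwards [hae] with x hx
    rw [integral_scale hx]
    have hx0 : 0 < ‖x‖ := norm_pos_iff.mpr hx
    have h8 : ‖x‖ ^ 2 * ‖x‖ ^ (-(4 / 3) : ℝ) = ‖x‖ ^ (2 / 3 : ℝ) := by
      rw [← Real.rpow_natCast, ← Real.rpow_add hx0]; norm_num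
    have h9 : ((‖x‖ ^ (2 / 3 : ℝ) : ℝ) : ℂ) = ((‖x‖ ^ 2 : ℝ) : ℂ) *
          ((‖x‖ ^ (-(4 / 3) : ℝ) : ℝ) : ℂ) := by
        rw [← Complex.ofReal_mul, h8]
    unfold JJ
    rw [← integral_const_mul, ← integral_const_mul, ← integral_const_mul]
    congr 1
    ext s
    rw [h5 x s hx, h9]
    ring
  rw [integral_congr_ae h10, integral_mul_const]
  unfold mU
  ring

end Crest.Agent.R012.Gram858
end
end

-- ▼ part R012/CharSumP_852
section

/-!
# Row 12 (X), level `p`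

* `exists_completion_level` : a row `(c,d)`, `3 ∣ c`, `d ≡ 1 (3)`, `d` prime to `c` and to `q`, is the
  bottom row of `(a b; c d) ≡ 1 (mod 3)` with `3 q ∣ b`;
* `completion_unique_level` : unique up to `(1 t; 0 1)` with `3 q ∣ t`;
* `SsumP p c = Σ_{d mod 3cp, d ≡ 1 (3), p ∤ d} (c/d)_3`, equal to `N(p) S(c)` if `p ∣ c`
  (`SsumP_of_dvd`) and to `(N(p)-1) S(c)` otherwise (`SsumP_of_not_dvd`);
* `SsumPd p c = Σ_{d mod 3cp, d ≡ 1 (3), p ∣ d} (c/d)_3`, `0` resp. `S(c)`.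
-/

set_option autoImplicit false

noncomputable section

namespace Crest.Agent.R012

open Eis

namespace Rows852





end Rows852

namespace CharSum852

lemma isPrim_iff_add {d s : Eis} (hs : (3 : Eis) ∣ s) : IsPrim (d + s) ↔ IsPrim d := by
  constructor
  · intro h
    have := isPrim_add (s := -s) h (by rwa [dvd_neg])
    simpa using this
  · intro h
    exact isPrim_add h hs


/-- summand of `SsumP` -/
def fSP (p c d : Eis) : ℂ := open Classical in if IsPrim d ∧ ¬ p ∣ d then sy c d else 0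

/-- `Σ_{d mod 3cp, d ≡ 1 (3), p ∤ d} (c/d)_3`. -/
def SsumP (p c : Eis) : ℂ := sumMod (3 * c * p) (fSP p c)




variable (H : SyFacts)
include H

lemma fSP_periodic {p c : Eis} (hc : (3 : Eis) ∣ c) : PMod (3 * c * p) (fSP p c) := by
  intro x t
  have h0 : PMod (3 * c * p) (fS c) := (fS_periodic H hc).mono (dvd_mul_right _ _)
  have e1 := h0 x t
  unfold fS at e1
  unfold fSP
  have h2 : (p ∣ x + 3 * c * p * t) ↔ p ∣ x := by
    rw [show 3 * c * p * t = p * (3 * c * t) by ring]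
    exact (dvd_add_left (Dvd.intro _ rfl))
  have h3 : IsPrim (x + 3 * c * p * t) ↔ IsPrim x :=
    isPrim_iff_add (by rw [show 3 * c * p * t = 3 * (c * p * t) by ring]; exact Dvd.intro _ rfl)
  by_cases hp : p ∣ x
  · rw [if_neg (fun h => h.2 (h2.mpr hp)), if_neg (fun h => h.2 hp)]
  · have hp' : ¬ p ∣ x + 3 * c * p * t := fun h => hp (h2.mp h)
    by_cases hx : IsPrim x
    · rw [if_pos ⟨h3.mpr hx, hp'⟩, if_pos ⟨hx, hp⟩]
      rwa [if_pos hx, if_pos (h3.mpr hx)] at e1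
    · rw [if_neg (fun h => hx (h3.mp h.1)), if_neg (fun h => hx h.1)]

omit H in
lemma sumMod_fS_level {p c : Eis} (H : SyFacts) (hp : p ≠ 0) (hc0 : c ≠ 0) (hc : (3 : Eis) ∣ c) :
    sumMod (3 * c * p) (fS c) = nm p * Ssum c :=
  sumMod_of_pmod_dvd (mul_ne_zero three_ne_zero' hc0) hp (fS_periodic H hc)


/-- `p ∣ c`: `Σ_{d mod 3cp, p ∤ d} (c/d) = N(p) S(c)`. -/
theorem SsumP_of_dvd {p c : Eis} (hp : Prime p) (hc0 : c ≠ 0) (hc : (3 : Eis) ∣ c)
    (hpc : p ∣ c) : SsumP p c = nm p * Ssum c := by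
  rw [← sumMod_fS_level H hp.ne_zero hc0 hc, SsumP]
  refine sumMod_congr fun x => ?_
  unfold fSP fS
  by_cases h1 : IsPrim x
  · by_cases h2 : p ∣ x
    · have : sy c x = 0 := by
        rw [H.eq_zero c x h1]
        intro hcop
        exact hp.not_isUnit (hcop.isUnit_of_dvd' hpc h2)
      simp [h1, h2, this]
    · simp [h1, h2]
  · simp [h1]

/-- `p ∤ c`: `Σ_{d mod 3cp, p ∤ d} (c/d) = (N(p) - 1) S(c)`. -/
theorem SsumP_of_not_dvd {p c : Eis} (hp : Prime p) (hpp : IsPrim p) (hc0 : c ≠ 0)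
    (hc : (3 : Eis) ∣ c) (hpc : ¬ p ∣ c) : SsumP p c = (nm p - 1) * Ssum c := by
  classical
  have h3c : (3 * c : Eis) ≠ 0 := mul_ne_zero three_ne_zero' hc0
  have hcop : IsCoprime (3 * c) p := by
    refine (hpp.isCoprime_three.symm).mul_left ?_
    exact ((Prime.coprime_iff_not_dvd hp).mpr hpc).symm
  have hcop' : IsCoprime p (3 * c) := hcop.symm
  set g : Eis → ℂ := fun y => if p ∣ y then 0 else 1 with hg
  have hgs : sumMod p g = nm p - 1 := by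
    have hgp : PMod p g := by
      intro x t
      simp only [hg]
      rw [dvd_add_left (Dvd.intro _ rfl)]
    have h1 : sumMod p (fun y => g y + (if p ∣ y then 1 else 0)) = nm p := by
      rw [← mul_one (nm p : ℂ), ← sumMod_const hp.ne_zero]
      refine sumMod_congr fun x => ?_
      simp only [hg]
      by_cases h : p ∣ x <;> simp [h]
    have h2 : sumMod p (fun y => if p ∣ y then (1 : ℂ) else 0) = 1 := by
      have hper : PMod p (fun y => if p ∣ y then (1 : ℂ) else 0) := by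
        intro x t
        beta_reduce
        rw [dvd_add_left (Dvd.intro _ rfl)]
      have hS := isCRS_crs hp.ne_zero
      rw [sumMod_eq_sum hS hper]
      obtain ⟨s, ⟨hs1, hs2⟩, hs3⟩ := hS 0
      rw [Finset.sum_eq_single s]
      · rw [if_pos]
        simpa using hs2
      · intro b hb hne
        rw [if_neg]
        intro hpb
        exact hne (hs3 b ⟨hb, by simpa using hpb⟩)
      · intro h; exact absurd hs1 h
    rw [sumMod_add hp.ne_zero, h2] at h1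
    linear_combination h1
  have key := sumMod_crt_mul (f := fun x => fS c (p * x)) (g := g) h3c hp.ne_zero (fSP p c) hcop
    (fSP_periodic H hc) (fun x y => ?_)
  · rw [SsumP, key, sumMod_mul_coprime h3c (fS_periodic H hc) hcop', hgs, Ssum]
    ring
  · unfold fSP fS
    have h1 : (p ∣ p * x + 3 * c * y) ↔ p ∣ y := by
      rw [dvd_add_right (Dvd.intro _ rfl)]
      exact ⟨fun h => hcop'.dvd_of_dvd_mul_left h, fun h => Dvd.dvd.mul_left h _⟩
    have h2 : IsPrim (p * x + 3 * c * y) ↔ IsPrim (p * x) :=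
      isPrim_iff_add (by rw [mul_assoc]; exact Dvd.intro _ rfl)
    simp only [hg, h1, h2]
    by_cases hy : p ∣ y
    · simp [hy]
    · by_cases hx : IsPrim (p * x)
      · simp only [hx, hy, not_false_eq_true, and_self, if_true, if_false, mul_one]
        have := sy_shift H (c := c) (d := p * x) (t := 3 * y) hc hx (Dvd.intro _ rfl)
        rw [← this]
        congr 1
        ring
      · simp [hx]



end CharSum852

end Crest.Agent.R012
end
end

-- ▼ part R012/GramD_858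

/-!
# Row 12, item MG (part D): reindexing sums over cubes

* `tsum_cubes` : `∑' c, g c = (1/3) ∑' m, g (m^3)` for `g` supported on nonzero cubes
* `tsum_cubes_lam` : `∑' c, g c = (1/3) ∑' m, g ((λ m)^3)` if moreover `g c ≠ 0 → 3 ∣ c`
* `psi_lam_cube` : `ψ((λ m)^3) = PE m = Pw aM m`
* `aMp p`, `Pw (aMp p) m = PE m` for `p ∤ m` ... (level `p`)
-/

set_option autoImplicit false

noncomputable section

open MeasureTheory Set Complex Filter
open scoped ENNReal ComplexConjugate Topology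

namespace Crest.Agent.R012.Gram858

open Crest.Agent.R012.Eis Crest.Agent.R012.LatSum413 Crest.Agent.R012.Div277
  Crest.Agent.R012.Mob705

/-! ## Cube roots in `Eis` -/

lemma w_ne_one : (w : Eis) ≠ 1 := by
  intro h
  have := congrArg QuadraticAlgebra.im h
  simp at this

lemma w_sq_ne_one : (w ^ 2 : Eis) ≠ 1 := by
  intro h
  have h1 : w ^ 2 * w = 1 * w := by rw [h]
  rw [← pow_succ, w_cube, one_mul] at h1
  exact w_ne_one h1.symm

lemma cube_eq_iff {e m : Eis} : m ^ 3 = e ^ 3 ↔ m = e ∨ m = w * e ∨ m = w ^ 2 * e := by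
  constructor
  · intro h
    have h1 : (m - e) * ((m - w * e) * (m - w ^ 2 * e)) = 0 := by
      have h2 := one_add_w_add
      have h3 := w_cube
      have : (m - e) * ((m - w * e) * (m - w ^ 2 * e)) =
          m ^ 3 - e ^ 3 - m ^ 2 * e * (1 + w + w ^ 2) + m * e ^ 2 * (1 + w + w ^ 2)
            + (w ^ 3 - 1) * (m * e ^ 2 - e ^ 3) := by ring
      rw [this, h2, h3, h]; ring
    rcases mul_eq_zero.mp h1 with h2 | h2
    · left; exact sub_eq_zero.mp h2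
    rcases mul_eq_zero.mp h2 with h3 | h3
    · right; left; exact sub_eq_zero.mp h3
    · right; right; exact sub_eq_zero.mp h3
  · rintro (h | h | h)
    · rw [h]
    · rw [h, mul_pow, w_cube, one_mul]
    · rw [h, mul_pow, ← pow_mul, mul_comm 2 3, pow_mul, w_cube, one_pow, one_mul]

lemma card_cube_fiber {e : Eis} (he : e ≠ 0) :
    Nat.card ((fun m : Eis => m ^ 3) ⁻¹' {e ^ 3}) = 3 := by
  classical
  have h1 : ((fun m : Eis => m ^ 3) ⁻¹' {e ^ 3}) = ({e, w * e, w ^ 2 * e} : Set Eis) := by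
    ext m
    simp only [mem_preimage, mem_singleton_iff, mem_insert_iff]
    exact cube_eq_iff
  have h2 : e ≠ w * e := by
    intro h
    have : (w - 1) * e = 0 := by linear_combination -h
    rcases mul_eq_zero.mp this with h | h
    · exact w_ne_one (sub_eq_zero.mp h)
    · exact he h
  have h3 : e ≠ w ^ 2 * e := by
    intro h
    have : (w ^ 2 - 1) * e = 0 := by linear_combination -h
    rcases mul_eq_zero.mp this with h | h
    · exact w_sq_ne_one (sub_eq_zero.mp h)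
    · exact he h
  have h4 : w * e ≠ w ^ 2 * e := by
    intro h
    have : (w - 1) * (w * e) = 0 := by linear_combination -h
    rcases mul_eq_zero.mp this with h | h
    · exact w_ne_one (sub_eq_zero.mp h)
    · rcases mul_eq_zero.mp h with h | h
      · exact isUnit_w.ne_zero h
      · exact he h
  rw [h1, Nat.card_coe_set_eq]
  rw [Set.ncard_insert_of_notMem (by simp [h2, h3]), Set.ncard_pair h4]

/-- A sum over cubes. -/
theorem tsum_cubes {g : Eis → ℂ} (h0 : g 0 = 0) (hc : ∀ c, g c ≠ 0 → ∃ e, c = e ^ 3)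
    (hs : Summable fun m : Eis => g (m ^ 3)) :
    ∑' c, g c = (1 / 3) * ∑' m : Eis, g (m ^ 3) := by
  have h1 := (hs.hasSum.tsum_fiberwise (fun m : Eis => m ^ 3)).tsum_eq
  have h2 : ∀ c : Eis, ∑' b : ((fun m : Eis => m ^ 3) ⁻¹' {c}), g ((b : Eis) ^ 3) = 3 * g c := by
    intro c
    have h3 : ∀ b : ((fun m : Eis => m ^ 3) ⁻¹' {c}), g ((b : Eis) ^ 3) = g c := by
      intro b
      have := b.2
      simp only [mem_preimage, mem_singleton_iff] at this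
      rw [this]
    rw [tsum_congr h3, tsum_const]
    by_cases hgc : g c = 0
    · rw [hgc]; simp
    · obtain ⟨e, he⟩ := hc c hgc
      have he0 : e ≠ 0 := by
        rintro rfl
        rw [he] at hgc
        exact hgc (by simpa using h0)
      rw [he, card_cube_fiber he0]
      norm_num
  rw [← h1, tsum_congr h2, tsum_mul_left]
  ring

/-- A sum over cubes divisible by `3`. -/
theorem tsum_cubes_lam {g : Eis → ℂ} (h0 : g 0 = 0) (hc : ∀ c, g c ≠ 0 → ∃ e, c = e ^ 3)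
    (h3 : ∀ c, g c ≠ 0 → (3 : Eis) ∣ c) (hs : Summable fun m : Eis => g (m ^ 3)) :
    ∑' c, g c = (1 / 3) * ∑' m : Eis, g ((lam * m) ^ 3) := by
  rw [tsum_cubes h0 hc hs]
  congr 1
  have hinj : Function.Injective (fun m : Eis => lam * m) := mul_right_injective₀ lam_ne_zero
  rw [← hinj.tsum_eq (f := fun m : Eis => g (m ^ 3))]
  intro m hm
  rw [Function.mem_support] at hm
  have h4 := h3 _ hm
  have h5 : lam ∣ m := prime_lam.dvd_of_dvd_pow (lam_dvd_three.trans h4)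
  obtain ⟨t, rfl⟩ := h5
  exact ⟨t, rfl⟩

/-! ## The densities -/

/-- `μ(d)/N(d)` on primary `d`. -/
def aM (d : Eis) : ℝ := open Classical in if IsPrim d then (muE d : ℝ) / nm d else 0

lemma aM_le (d : Eis) (_ : d ≠ 0) : |aM d| ≤ 1 / nm d := by
  classical
  unfold aM
  split_ifs
  · rw [abs_div, Nat.abs_cast]
    gcongr
    exact abs_muE_le_real d
  · simp

lemma Pw_aM {m : Eis} (hm : m ≠ 0) : Pw aM m = PE m := by
  classical
  rw [PE_eq_sum hm]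
  unfold Pw
  rw [tsum_eq_sum (s := dvs m)]
  · apply Finset.sum_congr rfl
    intro d hd
    rw [mem_dvs hm] at hd
    rw [if_pos hd.2, aM, if_pos hd.1]
    ring
  · intro d hd
    rw [mem_dvs hm] at hd
    split_ifs with h
    · rw [aM, if_neg (fun h1 => hd ⟨h1, h⟩)]
    · rfl

lemma pp_lam : pp lam = ∅ := by
  rw [Finset.eq_empty_iff_forall_notMem]
  intro p hp
  rw [mem_pp lam_ne_zero] at hp
  have h1 : Associated p lam := hp.1.2.associated_of_dvd prime_lam hp.2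
  exact hp.1.1.not_lam_dvd h1.symm.dvd

lemma psi_lam_cube {m : Eis} (hm : m ≠ 0) : Count852.psi ((lam * m) ^ 3) = PE m := by
  have h1 : Count852.psi ((lam * m) ^ 3) = PE ((lam * m) ^ 3) := rfl
  rw [h1]
  unfold PE
  rw [pp_pow (mul_ne_zero lam_ne_zero hm) (by norm_num), pp_mul lam_ne_zero hm, pp_lam,
    Finset.empty_union]

/-! ## `LatHyp` for the densities, levels `1` and `p` -/

lemma LatHyp.congr {P Q : Eis → ℂ} {w : ℝ → ℝ} {κ : ℂ} {C₀ τ : ℝ} (h : LatHyp P w κ C₀ τ)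
    (hPQ : ∀ m, m ≠ 0 → P m = Q m) : LatHyp Q w κ C₀ τ := by
  intro S hS
  have h1 := h S hS
  have h2 : ∀ m : Eis, (if m = 0 then (0 : ℂ) else Q m * ((gr w (rho3 m / S) : ℝ) : ℂ)) =
      (if m = 0 then (0 : ℂ) else P m * ((gr w (rho3 m / S) : ℝ) : ℂ)) := by
    intro m
    split_ifs with hm
    · rfl
    · rw [hPQ m hm]
  rw [tsum_congr h2]
  exact h1

/-- The main constant. -/
def kap1 (w : ℝ → ℝ) : ℂ := ((2 / Real.sqrt 3 * ∑' d : Eis, aM d / nm d : ℝ) : ℂ) * grI w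

theorem latHyp_PE {w : ℝ → ℝ} (hwd : ContDiff ℝ 2 w) {α β : ℝ} (hα : 0 < α) (hβ : 0 ≤ β)
    (hw : ∀ x, w x ≠ 0 → α ≤ x ∧ x ≤ β) {τ : ℝ} (hτ0 : 0 < τ) (hτ : τ < 2 / 3) :
    ∃ C₀ : ℝ, 0 ≤ C₀ ∧ LatHyp (fun m => ((PE m : ℝ) : ℂ)) w (kap1 w) C₀ τ := by
  obtain ⟨C₀, hC₀, h⟩ := latHyp_C2 hwd hα hβ hw hτ0 hτ
  refine ⟨C₀, hC₀, (h aM aM_le).congr ?_⟩
  intro m hm
  rw [Pw_aM hm]

/-- `μ(d)/N(d)` on primary `d` not divisible by `p`. -/
def aMp (p d : Eis) : ℝ :=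
  open Classical in if IsPrim d ∧ ¬ p ∣ d then (muE d : ℝ) / nm d else 0

lemma aMp_le (p d : Eis) (_ : d ≠ 0) : |aMp p d| ≤ 1 / nm d := by
  classical
  unfold aMp
  split_ifs
  · rw [abs_div, Nat.abs_cast]
    gcongr
    exact abs_muE_le_real d
  · simp

/-- `∏_{q ∣ m, q ≠ p} (1 - 1/N q)` -/
def PEp (p m : Eis) : ℝ := ∏ q ∈ (pp m).erase p, (1 - 1 / (nm q : ℝ))

lemma PEp_mul_self {p m : Eis} (hp : IsPP p) (hm : m ≠ 0) :
    PE (p * m) = (1 - 1 / (nm p : ℝ)) * PEp p m := by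
  classical
  unfold PE PEp
  rw [pp_mul hp.ne_zero hm, pp_prime hp]
  have h1 : {p} ∪ pp m = insert p ((pp m).erase p) := by
    ext q
    simp only [Finset.mem_union, Finset.mem_singleton, Finset.mem_insert, Finset.mem_erase]
    tauto
  rw [h1, Finset.prod_insert (Finset.notMem_erase p _)]

lemma Pw_aMp {p m : Eis} (hp : IsPP p) (hm : m ≠ 0) : Pw (aMp p) m = PEp p m := by
  classical
  -- write as a divisor sum with the multiplicative function `F`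
  set F : Eis → ℝ := fun d => if p ∣ d then 0 else 1 / (nm d : ℝ) with hF
  have h1 := sum_dvs_muE_mul (R := ℝ) hm F (by
    intro S hS
    simp only [hF]
    by_cases hpS : p ∈ S
    · have hdv : p ∣ ∏ q ∈ S, q := Finset.dvd_prod_of_mem (fun q : Eis => q) hpS
      rw [if_pos hdv]
      symm
      apply Finset.prod_eq_zero hpS
      simp
    · rw [if_neg (by
        intro h
        exact hpS ((hS.dvd_prod hp).mp h)), nm_prod]
      have : ∀ q ∈ S, (if p ∣ q then (0 : ℝ) else 1 / (nm q : ℝ)) = 1 / nm q := by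
        intro q hq
        rw [if_neg]
        intro h
        exact hpS ((hp.eq_of_dvd (hS q hq) h) ▸ hq)
      rw [Finset.prod_congr rfl this]
      push_cast
      rw [Finset.prod_div_distrib, Finset.prod_const_one])
  have h2 : Pw (aMp p) m = ∑ d ∈ dvs m, (muE d : ℝ) * F d := by
    unfold Pw
    rw [tsum_eq_sum (s := dvs m)]
    · apply Finset.sum_congr rfl
      intro d hd
      rw [mem_dvs hm] at hd
      rw [if_pos hd.2]
      unfold aMp
      simp only [hF]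
      by_cases hpd : p ∣ d
      · simp [hpd]
      · rw [if_pos ⟨hd.1, hpd⟩, if_neg hpd]; ring
    · intro d hd
      rw [mem_dvs hm] at hd
      split_ifs with h
      · unfold aMp
        rw [if_neg (fun h1 => hd ⟨h1.1, h⟩)]
      · rfl
  rw [h2, h1]
  unfold PEp
  by_cases hpm : p ∈ pp m
  · rw [← Finset.mul_prod_erase _ _ hpm]
    simp only [hF]
    rw [if_pos dvd_rfl, sub_zero, one_mul]
    apply Finset.prod_congr rfl
    intro q hq
    rw [Finset.mem_erase] at hq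
    rw [if_neg]
    intro h
    exact hq.1 (hp.eq_of_dvd (isPP_of_mem_pp hq.2) h).symm
  · rw [Finset.erase_eq_of_notMem hpm]
    apply Finset.prod_congr rfl
    intro q hq
    simp only [hF]
    rw [if_neg]
    intro h
    exact hpm ((hp.eq_of_dvd (isPP_of_mem_pp hq) h) ▸ hq)

lemma summable_of_le {a : Eis → ℝ} (ha : ∀ d ≠ 0, |a d| ≤ 1 / nm d) :
    Summable fun d : Eis => a d / nm d := by
  have h := summable_nm_rpow (s := 2) (by norm_num)
  apply Summable.of_norm_bounded h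
  intro d
  by_cases hd : d = 0
  · subst hd; simp
  · have h1 : (0 : ℝ) < nm d := by exact_mod_cast nm_pos.mpr hd
    rw [norm_div, Real.norm_eq_abs, Real.norm_eq_abs, Nat.abs_cast]
    calc |a d| / nm d ≤ (1 / nm d) / nm d := by gcongr; exact ha d hd
      _ = (nm d : ℝ) ^ (-2 : ℝ) := by
        rw [Real.rpow_neg h1.le]
        norm_num
        field_simp

/-- `Σ μ(d)/N(d)² = (1 - 1/N(p)²) Σ_{p ∤ d} μ(d)/N(d)²`. -/
lemma tsum_aM_eq {p : Eis} (hp : IsPP p) :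
    ∑' d : Eis, aM d / nm d = (1 - 1 / (nm p : ℝ) ^ 2) * ∑' d : Eis, aMp p d / nm d := by
  classical
  have hN : (0 : ℝ) < nm p := by exact_mod_cast nm_pos.mpr hp.ne_zero
  have hsp := summable_of_le (aMp_le p)
  -- the part divisible by `p`
  set b : Eis → ℝ := fun d => if p ∣ d then aM d / nm d else 0 with hb
  have h1 : ∀ d : Eis, aM d / nm d = aMp p d / nm d + b d := by
    intro d
    simp only [hb, aM, aMp]
    by_cases h1 : IsPrim d <;> by_cases h2 : p ∣ d <;> simp [h1, h2]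
  have hinj : Function.Injective (fun m : Eis => p * m) := mul_right_injective₀ hp.ne_zero
  have hbsupp : Function.support b ⊆ Set.range (fun m : Eis => p * m) := by
    intro d hd
    rw [Function.mem_support] at hd
    by_contra hn
    apply hd
    have : ¬ p ∣ d := by
      rintro ⟨t, rfl⟩
      exact hn ⟨t, rfl⟩
    simp [hb, this]
  have h2 : ∀ m : Eis, b (p * m) = (-(1 / (nm p : ℝ) ^ 2)) * (aMp p m / nm m) := by
    intro m
    simp only [hb]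
    rw [if_pos (dvd_mul_right p m)]
    unfold aM aMp
    by_cases hm0 : m = 0
    · subst hm0; simp
    have hNm : (0 : ℝ) < nm m := by exact_mod_cast nm_pos.mpr hm0
    by_cases hmP : IsPrim m
    · rw [if_pos (hp.1.mul hmP)]
      by_cases hpm : p ∣ m
      · rw [if_neg (fun h => h.2 hpm)]
        have : ¬ IsCoprime p m := by rw [hp.isCoprime_iff]; simpa using hpm
        rw [muE_mul_of_not_coprime this]
        simp
      · rw [if_pos ⟨hmP, hpm⟩]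
        have hc : IsCoprime p m := by rw [hp.isCoprime_iff]; exact hpm
        rw [muE_mul hp.ne_zero hm0 hc, muE_prime hp.2, nm_mul]
        push_cast
        field_simp
    · have hmp : ¬ IsPrim (p * m) := by
        intro h
        exact hmP (h.of_mul_left hp.1)
      rw [if_neg hmp, if_neg (fun h => hmP h.1)]
      simp
  have hbs : Summable b := by
    rw [← hinj.summable_iff (by
      intro d hd
      by_contra h
      exact hd (hbsupp h))]
    have : (b ∘ fun m : Eis => p * m) = fun m => (-(1 / (nm p : ℝ) ^ 2)) * (aMp p m / nm m) := by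
      ext m; exact h2 m
    rw [this]
    exact hsp.mul_left _
  rw [tsum_congr h1, hsp.tsum_add hbs, ← hinj.tsum_eq hbsupp, tsum_congr h2, tsum_mul_left]
  ring

/-- `LatHyp` for the density restricted to multiples of `p`. -/
theorem latHyp_PE_dvd {w : ℝ → ℝ} (hwd : ContDiff ℝ 2 w) {α β : ℝ} (hα : 0 < α) (hβ : 0 ≤ β)
    (hw : ∀ x, w x ≠ 0 → α ≤ x ∧ x ≤ β) {τ : ℝ} (hτ0 : 0 < τ) (hτ : τ < 2 / 3) :
    ∃ C₀ : ℝ, 0 ≤ C₀ ∧ ∀ p : Eis, IsPP p →
      LatHyp (fun m => open Classical in if p ∣ m then ((PE m : ℝ) : ℂ) else 0) w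
        (kap1 w / (nm p + 1)) C₀ τ := by
  classical
  obtain ⟨C₀, hC₀, h⟩ := latHyp_C2 hwd hα hβ hw hτ0 hτ
  refine ⟨C₀, hC₀, fun p hp => ?_⟩
  have hN4 := hp.four_le_nm
  have hN : (4 : ℝ) ≤ nm p := by exact_mod_cast hN4
  have hf0 : (0 : ℝ) ≤ 1 - 1 / (nm p : ℝ) := by
    rw [sub_nonneg, div_le_one (by linarith)]; linarith
  have hf1 : 1 - 1 / (nm p : ℝ) ≤ 1 := by
    have : (0 : ℝ) ≤ 1 / nm p := by positivity
    linarith
  have h1 := h (aMp p) (aMp_le p)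
  have h2 := h1.smul (((1 - 1 / (nm p : ℝ) : ℝ)) : ℂ)
  have h3 := (h2.mono (C₁ := C₀) (by
    rw [Complex.norm_real, Real.norm_of_nonneg hf0]
    nlinarith)).dvd hτ0.le hC₀ hp.ne_zero (P := fun m =>
      if p ∣ m then (((1 - 1 / (nm p : ℝ) : ℝ)) : ℂ) * ((Pw (aMp p) (m / p) : ℝ) : ℂ) else 0)
      (fun m => rfl)
  have h4 := h3.congr (Q := fun m => if p ∣ m then ((PE m : ℝ) : ℂ) else 0) (by
    intro m hm
    by_cases hpm : p ∣ m
    · simp only [hpm, if_true]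
      obtain ⟨t, rfl⟩ := hpm
      have ht : t ≠ 0 := right_ne_zero_of_mul hm
      rw [mul_div_cancel_left₀ t hp.ne_zero, PEp_mul_self hp ht, Pw_aMp hp ht]
      push_cast
      ring
    · simp only [hpm, if_false])
  have h5 : kap1 w / (nm p + 1) = (((1 - 1 / (nm p : ℝ) : ℝ)) : ℂ) *
      (((2 / Real.sqrt 3 * ∑' d : Eis, aMp p d / nm d : ℝ) : ℂ) * grI w) / nm p := by
    unfold kap1
    rw [tsum_aM_eq hp]
    have hNC : ((nm p : ℕ) : ℂ) ≠ 0 := by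
      exact_mod_cast (nm_pos.mpr hp.ne_zero).ne'
    have hNC1 : ((nm p : ℕ) : ℂ) + 1 ≠ 0 := by
      exact_mod_cast Nat.succ_ne_zero (nm p)
    push_cast
    field_simp
    ring
  rw [h5]
  exact h4


end Crest.Agent.R012.Gram858
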