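import Crest.Agent.R012.Dual_671
import Crest.Agent.R012.Mob_705

-- ▼ part R012/DualGcd_671
section

/-!
# Row 12 (T1x): the exact dual identity with gcd structure

* `dual3` : `∑_{a primary, (a,e)=1} (a/k₁) conj (a/k₂) f(a)` as a dual sum (Moebius over `d ∣ e`)
* `pairG` : the same for `G(b₁) conj (a/b₁) · conj (G(b₂) conj (a/b₂))`, `b_i = e k_i`:
  all Gauss sums cancel
* `exists_gcd_split`, `sum_pairs_gcd` : pairs `(b₁, b₂)` of squarefree primary elements as triples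
  `(e, k₁, k₂)`
* `dual_sum` : the summed form
-/

set_option autoImplicit false
set_option linter.unusedSimpArgs false
set_option linter.unusedVariables false

noncomputable section

open Finset

namespace Crest.Agent.R012.Tau671

open Eis
open Gauss880 (syG)
open Po581 (fC dl)
open Mob705 (mu pdiv mem_pdiv sum_mu_coprime)

lemma isPrim_mul_iff {d a : Eis} (hd : IsPrim d) : IsPrim (d * a) ↔ IsPrim a :=
  ⟨fun h => IsPrim.of_mul_left h hd, fun h => hd.mul h⟩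

open Classical in
/-- Sums over the primary multiples of a primary `d`. -/
lemma tsum_prim_dvd {d : Eis} (hd : IsPrim d) (F : Eis → ℂ) :
    ∑' a : Eis, (if IsPrim a ∧ d ∣ a then F a else 0) =
      ∑' a : Eis, (if IsPrim a then F (d * a) else 0) := by
  have hinj : Function.Injective (fun a : Eis => d * a) := fun x y h =>
    mul_left_cancel₀ hd.ne_zero h
  rw [← hinj.tsum_eq (f := fun a : Eis => if IsPrim a ∧ d ∣ a then F a else 0)]
  · refine tsum_congr fun a => ?_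
    have : (IsPrim (d * a) ∧ d ∣ d * a) ↔ IsPrim a :=
      ⟨fun h => (isPrim_mul_iff hd).mp h.1, fun h => ⟨(isPrim_mul_iff hd).mpr h, dvd_mul_right _ _⟩⟩
    simp only [this]
  · intro a ha
    rw [Function.mem_support] at ha
    have h1 : IsPrim a ∧ d ∣ a := by
      by_contra h
      exact ha (if_neg h)
    obtain ⟨t, ht⟩ := h1.2
    exact ⟨t, ht.symm⟩

open Classical in
/-- **Two characters with a coprimality condition.** -/
theorem dual3 {f : ℂ → ℂ} (hf : PF f) {e k1 k2 : Eis} (he : e ≠ 0) (h1 : IsPrim k1)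
    (h2 : IsPrim k2) (hcop : IsCoprime k1 k2) :
    ∑' a : Eis, (if IsPrim a ∧ IsCoprime a e then sy a k1 * (starRingEnd ℂ) (sy a k2) else 0) *
        f (toC a) =
      ((2 / (9 * Real.sqrt 3 * (nm k1 * nm k2)) : ℝ) : ℂ) *
        ∑ d ∈ pdiv e, (mu d : ℂ) * (nm d : ℂ)⁻¹ * (sy d k1 * (starRingEnd ℂ) (sy d k2)) *
          ∑' h : Eis, ph h * (gs h k1 * (starRingEnd ℂ) (gs h k2)) *
            fC f (toC h / (3 * toC sq3 * (toC k1 * toC k2) * toC d)) := by
  have hbd : ∀ a : Eis, ‖sy a k1 * (starRingEnd ℂ) (sy a k2)‖ ≤ 1 := fun a => by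
    rw [norm_mul, RCLike.norm_conj]
    exact mul_le_one₀ (norm_sy_le h1) (norm_nonneg _) (norm_sy_le h2)
  have e1 : ∀ a : Eis, (if IsPrim a ∧ IsCoprime a e then sy a k1 * (starRingEnd ℂ) (sy a k2)
      else 0) * f (toC a) = ∑ d ∈ pdiv e, (mu d : ℂ) *
        (if IsPrim a ∧ d ∣ a then sy a k1 * (starRingEnd ℂ) (sy a k2) * f (toC a) else 0) := by
    intro a
    by_cases ha : IsPrim a
    · have h := sum_mu_coprime ha he
      have h' : ∑ d ∈ pdiv e, ((mu d : ℤ) : ℂ) * (if d ∣ a then (1 : ℂ) else 0) =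
          if IsCoprime a e then (1 : ℂ) else 0 := by
        have h3 := congrArg (fun z : ℤ => (z : ℂ)) h
        beta_reduce at h3
        push_cast at h3
        rw [← h3]
        exact Finset.sum_congr rfl fun d _ => by split_ifs <;> simp
      have h4 : ∀ d : Eis, (if IsPrim a ∧ d ∣ a then
          sy a k1 * (starRingEnd ℂ) (sy a k2) * f (toC a) else 0) =
          (if d ∣ a then (1 : ℂ) else 0) * (sy a k1 * (starRingEnd ℂ) (sy a k2) * f (toC a)) := by
        intro d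
        by_cases hda : d ∣ a
        · rw [if_pos ⟨ha, hda⟩, if_pos hda, one_mul]
        · rw [if_neg (fun h => hda h.2), if_neg hda, zero_mul]
      simp_rw [h4, ← mul_assoc]
      rw [← Finset.sum_mul, ← Finset.sum_mul, ← Finset.sum_mul, h']
      by_cases hc : IsCoprime a e
      · rw [if_pos ⟨ha, hc⟩, if_pos hc, one_mul]
      · rw [if_neg (fun h => hc h.2), if_neg hc]; ring
    · rw [if_neg (fun h => ha h.1), zero_mul]
      symm
      apply Finset.sum_eq_zero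
      intro d _
      rw [if_neg (fun h => ha h.1), mul_zero]
  simp_rw [e1]
  rw [Summable.tsum_finsetSum, Finset.mul_sum]
  · refine Finset.sum_congr rfl fun d hd => ?_
    have hdp : IsPrim d := ((mem_pdiv he).mp hd).1
    have hd0 := toC_ne_zero hdp.ne_zero
    rw [tsum_mul_left, tsum_prim_dvd hdp]
    have e2 : ∀ a : Eis, (if IsPrim a then sy (d * a) k1 * (starRingEnd ℂ) (sy (d * a) k2) *
        f (toC (d * a)) else 0) = (sy d k1 * (starRingEnd ℂ) (sy d k2)) *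
          ((if IsPrim a then sy a k1 * (starRingEnd ℂ) (sy a k2) else 0) *
            (fun z => f (toC d * z)) (toC a)) := by
      intro a
      split_ifs
      · rw [syG.mul_left _ _ _ h1, syG.mul_left _ _ _ h2, map_mul, map_mul]; ring
      · ring
    simp_rw [e2]
    rw [tsum_mul_left, dual2_prim (hf.dilate hd0) h1 h2 hcop]
    have e3 : ∀ h : Eis, ph h * (gs h k1 * (starRingEnd ℂ) (gs h k2)) *
        fC (fun z => f (toC d * z)) (toC h / (3 * toC sq3 * (toC k1 * toC k2))) =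
        (nm d : ℂ)⁻¹ * (ph h * (gs h k1 * (starRingEnd ℂ) (gs h k2)) *
          fC f (toC h / (3 * toC sq3 * (toC k1 * toC k2) * toC d))) := by
      intro h
      rw [fC_dilate f hd0, div_div, norm_toC_sq]
      push_cast
      ring
    simp_rw [e3]
    rw [tsum_mul_left]
    ring
  · intro d hd
    refine Summable.mul_left _ ?_
    refine Summable.of_norm_bounded (summable_pf_one hf).norm (fun a => ?_)
    split_ifs
    · rw [norm_mul]
      exact mul_le_of_le_one_left (norm_nonneg _) (hbd a)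
    · rw [norm_zero]; exact norm_nonneg _

/-- The character `n ↦ (h/n) conj (r/n)`. -/
def psi (h r n : Eis) : ℂ := sy h n * (starRingEnd ℂ) (sy r n)

lemma norm_psi_le {h r n : Eis} (hn : IsPrim n) : ‖psi h r n‖ ≤ 1 := by
  unfold psi
  rw [norm_mul, RCLike.norm_conj]
  exact mul_le_one₀ (norm_sy_le hn) (norm_nonneg _) (norm_sy_le hn)

lemma psi_mul {h r m n : Eis} (hm : IsPrim m) (hn : IsPrim n) :
    psi h r (m * n) = psi h r m * psi h r n := by
  unfold psi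
  rw [syG.mul_right _ _ _ hm hn, syG.mul_right _ _ _ hm hn, map_mul]; ring

lemma psi_mul_star {h r n : Eis} (hn : IsPrim n) (h1 : IsCoprime h n) (h2 : IsCoprime r n) :
    psi h r n * (starRingEnd ℂ) (psi h r n) = 1 := by
  unfold psi
  rw [map_mul, Complex.conj_conj]
  have e1 := sy_mul_star hn h1
  have e2 := sy_mul_star hn h2
  calc sy h n * (starRingEnd ℂ) (sy r n) * ((starRingEnd ℂ) (sy h n) * sy r n)
      = (sy h n * (starRingEnd ℂ) (sy h n)) * (sy r n * (starRingEnd ℂ) (sy r n)) := by ring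
    _ = 1 := by rw [e1, e2, one_mul]

lemma psi_eq_zero {h r n : Eis} (hn : IsPrim n) (h1 : ¬ IsCoprime h n) : psi h r n = 0 := by
  unfold psi; rw [sy_eq_zero hn h1, zero_mul]

open Classical in
/-- **The pair identity**: all Gauss sums cancel. -/
theorem pairG {f : ℂ → ℂ} (hf : PF f) {e k1 k2 : Eis} (he : IsPrim e) (h1 : IsPrim k1)
    (h2 : IsPrim k2) (hes : Squarefree e) (hs1 : Squarefree k1) (hs2 : Squarefree k2)
    (he1 : IsCoprime e k1) (he2 : IsCoprime e k2) (hcop : IsCoprime k1 k2) :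
    ∑' a : Eis, (if IsPrim a then (G (e * k1) * (starRingEnd ℂ) (sy a (e * k1))) *
        (starRingEnd ℂ) (G (e * k2) * (starRingEnd ℂ) (sy a (e * k2))) else 0) * f (toC a) =
      ((2 / (9 * Real.sqrt 3 * Real.sqrt (nm k1 * nm k2)) : ℝ) : ℂ) *
        ∑ d ∈ pdiv e, (mu d : ℂ) * (nm d : ℂ)⁻¹ *
          ∑' h : Eis, ph h * (psi h (d * e) k1 * (starRingEnd ℂ) (psi h (d * e) k2)) *
            fC f (toC h / (3 * toC sq3 * (toC k1 * toC k2) * toC d)) := by
  have q1 : (Real.sqrt (nm k1) : ℝ) ≠ 0 := by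
    have : (0 : ℝ) < nm k1 := by exact_mod_cast nm_pos.mpr h1.ne_zero
    exact (Real.sqrt_pos.mpr this).ne'
  have q2 : (Real.sqrt (nm k2) : ℝ) ≠ 0 := by
    have : (0 : ℝ) < nm k2 := by exact_mod_cast nm_pos.mpr h2.ne_zero
    exact (Real.sqrt_pos.mpr this).ne'
  have sq1 : (Real.sqrt (nm k1) : ℂ) * (Real.sqrt (nm k1) : ℂ) = (nm k1 : ℂ) := by
    rw [← Complex.ofReal_mul, Real.mul_self_sqrt (Nat.cast_nonneg _)]; norm_cast
  have sq2 : (Real.sqrt (nm k2) : ℂ) * (Real.sqrt (nm k2) : ℂ) = (nm k2 : ℂ) := by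
    rw [← Complex.ofReal_mul, Real.mul_self_sqrt (Nat.cast_nonneg _)]; norm_cast
  have g0 : G e * (starRingEnd ℂ) (G e) = 1 := Gauss880.G_mul_conj syG he hes
  have g1 : G k1 * (starRingEnd ℂ) (G k1) = 1 := Gauss880.G_mul_conj syG h1 hs1
  have g2 : G k2 * (starRingEnd ℂ) (G k2) = 1 := Gauss880.G_mul_conj syG h2 hs2
  have m1 := Gauss880.G_mul syG he h1 he1
  have m2 := Gauss880.G_mul syG he h2 he2
  -- the summand in terms of the pair `(k2, k1)`
  have e1 : ∀ a : Eis, (if IsPrim a then (G (e * k1) * (starRingEnd ℂ) (sy a (e * k1))) *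
        (starRingEnd ℂ) (G (e * k2) * (starRingEnd ℂ) (sy a (e * k2))) else 0) * f (toC a) =
      (G k1 * (starRingEnd ℂ) (sy e k1) * ((starRingEnd ℂ) (G k2) * sy e k2)) *
        ((if IsPrim a ∧ IsCoprime a e then sy a k2 * (starRingEnd ℂ) (sy a k1) else 0) *
          f (toC a)) := by
    intro a
    by_cases ha : IsPrim a
    · rw [if_pos ha, m1, m2, syG.mul_right _ _ _ he h1, syG.mul_right _ _ _ he h2]
      simp only [map_mul, Complex.conj_conj]
      by_cases hc : IsCoprime a e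
      · rw [if_pos ⟨ha, hc⟩]
        have s0 := sy_mul_star he hc
        linear_combination (G k1 * (starRingEnd ℂ) (sy e k1) * ((starRingEnd ℂ) (G k2) * sy e k2)
          * (sy a k2 * (starRingEnd ℂ) (sy a k1)) * f (toC a)) *
          (G e * (starRingEnd ℂ) (G e) * s0 + g0)
      · rw [if_neg (fun h => hc h.2), sy_eq_zero he hc, map_zero]; ring
    · rw [if_neg ha, if_neg (fun h => ha h.1)]; ring
  simp_rw [e1]
  rw [tsum_mul_left, dual3 hf he.ne_zero h2 h1 hcop.symm]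
  have key : ∀ d ∈ pdiv e,
      (mu d : ℂ) * (nm d : ℂ)⁻¹ * (sy d k2 * (starRingEnd ℂ) (sy d k1)) *
          ∑' h : Eis, ph h * (gs h k2 * (starRingEnd ℂ) (gs h k1)) *
            fC f (toC h / (3 * toC sq3 * (toC k2 * toC k1) * toC d)) =
      ((starRingEnd ℂ) (G k1) * G k2 * ((Real.sqrt (nm k1) : ℂ) * (Real.sqrt (nm k2) : ℂ))) *
      ((mu d : ℂ) * (nm d : ℂ)⁻¹ * (sy d k2 * (starRingEnd ℂ) (sy d k1)) *
          ∑' h : Eis, ph h * (sy h k1 * (starRingEnd ℂ) (sy h k2)) *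
            fC f (toC h / (3 * toC sq3 * (toC k1 * toC k2) * toC d))) := by
    intro d _
    have e2 : ∀ h : Eis, ph h * (gs h k2 * (starRingEnd ℂ) (gs h k1)) *
            fC f (toC h / (3 * toC sq3 * (toC k2 * toC k1) * toC d)) =
        ((starRingEnd ℂ) (G k1) * G k2 * ((Real.sqrt (nm k1) : ℂ) * (Real.sqrt (nm k2) : ℂ))) *
        (ph h * (sy h k1 * (starRingEnd ℂ) (sy h k2)) *
            fC f (toC h / (3 * toC sq3 * (toC k1 * toC k2) * toC d))) := by
      intro h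
      rw [Gauss880.gs_eq_G syG h1 hs1, Gauss880.gs_eq_G syG h2 hs2, mul_comm (toC k2) (toC k1)]
      simp only [map_mul, Complex.conj_conj, Complex.conj_ofReal]
      ring
    simp_rw [e2]
    rw [tsum_mul_left]
    ring
  rw [Finset.sum_congr rfl key, ← Finset.mul_sum]
  have key2 : ∀ d ∈ pdiv e, (mu d : ℂ) * (nm d : ℂ)⁻¹ *
          ∑' h : Eis, ph h * (psi h (d * e) k1 * (starRingEnd ℂ) (psi h (d * e) k2)) *
            fC f (toC h / (3 * toC sq3 * (toC k1 * toC k2) * toC d)) =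
      ((starRingEnd ℂ) (sy e k1) * sy e k2) *
      ((mu d : ℂ) * (nm d : ℂ)⁻¹ * (sy d k2 * (starRingEnd ℂ) (sy d k1)) *
          ∑' h : Eis, ph h * (sy h k1 * (starRingEnd ℂ) (sy h k2)) *
            fC f (toC h / (3 * toC sq3 * (toC k1 * toC k2) * toC d))) := by
    intro d _
    have e2 : ∀ h : Eis, ph h * (psi h (d * e) k1 * (starRingEnd ℂ) (psi h (d * e) k2)) *
            fC f (toC h / (3 * toC sq3 * (toC k1 * toC k2) * toC d)) =
        ((starRingEnd ℂ) (sy e k1) * sy e k2 * (sy d k2 * (starRingEnd ℂ) (sy d k1))) *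
        (ph h * (sy h k1 * (starRingEnd ℂ) (sy h k2)) *
            fC f (toC h / (3 * toC sq3 * (toC k1 * toC k2) * toC d))) := by
      intro h
      unfold psi
      rw [syG.mul_left _ _ _ h1, syG.mul_left _ _ _ h2]
      simp only [map_mul, Complex.conj_conj]
      ring
    simp_rw [e2]
    rw [tsum_mul_left]
    ring
  rw [Finset.sum_congr rfl key2, ← Finset.mul_sum]
  have hconst : ((2 / (9 * Real.sqrt 3 * (nm k2 * nm k1)) : ℝ) : ℂ) *
      ((Real.sqrt (nm k1) : ℂ) * (Real.sqrt (nm k2) : ℂ)) =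
      ((2 / (9 * Real.sqrt 3 * Real.sqrt (nm k1 * nm k2)) : ℝ) : ℂ) := by
    rw [← Complex.ofReal_mul, ← Complex.ofReal_mul]
    congr 1
    rw [Real.sqrt_mul (Nat.cast_nonneg _)]
    have n1 : (nm k1 : ℝ) = Real.sqrt (nm k1) * Real.sqrt (nm k1) :=
      (Real.mul_self_sqrt (Nat.cast_nonneg _)).symm
    have n2 : (nm k2 : ℝ) = Real.sqrt (nm k2) * Real.sqrt (nm k2) :=
      (Real.mul_self_sqrt (Nat.cast_nonneg _)).symm
    have h3 : Real.sqrt 3 ≠ 0 := by positivity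
    have e4 : (nm k2 : ℝ) * (nm k1 : ℝ) = (Real.sqrt (nm k1) * Real.sqrt (nm k2)) *
        (Real.sqrt (nm k1) * Real.sqrt (nm k2)) := by
      rw [n1, n2] ; simp only [Real.sqrt_mul_self (Real.sqrt_nonneg _)]; ring
    rw [e4]
    field_simp
  rw [← hconst]
  linear_combination (((2 / (9 * Real.sqrt 3 * (nm k2 * nm k1)) : ℝ) : ℂ) *
      ((Real.sqrt (nm k1) : ℂ) * (Real.sqrt (nm k2) : ℂ)) *
      ((starRingEnd ℂ) (sy e k1) * sy e k2) *
      (∑ d ∈ pdiv e, (mu d : ℂ) * (nm d : ℂ)⁻¹ * (sy d k2 * (starRingEnd ℂ) (sy d k1)) *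
          ∑' h : Eis, ph h * (sy h k1 * (starRingEnd ℂ) (sy h k2)) *
            fC f (toC h / (3 * toC sq3 * (toC k1 * toC k2) * toC d)))) *
      (G k2 * (starRingEnd ℂ) (G k2) * g1 + g2)

/-! ### Pairs and their greatest common divisors -/

/-- Two squarefree primary elements split over their primary gcd. -/
lemma exists_gcd_split {b1 b2 : Eis} (h1 : IsPrim b1) (h2 : IsPrim b2) (hs1 : Squarefree b1)
    (hs2 : Squarefree b2) :
    ∃ e k1 k2 : Eis, IsPrim e ∧ IsPrim k1 ∧ IsPrim k2 ∧ b1 = e * k1 ∧ b2 = e * k2 ∧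
      IsCoprime k1 k2 ∧ IsCoprime e k1 ∧ IsCoprime e k2 ∧ Squarefree e ∧ Squarefree k1 ∧
      Squarefree k2 := by
  set g := EuclideanDomain.gcd b1 b2 with hg
  have hg1 : g ∣ b1 := EuclideanDomain.gcd_dvd_left _ _
  have hg2 : g ∣ b2 := EuclideanDomain.gcd_dvd_right _ _
  have hgl : ¬ lam ∣ g := fun h => h1.not_lam_dvd (h.trans hg1)
  set e := prim g with he
  have hep : IsPrim e := prim_isPrim hgl
  have hass : Associated g e := prim_associated g
  obtain ⟨k1, hk1⟩ : e ∣ b1 := hass.symm.dvd.trans hg1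
  obtain ⟨k2, hk2⟩ : e ∣ b2 := hass.symm.dvd.trans hg2
  have hp1 : IsPrim k1 := IsPrim.of_mul_left (hk1 ▸ h1) hep
  have hp2 : IsPrim k2 := IsPrim.of_mul_left (hk2 ▸ h2) hep
  have hcop : IsCoprime k1 k2 := by
    have hbez := EuclideanDomain.gcd_eq_gcd_ab b1 b2
    rw [← hg] at hbez
    obtain ⟨u, hu⟩ := hass
    refine ⟨u * EuclideanDomain.gcdA b1 b2, u * EuclideanDomain.gcdB b1 b2, ?_⟩
    apply mul_left_cancel₀ hep.ne_zero
    calc e * (u * EuclideanDomain.gcdA b1 b2 * k1 + u * EuclideanDomain.gcdB b1 b2 * k2)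
        = u * (e * k1 * EuclideanDomain.gcdA b1 b2 + e * k2 * EuclideanDomain.gcdB b1 b2) := by
          ring
      _ = u * (b1 * EuclideanDomain.gcdA b1 b2 + b2 * EuclideanDomain.gcdB b1 b2) := by
          rw [← hk1, ← hk2]
      _ = e * 1 := by rw [← hbez, mul_comm, hu, mul_one]
  rw [hk1] at hs1
  rw [hk2] at hs2
  obtain ⟨r1, se, sk1⟩ := squarefree_mul_iff.mp hs1
  obtain ⟨r2, _, sk2⟩ := squarefree_mul_iff.mp hs2
  exact ⟨e, k1, k2, hep, hp1, hp2, hk1, hk2, hcop, r1.isCoprime, r2.isCoprime, se, sk1, sk2⟩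

/-- Uniqueness of the splitting. -/
lemma gcd_split_unique {e k1 k2 e' k1' k2' : Eis} (he : IsPrim e) (he' : IsPrim e')
    (h1 : e * k1 = e' * k1') (h2 : e * k2 = e' * k2') (hc : IsCoprime k1 k2)
    (hc' : IsCoprime k1' k2') : e = e' ∧ k1 = k1' ∧ k2 = k2' := by
  have d1 : e ∣ e' := by
    obtain ⟨a, b, hab⟩ := hc'
    refine ⟨a * k1 + b * k2, ?_⟩
    linear_combination (-a) * h1 - b * h2 - e' * hab
  have d2 : e' ∣ e := by
    obtain ⟨a, b, hab⟩ := hc
    refine ⟨a * k1' + b * k2', ?_⟩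
    linear_combination a * h1 + b * h2 - e * hab
  have hee : e = e' := he.eq_of_associated he' (associated_of_dvd_dvd d1 d2)
  subst hee
  exact ⟨rfl, mul_left_cancel₀ he.ne_zero h1, mul_left_cancel₀ he.ne_zero h2⟩

open Classical in
/-- Sums over pairs as sums over triples `(e, k₁, k₂)`.  `D` is any finite set of primary elements
containing all primary divisors of the elements of `S`. -/
lemma sum_pairs_gcd {S D : Finset Eis} (hS : ∀ b ∈ S, IsPrim b ∧ Squarefree b)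
    (hD : ∀ d ∈ D, IsPrim d) (hSD : ∀ b ∈ S, ∀ d : Eis, IsPrim d → d ∣ b → d ∈ D)
    (F : Eis → Eis → ℂ) :
    ∑ b1 ∈ S, ∑ b2 ∈ S, F b1 b2 =
      ∑ e ∈ D, ∑ k1 ∈ D, ∑ k2 ∈ D,
        if e * k1 ∈ S ∧ e * k2 ∈ S ∧ IsCoprime k1 k2 then F (e * k1) (e * k2) else 0 := by
  have e1 : ∑ b1 ∈ S, ∑ b2 ∈ S, F b1 b2 = ∑ p ∈ S ×ˢ S, F p.1 p.2 := by
    rw [Finset.sum_product]
  have e2 : ∑ e ∈ D, ∑ k1 ∈ D, ∑ k2 ∈ D,
        (if e * k1 ∈ S ∧ e * k2 ∈ S ∧ IsCoprime k1 k2 then F (e * k1) (e * k2) else 0) =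
      ∑ t ∈ (D ×ˢ D ×ˢ D).filter (fun t => t.1 * t.2.1 ∈ S ∧ t.1 * t.2.2 ∈ S ∧
        IsCoprime t.2.1 t.2.2), F (t.1 * t.2.1) (t.1 * t.2.2) := by
    rw [Finset.sum_filter, Finset.sum_product]
    refine Finset.sum_congr rfl fun e _ => ?_
    rw [Finset.sum_product]
  rw [e1, e2]
  symm
  refine Finset.sum_nbij (fun t => (t.1 * t.2.1, t.1 * t.2.2)) ?_ ?_ ?_ ?_
  · intro t ht
    rw [Finset.mem_filter] at ht
    exact Finset.mem_product.mpr ⟨ht.2.1, ht.2.2.1⟩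
  · intro t ht t' ht' h
    rw [Finset.mem_coe, Finset.mem_filter, Finset.mem_product, Finset.mem_product] at ht ht'
    obtain ⟨h1, h2⟩ := Prod.ext_iff.mp h
    obtain ⟨a1, a2, a3⟩ := gcd_split_unique (hD _ ht.1.1) (hD _ ht'.1.1) h1 h2 ht.2.2.2 ht'.2.2.2
    exact Prod.ext a1 (Prod.ext a2 a3)
  · rintro ⟨b1, b2⟩ hb
    rw [Finset.mem_coe, Finset.mem_product] at hb
    obtain ⟨p1, s1⟩ := hS _ hb.1
    obtain ⟨p2, s2⟩ := hS _ hb.2
    obtain ⟨e, k1, k2, he, hk1, hk2, hb1, hb2, hc, -⟩ := exists_gcd_split p1 p2 s1 s2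
    refine ⟨(e, k1, k2), ?_, ?_⟩
    · rw [Finset.mem_coe, Finset.mem_filter, Finset.mem_product, Finset.mem_product]
      refine ⟨⟨hSD _ hb.1 _ he ⟨k1, hb1⟩, hSD _ hb.1 _ hk1 ⟨e, by rw [hb1, mul_comm]⟩,
        hSD _ hb.2 _ hk2 ⟨e, by rw [hb2, mul_comm]⟩⟩, ?_, ?_, hc⟩
      · rw [← hb1]; exact hb.1
      · rw [← hb2]; exact hb.2
    · exact Prod.ext hb1.symm hb2.symm
  · intro t _
    rfl

end Crest.Agent.R012.Tau671
end
end

-- ▼ part R012/DualSum_671
section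

/-!
# Row 12 (T1x): summed dual identity and Moebius removal of `(k₁, k₂) = 1`

* `dual_sum` : `∑_{a primary} |∑_{b ∈ S} β_b G(b) conj (a/b)|² f(a)` as a sum over `(e, k₁, k₂)`
* `pairs_moebius` : for fixed `e, h, r`, the condition `(k₁, k₂) = 1` removed by Moebius inversion
-/

set_option autoImplicit false
set_option linter.unusedSimpArgs false
set_option linter.unusedVariables false

noncomputable section

open Finset

namespace Crest.Agent.R012.Tau671

open Eis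
open Gauss880 (syG)
open Po581 (fC dl)
open Mob705 (mu pdiv mem_pdiv sum_mu_coprime)

/-- The dual series of a pair: the sum over `d ∣ e` and over all `h`. -/
def dualPair (f : ℂ → ℂ) (e k1 k2 : Eis) : ℂ :=
  ((2 / (9 * Real.sqrt 3 * Real.sqrt (nm k1 * nm k2)) : ℝ) : ℂ) *
    ∑ d ∈ pdiv e, (mu d : ℂ) * (nm d : ℂ)⁻¹ *
      ∑' h : Eis, ph h * (psi h (d * e) k1 * (starRingEnd ℂ) (psi h (d * e) k2)) *
        fC f (toC h / (3 * toC sq3 * (toC k1 * toC k2) * toC d))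

/-- The dual series converges absolutely. -/
lemma summable_dualPair {f : ℂ → ℂ} (hf : PF f) {r k1 k2 d : Eis} (h1 : IsPrim k1)
    (h2 : IsPrim k2) (hd : d ≠ 0) :
    Summable (fun h : Eis => ph h * (psi h r k1 * (starRingEnd ℂ) (psi h r k2)) *
        fC f (toC h / (3 * toC sq3 * (toC k1 * toC k2) * toC d))) := by
  have hs := hf.sumd (3 * (toC k1 * toC k2) * toC d) (mul_ne_zero (mul_ne_zero (by norm_num)
    (mul_ne_zero (toC_ne_zero h1.ne_zero) (toC_ne_zero h2.ne_zero))) (toC_ne_zero hd))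
  refine summable_mul_bdd (B := 1) (fun h => ?_) ?_
  · rw [norm_mul, norm_ph, one_mul, norm_mul, RCLike.norm_conj]
    exact mul_le_one₀ (norm_psi_le h1) (norm_nonneg _) (norm_psi_le h2)
  · convert! hs using 1
    funext k
    congr 1
    rw [dl_eq, div_div]
    congr 1; ring

open Classical in
/-- **The summed dual identity.** -/
theorem dual_sum {f : ℂ → ℂ} (hf : PF f) {S D : Finset Eis}
    (hS : ∀ b ∈ S, IsPrim b ∧ Squarefree b) (hD : ∀ d ∈ D, IsPrim d)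
    (hSD : ∀ b ∈ S, ∀ d : Eis, IsPrim d → d ∣ b → d ∈ D) (β : Eis → ℂ) :
    ∑' a : Eis, (if IsPrim a then (∑ b ∈ S, β b * (G b * (starRingEnd ℂ) (sy a b))) *
        (starRingEnd ℂ) (∑ b ∈ S, β b * (G b * (starRingEnd ℂ) (sy a b))) else 0) * f (toC a) =
      ∑ e ∈ D, ∑ k1 ∈ D, ∑ k2 ∈ D, if e * k1 ∈ S ∧ e * k2 ∈ S ∧ IsCoprime k1 k2 then
        β (e * k1) * (starRingEnd ℂ) (β (e * k2)) * dualPair f e k1 k2 else 0 := by
  -- expand the square
  have e1 : ∀ a : Eis, (if IsPrim a then (∑ b ∈ S, β b * (G b * (starRingEnd ℂ) (sy a b))) *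
        (starRingEnd ℂ) (∑ b ∈ S, β b * (G b * (starRingEnd ℂ) (sy a b))) else 0) * f (toC a) =
      ∑ b1 ∈ S, ∑ b2 ∈ S, β b1 * (starRingEnd ℂ) (β b2) *
        ((if IsPrim a then (G b1 * (starRingEnd ℂ) (sy a b1)) *
          (starRingEnd ℂ) (G b2 * (starRingEnd ℂ) (sy a b2)) else 0) * f (toC a)) := by
    intro a
    by_cases ha : IsPrim a
    · simp only [if_pos ha]
      rw [map_sum, Finset.sum_mul_sum, Finset.sum_mul]
      refine Finset.sum_congr rfl fun b1 _ => ?_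
      rw [Finset.sum_mul]
      refine Finset.sum_congr rfl fun b2 _ => ?_
      rw [map_mul]; ring
    · simp only [if_neg ha, zero_mul, mul_zero, Finset.sum_const_zero]
  simp_rw [e1]
  have hsum : ∀ b1 ∈ S, ∀ b2 ∈ S, Summable (fun a : Eis => β b1 * (starRingEnd ℂ) (β b2) *
        ((if IsPrim a then (G b1 * (starRingEnd ℂ) (sy a b1)) *
          (starRingEnd ℂ) (G b2 * (starRingEnd ℂ) (sy a b2)) else 0) * f (toC a))) := by
    intro b1 hb1 b2 hb2
    refine Summable.mul_left _ ?_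
    refine summable_mul_bdd (B := 1) (fun a => ?_) (summable_pf_one hf)
    have hg : ∀ b : Eis, IsPrim b → ‖G b * (starRingEnd ℂ) (sy a b)‖ ≤ 1 := fun b hb => by
      rw [norm_mul, RCLike.norm_conj]
      exact mul_le_one₀ (Gauss880.norm_G_le syG hb) (norm_nonneg _) (norm_sy_le hb)
    split_ifs
    · rw [norm_mul, RCLike.norm_conj]
      exact mul_le_one₀ (hg _ (hS _ hb1).1) (norm_nonneg _) (hg _ (hS _ hb2).1)
    · rw [norm_zero]; exact zero_le_one
  rw [Summable.tsum_finsetSum (fun b1 hb1 => summable_sum fun b2 hb2 => hsum b1 hb1 b2 hb2)]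
  have e2 : ∀ b1 ∈ S, ∑' a : Eis, ∑ b2 ∈ S, β b1 * (starRingEnd ℂ) (β b2) *
        ((if IsPrim a then (G b1 * (starRingEnd ℂ) (sy a b1)) *
          (starRingEnd ℂ) (G b2 * (starRingEnd ℂ) (sy a b2)) else 0) * f (toC a)) =
      ∑ b2 ∈ S, β b1 * (starRingEnd ℂ) (β b2) * ∑' a : Eis,
        ((if IsPrim a then (G b1 * (starRingEnd ℂ) (sy a b1)) *
          (starRingEnd ℂ) (G b2 * (starRingEnd ℂ) (sy a b2)) else 0) * f (toC a)) := by
    intro b1 hb1
    rw [Summable.tsum_finsetSum (fun b2 hb2 => hsum b1 hb1 b2 hb2)]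
    exact Finset.sum_congr rfl fun b2 _ => tsum_mul_left
  rw [Finset.sum_congr rfl e2, sum_pairs_gcd hS hD hSD]
  refine Finset.sum_congr rfl fun e he => Finset.sum_congr rfl fun k1 hk1 =>
    Finset.sum_congr rfl fun k2 hk2 => ?_
  by_cases hc : e * k1 ∈ S ∧ e * k2 ∈ S ∧ IsCoprime k1 k2
  · rw [if_pos hc, if_pos hc]
    obtain ⟨r1, se, sk1⟩ := squarefree_mul_iff.mp (hS _ hc.1).2
    obtain ⟨r2, _, sk2⟩ := squarefree_mul_iff.mp (hS _ hc.2.1).2
    rw [pairG hf (hD _ he) (hD _ hk1) (hD _ hk2) se sk1 sk2 r1.isCoprime r2.isCoprime hc.2.2]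
    rfl
  · rw [if_neg hc, if_neg hc]

open Classical in
/-- Substituting `k = g m`. -/
lemma sum_dvd_subst {S D : Finset Eis} (hD : ∀ d ∈ D, IsPrim d)
    (hSD : ∀ b ∈ S, ∀ d : Eis, IsPrim d → d ∣ b → d ∈ D) {e g : Eis} (hg : IsPrim g)
    (F : Eis → ℂ) :
    ∑ k ∈ D, (if g ∣ k ∧ e * k ∈ S then F k else 0) =
      ∑ m ∈ D, if e * (g * m) ∈ S then F (g * m) else 0 := by
  rw [← Finset.sum_filter, ← Finset.sum_filter]
  symm
  refine Finset.sum_nbij (fun m => g * m) ?_ ?_ ?_ ?_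
  · intro m hm
    rw [Finset.mem_filter] at hm ⊢
    exact ⟨hSD _ hm.2 _ (hg.mul (hD _ hm.1)) (dvd_mul_left _ _), dvd_mul_right _ _, hm.2⟩
  · intro m _ m' _ h
    exact mul_left_cancel₀ hg.ne_zero h
  · intro k hk
    rw [Finset.mem_coe, Finset.mem_filter] at hk
    obtain ⟨m, rfl⟩ := hk.2.1
    refine ⟨m, ?_, rfl⟩
    rw [Finset.mem_coe, Finset.mem_filter]
    have hm : IsPrim m := IsPrim.of_mul_left (hD _ hk.1) hg
    refine ⟨hSD _ hk.2.2 _ hm ?_, hk.2.2⟩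
    exact (dvd_mul_left m g).trans (dvd_mul_left _ _)
  · intro m _
    rfl

open Classical in
/-- **Removal of the condition `(k₁, k₂) = 1`** by Moebius inversion (general form). -/
lemma sum_coprime_moebius {S D : Finset Eis} (hD : ∀ d ∈ D, IsPrim d)
    (hSD : ∀ b ∈ S, ∀ d : Eis, IsPrim d → d ∣ b → d ∈ D) (e : Eis) (F : Eis → Eis → ℂ) :
    ∑ k1 ∈ D, ∑ k2 ∈ D, (if e * k1 ∈ S ∧ e * k2 ∈ S ∧ IsCoprime k1 k2 then F k1 k2 else 0) =
      ∑ g ∈ D, (mu g : ℂ) * ∑ m1 ∈ D, ∑ m2 ∈ D,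
        if e * (g * m1) ∈ S ∧ e * (g * m2) ∈ S then F (g * m1) (g * m2) else 0 := by
  have e1 : ∀ k1 ∈ D, ∀ k2 ∈ D,
      (if e * k1 ∈ S ∧ e * k2 ∈ S ∧ IsCoprime k1 k2 then F k1 k2 else 0) =
      ∑ g ∈ D, (mu g : ℂ) * (if (g ∣ k1 ∧ e * k1 ∈ S) ∧ (g ∣ k2 ∧ e * k2 ∈ S) then F k1 k2
        else 0) := by
    intro k1 hk1 k2 hk2
    by_cases hm : e * k1 ∈ S ∧ e * k2 ∈ S
    · have h := sum_mu_coprime (hD _ hk1) (hD _ hk2).ne_zero
      have h3 := congrArg (fun z : ℤ => (z : ℂ)) h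
      beta_reduce at h3
      push_cast at h3
      have h4 : ∑ g ∈ D, (mu g : ℂ) * (if g ∣ k1 ∧ g ∣ k2 then (1 : ℂ) else 0) =
          if IsCoprime k1 k2 then (1 : ℂ) else 0 := by
        rw [← h3]
        have h5 : pdiv k2 ⊆ D := fun x hx => by
          rw [mem_pdiv (hD _ hk2).ne_zero] at hx
          exact hSD _ hm.2 _ hx.1 (hx.2.trans (dvd_mul_left _ _))
        rw [← Finset.sum_subset h5]
        · refine Finset.sum_congr rfl fun x hx => ?_
          rw [mem_pdiv (hD _ hk2).ne_zero] at hx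
          by_cases h6 : x ∣ k1
          · rw [if_pos ⟨h6, hx.2⟩, if_pos h6, mul_one]
          · rw [if_neg (fun h => h6 h.1), if_neg h6, mul_zero]
        · intro x hxD hx
          rw [mem_pdiv (hD _ hk2).ne_zero] at hx
          rw [if_neg (fun h => hx ⟨hD _ hxD, h.2⟩), mul_zero]
      have h7 : ∀ g ∈ D, (mu g : ℂ) * (if (g ∣ k1 ∧ e * k1 ∈ S) ∧ (g ∣ k2 ∧ e * k2 ∈ S)
          then F k1 k2 else 0) =
          ((mu g : ℂ) * (if g ∣ k1 ∧ g ∣ k2 then (1 : ℂ) else 0)) * F k1 k2 := by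
        intro g _
        by_cases h8 : g ∣ k1 ∧ g ∣ k2
        · rw [if_pos ⟨⟨h8.1, hm.1⟩, ⟨h8.2, hm.2⟩⟩, if_pos h8]; ring
        · rw [if_neg (fun h => h8 ⟨h.1.1, h.2.1⟩), if_neg h8]; ring
      rw [Finset.sum_congr rfl h7, ← Finset.sum_mul, h4]
      by_cases hc : IsCoprime k1 k2
      · rw [if_pos ⟨hm.1, hm.2, hc⟩, if_pos hc, one_mul]
      · rw [if_neg (fun h => hc h.2.2), if_neg hc, zero_mul]
    · rw [if_neg (fun h => hm ⟨h.1, h.2.1⟩)]
      symm
      apply Finset.sum_eq_zero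
      intro g _
      rw [if_neg (fun h => hm ⟨h.1.2, h.2.2⟩), mul_zero]
  rw [Finset.sum_congr rfl fun k1 hk1 => Finset.sum_congr rfl fun k2 hk2 => e1 k1 hk1 k2 hk2]
  have e2 : ∀ k1 ∈ D, ∑ k2 ∈ D, ∑ g ∈ D, (mu g : ℂ) *
      (if (g ∣ k1 ∧ e * k1 ∈ S) ∧ (g ∣ k2 ∧ e * k2 ∈ S) then F k1 k2 else 0) =
      ∑ g ∈ D, ∑ k2 ∈ D, (mu g : ℂ) *
      (if (g ∣ k1 ∧ e * k1 ∈ S) ∧ (g ∣ k2 ∧ e * k2 ∈ S) then F k1 k2 else 0) :=
    fun k1 _ => Finset.sum_comm
  rw [Finset.sum_congr rfl e2, Finset.sum_comm]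
  refine Finset.sum_congr rfl fun g hg => ?_
  have hgp := hD _ hg
  have e3 : ∀ k1 : Eis, ∑ k2 ∈ D, (mu g : ℂ) *
      (if (g ∣ k1 ∧ e * k1 ∈ S) ∧ (g ∣ k2 ∧ e * k2 ∈ S) then F k1 k2 else 0) =
      (mu g : ℂ) * (if g ∣ k1 ∧ e * k1 ∈ S then
        ∑ m2 ∈ D, (if e * (g * m2) ∈ S then F k1 (g * m2) else 0) else 0) := by
    intro k1
    rw [← Finset.mul_sum]
    congr 1
    by_cases h : g ∣ k1 ∧ e * k1 ∈ S
    · rw [if_pos h, ← sum_dvd_subst hD hSD hgp]
      refine Finset.sum_congr rfl fun k2 _ => ?_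
      by_cases h' : g ∣ k2 ∧ e * k2 ∈ S
      · rw [if_pos ⟨h, h'⟩, if_pos h']
      · rw [if_neg (fun h'' => h' h''.2), if_neg h']
    · rw [if_neg h]
      apply Finset.sum_eq_zero
      intro k2 _
      rw [if_neg (fun h'' => h h''.1)]
  simp_rw [e3]
  rw [← Finset.mul_sum, sum_dvd_subst hD hSD hgp]
  congr 1
  refine Finset.sum_congr rfl fun m1 _ => ?_
  by_cases h : e * (g * m1) ∈ S
  · rw [if_pos h]
    refine Finset.sum_congr rfl fun m2 _ => ?_
    by_cases h' : e * (g * m2) ∈ S <;> simp [h, h']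
  · rw [if_neg h]
    symm
    apply Finset.sum_eq_zero
    intro m2 _
    simp [h]

open Classical in
/-- Moebius removal for the bilinear form of a single frequency `h`: `r` is any element with
`(r, b) = 1` up to the factor `e` (for instance `r = d e`, `d ∣ e`).  `W` is a function of the
product `k₁ k₂`. -/
theorem pairs_moebius {S D : Finset Eis} (hS : ∀ b ∈ S, IsPrim b ∧ Squarefree b)
    (hD : ∀ d ∈ D, IsPrim d) (hSD : ∀ b ∈ S, ∀ d : Eis, IsPrim d → d ∣ b → d ∈ D)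
    {e d : Eis} (he : IsPrim e) (hde : d ∣ e) (h : Eis) (β : Eis → ℂ) (W : Eis → ℂ) :
    ∑ k1 ∈ D, ∑ k2 ∈ D, (if e * k1 ∈ S ∧ e * k2 ∈ S ∧ IsCoprime k1 k2 then
        β (e * k1) * (starRingEnd ℂ) (β (e * k2)) *
          (((Real.sqrt (nm k1 * nm k2))⁻¹ : ℝ) : ℂ) *
          (psi h (d * e) k1 * (starRingEnd ℂ) (psi h (d * e) k2)) * W (k1 * k2) else 0) =
      ∑ g ∈ D, (if IsCoprime h g then (mu g : ℂ) * (nm g : ℂ)⁻¹ *
        ∑ m1 ∈ D, ∑ m2 ∈ D, (if e * (g * m1) ∈ S ∧ e * (g * m2) ∈ S then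
          β (e * (g * m1)) * (starRingEnd ℂ) (β (e * (g * m2))) *
            (((Real.sqrt (nm m1 * nm m2))⁻¹ : ℝ) : ℂ) *
            (psi h (d * e) m1 * (starRingEnd ℂ) (psi h (d * e) m2)) *
            W (g * g * (m1 * m2)) else 0) else 0) := by
  rw [sum_coprime_moebius hD hSD e (fun k1 k2 => β (e * k1) * (starRingEnd ℂ) (β (e * k2)) *
          (((Real.sqrt (nm k1 * nm k2))⁻¹ : ℝ) : ℂ) *
          (psi h (d * e) k1 * (starRingEnd ℂ) (psi h (d * e) k2)) * W (k1 * k2))]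
  refine Finset.sum_congr rfl fun g hg => ?_
  have hgp := hD _ hg
  have hg0 : (0 : ℝ) < nm g := by exact_mod_cast nm_pos.mpr hgp.ne_zero
  have key : ∀ m1 ∈ D, ∀ m2 ∈ D, (if e * (g * m1) ∈ S ∧ e * (g * m2) ∈ S then
      β (e * (g * m1)) * (starRingEnd ℂ) (β (e * (g * m2))) *
          (((Real.sqrt (nm (g * m1) * nm (g * m2)))⁻¹ : ℝ) : ℂ) *
          (psi h (d * e) (g * m1) * (starRingEnd ℂ) (psi h (d * e) (g * m2))) *
          W (g * m1 * (g * m2)) else 0) =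
      (if IsCoprime h g then (nm g : ℂ)⁻¹ else 0) *
      (if e * (g * m1) ∈ S ∧ e * (g * m2) ∈ S then
          β (e * (g * m1)) * (starRingEnd ℂ) (β (e * (g * m2))) *
            (((Real.sqrt (nm m1 * nm m2))⁻¹ : ℝ) : ℂ) *
            (psi h (d * e) m1 * (starRingEnd ℂ) (psi h (d * e) m2)) *
            W (g * g * (m1 * m2)) else 0) := by
    intro m1 hm1 m2 hm2
    by_cases hc : e * (g * m1) ∈ S ∧ e * (g * m2) ∈ S
    · rw [if_pos hc, if_pos hc, psi_mul hgp (hD _ hm1), psi_mul hgp (hD _ hm2)]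
      have ew : g * m1 * (g * m2) = g * g * (m1 * m2) := by ring
      have er : (Real.sqrt (nm (g * m1) * nm (g * m2)))⁻¹ =
          (nm g : ℝ)⁻¹ * (Real.sqrt (nm m1 * nm m2))⁻¹ := by
        rw [nm_mul, nm_mul]
        push_cast
        have : (nm g : ℝ) * nm m1 * (nm g * nm m2) = (nm g : ℝ) ^ 2 * (nm m1 * nm m2) := by ring
        rw [this, Real.sqrt_mul (by positivity), Real.sqrt_sq hg0.le, mul_inv]
      rw [ew, er]
      by_cases hhg : IsCoprime h g
      · rw [if_pos hhg]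
        have hgr : IsCoprime (d * e) g := by
          obtain ⟨r1, -, -⟩ := squarefree_mul_iff.mp (hS _ hc.1).2
          have hge : IsCoprime e g := IsCoprime.of_isCoprime_of_dvd_right r1.isCoprime
            (dvd_mul_right _ _)
          exact (hge.of_isCoprime_of_dvd_left hde).mul_left hge
        have e3 := psi_mul_star (h := h) (r := d * e) hgp hhg hgr
        simp only [map_mul]
        push_cast
        linear_combination (β (e * (g * m1)) * (starRingEnd ℂ) (β (e * (g * m2))) *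
          ((nm g : ℂ)⁻¹ * ((Real.sqrt (nm m1 * nm m2) : ℝ) : ℂ)⁻¹) *
          (psi h (d * e) m1 * (starRingEnd ℂ) (psi h (d * e) m2)) *
          W (g * g * (m1 * m2))) * e3
      · rw [if_neg hhg, psi_eq_zero hgp hhg]; ring
    · rw [if_neg hc, if_neg hc, mul_zero]
  rw [Finset.sum_congr rfl fun m1 hm1 => Finset.sum_congr rfl fun m2 hm2 => key m1 hm1 m2 hm2]
  simp_rw [← Finset.mul_sum]
  by_cases hhg : IsCoprime h g
  · rw [if_pos hhg, if_pos hhg, mul_assoc]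
  · rw [if_neg hhg, if_neg hhg]; ring

end Crest.Agent.R012.Tau671
end
end

-- ▼ part R012/T8G_810

/-!
# Row 12 (T8): the pair formula with a complex Gaussian weight

`cg s z = exp(-s |z|²)`, `Re s > 0`, is a Poisson function (`PF`), with transform
`(π/s) exp(-4π²|ξ|²/s)`.  `pair_cg` is the evaluation of
`∑_{a ∈ Eis} (a/k₁) conj (a/k₂) exp(-s N(a))` for coprime squarefree primary `k₁, k₂`.
-/

set_option autoImplicit false

noncomputable section

open Complex MeasureTheory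
open scoped FourierTransform

namespace Crest.Agent.R012.T8

open Eis
open Gauss880 (syG)
open Po581 (fC dl iS3)
open Tau671

/-- the complex Gaussian. -/
def cg (s : ℂ) (z : ℂ) : ℂ := cexp (-s * (‖z‖ : ℂ) ^ 2)

lemma norm_cg (s z : ℂ) : ‖cg s z‖ = Real.exp (-(s.re * ‖z‖ ^ 2)) := by
  unfold cg
  rw [Complex.norm_exp]
  congr 1
  rw [← Complex.ofReal_pow, neg_mul, neg_re, re_mul_ofReal]

lemma continuous_cg (s : ℂ) : Continuous (cg s) := by
  unfold cg; fun_prop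

lemma fC_cg {s : ℂ} (hs : 0 < s.re) (ξ : ℂ) :
    fC (cg s) ξ = (Real.pi / s) * cexp (-(4 * Real.pi ^ 2 * (‖ξ‖ : ℂ) ^ 2 / s)) := by
  rw [Po581.fC_eq_fourier]
  have h := fourier_gaussian_innerProductSpace (V := ℂ) hs (2 * (starRingEnd ℂ) ξ)
  have h1 : cg s = fun v : ℂ => cexp (-s * (‖v‖ : ℂ) ^ 2) := rfl
  rw [h1, h]
  have h2 : ‖(2 : ℂ) * (starRingEnd ℂ) ξ‖ = 2 * ‖ξ‖ := by
    rw [norm_mul, Complex.norm_conj]; norm_num
  rw [h2, Complex.finrank_real_complex]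
  have h4 : ((2 : ℕ) / 2 : ℂ) = 1 := by norm_num
  rw [h4, Complex.cpow_one]
  congr 2
  push_cast
  ring

/-- a Gaussian decays faster than `(1+r)^{-3}`. -/
lemma exp_neg_le_pow {c : ℝ} (hc : 0 < c) {r : ℝ} (hr : 0 ≤ r) :
    Real.exp (-(c * r ^ 2)) ≤ (8 + 16 / c ^ 2) / (1 + r) ^ 3 := by
  rw [le_div_iff₀ (by positivity), Real.exp_neg, inv_mul_le_iff₀ (Real.exp_pos _)]
  have h1 : 1 + c * r ^ 2 + (c * r ^ 2) ^ 2 / 2 ≤ Real.exp (c * r ^ 2) :=
    Real.quadratic_le_exp_of_nonneg (by positivity)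
  have h2 : (1 + (c * r ^ 2) ^ 2 / 2) * (8 + 16 / c ^ 2) ≤
      Real.exp (c * r ^ 2) * (8 + 16 / c ^ 2) := by
    apply mul_le_mul_of_nonneg_right _ (by positivity)
    have : 0 ≤ c * r ^ 2 := by positivity
    linarith
  refine le_trans ?_ h2
  have h3 : (1 + (c * r ^ 2) ^ 2 / 2) * (8 + 16 / c ^ 2) =
      8 + 16 / c ^ 2 + 4 * c ^ 2 * r ^ 4 + 8 * r ^ 4 := by
    field_simp; ring
  rw [h3]
  have h4 : 0 ≤ 16 / c ^ 2 := by positivity
  have h5 : 0 ≤ c ^ 2 * r ^ 4 := by positivity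
  have h6 : (1 + r) ^ 3 ≤ 8 + 8 * r ^ 4 := by
    rcases le_total r 1 with h | h
    · have : (1 + r) ^ 3 ≤ 2 ^ 3 := by gcongr; linarith
      nlinarith [pow_nonneg hr 4]
    · have : (1 + r) ^ 3 ≤ (2 * r) ^ 3 := by gcongr; linarith
      have h7 : r ^ 3 ≤ r ^ 4 := pow_le_pow_right₀ h (by norm_num)
      nlinarith [pow_nonneg hr 4]
  linarith

lemma re_inv_pos {s : ℂ} (hs : 0 < s.re) : 0 < (1 / s).re := by
  rw [one_div, Complex.inv_re]
  have : s ≠ 0 := by rintro rfl; simp at hs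
  exact div_pos hs (Complex.normSq_pos.mpr this)

lemma norm_cexp_div {s : ℂ} (c : ℝ) : ‖cexp (-((c : ℂ) / s))‖ = Real.exp (-(c * (1 / s).re)) := by
  rw [Complex.norm_exp]
  congr 1
  rw [div_eq_mul_one_div, neg_re, re_ofReal_mul]

lemma pf_cg {s : ℂ} (hs : 0 < s.re) : PF (cg s) := by
  have h0 := re_inv_pos hs
  refine PF.of_decay (continuous_cg s) (C := 8 + 16 / s.re ^ 2)
    (C' := ‖(Real.pi / s : ℂ)‖ * (8 + 16 / (4 * Real.pi ^ 2 * (1 / s).re) ^ 2)) (fun z => ?_)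
    (fun ξ => ?_)
  · rw [norm_cg]
    exact exp_neg_le_pow hs (norm_nonneg z)
  · rw [fC_cg hs, norm_mul]
    refine (mul_le_mul_of_nonneg_left ?_ (norm_nonneg _)).trans
      (le_of_eq (mul_div_assoc _ _ _).symm)
    have e : (4 * Real.pi ^ 2 * (‖ξ‖ : ℂ) ^ 2 / s) = ((4 * Real.pi ^ 2 * ‖ξ‖ ^ 2 : ℝ) : ℂ) / s := by
      push_cast; ring
    rw [e, norm_cexp_div]
    have h1 := exp_neg_le_pow (c := 4 * Real.pi ^ 2 * (1 / s).re) (by positivity) (norm_nonneg ξ)
    refine le_trans (le_of_eq ?_) h1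
    congr 1; ring

lemma cg_toC (s : ℂ) (a : Eis) : cg s (toC a) = cexp (-s * (nm a : ℂ)) := by
  unfold cg
  congr 2
  rw [← Complex.ofReal_pow, norm_toC_sq]; simp

lemma summable_cg {s : ℂ} (hs : 0 < s.re) : Summable (fun a : Eis => cexp (-s * (nm a : ℂ))) := by
  have := summable_pf_one (pf_cg hs)
  simpa only [cg_toC] using this




end Crest.Agent.R012.T8
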