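import Crest.Agent.R012.TateC_413
import Crest.Agent.R012.ExpSix_413
import Crest.Agent.R012.Mob_705
import Crest.Agent.R012.GramD_858
import Crest.Agent.R012.Spec_T_411
import Crest.Agent.R012.Sym6_645
import Crest.Agent.R012.T8G_810_Mg
import Crest.Agent.R012.Weight_600

-- ▼ part R012/Gam_413
section

/-!
# Row 12 (MK12, T4): Gamma identities for the constant `pC`

* `gamma_third` : `Γ(1/3) Γ(2/3) = 2π/√3`.
* `pC_sq_gamma` : `pC² Γ(2/3) = 2π/(3√3) Γ(1/3) (2π)^(-2/3)`.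
* `integral_exp_cube` : `∫_0^∞ exp(-c x³) dx = Γ(1/3)/3 · c^(-1/3)`.
* `cube_const` : the constant of the cube part of the dispersion.
-/

set_option autoImplicit false

noncomputable section

open MeasureTheory Set Real

namespace Crest.Agent.R012.Gam413

open Crest.Agent.R012

lemma gamma_third : Real.Gamma (1 / 3) * Real.Gamma (2 / 3) = 2 * Real.pi / Real.sqrt 3 := by
  have h := Real.Gamma_mul_Gamma_one_sub (1 / 3)
  rw [show (1 : ℝ) - 1 / 3 = 2 / 3 by norm_num, show Real.pi * (1 / 3) = Real.pi / 3 by ring,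
    Real.sin_pi_div_three] at h
  rw [h]
  field_simp

lemma gamma_two_third_pos : 0 < Real.Gamma (2 / 3) := Real.Gamma_pos_of_pos (by norm_num)


lemma pC_sq_gamma : pC ^ 2 * Real.Gamma (2 / 3) =
    2 * Real.pi / (3 * Real.sqrt 3) * Real.Gamma (1 / 3) * (2 * Real.pi) ^ (-((2 : ℝ) / 3)) := by
  have h := gamma_third
  have hp := gamma_two_third_pos
  have h3 : (0 : ℝ) < Real.sqrt 3 := by positivity
  have h33 : Real.sqrt 3 * Real.sqrt 3 = 3 := Real.mul_self_sqrt (by norm_num)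
  have hpi : (0 : ℝ) < 2 * Real.pi := by positivity
  have e1 : Real.Gamma (1 / 3) = 2 * Real.pi / Real.sqrt 3 / Real.Gamma (2 / 3) := by
    rw [← h]; field_simp
  rw [e1]
  unfold pC
  have e2 : ((2 * Real.pi) ^ ((2 : ℝ) / 3)) ^ 2 = (2 * Real.pi) ^ 2 * (2 * Real.pi) ^ (-((2 : ℝ) / 3)) := by
    rw [← Real.rpow_natCast, ← Real.rpow_natCast, ← Real.rpow_mul hpi.le, ← Real.rpow_add hpi]
    norm_num
  rw [div_pow, e2]
  field_simp
  nlinarith [h33]

lemma integral_exp_cube {c : ℝ} (hc : 0 < c) :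
    ∫ x in Ioi (0 : ℝ), Real.exp (-(c * x ^ 3)) = Real.Gamma (1 / 3) / 3 * c ^ (-(1 / 3) : ℝ) := by
  have h := integral_comp_rpow_Ioi_of_pos
    (g := fun y : ℝ => 1 / 3 * (y ^ ((1 : ℝ) / 3 - 1) * Real.exp (-(y * c)))) (p := 3) (by norm_num)
  have h2 := TateC413.int_gamma (σ := 1 / 3) (r := c) (by norm_num) hc
  rw [integral_const_mul, h2] at h
  rw [show Real.Gamma (1 / 3) / 3 * c ^ (-(1 / 3) : ℝ) =
    1 / 3 * (Real.Gamma (1 / 3) * c ^ (-(1 / 3) : ℝ)) by ring, ← h]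
  apply setIntegral_congr_fun measurableSet_Ioi
  intro x hx
  have hx' : (0 : ℝ) < x := hx
  simp only [smul_eq_mul]
  rw [← Real.rpow_mul hx'.le, show (3 : ℝ) * (1 / 3 - 1) = -2 by norm_num,
    show (3 : ℝ) - 1 = 2 by norm_num]
  have e1 : x ^ (2 : ℝ) * x ^ (-2 : ℝ) = 1 := by
    rw [← Real.rpow_add hx']; norm_num
  have e2 : x ^ (3 : ℝ) = x ^ 3 := by
    rw [show (3 : ℝ) = ((3 : ℕ) : ℝ) by norm_num, Real.rpow_natCast]
  rw [e2, mul_comm c]
  calc Real.exp (-(x ^ 3 * c)) = (x ^ (2 : ℝ) * x ^ (-2 : ℝ)) * Real.exp (-(x ^ 3 * c)) := by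
        rw [e1, one_mul]
    _ = 3 * x ^ (2 : ℝ) * (1 / 3 * (x ^ (-2 : ℝ) * Real.exp (-(x ^ 3 * c)))) := by ring

/-- The radial version over `ℂ`. -/
lemma integral_exp_cube_C {c : ℝ} (hc : 0 < c) :
    ∫ z : ℂ, Real.exp (-(c * (‖z‖ ^ 2) ^ 3)) =
      Real.pi * (Real.Gamma (1 / 3) / 3 * c ^ (-(1 / 3) : ℝ)) := by
  rw [TateC413.integral_radial (fun y : ℝ => Real.exp (-(c * (y ^ 2) ^ 3))),
    ← integral_exp_cube hc]
  have h := integral_comp_rpow_Ioi_of_pos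
    (g := fun y : ℝ => Real.exp (-(c * y ^ 3))) (p := 2) (by norm_num)
  rw [← h]
  rw [smul_eq_mul, ← integral_const_mul, ← integral_const_mul]
  apply setIntegral_congr_fun measurableSet_Ioi
  intro x hx
  simp only [smul_eq_mul]
  rw [Real.rpow_two, show (2 : ℝ) - 1 = 1 by norm_num, Real.rpow_one]
  ring

/-- **T4.** With `c₀ = 4π²/27`:
`(2π/(9√3)) · (1/3) · (2/√3) · ∫_ℂ exp(-c₀ |z|⁶) dz = pC² (2π/(9√3)) Γ(2/3)`. -/
lemma cube_const :
    2 * Real.pi / (9 * Real.sqrt 3) * (1 / 3) * (2 / Real.sqrt 3) *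
      (∫ z : ℂ, Real.exp (-(4 * Real.pi ^ 2 / 27 * (‖z‖ ^ 2) ^ 3))) =
    pC ^ 2 * (2 * Real.pi / (9 * Real.sqrt 3)) * Real.Gamma (2 / 3) := by
  rw [integral_exp_cube_C (by positivity)]
  have h := pC_sq_gamma
  have h3 : (0 : ℝ) < Real.sqrt 3 := by positivity
  have hpi := Real.pi_pos
  have e1 : (4 * Real.pi ^ 2 / 27 : ℝ) ^ (-(1 / 3) : ℝ) = 3 * (2 * Real.pi) ^ (-((2 : ℝ) / 3)) := by
    rw [show (4 * Real.pi ^ 2 / 27 : ℝ) = (2 * Real.pi) ^ (2 : ℝ) / 3 ^ (3 : ℝ) by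
      rw [Real.rpow_two, show (3 : ℝ) ^ (3 : ℝ) = 27 by
        rw [show (3 : ℝ) ^ (3 : ℝ) = (3 : ℝ) ^ ((3 : ℕ) : ℝ) by norm_num, Real.rpow_natCast]
        norm_num]
      ring, Real.div_rpow (by positivity) (by positivity), ← Real.rpow_mul (by positivity),
      ← Real.rpow_mul (by norm_num)]
    norm_num
    ring
  rw [e1]
  have e2 : pC ^ 2 * (2 * Real.pi / (9 * Real.sqrt 3)) * Real.Gamma (2 / 3) =
    (2 * Real.pi / (9 * Real.sqrt 3)) * (pC ^ 2 * Real.Gamma (2 / 3)) := by ring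
  rw [e2, h]
  field_simp

end Crest.Agent.R012.Gam413
end
end

-- ▼ part R012/T1cA_413
section

/-!
# Row 12, (T1c), analytic half: cubes prime to `k` with Gaussian weight
-/

set_option autoImplicit false

noncomputable section

open MeasureTheory Set

namespace Crest.Agent.R012.T1c413

open Crest.Agent.R012 Crest.Agent.R012.Eis Div277 Mob705 LatSum413

/-- `∫_ℂ exp(-c |z|⁶) dz`. -/
def Ic (c : ℝ) : ℝ := ∫ z : ℂ, Real.exp (-(c * (‖z‖ ^ 2) ^ 3))

lemma Ic_eq {c : ℝ} (hc : 0 < c) : Ic c = Real.pi * (Real.Gamma (1 / 3) / 3 * c ^ (-(1 / 3) : ℝ)) :=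
  Gam413.integral_exp_cube_C hc

lemma Ic_mul_cube {c n : ℝ} (hc : 0 < c) (hn : 0 < n) : Ic (c * n ^ 3) = Ic c * (1 / n) := by
  rw [Ic_eq (by positivity), Ic_eq hc, Real.mul_rpow hc.le (by positivity)]
  have : (n ^ 3) ^ (-(1 / 3) : ℝ) = 1 / n := by
    rw [← Real.rpow_natCast, ← Real.rpow_mul hn.le]
    norm_num
    rw [Real.rpow_neg_one]
  rw [this]; ring

open Classical in
/-- **Sum over cubes prime to `k`.** -/
theorem coprime_cube_sum : ∃ C : ℝ, 0 ≤ C ∧ ∀ (c : ℝ) (k : Eis), 0 < c → IsPrim k →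
    Summable (fun m : Eis => if m ≠ 0 ∧ IsCoprime m k then
      Real.exp (-(c * (nm m : ℝ) ^ 3)) else 0) ∧
    |∑' m : Eis, (if m ≠ 0 ∧ IsCoprime m k then Real.exp (-(c * (nm m : ℝ) ^ 3)) else 0) -
      PE k * (2 / Real.sqrt 3 * Ic c)| ≤ C * tau k := by
  obtain ⟨C, hC0, hC⟩ := cube_sum
  refine ⟨C, hC0, ?_⟩
  intro c k hc hk
  have hk0 : k ≠ 0 := hk.ne_zero
  -- the row functions
  set R : Eis → Eis → ℝ := fun d m => if m = 0 then 0 else if d ∣ m then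
    Real.exp (-(c * (nm m : ℝ) ^ 3)) else 0 with hR
  have hinj : ∀ d : Eis, d ≠ 0 → Function.Injective (fun j : Eis => d * j) :=
    fun d hd => mul_right_injective₀ hd
  have hfib : ∀ d ≠ 0, ∀ j : Eis, R d (d * j) =
      if j = 0 then 0 else Real.exp (-(c * (nm d : ℝ) ^ 3 * (nm j : ℝ) ^ 3)) := by
    intro d hd j
    simp only [hR]
    by_cases hj : j = 0
    · simp [hj]
    · rw [if_neg (mul_ne_zero hd hj), if_pos (dvd_mul_right _ _), if_neg hj, nm_mul]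
      congr 1; push_cast; ring
  have hsupp : ∀ d, ∀ m ∉ Set.range (fun j : Eis => d * j), R d m = 0 := by
    intro d m hm
    simp only [hR]
    by_cases hm0 : m = 0
    · rw [if_pos hm0]
    · rw [if_neg hm0, if_neg]
      rintro ⟨j, rfl⟩
      exact hm ⟨j, rfl⟩
  have hd0 : ∀ d ∈ dvs k, d ≠ 0 := fun d hd => ((mem_dvs hk0).mp hd).1.ne_zero
  have hrow : ∀ d ∈ dvs k, Summable (R d) ∧
      |∑' m, R d m - 1 / (nm d : ℝ) * (2 / Real.sqrt 3 * Ic c)| ≤ C := by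
    intro d hd
    have hd' := hd0 d hd
    have hnd : (0 : ℝ) < nm d := by exact_mod_cast nm_pos.mpr hd'
    obtain ⟨h1, h2⟩ := hC (c * (nm d : ℝ) ^ 3) (by positivity)
    have hs : Summable (R d) := by
      rw [← (hinj d hd').summable_iff (hsupp d)]
      exact h1.congr (fun j => (hfib d hd' j).symm)
    refine ⟨hs, ?_⟩
    have e1 : ∑' m, R d m = ∑' j : Eis, (if j = 0 then (0 : ℝ) else
        Real.exp (-(c * (nm d : ℝ) ^ 3 * (nm j : ℝ) ^ 3))) := by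
      rw [← (hinj d hd').tsum_eq (f := R d) (by
        intro m hm
        by_contra hc
        exact hm (hsupp d m hc))]
      exact tsum_congr (hfib d hd')
    rw [e1]
    have e2 := Ic_mul_cube hc hnd
    have e3 : 1 / (nm d : ℝ) * (2 / Real.sqrt 3 * Ic c) =
        2 / Real.sqrt 3 * Ic (c * (nm d : ℝ) ^ 3) := by rw [e2]; ring
    rw [e3]
    exact h2
  -- indicator
  have hind : ∀ m : Eis, (if m ≠ 0 ∧ IsCoprime m k then
      Real.exp (-(c * (nm m : ℝ) ^ 3)) else 0) = ∑ d ∈ dvs k, (muE d : ℝ) * R d m := by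
    intro m
    by_cases hm : m = 0
    · rw [if_neg (by simp [hm])]
      symm
      apply Finset.sum_eq_zero
      intro d _
      simp only [hR, if_pos hm, mul_zero]
    · have h1 := sum_muE_coprime hk hm
      have h2 : ∑ d ∈ dvs k, (if d ∣ m then muE d else 0) = if IsCoprime m k then 1 else 0 := by
        have e : (if IsCoprime m k then (1 : ℤ) else 0) = if IsCoprime k m then 1 else 0 := by
          congr 1
          exact propext ⟨fun h => h.symm, fun h => h.symm⟩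
        rw [e, ← h1, ← Finset.sum_filter, ← Finset.sum_filter]
        congr 1
        ext d
        rw [Finset.mem_filter, Finset.mem_filter, mem_dvs hk0, mem_dvs hm]
        tauto
      have h3 : ∑ d ∈ dvs k, (muE d : ℝ) * R d m =
          ((∑ d ∈ dvs k, (if d ∣ m then muE d else 0) : ℤ) : ℝ) *
            Real.exp (-(c * (nm m : ℝ) ^ 3)) := by
        push_cast
        rw [Finset.sum_mul]
        refine Finset.sum_congr rfl fun d _ => ?_
        simp only [hR, if_neg hm]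
        split_ifs <;> simp
      rw [h3, h2]
      by_cases hcop : IsCoprime m k
      · rw [if_pos ⟨hm, hcop⟩, if_pos hcop]; simp
      · rw [if_neg (fun h => hcop h.2), if_neg hcop]; simp
  have hsum : Summable (fun m => ∑ d ∈ dvs k, (muE d : ℝ) * R d m) :=
    summable_sum fun d hd => ((hrow d hd).1).mul_left _
  simp_rw [hind]
  refine ⟨hsum, ?_⟩
  rw [Summable.tsum_finsetSum (fun d hd => ((hrow d hd).1).mul_left _), PE_eq_sum hk0,
    Finset.sum_mul, ← Finset.sum_sub_distrib]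
  refine (Finset.abs_sum_le_sum_abs _ _).trans ?_
  have : ∀ d ∈ dvs k, |∑' m, (muE d : ℝ) * R d m -
      (muE d : ℝ) * (1 / (nm d : ℝ)) * (2 / Real.sqrt 3 * Ic c)| ≤ C := by
    intro d hd
    rw [tsum_mul_left, mul_assoc, ← mul_sub, abs_mul]
    have h1 := (hrow d hd).2
    have h2 : |(muE d : ℝ)| ≤ 1 := abs_muE_le_real d
    calc _ ≤ 1 * C := by gcongr
      _ = C := one_mul _
  refine (Finset.sum_le_card_nsmul _ _ C this).trans (le_of_eq ?_)
  rw [nsmul_eq_mul, mul_comm]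
  rfl

end Crest.Agent.R012.T1c413
end
end

-- ▼ part R012/T1c_413
section

/-!
# Row 12, (T1c): the cubes of the dual sum.  `T411.T1c` is `t1c`.
-/

set_option autoImplicit false

noncomputable section

open MeasureTheory Set Complex

namespace Crest.Agent.R012.T1c413

open Crest.Agent.R012 Crest.Agent.R012.Eis Div277 Mob705 LatSum413 T411

/-! ### The phase -/

lemma toC_sq3' : toC sq3 = (Real.sqrt 3 : ℂ) * Complex.I := by
  rw [toC_apply, sq3_re, sq3_im]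
  apply Complex.ext
  · simp [wC]; norm_num
  · simp [wC]; ring

lemma eC_phase {h : Eis} {n : ℤ} (hn : (3 : Eis) ∣ h - (n : Eis)) :
    eC (toC h / (3 * toC sq3)) = 1 := by
  obtain ⟨t, ht⟩ := hn
  have h1 : toC h = (n : ℂ) + 3 * toC t := by
    have : h = (n : Eis) + 3 * t := by rw [← ht]; ring
    rw [this, map_add, map_mul, map_intCast, map_ofNat]
  have hsq : toC sq3 ≠ 0 := toC_ne_zero sq3_ne_zero
  have e1 : toC h / (3 * toC sq3) = (n : ℂ) / (3 * toC sq3) + toC t / toC sq3 := by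
    rw [h1]; field_simp
  rw [e1, eC_add, eC_toC_div_sq3, mul_one, eC_eq_one_iff]
  refine ⟨0, ?_⟩
  rw [toC_sq3']
  have h3 : (Real.sqrt 3 : ℂ) ≠ 0 := by
    have : (0 : ℝ) < Real.sqrt 3 := by positivity
    exact_mod_cast this.ne'
  have e2 : (n : ℂ) / (3 * ((Real.sqrt 3 : ℂ) * Complex.I)) =
      ((-(n : ℝ) / (3 * Real.sqrt 3) : ℝ) : ℂ) * Complex.I := by
    push_cast
    field_simp
    rw [Complex.I_sq]
    ring
  rw [e2, Complex.re_ofReal_mul, Complex.I_re]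
  simp

lemma cube_mod_three (m : Eis) : (3 : Eis) ∣ m ^ 3 - ((m.re ^ 3 + m.im ^ 3 : ℤ) : Eis) := by
  have hm := eq_re_add m
  have hw := w_cube
  have key : ∀ a b : ℤ, ((a : Eis) + (b : Eis) * w) ^ 3 - ((a ^ 3 + b ^ 3 : ℤ) : Eis) =
      3 * ((a : Eis) ^ 2 * b * w + (a : Eis) * (b : Eis) ^ 2 * w ^ 2) := by
    intro a b
    push_cast
    linear_combination ((b : Eis) ^ 3) * hw
  have := key m.re m.im
  rw [← hm] at this
  exact ⟨_, this⟩

lemma phase_one {u m : Eis} (hu : IsPrim u) : eC (toC (u * m ^ 3) / (3 * toC sq3)) = 1 := by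
  apply eC_phase (n := m.re ^ 3 + m.im ^ 3)
  obtain ⟨s, hs⟩ := hu
  obtain ⟨t, ht⟩ := cube_mod_three m
  refine ⟨s * m ^ 3 + t, ?_⟩
  have : u * m ^ 3 - ((m.re ^ 3 + m.im ^ 3 : ℤ) : Eis) =
      (u - 1) * m ^ 3 + (m ^ 3 - ((m.re ^ 3 + m.im ^ 3 : ℤ) : Eis)) := by ring
  rw [this, hs, ht]; ring

/-! ### The decomposition `b₁ = e k₁`, `b₂ = e k₂` -/

section Dec

variable {b₁ b₂ : Eis}

lemma ppSet_inter (b₁ b₂ : Eis) : PPSet (pp b₁ ∩ pp b₂) :=
  (ppSet_pp b₁).subset Finset.inter_subset_left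

lemma ppSet_sdiff (b₁ b₂ : Eis) : PPSet (pp b₁ \ pp b₂) :=
  (ppSet_pp b₁).subset Finset.sdiff_subset

lemma gE_isPrim (b₁ b₂ : Eis) : IsPrim (gE b₁ b₂) := (ppSet_inter b₁ b₂).isPrim_prod
lemma kE_isPrim (b₁ b₂ : Eis) : IsPrim (kE b₁ b₂) := (ppSet_sdiff b₁ b₂).isPrim_prod

lemma pp_gE (b₁ b₂ : Eis) : pp (gE b₁ b₂) = pp b₁ ∩ pp b₂ := (ppSet_inter b₁ b₂).pp_prod
lemma pp_kE (b₁ b₂ : Eis) : pp (kE b₁ b₂) = pp b₁ \ pp b₂ := (ppSet_sdiff b₁ b₂).pp_prod

lemma gE_comm (b₁ b₂ : Eis) : gE b₁ b₂ = gE b₂ b₁ := by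
  unfold gE; rw [Finset.inter_comm]

lemma gE_mul_kE (h : SqP b₁) : gE b₁ b₂ * kE b₁ b₂ = b₁ := by
  unfold gE kE
  rw [Finset.prod_inter_mul_prod_sdiff, prod_pp h.1 h.2]

lemma isCoprime_of_disjoint {a b : Eis} (ha : IsPrim a) (h : Disjoint (pp a) (pp b)) (hb : b ≠ 0) :
    IsCoprime a b := by
  rw [isCoprime_iff_pp ha]
  intro p hp h1 h2
  exact Finset.disjoint_left.mp h ((mem_pp ha.ne_zero).mpr ⟨hp, h1⟩) ((mem_pp hb).mpr ⟨hp, h2⟩)

lemma coprime_gE_kE (b₁ b₂ : Eis) : IsCoprime (gE b₁ b₂) (kE b₁ b₂) := by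
  refine isCoprime_of_disjoint (gE_isPrim _ _) ?_ (kE_isPrim _ _).ne_zero
  rw [pp_gE, pp_kE, Finset.disjoint_left]
  intro p hp hp'
  exact (Finset.mem_sdiff.mp hp').2 (Finset.mem_inter.mp hp).2

lemma coprime_gE_kE' (b₁ b₂ : Eis) : IsCoprime (gE b₁ b₂) (kE b₂ b₁) := by
  rw [gE_comm]; exact coprime_gE_kE b₂ b₁

lemma pp_dec (h1 : SqP b₁) (h2 : SqP b₂) :
    PE (gE b₁ b₂) * PE (kE b₁ b₂ * kE b₂ b₁) = PE (b₁ * b₂) := by
  unfold PE
  rw [pp_mul (kE_isPrim _ _).ne_zero (kE_isPrim _ _).ne_zero, pp_mul h1.1.ne_zero h2.1.ne_zero,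
    pp_gE, pp_kE, pp_kE, ← Finset.prod_union]
  · congr 1
    ext p
    simp only [Finset.mem_union, Finset.mem_inter, Finset.mem_sdiff]
    tauto
  · rw [Finset.disjoint_left]
    intro p hp hp'
    simp only [Finset.mem_union, Finset.mem_inter, Finset.mem_sdiff] at hp hp'
    tauto

end Dec

/-! ### One term -/

lemma conj_mul_self_of_norm {z : ℂ} (h : ‖z‖ = 1) : z * (starRingEnd ℂ) z = 1 := by
  rw [Complex.mul_conj, Complex.normSq_eq_norm_sq, h]; simp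

open Classical in
lemma sym_factor {k u m : Eis} (hk : IsPrim k) (hu : IsCoprime u k) :
    sy (u * m ^ 3) k * (starRingEnd ℂ) (sy u k) = if IsCoprime m k then 1 else 0 := by
  have hk3 : nm k % 3 = 1 := hk.nm_mod
  rw [Sym645.sy_mul_left hk3, Sym645.sy_pow_left hk3]
  split_ifs with h
  · rw [Sym645.sy_cube hk3 h, mul_one]
    exact conj_mul_self_of_norm (Sym645.norm_sy_of_isCoprime hk3 hu)
  · rw [(Sym645.sy_eq_zero_iff hk3).mpr h]; simp

/-- The term of the dual sum. -/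
def trm (A : ℝ) (e k₁ k₂ f h : Eis) : ℂ :=
  eC (toC h / (3 * toC sq3)) *
    (Real.exp (-(4 * Real.pi ^ 2 * A * nm h / (27 * nm f * nm k₁ * nm k₂))) : ℂ) *
    (sy h k₁ * (starRingEnd ℂ) (sy (f * e) k₁)) *
    (starRingEnd ℂ) (sy h k₂ * (starRingEnd ℂ) (sy (f * e) k₂))

open Classical in
lemma trm_cube {A : ℝ} {e k₁ k₂ f m : Eis} (he : IsPrim e) (hf : IsPrim f) (h1 : IsPrim k₁)
    (h2 : IsPrim k₂) (hc1 : IsCoprime (f * e) k₁) (hc2 : IsCoprime (f * e) k₂) :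
    trm A e k₁ k₂ f (f * e * m ^ 3) = if IsCoprime m (k₁ * k₂) then
      (Real.exp (-(4 * Real.pi ^ 2 * A * nm e / (27 * nm k₁ * nm k₂) * (nm m : ℝ) ^ 3)) : ℂ)
      else 0 := by
  unfold trm
  have hfe : IsPrim (f * e) := hf.mul he
  rw [phase_one hfe, sym_factor h1 hc1, sym_factor h2 hc2, one_mul]
  have hnf : (nm f : ℝ) ≠ 0 := by
    have := nm_pos.mpr hf.ne_zero; positivity
  have e1 : (4 * Real.pi ^ 2 * A * nm (f * e * m ^ 3) / (27 * nm f * nm k₁ * nm k₂) : ℝ) =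
      4 * Real.pi ^ 2 * A * nm e / (27 * nm k₁ * nm k₂) * (nm m : ℝ) ^ 3 := by
    rw [nm_mul, nm_mul, nm_pow]
    push_cast
    have h3 : (nm k₁ : ℝ) ≠ 0 := by have := nm_pos.mpr h1.ne_zero; positivity
    have h4 : (nm k₂ : ℝ) ≠ 0 := by have := nm_pos.mpr h2.ne_zero; positivity
    field_simp
  rw [e1]
  by_cases ha : IsCoprime m k₁ <;> by_cases hb : IsCoprime m k₂
  · rw [if_pos ha, if_pos hb, if_pos (ha.mul_right hb)]; simp
  · rw [if_pos ha, if_neg hb, if_neg (fun h => hb h.of_mul_right_right)]; simp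
  · rw [if_neg ha, if_neg (fun h : IsCoprime m (k₁ * k₂) => ha h.of_mul_right_left)]; simp
  · rw [if_neg ha, if_neg (fun h : IsCoprime m (k₁ * k₂) => ha h.of_mul_right_left)]; simp

open Classical in
/-- The sum over `h = f e m³`, `m ≠ 0`. -/
lemma tsum_cube_term {A : ℝ} (hA : 0 < A) {e k₁ k₂ f : Eis} (he : IsPrim e) (hf : IsPrim f)
    (h1 : IsPrim k₁) (h2 : IsPrim k₂) (hc1 : IsCoprime (f * e) k₁) (hc2 : IsCoprime (f * e) k₂) :
    ∑' h : Eis, (if isCubeE e f h then trm A e k₁ k₂ f h else 0) =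
      (1 / 3) * ((∑' m : Eis, (if m ≠ 0 ∧ IsCoprime m (k₁ * k₂) then
        Real.exp (-(4 * Real.pi ^ 2 * A * nm e / (27 * nm k₁ * nm k₂) * (nm m : ℝ) ^ 3)) else 0) :
          ℝ) : ℂ) := by
  have hfe0 : f * e ≠ 0 := mul_ne_zero hf.ne_zero he.ne_zero
  set g : Eis → ℂ := fun c => if ∃ m : Eis, m ≠ 0 ∧ c = m ^ 3 then trm A e k₁ k₂ f (f * e * c) else 0
    with hg
  have hinj : Function.Injective (fun c : Eis => f * e * c) := mul_right_injective₀ hfe0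
  have hval : ∀ c : Eis, (if isCubeE e f (f * e * c) then trm A e k₁ k₂ f (f * e * c) else 0) =
      g c := by
    intro c
    simp only [hg]
    have : isCubeE e f (f * e * c) ↔ ∃ m : Eis, m ≠ 0 ∧ c = m ^ 3 := by
      unfold isCubeE
      constructor
      · rintro ⟨m, hm, h⟩
        exact ⟨m, hm, mul_left_cancel₀ hfe0 h⟩
      · rintro ⟨m, hm, rfl⟩
        exact ⟨m, hm, rfl⟩
    by_cases hc : ∃ m : Eis, m ≠ 0 ∧ c = m ^ 3
    · rw [if_pos (this.mpr hc), if_pos hc]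
    · rw [if_neg (fun h => hc (this.mp h)), if_neg hc]
  have e1 : ∑' h : Eis, (if isCubeE e f h then trm A e k₁ k₂ f h else 0) = ∑' c, g c := by
    rw [← hinj.tsum_eq (f := fun h : Eis => if isCubeE e f h then trm A e k₁ k₂ f h else 0)]
    · exact tsum_congr hval
    · intro h hh
      rw [Function.mem_support] at hh
      by_cases hc : isCubeE e f h
      · obtain ⟨m, hm, rfl⟩ := hc
        exact ⟨m ^ 3, rfl⟩
      · rw [if_neg hc] at hh; exact absurd rfl hh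
  have hcub : ∀ m : Eis, g (m ^ 3) = (((if m ≠ 0 ∧ IsCoprime m (k₁ * k₂) then
      Real.exp (-(4 * Real.pi ^ 2 * A * nm e / (27 * nm k₁ * nm k₂) * (nm m : ℝ) ^ 3)) else 0) :
        ℝ) : ℂ) := by
    intro m
    simp only [hg]
    by_cases hm : m = 0
    · subst hm
      rw [if_neg, if_neg]
      · simp
      · simp
      · rintro ⟨m', hm', h⟩
        exact hm' (pow_eq_zero_iff (three_ne_zero) |>.mp (by rw [← h]; simp))
    · rw [if_pos ⟨m, hm, rfl⟩, trm_cube he hf h1 h2 hc1 hc2]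
      by_cases hcop : IsCoprime m (k₁ * k₂)
      · rw [if_pos hcop, if_pos ⟨hm, hcop⟩]
      · rw [if_neg hcop, if_neg (fun h => hcop h.2)]; simp
  obtain ⟨C, hC0, hC⟩ := coprime_cube_sum
  have hcpos : 0 < 4 * Real.pi ^ 2 * A * nm e / (27 * nm k₁ * nm k₂) := by
    have := nm_pos.mpr he.ne_zero
    have := nm_pos.mpr h1.ne_zero
    have := nm_pos.mpr h2.ne_zero
    positivity
  have hs := (hC _ (k₁ * k₂) hcpos (h1.mul h2)).1
  rw [e1, Gram858.tsum_cubes (g := g)]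
  · rw [tsum_congr hcub, Complex.ofReal_tsum]
  · simp only [hg]
    rw [if_neg]
    rintro ⟨m', hm', h⟩
    exact hm' (pow_eq_zero_iff (three_ne_zero) |>.mp h.symm)
  · intro c hc
    simp only [hg] at hc
    by_contra hne
    apply hc
    rw [if_neg]
    rintro ⟨m, _, rfl⟩
    exact hne ⟨m, rfl⟩
  · have := (Complex.ofRealCLM.summable hs)
    refine this.congr (fun m => ?_)
    rw [hcub m]
    rfl

open Classical in
/-- The cube part of a pair, exactly. -/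
lemma CP_eq {A : ℝ} (hA : 0 < A) (b₁ b₂ : Eis) :
    CP A b₁ b₂ = ((2 * Real.pi * A / (9 * Real.sqrt 3) /
      Real.sqrt ((nm (kE b₁ b₂) : ℝ) * nm (kE b₂ b₁)) * (PE (gE b₁ b₂) * (1 / 3)) *
      ∑' m : Eis, (if m ≠ 0 ∧ IsCoprime m (kE b₁ b₂ * kE b₂ b₁) then
        Real.exp (-(4 * Real.pi ^ 2 * A * nm (gE b₁ b₂) /
          (27 * nm (kE b₁ b₂) * nm (kE b₂ b₁)) * (nm m : ℝ) ^ 3)) else 0) : ℝ) : ℂ) := by
  set e := gE b₁ b₂ with he
  set k₁ := kE b₁ b₂ with hk1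
  set k₂ := kE b₂ b₁ with hk2
  have hep : IsPrim e := gE_isPrim _ _
  have hk1p : IsPrim k₁ := kE_isPrim _ _
  have hk2p : IsPrim k₂ := kE_isPrim _ _
  set T : ℝ := ∑' m : Eis, (if m ≠ 0 ∧ IsCoprime m (k₁ * k₂) then
        Real.exp (-(4 * Real.pi ^ 2 * A * nm e / (27 * nm k₁ * nm k₂) * (nm m : ℝ) ^ 3)) else 0)
    with hT
  have hsum : ∀ f ∈ dvs e, ∑' h : Eis, (if isCubeE e f h then
        eC (toC h / (3 * toC sq3)) *
        (Real.exp (-(4 * Real.pi ^ 2 * A * nm h / (27 * nm f * nm k₁ * nm k₂))) : ℂ) *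
        (sy h k₁ * (starRingEnd ℂ) (sy (f * e) k₁)) *
        (starRingEnd ℂ) (sy h k₂ * (starRingEnd ℂ) (sy (f * e) k₂)) else 0) = (1 / 3) * (T : ℂ) := by
    intro f hf
    obtain ⟨hfp, hfe⟩ := (mem_dvs hep.ne_zero).mp hf
    have c1 : IsCoprime (f * e) k₁ := by
      have := coprime_gE_kE b₁ b₂
      exact IsCoprime.mul_left (this.of_isCoprime_of_dvd_left hfe) this
    have c2 : IsCoprime (f * e) k₂ := by
      have := coprime_gE_kE' b₁ b₂
      exact IsCoprime.mul_left (this.of_isCoprime_of_dvd_left hfe) this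
    exact tsum_cube_term hA hep hfp hk1p hk2p c1 c2
  unfold CP dualP
  rw [Finset.sum_congr rfl (fun f hf => by rw [hsum f hf]), ← Finset.sum_mul]
  have hPE : ∑ f ∈ dvs e, (((muE f : ℝ) / nm f : ℝ) : ℂ) = (PE e : ℂ) := by
    rw [PE_eq_sum hep.ne_zero]
    push_cast
    refine Finset.sum_congr rfl fun f _ => ?_
    ring
  rw [hPE]
  push_cast
  ring

lemma Ic_scale {A e n : ℝ} (hA : 0 < A) (he : 0 < e) (hn : 0 < n) :
    Ic (4 * Real.pi ^ 2 / 27 * (A * (e * n⁻¹))) = Ic (4 * Real.pi ^ 2 / 27) *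
      (A ^ (-(1 / 3) : ℝ) * e ^ (-(1 / 3) : ℝ) * n ^ ((1 : ℝ) / 3)) := by
  have h0 : (0 : ℝ) < 4 * Real.pi ^ 2 / 27 := by positivity
  have hn' : (n⁻¹ : ℝ) ^ (-(1 / 3) : ℝ) = n ^ ((1 : ℝ) / 3) := by
    rw [Real.inv_rpow hn.le, Real.rpow_neg hn.le, inv_inv]
  rw [Ic_eq (by positivity), Ic_eq h0,
    Real.mul_rpow h0.le (by positivity), Real.mul_rpow hA.le (by positivity),
    Real.mul_rpow he.le (by positivity), hn']
  ring

lemma alg_exp {A e n : ℝ} (hA : 0 < A) (he : 0 < e) (hn : 0 < n) :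
    A ^ ((2 : ℝ) / 3) * (e ^ 2 * n) ^ (-(1 : ℝ) / 6) =
      A / Real.sqrt n * (A ^ (-(1 / 3) : ℝ) * e ^ (-(1 / 3) : ℝ) * n ^ ((1 : ℝ) / 3)) := by
  have e1 : (e ^ 2 * n) ^ (-(1 : ℝ) / 6) = e ^ (-(1 / 3) : ℝ) * n ^ (-(1 : ℝ) / 6) := by
    rw [Real.mul_rpow (by positivity) hn.le, ← Real.rpow_natCast, ← Real.rpow_mul he.le]
    norm_num
  have e2 : n ^ (-(1 : ℝ) / 6) = n ^ ((1 : ℝ) / 3) / Real.sqrt n := by
    rw [Real.sqrt_eq_rpow, ← Real.rpow_sub hn]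
    norm_num
  have e3 : A ^ ((2 : ℝ) / 3) = A * A ^ (-(1 / 3) : ℝ) := by
    rw [← Real.rpow_one_add' hA.le (by norm_num)]; norm_num
  rw [e1, e2, e3]
  ring

/-- The main term, in real variables. -/
lemma main_alg {A e n P1 P2 : ℝ} (hA : 0 < A) (he : 0 < e) (hn : 0 < n) :
    cM * A ^ ((2 : ℝ) / 3) * (P1 * P2) * (e ^ 2 * n) ^ (-(1 : ℝ) / 6) =
      2 * Real.pi * A / (9 * Real.sqrt 3) / Real.sqrt n * (P1 * (1 / 3)) *
        (P2 * (2 / Real.sqrt 3 * Ic (4 * Real.pi ^ 2 / 27 * (A * (e * n⁻¹))))) := by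
  have hcM : cM = 2 * Real.pi / (9 * Real.sqrt 3) * (1 / 3) * (2 / Real.sqrt 3) *
      Ic (4 * Real.pi ^ 2 / 27) := by
    rw [cM, ← Gam413.cube_const]; rfl
  have h := alg_exp hA he hn
  rw [Ic_scale hA he hn, hcM]
  calc _ = 2 * Real.pi / (9 * Real.sqrt 3) * (1 / 3) * (2 / Real.sqrt 3) *
      Ic (4 * Real.pi ^ 2 / 27) * (P1 * P2) *
        (A ^ ((2 : ℝ) / 3) * (e ^ 2 * n) ^ (-(1 : ℝ) / 6)) := by ring
    _ = _ := by rw [h]; ring

/-- The size of the coefficient, in real variables. -/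
lemma coef_alg {A e n P1 : ℝ} (hA : 0 < A) (he : 0 < e) (hn : 0 < n) (hP : P1 ≤ 1) :
    2 * Real.pi * A / (9 * Real.sqrt 3) / Real.sqrt n * (P1 * (1 / 3)) ≤
      2 * Real.pi / (9 * Real.sqrt 3) * (1 / 3) * (A * e / Real.sqrt (e ^ 2 * n)) := by
  have e4 : Real.sqrt (e ^ 2 * n) = e * Real.sqrt n := by
    rw [Real.sqrt_mul (by positivity), Real.sqrt_sq he.le]
  have hs : 0 < Real.sqrt n := by positivity
  have h3 : 0 < Real.sqrt 3 := by positivity
  rw [e4]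
  calc 2 * Real.pi * A / (9 * Real.sqrt 3) / Real.sqrt n * (P1 * (1 / 3))
      ≤ 2 * Real.pi * A / (9 * Real.sqrt 3) / Real.sqrt n * (1 * (1 / 3)) := by gcongr
    _ = _ := by field_simp

/-- **(T1c)** -/
theorem t1c : T1c := by
  obtain ⟨C, hC0, hC⟩ := coprime_cube_sum
  refine ⟨2 * Real.pi / (9 * Real.sqrt 3) * (1 / 3) * C, 1, ?_⟩
  intro A b₁ b₂ hA h1 h2 _
  have hA0 : 0 < A := by linarith
  have hCP := CP_eq hA0 b₁ b₂
  have hPE : PE (gE b₁ b₂) * PE (kE b₁ b₂ * kE b₂ b₁) = PE (b₁ * b₂) := pp_dec h1 h2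
  have hb1 : gE b₁ b₂ * kE b₁ b₂ = b₁ := gE_mul_kE h1
  have hb2 : gE b₁ b₂ * kE b₂ b₁ = b₂ := by rw [gE_comm]; exact gE_mul_kE h2
  have hep : IsPrim (gE b₁ b₂) := gE_isPrim _ _
  have hk1p : IsPrim (kE b₁ b₂) := kE_isPrim _ _
  have hk2p : IsPrim (kE b₂ b₁) := kE_isPrim _ _
  generalize gE b₁ b₂ = e at *
  generalize kE b₁ b₂ = k₁ at *
  generalize kE b₂ b₁ = k₂ at *
  have hne : (0 : ℝ) < nm e := by exact_mod_cast nm_pos.mpr hep.ne_zero
  have hn1 : (0 : ℝ) < nm k₁ := by exact_mod_cast nm_pos.mpr hk1p.ne_zero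
  have hn2 : (0 : ℝ) < nm k₂ := by exact_mod_cast nm_pos.mpr hk2p.ne_zero
  have hn : (0 : ℝ) < (nm k₁ : ℝ) * nm k₂ := by positivity
  have hnb : (nm b₁ : ℝ) * nm b₂ = (nm e : ℝ) ^ 2 * ((nm k₁ : ℝ) * nm k₂) := by
    rw [← hb1, ← hb2, nm_mul, nm_mul]; push_cast; ring
  have hc : (4 * Real.pi ^ 2 * A * nm e / (27 * nm k₁ * nm k₂) : ℝ) =
      4 * Real.pi ^ 2 / 27 * (A * (nm e * ((nm k₁ : ℝ) * nm k₂)⁻¹)) := by field_simp
  rw [hCP, hc]
  have hb := (hC (4 * Real.pi ^ 2 / 27 * (A * (nm e * ((nm k₁ : ℝ) * nm k₂)⁻¹))) (k₁ * k₂)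
    (by positivity) (hk1p.mul hk2p)).2
  have hm := main_alg (P1 := PE e) (P2 := PE (k₁ * k₂)) hA0 hne hn
  have hq := coef_alg (P1 := PE e) hA0 hne hn (PE_le_one e)
  have hPE0 := (PE_pos e).le
  have htau : (tau (k₁ * k₂) : ℝ) ≤ tau (b₁ * b₂) := by
    exact_mod_cast tau_le_of_dvd (mul_ne_zero h1.1.ne_zero h2.1.ne_zero)
      (mul_dvd_mul ⟨e, by rw [← hb1]; ring⟩ ⟨e, by rw [← hb2]; ring⟩)
  unfold MM
  rw [hnb, ← hPE, hm]
  have hQ0 : 0 ≤ 2 * Real.pi * A / (9 * Real.sqrt 3) / Real.sqrt ((nm k₁ : ℝ) * nm k₂) *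
    (PE e * (1 / 3)) := by positivity
  generalize 2 * Real.pi * A / (9 * Real.sqrt 3) / Real.sqrt ((nm k₁ : ℝ) * nm k₂) *
    (PE e * (1 / 3)) = Q at *
  rw [← Complex.ofReal_sub, Complex.norm_real, Real.norm_eq_abs, ← mul_sub, abs_mul,
    abs_of_nonneg hQ0]
  refine (mul_le_mul hq (hb.trans (mul_le_mul_of_nonneg_left htau hC0)) (abs_nonneg _)
    (by positivity)).trans (le_of_eq ?_)
  rw [pow_one]; ring

end Crest.Agent.R012.T1c413
end
end

-- ▼ part R012/T1x_671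
section

/-!
# Row 12: `T411.T1x` (exact dual identity of a pair, Gaussian weight)
-/

set_option autoImplicit false

noncomputable section

open Finset

namespace Crest.Agent.R012.T1x671

open Eis Div277 Mob705 Tau671 T411
open Gauss880 (syG)
open T8 (cg pf_cg fC_cg cg_toC)
open Po581 (fC dl)

/-! ### gcd and cofactors of squarefree primary elements -/

lemma isPrim_gE (b1 b2 : Eis) : IsPrim (gE b1 b2) :=
  ((ppSet_pp b1).subset inter_subset_left).isPrim_prod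

lemma isPrim_kE (b1 b2 : Eis) : IsPrim (kE b1 b2) :=
  ((ppSet_pp b1).subset sdiff_subset).isPrim_prod



lemma gE_comm (b1 b2 : Eis) : gE b1 b2 = gE b2 b1 := by
  unfold gE; rw [inter_comm]

lemma gE_mul_kE {b1 : Eis} (b2 : Eis) (h1 : SqP b1) : gE b1 b2 * kE b1 b2 = b1 := by
  unfold gE kE
  rw [← Finset.prod_union (disjoint_left.mpr fun x hx hx' => by
    rw [mem_inter] at hx; rw [mem_sdiff] at hx'; exact hx'.2 hx.2)]
  have : pp b1 ∩ pp b2 ∪ pp b1 \ pp b2 = pp b1 := by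
    ext x; simp only [mem_union, mem_inter, mem_sdiff]; tauto
  rw [this, prod_pp h1.1 h1.2]

lemma gE_mul_kE' (b1 : Eis) {b2 : Eis} (h2 : SqP b2) : gE b1 b2 * kE b2 b1 = b2 := by
  rw [gE_comm, gE_mul_kE b1 h2]

lemma coprime_kE (b1 b2 : Eis) : IsCoprime (kE b1 b2) (kE b2 b1) := by
  rw [isCoprime_iff_pp (isPrim_kE _ _)]
  intro p hp h1 h2
  have s1 := ((ppSet_pp b1).subset (sdiff_subset (t := pp b2)))
  have s2 := ((ppSet_pp b2).subset (sdiff_subset (t := pp b1)))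
  have m1 := (s1.dvd_prod hp).mp h1
  have m2 := (s2.dvd_prod hp).mp h2
  rw [mem_sdiff] at m1 m2
  exact m1.2 m2.1



/-- The gcd structure of `(e k₁, e k₂)`. -/
lemma gE_kE_mul {e k1 k2 : Eis} (he : IsPrim e) (h1 : IsPrim k1) (h2 : IsPrim k2)
    (hs1 : Squarefree (e * k1)) (hs2 : Squarefree (e * k2)) (hc : IsCoprime k1 k2) :
    gE (e * k1) (e * k2) = e ∧ kE (e * k1) (e * k2) = k1 ∧ kE (e * k2) (e * k1) = k2 := by
  have p1 : SqP (e * k1) := ⟨he.mul h1, hs1⟩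
  have p2 : SqP (e * k2) := ⟨he.mul h2, hs2⟩
  exact gcd_split_unique (isPrim_gE _ _) he (gE_mul_kE _ p1) (gE_mul_kE' _ p2)
    (coprime_kE _ _) hc

lemma kE_self (b : Eis) : kE b b = 1 := by
  unfold kE; rw [sdiff_self]; simp

lemma gE_self {b : Eis} (h : SqP b) : gE b b = b := by
  unfold gE; rw [inter_self, prod_pp h.1 h.2]

/-! ### The terms of the dual sum -/

/-- a term of the dual sum -/
def dT (A : ℝ) (e k1 k2 f h : Eis) : ℂ :=
  eC (toC h / (3 * toC sq3)) *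
    (Real.exp (-(4 * Real.pi ^ 2 * A * nm h / (27 * nm f * nm k1 * nm k2))) : ℂ) *
    (sy h k1 * (starRingEnd ℂ) (sy (f * e) k1)) *
    (starRingEnd ℂ) (sy h k2 * (starRingEnd ℂ) (sy (f * e) k2))

open Classical in
lemma dualP_eq (A : ℝ) (e k1 k2 : Eis) (H : Eis → Eis → Prop) :
    dualP A e k1 k2 H =
      ((2 * Real.pi * A / (9 * Real.sqrt 3) / Real.sqrt ((nm k1 : ℝ) * nm k2) : ℝ) : ℂ) *
      ∑ f ∈ dvs e, ((muE f : ℝ) / nm f : ℝ) * ∑' h : Eis, if H f h then dT A e k1 k2 f h else 0 :=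
  rfl

lemma nm_sq3_eq : nm sq3 = 3 := by decide

/-- the transform of the Gaussian at the dual points -/
lemma fC_cg_dual {A : ℝ} (hA : 0 < A) (h k1 k2 d : Eis) :
    fC (cg ((1 / A : ℝ) : ℂ)) (toC h / (3 * toC sq3 * (toC k1 * toC k2) * toC d)) =
      ((Real.pi * A : ℝ) : ℂ) *
        (Real.exp (-(4 * Real.pi ^ 2 * A * nm h / (27 * nm d * nm k1 * nm k2))) : ℂ) := by
  have hre : 0 < (((1 / A : ℝ) : ℂ)).re := by rw [Complex.ofReal_re]; positivity
  rw [fC_cg hre]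
  have hn : (‖toC h / (3 * toC sq3 * (toC k1 * toC k2) * toC d)‖ : ℂ) ^ 2 =
      ((nm h / (27 * nm d * nm k1 * nm k2) : ℝ) : ℂ) := by
    rw [← Complex.ofReal_pow, norm_div, norm_mul, norm_mul, norm_mul, norm_mul, div_pow, mul_pow,
      mul_pow, mul_pow, mul_pow, norm_toC_sq, norm_toC_sq, norm_toC_sq, norm_toC_sq, norm_toC_sq,
      nm_sq3_eq, Complex.norm_ofNat]
    congr 1
    push_cast
    ring
  rw [hn, Complex.ofReal_exp]
  have hA' : (A : ℂ) ≠ 0 := by exact_mod_cast hA.ne'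
  congr 1
  · push_cast; field_simp
  · congr 1
    push_cast
    by_cases hd : ((27 : ℂ) * (nm d : ℂ) * nm k1 * nm k2) = 0
    · rw [hd]; simp
    · field_simp

lemma dT_eq (A : ℝ) (e k1 k2 f h : Eis) :
    dT A e k1 k2 f h = ph h * (psi h (f * e) k1 * (starRingEnd ℂ) (psi h (f * e) k2)) *
      (Real.exp (-(4 * Real.pi ^ 2 * A * nm h / (27 * nm f * nm k1 * nm k2))) : ℂ) := by
  unfold dT ph psi
  ring

lemma norm_dT_le {A : ℝ} (e f h : Eis) {k1 k2 : Eis} (h1 : IsPrim k1) (h2 : IsPrim k2) :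
    ‖dT A e k1 k2 f h‖ ≤
      Real.exp (-(4 * Real.pi ^ 2 * A * nm h / (27 * nm f * nm k1 * nm k2))) := by
  rw [dT_eq, norm_mul, norm_mul, norm_ph, one_mul, norm_mul, RCLike.norm_conj, Complex.norm_real,
    Real.norm_of_nonneg (Real.exp_pos _).le]
  exact mul_le_of_le_one_left (Real.exp_pos _).le
    (mul_le_one₀ (norm_psi_le h1) (norm_nonneg _) (norm_psi_le h2))

lemma summable_exp {c : ℝ} (hc : 0 < c) : Summable (fun h : Eis => Real.exp (-(c * nm h))) := by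
  have h := (T8.summable_cg (s := (c : ℂ)) (by simpa using hc)).norm
  refine h.congr fun x => ?_
  rw [Complex.norm_exp]
  congr 1
  rw [← Complex.ofReal_neg, ← Complex.ofReal_natCast, ← Complex.ofReal_mul, Complex.ofReal_re]
  ring

lemma summable_dT {A : ℝ} (hA : 0 < A) (e : Eis) {f k1 k2 : Eis} (h1 : IsPrim k1) (h2 : IsPrim k2)
    (hf : f ≠ 0) : Summable (fun h : Eis => dT A e k1 k2 f h) := by
  have p1 : (0 : ℝ) < nm k1 := by exact_mod_cast nm_pos.mpr h1.ne_zero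
  have p2 : (0 : ℝ) < nm k2 := by exact_mod_cast nm_pos.mpr h2.ne_zero
  have p3 : (0 : ℝ) < nm f := by exact_mod_cast nm_pos.mpr hf
  have hc : 0 < 4 * Real.pi ^ 2 * A / (27 * nm f * nm k1 * nm k2) := by positivity
  refine Summable.of_norm_bounded (summable_exp hc) fun h => ?_
  refine (norm_dT_le e f h h1 h2).trans (le_of_eq ?_)
  congr 2
  ring

lemma summable_dT_if {A : ℝ} (hA : 0 < A) (e : Eis) {f k1 k2 : Eis} (h1 : IsPrim k1)
    (h2 : IsPrim k2) (hf : f ≠ 0) (P : Eis → Prop) [DecidablePred P] :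
    Summable (fun h : Eis => if P h then dT A e k1 k2 f h else 0) := by
  refine Summable.of_norm_bounded (summable_dT hA e h1 h2 hf).norm fun h => ?_
  split_ifs
  · exact le_rfl
  · rw [norm_zero]; exact norm_nonneg _

open Classical in
/-- Splitting of the set of frequencies. -/
lemma dualP_or {A : ℝ} (hA : 0 < A) {e k1 k2 : Eis} (h1 : IsPrim k1) (h2 : IsPrim k2)
    (H H1 H2 : Eis → Eis → Prop) (hH : ∀ f ∈ dvs e, ∀ h, dT A e k1 k2 f h ≠ 0 →
      (H f h ↔ H1 f h ∨ H2 f h)) (hd : ∀ f h, H1 f h → H2 f h → False) :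
    dualP A e k1 k2 H = dualP A e k1 k2 H1 + dualP A e k1 k2 H2 := by
  rw [dualP_eq, dualP_eq, dualP_eq, ← mul_add, ← Finset.sum_add_distrib]
  congr 1
  refine Finset.sum_congr rfl fun f hf => ?_
  have hf0 := (isPrim_of_mem_dvs hf).ne_zero
  rw [← mul_add, ← (summable_dT_if hA e h1 h2 hf0 _).tsum_add (summable_dT_if hA e h1 h2 hf0 _)]
  congr 1
  refine tsum_congr fun h => ?_
  by_cases h0 : dT A e k1 k2 f h = 0
  · simp only [h0, ite_self, add_zero]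
  · have := hH f hf h h0
    by_cases a1 : H1 f h
    · have a2 : ¬ H2 f h := fun a2 => hd f h a1 a2
      rw [if_pos (this.mpr (Or.inl a1)), if_pos a1, if_neg a2, add_zero]
    · by_cases a2 : H2 f h
      · rw [if_pos (this.mpr (Or.inr a2)), if_neg a1, if_pos a2, zero_add]
      · rw [if_neg (fun a => (this.mp a).elim a1 a2), if_neg a1, if_neg a2, add_zero]

open Classical in
/-- The pair sum as the full dual sum. -/
theorem P1_eq {A : ℝ} (hA : 0 < A) {e k1 k2 : Eis} (he : IsPrim e) (h1 : IsPrim k1)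
    (h2 : IsPrim k2) (hs1 : Squarefree (e * k1)) (hs2 : Squarefree (e * k2))
    (hc : IsCoprime k1 k2) :
    P1 A (e * k1) (e * k2) = dualP A e k1 k2 (fun _ _ => True) := by
  obtain ⟨r1, se, sk1⟩ := squarefree_mul_iff.mp hs1
  obtain ⟨r2, _, sk2⟩ := squarefree_mul_iff.mp hs2
  have hre : 0 < (((1 / A : ℝ) : ℂ)).re := by rw [Complex.ofReal_re]; positivity
  have h := pairG (pf_cg hre) he h1 h2 se sk1 sk2 r1.isCoprime r2.isCoprime hc
  have e1 : P1 A (e * k1) (e * k2) = ∑' a : Eis, (if IsPrim a then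
      (G (e * k1) * (starRingEnd ℂ) (sy a (e * k1))) *
        (starRingEnd ℂ) (G (e * k2) * (starRingEnd ℂ) (sy a (e * k2))) else 0) *
          cg ((1 / A : ℝ) : ℂ) (toC a) := by
    unfold P1
    refine tsum_congr fun a => ?_
    split_ifs
    · rw [cg_toC, Complex.ofReal_exp]
      have : ((-(nm a : ℝ) / A : ℝ) : ℂ) = -((1 / A : ℝ) : ℂ) * (nm a : ℂ) := by
        push_cast; ring
      rw [this]
      ring
    · rw [zero_mul]
  rw [e1, h, dualP_eq]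
  have e2 : ∀ d : Eis, ∑' h : Eis, ph h * (psi h (d * e) k1 * (starRingEnd ℂ) (psi h (d * e) k2)) *
        fC (cg ((1 / A : ℝ) : ℂ)) (toC h / (3 * toC sq3 * (toC k1 * toC k2) * toC d)) =
      ((Real.pi * A : ℝ) : ℂ) * ∑' h : Eis, dT A e k1 k2 d h := by
    intro d
    rw [← tsum_mul_left]
    refine tsum_congr fun h => ?_
    rw [fC_cg_dual hA, dT_eq]
    ring
  simp only [if_true, e2]
  rw [Finset.mul_sum, Finset.mul_sum]
  refine Finset.sum_congr rfl fun d _ => ?_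
  push_cast
  ring

lemma sy_zero_left {k : Eis} (hk : IsPrim k) (h1 : k ≠ 1) : sy 0 k = 0 := by
  apply sy_eq_zero hk
  intro h
  rw [isCoprime_zero_left] at h
  exact h1 (isPrim_eq_one_of_isUnit hk h)

/-- **T1x.** -/
theorem t1x : T411.T1x := by
  intro A b1 b2 hA h1 h2 hne
  set e := gE b1 b2 with he
  set k1 := kE b1 b2 with hk1
  set k2 := kE b2 b1 with hk2
  have p0 : IsPrim e := isPrim_gE _ _
  have p1 : IsPrim k1 := isPrim_kE _ _
  have p2 : IsPrim k2 := isPrim_kE _ _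
  have q1 : e * k1 = b1 := gE_mul_kE _ h1
  have q2 : e * k2 = b2 := gE_mul_kE' _ h2
  have hc : IsCoprime k1 k2 := coprime_kE _ _
  have hP : P1 A b1 b2 = dualP A e k1 k2 (fun _ _ => True) := by
    have := P1_eq hA p0 p1 p2 (by rw [q1]; exact h1.2) (by rw [q2]; exact h2.2) hc
    rwa [q1, q2] at this
  rw [hP]
  unfold CP NP
  rw [← he, ← hk1, ← hk2]
  refine dualP_or hA p1 p2 _ _ _ (fun f hf h h0 => ?_) (fun f h a b => b.2 a)
  have hh0 : h ≠ 0 := by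
    rintro rfl
    apply h0
    rw [dT_eq]
    have : k1 ≠ 1 ∨ k2 ≠ 1 := by
      by_contra hcon
      push Not at hcon
      apply hne
      rw [← q1, ← q2, hcon.1, hcon.2]
    unfold psi
    rcases this with hk | hk
    · rw [sy_zero_left p1 hk]; ring
    · rw [sy_zero_left p2 hk]; simp
  simp only [true_iff]
  by_cases hcb : isCubeE e f h
  · exact Or.inl hcb
  · exact Or.inr ⟨hh0, hcb⟩

end Crest.Agent.R012.T1x671
end
end

-- ▼ part R012/KerSep_671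
section

/-!
# Row 12 (T1d/T8): separation of variables in `exp (-λ y₁ y₂)` without loss

* `sepKer` : for `u ∈ [-2, 0]`, `e^{cu} exp (-λ e^u) = ∫ κ(t) e^{itu} dt` with
  `|κ(t)| ≤ C (1+λ)^{-N} (1+|t|)^{-k}` uniformly in `λ ≥ 0`
* `norm_bilin_le` : `|∑∑ γ_i conj γ_j e^{c(x_i+x_j)} exp (-λ e^{x_i+x_j})|
   ≤ C (1+λ)^{-N} ∫ (1+|t|)^{-k} |∑ γ_i e^{itx_i}|² dt` for `x_i ∈ [-1, 0]`
-/

set_option autoImplicit false

noncomputable section

open MeasureTheory Real Complex Set Filter Topology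
open scoped ContDiff

namespace Crest.Agent.R012.KerSep671

open Weight600

/-- `χ(u) (λ e^u)^j e^{cu} exp (-λ e^u)` -/
def wf (χ : ℝ → ℂ) (c : ℝ) (j : ℕ) (l : ℝ) (u : ℝ) : ℂ :=
  χ u * (((l * Real.exp u) ^ j * Real.exp (c * u - l * Real.exp u) : ℝ) : ℂ)

lemma contDiff_wf {χ : ℝ → ℂ} (h1 : ContDiff ℝ ∞ χ) (c : ℝ) (j : ℕ) (l : ℝ) :
    ContDiff ℝ ∞ (wf χ c j l) := by
  unfold wf
  have h : ContDiff ℝ ∞ (fun u : ℝ => (l * Real.exp u) ^ j *
      Real.exp (c * u - l * Real.exp u)) := by fun_prop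
  exact h1.mul (Complex.ofRealCLM.contDiff.comp h)

lemma hasCompactSupport_wf {χ : ℝ → ℂ} (h2 : HasCompactSupport χ) (c : ℝ) (j : ℕ) (l : ℝ) :
    HasCompactSupport (wf χ c j l) := by
  unfold wf
  exact h2.mul_right

lemma hasDerivAt_aux (c : ℝ) (j : ℕ) (l u : ℝ) :
    HasDerivAt (fun u : ℝ => (l * Real.exp u) ^ j * Real.exp (c * u - l * Real.exp u))
      ((j + c) * ((l * Real.exp u) ^ j * Real.exp (c * u - l * Real.exp u)) -
        (l * Real.exp u) ^ (j + 1) * Real.exp (c * u - l * Real.exp u)) u := by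
  have h1 : HasDerivAt (fun u : ℝ => l * Real.exp u) (l * Real.exp u) u :=
    (Real.hasDerivAt_exp u).const_mul l
  have h2 : HasDerivAt (fun u : ℝ => (l * Real.exp u) ^ j)
      ((j : ℝ) * (l * Real.exp u) ^ (j - 1) * (l * Real.exp u)) u := h1.fun_pow j
  have h3 : HasDerivAt (fun u : ℝ => Real.exp (c * u - l * Real.exp u))
      (Real.exp (c * u - l * Real.exp u) * (c - l * Real.exp u)) u := by
    have h4 : HasDerivAt (fun u : ℝ => c * u - l * Real.exp u) (c - l * Real.exp u) u := by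
      have := (hasDerivAt_id u).const_mul c
      simp only [id, mul_one] at this
      exact this.sub h1
    exact h4.exp
  refine (h2.mul h3).congr_deriv ?_
  have h5 : (j : ℝ) * (l * Real.exp u) ^ (j - 1) * (l * Real.exp u) =
      (j : ℝ) * (l * Real.exp u) ^ j := by
    rcases Nat.eq_zero_or_pos j with hj | hj
    · subst hj; simp
    · rw [mul_assoc, ← pow_succ, Nat.sub_add_cancel hj]
  rw [h5]
  ring

lemma deriv_wf {χ : ℝ → ℂ} (h1 : ContDiff ℝ ∞ χ) (c : ℝ) (j : ℕ) (l : ℝ) :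
    deriv (wf χ c j l) = fun u => wf (fun u => deriv χ u + ((j + c : ℝ) : ℂ) * χ u) c j l u -
      wf χ c (j + 1) l u := by
  funext u
  have hχ : HasDerivAt χ (deriv χ u) u :=
    (h1.differentiable (by simp) u).hasDerivAt
  have h := (hasDerivAt_aux c j l u).ofReal_comp
  have h3 := hχ.mul h
  have h4 : HasDerivAt (wf χ c j l) _ u := h3
  rw [h4.deriv]
  unfold wf
  push_cast
  ring

lemma contDiff_deriv' {χ : ℝ → ℂ} (h1 : ContDiff ℝ ∞ χ) : ContDiff ℝ ∞ (deriv χ) := by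
  have := h1.iterate_deriv 1
  simpa using this

/-- `sup_{l ≥ 0} (1+l)^N (l e^u)^j exp (-l e^u) < ∞` locally uniformly in `u`. -/
lemma exists_sup (N j : ℕ) (c R : ℝ) : ∃ C : ℝ, 0 < C ∧ ∀ l : ℝ, 0 ≤ l → ∀ u : ℝ, |u| ≤ R →
    (l * Real.exp u) ^ j * Real.exp (c * u - l * Real.exp u) ≤ C * ((1 + l) ^ N)⁻¹ := by
  -- `y^M e^{-y} ≤ M!`
  have hy : ∀ (M : ℕ) (y : ℝ), 0 ≤ y → y ^ M * Real.exp (-y) ≤ M.factorial := by
    intro M y hy
    have h := Real.pow_div_factorial_le_exp y hy M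
    rw [div_le_iff₀ (by positivity)] at h
    calc y ^ M * Real.exp (-y) ≤ (Real.exp y * M.factorial) * Real.exp (-y) := by gcongr
      _ = M.factorial := by
        rw [mul_assoc, mul_comm (M.factorial : ℝ), ← mul_assoc, ← Real.exp_add]; simp
  refine ⟨Real.exp (|c| * R) * (2 ^ N * (j.factorial + Real.exp (N * R) * (N + j).factorial)),
    by positivity, fun l hl u hu => ?_⟩
  set y := l * Real.exp u with hy'
  have hy0 : 0 ≤ y := by positivity
  have hR : 0 ≤ R := (abs_nonneg u).trans hu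
  have hl' : l ≤ Real.exp R * y := by
    have : (1 : ℝ) ≤ Real.exp (R + u) := by
      apply Real.one_le_exp
      have := neg_abs_le u
      linarith
    rw [hy']
    calc l = l * 1 := (mul_one l).symm
      _ ≤ l * Real.exp (R + u) := by gcongr
      _ = Real.exp R * (l * Real.exp u) := by rw [Real.exp_add]; ring
  have hc : Real.exp (c * u) ≤ Real.exp (|c| * R) := by
    apply Real.exp_le_exp.mpr
    calc c * u ≤ |c * u| := le_abs_self _
      _ = |c| * |u| := abs_mul _ _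
      _ ≤ |c| * R := by gcongr
  rw [le_mul_inv_iff₀ (by positivity), sub_eq_add_neg, Real.exp_add]
  have h1 : (1 + l) ^ N ≤ 2 ^ N * (1 + (Real.exp R * y) ^ N) := by
    have h2 : 1 + l ≤ 2 * max 1 l := by
      have := le_max_left 1 l
      have := le_max_right 1 l
      linarith
    calc (1 + l) ^ N ≤ (2 * max 1 l) ^ N := by gcongr
      _ = 2 ^ N * (max 1 l) ^ N := mul_pow _ _ _
      _ ≤ 2 ^ N * (1 + l ^ N) := by
        gcongr
        rcases max_cases 1 l with ⟨h, _⟩ | ⟨h, _⟩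
        · rw [h, one_pow]; linarith [pow_nonneg hl N]
        · rw [h]; linarith [pow_nonneg hl N]
      _ ≤ 2 ^ N * (1 + (Real.exp R * y) ^ N) := by gcongr
  calc y ^ j * (Real.exp (c * u) * Real.exp (-y)) * (1 + l) ^ N
      ≤ y ^ j * (Real.exp (|c| * R) * Real.exp (-y)) * (2 ^ N * (1 + (Real.exp R * y) ^ N)) := by
        gcongr
    _ = Real.exp (|c| * R) * (2 ^ N * (y ^ j * Real.exp (-y) +
          Real.exp R ^ N * (y ^ (N + j) * Real.exp (-y)))) := by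
        rw [mul_pow, pow_add]; ring
    _ ≤ Real.exp (|c| * R) * (2 ^ N * (j.factorial + Real.exp (N * R) *
          (N + j).factorial)) := by
        rw [← Real.exp_nat_mul]
        gcongr
        · exact hy j y hy0
        · exact hy (N + j) y hy0

/-- Uniform decay of the kernels. -/
theorem ker_wf_bound (N k : ℕ) : ∀ (χ : ℝ → ℂ), ContDiff ℝ ∞ χ → HasCompactSupport χ →
    ∀ (c : ℝ) (j : ℕ), ∃ C : ℝ, 0 < C ∧ ∀ l : ℝ, 0 ≤ l → ∀ t : ℝ,
      |t| ^ k * ‖ker (wf χ c j l) t‖ ≤ C * ((1 + l) ^ N)⁻¹ := by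
  induction k with
  | zero =>
    intro χ h1 h2 c j
    obtain ⟨R, hR0, hR⟩ : ∃ R : ℝ, 0 ≤ R ∧ ∀ u, χ u ≠ 0 → |u| ≤ R := by
      obtain ⟨R, hR⟩ := h2.isCompact.isBounded.subset_closedBall 0
      refine ⟨max R 0, le_max_right _ _, fun u hu => ?_⟩
      have := hR (subset_tsupport _ (Function.mem_support.mpr hu))
      rw [Metric.mem_closedBall, dist_zero_right, Real.norm_eq_abs] at this
      exact this.trans (le_max_left _ _)
    obtain ⟨C, hC, hC'⟩ := exists_sup N j c R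
    have hχi : Integrable χ := h1.continuous.integrable_of_hasCompactSupport h2
    refine ⟨(1 / (2 * π)) * ((∫ u, ‖χ u‖) * C) + 1, ?_, fun l hl t => ?_⟩
    · have : 0 ≤ ∫ u, ‖χ u‖ := integral_nonneg fun _ => norm_nonneg _
      positivity
    rw [pow_zero, one_mul]
    have h4 : ∫ u, ‖wf χ c j l u‖ ≤ (∫ u, ‖χ u‖) * (C * ((1 + l) ^ N)⁻¹) := by
      rw [← integral_mul_const]
      apply integral_mono
      · exact ((contDiff_wf h1 c j l).continuous.integrable_of_hasCompactSupport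
          (hasCompactSupport_wf h2 c j l)).norm
      · exact hχi.norm.mul_const _
      · intro u
        beta_reduce
        unfold wf
        rw [norm_mul]
        by_cases hu : χ u = 0
        · rw [hu, norm_zero, zero_mul, zero_mul]
        · refine mul_le_mul_of_nonneg_left ?_ (norm_nonneg _)
          rw [Complex.norm_real, Real.norm_of_nonneg (by positivity)]
          exact hC' l hl u (hR u hu)
    calc ‖ker (wf χ c j l) t‖ ≤ (1 / (2 * π)) * ∫ u, ‖wf χ c j l u‖ := norm_ker_le _ _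
      _ ≤ (1 / (2 * π)) * ((∫ u, ‖χ u‖) * (C * ((1 + l) ^ N)⁻¹)) := by gcongr
      _ = ((1 / (2 * π)) * ((∫ u, ‖χ u‖) * C)) * ((1 + l) ^ N)⁻¹ := by ring
      _ ≤ _ := by
        gcongr
        linarith
  | succ k ih =>
    intro χ h1 h2 c j
    have hd : ContDiff ℝ ∞ (deriv χ) := contDiff_deriv' h1
    have h3 : ContDiff ℝ ∞ (fun u => deriv χ u + ((j + c : ℝ) : ℂ) * χ u) :=
      hd.add (contDiff_const.mul h1)
    have h4 : HasCompactSupport (fun u => deriv χ u + ((j + c : ℝ) : ℂ) * χ u) :=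
      h2.deriv.add (h2.mul_left (f := fun _ => ((j + c : ℝ) : ℂ)))
    obtain ⟨C1, hC1, hC1'⟩ := ih _ h3 h4 c j
    obtain ⟨C2, hC2, hC2'⟩ := ih _ h1 h2 c (j + 1)
    refine ⟨C1 + C2, by positivity, fun l hl t => ?_⟩
    have hw := contDiff_wf h1 c j l
    have hws := hasCompactSupport_wf h2 c j l
    have hk := ker_deriv (hw.continuous.integrable_of_hasCompactSupport hws)
      (hw.differentiable (by simp))
      ((contDiff_deriv' hw).continuous.integrable_of_hasCompactSupport hws.deriv) t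
    rw [deriv_wf h1, ker_sub] at hk
    · have e : |t| ^ (k + 1) * ‖ker (wf χ c j l) t‖ =
          |t| ^ k * ‖I * t * ker (wf χ c j l) t‖ := by
        rw [norm_mul, norm_mul, norm_I, Complex.norm_real, Real.norm_eq_abs]; ring
      rw [e, ← hk]
      calc |t| ^ k * ‖ker (wf (fun u => deriv χ u + ((j + c : ℝ) : ℂ) * χ u) c j l) t -
            ker (wf χ c (j + 1) l) t‖
          ≤ |t| ^ k * (‖ker (wf (fun u => deriv χ u + ((j + c : ℝ) : ℂ) * χ u) c j l) t‖ +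
            ‖ker (wf χ c (j + 1) l) t‖) := by
            gcongr
            exact norm_sub_le _ _
        _ = |t| ^ k * ‖ker (wf (fun u => deriv χ u + ((j + c : ℝ) : ℂ) * χ u) c j l) t‖ +
            |t| ^ k * ‖ker (wf χ c (j + 1) l) t‖ := by ring
        _ ≤ C1 * ((1 + l) ^ N)⁻¹ + C2 * ((1 + l) ^ N)⁻¹ := add_le_add (hC1' l hl t) (hC2' l hl t)
        _ = _ := by ring
    · exact (contDiff_wf h3 c j l).continuous.integrable_of_hasCompactSupport
        (hasCompactSupport_wf h4 c j l)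
    · exact (contDiff_wf h1 c (j + 1) l).continuous.integrable_of_hasCompactSupport
        (hasCompactSupport_wf h2 c (j + 1) l)

/-- **Separation kernel.** -/
theorem sepKer (c : ℝ) (k N : ℕ) : ∃ C : ℝ, 0 < C ∧ ∀ l : ℝ, 0 ≤ l → ∃ κ : ℝ → ℂ,
    Continuous κ ∧ Integrable κ ∧
    (∀ t : ℝ, ‖κ t‖ ≤ C * ((1 + l) ^ N)⁻¹ * ((1 + |t|) ^ k)⁻¹) ∧
    ∀ u : ℝ, -2 ≤ u → u ≤ 0 →
      ∫ t, κ t * osc t u = ((Real.exp (c * u) * Real.exp (-(l * Real.exp u)) : ℝ) : ℂ) := by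
  have h1 : ContDiff ℝ ∞ (cutC (-3) 1 1) := contDiff_cutC
  have h2 : HasCompactSupport (cutC (-3) 1 1) := hasCompactSupport_cutC (by norm_num) (by norm_num)
  obtain ⟨C1, hC1, hC1'⟩ := ker_wf_bound N 0 _ h1 h2 c 0
  obtain ⟨C2, hC2, hC2'⟩ := ker_wf_bound N k _ h1 h2 c 0
  refine ⟨2 ^ k * (C1 + C2), by positivity, fun l hl => ⟨ker (wf (cutC (-3) 1 1) c 0 l), ?_, ?_,
    fun t => ?_, fun u hu1 hu2 => ?_⟩⟩
  · exact continuous_ker ((contDiff_wf h1 c 0 l).continuous.integrable_of_hasCompactSupport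
      (hasCompactSupport_wf h2 c 0 l))
  · exact ker_integrable (contDiff_wf h1 c 0 l) (hasCompactSupport_wf h2 c 0 l)
  · rw [le_mul_inv_iff₀ (by positivity)]
    have h3 := hC1' l hl t
    have h4 := hC2' l hl t
    rw [pow_zero, one_mul] at h3
    have h5 : (1 + |t|) ^ k ≤ 2 ^ k * (1 + |t| ^ k) := by
      calc (1 + |t|) ^ k ≤ (2 * max 1 |t|) ^ k := by
            gcongr
            have := le_max_left 1 |t|
            have := le_max_right 1 |t|
            linarith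
        _ = 2 ^ k * (max 1 |t|) ^ k := mul_pow _ _ _
        _ ≤ 2 ^ k * (1 + |t| ^ k) := by
          gcongr
          rcases max_cases 1 |t| with ⟨h, _⟩ | ⟨h, _⟩
          · rw [h, one_pow]; linarith [pow_nonneg (abs_nonneg t) k]
          · rw [h]; linarith [pow_nonneg (abs_nonneg t) k]
    calc ‖ker (wf (cutC (-3) 1 1) c 0 l) t‖ * (1 + |t|) ^ k
        ≤ ‖ker (wf (cutC (-3) 1 1) c 0 l) t‖ * (2 ^ k * (1 + |t| ^ k)) := by gcongr
      _ = 2 ^ k * (‖ker (wf (cutC (-3) 1 1) c 0 l) t‖ +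
          |t| ^ k * ‖ker (wf (cutC (-3) 1 1) c 0 l) t‖) := by ring
      _ ≤ 2 ^ k * (C1 * ((1 + l) ^ N)⁻¹ + C2 * ((1 + l) ^ N)⁻¹) := by gcongr
      _ = _ := by ring
  · rw [inversion_smooth (contDiff_wf h1 c 0 l) (hasCompactSupport_wf h2 c 0 l)]
    unfold wf cutC
    rw [cutL_eq_one (by norm_num) (by linarith) (by linarith), pow_zero, one_mul,
      sub_eq_add_neg, Real.exp_add]
    push_cast
    ring

lemma integrable_wt {k : ℕ} (hk : 2 ≤ k) : Integrable (fun t : ℝ => ((1 + |t|) ^ k)⁻¹) := by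
  have h := integrable_inv_one_add_sq
  refine h.mono' ?_ (Eventually.of_forall fun t => ?_)
  · refine Continuous.aestronglyMeasurable ?_
    refine Continuous.inv₀ (by fun_prop) (fun t => by positivity)
  · rw [Real.norm_of_nonneg (by positivity)]
    apply inv_anti₀ (by positivity)
    have h1 : (1 : ℝ) ≤ 1 + |t| := by linarith [abs_nonneg t]
    calc 1 + t ^ 2 ≤ (1 + |t|) ^ 2 := by
          rw [← sq_abs t]; nlinarith [abs_nonneg t]
      _ ≤ (1 + |t|) ^ k := pow_le_pow_right₀ h1 hk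

/-- the weighted quadratic form -/
lemma integrable_wt_mul {ι : Type*} (s : Finset ι) (γ : ι → ℂ) (x : ι → ℝ) {k : ℕ} (hk : 2 ≤ k) :
    Integrable (fun t : ℝ => ((1 + |t|) ^ k)⁻¹ * ‖∑ i ∈ s, γ i * osc t (x i)‖ ^ 2) := by
  have hD : Continuous fun t => ∑ i ∈ s, γ i * osc t (x i) := continuous_sum_osc s γ x
  refine (integrable_wt hk).mul_bdd (c := (∑ i ∈ s, ‖γ i‖) ^ 2)
    (hD.norm.pow 2).aestronglyMeasurable (Eventually.of_forall fun t => ?_)
  rw [Real.norm_of_nonneg (by positivity)]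
  gcongr
  exact norm_sum_osc_le s γ x t

/-- **Bilinear separation**, no loss, arbitrary decay. -/
theorem norm_bilin_le (c : ℝ) {k : ℕ} (hk : 2 ≤ k) (N : ℕ) : ∃ C : ℝ, 0 < C ∧
    ∀ l : ℝ, 0 ≤ l → ∀ (ι : Type) (s : Finset ι) (γ : ι → ℂ) (x : ι → ℝ),
      (∀ i ∈ s, -1 ≤ x i ∧ x i ≤ 0) →
      ‖∑ i ∈ s, ∑ j ∈ s, γ i * (starRingEnd ℂ) (γ j) *
        ((Real.exp (c * (x i + x j)) * Real.exp (-(l * Real.exp (x i + x j))) : ℝ) : ℂ)‖ ≤
      C * ((1 + l) ^ N)⁻¹ * ∫ t : ℝ, ((1 + |t|) ^ k)⁻¹ * ‖∑ i ∈ s, γ i * osc t (x i)‖ ^ 2 := by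
  obtain ⟨C, hC, h⟩ := sepKer c k N
  refine ⟨C, hC, fun l hl ι s γ x hx => ?_⟩
  obtain ⟨κ, hκc, hκi, hκ, hκ'⟩ := h l hl
  set Q : ℝ → ℂ := fun t => ∑ i ∈ s, γ i * osc t (x i) with hQ
  have hQc : Continuous Q := continuous_sum_osc s γ x
  have e1 : ∑ i ∈ s, ∑ j ∈ s, γ i * (starRingEnd ℂ) (γ j) *
        ((Real.exp (c * (x i + x j)) * Real.exp (-(l * Real.exp (x i + x j))) : ℝ) : ℂ) =
      ∫ t, κ t * (Q t * (starRingEnd ℂ) (Q (-t))) := by
    have e2 := sum_eq_integral (s ×ˢ s) (fun p => γ p.1 * (starRingEnd ℂ) (γ p.2))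
      (fun p => x p.1 + x p.2) hκi (w := fun p => ((Real.exp (c * (x p.1 + x p.2)) *
        Real.exp (-(l * Real.exp (x p.1 + x p.2))) : ℝ) : ℂ)) (by
        intro p hp
        rw [Finset.mem_product] at hp
        have h1 := hx _ hp.1
        have h2 := hx _ hp.2
        exact hκ' _ (by linarith [h1.1, h2.1]) (by linarith [h1.2, h2.2]))
    rw [Finset.sum_product] at e2
    rw [e2]
    congr 1
    funext t
    congr 1
    rw [Finset.sum_product, hQ]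
    beta_reduce
    rw [map_sum, Finset.sum_mul_sum]
    refine Finset.sum_congr rfl fun i _ => Finset.sum_congr rfl fun j _ => ?_
    rw [map_mul, osc_neg_left, Complex.conj_conj, osc_add_right]
    ring
  rw [e1]
  have hI := integrable_wt_mul s γ x hk
  have hI' : Integrable (fun t : ℝ => ((1 + |t|) ^ k)⁻¹ * ‖Q (-t)‖ ^ 2) := by
    have := hI.comp_neg
    simpa using this
  have hneg : ∫ t : ℝ, ((1 + |t|) ^ k)⁻¹ * ‖Q (-t)‖ ^ 2 =
      ∫ t : ℝ, ((1 + |t|) ^ k)⁻¹ * ‖Q t‖ ^ 2 := by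
    have := integral_neg_eq_self (fun t : ℝ => ((1 + |t|) ^ k)⁻¹ * ‖Q t‖ ^ 2) volume
    rw [← this]
    simp only [abs_neg]
  calc ‖∫ t, κ t * (Q t * (starRingEnd ℂ) (Q (-t)))‖
      ≤ ∫ t : ℝ, C * ((1 + l) ^ N)⁻¹ * ((((1 + |t|) ^ k)⁻¹ * ‖Q t‖ ^ 2 +
          ((1 + |t|) ^ k)⁻¹ * ‖Q (-t)‖ ^ 2) / 2) := by
        refine norm_integral_le_of_norm_le (((hI.add hI').div_const 2).const_mul _) ?_
        refine Eventually.of_forall fun t => ?_
        rw [norm_mul, norm_mul, RCLike.norm_conj]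
        have h1 : ‖Q t‖ * ‖Q (-t)‖ ≤ (‖Q t‖ ^ 2 + ‖Q (-t)‖ ^ 2) / 2 := by
          nlinarith [sq_nonneg (‖Q t‖ - ‖Q (-t)‖)]
        calc ‖κ t‖ * (‖Q t‖ * ‖Q (-t)‖)
            ≤ (C * ((1 + l) ^ N)⁻¹ * ((1 + |t|) ^ k)⁻¹) * ((‖Q t‖ ^ 2 + ‖Q (-t)‖ ^ 2) / 2) := by
              gcongr
              exact hκ t
          _ = _ := by ring
    _ = C * ((1 + l) ^ N)⁻¹ * (((∫ t : ℝ, ((1 + |t|) ^ k)⁻¹ * ‖Q t‖ ^ 2) +
          ∫ t : ℝ, ((1 + |t|) ^ k)⁻¹ * ‖Q (-t)‖ ^ 2) / 2) := by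
        rw [integral_const_mul, integral_div, integral_add hI hI']
    _ = _ := by
        rw [hneg]; ring

end Crest.Agent.R012.KerSep671
end
end

-- ▼ part R012/T1d_671
section

/-!
# Row 12: `T411.T1d` — the separated form of the dual sum of all pairs

* `sep_main` : general form (arbitrary set of frequencies, weight `(1 + N(h)/K)^{-N}`)
* `t1d : T411.T1d`
-/

set_option autoImplicit false

noncomputable section

open Finset MeasureTheory

namespace Crest.Agent.R012.T1d671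

open Eis Div277 Mob705 Tau671 T411 T1x671
open Gauss880 (syG)
open Weight600 (osc norm_osc)

/-! ### Summability over `Eis` -/

lemma summable_wt {c : ℝ} (hc : 0 < c) {N : ℕ} (hN : 2 ≤ N) :
    Summable (fun h : Eis => ((1 + nm h * c) ^ N)⁻¹) := by
  have h0 := Po581.summable_eis_pow3
  refine Summable.of_nonneg_of_le (fun h => by positivity) (fun h => ?_)
    (h0.mul_left (4 * (max 1 c⁻¹) ^ 2))
  have e1 : (nm h : ℝ) = ‖toC h‖ ^ 2 := (norm_toC_sq h).symm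
  set r := ‖toC h‖ with hr
  have hr0 : 0 ≤ r := norm_nonneg _
  rw [e1, mul_one_div, inv_le_iff_one_le_mul₀ (by positivity), div_mul_eq_mul_div,
    one_le_div (by positivity)]
  set M := max 1 c⁻¹ with hM
  have hM1 : 1 ≤ M := le_max_left _ _
  have hM2 : 1 ≤ M * c := by
    have : c⁻¹ ≤ M := le_max_right _ _
    calc 1 = c⁻¹ * c := (inv_mul_cancel₀ hc.ne').symm
      _ ≤ M * c := by gcongr
  have h2 : 1 + r ^ 2 ≤ M * (1 + r ^ 2 * c) := by
    nlinarith [sq_nonneg r, mul_nonneg (sq_nonneg r) (sub_nonneg.mpr hM2)]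
  have h3 : (1 + r) ^ 2 ≤ 2 * (1 + r ^ 2) := by nlinarith [sq_nonneg (1 - r)]
  have h4 : (1 + r) ^ 3 ≤ (1 + r) ^ 4 := pow_le_pow_right₀ (by linarith) (by norm_num)
  have h5 : (1 + r ^ 2 * c) ^ 2 ≤ (1 + r ^ 2 * c) ^ N :=
    pow_le_pow_right₀ (by nlinarith [sq_nonneg r, mul_nonneg (sq_nonneg r) hc.le]) hN
  calc (1 + r) ^ 3 ≤ (1 + r) ^ 4 := h4
    _ = ((1 + r) ^ 2) ^ 2 := by ring
    _ ≤ (2 * (1 + r ^ 2)) ^ 2 := by gcongr
    _ ≤ (2 * (M * (1 + r ^ 2 * c))) ^ 2 := by gcongr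
    _ = 4 * M ^ 2 * (1 + r ^ 2 * c) ^ 2 := by ring
    _ ≤ 4 * M ^ 2 * (1 + r ^ 2 * c) ^ N := by gcongr

/-! ### The separated sums -/

open Classical in
/-- the separated sum -/
def Qf (𝓑 : Finset Eis) (β : Eis → ℂ) (e f g h : Eis) (u : ℝ) : ℂ :=
  ∑ n ∈ (𝓑.biUnion dvs).filter (fun n => e * g * n ∈ 𝓑),
    β (e * g * n) * (starRingEnd ℂ) (sy (f * e) n) * sy h n * (nm n : ℂ) ^ ((u : ℂ) * Complex.I)

lemma norm_nm_cpow {n : Eis} (hn : n ≠ 0) (u : ℝ) :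
    ‖(nm n : ℂ) ^ ((u : ℂ) * Complex.I)‖ = 1 := by
  have h0 : (0 : ℝ) < nm n := by exact_mod_cast nm_pos.mpr hn
  have : (nm n : ℂ) = ((nm n : ℝ) : ℂ) := by norm_cast
  rw [this, Complex.norm_cpow_eq_rpow_re_of_pos h0]
  simp

lemma nm_cpow_eq {n : Eis} (hn : n ≠ 0) (u : ℝ) :
    (nm n : ℂ) ^ ((u : ℂ) * Complex.I) = osc u (Real.log (nm n)) := by
  have h0 : (0 : ℝ) < nm n := by exact_mod_cast nm_pos.mpr hn
  have := Weight600.pw_eq_cpow h0 u
  unfold Weight600.pw at this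
  rw [this]
  norm_cast

open Classical in
lemma mem_D {𝓑 : Finset Eis} (hB : ∀ b ∈ 𝓑, SqP b) {d : Eis} (hd : d ∈ 𝓑.biUnion dvs) :
    IsPrim d := by
  rw [mem_biUnion] at hd
  obtain ⟨b, _, hd⟩ := hd
  exact isPrim_of_mem_dvs hd

open Classical in
lemma D_closed {𝓑 : Finset Eis} (hB : ∀ b ∈ 𝓑, SqP b) :
    ∀ b ∈ 𝓑, ∀ d : Eis, IsPrim d → d ∣ b → d ∈ 𝓑.biUnion dvs := by
  intro b hb d hd hdb
  rw [mem_biUnion]
  exact ⟨b, hb, (mem_dvs (hB b hb).1.ne_zero).mpr ⟨hd, hdb⟩⟩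

open Classical in
/-- trivial bound -/
lemma norm_Qf_le {𝓑 : Finset Eis} (hB : ∀ b ∈ 𝓑, SqP b) (β : Eis → ℂ) (e f g h : Eis) (u : ℝ) :
    ‖Qf 𝓑 β e f g h u‖ ≤ ∑ n ∈ 𝓑.biUnion dvs, ‖β (e * g * n)‖ := by
  unfold Qf
  refine (norm_sum_le _ _).trans ?_
  refine (Finset.sum_le_sum (g := fun n => ‖β (e * g * n)‖) fun n hn => ?_).trans
    (Finset.sum_le_sum_of_subset_of_nonneg (filter_subset _ _) fun _ _ _ => norm_nonneg _)
  have hp := mem_D hB (mem_filter.mp hn).1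
  rw [norm_mul, norm_mul, norm_mul, RCLike.norm_conj, norm_nm_cpow hp.ne_zero, mul_one]
  have h1 := norm_sy_le (x := f * e) hp
  have h2 := norm_sy_le (x := h) hp
  calc ‖β (e * g * n)‖ * ‖sy (f * e) n‖ * ‖sy h n‖ ≤ ‖β (e * g * n)‖ * 1 * 1 := by gcongr
    _ = _ := by ring

open Classical in
lemma continuous_Qf {𝓑 : Finset Eis} (hB : ∀ b ∈ 𝓑, SqP b) (β : Eis → ℂ) (e f g h : Eis) :
    Continuous (Qf 𝓑 β e f g h) := by
  unfold Qf
  refine continuous_finsetSum _ fun n hn => ?_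
  have hp := mem_D hB (mem_filter.mp hn).1
  simp_rw [nm_cpow_eq hp.ne_zero]
  exact continuous_const.mul (Weight600.continuous_osc_left _)

open Classical in
lemma integrable_Qf {𝓑 : Finset Eis} (hB : ∀ b ∈ 𝓑, SqP b) (β : Eis → ℂ) (e f g h : Eis) :
    Integrable (fun u : ℝ => (1 + u ^ 2)⁻¹ * ‖Qf 𝓑 β e f g h u‖ ^ 2) := by
  refine integrable_inv_one_add_sq.mul_bdd (c := (∑ n ∈ 𝓑.biUnion dvs, ‖β (e * g * n)‖) ^ 2)
    ((continuous_Qf hB β e f g h).norm.pow 2).aestronglyMeasurable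
    (Filter.Eventually.of_forall fun t => ?_)
  rw [Real.norm_of_nonneg (by positivity)]
  gcongr
  exact norm_Qf_le hB β e f g h t

open Classical in
lemma integral_Qf_le {𝓑 : Finset Eis} (hB : ∀ b ∈ 𝓑, SqP b) (β : Eis → ℂ) (e f g h : Eis) :
    ∫ u : ℝ, (1 + u ^ 2)⁻¹ * ‖Qf 𝓑 β e f g h u‖ ^ 2 ≤
      Real.pi * (∑ n ∈ 𝓑.biUnion dvs, ‖β (e * g * n)‖) ^ 2 := by
  rw [← integral_univ_inv_one_add_sq, ← integral_mul_const]
  refine integral_mono (integrable_Qf hB β e f g h) (integrable_inv_one_add_sq.mul_const _)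
    fun u => ?_
  beta_reduce
  gcongr
  exact norm_Qf_le hB β e f g h u

open Classical in
lemma integral_Qf_nonneg (𝓑 : Finset Eis) (β : Eis → ℂ) (e f g h : Eis) :
    0 ≤ ∫ u : ℝ, (1 + u ^ 2)⁻¹ * ‖Qf 𝓑 β e f g h u‖ ^ 2 :=
  integral_nonneg fun u => by positivity

/-- `λ = 4π²/27 · N(h)/K`. -/
def lamW (A B : ℝ) (e f h : Eis) : ℝ :=
  4 * Real.pi ^ 2 / 27 * (nm h * ((nm e : ℝ) ^ 2 * A / (nm f * B ^ 2)))

open Classical in
/-- **One frequency, one `g`**: the separated bound. -/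
theorem single (N : ℕ) : ∃ C : ℝ, 0 < C ∧ ∀ (A B : ℝ) (𝓑 : Finset Eis) (β : Eis → ℂ),
    0 < A → 0 < B → (∀ b ∈ 𝓑, SqP b) → (∀ b ∈ 𝓑, B < nm b) → (∀ b ∈ 𝓑, (nm b : ℝ) ≤ 2 * B) →
    ∀ e f g h : Eis, IsPrim e → IsPrim f → IsPrim g →
    ‖∑ m1 ∈ 𝓑.biUnion dvs, ∑ m2 ∈ 𝓑.biUnion dvs, (if e * (g * m1) ∈ 𝓑 ∧ e * (g * m2) ∈ 𝓑 then
          β (e * (g * m1)) * (starRingEnd ℂ) (β (e * (g * m2))) *
            (((Real.sqrt (nm m1 * nm m2))⁻¹ : ℝ) : ℂ) *
            (psi h (f * e) m1 * (starRingEnd ℂ) (psi h (f * e) m2)) *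
            (Real.exp (-(4 * Real.pi ^ 2 * A * nm h / (27 * nm f * nm (g * g * (m1 * m2))))) : ℂ)
          else 0)‖ ≤
      nm e * nm g / B * (C * ((1 + lamW A B e f h) ^ N)⁻¹ *
        ∫ u : ℝ, (1 + u ^ 2)⁻¹ * ‖Qf 𝓑 β e f g h u‖ ^ 2) := by
  obtain ⟨C, hC, hsep⟩ := KerSep671.norm_bilin_le (1 / 2) (k := 2) le_rfl N
  refine ⟨C, hC, fun A B 𝓑 β hA hB hsq hlo hhi e f g h he hf hg => ?_⟩
  have ne : (0 : ℝ) < nm e := by exact_mod_cast nm_pos.mpr he.ne_zero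
  have nf : (0 : ℝ) < nm f := by exact_mod_cast nm_pos.mpr hf.ne_zero
  have ng : (0 : ℝ) < nm g := by exact_mod_cast nm_pos.mpr hg.ne_zero
  set s := (𝓑.biUnion dvs).filter (fun n => e * g * n ∈ 𝓑) with hs
  set γ : Eis → ℂ := fun m => β (e * g * m) * (starRingEnd ℂ) (sy (f * e) m) * sy h m with hγ
  set x : Eis → ℝ := fun m => Real.log (B / (nm e * nm g)) - Real.log (nm m) with hx
  have hl : 0 ≤ lamW A B e f h := by unfold lamW; positivity
  have hxm : ∀ m ∈ s, -1 ≤ x m ∧ x m ≤ 0 := by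
    intro m hm
    rw [hs, mem_filter] at hm
    have hmp := mem_D hsq hm.1
    have nmm : (0 : ℝ) < nm m := by exact_mod_cast nm_pos.mpr hmp.ne_zero
    have h1 := hlo _ hm.2
    have h2 := hhi _ hm.2
    rw [nm_mul, nm_mul] at h1 h2
    push_cast at h1 h2
    have e1 : x m = Real.log (B / (nm e * nm g * nm m)) := by
      rw [hx]; beta_reduce
      rw [← Real.log_div (by positivity) (by positivity), div_div]
    rw [e1]
    constructor
    · have h3 : Real.exp (-1) ≤ B / (nm e * nm g * nm m) := by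
        rw [le_div_iff₀ (by positivity)]
        have h4 : Real.exp (-1) ≤ 1 / 2 := by
          rw [Real.exp_neg, inv_eq_one_div]
          apply one_div_le_one_div_of_le (by norm_num)
          have := Real.add_one_le_exp 1
          linarith
        calc Real.exp (-1) * (nm e * nm g * nm m) ≤ 1 / 2 * (2 * B) := by gcongr
          _ = B := by ring
      have := Real.log_le_log (Real.exp_pos _) h3
      rwa [Real.log_exp] at this
    · apply Real.log_nonpos (by positivity)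
      rw [div_le_one (by positivity)]
      exact h1.le
  have key := hsep (lamW A B e f h) hl Eis s γ x hxm
  -- rewrite the double sum
  have e1 : ∑ m1 ∈ 𝓑.biUnion dvs, ∑ m2 ∈ 𝓑.biUnion dvs,
        (if e * (g * m1) ∈ 𝓑 ∧ e * (g * m2) ∈ 𝓑 then
          β (e * (g * m1)) * (starRingEnd ℂ) (β (e * (g * m2))) *
            (((Real.sqrt (nm m1 * nm m2))⁻¹ : ℝ) : ℂ) *
            (psi h (f * e) m1 * (starRingEnd ℂ) (psi h (f * e) m2)) *
            (Real.exp (-(4 * Real.pi ^ 2 * A * nm h / (27 * nm f * nm (g * g * (m1 * m2))))) : ℂ)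
          else 0) =
      ((nm e * nm g / B : ℝ) : ℂ) * ∑ i ∈ s, ∑ j ∈ s, γ i * (starRingEnd ℂ) (γ j) *
        ((Real.exp (1 / 2 * (x i + x j)) *
          Real.exp (-(lamW A B e f h * Real.exp (x i + x j))) : ℝ) : ℂ) := by
    rw [hs, Finset.sum_filter, Finset.mul_sum]
    refine Finset.sum_congr rfl fun m1 hm1 => ?_
    by_cases c1 : e * g * m1 ∈ 𝓑
    · rw [if_pos c1, Finset.sum_filter, Finset.mul_sum]
      refine Finset.sum_congr rfl fun m2 hm2 => ?_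
      by_cases c2 : e * g * m2 ∈ 𝓑
      · rw [if_pos c2, if_pos (by rw [← mul_assoc, ← mul_assoc]; exact ⟨c1, c2⟩)]
        have n1 : (0 : ℝ) < nm m1 := by exact_mod_cast nm_pos.mpr (mem_D hsq hm1).ne_zero
        have n2 : (0 : ℝ) < nm m2 := by exact_mod_cast nm_pos.mpr (mem_D hsq hm2).ne_zero
        have ex : Real.exp (x m1 + x m2) = B ^ 2 / ((nm e * nm g) ^ 2 * (nm m1 * nm m2)) := by
          rw [hx]; beta_reduce
          rw [Real.exp_add, Real.exp_sub, Real.exp_sub, Real.exp_log (by positivity),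
            Real.exp_log n1, Real.exp_log n2]
          field_simp
        have ex2 : Real.exp (1 / 2 * (x m1 + x m2)) =
            B / (nm e * nm g) * (Real.sqrt (nm m1 * nm m2))⁻¹ := by
          have h1 : Real.exp (1 / 2 * (x m1 + x m2)) ^ 2 =
              (B / (nm e * nm g) * (Real.sqrt (nm m1 * nm m2))⁻¹) ^ 2 := by
            rw [← Real.exp_nat_mul, mul_pow, inv_pow, Real.sq_sqrt (by positivity)]
            have : ((2 : ℕ) : ℝ) * (1 / 2 * (x m1 + x m2)) = x m1 + x m2 := by push_cast; ring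
            rw [this, ex]
            field_simp
          exact (sq_eq_sq₀ (Real.exp_pos _).le (by positivity)).mp h1
        have ex3 : lamW A B e f h * Real.exp (x m1 + x m2) =
            4 * Real.pi ^ 2 * A * nm h / (27 * nm f * nm (g * g * (m1 * m2))) := by
          rw [ex, nm_mul, nm_mul, nm_mul]
          unfold lamW
          push_cast
          field_simp
        rw [ex2, ex3, hγ]
        beta_reduce
        unfold psi
        have c3 : e * (g * m1) = e * g * m1 := (mul_assoc _ _ _).symm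
        have c4 : e * (g * m2) = e * g * m2 := (mul_assoc _ _ _).symm
        rw [c3, c4]
        have hBc : (B : ℂ) ≠ 0 := by exact_mod_cast hB.ne'
        have hec : (nm e : ℂ) ≠ 0 := by exact_mod_cast ne.ne'
        have hgc : (nm g : ℂ) ≠ 0 := by exact_mod_cast ng.ne'
        simp only [map_mul, Complex.conj_conj]
        push_cast
        field_simp
      · rw [if_neg c2, mul_zero, if_neg (by rw [← mul_assoc, ← mul_assoc]; exact fun hh => c2 hh.2)]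
    · rw [if_neg c1, mul_zero]
      refine Finset.sum_eq_zero fun m2 _ => ?_
      rw [if_neg (by rw [← mul_assoc, ← mul_assoc]; exact fun hh => c1 hh.1)]
  rw [e1, norm_mul, Complex.norm_real, Real.norm_of_nonneg (by positivity)]
  refine mul_le_mul_of_nonneg_left (key.trans ?_) (by positivity)
  refine mul_le_mul_of_nonneg_left ?_ (by positivity)
  -- compare the integrals
  have hQ : ∀ t : ℝ, ‖∑ i ∈ s, γ i * osc t (x i)‖ = ‖Qf 𝓑 β e f g h (-t)‖ := by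
    intro t
    have : ∑ i ∈ s, γ i * osc t (x i) =
        osc t (Real.log (B / (nm e * nm g))) * Qf 𝓑 β e f g h (-t) := by
      unfold Qf
      rw [Finset.mul_sum]
      refine Finset.sum_congr rfl fun m hm => ?_
      have hmp := mem_D hsq (mem_filter.mp hm).1
      rw [nm_cpow_eq hmp.ne_zero, hx]
      beta_reduce
      rw [Weight600.osc_sub_right, Weight600.osc_neg_left]
      ring
    rw [this, norm_mul, norm_osc, one_mul]
  have hneg : ∫ t : ℝ, (1 + t ^ 2)⁻¹ * ‖Qf 𝓑 β e f g h (-t)‖ ^ 2 =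
      ∫ t : ℝ, (1 + t ^ 2)⁻¹ * ‖Qf 𝓑 β e f g h t‖ ^ 2 := by
    have := integral_neg_eq_self (fun t : ℝ => (1 + t ^ 2)⁻¹ * ‖Qf 𝓑 β e f g h t‖ ^ 2) volume
    rw [← this]
    simp only [neg_sq]
  rw [← hneg]
  have hI : Integrable (fun t : ℝ => (1 + t ^ 2)⁻¹ * ‖Qf 𝓑 β e f g h (-t)‖ ^ 2) := by
    have := (integrable_Qf hsq β e f g h).comp_neg
    simpa using this
  refine integral_mono_of_nonneg (Filter.Eventually.of_forall fun t => by positivity) hI
    (Filter.Eventually.of_forall fun t => ?_)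
  beta_reduce
  rw [hQ]
  gcongr
  nlinarith [abs_nonneg t, sq_abs t]

/-- weight `(1 + N(h)/K)^{-N}` -/
def wK (N : ℕ) (A B : ℝ) (e f h : Eis) : ℝ :=
  ((1 + nm h * ((nm e : ℝ) ^ 2 * A / (nm f * B ^ 2))) ^ N)⁻¹

lemma wK_nonneg {A B : ℝ} (hA : 0 < A) (N : ℕ) (e f h : Eis) : 0 ≤ wK N A B e f h := by
  unfold wK; positivity

lemma inv_lamW_le {A B : ℝ} (hA : 0 < A) (N : ℕ) (e f h : Eis) :
    ((1 + lamW A B e f h) ^ N)⁻¹ ≤ wK N A B e f h := by
  unfold lamW wK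
  apply inv_anti₀ (by positivity)
  have h1 : 1 ≤ 4 * Real.pi ^ 2 / 27 := by
    rw [le_div_iff₀ (by norm_num)]
    nlinarith [Real.pi_gt_three]
  have h2 : 0 ≤ (nm h : ℝ) * ((nm e : ℝ) ^ 2 * A / (nm f * B ^ 2)) := by positivity
  refine pow_le_pow_left₀ (by positivity) ?_ N
  nlinarith

lemma summable_wK {A B : ℝ} (hA : 0 < A) (hB : 0 < B) {N : ℕ} (hN : 2 ≤ N) {e f : Eis}
    (he : IsPrim e) (hf : IsPrim f) : Summable (fun h : Eis => wK N A B e f h) := by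
  have ne : (0 : ℝ) < nm e := by exact_mod_cast nm_pos.mpr he.ne_zero
  have nf : (0 : ℝ) < nm f := by exact_mod_cast nm_pos.mpr hf.ne_zero
  exact summable_wt (by positivity) hN

open Classical in
/-- the bilinear form of one frequency -/
def Br (A : ℝ) (𝓑 : Finset Eis) (β : Eis → ℂ) (e f h : Eis) : ℂ :=
  ∑ k1 ∈ 𝓑.biUnion dvs, ∑ k2 ∈ 𝓑.biUnion dvs,
    (if e * k1 ∈ 𝓑 ∧ e * k2 ∈ 𝓑 ∧ IsCoprime k1 k2 then
        β (e * k1) * (starRingEnd ℂ) (β (e * k2)) *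
          (((Real.sqrt (nm k1 * nm k2))⁻¹ : ℝ) : ℂ) *
          (psi h (f * e) k1 * (starRingEnd ℂ) (psi h (f * e) k2)) *
          (Real.exp (-(4 * Real.pi ^ 2 * A * nm h / (27 * nm f * nm (k1 * k2)))) : ℂ) else 0)

open Classical in
/-- bound for the bilinear form of one frequency -/
theorem norm_Br_le (N : ℕ) : ∃ C : ℝ, 0 < C ∧ ∀ (A B : ℝ) (𝓑 : Finset Eis) (β : Eis → ℂ),
    0 < A → 0 < B → (∀ b ∈ 𝓑, SqP b) → (∀ b ∈ 𝓑, B < nm b) → (∀ b ∈ 𝓑, (nm b : ℝ) ≤ 2 * B) →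
    ∀ e f h : Eis, IsPrim e → IsPrim f → f ∣ e →
    ‖Br A 𝓑 β e f h‖ ≤ C * (nm e / B) * ∑ g ∈ (𝓑.biUnion dvs).filter (IsCoprime · e),
      wK N A B e f h * ∫ u : ℝ, (1 + u ^ 2)⁻¹ * ‖Qf 𝓑 β e f g h u‖ ^ 2 := by
  obtain ⟨C, hC, hs⟩ := single N
  refine ⟨C, hC, fun A B 𝓑 β hA hB hsq hlo hhi e f h he hf hfe => ?_⟩
  have ne : (0 : ℝ) < nm e := by exact_mod_cast nm_pos.mpr he.ne_zero
  have hpm := pairs_moebius (S := 𝓑) (D := 𝓑.biUnion dvs) hsq (fun d hd => mem_D hsq hd)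
    (D_closed hsq) he hfe h β (fun n => (Real.exp (-(4 * Real.pi ^ 2 * A * nm h /
      (27 * nm f * nm n))) : ℂ))
  have hBr : Br A 𝓑 β e f h = _ := hpm
  rw [hBr, Finset.mul_sum]
  refine (norm_sum_le _ _).trans ?_
  rw [Finset.sum_filter]
  refine Finset.sum_le_sum fun g hg => ?_
  have hgp := mem_D hsq hg
  have ng : (0 : ℝ) < nm g := by exact_mod_cast nm_pos.mpr hgp.ne_zero
  have h1 := hs A B 𝓑 β hA hB hsq hlo hhi e f g h he hf hgp
  by_cases hge : IsCoprime g e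
  · rw [if_pos hge]
    have hI := integral_Qf_nonneg 𝓑 β e f g h
    by_cases hhg : IsCoprime h g
    · rw [if_pos hhg, norm_mul, norm_mul]
      have h2 : ‖((mu g : ℤ) : ℂ)‖ ≤ 1 := norm_muE_le g
      have h3 : ‖((nm g : ℂ))⁻¹‖ = (nm g : ℝ)⁻¹ := by
        rw [norm_inv]; simp
      rw [h3]
      calc _ ≤ 1 * (nm g : ℝ)⁻¹ * (nm e * nm g / B * (C * ((1 + lamW A B e f h) ^ N)⁻¹ *
              ∫ u : ℝ, (1 + u ^ 2)⁻¹ * ‖Qf 𝓑 β e f g h u‖ ^ 2)) := by
            gcongr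
        _ ≤ 1 * (nm g : ℝ)⁻¹ * (nm e * nm g / B * (C * wK N A B e f h *
              ∫ u : ℝ, (1 + u ^ 2)⁻¹ * ‖Qf 𝓑 β e f g h u‖ ^ 2)) := by
            gcongr
            exact inv_lamW_le hA N e f h
        _ = _ := by field_simp
    · rw [if_neg hhg, norm_zero]
      have := wK_nonneg (B := B) hA N e f h
      positivity
  · rw [if_neg hge]
    have hz : ∀ m : Eis, ¬ e * (g * m) ∈ 𝓑 := by
      intro m hm
      obtain ⟨r, -, -⟩ := squarefree_mul_iff.mp (hsq _ hm).2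
      exact hge (IsCoprime.of_isCoprime_of_dvd_right r.isCoprime (dvd_mul_right _ _)).symm
    simp only [hz, false_and, if_false, Finset.sum_const_zero, mul_zero, ite_self, norm_zero,
      le_refl]

open Classical in
/-- Expansion of the sum over the pairs of cofactors. -/
lemma sum_dualP_eq {A : ℝ} (hA : 0 < A) {𝓑 : Finset Eis} (hsq : ∀ b ∈ 𝓑, SqP b) (β : Eis → ℂ)
    (e : Eis) (H : Eis → Eis → Prop) :
    ∑ k1 ∈ 𝓑.biUnion dvs, ∑ k2 ∈ 𝓑.biUnion dvs,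
      (if e * k1 ∈ 𝓑 ∧ e * k2 ∈ 𝓑 ∧ IsCoprime k1 k2 then
        β (e * k1) * (starRingEnd ℂ) (β (e * k2)) * dualP A e k1 k2 H else 0) =
      ((2 * Real.pi * A / (9 * Real.sqrt 3) : ℝ) : ℂ) *
      ∑ f ∈ dvs e, ((muE f : ℝ) / nm f : ℝ) *
        ∑' h : Eis, if H f h then ph h * Br A 𝓑 β e f h else 0 := by
  have e0 : ∀ f ∈ dvs e, ∑' h : Eis, (if H f h then ph h * Br A 𝓑 β e f h else 0) =
      ∑ k1 ∈ 𝓑.biUnion dvs, ∑ k2 ∈ 𝓑.biUnion dvs,
        (if e * k1 ∈ 𝓑 ∧ e * k2 ∈ 𝓑 ∧ IsCoprime k1 k2 then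
          β (e * k1) * (starRingEnd ℂ) (β (e * k2)) * (((Real.sqrt (nm k1 * nm k2))⁻¹ : ℝ) : ℂ) *
            ∑' h : Eis, (if H f h then dT A e k1 k2 f h else 0) else 0) := by
    intro f hf
    have hf0 := (isPrim_of_mem_dvs hf).ne_zero
    have e1 : ∀ h : Eis, (if H f h then ph h * Br A 𝓑 β e f h else 0) =
        ∑ k1 ∈ 𝓑.biUnion dvs, ∑ k2 ∈ 𝓑.biUnion dvs,
        (if e * k1 ∈ 𝓑 ∧ e * k2 ∈ 𝓑 ∧ IsCoprime k1 k2 then
          β (e * k1) * (starRingEnd ℂ) (β (e * k2)) * (((Real.sqrt (nm k1 * nm k2))⁻¹ : ℝ) : ℂ) *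
            (if H f h then dT A e k1 k2 f h else 0) else 0) := by
      intro h
      by_cases hh : H f h
      · simp only [if_pos hh]
        unfold Br
        rw [Finset.mul_sum]
        refine Finset.sum_congr rfl fun k1 _ => ?_
        rw [Finset.mul_sum]
        refine Finset.sum_congr rfl fun k2 _ => ?_
        split_ifs
        · rw [dT_eq, nm_mul]
          have : (27 * (nm f : ℝ) * ((nm k1 * nm k2 : ℕ) : ℝ)) = 27 * nm f * nm k1 * nm k2 := by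
            push_cast; ring
          rw [this]
          ring
        · rw [mul_zero]
      · simp only [if_neg hh, mul_zero, ite_self, Finset.sum_const_zero]
    simp_rw [e1]
    have hsum : ∀ k1 ∈ 𝓑.biUnion dvs, ∀ k2 ∈ 𝓑.biUnion dvs, Summable (fun h : Eis =>
        (if e * k1 ∈ 𝓑 ∧ e * k2 ∈ 𝓑 ∧ IsCoprime k1 k2 then
          β (e * k1) * (starRingEnd ℂ) (β (e * k2)) * (((Real.sqrt (nm k1 * nm k2))⁻¹ : ℝ) : ℂ) *
            (if H f h then dT A e k1 k2 f h else 0) else 0)) := by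
      intro k1 hk1 k2 hk2
      by_cases hc : e * k1 ∈ 𝓑 ∧ e * k2 ∈ 𝓑 ∧ IsCoprime k1 k2
      · simp only [if_pos hc]
        exact (summable_dT_if hA e (mem_D hsq hk1) (mem_D hsq hk2) hf0 _).mul_left _
      · simp only [if_neg hc]
        exact summable_zero
    rw [Summable.tsum_finsetSum (fun k1 h1 => summable_sum fun k2 h2 => hsum k1 h1 k2 h2)]
    refine Finset.sum_congr rfl fun k1 h1 => ?_
    rw [Summable.tsum_finsetSum (fun k2 h2 => hsum k1 h1 k2 h2)]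
    refine Finset.sum_congr rfl fun k2 h2 => ?_
    split_ifs
    · rw [tsum_mul_left]
    · rw [tsum_zero]
  have e3 : ∑ f ∈ dvs e, (((muE f : ℝ) / nm f : ℝ) : ℂ) *
        ∑' h : Eis, (if H f h then ph h * Br A 𝓑 β e f h else 0) =
      ∑ f ∈ dvs e, (((muE f : ℝ) / nm f : ℝ) : ℂ) *
        ∑ k1 ∈ 𝓑.biUnion dvs, ∑ k2 ∈ 𝓑.biUnion dvs,
        (if e * k1 ∈ 𝓑 ∧ e * k2 ∈ 𝓑 ∧ IsCoprime k1 k2 then
          β (e * k1) * (starRingEnd ℂ) (β (e * k2)) * (((Real.sqrt (nm k1 * nm k2))⁻¹ : ℝ) : ℂ) *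
            ∑' h : Eis, (if H f h then dT A e k1 k2 f h else 0) else 0) :=
    Finset.sum_congr rfl fun f hf => by rw [e0 f hf]
  rw [e3]
  symm
  simp_rw [Finset.mul_sum]
  rw [Finset.sum_comm]
  refine Finset.sum_congr rfl fun k1 _ => ?_
  rw [Finset.sum_comm]
  refine Finset.sum_congr rfl fun k2 _ => ?_
  by_cases hc : e * k1 ∈ 𝓑 ∧ e * k2 ∈ 𝓑 ∧ IsCoprime k1 k2
  · simp only [if_pos hc]
    rw [dualP_eq, Finset.mul_sum, Finset.mul_sum]
    refine Finset.sum_congr rfl fun f _ => ?_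
    push_cast
    rw [div_eq_mul_inv _ ((Real.sqrt ((nm k1 : ℝ) * nm k2) : ℝ) : ℂ)]
    ring
  · simp only [if_neg hc, mul_zero, Finset.sum_const_zero]

end Crest.Agent.R012.T1d671
end
end

-- ▼ part R012/T1dMain_671
section

/-!
# Row 12: `T411.T1d`

* `sep_main` : separated form of the dual sum over all pairs, arbitrary set of frequencies,
  weight `(1 + N(h)/K)^{-N}`
* `t1d : T411.T1d`
-/

set_option autoImplicit false

noncomputable section

open Finset MeasureTheory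

namespace Crest.Agent.R012.T1d671

open Eis Div277 Mob705 Tau671 T411 T1x671

open Classical in
lemma summable_wK_Q {A B : ℝ} (hA : 0 < A) (hB : 0 < B) {N : ℕ} (hN : 2 ≤ N) {𝓑 : Finset Eis}
    (hsq : ∀ b ∈ 𝓑, SqP b) (β : Eis → ℂ) {e f : Eis} (he : IsPrim e) (hf : IsPrim f) (g : Eis)
    (H : Eis → Prop) : Summable (fun h : Eis => if H h then wK N A B e f h *
        ∫ u : ℝ, (1 + u ^ 2)⁻¹ * ‖Qf 𝓑 β e f g h u‖ ^ 2 else 0) := by
  refine Summable.of_norm_bounded ((summable_wK hA hB hN he hf).mul_right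
    (Real.pi * (∑ n ∈ 𝓑.biUnion dvs, ‖β (e * g * n)‖) ^ 2)) fun h => ?_
  have h1 := wK_nonneg (B := B) hA N e f h
  have h2 := integral_Qf_nonneg 𝓑 β e f g h
  split_ifs
  · rw [Real.norm_of_nonneg (by positivity)]
    exact mul_le_mul_of_nonneg_left (integral_Qf_le hsq β e f g h) h1
  · rw [norm_zero]
    have := Real.pi_pos
    positivity

open Classical in
/-- **Separated form of the dual sum of all pairs.** -/
theorem sep_main (N : ℕ) (hN : 2 ≤ N) : ∃ C : ℝ, 0 < C ∧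
    ∀ (A B : ℝ) (𝓑 : Finset Eis) (β : Eis → ℂ),
    0 < A → 0 < B → (∀ b ∈ 𝓑, SqP b) → (∀ b ∈ 𝓑, B < nm b) → (∀ b ∈ 𝓑, (nm b : ℝ) ≤ 2 * B) →
    ∀ H : Eis → Eis → Eis → Prop,
    ‖∑ e ∈ 𝓑.biUnion dvs, ∑ k1 ∈ 𝓑.biUnion dvs, ∑ k2 ∈ 𝓑.biUnion dvs,
      (if e * k1 ∈ 𝓑 ∧ e * k2 ∈ 𝓑 ∧ IsCoprime k1 k2 then
        β (e * k1) * (starRingEnd ℂ) (β (e * k2)) * dualP A e k1 k2 (H e) else 0)‖ ≤
      C * ∑ e ∈ 𝓑.biUnion dvs, ∑ f ∈ dvs e, ∑ g ∈ (𝓑.biUnion dvs).filter (IsCoprime · e),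
        A * nm e / (B * nm f) * ∑' h : Eis, if H e f h then
          wK N A B e f h * ∫ u : ℝ, (1 + u ^ 2)⁻¹ * ‖Qf 𝓑 β e f g h u‖ ^ 2 else 0 := by
  obtain ⟨C, hC, hb⟩ := norm_Br_le N
  refine ⟨2 * Real.pi / (9 * Real.sqrt 3) * C, by positivity,
    fun A B 𝓑 β hA hB hsq hlo hhi H => ?_⟩
  rw [Finset.mul_sum]
  refine (norm_sum_le _ _).trans (Finset.sum_le_sum fun e he => ?_)
  have hep := mem_D hsq he
  have ne : (0 : ℝ) < nm e := by exact_mod_cast nm_pos.mpr hep.ne_zero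
  rw [sum_dualP_eq hA hsq β e (H e), norm_mul, Complex.norm_real,
    Real.norm_of_nonneg (by positivity)]
  have h1 : ‖∑ f ∈ dvs e, (((muE f : ℝ) / nm f : ℝ) : ℂ) *
        ∑' h : Eis, (if H e f h then ph h * Br A 𝓑 β e f h else 0)‖ ≤
      ∑ f ∈ dvs e, (nm f : ℝ)⁻¹ * (C * (nm e / B) *
        ∑ g ∈ (𝓑.biUnion dvs).filter (IsCoprime · e), ∑' h : Eis, if H e f h then
          wK N A B e f h * ∫ u : ℝ, (1 + u ^ 2)⁻¹ * ‖Qf 𝓑 β e f g h u‖ ^ 2 else 0) := by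
    refine (norm_sum_le _ _).trans (Finset.sum_le_sum fun f hf => ?_)
    have hfp := isPrim_of_mem_dvs hf
    have nf : (0 : ℝ) < nm f := by exact_mod_cast nm_pos.mpr hfp.ne_zero
    rw [norm_mul]
    have h2 : ‖(((muE f : ℝ) / nm f : ℝ) : ℂ)‖ ≤ (nm f : ℝ)⁻¹ := by
      rw [Complex.norm_real, norm_div, Real.norm_eq_abs, Real.norm_of_nonneg nf.le, ← one_div]
      gcongr
      exact abs_muE_le_real f
    refine mul_le_mul h2 ?_ (norm_nonneg _) (by positivity)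
    refine tsum_of_norm_bounded (g := fun h => C * (nm e / B) *
        ∑ g ∈ (𝓑.biUnion dvs).filter (IsCoprime · e), if H e f h then
          wK N A B e f h * ∫ u : ℝ, (1 + u ^ 2)⁻¹ * ‖Qf 𝓑 β e f g h u‖ ^ 2 else 0) ?_ ?_
    · refine HasSum.mul_left _ (hasSum_sum fun g _ => ?_)
      exact (summable_wK_Q hA hB hN hsq β hep hfp g (H e f)).hasSum
    · intro h
      by_cases hH : H e f h
      · simp only [if_pos hH]
        rw [norm_mul, norm_ph, one_mul]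
        exact hb A B 𝓑 β hA hB hsq hlo hhi e f h hep hfp (dvd_of_mem_dvs hf)
      · simp only [if_neg hH, Finset.sum_const_zero, mul_zero, norm_zero, le_refl]
  calc 2 * Real.pi * A / (9 * Real.sqrt 3) * ‖∑ f ∈ dvs e, (((muE f : ℝ) / nm f : ℝ) : ℂ) *
        ∑' h : Eis, (if H e f h then ph h * Br A 𝓑 β e f h else 0)‖
      ≤ 2 * Real.pi * A / (9 * Real.sqrt 3) *
        ∑ f ∈ dvs e, (nm f : ℝ)⁻¹ * (C * (nm e / B) *
        ∑ g ∈ (𝓑.biUnion dvs).filter (IsCoprime · e), ∑' h : Eis, if H e f h then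
          wK N A B e f h * ∫ u : ℝ, (1 + u ^ 2)⁻¹ * ‖Qf 𝓑 β e f g h u‖ ^ 2 else 0) := by
        gcongr
    _ = _ := by
        rw [Finset.mul_sum, Finset.mul_sum]
        refine Finset.sum_congr rfl fun f hf => ?_
        have nf : (0 : ℝ) < nm f := by
          exact_mod_cast nm_pos.mpr (isPrim_of_mem_dvs hf).ne_zero
        rw [← Finset.mul_sum]
        field_simp

/-! ### The diagonal -/

lemma sum_exp_Icc_le {y : ℝ} (hy : 0 < y) (X : ℕ) :
    ∑ m ∈ Icc 1 X, Real.exp (-(y * m)) ≤ (1 - Real.exp (-(y * X))) / y := by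
  induction X with
  | zero => simp
  | succ X ih =>
    rw [Finset.sum_Icc_succ_top (by omega)]
    refine (add_le_add ih le_rfl).trans ?_
    rw [div_add' _ _ _ hy.ne']
    gcongr
    have h1 : y + 1 ≤ Real.exp y := Real.add_one_le_exp y
    have h2 : Real.exp (-(y * X)) = Real.exp (-(y * ((X + 1 : ℕ) : ℝ))) * Real.exp y := by
      rw [← Real.exp_add]; congr 1; push_cast; ring
    rw [h2]
    nlinarith [Real.exp_pos (-(y * ((X + 1 : ℕ) : ℝ)))]

open Classical in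
lemma tsum_exp_le {y : ℝ} (hy : 0 < y) :
    ∑' h : Eis, (if h ≠ 0 then Real.exp (-(y * nm h)) else 0) ≤ 100 / y := by
  have hs : Summable (fun h : Eis => if h ≠ 0 then Real.exp (-(y * nm h)) else 0) := by
    refine Summable.of_norm_bounded (summable_exp hy) fun h => ?_
    split_ifs
    · rw [Real.norm_of_nonneg (Real.exp_pos _).le]
    · rw [norm_zero]; positivity
  refine hs.tsum_le_of_sum_le fun s => ?_
  obtain ⟨X, hX⟩ : ∃ X : ℕ, ∀ h ∈ s, nm h ≤ X := by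
    refine ⟨s.sup nm, fun h hh => Finset.le_sup hh⟩
  calc ∑ h ∈ s, (if h ≠ 0 then Real.exp (-(y * nm h)) else 0)
      = ∑ h ∈ s.filter (· ≠ 0), Real.exp (-(y * nm h)) := by rw [Finset.sum_filter]
    _ ≤ ∑ h ∈ nz X, Real.exp (-(y * nm h)) := by
        refine Finset.sum_le_sum_of_subset_of_nonneg ?_ fun _ _ _ => (Real.exp_pos _).le
        intro h hh
        rw [Finset.mem_filter] at hh
        exact mem_nz.mpr ⟨hh.2, hX h hh.1⟩
    _ ≤ 100 * ∑ m ∈ Icc 1 X, Real.exp (-(y * m)) := by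
        refine sum_antitone_le (fun m => Real.exp (-(y * m))) ?_ (fun m => (Real.exp_pos _).le) X
        intro m _
        apply Real.exp_le_exp.mpr
        push_cast
        nlinarith
    _ ≤ 100 * ((1 - Real.exp (-(y * X))) / y) := by gcongr; exact sum_exp_Icc_le hy X
    _ ≤ 100 * (1 / y) := by
        gcongr
        linarith [Real.exp_pos (-(y * X))]
    _ = 100 / y := by ring

open Classical in
/-- the noncube part of the diagonal is small -/
lemma norm_NP_self_le {A : ℝ} (hA : 0 < A) {b : Eis} (hb : SqP b) :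
    ‖NP A b b‖ ≤ 200 * tau b := by
  unfold NP
  rw [gE_self hb, kE_self, dualP_eq, norm_mul, Complex.norm_real,
    Real.norm_of_nonneg (by positivity)]
  have h1 : ‖∑ f ∈ dvs b, (((muE f : ℝ) / nm f : ℝ) : ℂ) *
      ∑' h : Eis, (if isNonCubeE b f h then dT A b 1 1 f h else 0)‖ ≤
      ∑ f ∈ dvs b, (27 * 100 / (4 * Real.pi ^ 2 * A)) := by
    refine (norm_sum_le _ _).trans (Finset.sum_le_sum fun f hf => ?_)
    have nf : (0 : ℝ) < nm f := by
      exact_mod_cast nm_pos.mpr (isPrim_of_mem_dvs hf).ne_zero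
    rw [norm_mul]
    have h2 : ‖(((muE f : ℝ) / nm f : ℝ) : ℂ)‖ ≤ (nm f : ℝ)⁻¹ := by
      rw [Complex.norm_real, norm_div, Real.norm_eq_abs, Real.norm_of_nonneg nf.le, ← one_div]
      gcongr
      exact abs_muE_le_real f
    have hy : 0 < 4 * Real.pi ^ 2 * A / (27 * nm f) := by positivity
    have h3 : ‖∑' h : Eis, (if isNonCubeE b f h then dT A b 1 1 f h else 0)‖ ≤
        ∑' h : Eis, (if h ≠ 0 then Real.exp (-(4 * Real.pi ^ 2 * A / (27 * nm f) * nm h))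
          else 0) := by
      refine tsum_of_norm_bounded (Summable.hasSum ?_) fun h => ?_
      · refine Summable.of_norm_bounded (summable_exp hy) fun h => ?_
        split_ifs
        · rw [Real.norm_of_nonneg (Real.exp_pos _).le]
        · rw [norm_zero]; positivity
      · by_cases hh : isNonCubeE b f h
        · rw [if_pos hh, if_pos hh.1]
          refine (norm_dT_le b f h isPrim_one isPrim_one).trans (le_of_eq ?_)
          rw [nm_one]
          congr 2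
          push_cast
          field_simp
        · rw [if_neg hh, norm_zero]
          split_ifs <;> positivity
    calc _ ≤ (nm f : ℝ)⁻¹ * (100 / (4 * Real.pi ^ 2 * A / (27 * nm f))) := by
          refine mul_le_mul h2 (h3.trans (tsum_exp_le hy)) (norm_nonneg _) (by positivity)
      _ = _ := by field_simp
  calc _ ≤ 2 * Real.pi * A / (9 * Real.sqrt 3) / Real.sqrt ((nm 1 : ℝ) * nm 1) *
        ∑ f ∈ dvs b, (27 * 100 / (4 * Real.pi ^ 2 * A)) := by gcongr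
    _ = (150 / (Real.pi * Real.sqrt 3)) * tau b := by
        rw [Finset.sum_const, nsmul_eq_mul, nm_one]
        unfold tau
        push_cast
        rw [mul_one, Real.sqrt_one]
        field_simp
        ring
    _ ≤ 200 * tau b := by
        gcongr
        rw [div_le_iff₀ (by positivity)]
        have h3 : 1 ≤ Real.sqrt 3 := by
          rw [Real.one_le_sqrt]; norm_num
        nlinarith [Real.pi_gt_three]

/-! ### T1d -/

lemma wK_two_le_om {A B : ℝ} (hA : 0 < A) (hB : 0 < B) {e f h : Eis} (he : IsPrim e)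
    (hf : IsPrim f) (hh : h ≠ 0) :
    wK 2 A B e f h ≤ om (nm f * B ^ 2 / ((nm e : ℝ) ^ 2 * A)) h := by
  have ne : (0 : ℝ) < nm e := by exact_mod_cast nm_pos.mpr he.ne_zero
  have nf : (0 : ℝ) < nm f := by exact_mod_cast nm_pos.mpr hf.ne_zero
  have nh : (0 : ℝ) < nm h := by exact_mod_cast nm_pos.mpr hh
  set x := nm f * B ^ 2 / ((nm e : ℝ) ^ 2 * A) / nm h with hx
  have hx0 : 0 < x := by positivity
  have e1 : wK 2 A B e f h = ((1 + x⁻¹) ^ 2)⁻¹ := by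
    unfold wK
    congr 3
    rw [hx]
    field_simp
  rw [e1]
  unfold om
  rw [← hx]
  refine le_min ?_ ?_
  · rcases le_total x 1 with h1 | h1
    · have h2 : x ^ 2 ≤ x ^ ((1 : ℝ) / 4) := by
        rw [← Real.rpow_natCast]
        exact Real.rpow_le_rpow_of_exponent_ge hx0 h1 (by norm_num)
      refine le_trans ?_ h2
      rw [inv_le_comm₀ (by positivity) (by positivity), ← inv_pow]
      gcongr
      linarith
    · have h2 : 1 ≤ x ^ ((1 : ℝ) / 4) := Real.one_le_rpow h1 (by norm_num)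
      refine le_trans ?_ h2
      apply inv_le_one_of_one_le₀
      apply one_le_pow₀
      have : 0 < x⁻¹ := by positivity
      linarith
  · have : x ^ (2 : ℝ) = x ^ 2 := by
      rw [← Real.rpow_natCast]; norm_num
    rw [this, inv_le_comm₀ (by positivity) (by positivity), ← inv_pow]
    gcongr
    linarith

lemma om_nonneg {K : ℝ} (hK : 0 < K) (h : Eis) : 0 ≤ om K h := by
  unfold om
  exact le_min (by positivity) (by positivity)

open Classical in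
lemma summable_om {K : ℝ} (hK : 0 < K) (P : Eis → Prop) (hP : ∀ h, P h → h ≠ 0) (M : ℝ)
    (hM : 0 ≤ M) : Summable (fun h : Eis => if P h then om K h * M else 0) := by
  have h0 := (summable_wt (c := 1) one_pos (N := 2) le_rfl).mul_left (4 * K ^ 2 * M)
  refine Summable.of_nonneg_of_le (fun h => ?_) (fun h => ?_) h0
  · split_ifs
    · exact mul_nonneg (om_nonneg hK h) hM
    · exact le_rfl
  · split_ifs with hh
    · have n1 : (1 : ℝ) ≤ nm h := by exact_mod_cast nm_pos.mpr (hP h hh)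
      have h1 : om K h ≤ (K / nm h) ^ 2 := by
        unfold om
        refine (min_le_right _ _).trans (le_of_eq ?_)
        rw [← Real.rpow_natCast]; norm_num
      calc om K h * M ≤ (K / nm h) ^ 2 * M := by gcongr
        _ = K ^ 2 * M * ((nm h : ℝ) ^ 2)⁻¹ := by rw [div_pow]; ring
        _ ≤ K ^ 2 * M * (4 * ((1 + (nm h : ℝ) * 1) ^ 2)⁻¹) := by
            gcongr
            rw [inv_le_iff_one_le_mul₀ (by positivity), ← div_eq_mul_inv, div_mul_eq_mul_div,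
              one_le_div (by positivity)]
            nlinarith
        _ = _ := by ring
    · have : 0 ≤ ((1 + (nm h : ℝ) * 1) ^ 2)⁻¹ := by positivity
      positivity

open Classical in
/-- exchange of the sum over `h` and the integral -/
lemma tsum_integral_le {A B : ℝ} (hA : 0 < A) (hB : 0 < B) {𝓑 : Finset Eis}
    (hsq : ∀ b ∈ 𝓑, SqP b) (β : Eis → ℂ) {e f : Eis} (he : IsPrim e) (hf : IsPrim f) (g : Eis) :
    ∑' h : Eis, (if isNonCubeE e f h then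
          wK 2 A B e f h * ∫ u : ℝ, (1 + u ^ 2)⁻¹ * ‖Qf 𝓑 β e f g h u‖ ^ 2 else 0) ≤
      ∫ u : ℝ, (1 + u ^ 2)⁻¹ * ∑' h : Eis, if isNonCubeE e f h then
        om (nm f * B ^ 2 / ((nm e : ℝ) ^ 2 * A)) h * ‖Qf 𝓑 β e f g h u‖ ^ 2 else 0 := by
  have ne : (0 : ℝ) < nm e := by exact_mod_cast nm_pos.mpr he.ne_zero
  have nf : (0 : ℝ) < nm f := by exact_mod_cast nm_pos.mpr hf.ne_zero
  set K := nm f * B ^ 2 / ((nm e : ℝ) ^ 2 * A) with hK
  have hK0 : 0 < K := by positivity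
  set M := Real.pi * (∑ n ∈ 𝓑.biUnion dvs, ‖β (e * g * n)‖) ^ 2 with hM
  have hM0 : 0 ≤ M := by
    have := Real.pi_pos
    positivity
  set F : Eis → ℝ → ℝ := fun h u => if isNonCubeE e f h then
    om K h * ((1 + u ^ 2)⁻¹ * ‖Qf 𝓑 β e f g h u‖ ^ 2) else 0 with hF
  have hFint : ∀ h, Integrable (F h) := by
    intro h
    rw [hF]
    by_cases hh : isNonCubeE e f h
    · simp only [if_pos hh]
      exact (integrable_Qf hsq β e f g h).const_mul _
    · simp only [if_neg hh]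
      exact integrable_zero _ _ _
  have hFnn : ∀ h u, 0 ≤ F h u := by
    intro h u
    rw [hF]
    beta_reduce
    split_ifs
    · exact mul_nonneg (om_nonneg hK0 h) (by positivity)
    · exact le_rfl
  have hI : ∀ h, ∫ u, F h u = if isNonCubeE e f h then
      om K h * ∫ u : ℝ, (1 + u ^ 2)⁻¹ * ‖Qf 𝓑 β e f g h u‖ ^ 2 else 0 := by
    intro h
    rw [hF]
    by_cases hh : isNonCubeE e f h
    · simp only [if_pos hh]
      exact integral_const_mul _ _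
    · simp only [if_neg hh, integral_zero]
  have hsumI : Summable (fun h => if isNonCubeE e f h then
      om K h * ∫ u : ℝ, (1 + u ^ 2)⁻¹ * ‖Qf 𝓑 β e f g h u‖ ^ 2 else 0) := by
    refine Summable.of_nonneg_of_le (fun h => ?_) (fun h => ?_)
      (summable_om hK0 (isNonCubeE e f) (fun h hh => hh.1) M hM0)
    · split_ifs
      · exact mul_nonneg (om_nonneg hK0 h) (integral_Qf_nonneg 𝓑 β e f g h)
      · exact le_rfl
    · split_ifs
      · exact mul_le_mul_of_nonneg_left (integral_Qf_le hsq β e f g h) (om_nonneg hK0 h)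
      · exact le_rfl
  have hFsum : Summable fun h => ∫ u, ‖F h u‖ := by
    refine hsumI.congr fun h => ?_
    rw [← hI h]
    refine integral_congr_ae (Filter.Eventually.of_forall fun u => ?_)
    exact (Real.norm_of_nonneg (hFnn h u)).symm
  have key := integral_tsum_of_summable_integral_norm hFint hFsum
  have e2 : ∀ u : ℝ, (1 + u ^ 2)⁻¹ * ∑' h : Eis, (if isNonCubeE e f h then
        om K h * ‖Qf 𝓑 β e f g h u‖ ^ 2 else 0) = ∑' h : Eis, F h u := by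
    intro u
    rw [← tsum_mul_left]
    refine tsum_congr fun h => ?_
    rw [hF]
    beta_reduce
    split_ifs
    · ring
    · rw [mul_zero]
  simp_rw [e2]
  rw [← key]
  refine Summable.tsum_le_tsum (fun h => ?_)
    (summable_wK_Q hA hB le_rfl hsq β he hf g (isNonCubeE e f)) (by
      refine hsumI.congr fun h => ?_
      rw [hI h])
  rw [hI h]
  split_ifs with hh
  · exact mul_le_mul_of_nonneg_right (wK_two_le_om hA hB he hf hh.1)
      (integral_Qf_nonneg 𝓑 β e f g h)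
  · exact le_rfl

open Classical in
/-- **T1d.** -/
theorem t1d : T411.T1d := by
  obtain ⟨C, hC, hsep⟩ := sep_main 2 le_rfl
  refine ⟨C + 200, by positivity, fun A B 𝓑 β hA1 hB1 hcls => ?_⟩
  have hA : 0 < A := by linarith
  have hB : 0 < B := by linarith
  have hsq := hcls.sq
  set X : Eis → Eis → ℂ := fun b1 b2 => β b1 * (starRingEnd ℂ) (β b2) * NP A b1 b2 with hX
  -- remove the diagonal
  have e1 : ∑ b₁ ∈ 𝓑, ∑ b₂ ∈ 𝓑.erase b₁, β b₁ * (starRingEnd ℂ) (β b₂) * NP A b₁ b₂ =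
      ∑ b1 ∈ 𝓑, ∑ b2 ∈ 𝓑, X b1 b2 - ∑ b ∈ 𝓑, X b b := by
    rw [← Finset.sum_sub_distrib]
    refine Finset.sum_congr rfl fun b1 hb1 => ?_
    rw [← Finset.sum_erase_eq_sub hb1]
  have e2 : ∑ b1 ∈ 𝓑, ∑ b2 ∈ 𝓑, X b1 b2 =
      ∑ e ∈ 𝓑.biUnion dvs, ∑ k1 ∈ 𝓑.biUnion dvs, ∑ k2 ∈ 𝓑.biUnion dvs,
      (if e * k1 ∈ 𝓑 ∧ e * k2 ∈ 𝓑 ∧ IsCoprime k1 k2 then
        β (e * k1) * (starRingEnd ℂ) (β (e * k2)) * dualP A e k1 k2 (isNonCubeE e) else 0) := by
    rw [sum_pairs_gcd hsq (fun d hd => mem_D hsq hd) (D_closed hsq)]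
    refine Finset.sum_congr rfl fun e he => Finset.sum_congr rfl fun k1 hk1 =>
      Finset.sum_congr rfl fun k2 hk2 => ?_
    by_cases hc : e * k1 ∈ 𝓑 ∧ e * k2 ∈ 𝓑 ∧ IsCoprime k1 k2
    · rw [if_pos hc, if_pos hc, hX]
      beta_reduce
      unfold NP
      obtain ⟨a1, a2, a3⟩ := gE_kE_mul (mem_D hsq he) (mem_D hsq hk1) (mem_D hsq hk2)
        (hsq _ hc.1).2 (hsq _ hc.2.1).2 hc.2.2
      rw [a1, a2, a3]
    · rw [if_neg hc, if_neg hc]
  rw [e1]
  refine (norm_sub_le _ _).trans ?_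
  have h1 : ‖∑ b ∈ 𝓑, X b b‖ ≤ 200 * ∑ b ∈ 𝓑, ‖β b‖ ^ 2 * (tau b : ℝ) ^ 2 := by
    rw [Finset.mul_sum]
    refine (norm_sum_le _ _).trans (Finset.sum_le_sum fun b hb => ?_)
    rw [hX]
    beta_reduce
    rw [norm_mul, norm_mul, RCLike.norm_conj]
    have h2 := norm_NP_self_le hA (hsq b hb)
    have h3 : (1 : ℝ) ≤ tau b := by exact_mod_cast one_le_tau (hsq b hb).1.ne_zero
    calc ‖β b‖ * ‖β b‖ * ‖NP A b b‖ ≤ ‖β b‖ * ‖β b‖ * (200 * tau b) := by gcongr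
      _ = ‖β b‖ ^ 2 * (200 * (tau b * 1)) := by ring
      _ ≤ ‖β b‖ ^ 2 * (200 * (tau b * tau b)) := by gcongr
      _ = _ := by ring
  have h2 := hsep A B 𝓑 β hA hB hsq hcls.lo hcls.hi isNonCubeE
  rw [← e2] at h2
  have h3 : ∑ e ∈ 𝓑.biUnion dvs, ∑ f ∈ dvs e, ∑ g ∈ (𝓑.biUnion dvs).filter (IsCoprime · e),
        A * nm e / (B * nm f) * ∑' h : Eis, (if isNonCubeE e f h then
          wK 2 A B e f h * ∫ u : ℝ, (1 + u ^ 2)⁻¹ * ‖Qf 𝓑 β e f g h u‖ ^ 2 else 0) ≤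
      ∑ e ∈ 𝓑.biUnion dvs, ∑ f ∈ dvs e, ∑ g ∈ (𝓑.biUnion dvs).filter (IsCoprime · e),
        A * nm e / (B * nm f) * ∫ u : ℝ, (1 + u ^ 2)⁻¹ * ∑' h : Eis, (if isNonCubeE e f h then
        om (nm f * B ^ 2 / ((nm e : ℝ) ^ 2 * A)) h * ‖Qf 𝓑 β e f g h u‖ ^ 2 else 0) := by
    refine Finset.sum_le_sum fun e he => Finset.sum_le_sum fun f hf =>
      Finset.sum_le_sum fun g _ => ?_
    refine mul_le_mul_of_nonneg_left ?_ (by positivity)
    exact tsum_integral_le hA hB hsq β (mem_D hsq he) (isPrim_of_mem_dvs hf) g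
  have h4 : 0 ≤ ∑ e ∈ 𝓑.biUnion dvs, ∑ f ∈ dvs e,
      ∑ g ∈ (𝓑.biUnion dvs).filter (IsCoprime · e),
        A * nm e / (B * nm f) * ∫ u : ℝ, (1 + u ^ 2)⁻¹ * ∑' h : Eis, (if isNonCubeE e f h then
        om (nm f * B ^ 2 / ((nm e : ℝ) ^ 2 * A)) h * ‖Qf 𝓑 β e f g h u‖ ^ 2 else 0) := by
    refine Finset.sum_nonneg fun e he => Finset.sum_nonneg fun f hf =>
      Finset.sum_nonneg fun g _ => mul_nonneg (by positivity) (integral_nonneg fun u => ?_)
    have ne : (0 : ℝ) < nm e := by exact_mod_cast nm_pos.mpr (mem_D hsq he).ne_zero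
    have nf : (0 : ℝ) < nm f := by exact_mod_cast nm_pos.mpr (isPrim_of_mem_dvs hf).ne_zero
    refine mul_nonneg (by positivity) (tsum_nonneg fun h => ?_)
    split_ifs
    · exact mul_nonneg (om_nonneg (by positivity) h) (by positivity)
    · exact le_rfl
  have h5 : 0 ≤ ∑ b ∈ 𝓑, ‖β b‖ ^ 2 * (tau b : ℝ) ^ 2 := by positivity
  have h6 := h2.trans (mul_le_mul_of_nonneg_left h3 hC.le)
  have h7 : ‖∑ b1 ∈ 𝓑, ∑ b2 ∈ 𝓑, X b1 b2‖ + ‖∑ b ∈ 𝓑, X b b‖ ≤
      (C + 200) * ∑ b ∈ 𝓑, ‖β b‖ ^ 2 * (tau b : ℝ) ^ 2 +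
      (C + 200) * ∑ e ∈ 𝓑.biUnion dvs, ∑ f ∈ dvs e,
      ∑ g ∈ (𝓑.biUnion dvs).filter (IsCoprime · e),
        A * nm e / (B * nm f) * ∫ u : ℝ, (1 + u ^ 2)⁻¹ * ∑' h : Eis, (if isNonCubeE e f h then
        om (nm f * B ^ 2 / ((nm e : ℝ) ^ 2 * A)) h * ‖Qf 𝓑 β e f g h u‖ ^ 2 else 0) := by
    nlinarith [mul_nonneg hC.le h5]
  exact h7

end Crest.Agent.R012.T1d671
end
end

-- ▼ part R012/PairSum_286

/-!
# Row 12 (helper286): pair sums for (T13)

`pair_sum k` : `∑_{b₁,b₂ ∈ 𝓑} τ(b₁b₂)^k N(gE b₁ b₂) ≤ C B² (1 + log B)^c`.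
-/

set_option autoImplicit false

noncomputable section

namespace Crest.Agent.R012.PairSum286

open Crest.Agent.R012 Crest.Agent.R012.Eis Crest.Agent.R012.Div277 Crest.Agent.R012.T411
open Finset

lemma gE_dvd_left {b₁ b₂ : Eis} (h1 : SqP b₁) : gE b₁ b₂ ∣ b₁ :=
  ⟨kE b₁ b₂, (T1x671.gE_mul_kE b₂ h1).symm⟩

lemma gE_dvd_right {b₁ b₂ : Eis} (h2 : SqP b₂) : gE b₁ b₂ ∣ b₂ :=
  ⟨kE b₂ b₁, (T1x671.gE_mul_kE' b₁ h2).symm⟩

open Classical in
/-- `∑_{b ∈ primBall X, e ∣ b} τ(b)^k ≤ τ(e)^k (X / N e) (100 (1 + log X))^(2^k)` -/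
lemma sum_tau_dvd_le (k X : ℕ) {e : Eis} (he : IsPrim e) :
    ∑ b ∈ (primBall X).filter (fun b => e ∣ b), (tau b : ℝ) ^ k ≤
      (tau e : ℝ) ^ k * ((X : ℝ) / nm e) * (100 * (1 + Real.log X)) ^ (2 ^ k) := by
  have hep : (0 : ℝ) < nm e := by exact_mod_cast nm_pos.mpr he.ne_zero
  rw [primBall_filter_dvd X he, Finset.sum_map]
  have h1 : ∑ m ∈ primBall (X / nm e), (tau (mulEmb e he.ne_zero m) : ℝ) ^ k ≤
      (tau e : ℝ) ^ k * ∑ m ∈ nz (X / nm e), (tau m : ℝ) ^ k := by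
    rw [Finset.mul_sum]
    refine le_trans (Finset.sum_le_sum (g := fun m => (tau e : ℝ) ^ k * (tau m : ℝ) ^ k)
      (fun m _ => ?_)) (Finset.sum_le_sum_of_subset_of_nonneg (primBall_subset_nz _)
        (fun _ _ _ => by positivity))
    rw [← mul_pow, mulEmb_apply]
    gcongr
    exact_mod_cast tau_mul_le e m
  refine h1.trans ?_
  have h2 := sum_tau_pow_le k (X / nm e)
  rw [mul_assoc]
  refine mul_le_mul_of_nonneg_left (h2.trans ?_) (by positivity)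
  have h3 : ((X / nm e : ℕ) : ℝ) ≤ (X : ℝ) / nm e := Nat.cast_div_le
  have h4 : (0 : ℝ) ≤ 100 * (1 + Real.log ((X / nm e : ℕ) : ℝ)) :=
    mul_nonneg (by norm_num) (one_add_log_nonneg _)
  rcases Nat.eq_zero_or_pos (X / nm e) with h0 | h0
  · rw [h0]
    have : (0 : ℝ) ≤ 100 * (1 + Real.log X) := mul_nonneg (by norm_num) (one_add_log_nonneg _)
    simp only [Nat.cast_zero, zero_mul]
    positivity
  · have h5 : Real.log ((X / nm e : ℕ) : ℝ) ≤ Real.log X :=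
      Real.log_le_log (by exact_mod_cast h0) (by exact_mod_cast Nat.div_le_self _ _)
    gcongr

/-- the pair sum, explicit -/
theorem pair_sum_nat (k X : ℕ) (𝓑 : Finset Eis) (hsq : ∀ b ∈ 𝓑, SqP b)
    (hX : ∀ b ∈ 𝓑, nm b ≤ X) :
    ∑ b₁ ∈ 𝓑, ∑ b₂ ∈ 𝓑, ((tau b₁ : ℝ) * tau b₂) ^ k * nm (gE b₁ b₂) ≤
      (X : ℝ) ^ 2 * (100 * (1 + Real.log X)) ^ (2 * 2 ^ k + 2 ^ (2 * k)) := by
  classical
  set L : ℝ := 100 * (1 + Real.log X) with hL
  have hL0 : 0 ≤ L := mul_nonneg (by norm_num) (one_add_log_nonneg _)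
  have key : ∀ b₁ ∈ 𝓑, ∀ b₂ ∈ 𝓑, ((tau b₁ : ℝ) * tau b₂) ^ k * nm (gE b₁ b₂) ≤
      ∑ e ∈ primBall X, if e ∣ b₁ ∧ e ∣ b₂ then (nm e : ℝ) * ((tau b₁ : ℝ) ^ k * (tau b₂ : ℝ) ^ k)
        else 0 := by
    intro b₁ h1 b₂ h2
    have hd1 := gE_dvd_left (b₂ := b₂) (hsq b₁ h1)
    have hd2 := gE_dvd_right (b₁ := b₁) (hsq b₂ h2)
    have hmem : gE b₁ b₂ ∈ primBall X := by
      rw [mem_primBall]
      exact ⟨(nm_le_of_dvd (hsq b₁ h1).1.ne_zero hd1).trans (hX b₁ h1), T1x671.isPrim_gE b₁ b₂⟩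
    refine le_trans (le_of_eq ?_) (Finset.single_le_sum (f := fun e => if e ∣ b₁ ∧ e ∣ b₂ then
      (nm e : ℝ) * ((tau b₁ : ℝ) ^ k * (tau b₂ : ℝ) ^ k) else 0) (fun e _ => ?_) hmem)
    · simp only [hd1, hd2, and_self, if_true]
      rw [mul_pow]; ring
    · split_ifs <;> positivity
  calc ∑ b₁ ∈ 𝓑, ∑ b₂ ∈ 𝓑, ((tau b₁ : ℝ) * tau b₂) ^ k * nm (gE b₁ b₂)
      ≤ ∑ b₁ ∈ 𝓑, ∑ b₂ ∈ 𝓑, ∑ e ∈ primBall X, (if e ∣ b₁ ∧ e ∣ b₂ then
          (nm e : ℝ) * ((tau b₁ : ℝ) ^ k * (tau b₂ : ℝ) ^ k) else 0) :=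
        Finset.sum_le_sum fun b₁ h1 => Finset.sum_le_sum fun b₂ h2 => key b₁ h1 b₂ h2
    _ = ∑ e ∈ primBall X, (nm e : ℝ) *
          (∑ b ∈ 𝓑.filter (fun b => e ∣ b), (tau b : ℝ) ^ k) ^ 2 := by
        rw [Finset.sum_comm' (s' := fun b₂ => 𝓑) (t' := 𝓑) (by tauto)]
        have e1 : ∀ b₂ ∈ 𝓑, ∑ b₁ ∈ 𝓑, ∑ e ∈ primBall X, (if e ∣ b₁ ∧ e ∣ b₂ then
          (nm e : ℝ) * ((tau b₁ : ℝ) ^ k * (tau b₂ : ℝ) ^ k) else 0) =
            ∑ e ∈ primBall X, ∑ b₁ ∈ 𝓑, (if e ∣ b₁ ∧ e ∣ b₂ then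
          (nm e : ℝ) * ((tau b₁ : ℝ) ^ k * (tau b₂ : ℝ) ^ k) else 0) :=
          fun b₂ _ => Finset.sum_comm
        rw [Finset.sum_congr rfl e1, Finset.sum_comm]
        refine Finset.sum_congr rfl fun e _ => ?_
        rw [sq, Finset.sum_mul_sum, Finset.mul_sum, Finset.sum_filter]
        rw [Finset.sum_comm]
        refine Finset.sum_congr rfl fun b₁ _ => ?_
        by_cases hd : e ∣ b₁
        · simp only [hd, true_and, if_true]
          rw [Finset.mul_sum, Finset.sum_filter]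
        · simp [hd]
    _ ≤ ∑ e ∈ primBall X, (nm e : ℝ) *
          ((tau e : ℝ) ^ k * ((X : ℝ) / nm e) * L ^ (2 ^ k)) ^ 2 := by
        refine Finset.sum_le_sum fun e he => ?_
        have he' := mem_primBall.mp he
        refine mul_le_mul_of_nonneg_left ?_ (by positivity)
        refine pow_le_pow_left₀ (Finset.sum_nonneg fun _ _ => by positivity) ?_ 2
        refine le_trans ?_ (sum_tau_dvd_le k X he'.2)
        refine Finset.sum_le_sum_of_subset_of_nonneg ?_ (fun _ _ _ => by positivity)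
        intro b hb
        rw [Finset.mem_filter] at hb ⊢
        exact ⟨mem_primBall.mpr ⟨hX b hb.1, (hsq b hb.1).1⟩, hb.2⟩
    _ = (X : ℝ) ^ 2 * L ^ (2 * 2 ^ k) * ∑ e ∈ primBall X, ((tau e : ℝ) ^ (2 * k) / nm e) := by
        rw [Finset.mul_sum]
        refine Finset.sum_congr rfl fun e he => ?_
        have hep : (nm e : ℝ) ≠ 0 := by
          exact_mod_cast (nm_pos.mpr (mem_primBall.mp he).2.ne_zero).ne'
        rw [mul_pow, mul_pow, div_pow, ← pow_mul, ← pow_mul]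
        field_simp
        ring
    _ ≤ (X : ℝ) ^ 2 * L ^ (2 * 2 ^ k) * L ^ (2 ^ (2 * k)) := by
        refine mul_le_mul_of_nonneg_left ?_ (by positivity)
        refine le_trans (Finset.sum_le_sum_of_subset_of_nonneg (primBall_subset_nz X)
          (fun _ _ _ => by positivity)) (sum_tau_pow_div_le (2 * k) X)
    _ = (X : ℝ) ^ 2 * L ^ (2 * 2 ^ k + 2 ^ (2 * k)) := by rw [mul_assoc, ← pow_add]

/-- logarithm bookkeeping: `100 (1 + log ⌊2B⌋) ≤ 200 (1 + log B)` -/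
lemma log_floor_le {B : ℝ} (hB : 1 ≤ B) :
    100 * (1 + Real.log (⌊2 * B⌋₊ : ℝ)) ≤ 200 * (1 + Real.log B) := by
  have h1 : (1 : ℝ) ≤ (⌊2 * B⌋₊ : ℝ) := by
    have : 1 ≤ ⌊2 * B⌋₊ := Nat.le_floor (by push_cast; linarith)
    exact_mod_cast this
  have h2 : Real.log (⌊2 * B⌋₊ : ℝ) ≤ Real.log (2 * B) :=
    Real.log_le_log (by linarith) (Nat.floor_le (by linarith))
  rw [Real.log_mul (by norm_num) (by linarith)] at h2
  have h3 := Real.log_two_lt_d9
  have h4 : 0 ≤ Real.log B := Real.log_nonneg hB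
  linarith

/-- the pair sum with gcd, `τ(b₁)τ(b₂)` -/
theorem pair_sum' (k : ℕ) : ∃ (C : ℝ) (c : ℕ), 0 < C ∧ ∀ (B : ℝ) (𝓑 : Finset Eis), 1 ≤ B →
    (∀ b ∈ 𝓑, SqP b) → (∀ b ∈ 𝓑, (nm b : ℝ) ≤ 2 * B) →
    ∑ b₁ ∈ 𝓑, ∑ b₂ ∈ 𝓑, ((tau b₁ : ℝ) * tau b₂) ^ k * nm (gE b₁ b₂) ≤
      C * B ^ 2 * (1 + Real.log B) ^ c := by
  refine ⟨4 * 200 ^ (2 * 2 ^ k + 2 ^ (2 * k)), 2 * 2 ^ k + 2 ^ (2 * k), by positivity, ?_⟩
  intro B 𝓑 hB hsq hhi
  have h := pair_sum_nat k ⌊2 * B⌋₊ 𝓑 hsq (fun b hb => Nat.le_floor (hhi b hb))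
  refine h.trans ?_
  have h1 := log_floor_le hB
  have h2 : (⌊2 * B⌋₊ : ℝ) ≤ 2 * B := Nat.floor_le (by linarith)
  have h3 : (0 : ℝ) ≤ 100 * (1 + Real.log (⌊2 * B⌋₊ : ℝ)) :=
    mul_nonneg (by norm_num) (one_add_log_nonneg _)
  calc (⌊2 * B⌋₊ : ℝ) ^ 2 * (100 * (1 + Real.log (⌊2 * B⌋₊ : ℝ))) ^ (2 * 2 ^ k + 2 ^ (2 * k))
      ≤ (2 * B) ^ 2 * (200 * (1 + Real.log B)) ^ (2 * 2 ^ k + 2 ^ (2 * k)) := by gcongr
    _ = _ := by rw [mul_pow, mul_pow]; ring

/-- the pair sum with gcd, `τ(b₁)^k τ(b₂)^k` (form used by `T13_541`) -/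
theorem pair_sum_mul (k : ℕ) : ∃ (C : ℝ) (c : ℕ), 0 ≤ C ∧ ∀ (B : ℝ) (𝓑 : Finset Eis), 1 ≤ B →
    (∀ b ∈ 𝓑, SqP b) → (∀ b ∈ 𝓑, (nm b : ℝ) ≤ 2 * B) →
    ∑ b₁ ∈ 𝓑, ∑ b₂ ∈ 𝓑, (tau b₁ : ℝ) ^ k * (tau b₂ : ℝ) ^ k * nm (gE b₁ b₂) ≤
      C * B ^ 2 * (1 + Real.log B) ^ c := by
  obtain ⟨C, c, hC, h⟩ := pair_sum' k
  refine ⟨C, c, hC.le, fun B 𝓑 hB hsq hhi => le_trans (le_of_eq ?_) (h B 𝓑 hB hsq hhi)⟩
  refine Finset.sum_congr rfl fun b₁ _ => Finset.sum_congr rfl fun b₂ _ => ?_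
  rw [mul_pow]





end Crest.Agent.R012.PairSum286
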