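import Mathlib
import Crest.Agent.R012.BuchE_420

-- ▼ part R012/Sep_812
section

/-!
# Row 12: exact separation of a condition `u a < v b` (no analysis)

`sep_bound`: if `|∑∑ φ(u a) ψ(v b) F a b| ≤ E` for all `φ ψ` bounded by `1`, where `u, v` take values
in a finite subset `U` of a linear order with at most `2^S` elements, then
`|∑∑_{u a < v b} F a b| ≤ S * E`.
-/

set_option autoImplicit false

noncomputable section

namespace Crest.Agent.R012.Sep812

open Finset

/-- Decomposition of the order relation on `{0, ..., 2^S-1}`. -/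
def SepN (S : ℕ) : Prop :=
  ∃ (κ : Type) (_ : Fintype κ) (c : κ → ℝ) (φ ψ : κ → ℕ → ℂ),
    (∀ i, 0 ≤ c i) ∧ (∑ i, c i ≤ S) ∧ (∀ i j, ‖φ i j‖ ≤ 1) ∧ (∀ i j, ‖ψ i j‖ ≤ 1) ∧
    ∀ j k, j < 2 ^ S → k < 2 ^ S →
      (if j < k then (1 : ℂ) else 0) = ∑ i, (c i : ℂ) * (φ i j * ψ i k)

lemma sepN (S : ℕ) : SepN S := by
  induction S with
  | zero =>
    refine ⟨Empty, inferInstance, fun _ => 0, fun _ _ => 0, fun _ _ => 0, by simp, by simp,
      by simp, by simp, ?_⟩
    intro j k hj hk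
    have h1 : j = 0 := by simpa using hj
    have h2 : k = 0 := by simpa using hk
    simp [h1, h2]
  | succ S ih =>
    obtain ⟨κ, hκ, c, φ, ψ, hc, hcs, hφ, hψ, h⟩ := ih
    have : NeZero (2 ^ S) := ⟨by positivity⟩
    refine ⟨κ ⊕ AddChar (ZMod (2 ^ S)) ℂ, inferInstance,
      Sum.elim c (fun _ => 1 / (2 : ℝ) ^ S),
      Sum.elim (fun i j => φ i (j / 2))
        (fun χ j => if j % 2 = 0 then χ ((j / 2 : ℕ) : ZMod (2 ^ S)) else 0),
      Sum.elim (fun i j => ψ i (j / 2))
        (fun χ j => if j % 2 = 1 then χ (-((j / 2 : ℕ) : ZMod (2 ^ S))) else 0), ?_, ?_, ?_, ?_, ?_⟩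
    · rintro (i | χ)
      · exact hc i
      · simp
    · rw [Fintype.sum_sum_type]
      simp only [Sum.elim_inl, Sum.elim_inr, Finset.sum_const, Finset.card_univ, nsmul_eq_mul]
      rw [AddChar.card_eq, ZMod.card]
      push_cast
      have : (2 : ℝ) ^ S * (1 / 2 ^ S) = 1 := by field_simp
      rw [this]
      linarith
    · rintro (i | χ) j
      · exact hφ i _
      · simp only [Sum.elim_inr]
        split_ifs
        · rw [AddChar.norm_apply]
        · simp
    · rintro (i | χ) j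
      · exact hψ i _
      · simp only [Sum.elim_inr]
        split_ifs
        · rw [AddChar.norm_apply]
        · simp
    · intro j k hj hk
      rw [Fintype.sum_sum_type]
      simp only [Sum.elim_inl, Sum.elim_inr]
      have hj2 : j / 2 < 2 ^ S := by rw [pow_succ] at hj; omega
      have hk2 : k / 2 < 2 ^ S := by rw [pow_succ] at hk; omega
      rw [← h _ _ hj2 hk2]
      have key : (∑ χ : AddChar (ZMod (2 ^ S)) ℂ, (((1 / (2 : ℝ) ^ S : ℝ)) : ℂ) *
          ((if j % 2 = 0 then χ ((j / 2 : ℕ) : ZMod (2 ^ S)) else 0) *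
          (if k % 2 = 1 then χ (-((k / 2 : ℕ) : ZMod (2 ^ S))) else 0))) =
          if j % 2 = 0 ∧ k % 2 = 1 ∧ j / 2 = k / 2 then 1 else 0 := by
        by_cases h1 : j % 2 = 0
        · by_cases h2 : k % 2 = 1
          · simp only [h1, h2, if_true, true_and]
            have : ∀ χ : AddChar (ZMod (2 ^ S)) ℂ, (((1 / (2 : ℝ) ^ S : ℝ)) : ℂ) *
                (χ ((j / 2 : ℕ) : ZMod (2 ^ S)) * χ (-((k / 2 : ℕ) : ZMod (2 ^ S)))) =
                (((1 / (2 : ℝ) ^ S : ℝ)) : ℂ) *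
                  χ (((j / 2 : ℕ) : ZMod (2 ^ S)) - ((k / 2 : ℕ) : ZMod (2 ^ S))) := by
              intro χ
              rw [sub_eq_add_neg, AddChar.map_add_eq_mul]
            rw [Finset.sum_congr rfl fun χ _ => this χ, ← Finset.mul_sum,
              AddChar.sum_apply_eq_ite, ZMod.card]
            by_cases h3 : j / 2 = k / 2
            · rw [h3, sub_self, if_pos rfl, if_pos rfl]
              push_cast
              field_simp
            · have h4 : ((j / 2 : ℕ) : ZMod (2 ^ S)) - ((k / 2 : ℕ) : ZMod (2 ^ S)) ≠ 0 := by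
                intro h5
                rw [sub_eq_zero, ZMod.natCast_eq_natCast_iff'] at h5
                rw [Nat.mod_eq_of_lt hj2, Nat.mod_eq_of_lt hk2] at h5
                exact h3 h5
              rw [if_neg h4, if_neg h3, mul_zero]
          · simp [h2]
        · simp [h1]
      rw [key]
      have h5 : j < k ↔ (j / 2 < k / 2) ∨ (j % 2 = 0 ∧ k % 2 = 1 ∧ j / 2 = k / 2) := by omega
      by_cases h6 : j / 2 < k / 2
      · have h7 : ¬ (j % 2 = 0 ∧ k % 2 = 1 ∧ j / 2 = k / 2) := by omega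
        rw [if_pos h6, if_neg h7, if_pos (h5.mpr (Or.inl h6)), add_zero]
      · by_cases h7 : (j % 2 = 0 ∧ k % 2 = 1 ∧ j / 2 = k / 2)
        · rw [if_neg h6, if_pos h7, if_pos (h5.mpr (Or.inr h7)), zero_add]
        · rw [if_neg h6, if_neg h7, if_neg (fun hh => (h5.mp hh).elim h6 h7), add_zero]

/-- Separation of the condition `u a < v b`. -/
theorem sep_bound {ι A B : Type*} [LinearOrder ι] (U : Finset ι) (S : ℕ) (hU : U.card ≤ 2 ^ S)
    (sA : Finset A) (sB : Finset B) (u : A → ι) (v : B → ι) (hu : ∀ a ∈ sA, u a ∈ U)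
    (hv : ∀ b ∈ sB, v b ∈ U) (F : A → B → ℂ) (E : ℝ)
    (h : ∀ φ ψ : ι → ℂ, (∀ x, ‖φ x‖ ≤ 1) → (∀ x, ‖ψ x‖ ≤ 1) →
      ‖∑ a ∈ sA, ∑ b ∈ sB, φ (u a) * ψ (v b) * F a b‖ ≤ E) :
    ‖∑ a ∈ sA, ∑ b ∈ sB, (if u a < v b then F a b else 0)‖ ≤ S * E := by
  obtain ⟨κ, hκ, c, φ, ψ, hc, hcs, hφ, hψ, hh⟩ := sepN S
  -- rank
  let rk : ι → ℕ := fun x => (U.filter (fun y => y < x)).card
  have hrk_lt : ∀ x ∈ U, rk x < 2 ^ S := by
    intro x hx
    refine lt_of_lt_of_le (Finset.card_lt_card ?_) hU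
    rw [Finset.ssubset_iff_of_subset (Finset.filter_subset _ _)]
    exact ⟨x, hx, by simp⟩
  have hrk : ∀ x ∈ U, ∀ y ∈ U, (x < y ↔ rk x < rk y) := by
    intro x hx y hy
    constructor
    · intro hxy
      refine Finset.card_lt_card ?_
      rw [Finset.ssubset_iff_of_subset]
      · exact ⟨x, by simp [hx, hxy], by simp⟩
      · intro z hz
        rw [Finset.mem_filter] at hz ⊢
        exact ⟨hz.1, hz.2.trans hxy⟩
    · intro hxy
      by_contra hc
      push Not at hc
      refine absurd hxy (not_lt.mpr (Finset.card_le_card ?_))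
      intro z hz
      rw [Finset.mem_filter] at hz ⊢
      exact ⟨hz.1, hz.2.trans_le hc⟩
  have e1 : ∑ a ∈ sA, ∑ b ∈ sB, (if u a < v b then F a b else 0) =
      ∑ i, (c i : ℂ) * ∑ a ∈ sA, ∑ b ∈ sB, φ i (rk (u a)) * ψ i (rk (v b)) * F a b := by
    simp only [Finset.mul_sum]
    rw [Finset.sum_comm' (s := Finset.univ) (t := fun _ => sA) (s' := fun _ => Finset.univ)
      (t' := sA) (by simp)]
    refine Finset.sum_congr rfl fun a ha => ?_
    rw [Finset.sum_comm]
    refine Finset.sum_congr rfl fun b hb => ?_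
    have h1 := hh (rk (u a)) (rk (v b)) (hrk_lt _ (hu a ha)) (hrk_lt _ (hv b hb))
    have h2 := hrk _ (hu a ha) _ (hv b hb)
    have h3 : (if u a < v b then F a b else 0) =
        (if rk (u a) < rk (v b) then (1 : ℂ) else 0) * F a b := by
      by_cases hlt : u a < v b
      · rw [if_pos hlt, if_pos (h2.mp hlt), one_mul]
      · rw [if_neg hlt, if_neg (fun hx => hlt (h2.mpr hx)), zero_mul]
    rw [h3, h1, Finset.sum_mul]
    refine Finset.sum_congr rfl fun i _ => by ring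
  rw [e1]
  have hE : 0 ≤ E := by
    have := h (fun _ => 0) (fun _ => 0) (by simp) (by simp)
    exact le_trans (norm_nonneg _) this
  calc ‖∑ i, (c i : ℂ) * ∑ a ∈ sA, ∑ b ∈ sB, φ i (rk (u a)) * ψ i (rk (v b)) * F a b‖
      ≤ ∑ i, ‖(c i : ℂ) * ∑ a ∈ sA, ∑ b ∈ sB, φ i (rk (u a)) * ψ i (rk (v b)) * F a b‖ :=
        norm_sum_le _ _
    _ ≤ ∑ i, c i * E := by
        refine Finset.sum_le_sum fun i _ => ?_
        rw [norm_mul, Complex.norm_real, Real.norm_of_nonneg (hc i)]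
        refine mul_le_mul_of_nonneg_left ?_ (hc i)
        exact h (fun x => φ i (rk x)) (fun x => ψ i (rk x)) (fun x => hφ i _) (fun x => hψ i _)
    _ = (∑ i, c i) * E := by rw [Finset.sum_mul]
    _ ≤ S * E := mul_le_mul_of_nonneg_right hcs hE

end Crest.Agent.R012.Sep812
end
end

-- ▼ part R012/SieveA_812
section

/-!
# Row 12: sieve decomposition, part A: exact identity

`sum_{nm p ≥ z} f p = TI + L + R` for `f` supported on squarefree `n` with `X/2 < nm n ≤ X`.
-/

set_option autoImplicit false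

noncomputable section

namespace Crest.Agent.R012.Sieve812

open Finset Eis Buch420

/-- `f` is supported on squarefree `n` with `X/2 < nm n ≤ X`. -/
structure Supp (X : ℕ) (f : Eis → ℂ) : Prop where
  sq : ∀ n, f n ≠ 0 → Squarefree n
  le : ∀ n, f n ≠ 0 → nm n ≤ X
  lt : ∀ n, f n ≠ 0 → X < 2 * nm n

/-- norm of `prd K` as a real number -/
def nK (K : Finset PrP) : ℝ := nm (prd K)

lemma nK_eq (K : Finset PrP) : nK K = nu PrP.N K := (nu_eq K).symm
@[simp] lemma nK_empty : nK ∅ = 1 := by simp [nK]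
@[simp] lemma nK_singleton (p : PrP) : nK {p} = nm p.1 := by simp [nK]
lemma one_le_nK (K : Finset PrP) : 1 ≤ nK K := by rw [nK_eq]; exact one_le_nu PrP.one_le_N K
lemma nK_pos (K : Finset PrP) : 0 < nK K := by linarith [one_le_nK K]
lemma nK_insert {p : PrP} {K : Finset PrP} (h : p ∉ K) : nK (insert p K) = nm p.1 * nK K := by
  rw [nK_eq, nK_eq, nu_insert _ h]; rfl
lemma nK_union {S T : Finset PrP} (h : Disjoint S T) : nK (S ∪ T) = nK S * nK T := by
  rw [nK_eq, nK_eq, nK_eq, nu_union h]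
lemma nK_mono {S T : Finset PrP} (h : S ⊆ T) : nK S ≤ nK T := by
  rw [nK_eq, nK_eq]; exact nu_mono PrP.one_le_N h

lemma one_le_nm (p : PrP) : (1 : ℝ) ≤ nm p.1 := PrP.one_le_N p

lemma pow_card_le_nK {y : ℝ} (hy : 0 ≤ y) (K : Finset PrP) (h : ∀ p ∈ K, y ≤ (nm p.1 : ℝ)) :
    y ^ K.card ≤ nK K := by
  induction K using Finset.induction_on with
  | empty => simp
  | insert p K hp ih =>
    rw [Finset.card_insert_of_notMem hp, nK_insert hp, pow_succ, mul_comm]
    have h1 := h p (Finset.mem_insert_self p K)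
    have h2 := ih fun q hq => h q (Finset.mem_insert_of_mem hq)
    have h3 : 0 ≤ y ^ K.card := by positivity
    exact mul_le_mul h1 h2 h3 (by linarith [one_le_nm p])

lemma f_mul_prd {X : ℕ} {f : Eis → ℂ} (hf : Supp X f) {K J : Finset PrP} (h : ¬ Disjoint K J) :
    f (prd K * prd J) = 0 := by
  by_contra hc
  have hs := hf.sq _ hc
  rw [Finset.not_disjoint_iff] at h
  obtain ⟨p, hp, hp'⟩ := h
  exact p.prime.not_isUnit (hs _ (mul_dvd_mul (dvd_prd_iff.mpr hp) (dvd_prd_iff.mpr hp')))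

lemma nK_mul_le {X : ℕ} {f : Eis → ℂ} (hf : Supp X f) {K J : Finset PrP}
    (h : f (prd K * prd J) ≠ 0) : nK K * nK J ≤ X := by
  have := hf.le _ h
  rw [nm_mul] at this
  unfold nK
  exact_mod_cast this

lemma lt_nK_mul {X : ℕ} {f : Eis → ℂ} (hf : Supp X f) {K J : Finset PrP}
    (h : f (prd K * prd J) ≠ 0) : (X : ℝ) < 2 * (nK K * nK J) := by
  have := hf.lt _ h
  rw [nm_mul] at this
  unfold nK
  exact_mod_cast this

open Classical in
/-- `∑_{J > min K} f (K J)` -/
def Wt (X : ℕ) (f : Eis → ℂ) (K : Finset PrP) : ℂ :=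
  ∑ J ∈ (UX X).powerset.filter (fun J => ∀ p ∈ J, Ab K p), f (prd K * prd J)

open Classical in
lemma Wt_eq {X : ℕ} {f : Eis → ℂ} (hf : Supp X f) (K : Finset PrP) :
    ∑ J ∈ ((UX X \ K).filter (fun p => Ab K p)).powerset, f (prd (K ∪ J)) = Wt X f K := by
  have h1 : ∀ J ∈ ((UX X \ K).filter (fun p => Ab K p)).powerset,
      f (prd (K ∪ J)) = f (prd K * prd J) := by
    intro J hJ
    rw [Finset.mem_powerset] at hJ
    rw [prd_union]
    rw [Finset.disjoint_left]
    intro x hx hx'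
    exact (Finset.mem_sdiff.mp (Finset.mem_filter.mp (hJ hx')).1).2 hx
  rw [Finset.sum_congr rfl h1]
  refine Finset.sum_subset ?_ ?_
  · intro J hJ
    rw [Finset.mem_powerset] at hJ
    rw [Finset.mem_filter, Finset.mem_powerset]
    exact ⟨fun x hx => (Finset.mem_sdiff.mp (Finset.mem_filter.mp (hJ hx)).1).1,
      fun p hp => (Finset.mem_filter.mp (hJ hp)).2⟩
  · intro J hJ hJ'
    rw [Finset.mem_filter, Finset.mem_powerset] at hJ
    refine f_mul_prd hf fun hd => hJ' ?_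
    rw [Finset.mem_powerset]
    intro x hx
    rw [Finset.mem_filter, Finset.mem_sdiff]
    exact ⟨⟨hJ.1 hx, fun hxK => (Finset.disjoint_left.mp hd) hxK hx⟩, hJ.2 x hx⟩

/-- sum over singletons -/
lemma sum_powerset_card_one {ι : Type*} [DecidableEq ι] (A : Finset ι) (F : Finset ι → ℂ)
    (h : ∀ T ∈ A.powerset, T.card ≠ 1 → F T = 0) :
    ∑ T ∈ A.powerset, F T = ∑ p ∈ A, F {p} := by
  have hinj : Set.InjOn (fun p : ι => ({p} : Finset ι)) A := fun a _ b _ hab =>
    Finset.singleton_injective hab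
  rw [← Finset.sum_image (f := F) hinj]
  symm
  refine Finset.sum_subset ?_ ?_
  · intro T hT
    rw [Finset.mem_image] at hT
    obtain ⟨p, hp, rfl⟩ := hT
    rw [Finset.mem_powerset]
    exact Finset.singleton_subset_iff.mpr hp
  · intro T hT hT'
    refine h T hT fun h1 => hT' ?_
    obtain ⟨p, rfl⟩ := Finset.card_eq_one.mp h1
    rw [Finset.mem_image]
    exact ⟨p, Finset.mem_powerset.mp hT (Finset.mem_singleton_self p), rfl⟩

/-- primes of norm in `[w, z)` -/
def midP (X : ℕ) (w z : ℝ) : Finset PrP :=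
  (UX X).filter (fun p => w ≤ (nm p.1 : ℝ) ∧ (nm p.1 : ℝ) < z)

lemma mem_midP {X : ℕ} {w z : ℝ} {p : PrP} :
    p ∈ midP X w z ↔ nm p.1 ≤ X ∧ w ≤ (nm p.1 : ℝ) ∧ (nm p.1 : ℝ) < z := by
  unfold midP; rw [Finset.mem_filter, mem_UX]

open Classical in
/-- First application of the Buchstab identity. -/
lemma step1 {X : ℕ} {f : Eis → ℂ} (hf : Supp X f) (hX : 2 ≤ X) {w z D : ℝ} (hwz : w ≤ z)
    (hz0 : 0 ≤ z) (hz : (X : ℝ) < z ^ 2) (hD : 1 < D) :
    ∑ p ∈ (UX X).filter (fun p => z ≤ (nm p.1 : ℝ)), f p.1 =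
      ∑ I ∈ (midP X w z).powerset.filter (fun I => nK I < D),
        (-1 : ℂ) ^ I.card *
          ∑ J ∈ ((UX X \ I).filter (fun p => ¬ (nm p.1 : ℝ) < w)).powerset, f (prd (I ∪ J)) +
      ∑ I ∈ (midP X w z).powerset.filter (fun I => Cr PrP.N D I), (-1 : ℂ) ^ I.card * Wt X f I := by
  set U := (UX X).filter (fun p => w ≤ (nm p.1 : ℝ)) with hU
  have hb := buchstab (N := PrP.N) PrP.one_le_N hD U (fun p => (nm p.1 : ℝ) < z)
    (fun p q hpq hq => lt_of_le_of_lt (by exact_mod_cast PrP.nm_le_of_le hpq) hq)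
    (fun T => f (prd T))
  have e1 : U.filter (fun p => ¬ (nm p.1 : ℝ) < z) =
      (UX X).filter (fun p => z ≤ (nm p.1 : ℝ)) := by
    ext p
    simp only [hU, Finset.mem_filter, not_lt]
    constructor
    · rintro ⟨⟨h1, h2⟩, h3⟩; exact ⟨h1, h3⟩
    · rintro ⟨h1, h3⟩; exact ⟨⟨h1, hwz.trans h3⟩, h3⟩
  have e2 : U.filter (fun p => (nm p.1 : ℝ) < z) = midP X w z := by
    ext p
    rw [Finset.mem_filter, Finset.mem_filter, mem_midP, mem_UX]
    exact ⟨fun h => ⟨h.1.1, h.1.2, h.2⟩, fun h => ⟨⟨h.1, h.2.1⟩, h.2.2⟩⟩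
  rw [e1, e2, sum_powerset_card_one] at hb
  · simp only [prd_singleton] at hb
    rw [hb]
    have hA : ∀ I ∈ (midP X w z).powerset, (U \ I) = ((UX X \ I).filter
        (fun p => ¬ (nm p.1 : ℝ) < w)) := by
      intro I hI
      ext p
      rw [Finset.mem_sdiff, Finset.mem_filter, Finset.mem_filter, Finset.mem_sdiff, not_lt]
      exact ⟨fun h => ⟨⟨h.1.1, h.2⟩, h.1.2⟩, fun h => ⟨⟨h.1.1, h.2⟩, h.1.2⟩⟩
    have hB : ∀ I ∈ (midP X w z).powerset, ((U \ I).filter (fun p => Ab I p)) =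
        ((UX X \ I).filter (fun p => Ab I p)) := by
      intro I hI
      rw [Finset.mem_powerset] at hI
      ext p
      simp only [hU, Finset.mem_filter, Finset.mem_sdiff]
      constructor
      · rintro ⟨⟨⟨h1, h2⟩, h3⟩, h4⟩; exact ⟨⟨h1, h3⟩, h4⟩
      · rintro ⟨⟨h1, h3⟩, h4⟩
        refine ⟨⟨⟨h1, ?_⟩, h3⟩, h4⟩
        obtain ⟨q, hq, hqp⟩ := h4
        have h5 := (mem_midP.mp (hI hq)).2.1
        have h6 : (nm q.1 : ℝ) ≤ nm p.1 := by exact_mod_cast PrP.nm_le_of_le hqp.le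
        linarith
    have s1 : ∑ I ∈ (midP X w z).powerset.filter (fun I => nu PrP.N I < D),
        (-1 : ℂ) ^ I.card * ∑ J ∈ (U \ I).powerset, f (prd (I ∪ J)) =
        ∑ I ∈ (midP X w z).powerset.filter (fun I => nK I < D),
        (-1 : ℂ) ^ I.card *
          ∑ J ∈ ((UX X \ I).filter (fun p => ¬ (nm p.1 : ℝ) < w)).powerset, f (prd (I ∪ J)) := by
      have hfil : (midP X w z).powerset.filter (fun I => nu PrP.N I < D) =
          (midP X w z).powerset.filter (fun I => nK I < D) :=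
        Finset.filter_congr fun I _ => by rw [nK_eq]
      rw [hfil]
      refine Finset.sum_congr rfl fun I hI => ?_
      rw [hA I (Finset.mem_filter.mp hI).1]
    have s2 : ∑ I ∈ (midP X w z).powerset.filter (fun I => Cr PrP.N D I),
        (-1 : ℂ) ^ I.card * ∑ J ∈ ((U \ I).filter (fun p => Ab I p)).powerset, f (prd (I ∪ J)) =
        ∑ I ∈ (midP X w z).powerset.filter (fun I => Cr PrP.N D I),
          (-1 : ℂ) ^ I.card * Wt X f I := by
      refine Finset.sum_congr rfl fun I hI => ?_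
      rw [hB I (Finset.mem_filter.mp hI).1, Wt_eq hf]
    rw [s1, s2]
  · intro T hT hT1
    rw [Finset.mem_powerset] at hT
    by_contra hc
    have hle : nK T ≤ X := by unfold nK; exact_mod_cast hf.le _ hc
    have hlt : (X : ℝ) < 2 * nK T := by unfold nK; exact_mod_cast hf.lt _ hc
    have hpow := pow_card_le_nK hz0 T (fun p hp => (Finset.mem_filter.mp (hT hp)).2)
    have hX' : (2 : ℝ) ≤ X := by exact_mod_cast hX
    have hz1 : 1 ≤ z := by nlinarith
    rcases Nat.lt_or_ge T.card 1 with h0 | h0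
    · have : T = ∅ := Finset.card_eq_zero.mp (by omega)
      rw [this, nK_empty] at hlt
      linarith
    · have h2 : 2 ≤ T.card := by omega
      have : z ^ 2 ≤ z ^ T.card := pow_le_pow_right₀ hz1 h2
      linarith

/-- primes of norm `< w` -/
def smP (X : ℕ) (w : ℝ) : Finset PrP := (UX X).filter (fun p => (nm p.1 : ℝ) < w)

lemma mem_smP {X : ℕ} {w : ℝ} {p : PrP} : p ∈ smP X w ↔ nm p.1 ≤ X ∧ (nm p.1 : ℝ) < w := by
  unfold smP; rw [Finset.mem_filter, mem_UX]

/-- rough part -/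
def hi (w : ℝ) (K : Finset PrP) : Finset PrP := K.filter (fun p => w ≤ (nm p.1 : ℝ))
/-- smooth part -/
def lo (w : ℝ) (K : Finset PrP) : Finset PrP := K.filter (fun p => (nm p.1 : ℝ) < w)

lemma hi_union_lo (w : ℝ) (K : Finset PrP) : hi w K ∪ lo w K = K := by
  ext p
  simp only [hi, lo, Finset.mem_union, Finset.mem_filter]
  constructor
  · rintro (h | h) <;> exact h.1
  · intro h
    rcases le_or_gt w (nm p.1 : ℝ) with h1 | h1
    · exact Or.inl ⟨h, h1⟩
    · exact Or.inr ⟨h, h1⟩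

lemma disjoint_hi_lo (w : ℝ) (K : Finset PrP) : Disjoint (hi w K) (lo w K) := by
  rw [Finset.disjoint_left]
  intro p h1 h2
  have h3 := (Finset.mem_filter.mp h1).2
  have h4 := (Finset.mem_filter.mp h2).2
  linarith

lemma hi_union {w : ℝ} {I I2 : Finset PrP} (h1 : ∀ p ∈ I, w ≤ (nm p.1 : ℝ))
    (h2 : ∀ p ∈ I2, (nm p.1 : ℝ) < w) : hi w (I ∪ I2) = I := by
  ext p
  simp only [hi, Finset.mem_union, Finset.mem_filter]
  constructor
  · rintro ⟨h | h, h3⟩
    · exact h
    · linarith [h2 p h]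
  · intro h; exact ⟨Or.inl h, h1 p h⟩

lemma lo_union {w : ℝ} {I I2 : Finset PrP} (h1 : ∀ p ∈ I, w ≤ (nm p.1 : ℝ))
    (h2 : ∀ p ∈ I2, (nm p.1 : ℝ) < w) : lo w (I ∪ I2) = I2 := by
  ext p
  simp only [lo, Finset.mem_union, Finset.mem_filter]
  constructor
  · rintro ⟨h | h, h3⟩
    · linarith [h1 p h]
    · exact h
  · intro h; exact ⟨Or.inr h, h2 p h⟩

open Classical in
lemma sum_pair {X : ℕ} {w z : ℝ} (hwz : w ≤ z) (P : Finset PrP → Prop)
    (Q : Finset PrP → Finset PrP → Prop) (g : Finset PrP → ℂ) :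
    ∑ I ∈ (midP X w z).powerset.filter P, ∑ I2 ∈ (smP X w).powerset.filter (Q I), g (I ∪ I2) =
      ∑ K ∈ (UX X).powerset.filter
        (fun K => (∀ p ∈ K, (nm p.1 : ℝ) < z) ∧ P (hi w K) ∧ Q (hi w K) (lo w K)), g K := by
  rw [Finset.sum_sigma']
  refine Finset.sum_nbij' (fun x => x.1 ∪ x.2) (fun K => ⟨hi w K, lo w K⟩) ?_ ?_ ?_ ?_ ?_
  · rintro ⟨I, I2⟩ h
    rw [Finset.mem_sigma, Finset.mem_filter, Finset.mem_filter, Finset.mem_powerset,
      Finset.mem_powerset] at h
    obtain ⟨⟨h1, h2⟩, h3, h4⟩ := h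
    have k1 : ∀ p ∈ I, w ≤ (nm p.1 : ℝ) := fun p hp => (mem_midP.mp (h1 hp)).2.1
    have k2 : ∀ p ∈ I2, (nm p.1 : ℝ) < w := fun p hp => (mem_smP.mp (h3 hp)).2
    rw [Finset.mem_filter, Finset.mem_powerset]
    refine ⟨?_, ?_, ?_, ?_⟩
    · intro p hp
      rw [mem_UX]
      rcases Finset.mem_union.mp hp with hp | hp
      · exact (mem_midP.mp (h1 hp)).1
      · exact (mem_smP.mp (h3 hp)).1
    · intro p hp
      rcases Finset.mem_union.mp hp with hp | hp
      · exact (mem_midP.mp (h1 hp)).2.2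
      · exact lt_of_lt_of_le (k2 p hp) hwz
    · show P (hi w (I ∪ I2))
      rw [hi_union k1 k2]; exact h2
    · show Q (hi w (I ∪ I2)) (lo w (I ∪ I2))
      rw [hi_union k1 k2, lo_union k1 k2]; exact h4
  · intro K h
    rw [Finset.mem_filter, Finset.mem_powerset] at h
    obtain ⟨h1, h2, h3, h4⟩ := h
    rw [Finset.mem_sigma, Finset.mem_filter, Finset.mem_filter, Finset.mem_powerset,
      Finset.mem_powerset]
    refine ⟨⟨?_, h3⟩, ?_, h4⟩
    · intro p hp
      have := Finset.mem_filter.mp hp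
      exact mem_midP.mpr ⟨mem_UX.mp (h1 this.1), this.2, h2 p this.1⟩
    · intro p hp
      have := Finset.mem_filter.mp hp
      exact mem_smP.mpr ⟨mem_UX.mp (h1 this.1), this.2⟩
  · rintro ⟨I, I2⟩ h
    rw [Finset.mem_sigma, Finset.mem_filter, Finset.mem_filter, Finset.mem_powerset,
      Finset.mem_powerset] at h
    obtain ⟨⟨h1, h2⟩, h3, h4⟩ := h
    have k1 : ∀ p ∈ I, w ≤ (nm p.1 : ℝ) := fun p hp => (mem_midP.mp (h1 hp)).2.1
    have k2 : ∀ p ∈ I2, (nm p.1 : ℝ) < w := fun p hp => (mem_smP.mp (h3 hp)).2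
    show (⟨hi w (I ∪ I2), lo w (I ∪ I2)⟩ : (_ : Finset PrP) × Finset PrP) = ⟨I, I2⟩
    rw [hi_union k1 k2, lo_union k1 k2]
  · intro K _
    exact hi_union_lo w K
  · rintro ⟨I, I2⟩ _
    rfl

/-- If every element of `I` is larger than every element of `I2 ≠ ∅`, then `I ∪ I2` crosses `Y` iff
`I2` crosses `Y / ν I`. -/
lemma Cr_union {I I2 : Finset PrP} {w Y : ℝ} (h1 : ∀ p ∈ I, w ≤ (nm p.1 : ℝ))
    (h2 : ∀ p ∈ I2, (nm p.1 : ℝ) < w) (hne : I2.Nonempty) :
    Cr PrP.N (Y / nK I) I2 ↔ Cr PrP.N Y (I ∪ I2) := by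
  have hdis : Disjoint I I2 := by
    rw [Finset.disjoint_left]
    intro p hp hp'
    linarith [h1 p hp, h2 p hp']
  have hne' : (I ∪ I2).Nonempty := hne.mono Finset.subset_union_right
  have hmin : (I ∪ I2).min' hne' = I2.min' hne := by
    apply le_antisymm
    · exact Finset.min'_le _ _ (Finset.mem_union_right _ (Finset.min'_mem _ _))
    · refine Finset.le_min' _ _ _ fun y hy => ?_
      rcases Finset.mem_union.mp hy with hy | hy
      · refine (PrP.lt_of_nm_lt ?_).le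
        have k1 := h1 y hy
        have k2 := h2 _ (Finset.min'_mem I2 hne)
        exact_mod_cast lt_of_lt_of_le k2 k1
      · exact Finset.min'_le _ _ hy
  have hmI : I2.min' hne ∉ I := fun h => Finset.disjoint_left.mp hdis h (Finset.min'_mem _ _)
  have her : (I ∪ I2).erase (I2.min' hne) = I ∪ I2.erase (I2.min' hne) := by
    ext p
    simp only [Finset.mem_erase, Finset.mem_union]
    constructor
    · rintro ⟨h3, h4 | h4⟩
      · exact Or.inl h4
      · exact Or.inr ⟨h3, h4⟩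
    · rintro (h4 | ⟨h3, h4⟩)
      · exact ⟨fun h => hmI (h ▸ h4), Or.inl h4⟩
      · exact ⟨h3, Or.inr h4⟩
  have hd2 : Disjoint I (I2.erase (I2.min' hne)) :=
    hdis.mono_right (Finset.erase_subset _ _)
  have hpos := nK_pos I
  constructor
  · rintro ⟨h, h3, h4⟩
    refine ⟨hne', ?_, ?_⟩
    · rw [hmin, her, nu_union hd2, ← nK_eq I]
      rw [lt_div_iff₀ hpos] at h3
      linarith
    · rw [nu_union hdis, ← nK_eq I]
      rw [div_le_iff₀ hpos] at h4
      linarith
  · rintro ⟨h, h3, h4⟩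
    refine ⟨hne, ?_, ?_⟩
    · rw [hmin, her, nu_union hd2, ← nK_eq I] at h3
      rw [lt_div_iff₀ hpos]
      linarith
    · rw [nu_union hdis, ← nK_eq I] at h4
      rw [div_le_iff₀ hpos]
      linarith

open Classical in
/-- moduli of the type I part -/
def TIset (X : ℕ) (w z D Y : ℝ) : Finset (Finset PrP) :=
  (UX X).powerset.filter
    (fun K => (∀ p ∈ K, (nm p.1 : ℝ) < z) ∧ nK (hi w K) < D ∧ nK K < Y)

open Classical in
/-- outer variables of the Legendre part -/
def Lset (X : ℕ) (w z D Y : ℝ) : Finset (Finset PrP) :=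
  (UX X).powerset.filter
    (fun K => (∀ p ∈ K, (nm p.1 : ℝ) < z) ∧ nK (hi w K) < D ∧ (lo w K).Nonempty ∧ Cr PrP.N Y K)

open Classical in
lemma step2_key {X : ℕ} {f : Eis → ℂ} (hf : Supp X f) {w D Y : ℝ} (hDY : D ≤ Y)
    (I : Finset PrP) (k1 : ∀ p ∈ I, w ≤ (nm p.1 : ℝ)) (hID : nK I < D) :
      (-1 : ℂ) ^ I.card *
          ∑ J ∈ ((UX X \ I).filter (fun p => ¬ (nm p.1 : ℝ) < w)).powerset, f (prd (I ∪ J)) =
      ∑ I2 ∈ (smP X w).powerset.filter (fun I2 => nK I2 < Y / nK I),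
        (-1 : ℂ) ^ (I ∪ I2).card * ∑ n ∈ (primBall X).filter (fun n => prd (I ∪ I2) ∣ n), f n +
      ∑ I2 ∈ (smP X w).powerset.filter (fun I2 => I2.Nonempty ∧ Cr PrP.N (Y / nK I) I2),
        (-1 : ℂ) ^ (I ∪ I2).card * Wt X f (I ∪ I2) := by
  have hDI : 1 < Y / nK I := by
    rw [one_lt_div (nK_pos I)]; linarith
  have hb := buchstab (N := PrP.N) PrP.one_le_N hDI (UX X \ I) (fun p => (nm p.1 : ℝ) < w)
    (fun p q hpq hq => lt_of_le_of_lt (by exact_mod_cast PrP.nm_le_of_le hpq) hq)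
    (fun J => f (prd (I ∪ J)))
  have e1 : (UX X \ I).filter (fun p => (nm p.1 : ℝ) < w) = smP X w := by
    ext p
    rw [Finset.mem_filter, Finset.mem_sdiff, mem_smP, mem_UX]
    exact ⟨fun h => ⟨h.1.1, h.2⟩, fun h => ⟨⟨h.1, fun hp => by linarith [k1 p hp, h.2]⟩, h.2⟩⟩
  rw [e1] at hb
  rw [hb, mul_add, Finset.mul_sum, Finset.mul_sum]
  have hdj : ∀ I2 ∈ (smP X w).powerset, Disjoint I I2 := by
    intro I2 h2
    rw [Finset.mem_powerset] at h2
    rw [Finset.disjoint_left]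
    intro p hp hp'
    linarith [k1 p hp, (mem_smP.mp (h2 hp')).2]
  have hcard : ∀ I2 ∈ (smP X w).powerset, (-1 : ℂ) ^ (I ∪ I2).card =
      (-1 : ℂ) ^ I.card * (-1 : ℂ) ^ I2.card := by
    intro I2 h2
    rw [Finset.card_union_of_disjoint (hdj I2 h2), pow_add]
  have hfil1 : (smP X w).powerset.filter (fun I2 => nu PrP.N I2 < Y / nK I) =
      (smP X w).powerset.filter (fun I2 => nK I2 < Y / nK I) :=
    Finset.filter_congr fun I2 _ => by rw [nK_eq I2]
  have hfil2 : (smP X w).powerset.filter (fun I2 => Cr PrP.N (Y / nK I) I2) =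
      (smP X w).powerset.filter (fun I2 => I2.Nonempty ∧ Cr PrP.N (Y / nK I) I2) :=
    Finset.filter_congr fun I2 _ => ⟨fun h => ⟨h.1, h⟩, fun h => h.2⟩
  have hss : ∀ I2 : Finset PrP, (UX X \ I) \ I2 = UX X \ (I ∪ I2) := by
    intro I2
    ext p
    rw [Finset.mem_sdiff, Finset.mem_sdiff, Finset.mem_sdiff, Finset.mem_union, not_or, and_assoc]
  rw [hfil1, hfil2]
  refine congrArg₂ (· + ·) ?_ ?_
  · refine Finset.sum_congr rfl fun I2 hI2 => ?_
    have h2 := (Finset.mem_filter.mp hI2).1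
    rw [hcard I2 h2, mul_assoc]
    refine congrArg₂ (· * ·) rfl (congrArg₂ (· * ·) rfl ?_)
    rw [← sum_powerset_multiples f (fun n hn => ⟨hf.sq n hn, hf.le n hn⟩), hss]
    refine Finset.sum_congr rfl fun J _ => ?_
    rw [Finset.union_assoc]
  · refine Finset.sum_congr rfl fun I2 hI2 => ?_
    have h2 := (Finset.mem_filter.mp hI2).1
    have hne := (Finset.mem_filter.mp hI2).2.1
    rw [hcard I2 h2, mul_assoc]
    refine congrArg₂ (· * ·) rfl (congrArg₂ (· * ·) rfl ?_)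
    rw [← Wt_eq hf]
    have hset : ((UX X \ I) \ I2).filter (fun p => Ab I2 p) =
        (UX X \ (I ∪ I2)).filter (fun p => Ab (I ∪ I2) p) := by
      ext p
      rw [Finset.mem_filter, Finset.mem_filter, hss]
      refine and_congr_right fun hp => ?_
      constructor
      · rintro ⟨q, hq, hqp⟩
        exact ⟨q, Finset.mem_union_right _ hq, hqp⟩
      · rintro ⟨q, hq, hqp⟩
        rcases Finset.mem_union.mp hq with hq | hq
        · obtain ⟨r, hr⟩ := hne
          refine ⟨r, hr, lt_trans (PrP.lt_of_nm_lt ?_) hqp⟩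
          have k2 := (mem_smP.mp ((Finset.mem_powerset.mp h2) hr)).2
          exact_mod_cast lt_of_lt_of_le k2 (k1 q hq)
        · exact ⟨q, hq, hqp⟩
    rw [hset]
    refine Finset.sum_congr rfl fun J _ => ?_
    rw [Finset.union_assoc]

open Classical in
lemma TIset_eq {X : ℕ} {w z D Y : ℝ} : (UX X).powerset.filter
        (fun K => (∀ p ∈ K, (nm p.1 : ℝ) < z) ∧ nK (hi w K) < D ∧ nK (lo w K) < Y / nK (hi w K)) =
      TIset X w z D Y := by
  unfold TIset
  refine Finset.filter_congr fun K _ => ?_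
  rw [lt_div_iff₀ (nK_pos _), mul_comm, ← nK_union (disjoint_hi_lo w K), hi_union_lo]

open Classical in
lemma Lset_eq {X : ℕ} {w z D Y : ℝ} : (UX X).powerset.filter
        (fun K => (∀ p ∈ K, (nm p.1 : ℝ) < z) ∧ nK (hi w K) < D ∧
          ((lo w K).Nonempty ∧ Cr PrP.N (Y / nK (hi w K)) (lo w K))) =
      Lset X w z D Y := by
  unfold Lset
  refine Finset.filter_congr fun K _ => ?_
  refine and_congr_right fun _ => and_congr_right fun _ => and_congr_right fun hne => ?_
  have h := Cr_union (I := hi w K) (I2 := lo w K) (w := w) (Y := Y)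
    (fun p hp => (Finset.mem_filter.mp hp).2) (fun p hp => (Finset.mem_filter.mp hp).2) hne
  rw [hi_union_lo] at h
  exact h

open Classical in
/-- Second application of the Buchstab identity (Legendre formula). -/
lemma step2 {X : ℕ} {f : Eis → ℂ} (hf : Supp X f) {w z D Y : ℝ} (hwz : w ≤ z) (hDY : D ≤ Y) :
    ∑ I ∈ (midP X w z).powerset.filter (fun I => nK I < D),
        (-1 : ℂ) ^ I.card *
          ∑ J ∈ ((UX X \ I).filter (fun p => ¬ (nm p.1 : ℝ) < w)).powerset, f (prd (I ∪ J)) =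
      ∑ K ∈ TIset X w z D Y, (-1 : ℂ) ^ K.card *
          ∑ n ∈ (primBall X).filter (fun n => prd K ∣ n), f n +
      ∑ K ∈ Lset X w z D Y, (-1 : ℂ) ^ K.card * Wt X f K := by
  have key : ∀ I ∈ (midP X w z).powerset.filter (fun I => nK I < D),
      (-1 : ℂ) ^ I.card *
          ∑ J ∈ ((UX X \ I).filter (fun p => ¬ (nm p.1 : ℝ) < w)).powerset, f (prd (I ∪ J)) =
      ∑ I2 ∈ (smP X w).powerset.filter (fun I2 => nK I2 < Y / nK I),
        (-1 : ℂ) ^ (I ∪ I2).card * ∑ n ∈ (primBall X).filter (fun n => prd (I ∪ I2) ∣ n), f n +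
      ∑ I2 ∈ (smP X w).powerset.filter (fun I2 => I2.Nonempty ∧ Cr PrP.N (Y / nK I) I2),
        (-1 : ℂ) ^ (I ∪ I2).card * Wt X f (I ∪ I2) := by
    intro I hI
    rw [Finset.mem_filter, Finset.mem_powerset] at hI
    exact step2_key hf hDY I (fun p hp => (mem_midP.mp (hI.1 hp)).2.1) hI.2
  rw [Finset.sum_congr rfl key, Finset.sum_add_distrib]
  have h1 := sum_pair (X := X) hwz (fun I => nK I < D) (fun I I2 => nK I2 < Y / nK I)
    (fun K => (-1 : ℂ) ^ K.card * ∑ n ∈ (primBall X).filter (fun n => prd K ∣ n), f n)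
  have h2 := sum_pair (X := X) hwz (fun I => nK I < D)
    (fun I I2 => I2.Nonempty ∧ Cr PrP.N (Y / nK I) I2) (fun K => (-1 : ℂ) ^ K.card * Wt X f K)
  refine congrArg₂ (· + ·) ?_ ?_
  · rw [← TIset_eq]
    convert h1 using 2
  · rw [← Lset_eq]
    convert h2 using 4

open Classical in
/-- outer variables of the Buchstab part -/
def Bset (X : ℕ) (w z D : ℝ) : Finset (Finset PrP) :=
  (midP X w z).powerset.filter (fun I => Cr PrP.N D I)

/-- **The exact sieve decomposition.** -/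
theorem exact {X : ℕ} {f : Eis → ℂ} (hf : Supp X f) (hX : 2 ≤ X) {w z D Y : ℝ} (hwz : w ≤ z)
    (hz0 : 0 ≤ z) (hz : (X : ℝ) < z ^ 2) (hD : 1 < D) (hDY : D ≤ Y) :
    ∑ p ∈ (UX X).filter (fun p => z ≤ (nm p.1 : ℝ)), f p.1 =
      (∑ K ∈ TIset X w z D Y, (-1 : ℂ) ^ K.card *
          (open Classical in ∑ n ∈ (primBall X).filter (fun n => prd K ∣ n), f n)) +
      ∑ K ∈ Lset X w z D Y, (-1 : ℂ) ^ K.card * Wt X f K +
      ∑ K ∈ Bset X w z D, (-1 : ℂ) ^ K.card * Wt X f K := by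
  rw [step1 hf hX hwz hz0 hz hD, step2 hf hwz hDY]
  rfl

end Crest.Agent.R012.Sieve812
end
end

-- ▼ part R012/SieveB_812
section

/-!
# Row 12: sieve decomposition, part B: reduction of every piece to a bilinear form
-/

set_option autoImplicit false

noncomputable section

namespace Crest.Agent.R012.Sieve812

open Finset Eis Buch420

instance : Nonempty PrP := by
  have h4 : IsPrim (4 : Eis) := by
    refine ⟨1, ?_⟩
    norm_num
  have hu : ¬ IsUnit (4 : Eis) := by
    rw [isUnit_iff]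
    have : nm (4 : Eis) = 16 := by simpa using nm_natCast 4
    rw [this]; norm_num
  obtain ⟨q, hq, hd⟩ := WfDvdMonoid.exists_irreducible_factor hu h4.ne_zero
  obtain ⟨p, -, -⟩ := exists_PrP h4 hq.prime hd
  exact ⟨p⟩

/-- least prime factor -/
def mn (K : Finset PrP) : PrP :=
  if h : K.Nonempty then K.min' h else Classical.arbitrary PrP

lemma mn_eq {K : Finset PrP} (h : K.Nonempty) : mn K = K.min' h := by
  unfold mn; rw [dif_pos h]

lemma mn_mem {K : Finset PrP} (h : K.Nonempty) : mn K ∈ K := by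
  rw [mn_eq h]; exact Finset.min'_mem K h

lemma mn_le {K : Finset PrP} {p : PrP} (h : p ∈ K) : mn K ≤ p := by
  rw [mn_eq ⟨p, h⟩]; exact Finset.min'_le K p h

@[simp] lemma mn_singleton (p : PrP) : mn {p} = p := by
  have := mn_mem (Finset.singleton_nonempty p)
  exact Finset.mem_singleton.mp this

lemma ab_iff {K : Finset PrP} (h : K.Nonempty) {p : PrP} : Ab K p ↔ mn K < p := by
  constructor
  · rintro ⟨q, hq, hqp⟩
    exact lt_of_le_of_lt (mn_le hq) hqp
  · intro hp
    exact ⟨mn K, mn_mem h, hp⟩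

lemma forall_ab_iff {K J : Finset PrP} (h : K.Nonempty) (hJ : J.Nonempty) :
    (∀ p ∈ J, Ab K p) ↔ mn K < mn J := by
  constructor
  · intro h1
    exact (ab_iff h).mp (h1 _ (mn_mem hJ))
  · intro h1 p hp
    exact (ab_iff h).mpr (lt_of_lt_of_le h1 (mn_le hp))

lemma Cr_iff {K : Finset PrP} {D : ℝ} : Cr PrP.N D K ↔
    K.Nonempty ∧ nK (K.erase (mn K)) < D ∧ D ≤ nK K := by
  constructor
  · rintro ⟨h, h1, h2⟩
    refine ⟨h, ?_, ?_⟩
    · rw [nK_eq, mn_eq h]; exact h1
    · rw [nK_eq]; exact h2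
  · rintro ⟨h, h1, h2⟩
    refine ⟨h, ?_, ?_⟩
    · rw [nK_eq, mn_eq h] at h1; exact h1
    · rw [nK_eq] at h2; exact h2

lemma nK_erase {K : Finset PrP} {p : PrP} (h : p ∈ K) : nm p.1 * nK (K.erase p) = nK K := by
  rw [← nK_insert (Finset.notMem_erase p K), Finset.insert_erase h]

lemma nm_le_nK {K : Finset PrP} {p : PrP} (h : p ∈ K) : (nm p.1 : ℝ) ≤ nK K := by
  rw [← nK_erase h]
  nlinarith [one_le_nm p, one_le_nK (K.erase p)]

open Classical in
/-- Conversion of a sum over finite sets of primes into a sum over primary numbers. -/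
lemma sum_J {X : ℕ} {f : Eis → ℂ} (hf : Supp X f) (K : Finset PrP) (α : Finset PrP → ℂ) :
    ∑ J ∈ (UX X).powerset, α J * f (prd K * prd J) =
      ∑ a ∈ primBall X, α (pset a) * f (prd K * a) := by
  have h := sum_powerset_prd (X := X) (fun n => α (pset n) * f (prd K * n)) ?_ (UX X)
  · simp only [pset_prd] at h
    rw [h]
    refine Finset.sum_congr ?_ fun _ _ => rfl
    rw [Finset.filter_eq_self]
    intro n hn p hp
    rw [mem_primBall] at hn
    rw [mem_UX]
    exact (nm_le_of_dvd' hn.2.ne_zero hp).trans hn.1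
  · intro n hn
    have h2 : f (prd K * n) ≠ 0 := right_ne_zero_of_mul hn
    refine ⟨(hf.sq _ h2).of_mul_right, ?_⟩
    have h3 := hf.le _ h2
    rw [nm_mul] at h3
    have h4 : 0 < nm (prd K) := nm_pos.mpr (prd_ne_zero K)
    exact le_trans (Nat.le_mul_of_pos_left _ h4) h3

open Classical in
/-- The cross condition is separated. -/
lemma sep_Wt {X : ℕ} {f : Eis → ℂ} (hf : Supp X f) {S : ℕ} (hS : (UX X).card ≤ 2 ^ S)
    (s : Finset (Finset PrP)) (hs : ∀ K ∈ s, K.Nonempty ∧ K ⊆ UX X ∧ 2 * nK K ≤ X)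
    (β : Finset PrP → ℂ) {E : ℝ}
    (h : ∀ (φ : PrP → ℂ) (α : Eis → ℂ), (∀ p, ‖φ p‖ ≤ 1) → (∀ a, ‖α a‖ ≤ 1) →
      ‖∑ K ∈ s, β K * φ (mn K) * ∑ a ∈ primBall X, α a * f (prd K * a)‖ ≤ E) :
    ‖∑ K ∈ s, β K * Wt X f K‖ ≤ S * E := by
  have e1 : ∑ K ∈ s, β K * Wt X f K =
      ∑ K ∈ s, ∑ J ∈ (UX X).powerset.filter (fun J => J.Nonempty),
        (if mn K < mn J then β K * f (prd K * prd J) else 0) := by
    refine Finset.sum_congr rfl fun K hK => ?_
    obtain ⟨hKne, hKU, hK2⟩ := hs K hK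
    unfold Wt
    rw [Finset.mul_sum, Finset.sum_filter, Finset.sum_filter]
    refine Finset.sum_congr rfl fun J hJ => ?_
    by_cases hJe : J.Nonempty
    · rw [if_pos hJe]
      by_cases hlt : mn K < mn J
      · rw [if_pos hlt, if_pos ((forall_ab_iff hKne hJe).mpr hlt)]
      · rw [if_neg hlt, if_neg (fun h => hlt ((forall_ab_iff hKne hJe).mp h))]
    · rw [if_neg hJe]
      rw [Finset.not_nonempty_iff_eq_empty] at hJe
      subst hJe
      have : f (prd K * prd ∅) = 0 := by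
        by_contra hc
        have := lt_nK_mul hf hc
        rw [nK_empty, mul_one] at this
        linarith
      rw [this, mul_zero]; simp
  rw [e1]
  refine Sep812.sep_bound (UX X) S hS s _ mn mn (fun K hK => (hs K hK).2.1 (mn_mem (hs K hK).1))
    (fun J hJ => ?_) (fun K J => β K * f (prd K * prd J)) E ?_
  · rw [Finset.mem_filter, Finset.mem_powerset] at hJ
    exact hJ.1 (mn_mem hJ.2)
  · intro φ ψ hφ hψ
    have h2 := h φ (fun a => if (pset a).Nonempty then ψ (mn (pset a)) else 0) hφ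
      (fun a => by split_ifs; exact hψ _; simp)
    convert h2 using 2
    refine Finset.sum_congr rfl fun K hK => ?_
    rw [← sum_J hf K (fun J => if J.Nonempty then ψ (mn J) else 0), Finset.mul_sum,
      Finset.sum_filter]
    refine Finset.sum_congr rfl fun J _ => ?_
    split_ifs
    · ring
    · ring

/-- parameters -/
structure Params (X : ℕ) (w D Y V z : ℝ) : Prop where
  hX : 2 ≤ X
  hw : 0 ≤ w
  hV : 0 < V
  hD : 1 < D
  hwD : w ≤ D
  hDY : D ≤ Y
  hYX : Y ≤ X
  hDz : D ≤ z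
  hz : (X : ℝ) < z ^ 2
  hz2 : 2 * z ≤ X
  hD3 : (X : ℝ) < D ^ 3
  hD2 : 2 * D ^ 2 ≤ X
  hDV2 : 2 * (D * V) ≤ X
  hwX : w * (2 * D ^ 2) ≤ X
  hYw : 2 * (Y * w) ≤ X
  hV2 : (X : ℝ) ≤ V ^ 2
  hDV : D ^ 3 ≤ V ^ 2
  hVD : (X : ℝ) * D ^ 3 ≤ V ^ 4

section

variable {X : ℕ} {f : Eis → ℂ} {w D Y V z : ℝ}

/-! ### Type I -/

open Classical in
lemma TI_bound (hP : Params X w D Y V z) {E : ℝ}
    (h : ∑ k ∈ (primBall X).filter (fun k => Squarefree k ∧ (nm k : ℝ) < Y),
      ‖∑ n ∈ (primBall X).filter (fun n => k ∣ n), f n‖ ≤ E) :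
    ‖∑ K ∈ TIset X w z D Y, (-1 : ℂ) ^ K.card *
          ∑ n ∈ (primBall X).filter (fun n => prd K ∣ n), f n‖ ≤ E := by
  refine le_trans (norm_sum_le _ _) (le_trans ?_ h)
  have h1 : ∀ K ∈ TIset X w z D Y, ‖(-1 : ℂ) ^ K.card *
      ∑ n ∈ (primBall X).filter (fun n => prd K ∣ n), f n‖ =
      ‖∑ n ∈ (primBall X).filter (fun n => prd K ∣ n), f n‖ := by
    intro K _
    rw [norm_mul, norm_pow, norm_neg, norm_one, one_pow, one_mul]
  rw [Finset.sum_congr rfl h1]
  rw [← Finset.sum_image (s := TIset X w z D Y) (g := prd)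
    (f := fun k => ‖∑ n ∈ (primBall X).filter (fun n => k ∣ n), f n‖)
    (fun a _ b _ hab => prd_injective hab)]
  refine Finset.sum_le_sum_of_subset_of_nonneg ?_ fun _ _ _ => norm_nonneg _
  intro k hk
  rw [Finset.mem_image] at hk
  obtain ⟨K, hK, rfl⟩ := hk
  unfold TIset at hK
  rw [Finset.mem_filter] at hK
  have h3 : (nm (prd K) : ℝ) < Y := hK.2.2.2
  rw [Finset.mem_filter, mem_primBall]
  refine ⟨⟨?_, isPrim_prd K⟩, squarefree_prd K, h3⟩
  exact_mod_cast (h3.le.trans hP.hYX)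

/-! ### Legendre part -/

open Classical in
lemma L_bound (hf : Supp X f) (hP : Params X w D Y V z) {S : ℕ} (hS : (UX X).card ≤ 2 ^ S)
    {E : ℝ}
    (h : ∀ (φ : PrP → ℂ) (α : Eis → ℂ), (∀ p, ‖φ p‖ ≤ 1) → (∀ a, ‖α a‖ ≤ 1) →
      ‖∑ K ∈ Lset X w z D Y, (-1 : ℂ) ^ K.card * φ (mn K) *
        ∑ a ∈ primBall X, α a * f (prd K * a)‖ ≤ E) :
    ‖∑ K ∈ Lset X w z D Y, (-1 : ℂ) ^ K.card * Wt X f K‖ ≤ S * E := by
  refine sep_Wt hf hS _ ?_ (fun K => (-1 : ℂ) ^ K.card) h
  intro K hK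
  unfold Lset at hK
  rw [Finset.mem_filter, Finset.mem_powerset] at hK
  obtain ⟨hKU, hKz, hKD, hKlo, hCr⟩ := hK
  rw [Cr_iff] at hCr
  refine ⟨hCr.1, hKU, ?_⟩
  have h1 : (nm (mn K).1 : ℝ) < w := by
    obtain ⟨p, hp⟩ := hKlo
    have hp' := Finset.mem_filter.mp hp
    have h2 : (nm (mn K).1 : ℝ) ≤ nm p.1 := by exact_mod_cast PrP.nm_le_of_le (mn_le hp'.1)
    linarith [hp'.2]
  have h3 := nK_erase (mn_mem hCr.1)
  have h4 := nK_pos (K.erase (mn K))
  have h5 := one_le_nm (mn K)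
  have h6 : nK K ≤ Y * w := by
    rw [← h3, mul_comm]
    exact mul_le_mul hCr.2.1.le h1.le (by linarith) (by linarith [hCr.2.1])
  linarith [hP.hYw]

/-! ### The Buchstab part -/

/-- facts about crossing sets with at least two elements -/
lemma Cr_facts {K : Finset PrP} (hCr : Cr PrP.N D K) (h2 : 2 ≤ K.card) :
    (∀ p ∈ K, (nm p.1 : ℝ) < D) ∧ nK K ≤ D ^ 2 ∧ (nK K / D < nm (mn K).1) ∧
      (3 ≤ K.card → nK K ^ 2 ≤ D ^ 3) := by
  rw [Cr_iff] at hCr
  obtain ⟨hne, hlt, hle⟩ := hCr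
  have hm := mn_mem hne
  have her := nK_erase hm
  have hcard : (K.erase (mn K)).card = K.card - 1 := Finset.card_erase_of_mem hm
  have hne2 : (K.erase (mn K)).Nonempty := by
    rw [← Finset.card_pos, hcard]; omega
  have h1 := one_le_nK (K.erase (mn K))
  have hm1 := one_le_nm (mn K)
  have hmD : (nm (mn K).1 : ℝ) < D := by
    obtain ⟨q, hq⟩ := hne2
    have h3 : (nm (mn K).1 : ℝ) ≤ nm q.1 := by
      exact_mod_cast PrP.nm_le_of_le (mn_le (Finset.mem_of_mem_erase hq))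
    linarith [nm_le_nK hq]
  refine ⟨?_, ?_, ?_, ?_⟩
  · intro p hp
    by_cases hpm : p = mn K
    · rw [hpm]; exact hmD
    · linarith [nm_le_nK (Finset.mem_erase.mpr ⟨hpm, hp⟩)]
  · rw [← her]; nlinarith
  · have hD0 : 0 < D := by linarith
    rw [div_lt_iff₀ hD0, ← her]
    nlinarith
  · intro h3
    have h4 : (nm (mn K).1 : ℝ) ^ (K.erase (mn K)).card ≤ nK (K.erase (mn K)) := by
      refine pow_card_le_nK (by linarith) _ fun p hp => ?_
      exact_mod_cast PrP.nm_le_of_le (mn_le (Finset.mem_of_mem_erase hp))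
    have h5 : (nm (mn K).1 : ℝ) ^ 2 ≤ (nm (mn K).1 : ℝ) ^ (K.erase (mn K)).card :=
      pow_le_pow_right₀ hm1 (by omega)
    have h6 : (nm (mn K).1 : ℝ) ^ 2 ≤ nK (K.erase (mn K)) := h5.trans h4
    rw [← her, mul_pow]
    have h7 : nK (K.erase (mn K)) ^ 3 ≤ D ^ 3 := pow_le_pow_left₀ (by linarith) hlt.le 3
    calc (nm (mn K).1 : ℝ) ^ 2 * nK (K.erase (mn K)) ^ 2
        ≤ nK (K.erase (mn K)) * nK (K.erase (mn K)) ^ 2 :=
          mul_le_mul_of_nonneg_right h6 (by positivity)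
      _ = nK (K.erase (mn K)) ^ 3 := by ring
      _ ≤ D ^ 3 := h7

open Classical in
/-- composite outer variables of norm at most `V` -/
def Rset (X : ℕ) (w D V : ℝ) : Finset (Finset PrP) :=
  (UX X).powerset.filter
    (fun K => 2 ≤ K.card ∧ (∀ p ∈ K, w ≤ (nm p.1 : ℝ)) ∧ Cr PrP.N D K ∧ nK K ≤ V)

open Classical in
/-- products of two primes of norm larger than `V` -/
def Wset (X : ℕ) (w D V : ℝ) : Finset (Finset PrP) :=
  (UX X).powerset.filter
    (fun K => K.card = 2 ∧ (∀ p ∈ K, w ≤ (nm p.1 : ℝ)) ∧ Cr PrP.N D K ∧ V < nK K)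

open Classical in
/-- products of two primes, the complementary variable of `Wset`. -/
def Cset (X : ℕ) (D V : ℝ) : Finset (Finset PrP) :=
  (UX X).powerset.filter
    (fun K => K.card = 2 ∧ (∀ p ∈ K, V / D ≤ (nm p.1 : ℝ)) ∧ D ≤ nK K ∧ V * nK K ≤ X)

/-- primes of norm `< D` -/
def PD (X : ℕ) (D : ℝ) : Finset PrP := (UX X).filter (fun p => (nm p.1 : ℝ) < D)

/-- primes of norm in `[D, V]` -/
def PV (X : ℕ) (D V : ℝ) : Finset PrP :=
  (UX X).filter (fun p => D ≤ (nm p.1 : ℝ) ∧ (nm p.1 : ℝ) ≤ V)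

lemma Bset_split (hP : Params X w D Y V z) (g : Finset PrP → ℂ) :
    ∑ K ∈ Bset X w z D, g K =
      ∑ p ∈ (UX X).filter (fun p => D ≤ (nm p.1 : ℝ) ∧ (nm p.1 : ℝ) < z), g {p} +
      ∑ K ∈ Rset X w D V, g K + ∑ K ∈ Wset X w D V, g K := by
  classical
  have hD := hP.hD
  have key : Bset X w z D =
      (((UX X).filter (fun p => D ≤ (nm p.1 : ℝ) ∧ (nm p.1 : ℝ) < z)).image
        (fun p => ({p} : Finset PrP)) ∪ Rset X w D V) ∪ Wset X w D V := by
    ext K
    simp only [Finset.mem_union, Finset.mem_image, Bset, Rset, Wset, Finset.mem_filter,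
      Finset.mem_powerset]
    constructor
    · rintro ⟨h1, h2⟩
      have hKU : K ⊆ UX X := fun p hp => mem_UX.mpr (mem_midP.mp (h1 hp)).1
      have hKw : ∀ p ∈ K, w ≤ (nm p.1 : ℝ) := fun p hp => (mem_midP.mp (h1 hp)).2.1
      have hKz : ∀ p ∈ K, (nm p.1 : ℝ) < z := fun p hp => (mem_midP.mp (h1 hp)).2.2
      have h3 := Cr_iff.mp h2
      have hpos : 0 < K.card := Finset.card_pos.mpr h3.1
      by_cases hc1 : K.card = 1
      · left; left
        obtain ⟨p, rfl⟩ := Finset.card_eq_one.mp hc1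
        refine ⟨p, ⟨hKU (Finset.mem_singleton_self p), ?_, hKz p (Finset.mem_singleton_self p)⟩, rfl⟩
        have := h3.2.2
        rwa [nK_singleton] at this
      · have hc2 : 2 ≤ K.card := by omega
        by_cases hV : nK K ≤ V
        · left; right
          exact ⟨hKU, hc2, hKw, h2, hV⟩
        · right
          push Not at hV
          refine ⟨hKU, ?_, hKw, h2, hV⟩
          by_contra hc3
          have h4 := (Cr_facts h2 hc2).2.2.2 (by omega)
          have h5 : V ^ 2 < nK K ^ 2 := pow_lt_pow_left₀ hV hP.hV.le (by norm_num)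
          linarith [hP.hDV]
    · rintro ((⟨p, ⟨h1, h2, h3⟩, rfl⟩ | ⟨h1, h2, h3, h4, h5⟩) | ⟨h1, h2, h3, h4, h5⟩)
      · refine ⟨?_, ?_⟩
        · rw [Finset.singleton_subset_iff, mem_midP]
          exact ⟨mem_UX.mp h1, hP.hwD.trans h2, h3⟩
        · rw [Cr_iff]
          refine ⟨Finset.singleton_nonempty p, ?_, ?_⟩
          · rw [mn_singleton, Finset.erase_singleton, nK_empty]; exact hD
          · rw [nK_singleton]; exact h2
      · refine ⟨fun p hp => mem_midP.mpr ⟨mem_UX.mp (h1 hp), h3 p hp, ?_⟩, h4⟩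
        exact lt_of_lt_of_le ((Cr_facts h4 h2).1 p hp) hP.hDz
      · refine ⟨fun p hp => mem_midP.mpr ⟨mem_UX.mp (h1 hp), h3 p hp, ?_⟩, h4⟩
        exact lt_of_lt_of_le ((Cr_facts h4 (by omega)).1 p hp) hP.hDz
  rw [key, Finset.sum_union, Finset.sum_union]
  · rw [Finset.sum_image (fun a _ b _ hab => Finset.singleton_injective hab)]
  · rw [Finset.disjoint_left]
    intro K hK hK'
    rw [Finset.mem_image] at hK
    obtain ⟨p, -, rfl⟩ := hK
    unfold Rset at hK'
    rw [Finset.mem_filter, Finset.card_singleton] at hK'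
    omega
  · rw [Finset.disjoint_left]
    intro K hK hK'
    unfold Wset at hK'
    rw [Finset.mem_filter] at hK'
    rcases Finset.mem_union.mp hK with hK | hK
    · rw [Finset.mem_image] at hK
      obtain ⟨p, -, rfl⟩ := hK
      rw [Finset.card_singleton] at hK'
      omega
    · unfold Rset at hK
      rw [Finset.mem_filter] at hK
      linarith [hK.2.2.2.2, hK'.2.2.2.2]

open Classical in
lemma R_bound (hf : Supp X f) (hP : Params X w D Y V z) {S : ℕ} (hS : (UX X).card ≤ 2 ^ S)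
    {E : ℝ}
    (h : ∀ (φ : PrP → ℂ) (α : Eis → ℂ), (∀ p, ‖φ p‖ ≤ 1) → (∀ a, ‖α a‖ ≤ 1) →
      ‖∑ K ∈ Rset X w D V, (-1 : ℂ) ^ K.card * φ (mn K) *
        ∑ a ∈ primBall X, α a * f (prd K * a)‖ ≤ E) :
    ‖∑ K ∈ Rset X w D V, (-1 : ℂ) ^ K.card * Wt X f K‖ ≤ S * E := by
  refine sep_Wt hf hS _ ?_ (fun K => (-1 : ℂ) ^ K.card) h
  intro K hK
  unfold Rset at hK
  rw [Finset.mem_filter, Finset.mem_powerset] at hK
  obtain ⟨hKU, hc, hKw, hCr, hV⟩ := hK
  refine ⟨(Cr_iff.mp hCr).1, hKU, ?_⟩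
  linarith [(Cr_facts hCr hc).2.1, hP.hD2]

end

end Crest.Agent.R012.Sieve812
end
end

-- ▼ part R012/SieveC_812

/-!
# Row 12: sieve decomposition, part C: single primes, products of two large primes, edge triples
-/

set_option autoImplicit false

noncomputable section

namespace Crest.Agent.R012.Sieve812

open Finset Eis Buch420

variable {X : ℕ} {f : Eis → ℂ} {w D Y V z : ℝ}

open Classical in
/-- Restriction of the inner variable to a set of `J`'s. -/
lemma bil_conv (hf : Supp X f) (K : Finset PrP) (t : Finset (Finset PrP))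
    (ht : t ⊆ (UX X).powerset) (c : Finset PrP → ℂ) :
    ∑ a ∈ primBall X, (if pset a ∈ t then c (pset a) else 0) * f (prd K * a) =
      ∑ J ∈ t, c J * f (prd K * prd J) := by
  rw [← sum_J hf K (fun J => if J ∈ t then c J else 0)]
  have h1 : ∀ J ∈ (UX X).powerset, (if J ∈ t then c J else 0) * f (prd K * prd J) =
      if J ∈ t then c J * f (prd K * prd J) else 0 := by
    intro J _; split_ifs <;> simp
  rw [Finset.sum_congr rfl h1, ← Finset.sum_filter]
  refine Finset.sum_congr ?_ fun _ _ => rfl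
  ext J
  rw [Finset.mem_filter]
  exact ⟨fun h => h.2, fun h => ⟨ht h, h⟩⟩

open Classical in
/-- Restriction of the inner variable to primes. -/
lemma bil_conv_prime (hf : Supp X f) (K : Finset PrP) (B : Finset PrP) (hB : B ⊆ UX X) :
    ∑ a ∈ primBall X, (if pset a ∈ B.image (fun p => ({p} : Finset PrP)) then (1 : ℂ) else 0) *
      f (prd K * a) = ∑ q ∈ B, f (prd K * q.1) := by
  have h := bil_conv hf K (B.image (fun p => ({p} : Finset PrP))) ?_ (fun _ => 1)
  · rw [h, Finset.sum_image (fun a _ b _ hab => Finset.singleton_injective hab)]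
    simp
  · intro J hJ
    rw [Finset.mem_image] at hJ
    obtain ⟨p, hp, rfl⟩ := hJ
    rw [Finset.mem_powerset, Finset.singleton_subset_iff]
    exact hB hp

lemma f_sq_zero (hf : Supp X f) (p : PrP) : f (p.1 * p.1) = 0 := by
  have := f_mul_prd hf (K := {p}) (J := {p}) (by simp)
  simpa using this

/-- `A` = all primes of norm `≥ D` -/
def PA (X : ℕ) (D : ℝ) : Finset PrP := (UX X).filter (fun p => D ≤ (nm p.1 : ℝ))

open Classical in
/-- `∑_{J > p} f(pJ)` for `D ≤ nm p < z`: only single primes survive. -/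
lemma Wt_singleton (hf : Supp X f) (hP : Params X w D Y V z) {p : PrP}
    (hp1 : D ≤ (nm p.1 : ℝ)) (hp2 : (nm p.1 : ℝ) < z) :
    Wt X f {p} = ∑ q ∈ PA X D, if p < q then f (p.1 * q.1) else 0 := by
  have hD := hP.hD
  have hAb : ∀ q : PrP, Ab {p} q ↔ p < q := by
    intro q
    rw [ab_iff (Finset.singleton_nonempty p), mn_singleton]
  unfold Wt
  rw [Finset.sum_filter, sum_powerset_card_one]
  · simp only [Finset.mem_singleton, forall_eq, prd_singleton, hAb]
    symm
    refine Finset.sum_subset (Finset.filter_subset _ _) ?_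
    intro q hq hq'
    rw [if_neg]
    intro hlt
    apply hq'
    unfold PA
    rw [Finset.mem_filter]
    refine ⟨hq, hp1.trans ?_⟩
    exact_mod_cast PrP.nm_le_of_le hlt.le
  · intro J hJ hc
    split_ifs with hA
    · by_contra hne
      have h1 := lt_nK_mul hf hne
      have h2 := nK_mul_le hf hne
      rw [nK_singleton] at h1 h2
      have h3 : D ^ J.card ≤ nK J := by
        refine pow_card_le_nK (by linarith) J fun q hq => ?_
        have : (nm p.1 : ℝ) ≤ nm q.1 := by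
          exact_mod_cast PrP.nm_le_of_le ((hAb q).mp (hA q hq)).le
        linarith
      rcases Nat.lt_or_ge J.card 1 with h0 | h0
      · have : J = ∅ := Finset.card_eq_zero.mp (by omega)
        rw [this, nK_empty, mul_one] at h1
        linarith [hP.hz2]
      · have h4 : D ^ 2 ≤ D ^ J.card := pow_le_pow_right₀ hD.le (by omega)
        have h5 : D * D ^ 2 ≤ nm p.1 * nK J :=
          mul_le_mul hp1 (h4.trans h3) (by positivity) (by linarith)
        have h6 : D * D ^ 2 = D ^ 3 := by ring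
        linarith [hP.hD3]
    · rfl

lemma f_zero_of_large (hf : Supp X f) {a b : Eis} (h : (X : ℝ) < (nm a : ℝ) * nm b) :
    f (a * b) = 0 := by
  by_contra hc
  have h1 := hf.le _ hc
  rw [nm_mul] at h1
  have h2 : (nm a : ℝ) * nm b ≤ X := by exact_mod_cast h1
  linarith

/-- symmetrisation of a sum over pairs -/
lemma sum_symm2 (A : Finset PrP) (g : PrP → PrP → ℂ) (hs : ∀ p q, g p q = g q p)
    (hd : ∀ p, g p p = 0) :
    ∑ p ∈ A, ∑ q ∈ A, g p q = 2 * ∑ p ∈ A, ∑ q ∈ A, if p < q then g p q else 0 := by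
  have h1 : ∑ p ∈ A, ∑ q ∈ A, g p q =
      ∑ p ∈ A, ∑ q ∈ A, (if p < q then g p q else 0) +
      ∑ p ∈ A, ∑ q ∈ A, (if q < p then g p q else 0) := by
    rw [← Finset.sum_add_distrib]
    refine Finset.sum_congr rfl fun p _ => ?_
    rw [← Finset.sum_add_distrib]
    refine Finset.sum_congr rfl fun q _ => ?_
    rcases lt_trichotomy p q with h | h | h
    · rw [if_pos h, if_neg h.not_gt, add_zero]
    · subst h; rw [hd]; simp
    · rw [if_neg h.not_gt, if_pos h, zero_add]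
  have h2 : ∑ p ∈ A, ∑ q ∈ A, (if q < p then g p q else 0) =
      ∑ p ∈ A, ∑ q ∈ A, (if p < q then g p q else 0) := by
    rw [Finset.sum_comm]
    refine Finset.sum_congr rfl fun p _ => Finset.sum_congr rfl fun q _ => ?_
    rw [hs]
  rw [h1, h2]; ring

open Classical in
/-- The terms of the Buchstab part with one prime. -/
lemma single_bound (hf : Supp X f) (hP : Params X w D Y V z) {E : ℝ}
    (h : ∀ V' : ℝ, V' ≤ V → ∀ α : Eis → ℂ, (∀ a, ‖α a‖ ≤ 1) →
      ‖∑ p ∈ PV X D V', ∑ a ∈ primBall X, α a * f (p.1 * a)‖ ≤ E) :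
    ‖∑ p ∈ (UX X).filter (fun p => D ≤ (nm p.1 : ℝ) ∧ (nm p.1 : ℝ) < z),
      (-1 : ℂ) ^ ({p} : Finset PrP).card * Wt X f {p}‖ ≤ 3 / 2 * E := by
  have hD := hP.hD
  set A := PA X D with hA
  have hAmem : ∀ p, p ∈ A ↔ p ∈ UX X ∧ D ≤ (nm p.1 : ℝ) := fun p => by
    rw [hA]; unfold PA; rw [Finset.mem_filter]
  -- rewrite as a sum over ordered pairs
  have e1 : ∑ p ∈ (UX X).filter (fun p => D ≤ (nm p.1 : ℝ) ∧ (nm p.1 : ℝ) < z),
      (-1 : ℂ) ^ ({p} : Finset PrP).card * Wt X f {p} =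
      - ∑ p ∈ A, ∑ q ∈ A, if p < q then f (p.1 * q.1) else 0 := by
    rw [← Finset.sum_neg_distrib]
    have hsub : (UX X).filter (fun p => D ≤ (nm p.1 : ℝ) ∧ (nm p.1 : ℝ) < z) ⊆ A := by
      intro p hp
      rw [Finset.mem_filter] at hp
      exact (hAmem p).mpr ⟨hp.1, hp.2.1⟩
    rw [← Finset.sum_subset hsub]
    · refine Finset.sum_congr rfl fun p hp => ?_
      rw [Finset.mem_filter] at hp
      rw [Wt_singleton hf hP hp.2.1 hp.2.2, Finset.card_singleton, pow_one, neg_one_mul]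
    · intro p hp hp'
      rw [neg_eq_zero]
      refine Finset.sum_eq_zero fun q hq => ?_
      split_ifs with hlt
      · refine f_zero_of_large hf ?_
        have hz : z ≤ (nm p.1 : ℝ) := by
          by_contra hc
          push Not at hc
          exact hp' (Finset.mem_filter.mpr ⟨((hAmem p).mp hp).1, ((hAmem p).mp hp).2, hc⟩)
        have hpq : (nm p.1 : ℝ) ≤ nm q.1 := by exact_mod_cast PrP.nm_le_of_le hlt.le
        have hz0 : 0 < z := by linarith [hP.hDz]
        nlinarith [hP.hz]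
      · rfl
  have e2 := sum_symm2 A (fun p q => f (p.1 * q.1)) (fun p q => by rw [mul_comm])
    (fun p => f_sq_zero hf p)
  -- the two bilinear sums
  have hPVA : ∀ W : ℝ, ∀ p, p ∈ PV X D W ↔ p ∈ A ∧ (nm p.1 : ℝ) ≤ W := by
    intro W p
    unfold PV
    rw [Finset.mem_filter, hAmem]
    exact ⟨fun h => ⟨⟨h.1, h.2.1⟩, h.2.2⟩, fun h => ⟨h.1.1, h.1.2, h.2⟩⟩
  have hAU : A ⊆ UX X := Finset.filter_subset _ _
  have hVU : PV X D V ⊆ UX X := Finset.filter_subset _ _
  have e3 : ∑ p ∈ A, ∑ q ∈ A, f (p.1 * q.1) =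
      2 * ∑ p ∈ PV X D V, ∑ q ∈ A, f (p.1 * q.1) -
        ∑ p ∈ PV X D V, ∑ q ∈ PV X D V, f (p.1 * q.1) := by
    have hsplit : ∀ g : PrP → ℂ, ∑ p ∈ A, g p = ∑ p ∈ PV X D V, g p +
        ∑ p ∈ A.filter (fun p => ¬ (nm p.1 : ℝ) ≤ V), g p := by
      intro g
      rw [← Finset.sum_filter_add_sum_filter_not A (fun p => (nm p.1 : ℝ) ≤ V)]
      congr 1
      refine Finset.sum_congr ?_ fun _ _ => rfl
      ext p
      rw [Finset.mem_filter, hPVA]
    have hc1 : ∑ p ∈ A.filter (fun p => ¬ (nm p.1 : ℝ) ≤ V), ∑ q ∈ A, f (p.1 * q.1) =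
        ∑ p ∈ A.filter (fun p => ¬ (nm p.1 : ℝ) ≤ V), ∑ q ∈ PV X D V, f (p.1 * q.1) := by
      refine Finset.sum_congr rfl fun p hp => ?_
      rw [hsplit]
      have : ∑ q ∈ A.filter (fun p => ¬ (nm p.1 : ℝ) ≤ V), f (p.1 * q.1) = 0 := by
        refine Finset.sum_eq_zero fun q hq => f_zero_of_large hf ?_
        have h1 := (Finset.mem_filter.mp hp).2
        have h2 := (Finset.mem_filter.mp hq).2
        push Not at h1 h2
        nlinarith [hP.hV2, hP.hV]
      rw [this, add_zero]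
    have hc2 : ∑ p ∈ A.filter (fun p => ¬ (nm p.1 : ℝ) ≤ V), ∑ q ∈ PV X D V, f (p.1 * q.1) =
        ∑ p ∈ PV X D V, ∑ q ∈ A.filter (fun p => ¬ (nm p.1 : ℝ) ≤ V), f (p.1 * q.1) := by
      rw [Finset.sum_comm]
      refine Finset.sum_congr rfl fun p _ => Finset.sum_congr rfl fun q _ => ?_
      rw [mul_comm]
    have hc3 : ∑ p ∈ PV X D V, ∑ q ∈ A, f (p.1 * q.1) =
        ∑ p ∈ PV X D V, ∑ q ∈ PV X D V, f (p.1 * q.1) +
        ∑ p ∈ PV X D V, ∑ q ∈ A.filter (fun p => ¬ (nm p.1 : ℝ) ≤ V), f (p.1 * q.1) := by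
      rw [← Finset.sum_add_distrib]
      exact Finset.sum_congr rfl fun p _ => hsplit _
    rw [hsplit (fun p => ∑ q ∈ A, f (p.1 * q.1)), hc1, hc2, hc3]
    ring
  have b1 : ‖∑ p ∈ PV X D V, ∑ q ∈ A, f (p.1 * q.1)‖ ≤ E := by
    have := h V le_rfl (fun a => if pset a ∈ A.image (fun p => ({p} : Finset PrP)) then (1 : ℂ)
      else 0) (fun a => by split_ifs <;> simp)
    convert this using 2
    refine Finset.sum_congr rfl fun p _ => ?_
    have h2 := bil_conv_prime hf {p} A hAU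
    rw [prd_singleton] at h2
    exact h2.symm
  have b2 : ‖∑ p ∈ PV X D V, ∑ q ∈ PV X D V, f (p.1 * q.1)‖ ≤ E := by
    have := h V le_rfl (fun a => if pset a ∈ (PV X D V).image (fun p => ({p} : Finset PrP)) then
      (1 : ℂ) else 0) (fun a => by split_ifs <;> simp)
    convert this using 2
    refine Finset.sum_congr rfl fun p _ => ?_
    have h2 := bil_conv_prime hf {p} (PV X D V) hVU
    rw [prd_singleton] at h2
    exact h2.symm
  have e4 : ∑ p ∈ A, ∑ q ∈ A, (if p < q then f (p.1 * q.1) else 0) =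
      ∑ p ∈ PV X D V, ∑ q ∈ A, f (p.1 * q.1) -
        (1 / 2) * ∑ p ∈ PV X D V, ∑ q ∈ PV X D V, f (p.1 * q.1) := by
    have : (2 : ℂ) * ∑ p ∈ A, ∑ q ∈ A, (if p < q then f (p.1 * q.1) else 0) =
        2 * (∑ p ∈ PV X D V, ∑ q ∈ A, f (p.1 * q.1) -
        (1 / 2) * ∑ p ∈ PV X D V, ∑ q ∈ PV X D V, f (p.1 * q.1)) := by
      rw [← e2, e3]; ring
    exact mul_left_cancel₀ (by norm_num) this
  rw [e1, e4, norm_neg]
  refine le_trans (norm_sub_le _ _) ?_
  rw [norm_mul]
  have : ‖(1 / 2 : ℂ)‖ = 1 / 2 := by norm_num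
  rw [this]
  linarith

/-! ### Products of two large primes -/

open Classical in
lemma mem_Wset {K : Finset PrP} : K ∈ Wset X w D V ↔
    K ⊆ UX X ∧ K.card = 2 ∧ (∀ p ∈ K, w ≤ (nm p.1 : ℝ)) ∧ Cr PrP.N D K ∧ V < nK K := by
  unfold Wset; rw [Finset.mem_filter, Finset.mem_powerset]

lemma mem_Cset {K : Finset PrP} : K ∈ Cset X D V ↔
    K ⊆ UX X ∧ K.card = 2 ∧ (∀ p ∈ K, V / D ≤ (nm p.1 : ℝ)) ∧ D ≤ nK K ∧ V * nK K ≤ X := by
  unfold Cset; rw [Finset.mem_filter, Finset.mem_powerset]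

lemma Wset_nonempty {K : Finset PrP} (h : K ∈ Wset X w D V) : K.Nonempty := by
  rw [← Finset.card_pos, (mem_Wset.mp h).2.1]; norm_num

open Classical in
/-- For `K ∈ Wset` the complementary variable has one or two primes. -/
lemma Wt_Wset (hf : Supp X f) (hP : Params X w D Y V z) {K : Finset PrP}
    (hK : K ∈ Wset X w D V) :
    Wt X f K = ∑ q ∈ PD X D, (if mn K < q then f (prd K * q.1) else 0) +
      ∑ q ∈ PA X D, f (prd K * q.1) +
      ∑ J ∈ Cset X D V, (if mn K < mn J then f (prd K * prd J) else 0) := by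
  have hD := hP.hD
  have hV := hP.hV
  have hKne := Wset_nonempty hK
  obtain ⟨hKU, hKc, hKw, hCr, hKV⟩ := mem_Wset.mp hK
  obtain ⟨c1, c2, c3, -⟩ := Cr_facts hCr (by omega)
  have hmV : V / D < nm (mn K).1 := by
    have : V / D < nK K / D := by
      have hD0 : 0 < D := by linarith
      gcongr
    linarith
  have hVD0 : 0 < V / D := div_pos hV (by linarith)
  set F : Finset PrP → ℂ := fun J => if (∀ p ∈ J, Ab K p) then f (prd K * prd J) else 0 with hF
  have e0 : Wt X f K = ∑ J ∈ (UX X).powerset, F J := by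
    unfold Wt; rw [Finset.sum_filter]
  have hAbs : ∀ q : PrP, (∀ p ∈ ({q} : Finset PrP), Ab K p) ↔ mn K < q := by
    intro q
    rw [forall_ab_iff hKne (Finset.singleton_nonempty q), mn_singleton]
  -- lower bound for norms of primes in J
  have hJlow : ∀ J : Finset PrP, (∀ p ∈ J, Ab K p) → ∀ p ∈ J, V / D ≤ (nm p.1 : ℝ) := by
    intro J hJ p hp
    have h1 := (ab_iff hKne).mp (hJ p hp)
    have h2 : (nm (mn K).1 : ℝ) ≤ nm p.1 := by exact_mod_cast PrP.nm_le_of_le h1.le
    linarith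
  have hdisj : Disjoint ((UX X).image (fun p => ({p} : Finset PrP))) (Cset X D V) := by
    rw [Finset.disjoint_left]
    intro J hJ hJ'
    rw [Finset.mem_image] at hJ
    obtain ⟨p, -, rfl⟩ := hJ
    have := (mem_Cset.mp hJ').2.1
    rw [Finset.card_singleton] at this
    omega
  have e1 : ∑ J ∈ (UX X).powerset, F J =
      ∑ J ∈ (UX X).image (fun p => ({p} : Finset PrP)), F J + ∑ J ∈ Cset X D V, F J := by
    rw [← Finset.sum_union hdisj]
    symm
    refine Finset.sum_subset ?_ ?_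
    · intro J hJ
      rcases Finset.mem_union.mp hJ with hJ | hJ
      · rw [Finset.mem_image] at hJ
        obtain ⟨p, hp, rfl⟩ := hJ
        rw [Finset.mem_powerset, Finset.singleton_subset_iff]; exact hp
      · rw [Finset.mem_powerset]; exact (mem_Cset.mp hJ).1
    · intro J hJ hJ'
      rw [Finset.mem_powerset] at hJ
      rw [hF]
      simp only
      split_ifs with hA
      · by_contra hne
        have h1 := lt_nK_mul hf hne
        have h2 := nK_mul_le hf hne
        have hlow := hJlow J hA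
        have hpow := pow_card_le_nK hVD0.le J hlow
        have hJX : V * nK J ≤ X := by nlinarith [one_le_nK J]
        have hVVD : (V / D) ^ 3 * V ≥ X := by
          have h3 : (V / D) ^ 3 * V = V ^ 4 / D ^ 3 := by
            field_simp
          rw [h3, ge_iff_le, le_div_iff₀ (by positivity)]
          exact hP.hVD
        have hJne : J.Nonempty := by
          by_contra hc
          rw [Finset.not_nonempty_iff_eq_empty] at hc
          rw [hc, nK_empty, mul_one] at h1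
          linarith [hP.hD2]
        -- one or two primes
        have hVD1 : 1 ≤ V / D := by
          rw [le_div_iff₀ (by linarith)]
          have hD1 : D ^ 2 ≤ D ^ 3 := pow_le_pow_right₀ hD.le (by norm_num)
          have := hP.hDV
          by_contra hc
          push Not at hc
          have : V ^ 2 < D ^ 2 := pow_lt_pow_left₀ (by linarith) hV.le (by norm_num)
          linarith
        have hc3 : J.card < 3 := by
          by_contra hc
          push Not at hc
          have h4 : (V / D) ^ 3 ≤ (V / D) ^ J.card := pow_le_pow_right₀ hVD1 hc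
          have h5 : (V / D) ^ 3 ≤ nK J := h4.trans hpow
          have h6 : V * (V / D) ^ 3 ≤ V * nK J := mul_le_mul_of_nonneg_left h5 hV.le
          have h7 : (X : ℝ) < nK K * nK J := by
            have : V * nK J < nK K * nK J := mul_lt_mul_of_pos_right hKV (nK_pos J)
            linarith
          linarith
        have hpos : 0 < J.card := Finset.card_pos.mpr hJne
        apply hJ'
        rw [Finset.mem_union]
        by_cases hc1 : J.card = 1
        · left
          obtain ⟨p, rfl⟩ := Finset.card_eq_one.mp hc1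
          rw [Finset.mem_image]
          exact ⟨p, hJ (Finset.mem_singleton_self p), rfl⟩
        · right
          have hc2 : J.card = 2 := by omega
          rw [mem_Cset]
          refine ⟨hJ, hc2, hlow, ?_, hJX⟩
          rw [hc2] at hpow
          refine le_trans ?_ hpow
          rw [div_pow, le_div_iff₀ (by positivity)]
          have : D * D ^ 2 = D ^ 3 := by ring
          rw [this]; exact hP.hDV
      · rfl
  have e2 : ∑ J ∈ (UX X).image (fun p => ({p} : Finset PrP)), F J =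
      ∑ q ∈ PD X D, (if mn K < q then f (prd K * q.1) else 0) +
      ∑ q ∈ PA X D, f (prd K * q.1) := by
    rw [Finset.sum_image (fun a _ b _ hab => Finset.singleton_injective hab)]
    rw [← Finset.sum_filter_add_sum_filter_not (UX X) (fun p => (nm p.1 : ℝ) < D)]
    refine congrArg₂ (· + ·) ?_ ?_
    · refine Finset.sum_congr rfl fun q _ => ?_
      simp only [hF, hAbs, prd_singleton]
    · have hset : (UX X).filter (fun p => ¬ (nm p.1 : ℝ) < D) = PA X D := by
        unfold PA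
        refine Finset.filter_congr fun p _ => ?_
        rw [not_lt]
      rw [hset]
      refine Finset.sum_congr rfl fun q hq => ?_
      unfold PA at hq
      rw [Finset.mem_filter] at hq
      have hlt : mn K < q := by
        refine PrP.lt_of_nm_lt ?_
        have := c1 _ (mn_mem hKne)
        exact_mod_cast lt_of_lt_of_le this hq.2
      simp only [hF, hAbs, prd_singleton]
      rw [if_pos hlt]
  have e3 : ∑ J ∈ Cset X D V, F J =
      ∑ J ∈ Cset X D V, (if mn K < mn J then f (prd K * prd J) else 0) := by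
    refine Finset.sum_congr rfl fun J hJ => ?_
    have hJne : J.Nonempty := by
      rw [← Finset.card_pos, (mem_Cset.mp hJ).2.1]; norm_num
    simp only [hF]
    by_cases hlt : mn K < mn J
    · rw [if_pos hlt, if_pos ((forall_ab_iff hKne hJne).mpr hlt)]
    · rw [if_neg hlt, if_neg (fun h => hlt ((forall_ab_iff hKne hJne).mp h))]
  rw [e0, e1, e2, e3]

open Classical in
/-- The part of `Wset` with a complementary prime of norm `≥ D`. -/
lemma W_prime_bound (hf : Supp X f) (hP : Params X w D Y V z) {E : ℝ}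
    (h : ∀ V' : ℝ, V' ≤ V → ∀ α : Eis → ℂ, (∀ a, ‖α a‖ ≤ 1) →
      ‖∑ p ∈ PV X D V', ∑ a ∈ primBall X, α a * f (p.1 * a)‖ ≤ E) :
    ‖∑ K ∈ Wset X w D V, ∑ q ∈ PA X D, f (prd K * q.1)‖ ≤ E := by
  have hV := hP.hV
  have hXV : (X : ℝ) / V ≤ V := by
    rw [div_le_iff₀ hV]
    have := hP.hV2
    nlinarith
  have h1 := h (X / V) hXV (fun a => if pset a ∈ Wset X w D V then (1 : ℂ) else 0)
    (fun a => by split_ifs <;> simp)
  have e1 : ∑ K ∈ Wset X w D V, ∑ q ∈ PA X D, f (prd K * q.1) =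
      ∑ p ∈ PV X D (X / V), ∑ a ∈ primBall X,
        (if pset a ∈ Wset X w D V then (1 : ℂ) else 0) * f (p.1 * a) := by
    rw [Finset.sum_comm]
    have hsub : PV X D (X / V) ⊆ PA X D := by
      intro p hp
      unfold PV at hp
      unfold PA
      rw [Finset.mem_filter] at hp ⊢
      exact ⟨hp.1, hp.2.1⟩
    rw [← Finset.sum_subset hsub]
    · refine Finset.sum_congr rfl fun p _ => ?_
      have h2 := bil_conv hf {p} (Wset X w D V) (Finset.filter_subset _ _) (fun _ => 1)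
      rw [prd_singleton] at h2
      rw [h2]
      refine Finset.sum_congr rfl fun K _ => ?_
      rw [one_mul, mul_comm]
    · intro q hq hq'
      refine Finset.sum_eq_zero fun K hK => f_zero_of_large hf ?_
      have hqX : (X : ℝ) / V < nm q.1 := by
        by_contra hc
        push Not at hc
        apply hq'
        unfold PA at hq
        unfold PV
        rw [Finset.mem_filter] at hq ⊢
        exact ⟨hq.1, hq.2, hc⟩
      have hKV : V < nK K := (mem_Wset.mp hK).2.2.2.2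
      rw [div_lt_iff₀ hV] at hqX
      have : (nm (prd K) : ℝ) = nK K := rfl
      rw [this]
      have hq0 : (0 : ℝ) < nm q.1 := by linarith [one_le_nm q]
      nlinarith
  rw [e1]; exact h1

open Classical in
/-- The part of `Wset` with two complementary primes. -/
lemma W_pair_bound (hf : Supp X f) {S : ℕ} (hS : (UX X).card ≤ 2 ^ S) {E : ℝ}
    (h : ∀ (φ : PrP → ℂ) (α : Eis → ℂ), (∀ p, ‖φ p‖ ≤ 1) → (∀ a, ‖α a‖ ≤ 1) →
      ‖∑ K ∈ Cset X D V, φ (mn K) * ∑ a ∈ primBall X, α a * f (prd K * a)‖ ≤ E) :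
    ‖∑ K ∈ Wset X w D V, ∑ J ∈ Cset X D V,
      (if mn K < mn J then f (prd K * prd J) else 0)‖ ≤ S * E := by
  refine Sep812.sep_bound (UX X) S hS _ _ mn mn
    (fun K hK => (mem_Wset.mp hK).1 (mn_mem (Wset_nonempty hK)))
    (fun J hJ => (mem_Cset.mp hJ).1 (mn_mem (by
      rw [← Finset.card_pos, (mem_Cset.mp hJ).2.1]; norm_num)))
    (fun K J => f (prd K * prd J)) E ?_
  intro φ ψ hφ hψ
  have h1 := h ψ (fun a => if pset a ∈ Wset X w D V then φ (mn (pset a)) else 0) hψ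
    (fun a => by split_ifs; exact hφ _; simp)
  convert h1 using 2
  rw [Finset.sum_comm]
  refine Finset.sum_congr rfl fun J _ => ?_
  have h2 := bil_conv hf J (Wset X w D V) (Finset.filter_subset _ _) (fun K => φ (mn K))
  rw [h2, Finset.mul_sum]
  refine Finset.sum_congr rfl fun K _ => ?_
  rw [mul_comm (prd K)]
  ring

/-! ### Edge triples -/

/-- Symmetrisation over triples: the sum over `p₂ < p₁, p₂ < p₃` is a third of the full sum. -/
lemma sum_symm3 (A : Finset PrP) (g : PrP → PrP → PrP → ℂ)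
    (h12 : ∀ p q r, g p q r = g q p r) (h23 : ∀ p q r, g p q r = g p r q)
    (hd : ∀ p r, g p p r = 0) :
    ∑ p ∈ A, ∑ q ∈ A, ∑ r ∈ A, g p q r =
      3 * ∑ p ∈ A, ∑ q ∈ A, ∑ r ∈ A, (if q < p ∧ q < r then g p q r else 0) := by
  have h13 : ∀ p q r, g p q r = g r q p := fun p q r => by
    rw [h12 p q r, h23 q p r, h12 q r p]
  have hd2 : ∀ p q, g p q q = 0 := fun p q => by rw [h13 p q q]; exact hd q p
  have hd3 : ∀ p q, g p q p = 0 := fun p q => by rw [h23 p q p]; exact hd p q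
  have e1 : ∑ p ∈ A, ∑ q ∈ A, ∑ r ∈ A, g p q r =
      ∑ p ∈ A, ∑ q ∈ A, ∑ r ∈ A, (if q < p ∧ q < r then g p q r else 0) +
      ∑ p ∈ A, ∑ q ∈ A, ∑ r ∈ A, (if p < q ∧ p < r then g p q r else 0) +
      ∑ p ∈ A, ∑ q ∈ A, ∑ r ∈ A, (if r < p ∧ r < q then g p q r else 0) := by
    simp only [← Finset.sum_add_distrib]
    refine Finset.sum_congr rfl fun p _ => Finset.sum_congr rfl fun q _ =>
      Finset.sum_congr rfl fun r _ => ?_
    by_cases hpq : p = q
    · subst hpq; rw [hd]; simp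
    by_cases hpr : p = r
    · subst hpr; rw [hd3]; simp
    by_cases hqr : q = r
    · subst hqr; rw [hd2]; simp
    rcases lt_or_gt_of_ne hpq with a1 | a1 <;> rcases lt_or_gt_of_ne hpr with a2 | a2 <;>
      rcases lt_or_gt_of_ne hqr with a3 | a3
    · rw [if_neg (fun h => absurd h.1 a1.not_gt), if_pos ⟨a1, a2⟩,
        if_neg (fun h => absurd h.1 a2.not_gt)]; simp
    · rw [if_neg (fun h => absurd h.1 a1.not_gt), if_pos ⟨a1, a2⟩,
        if_neg (fun h => absurd h.1 a2.not_gt)]; simp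
    · exact absurd (a1.trans a3) a2.not_gt
    · rw [if_neg (fun h => absurd h.1 a1.not_gt), if_neg (fun h => absurd h.2 a2.not_gt),
        if_pos ⟨a2, a3⟩]; simp
    · rw [if_pos ⟨a1, a3⟩, if_neg (fun h => absurd h.1 a1.not_gt),
        if_neg (fun h => absurd h.1 a2.not_gt)]; simp
    · exact absurd (a3.trans a1) a2.not_gt
    · rw [if_pos ⟨a1, a3⟩, if_neg (fun h => absurd h.1 a1.not_gt),
        if_neg (fun h => absurd h.2 a3.not_gt)]; simp
    · rw [if_neg (fun h => absurd h.2 a3.not_gt), if_neg (fun h => absurd h.1 a1.not_gt),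
        if_pos ⟨a2, a3⟩]; simp
  have e2 : ∑ p ∈ A, ∑ q ∈ A, ∑ r ∈ A, (if p < q ∧ p < r then g p q r else 0) =
      ∑ p ∈ A, ∑ q ∈ A, ∑ r ∈ A, (if q < p ∧ q < r then g p q r else 0) := by
    rw [Finset.sum_comm]
    refine Finset.sum_congr rfl fun p _ => Finset.sum_congr rfl fun q _ =>
      Finset.sum_congr rfl fun r _ => ?_
    rw [h12 p q r]
  have e3 : ∑ p ∈ A, ∑ q ∈ A, ∑ r ∈ A, (if r < p ∧ r < q then g p q r else 0) =
      ∑ p ∈ A, ∑ q ∈ A, ∑ r ∈ A, (if q < p ∧ q < r then g p q r else 0) := by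
    refine Finset.sum_congr rfl fun p _ => ?_
    rw [Finset.sum_comm]
    refine Finset.sum_congr rfl fun q _ => Finset.sum_congr rfl fun r _ => ?_
    rw [h23 p q r]
  rw [e1, e2, e3]; ring

lemma mem_PD {p : PrP} : p ∈ PD X D ↔ p ∈ UX X ∧ (nm p.1 : ℝ) < D := by
  unfold PD; rw [Finset.mem_filter]

open Classical in
/-- sum over pairs = sum over ordered pairs with `q < p` -/
lemma sum_pairs (A : Finset PrP) (F : Finset PrP → ℂ) :
    ∑ K ∈ A.powersetCard 2, F K =
      ∑ p ∈ A, ∑ q ∈ A, if q < p then F {p, q} else 0 := by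
  have e1 : ∑ p ∈ A, ∑ q ∈ A, (if q < p then F {p, q} else 0) =
      ∑ x ∈ (A ×ˢ A).filter (fun x => x.2 < x.1), F {x.1, x.2} := by
    rw [Finset.sum_filter, Finset.sum_product]
  rw [e1]
  symm
  refine Finset.sum_bij (fun x _ => ({x.1, x.2} : Finset PrP)) ?_ ?_ ?_ ?_
  · rintro ⟨p, q⟩ h
    rw [Finset.mem_filter, Finset.mem_product] at h
    rw [Finset.mem_powersetCard]
    refine ⟨?_, Finset.card_pair h.2.ne'⟩
    intro r hr
    rcases Finset.mem_insert.mp hr with hr | hr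
    · rw [hr]; exact h.1.1
    · rw [Finset.mem_singleton.mp hr]; exact h.1.2
  · rintro ⟨p, q⟩ h ⟨p', q'⟩ h' heq
    rw [Finset.mem_filter] at h h'
    simp only at h h' heq
    have hq : q ∈ ({p', q'} : Finset PrP) := by rw [← heq]; simp
    have hp : p ∈ ({p', q'} : Finset PrP) := by rw [← heq]; simp
    have hq' : q' ∈ ({p, q} : Finset PrP) := by rw [heq]; simp
    simp only [Finset.mem_insert, Finset.mem_singleton] at hq hp hq'
    rcases hp with hp | hp
    · subst hp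
      rcases hq with hq | hq
      · exact absurd h.2 (by rw [hq]; exact lt_irrefl _)
      · rw [hq]
    · subst hp
      rcases hq with hq | hq
      · subst hq
        exact absurd (h.2.trans h'.2) (lt_irrefl _)
      · exact absurd h.2 (by rw [hq]; exact lt_irrefl _)
  · intro K hK
    rw [Finset.mem_powersetCard] at hK
    obtain ⟨a, b, hab, rfl⟩ := Finset.card_eq_two.mp hK.2
    have ha : a ∈ A := hK.1 (by simp)
    have hb : b ∈ A := hK.1 (by simp)
    rcases lt_or_gt_of_ne hab with h | h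
    · exact ⟨(b, a), by simp [ha, hb, h], by simp [Finset.pair_comm]⟩
    · exact ⟨(a, b), by simp [ha, hb, h], rfl⟩
  · rintro ⟨p, q⟩ _; rfl

open Classical in
/-- The edge part of `Wset`. -/
lemma edge_eq (hf : Supp X f) (hP : Params X w D Y V z) :
    ∑ K ∈ Wset X w D V, ∑ q ∈ PD X D, (if mn K < q then f (prd K * q.1) else 0) =
      (1 / 3) * ∑ p ∈ PD X D, ∑ q ∈ PD X D, ∑ r ∈ PD X D, f (p.1 * q.1 * r.1) := by
  have hD := hP.hD
  have hD0 : 0 < D := by linarith
  have hsub : Wset X w D V ⊆ (PD X D).powersetCard 2 := by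
    intro K hK
    obtain ⟨hKU, hKc, hKw, hCr, hKV⟩ := mem_Wset.mp hK
    rw [Finset.mem_powersetCard]
    refine ⟨fun p hp => mem_PD.mpr ⟨hKU hp, (Cr_facts hCr (by omega)).1 p hp⟩, hKc⟩
  have e1 : ∑ K ∈ Wset X w D V, ∑ q ∈ PD X D, (if mn K < q then f (prd K * q.1) else 0) =
      ∑ K ∈ (PD X D).powersetCard 2,
        ∑ q ∈ PD X D, (if mn K < q then f (prd K * q.1) else 0) := by
    refine Finset.sum_subset hsub ?_
    intro K hK hK'
    refine Finset.sum_eq_zero fun q hq => ?_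
    split_ifs with hlt
    · by_contra hne
      apply hK'
      rw [Finset.mem_powersetCard] at hK
      have hq' := mem_PD.mp hq
      have hne2 : f (prd K * prd {q}) ≠ 0 := by rwa [prd_singleton]
      have h1 := lt_nK_mul hf hne2
      rw [nK_singleton] at h1
      have hKne : K.Nonempty := by rw [← Finset.card_pos, hK.2]; norm_num
      have hq0 := one_le_nm q
      have hK0 := nK_pos K
      have h2 : nK K * nm q.1 ≤ nK K * D := mul_le_mul_of_nonneg_left hq'.2.le hK0.le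
      have h3 : (X : ℝ) < 2 * (nK K * D) := by linarith
      rw [mem_Wset]
      refine ⟨fun p hp => (mem_PD.mp (hK.1 hp)).1, hK.2, ?_, ?_, ?_⟩
      · intro p hp
        have her := nK_erase hp
        have hcard : (K.erase p).card = 1 := by rw [Finset.card_erase_of_mem hp, hK.2]
        obtain ⟨r, hr⟩ := Finset.card_eq_one.mp hcard
        have hrK : r ∈ K := Finset.mem_of_mem_erase (by rw [hr]; exact Finset.mem_singleton_self r)
        rw [hr, nK_singleton] at her
        have hrD := (mem_PD.mp (hK.1 hrK)).2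
        have hp0 := one_le_nm p
        have h4 : nK K ≤ nm p.1 * D := by rw [← her]; exact mul_le_mul_of_nonneg_left hrD.le (by linarith)
        by_contra hc
        push Not at hc
        have h5 : (X : ℝ) < 2 * ((nm p.1 * D) * D) := by nlinarith
        have h6 : (nm p.1 : ℝ) * (2 * D ^ 2) ≤ w * (2 * D ^ 2) :=
          mul_le_mul_of_nonneg_right hc.le (by positivity)
        have h7 : 2 * ((nm p.1 * D) * D) = (nm p.1 : ℝ) * (2 * D ^ 2) := by ring
        linarith [hP.hwX]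
      · rw [Cr_iff]
        refine ⟨hKne, ?_, ?_⟩
        · have hcard : (K.erase (mn K)).card = 1 := by
            rw [Finset.card_erase_of_mem (mn_mem hKne), hK.2]
          obtain ⟨r, hr⟩ := Finset.card_eq_one.mp hcard
          have hrK : r ∈ K :=
            Finset.mem_of_mem_erase (by rw [hr]; exact Finset.mem_singleton_self r)
          rw [hr, nK_singleton]
          exact (mem_PD.mp (hK.1 hrK)).2
        · have := hP.hD2
          by_contra hc
          push Not at hc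
          nlinarith
      · have := hP.hDV2
        by_contra hc
        push Not at hc
        nlinarith
    · rfl
  rw [e1, sum_pairs]
  have e2 := sum_symm3 (PD X D) (fun p q r => f (p.1 * q.1 * r.1))
    (fun p q r => by rw [mul_comm p.1 q.1]) (fun p q r => by
      show f (p.1 * q.1 * r.1) = f (p.1 * r.1 * q.1)
      congr 1; ring)
    (fun p r => by
      by_contra hc
      have := hf.sq _ hc
      exact p.prime.not_isUnit (this _ (Dvd.intro _ rfl)))
  rw [e2, ← mul_assoc]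
  have h13 : (1 / 3 : ℂ) * 3 = 1 := by norm_num
  rw [h13, one_mul]
  refine Finset.sum_congr rfl fun p _ => Finset.sum_congr rfl fun q _ => ?_
  split_ifs with hqp
  · have hmn : mn ({p, q} : Finset PrP) = q := by
      have h1 : mn ({p, q} : Finset PrP) ≤ q := mn_le (by simp)
      have h2 := mn_mem (K := ({p, q} : Finset PrP)) ⟨p, by simp⟩
      rcases Finset.mem_insert.mp h2 with h3 | h3
      · exact absurd (h3 ▸ h1) (not_le.mpr hqp)
      · exact Finset.mem_singleton.mp h3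
    have hprd : prd ({p, q} : Finset PrP) = p.1 * q.1 := by
      rw [prd_insert (by rw [Finset.mem_singleton]; exact hqp.ne'), prd_singleton]
    rw [hmn, hprd]
    refine Finset.sum_congr rfl fun r _ => ?_
    by_cases hr : q < r
    · rw [if_pos hr, if_pos ⟨hqp, hr⟩]
    · rw [if_neg hr, if_neg (fun h => hr h.2)]
  · symm
    refine Finset.sum_eq_zero fun r _ => if_neg (fun h => hqp h.1)

open Classical in
/-- **Abstract sieve theorem** (fixed `X`, explicit parameters). -/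
theorem sieve_bound (hf : Supp X f) (hP : Params X w D Y V z) {S : ℕ}
    (hS : (UX X).card ≤ 2 ^ S) {E1 E2 E3 E4 E5 E6 : ℝ}
    (hTI : ∑ k ∈ (primBall X).filter (fun k => Squarefree k ∧ (nm k : ℝ) < Y),
      ‖∑ n ∈ (primBall X).filter (fun n => k ∣ n), f n‖ ≤ E1)
    (hPr : ∀ V' : ℝ, V' ≤ V → ∀ α : Eis → ℂ, (∀ a, ‖α a‖ ≤ 1) →
      ‖∑ p ∈ PV X D V', ∑ a ∈ primBall X, α a * f (p.1 * a)‖ ≤ E2)
    (hR : ∀ (φ : PrP → ℂ) (α : Eis → ℂ), (∀ p, ‖φ p‖ ≤ 1) → (∀ a, ‖α a‖ ≤ 1) →
      ‖∑ K ∈ Rset X w D V, (-1 : ℂ) ^ K.card * φ (mn K) *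
        ∑ a ∈ primBall X, α a * f (prd K * a)‖ ≤ E3)
    (hC : ∀ (φ : PrP → ℂ) (α : Eis → ℂ), (∀ p, ‖φ p‖ ≤ 1) → (∀ a, ‖α a‖ ≤ 1) →
      ‖∑ K ∈ Cset X D V, φ (mn K) * ∑ a ∈ primBall X, α a * f (prd K * a)‖ ≤ E4)
    (hL : ∀ (φ : PrP → ℂ) (α : Eis → ℂ), (∀ p, ‖φ p‖ ≤ 1) → (∀ a, ‖α a‖ ≤ 1) →
      ‖∑ K ∈ Lset X w z D Y, (-1 : ℂ) ^ K.card * φ (mn K) *
        ∑ a ∈ primBall X, α a * f (prd K * a)‖ ≤ E5)
    (hE : ‖∑ p ∈ PD X D, ∑ q ∈ PD X D, ∑ r ∈ PD X D, f (p.1 * q.1 * r.1)‖ ≤ E6) :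
    ‖∑ p ∈ (UX X).filter (fun p => z ≤ (nm p.1 : ℝ)), f p.1‖ ≤
      E1 + 5 / 2 * E2 + S * (E3 + E4 + E5) + 1 / 3 * E6 := by
  have hz0 : 0 ≤ z := by linarith [hP.hD, hP.hDz]
  rw [exact hf hP.hX (hP.hwD.trans hP.hDz) hz0 hP.hz hP.hD hP.hDY, Bset_split hP]
  have h1 := TI_bound hP hTI
  have h2 := L_bound hf hP hS hL
  have h3 := R_bound hf hP hS hR
  have h4 := single_bound hf hP hPr
  have h5 : ∑ K ∈ Wset X w D V, (-1 : ℂ) ^ K.card * Wt X f K =
      ∑ K ∈ Wset X w D V, ∑ q ∈ PD X D, (if mn K < q then f (prd K * q.1) else 0) +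
      ∑ K ∈ Wset X w D V, ∑ q ∈ PA X D, f (prd K * q.1) +
      ∑ K ∈ Wset X w D V, ∑ J ∈ Cset X D V, (if mn K < mn J then f (prd K * prd J) else 0) := by
    rw [← Finset.sum_add_distrib, ← Finset.sum_add_distrib]
    refine Finset.sum_congr rfl fun K hK => ?_
    rw [(mem_Wset.mp hK).2.1, Wt_Wset hf hP hK]
    norm_num
  have h6 : ‖∑ K ∈ Wset X w D V, ∑ q ∈ PD X D, (if mn K < q then f (prd K * q.1) else 0)‖ ≤
      1 / 3 * E6 := by
    rw [edge_eq hf hP, norm_mul]
    have : ‖(1 / 3 : ℂ)‖ = 1 / 3 := by norm_num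
    rw [this]
    exact mul_le_mul_of_nonneg_left hE (by norm_num)
  have h7 := W_prime_bound hf hP hPr
  have h8 := W_pair_bound (w := w) hf hS hC
  rw [h5]
  refine le_trans (norm_add_le _ _) ?_
  refine le_trans (add_le_add (norm_add_le _ _) (norm_add_le _ _)) ?_
  have h9 := norm_add_le (∑ K ∈ Wset X w D V, ∑ q ∈ PD X D,
      (if mn K < q then f (prd K * q.1) else 0) + ∑ K ∈ Wset X w D V, ∑ q ∈ PA X D,
        f (prd K * q.1)) (∑ K ∈ Wset X w D V, ∑ J ∈ Cset X D V,
          (if mn K < mn J then f (prd K * prd J) else 0))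
  have h10 := norm_add_le (∑ K ∈ Wset X w D V, ∑ q ∈ PD X D,
      (if mn K < q then f (prd K * q.1) else 0)) (∑ K ∈ Wset X w D V, ∑ q ∈ PA X D,
        f (prd K * q.1))
  have h11 := norm_add_le (∑ p ∈ (UX X).filter (fun p => D ≤ (nm p.1 : ℝ) ∧ (nm p.1 : ℝ) < z),
      (-1 : ℂ) ^ ({p} : Finset PrP).card * Wt X f {p})
      (∑ K ∈ Rset X w D V, (-1 : ℂ) ^ K.card * Wt X f K)
  linarith

end Crest.Agent.R012.Sieve812
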