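import Crest.Agent.R012.SieveC_812
import Crest.Agent.R012.SpecMain_48
import Crest.Agent.R012.Dens_420
import Crest.Agent.R012.GaussInst_880
import Crest.Agent.R012.Weight_600
import Crest.Agent.R012.PC_355

-- ▼ part R012/SievePar_812
section

/-!
# Row 12: the parameters of the sieve theorem for large `X`
-/

set_option autoImplicit false

noncomputable section

namespace Crest.Agent.R012.Sieve812

open Finset Eis Buch420 Main48

lemma supp_FX (l : ℤ) (X : ℕ) : Supp X (FX l X) := by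
  classical
  refine ⟨fun n hn => ?_, fun n hn => ?_, fun n hn => ?_⟩
  · unfold FX at hn
    split_ifs at hn with h
    · unfold Fl at hn
      split_ifs at hn with h2
      · exact h2
      · exact absurd rfl hn
    · exact absurd rfl hn
  · unfold FX at hn
    split_ifs at hn with h
    · exact h.2
    · exact absurd rfl hn
  · unfold FX at hn
    split_ifs at hn with h
    · exact h.1
    · exact absurd rfl hn

/-- The parameters are admissible as soon as `L^C`, `wX`, `2` are at most `X^ε`. -/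
lemma params_of {X : ℕ} {C η ε : ℝ} (hC : 1 ≤ C) (hη : 0 < η) (hη1 : η ≤ 1 / 100)
    (hε : ε = η / 4) (hX : 16 ≤ X) (hL : 1 < LX X) (h1 : LX X ^ C ≤ (X : ℝ) ^ ε)
    (h2 : wX X ≤ (X : ℝ) ^ ε) (h3 : 2 ≤ (X : ℝ) ^ ε) :
    Params X (wX X) ((X : ℝ) ^ ((1 : ℝ) / 3) * LX X ^ C) ((X : ℝ) ^ ((2 : ℝ) / 5))
      ((X : ℝ) ^ (1 / 2 + η)) (Real.sqrt X + 1) := by
  have hX1 : (1 : ℝ) ≤ X := by exact_mod_cast (by omega : 1 ≤ X)
  have hX16 : (16 : ℝ) ≤ X := by exact_mod_cast hX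
  have hX0 : (0 : ℝ) < X := by linarith
  have hεp : 0 < ε := by rw [hε]; positivity
  have hε2 : ε ≤ 1 / 400 := by rw [hε]; linarith
  have hLC1 : 1 < LX X ^ C := Real.one_lt_rpow hL (by linarith)
  have hLC0 : 0 < LX X ^ C := by linarith
  set D := (X : ℝ) ^ ((1 : ℝ) / 3) * LX X ^ C with hD
  have hpow1 : ∀ a : ℝ, 0 ≤ a → 1 ≤ (X : ℝ) ^ a := fun a ha => Real.one_le_rpow hX1 ha
  have hX3 : 1 ≤ (X : ℝ) ^ ((1 : ℝ) / 3) := hpow1 _ (by norm_num)
  have hD1 : 1 < D := by rw [hD]; nlinarith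
  have hD0 : 0 < D := by linarith
  have hDle : D ≤ (X : ℝ) ^ (1 / 3 + ε) := by
    rw [hD, Real.rpow_add hX0]
    exact mul_le_mul_of_nonneg_left h1 (by positivity)
  have hDge : (X : ℝ) ^ ((1 : ℝ) / 3) ≤ D := by rw [hD]; nlinarith
  have hw0 : 0 ≤ wX X := (Real.exp_pos _).le
  have mono : ∀ a b : ℝ, a ≤ b → (X : ℝ) ^ a ≤ (X : ℝ) ^ b := fun a b hab =>
    Real.rpow_le_rpow_of_exponent_le hX1 hab
  have hXone : (X : ℝ) = (X : ℝ) ^ (1 : ℝ) := (Real.rpow_one _).symm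
  have hsqrt : Real.sqrt X = (X : ℝ) ^ ((1 : ℝ) / 2) := Real.sqrt_eq_rpow _
  have hsq4 : 4 ≤ Real.sqrt X := by
    have : Real.sqrt 16 = 4 := by
      rw [show (16 : ℝ) = 4 ^ 2 by norm_num]; exact Real.sqrt_sq (by norm_num)
    rw [← this]; exact Real.sqrt_le_sqrt hX16
  have hsqX : Real.sqrt X ^ 2 = X := Real.sq_sqrt hX0.le
  -- D^2, D^3
  have hD3 : D ^ 3 = X * (LX X ^ C) ^ 3 := by
    rw [hD, mul_pow, ← Real.rpow_natCast ((X : ℝ) ^ ((1 : ℝ) / 3)) 3, ← Real.rpow_mul hX0.le]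
    norm_num
  have hD2le : D ^ 2 ≤ (X : ℝ) ^ (2 / 3 + 2 * ε) := by
    have : (X : ℝ) ^ (2 / 3 + 2 * ε) = ((X : ℝ) ^ (1 / 3 + ε)) ^ 2 := by
      rw [← Real.rpow_natCast, ← Real.rpow_mul hX0.le]; congr 1; push_cast; ring
    rw [this]
    exact pow_le_pow_left₀ hD0.le hDle 2
  have hD3le : D ^ 3 ≤ (X : ℝ) ^ (1 + 3 * ε) := by
    have : (X : ℝ) ^ (1 + 3 * ε) = ((X : ℝ) ^ (1 / 3 + ε)) ^ 3 := by
      rw [← Real.rpow_natCast, ← Real.rpow_mul hX0.le]; congr 1; push_cast; ring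
    rw [this]
    exact pow_le_pow_left₀ hD0.le hDle 3
  have hVsq : ((X : ℝ) ^ (1 / 2 + η)) ^ 2 = (X : ℝ) ^ (1 + 2 * η) := by
    rw [← Real.rpow_natCast, ← Real.rpow_mul hX0.le]; congr 1; push_cast; ring
  have hV4 : ((X : ℝ) ^ (1 / 2 + η)) ^ 4 = (X : ℝ) ^ (2 + 4 * η) := by
    rw [← Real.rpow_natCast, ← Real.rpow_mul hX0.le]; congr 1; push_cast; ring
  refine
    { hX := by omega
      hw := hw0
      hV := by positivity
      hD := hD1
      hwD := ?_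
      hDY := ?_
      hYX := ?_
      hDz := ?_
      hz := ?_
      hz2 := ?_
      hD3 := ?_
      hD2 := ?_
      hDV2 := ?_
      hwX := ?_
      hYw := ?_
      hV2 := ?_
      hDV := ?_
      hVD := ?_ }
  · exact h2.trans ((mono _ _ (by linarith)).trans hDge)
  · exact hDle.trans (mono _ _ (by linarith))
  · calc (X : ℝ) ^ ((2 : ℝ) / 5) ≤ (X : ℝ) ^ (1 : ℝ) := mono _ _ (by norm_num)
      _ = X := Real.rpow_one _
  · have : D ≤ Real.sqrt X := by rw [hsqrt]; exact hDle.trans (mono _ _ (by linarith))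
    linarith
  · nlinarith
  · nlinarith
  · rw [hD3]
    have : 1 < (LX X ^ C) ^ 3 := one_lt_pow₀ hLC1 (by norm_num)
    nlinarith
  · calc 2 * D ^ 2 ≤ (X : ℝ) ^ ε * (X : ℝ) ^ (2 / 3 + 2 * ε) :=
          mul_le_mul h3 hD2le (by positivity) (by positivity)
      _ = (X : ℝ) ^ (ε + (2 / 3 + 2 * ε)) := (Real.rpow_add hX0 _ _).symm
      _ ≤ (X : ℝ) ^ (1 : ℝ) := mono _ _ (by linarith)
      _ = X := Real.rpow_one _
  · calc 2 * (D * (X : ℝ) ^ (1 / 2 + η)) ≤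
          (X : ℝ) ^ ε * ((X : ℝ) ^ (1 / 3 + ε) * (X : ℝ) ^ (1 / 2 + η)) := by gcongr
      _ = (X : ℝ) ^ (ε + (1 / 3 + ε + (1 / 2 + η))) := by
          rw [Real.rpow_add hX0 ε, Real.rpow_add hX0 (1 / 3 + ε)]
      _ ≤ (X : ℝ) ^ (1 : ℝ) := mono _ _ (by linarith)
      _ = X := Real.rpow_one _
  · calc wX X * (2 * D ^ 2) ≤
          (X : ℝ) ^ ε * ((X : ℝ) ^ ε * (X : ℝ) ^ (2 / 3 + 2 * ε)) := by gcongr
      _ = (X : ℝ) ^ (ε + (ε + (2 / 3 + 2 * ε))) := by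
          rw [Real.rpow_add hX0 ε, Real.rpow_add hX0 ε]
      _ ≤ (X : ℝ) ^ (1 : ℝ) := mono _ _ (by linarith)
      _ = X := Real.rpow_one _
  · calc 2 * ((X : ℝ) ^ ((2 : ℝ) / 5) * wX X) ≤
          (X : ℝ) ^ ε * ((X : ℝ) ^ ((2 : ℝ) / 5) * (X : ℝ) ^ ε) := by gcongr
      _ = (X : ℝ) ^ (ε + (2 / 5 + ε)) := by
          rw [Real.rpow_add hX0 ε, Real.rpow_add hX0 (2 / 5)]
      _ ≤ (X : ℝ) ^ (1 : ℝ) := mono _ _ (by linarith)
      _ = X := Real.rpow_one _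
  · rw [hVsq]
    calc (X : ℝ) = (X : ℝ) ^ (1 : ℝ) := (Real.rpow_one _).symm
      _ ≤ _ := mono _ _ (by linarith)
  · rw [hVsq]
    exact hD3le.trans (mono _ _ (by rw [hε]; linarith))
  · rw [hV4]
    calc (X : ℝ) * D ^ 3 ≤ (X : ℝ) ^ (1 : ℝ) * (X : ℝ) ^ (1 + 3 * ε) := by
          rw [Real.rpow_one]; exact mul_le_mul_of_nonneg_left hD3le hX0.le
      _ = (X : ℝ) ^ (1 + (1 + 3 * ε)) := (Real.rpow_add hX0 _ _).symm
      _ ≤ _ := mono _ _ (by rw [hε]; linarith)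

open Filter Topology in
lemma tendsto_LX : Tendsto LX atTop atTop :=
  Real.tendsto_log_atTop.comp tendsto_natCast_atTop_atTop

open Filter Topology Asymptotics in
lemma eventually_LX_le (C ε : ℝ) (hε : 0 < ε) : ∀ᶠ X : ℕ in atTop, LX X ^ C ≤ (X : ℝ) ^ ε := by
  have h := (isLittleO_log_rpow_rpow_atTop C hε).bound (c := 1) one_pos
  have h2 := tendsto_natCast_atTop_atTop (R := ℝ) |>.eventually h
  filter_upwards [h2, tendsto_LX.eventually_ge_atTop 0] with X hX hL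
  have hL' : 0 ≤ Real.log X := hL
  rw [one_mul, Real.norm_of_nonneg (Real.rpow_nonneg hL' C),
    Real.norm_of_nonneg (by positivity)] at hX
  exact hX

open Filter Topology in
lemma eventually_wX_le (ε : ℝ) (hε : 0 < ε) : ∀ᶠ X : ℕ in atTop, wX X ≤ (X : ℝ) ^ ε := by
  have h := (tendsto_rpow_atTop (y := (1 : ℝ) / 3) (by norm_num)).comp tendsto_LX
  filter_upwards [h.eventually_ge_atTop (1 / ε), tendsto_LX.eventually_ge_atTop 1,
    eventually_ge_atTop 1] with X hX hL hX1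
  have hX0 : (0 : ℝ) < X := by exact_mod_cast hX1
  have hL0 : 0 < LX X := by linarith
  have e2 : LX X = LX X ^ ((1 : ℝ) / 3) * LX X ^ ((2 : ℝ) / 3) := by
    rw [← Real.rpow_add hL0]; norm_num
  have hX' : 1 / ε ≤ LX X ^ ((1 : ℝ) / 3) := hX
  have h3 : 1 ≤ ε * LX X ^ ((1 : ℝ) / 3) := by
    rw [div_le_iff₀ hε] at hX'; linarith
  have h4 : 0 ≤ LX X ^ ((2 : ℝ) / 3) := by positivity
  have h5 : LX X ^ ((2 : ℝ) / 3) ≤ LX X * ε := by
    calc LX X ^ ((2 : ℝ) / 3) ≤ (ε * LX X ^ ((1 : ℝ) / 3)) * LX X ^ ((2 : ℝ) / 3) :=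
          le_mul_of_one_le_left h4 h3
      _ = (LX X ^ ((1 : ℝ) / 3) * LX X ^ ((2 : ℝ) / 3)) * ε := by ring
      _ = LX X * ε := by rw [← e2]
  unfold wX
  rw [Real.rpow_def_of_pos hX0]
  exact Real.exp_le_exp.mpr h5

open Filter Topology in
lemma eventually_two_le (ε : ℝ) (hε : 0 < ε) : ∀ᶠ X : ℕ in atTop, 2 ≤ (X : ℝ) ^ ε :=
  ((tendsto_rpow_atTop hε).comp tendsto_natCast_atTop_atTop).eventually_ge_atTop 2

open Filter Topology in
theorem eventually_params {C η : ℝ} (hC : 1 ≤ C) (hη : 0 < η) (hη1 : η ≤ 1 / 100) :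
    ∀ᶠ X : ℕ in atTop,
      Params X (wX X) ((X : ℝ) ^ ((1 : ℝ) / 3) * LX X ^ C) ((X : ℝ) ^ ((2 : ℝ) / 5))
        ((X : ℝ) ^ (1 / 2 + η)) (Real.sqrt X + 1) := by
  have hε : 0 < η / 4 := by positivity
  filter_upwards [eventually_LX_le C (η / 4) hε, eventually_wX_le (η / 4) hε,
    eventually_two_le (η / 4) hε, eventually_ge_atTop 16, tendsto_LX.eventually_gt_atTop 1]
    with X h1 h2 h3 h4 h5
  exact params_of hC hη hη1 rfl h4 h5 h1 h2 h3

end Crest.Agent.R012.Sieve812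
end
end

-- ▼ part R012/SieveTI_812
section

/-!
# Row 12: the type I hypothesis of the sieve theorem from `Main48.TI_Prop`
-/

set_option autoImplicit false

noncomputable section

namespace Crest.Agent.R012.Sieve812

open Finset Eis Buch420 Main48

open Classical in
lemma sum_multiples (X : ℕ) {k : Eis} (hk : IsPrim k) (g : Eis → ℂ) :
    ∑ n ∈ (primBall X).filter (fun n => k ∣ n), g n =
      ∑ m ∈ (primBall X).filter (fun m => nm (k * m) ≤ X), g (k * m) := by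
  symm
  refine Finset.sum_bij (fun m _ => k * m) ?_ ?_ ?_ ?_
  · intro m hm
    rw [Finset.mem_filter, mem_primBall] at hm
    rw [Finset.mem_filter, mem_primBall]
    exact ⟨⟨hm.2, hk.mul hm.1.2⟩, dvd_mul_right _ _⟩
  · intro a _ b _ hab
    exact mul_left_cancel₀ hk.ne_zero hab
  · intro n hn
    rw [Finset.mem_filter, mem_primBall] at hn
    obtain ⟨⟨h1, h2⟩, m, rfl⟩ := hn
    refine ⟨m, ?_, rfl⟩
    rw [Finset.mem_filter, mem_primBall]
    have hm : IsPrim m := IsPrim.of_mul_left h2 hk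
    refine ⟨⟨?_, hm⟩, h1⟩
    exact (nm_le_of_dvd' h2.ne_zero (dvd_mul_left _ _)).trans h1
  · intro m _; rfl

open Classical in
lemma sum_FX_multiples (l : ℤ) (X : ℕ) {k : Eis} (hk : IsPrim k) :
    ∑ n ∈ (primBall X).filter (fun n => k ∣ n), FX l X n =
      ∑ m ∈ (primBall X).filter (fun m => nm (k * m) ≤ X), Fl l (k * m) -
      ∑ m ∈ (primBall X).filter (fun m => nm (k * m) ≤ X / 2), Fl l (k * m) := by
  rw [sum_multiples X hk]
  have h1 : ∑ m ∈ (primBall X).filter (fun m => nm (k * m) ≤ X / 2), Fl l (k * m) =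
      ∑ m ∈ (primBall X).filter (fun m => nm (k * m) ≤ X),
        if nm (k * m) ≤ X / 2 then Fl l (k * m) else 0 := by
    rw [← Finset.sum_filter]
    refine Finset.sum_congr ?_ fun _ _ => rfl
    ext m
    rw [Finset.mem_filter, Finset.mem_filter, Finset.mem_filter]
    constructor
    · rintro ⟨h1, h2⟩; exact ⟨⟨h1, by omega⟩, h2⟩
    · rintro ⟨⟨h1, h2⟩, h3⟩; exact ⟨h1, h3⟩
  rw [h1, ← Finset.sum_sub_distrib]
  refine Finset.sum_congr rfl fun m hm => ?_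
  rw [Finset.mem_filter] at hm
  unfold FX
  by_cases h2 : nm (k * m) ≤ X / 2
  · rw [if_pos h2, if_neg (by rintro ⟨h3, -⟩; omega), sub_self]
  · rw [if_neg h2, if_pos ⟨by omega, hm.2⟩, sub_zero]

open Classical in
theorem TI_use (h : TI_Prop) (l : ℤ) : ∃ δ C : ℝ, 0 < δ ∧ 0 < C ∧ ∀ X : ℕ, 2 ≤ X →
    ∑ k ∈ (primBall X).filter (fun k => Squarefree k ∧ (nm k : ℝ) < (X : ℝ) ^ ((2 : ℝ) / 5)),
      ‖∑ n ∈ (primBall X).filter (fun n => k ∣ n), FX l X n‖ ≤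
        C * (X : ℝ) ^ (5 / 6 - δ) := by
  obtain ⟨δ, C, hδ, hC, hh⟩ := h l (1 / 5) (by norm_num)
  refine ⟨δ, 2 * C, hδ, by positivity, fun X hX => ?_⟩
  have hX1 : (1 : ℝ) ≤ X := by exact_mod_cast (by omega : 1 ≤ X)
  have hsub : (primBall X).filter
      (fun k => Squarefree k ∧ (nm k : ℝ) < (X : ℝ) ^ ((2 : ℝ) / 5)) ⊆
      (primBall X).filter (fun d => Squarefree d ∧ (nm d : ℝ) ≤ (X : ℝ) ^ (2 / 3 - (1 : ℝ) / 5)) := by
    intro k hk
    rw [Finset.mem_filter] at hk ⊢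
    refine ⟨hk.1, hk.2.1, hk.2.2.le.trans ?_⟩
    exact Real.rpow_le_rpow_of_exponent_le hX1 (by norm_num)
  have h1 := hh X hX (fun _ => X) (fun _ => le_rfl)
  have h2 := hh X hX (fun _ => X / 2) (fun _ => Nat.div_le_self _ _)
  calc ∑ k ∈ (primBall X).filter
        (fun k => Squarefree k ∧ (nm k : ℝ) < (X : ℝ) ^ ((2 : ℝ) / 5)),
        ‖∑ n ∈ (primBall X).filter (fun n => k ∣ n), FX l X n‖
      ≤ ∑ k ∈ (primBall X).filter
        (fun k => Squarefree k ∧ (nm k : ℝ) < (X : ℝ) ^ ((2 : ℝ) / 5)),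
        (‖∑ m ∈ (primBall X).filter (fun m => nm (k * m) ≤ X), Fl l (k * m)‖ +
          ‖∑ m ∈ (primBall X).filter (fun m => nm (k * m) ≤ X / 2), Fl l (k * m)‖) := by
        refine Finset.sum_le_sum fun k hk => ?_
        rw [Finset.mem_filter, mem_primBall] at hk
        rw [sum_FX_multiples l X hk.1.2]
        exact norm_sub_le _ _
    _ ≤ ∑ k ∈ (primBall X).filter
        (fun d => Squarefree d ∧ (nm d : ℝ) ≤ (X : ℝ) ^ (2 / 3 - (1 : ℝ) / 5)),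
        (‖∑ m ∈ (primBall X).filter (fun m => nm (k * m) ≤ X), Fl l (k * m)‖ +
          ‖∑ m ∈ (primBall X).filter (fun m => nm (k * m) ≤ X / 2), Fl l (k * m)‖) :=
        Finset.sum_le_sum_of_subset_of_nonneg hsub fun _ _ _ => by positivity
    _ ≤ C * (X : ℝ) ^ (5 / 6 - δ) + C * (X : ℝ) ^ (5 / 6 - δ) := by
        rw [Finset.sum_add_distrib]
        exact add_le_add h1 h2
    _ = 2 * C * (X : ℝ) ^ (5 / 6 - δ) := by ring

/-! ### the number of primes -/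

/-- `S(X)` with `#(UX X) ≤ 2^S(X)`. -/
def SX (X : ℕ) : ℕ := Nat.clog 2 (12 * X)

lemma card_UX_le {X : ℕ} (hX : 1 ≤ X) : (UX X).card ≤ 2 ^ SX X := by
  classical
  have h1 : (UX X).card ≤ (ball X).card := by
    have h2 : ((UX X).image (fun p => p.1)).card = (UX X).card :=
      Finset.card_image_of_injective _ Subtype.val_injective
    rw [← h2]
    refine Finset.card_le_card fun z hz => ?_
    rw [Finset.mem_image] at hz
    obtain ⟨p, hp, rfl⟩ := hz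
    rw [mem_ball]; exact mem_UX.mp hp
  have h3 : ((ball X).card : ℝ) ≤ 12 * X :=
    Dens420.card_nm_le (by exact_mod_cast hX) (ball X) (fun z hz => by exact_mod_cast mem_ball.mp hz)
  have h4 : (ball X).card ≤ 12 * X := by exact_mod_cast h3
  exact (h1.trans h4).trans (Nat.le_pow_clog (by norm_num) _)

lemma SX_le {X : ℕ} (hX : 12 ≤ X) : (SX X : ℝ) ≤ 5 * LX X := by
  have hX0 : (0 : ℝ) < X := by exact_mod_cast (by omega : 0 < X)
  have h1 : 1 < 12 * X := by omega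
  have hS : 0 < SX X := Nat.clog_pos (by norm_num) h1
  have h2 : 2 ^ (SX X - 1) < 12 * X := Nat.pow_pred_clog_lt_self (by norm_num) h1
  have h3 : ((2 : ℝ)) ^ (SX X - 1) < 12 * X := by exact_mod_cast h2
  have h4 : ((SX X - 1 : ℕ) : ℝ) * Real.log 2 < Real.log (12 * X) := by
    rw [← Real.log_pow]
    exact Real.log_lt_log (by positivity) h3
  have h5 : Real.log (12 * X) ≤ 2 * LX X := by
    rw [Real.log_mul (by norm_num) hX0.ne']
    have : Real.log 12 ≤ Real.log X := Real.log_le_log (by norm_num) (by exact_mod_cast hX)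
    unfold LX; linarith
  have h6 : ((SX X - 1 : ℕ) : ℝ) = SX X - 1 := by
    rw [Nat.cast_sub hS]; norm_num
  rw [h6] at h4
  have h7 := Real.log_two_gt_d9
  have h8 : 2 ≤ LX X := by
    have h9 : Real.log 12 ≤ LX X := Real.log_le_log (by norm_num) (by exact_mod_cast hX)
    have h10 : Real.log 12 = 2 * Real.log 2 + Real.log 3 := by
      rw [show (12 : ℝ) = 2 ^ 2 * 3 by norm_num, Real.log_mul (by norm_num) (by norm_num),
        Real.log_pow]; norm_num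
    have h11 : 1 < Real.log 3 := by
      rw [Real.lt_log_iff_exp_lt (by norm_num)]
      have := Real.exp_one_lt_d9
      linarith
    linarith
  have h12 : (SX X : ℝ) * Real.log 2 < 2 * LX X + Real.log 2 := by linarith
  have h13 : (0 : ℝ) ≤ SX X := Nat.cast_nonneg _
  have h14 : Real.log 2 < 0.7 := by have := Real.log_two_lt_d9; linarith
  nlinarith

end Crest.Agent.R012.Sieve812
end
end

-- ▼ part R012/SieveFin_812
section

/-!
# Row 12: final combination of the sieve theorem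

`sieve_core`: `TI_Prop`, the adapters (helper50) and the Legendre part (helper420) imply
`Main48.Dyadic_Prop`.
-/

set_option autoImplicit false

noncomputable section

namespace Crest.Agent.R012.Sieve812

open Finset Eis Buch420 Main48


open Classical in
/-- the four adapters: primes, composite `K`, pairs, edge triples -/
def Adapters (l : ℤ) (A : ℕ) : Prop :=
  ∃ (η C0 K : ℝ) (X0 : ℕ), 0 < η ∧ η ≤ 1 / 100 ∧ 1 ≤ C0 ∧ ∀ X : ℕ, X0 ≤ X →
    (∀ V' : ℝ, V' ≤ (X : ℝ) ^ (1 / 2 + η) → ∀ α : Eis → ℂ, (∀ a, ‖α a‖ ≤ 1) →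
      ‖∑ p ∈ PV X ((X : ℝ) ^ ((1 : ℝ) / 3) * LX X ^ C0) V',
        ∑ a ∈ primBall X, α a * FX l X (p.1 * a)‖ ≤
        K * (X : ℝ) ^ ((5 : ℝ) / 6) / LX X ^ A) ∧
    (∀ (φ : PrP → ℂ) (α : Eis → ℂ), (∀ p, ‖φ p‖ ≤ 1) → (∀ a, ‖α a‖ ≤ 1) →
      ‖∑ K ∈ Rset X (wX X) ((X : ℝ) ^ ((1 : ℝ) / 3) * LX X ^ C0) ((X : ℝ) ^ (1 / 2 + η)),
        (-1 : ℂ) ^ K.card * φ (mn K) * ∑ a ∈ primBall X, α a * FX l X (prd K * a)‖ ≤
        K * (X : ℝ) ^ ((5 : ℝ) / 6) / LX X ^ A) ∧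
    (∀ (φ : PrP → ℂ) (α : Eis → ℂ), (∀ p, ‖φ p‖ ≤ 1) → (∀ a, ‖α a‖ ≤ 1) →
      ‖∑ K ∈ Cset X ((X : ℝ) ^ ((1 : ℝ) / 3) * LX X ^ C0) ((X : ℝ) ^ (1 / 2 + η)),
        φ (mn K) * ∑ a ∈ primBall X, α a * FX l X (prd K * a)‖ ≤
        K * (X : ℝ) ^ ((5 : ℝ) / 6) / LX X ^ A) ∧
    ‖∑ p ∈ PD X ((X : ℝ) ^ ((1 : ℝ) / 3) * LX X ^ C0),
      ∑ q ∈ PD X ((X : ℝ) ^ ((1 : ℝ) / 3) * LX X ^ C0),
      ∑ r ∈ PD X ((X : ℝ) ^ ((1 : ℝ) / 3) * LX X ^ C0), FX l X (p.1 * q.1 * r.1)‖ ≤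
      K * (X : ℝ) ^ ((5 : ℝ) / 6) / LX X ^ ((5 : ℝ) / 4)

/-- the Legendre part -/
def LegPart (l : ℤ) (A : ℕ) (C0 : ℝ) : Prop :=
  ∃ (K : ℝ) (X0 : ℕ), ∀ X : ℕ, X0 ≤ X → ∀ z : ℝ,
    ∀ (φ : PrP → ℂ) (α : Eis → ℂ), (∀ p, ‖φ p‖ ≤ 1) → (∀ a, ‖α a‖ ≤ 1) →
      ‖∑ K ∈ Lset X (wX X) z ((X : ℝ) ^ ((1 : ℝ) / 3) * LX X ^ C0) ((X : ℝ) ^ ((2 : ℝ) / 5)),
        (-1 : ℂ) ^ K.card * φ (mn K) * ∑ a ∈ primBall X, α a * FX l X (prd K * a)‖ ≤
        K * (X : ℝ) ^ ((5 : ℝ) / 6) / LX X ^ A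

open Classical in
/-- The sieved sum is the dyadic sum over primes. -/
lemma sum_UX_eq (l : ℤ) {X : ℕ} {z : ℝ} (hz : 2 * z ≤ X) :
    ∑ p ∈ (UX X).filter (fun p => z ≤ (nm p.1 : ℝ)), FX l X p.1 =
      ∑ p ∈ (primBall X).filter (fun p => Prime p ∧ X < 2 * nm p),
        ang l p * (G p - ((pC * (nm p : ℝ) ^ (-(1 : ℝ) / 6) : ℝ) : ℂ)) := by
  have h1 : ∑ p ∈ (UX X).filter (fun p => z ≤ (nm p.1 : ℝ)), FX l X p.1 =
      ∑ p ∈ (UX X).filter (fun p => X < 2 * nm p.1), FX l X p.1 := by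
    symm
    refine Finset.sum_subset ?_ ?_
    · intro p hp
      rw [Finset.mem_filter] at hp ⊢
      refine ⟨hp.1, ?_⟩
      have : (X : ℝ) < 2 * nm p.1 := by exact_mod_cast hp.2
      linarith
    · intro p hp hp'
      rw [Finset.mem_filter] at hp hp'
      unfold FX
      rw [if_neg]
      rintro ⟨h, -⟩
      exact hp' ⟨hp.1, h⟩
  rw [h1]
  refine Finset.sum_bij (fun p _ => p.1) ?_ ?_ ?_ ?_
  · intro p hp
    rw [Finset.mem_filter, mem_UX] at hp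
    rw [Finset.mem_filter, mem_primBall]
    exact ⟨⟨hp.1, p.isPrim⟩, p.prime, hp.2⟩
  · intro a _ b _ hab
    exact Subtype.ext hab
  · intro p hp
    rw [Finset.mem_filter, mem_primBall] at hp
    let q : PrP := ⟨p, hp.1.2, hp.2.1⟩
    have hq : q ∈ (UX X).filter (fun p => X < 2 * nm p.1) :=
      Finset.mem_filter.mpr ⟨mem_UX.mpr hp.1.1, hp.2.2⟩
    exact ⟨q, hq, rfl⟩
  · intro p hp
    rw [Finset.mem_filter, mem_UX] at hp
    unfold FX Fl
    rw [if_pos ⟨hp.2, hp.1⟩, if_pos p.prime.squarefree]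

open Filter Topology in
theorem sieve_core (hTI : TI_Prop) (hA : ∀ l : ℤ, Adapters l 3)
    (hL : ∀ (l : ℤ) (C0 : ℝ), LegPart l 3 C0) : Dyadic_Prop := by
  intro l
  obtain ⟨η, C0, K, X0, hη, hη1, hC0, hAd⟩ := hA l
  obtain ⟨K', X0', hLeg⟩ := hL l C0
  obtain ⟨δ, C, hδ, hC, hTI'⟩ := TI_use hTI l
  -- constants
  set K1 := |K| with hK1
  set K2 := |K'| with hK2
  have hev := (eventually_params hC0 hη hη1).and
    ((eventually_LX_le (5 / 4 : ℝ) δ hδ).and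
      ((tendsto_LX.eventually_ge_atTop 1).and
        ((eventually_ge_atTop X0).and ((eventually_ge_atTop X0').and (eventually_ge_atTop 12)))))
  rw [eventually_atTop] at hev
  obtain ⟨X1, hX1⟩ := hev
  refine ⟨C + 5 / 2 * K1 + 10 * K1 + 5 * K2 + 1 / 3 * K1, X1, fun X hX => ?_⟩
  obtain ⟨hP, hLδ, hL1, hX0, hX0', hX12⟩ := hX1 X hX
  obtain ⟨a1, a2, a3, a4⟩ := hAd X hX0
  have hXpos : (0 : ℝ) < X := by exact_mod_cast (by omega : 0 < X)
  have hb := sieve_bound (supp_FX l X) hP (card_UX_le (X := X) (by omega)) (hTI' X (by omega))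
    a1 a2 a3 (hLeg X hX0' _) a4
  rw [sum_UX_eq l hP.hz2] at hb
  refine hb.trans ?_
  have hLpos : 0 < LX X := by linarith
  set Q := (X : ℝ) ^ ((5 : ℝ) / 6) with hQ
  have hQpos : 0 < Q := by positivity
  set M := LX X ^ ((5 : ℝ) / 4) with hM
  have hMpos : 0 < M := by positivity
  have hS := SX_le hX12
  -- E1
  have e1 : C * (X : ℝ) ^ (5 / 6 - δ) ≤ C * (Q / M) := by
    refine mul_le_mul_of_nonneg_left ?_ hC.le
    rw [Real.rpow_sub hXpos, le_div_iff₀ hMpos]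
    have : (X : ℝ) ^ (5 / 6 : ℝ) / (X : ℝ) ^ δ * M ≤
        (X : ℝ) ^ (5 / 6 : ℝ) / (X : ℝ) ^ δ * (X : ℝ) ^ δ :=
      mul_le_mul_of_nonneg_left hLδ (by positivity)
    refine this.trans (le_of_eq ?_)
    rw [div_mul_cancel₀ _ (by positivity)]
  -- E2
  have hM3 : M ≤ LX X ^ (3 : ℕ) := by
    rw [hM, ← Real.rpow_natCast]
    exact Real.rpow_le_rpow_of_exponent_le hL1 (by norm_num)
  have hM2 : LX X * M ≤ LX X ^ (3 : ℕ) := by
    have : LX X * M = LX X ^ ((1 : ℝ) + 5 / 4) := by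
      rw [Real.rpow_add hLpos, Real.rpow_one, hM]
    rw [this, ← Real.rpow_natCast]
    exact Real.rpow_le_rpow_of_exponent_le hL1 (by norm_num)
  have hK : K ≤ K1 := le_abs_self K
  have hK' : K' ≤ K2 := le_abs_self K'
  have hK10 : 0 ≤ K1 := abs_nonneg _
  have hK20 : 0 ≤ K2 := abs_nonneg _
  have e2 : K * Q / LX X ^ (3 : ℕ) ≤ K1 * (Q / M) := by
    rw [← mul_div_assoc]
    calc K * Q / LX X ^ (3 : ℕ) ≤ K1 * Q / LX X ^ (3 : ℕ) := by gcongr
      _ ≤ K1 * Q / M := by gcongr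
  have e3 : ∀ κ κ' : ℝ, κ ≤ κ' → 0 ≤ κ' → LX X * (κ * Q / LX X ^ (3 : ℕ)) ≤ κ' * (Q / M) := by
    intro κ κ' h1 h2
    rw [← mul_div_assoc, ← mul_div_assoc, div_le_div_iff₀ (by positivity) hMpos]
    calc LX X * (κ * Q) * M ≤ LX X * (κ' * Q) * M := by gcongr
      _ = κ' * Q * (LX X * M) := by ring
      _ ≤ κ' * Q * LX X ^ 3 := by gcongr
  have e4 := e3 K K1 hK hK10
  have e5 := e3 K' K2 hK' hK20
  have hnn : 0 ≤ K * Q / LX X ^ (3 : ℕ) := by
    refine le_trans (norm_nonneg _) (a3 (fun _ => 0) (fun _ => 0) (by simp) (by simp))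
  have hnn' : 0 ≤ K' * Q / LX X ^ (3 : ℕ) := by
    refine le_trans (norm_nonneg _) (hLeg X hX0' 0 (fun _ => 0) (fun _ => 0) (by simp) (by simp))
  have e6 : (SX X : ℝ) * (K * Q / LX X ^ (3 : ℕ) + K * Q / LX X ^ (3 : ℕ) +
      K' * Q / LX X ^ (3 : ℕ)) ≤ (10 * K1 + 5 * K2) * (Q / M) := by
    calc (SX X : ℝ) * (K * Q / LX X ^ (3 : ℕ) + K * Q / LX X ^ (3 : ℕ) +
        K' * Q / LX X ^ (3 : ℕ)) ≤ (5 * LX X) * (K * Q / LX X ^ (3 : ℕ) +
          K * Q / LX X ^ (3 : ℕ) + K' * Q / LX X ^ (3 : ℕ)) :=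
          mul_le_mul_of_nonneg_right hS (by linarith)
      _ = 10 * (LX X * (K * Q / LX X ^ (3 : ℕ))) + 5 * (LX X * (K' * Q / LX X ^ (3 : ℕ))) := by
          ring
      _ ≤ 10 * (K1 * (Q / M)) + 5 * (K2 * (Q / M)) := by linarith
      _ = _ := by ring
  have e7 : K * Q / M ≤ K1 * (Q / M) := by
    rw [← mul_div_assoc]; gcongr
  have e8 : (C + 5 / 2 * K1 + 10 * K1 + 5 * K2 + 1 / 3 * K1) * Q / M =
      C * (Q / M) + 5 / 2 * (K1 * (Q / M)) + (10 * K1 + 5 * K2) * (Q / M) +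
        1 / 3 * (K1 * (Q / M)) := by ring
  rw [e8]
  have h54 : LX X ^ (5 / 4 : ℝ) = M := rfl
  linarith

end Crest.Agent.R012.Sieve812
end
end

-- ▼ part R012/Sparse_420
section

/-!
# Row 12: the sparse class (L), (L')

Bilinear sums `∑ α_a β_b F_l(ab)` where one of the variables has a large `w`-smooth part.
-/

set_option autoImplicit false

noncomputable section

namespace Crest.Agent.R012.Sparse420

open Finset Eis Buch420 Dens420 Weight600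

/-- `F_l(n) = (n/|n|)^l (G(n) - [l = 0] c N(n)^{-1/6})` for squarefree `n`, `0` otherwise. -/
def Fl (l : ℤ) (n : Eis) : ℂ :=
  open Classical in
  if Squarefree n then
    ang l n * (G n - (if l = 0 then ((pC * (nm n : ℝ) ^ (-(1 / 6) : ℝ) : ℝ) : ℂ) else 0))
  else 0









/-! ### Densities in terms of elements -/





/-- weight of a general set -/
def W1 (c X : ℝ) : ℝ := Real.exp (c * (2 * Real.log (Real.log X) + 75))

/-- saving for sparse sets -/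
def dl (c c0 X w : ℝ) : ℝ :=
  Real.exp (-(c0 * Real.log X / Real.log w)) * Real.exp (Real.exp 1 * c * (2 * Real.log (Real.log w) + 75))

lemma W1_pos (c X : ℝ) : 0 < W1 c X := Real.exp_pos _
lemma dl_pos (c c0 X w : ℝ) : 0 < dl c c0 X w := mul_pos (Real.exp_pos _) (Real.exp_pos _)




lemma rpow_exp_bound {c0 P : ℝ} (hc0 : 0 < c0) (hP : 0 ≤ P) :
    ∃ C : ℝ, 0 < C ∧ ∀ L : ℝ, 0 < L → L ^ P * Real.exp (-(c0 * L ^ ((1 : ℝ) / 3))) ≤ C := by
  obtain ⟨n, hn⟩ := exists_nat_ge (3 * P)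
  refine ⟨1 + n.factorial / c0 ^ n, by positivity, fun L hL => ?_⟩
  set s : ℝ := L ^ ((1 : ℝ) / 3) with hs
  have hs0 : 0 < s := Real.rpow_pos_of_pos hL _
  have hLs : L ^ P = s ^ (3 * P) := by
    rw [hs, ← Real.rpow_mul hL.le]; congr 1; ring
  rw [hLs]
  have hfac : 0 ≤ (n.factorial : ℝ) / c0 ^ n := by positivity
  rcases le_or_gt s 1 with h1 | h1
  · have h2 : s ^ (3 * P) ≤ 1 := Real.rpow_le_one hs0.le h1 (by positivity)
    have h3 : Real.exp (-(c0 * s)) ≤ 1 := Real.exp_le_one_iff.mpr (by nlinarith)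
    have : s ^ (3 * P) * Real.exp (-(c0 * s)) ≤ 1 := mul_le_one₀ h2 (Real.exp_pos _).le h3
    linarith
  · have h2 : s ^ (3 * P) ≤ s ^ n := by
      rw [← Real.rpow_natCast]
      exact Real.rpow_le_rpow_of_exponent_le h1.le hn
    have h3 := Real.pow_div_factorial_le_exp (c0 * s) (by positivity) n
    have h4 : s ^ n ≤ n.factorial / c0 ^ n * Real.exp (c0 * s) := by
      rw [mul_pow, div_le_iff₀ (by positivity)] at h3
      rw [div_mul_eq_mul_div, le_div_iff₀ (by positivity)]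
      linarith
    have h5 : s ^ (3 * P) * Real.exp (-(c0 * s)) ≤ n.factorial / c0 ^ n := by
      calc s ^ (3 * P) * Real.exp (-(c0 * s)) ≤
            (n.factorial / c0 ^ n * Real.exp (c0 * s)) * Real.exp (-(c0 * s)) :=
            mul_le_mul_of_nonneg_right (h2.trans h4) (Real.exp_pos _).le
        _ = n.factorial / c0 ^ n := by
            rw [mul_assoc, ← Real.exp_add]; simp
    linarith

/-- The saving beats every power of `log X`. -/
lemma delta_bound {c c0 : ℝ} (hc : 0 ≤ c) (hc0 : 0 < c0) (m : ℕ) :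
    ∃ C : ℝ, 0 < C ∧ ∀ X w : ℝ, 2 ≤ X → 2 ≤ w → Real.log w ≤ (Real.log X) ^ ((2 : ℝ) / 3) →
      2 * (W1 c X * W1 c X * dl c c0 X w) ≤ C / (Real.log X) ^ m := by
  set P : ℝ := 4 * c + 4 / 3 * (Real.exp 1 * c) + m with hPdef
  have hP : 0 ≤ P := by positivity
  obtain ⟨C, hC, hb⟩ := rpow_exp_bound hc0 hP
  refine ⟨2 * (Real.exp (150 * c) * Real.exp (75 * (Real.exp 1 * c))) * C, by positivity, ?_⟩
  intro X w hX hw hwX
  set L := Real.log X with hL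
  have hL0 : 0 < L := Real.log_pos (by linarith)
  have hlw : 0 < Real.log w := Real.log_pos (by linarith)
  rw [le_div_iff₀ (by positivity)]
  have e1 : W1 c X * W1 c X = Real.exp (150 * c) * L ^ (4 * c) := by
    unfold W1
    rw [← Real.exp_add, Real.rpow_def_of_pos hL0, ← Real.exp_add]
    congr 1; ring
  have e2 : dl c c0 X w ≤ Real.exp (-(c0 * L ^ ((1 : ℝ) / 3))) *
      (Real.exp (75 * (Real.exp 1 * c)) * L ^ (4 / 3 * (Real.exp 1 * c))) := by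
    unfold dl
    refine mul_le_mul ?_ ?_ (Real.exp_pos _).le (Real.exp_pos _).le
    · apply Real.exp_le_exp.mpr
      rw [neg_le_neg_iff, mul_div_assoc]
      refine mul_le_mul_of_nonneg_left ?_ hc0.le
      rw [le_div_iff₀ hlw]
      calc L ^ ((1 : ℝ) / 3) * Real.log w ≤ L ^ ((1 : ℝ) / 3) * L ^ ((2 : ℝ) / 3) := by gcongr
        _ = L := by rw [← Real.rpow_add hL0]; norm_num
    · rw [Real.rpow_def_of_pos hL0, ← Real.exp_add]
      apply Real.exp_le_exp.mpr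
      have h1 : Real.log (Real.log w) ≤ 2 / 3 * Real.log L := by
        rw [← Real.log_rpow hL0]
        exact Real.log_le_log hlw hwX
      have h2 : 0 ≤ Real.exp 1 * c := by positivity
      nlinarith
  have e3 : (L : ℝ) ^ m = L ^ (m : ℝ) := (Real.rpow_natCast L m).symm
  have hb' := hb L hL0
  have e4 : L ^ P = L ^ (4 * c) * L ^ (4 / 3 * (Real.exp 1 * c)) * L ^ (m : ℝ) := by
    rw [hPdef, Real.rpow_add hL0, Real.rpow_add hL0]
  rw [e1, e3]
  calc 2 * (Real.exp (150 * c) * L ^ (4 * c) * dl c c0 X w) * L ^ (m : ℝ)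
      ≤ 2 * (Real.exp (150 * c) * L ^ (4 * c) * (Real.exp (-(c0 * L ^ ((1 : ℝ) / 3))) *
      (Real.exp (75 * (Real.exp 1 * c)) * L ^ (4 / 3 * (Real.exp 1 * c))))) * L ^ (m : ℝ) := by
        gcongr
    _ = 2 * (Real.exp (150 * c) * Real.exp (75 * (Real.exp 1 * c))) *
        (L ^ P * Real.exp (-(c0 * L ^ ((1 : ℝ) / 3)))) := by rw [e4]; ring
    _ ≤ _ := by gcongr






lemma natlog_le {X : ℕ} (hX : 2 ≤ X) : ((Nat.log 2 X + 1 : ℕ) : ℝ) ≤ 3 * Real.log X := by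
  have l1 := Real.log_two_gt_d9
  have hX0 : (0 : ℝ) < X := by exact_mod_cast (by omega : 0 < X)
  have h1 : (2 : ℝ) ^ Nat.log 2 X ≤ X := by exact_mod_cast Nat.pow_log_le_self 2 (by omega)
  have h2 := Real.log_le_log (by positivity) h1
  rw [Real.log_pow] at h2
  have h3 : Real.log 2 ≤ Real.log X := Real.log_le_log (by norm_num) (by exact_mod_cast hX)
  have h4 : (Nat.log 2 X : ℝ) * 0.69 ≤ Real.log X := by
    refine le_trans ?_ h2
    exact mul_le_mul_of_nonneg_left (by linarith) (Nat.cast_nonneg _)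
  push_cast
  linarith


end Crest.Agent.R012.Sparse420
end
end

-- ▼ part R012/SparseT0_420

/-!
# Row 12: the sparse class from `T0_Prop`

`sparse_of_T0`: if one of the two variables has a large `w`-smooth part, then the bilinear form is
`≪_A X^{5/6} (log X)^{-A}`.  `L_of_T0`: the Legendre part of the sieve.
-/

set_option autoImplicit false

noncomputable section

namespace Crest.Agent.R012.SparseT0420

open Finset Eis Buch420 Dens420 Main48
open Sparse420 (W1 dl W1_pos dl_pos delta_bound natlog_le)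

lemma Bil_left (l : ℤ) (X : ℕ) (α β : Finset PrP → ℂ) (J : ℕ) (jj : Finset PrP → ℕ)
    (h : ∀ S ∈ (UX X).powerset, α S ≠ 0 → jj S < J) :
    Bil l X α β = ∑ j ∈ Finset.range J, Bil l X (fun S => if jj S = j then α S else 0) β := by
  unfold Bil
  symm
  refine Finset.sum_comm.trans (Finset.sum_congr rfl fun S hS => ?_)
  refine Finset.sum_comm.trans (Finset.sum_congr rfl fun T _ => ?_)
  have h1 : ∑ j ∈ Finset.range J, (if jj S = j then α S else 0) = α S := by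
    rw [Finset.sum_ite_eq]
    by_cases h0 : α S = 0
    · simp [h0]
    · rw [if_pos (Finset.mem_range.mpr (h S hS h0))]
  rw [← Finset.sum_mul, ← Finset.sum_mul, h1]

lemma Bil_right (l : ℤ) (X : ℕ) (α β : Finset PrP → ℂ) (J : ℕ) (jj : Finset PrP → ℕ)
    (h : ∀ S ∈ (UX X).powerset, β S ≠ 0 → jj S < J) :
    Bil l X α β = ∑ j ∈ Finset.range J, Bil l X α (fun S => if jj S = j then β S else 0) := by
  unfold Bil
  symm
  refine Finset.sum_comm.trans (Finset.sum_congr rfl fun S hS => ?_)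
  refine Finset.sum_comm.trans (Finset.sum_congr rfl fun T hT => ?_)
  have h1 : ∑ j ∈ Finset.range J, (if jj T = j then β T else 0) = β T := by
    rw [Finset.sum_ite_eq]
    by_cases h0 : β T = 0
    · simp [h0]
    · rw [if_pos (Finset.mem_range.mpr (h T hT h0))]
  rw [← Finset.sum_mul, ← Finset.mul_sum, h1]

lemma Bil_zero_right (l : ℤ) (X : ℕ) (α β : Finset PrP → ℂ) (h : ∀ T, β T = 0) :
    Bil l X α β = 0 := by
  unfold Bil
  refine Finset.sum_eq_zero fun S _ => Finset.sum_eq_zero fun T _ => ?_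
  rw [h T]; ring

open Classical in
/-- weighted `ℓ²` norm, general -/
lemma l2_general {c D : ℝ} (hc : 1 ≤ c) (hD : 1 ≤ D) {X : ℕ} (γ : Finset PrP → ℂ)
    (hγ : ∀ S, ‖γ S‖ ≤ c ^ S.card) {R : ℝ} (hR : 0 ≤ R)
    (hn : ∀ S, γ S ≠ 0 → (nm (prd S) : ℝ) ≤ R) {M : ℝ}
    (hM : ∑ S ∈ (UX X).powerset.filter (fun S => γ S ≠ 0),
      (D * c ^ 2) ^ S.card / (nm (prd S) : ℝ) ≤ M) :
    ∑ S ∈ (UX X).powerset, D ^ S.card * ‖γ S‖ ^ 2 ≤ R * M := by
  have h1 : ∑ S ∈ (UX X).powerset, D ^ S.card * ‖γ S‖ ^ 2 =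
      ∑ S ∈ (UX X).powerset.filter (fun S => γ S ≠ 0), D ^ S.card * ‖γ S‖ ^ 2 := by
    rw [Finset.sum_filter]
    refine Finset.sum_congr rfl fun S _ => ?_
    by_cases h : γ S = 0
    · simp [h]
    · rw [if_pos h]
  rw [h1]
  calc ∑ S ∈ (UX X).powerset.filter (fun S => γ S ≠ 0), D ^ S.card * ‖γ S‖ ^ 2
      ≤ ∑ S ∈ (UX X).powerset.filter (fun S => γ S ≠ 0), (D * c ^ 2) ^ S.card := by
        refine Finset.sum_le_sum fun S _ => ?_
        rw [mul_pow, ← pow_mul, mul_comm 2 S.card, pow_mul]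
        exact mul_le_mul_of_nonneg_left (pow_le_pow_left₀ (norm_nonneg _) (hγ S) 2)
          (by positivity)
    _ ≤ R * ∑ S ∈ (UX X).powerset.filter (fun S => γ S ≠ 0),
          (D * c ^ 2) ^ S.card / (nm (prd S) : ℝ) :=
        sum_le_mul_sum_div (by positivity) _ (fun S hS => hn S (Finset.mem_filter.mp hS).2)
    _ ≤ R * M := mul_le_mul_of_nonneg_left hM hR

open Classical in
lemma dens_gen {c : ℝ} (hc : 0 ≤ c) {X : ℕ} (hX : 2 ≤ X) (γ : Finset PrP → ℂ) :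
    ∑ S ∈ (UX X).powerset.filter (fun S => γ S ≠ 0), c ^ S.card / (nm (prd S) : ℝ) ≤ W1 c X := by
  refine sum_omega_div hc (by exact_mod_cast hX) _ ?_
  intro S hS p hp
  rw [Finset.mem_filter, Finset.mem_powerset] at hS
  exact_mod_cast mem_UX.mp (hS.1 hp)

open Classical in
lemma dens_sp {c : ℝ} (hc : 0 ≤ c) {X : ℕ} (hX : 2 ≤ X) {c0 w : ℝ} (hw : 2 ≤ w)
    (γ : Finset PrP → ℂ)
    (hsp : ∀ S, γ S ≠ 0 → (X : ℝ) ^ c0 ≤ (nm (prd (S.filter (fun p => (nm p.1 : ℝ) ≤ w))) : ℝ)) :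
    ∑ S ∈ (UX X).powerset.filter (fun S => γ S ≠ 0), c ^ S.card / (nm (prd S) : ℝ) ≤
      W1 c X * dl c c0 X w := by
  have hX0 : (0 : ℝ) < X := by exact_mod_cast (by omega : 0 < X)
  have h := sum_smooth_part hc (w := w) (Y := (X : ℝ) ^ c0) (B := X) hw
    (Real.rpow_pos_of_pos hX0 _) (by exact_mod_cast hX)
    ((UX X).powerset.filter (fun S => γ S ≠ 0)) (by
      intro S hS
      rw [Finset.mem_filter, Finset.mem_powerset] at hS
      refine ⟨fun p hp => by exact_mod_cast mem_UX.mp (hS.1 hp), ?_⟩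
      have := hsp S hS.2
      convert this using 4)
  rw [Real.log_rpow hX0] at h
  refine h.trans (le_of_eq ?_)
  unfold W1 dl
  ring

lemma log_block {n : ℕ} (hn : 2 ≤ n) :
    2 ^ Nat.log 2 (n - 1) < n ∧ n ≤ 2 * 2 ^ Nat.log 2 (n - 1) := by
  have h1 : 2 ^ Nat.log 2 (n - 1) ≤ n - 1 := Nat.pow_log_le_self 2 (by omega)
  have h2 : n - 1 < 2 ^ (Nat.log 2 (n - 1) + 1) := Nat.lt_pow_succ_log_self (by norm_num) _
  rw [pow_succ] at h2
  omega

/-- restriction of `S` to `2 ≤ N ≤ X` -/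
def rst (X : ℕ) (α : Finset PrP → ℂ) (S : Finset PrP) : ℂ :=
  if 2 ≤ nm (prd S) ∧ nm (prd S) ≤ X then α S else 0

lemma rst_ne {X : ℕ} {α : Finset PrP → ℂ} {S : Finset PrP} (h : rst X α S ≠ 0) :
    α S ≠ 0 ∧ 2 ≤ nm (prd S) ∧ nm (prd S) ≤ X := by
  unfold rst at h
  by_cases h1 : 2 ≤ nm (prd S) ∧ nm (prd S) ≤ X
  · rw [if_pos h1] at h; exact ⟨h, h1⟩
  · rw [if_neg h1] at h; exact absurd rfl h

lemma norm_rst_le {X : ℕ} {α : Finset PrP → ℂ} {c : ℝ} (hc : 1 ≤ c)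
    (h : ∀ S, ‖α S‖ ≤ c ^ S.card) (S : Finset PrP) : ‖rst X α S‖ ≤ c ^ S.card := by
  unfold rst
  split_ifs
  · exact h S
  · rw [norm_zero]; positivity

lemma two_le_rpow {X : ℝ} (hX : 4 ≤ X) : (2 : ℝ) ≤ X ^ (0.59 : ℝ) := by
  calc (2 : ℝ) = (4 : ℝ) ^ (0.5 : ℝ) := by
        rw [show (4 : ℝ) = 2 ^ (2 : ℝ) by norm_num, ← Real.rpow_mul (by norm_num)]
        norm_num
    _ ≤ (4 : ℝ) ^ (0.59 : ℝ) :=
        Real.rpow_le_rpow_of_exponent_le (by norm_num) (by norm_num)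
    _ ≤ _ := Real.rpow_le_rpow (by norm_num) hX (by norm_num)

lemma Bil_rst (l : ℤ) {X : ℕ} (hX4 : 4 ≤ X) (α β : Finset PrP → ℂ)
    (hβn : ∀ T, β T ≠ 0 → (nm (prd T) : ℝ) ≤ (X : ℝ) ^ (0.41 : ℝ)) :
    Bil l X α β = Bil l X (rst X α) β := by
  have hX4' : (4 : ℝ) ≤ X := by exact_mod_cast hX4
  have hX0 : (0 : ℝ) < X := by linarith
  unfold Bil
  refine Finset.sum_congr rfl fun S _ => Finset.sum_congr rfl fun T _ => ?_
  by_cases hS : 2 ≤ nm (prd S) ∧ nm (prd S) ≤ X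
  · unfold rst; rw [if_pos hS]
  · have h1 : rst X α S = 0 := by unfold rst; rw [if_neg hS]
    rw [h1]
    by_cases hT : β T = 0
    · rw [hT]; ring
    · have h2 : FX l X (prd S * prd T) = 0 := by
        unfold FX
        rw [if_neg]
        rintro ⟨h3, h4⟩
        rw [nm_mul] at h3 h4
        have hposT : 0 < nm (prd T) := nm_pos.mpr (prd_ne_zero T)
        apply hS
        refine ⟨?_, le_trans (Nat.le_mul_of_pos_right _ hposT) h4⟩
        by_contra hc1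
        have h5 : nm (prd S) ≤ 1 := by omega
        have h6 : nm (prd S) * nm (prd T) ≤ nm (prd T) := by nlinarith
        have h7 : (X : ℝ) < 2 * nm (prd T) := by exact_mod_cast (by omega : X < 2 * nm (prd T))
        have h8 := hβn T hT
        have h9 := two_le_rpow hX4'
        have h10 : (X : ℝ) = (X : ℝ) ^ (0.59 : ℝ) * (X : ℝ) ^ (0.41 : ℝ) := by
          rw [← Real.rpow_add hX0]; norm_num
        have h11 : (0 : ℝ) < (X : ℝ) ^ (0.41 : ℝ) := Real.rpow_pos_of_pos hX0 _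
        nlinarith
      rw [h2]; ring

/-- dyadic index -/
def jx (S : Finset PrP) : ℕ := Nat.log 2 (nm (prd S) - 1)

/-- dyadic piece -/
def blk (j : ℕ) (γ : Finset PrP → ℂ) (S : Finset PrP) : ℂ := if jx S = j then γ S else 0

lemma blk_ne {j : ℕ} {γ : Finset PrP → ℂ} {S : Finset PrP} (h : blk j γ S ≠ 0) :
    γ S ≠ 0 ∧ jx S = j := by
  unfold blk at h
  by_cases h1 : jx S = j
  · rw [if_pos h1] at h; exact ⟨h, h1⟩
  · rw [if_neg h1] at h; exact absurd rfl h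

lemma norm_blk_le {j : ℕ} {γ : Finset PrP → ℂ} {c : ℝ} (hc : 1 ≤ c)
    (h : ∀ S, ‖γ S‖ ≤ c ^ S.card) (S : Finset PrP) : ‖blk j γ S‖ ≤ c ^ S.card := by
  unfold blk
  split_ifs
  · exact h S
  · rw [norm_zero]; positivity

lemma blk_range {j : ℕ} {γ : Finset PrP → ℂ} (h2 : ∀ S, γ S ≠ 0 → 2 ≤ nm (prd S))
    (S : Finset PrP) (h : blk j γ S ≠ 0) :
    (2 : ℝ) ^ j < nm (prd S) ∧ (nm (prd S) : ℝ) ≤ 2 * 2 ^ j := by
  obtain ⟨h3, h4⟩ := blk_ne h
  have h5 := log_block (h2 S h3)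
  unfold jx at h4
  rw [h4] at h5
  exact ⟨by exact_mod_cast h5.1, by exact_mod_cast h5.2⟩

lemma jx_lt {X : ℕ} (S : Finset PrP) (hS : nm (prd S) ≤ X) : jx S < Nat.log 2 X + 1 := by
  have : Nat.log 2 (nm (prd S) - 1) ≤ Nat.log 2 X := Nat.log_mono_right (by omega)
  unfold jx
  omega

open Classical in
/-- spart condition -/
def Sp (w Y : ℝ) (γ : Finset PrP → ℂ) : Prop :=
  ∀ T, γ T ≠ 0 → Y ≤ (nm (prd (T.filter (fun p => (nm p.1 : ℝ) ≤ w))) : ℝ)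

open Classical in
/-- the densities of the two variables, with the saving -/
lemma dens_pair {c c0 w : ℝ} (hc : 0 ≤ c) {X : ℕ} (hX2 : 2 ≤ X) (hw : 2 ≤ w)
    (α β : Finset PrP → ℂ) (hsp : Sp w ((X : ℝ) ^ c0) β ∨ Sp w ((X : ℝ) ^ c0) α) :
    ∃ M1 M2 : ℝ,
      ∑ S ∈ (UX X).powerset.filter (fun S => α S ≠ 0), c ^ S.card / (nm (prd S) : ℝ) ≤ M1 ∧
      ∑ S ∈ (UX X).powerset.filter (fun S => β S ≠ 0), c ^ S.card / (nm (prd S) : ℝ) ≤ M2 ∧
      0 ≤ M1 ∧ 0 ≤ M2 ∧ M1 * M2 = W1 c X * W1 c X * dl c c0 X w := by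
  have hW := W1_pos c X
  have hdl := dl_pos c c0 X w
  rcases hsp with hs | hs
  · exact ⟨W1 c X, W1 c X * dl c c0 X w, dens_gen hc hX2 _, dens_sp hc hX2 hw _ hs, hW.le,
      (mul_pos hW hdl).le, by ring⟩
  · exact ⟨W1 c X * dl c c0 X w, W1 c X, dens_sp hc hX2 hw _ hs, dens_gen hc hX2 _,
      (mul_pos hW hdl).le, hW.le, by ring⟩

open Classical in
/-- one dyadic block -/
lemma block {l : ℤ} {D K0 : ℝ} {X1 : ℕ} (hD : 1 ≤ D)
    (H : ∀ X : ℕ, X1 ≤ X →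
      ∀ (A B : ℝ) (α β : Finset PrP → ℂ), 1 ≤ A → (X : ℝ) ^ (0.34 : ℝ) ≤ B →
      B ≤ (X : ℝ) ^ (0.41 : ℝ) →
      (∀ S, α S ≠ 0 → A < nm (prd S) ∧ (nm (prd S) : ℝ) ≤ 2 * A) →
      (∀ T, β T ≠ 0 → B < nm (prd T) ∧ (nm (prd T) : ℝ) ≤ 2 * B) →
      ‖Bil l X α β‖ ≤ LX X ^ K0 * (X : ℝ) ^ ((5 : ℝ) / 6) *
        Real.sqrt ((∑ S ∈ (UX X).powerset, ‖α S‖ ^ 2) / A) *
        Real.sqrt ((∑ T ∈ (UX X).powerset, D ^ T.card * ‖β T‖ ^ 2) / B))
    {c0 c : ℝ} (hc : 1 ≤ c) {X : ℕ} (hX1 : X1 ≤ X) (hX2 : 2 ≤ X) {w : ℝ} (hw : 2 ≤ w)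
    (α β : Finset PrP → ℂ) (hα : ∀ S, ‖α S‖ ≤ c ^ S.card) (hβ : ∀ T, ‖β T‖ ≤ c ^ T.card)
    (hα2 : ∀ S, α S ≠ 0 → 2 ≤ nm (prd S))
    (hβn : ∀ T, β T ≠ 0 → 2 * (X : ℝ) ^ (0.34 : ℝ) ≤ nm (prd T) ∧
        (nm (prd T) : ℝ) ≤ (X : ℝ) ^ (0.41 : ℝ))
    (hsp : Sp w ((X : ℝ) ^ c0) β ∨ Sp w ((X : ℝ) ^ c0) α) {Q : ℝ}
    (hQ : 2 * (W1 (D * c ^ 2) X * W1 (D * c ^ 2) X * dl (D * c ^ 2) c0 X w) ≤ Q)
    (j k : ℕ) :
    ‖Bil l X (blk j α) (blk k β)‖ ≤
      LX X ^ K0 * (X : ℝ) ^ ((5 : ℝ) / 6) * Real.sqrt (2 * Q) := by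
  have hX0 : (0 : ℝ) < X := by exact_mod_cast (by omega : 0 < X)
  have hX1' : (1 : ℝ) ≤ X := by exact_mod_cast (by omega : 1 ≤ X)
  have hL0 : 0 ≤ LX X := Real.log_nonneg hX1'
  have hposR : 0 ≤ LX X ^ K0 * (X : ℝ) ^ ((5 : ℝ) / 6) * Real.sqrt (2 * Q) := by
    positivity
  by_cases hex : ∃ T, blk k β T ≠ 0
  · obtain ⟨T0, hT0⟩ := hex
    have hβ2 : ∀ T, β T ≠ 0 → 2 ≤ nm (prd T) := by
      intro T hT
      have h1 := (hβn T hT).1
      have h2 : (1 : ℝ) ≤ (X : ℝ) ^ (0.34 : ℝ) := Real.one_le_rpow hX1' (by norm_num)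
      have : (2 : ℝ) ≤ nm (prd T) := by linarith
      exact_mod_cast this
    have hβk := blk_range (j := k) hβ2
    have hαj := blk_range (j := j) hα2
    have hT0b := hβk T0 hT0
    have hTn := hβn T0 (blk_ne hT0).1
    have hB1 : (X : ℝ) ^ (0.34 : ℝ) ≤ 2 ^ k := by linarith [hTn.1, hT0b.2]
    have hB2 : (2 : ℝ) ^ k ≤ (X : ℝ) ^ (0.41 : ℝ) := by linarith [hTn.2, hT0b.1]
    have hA1 : (1 : ℝ) ≤ 2 ^ j := one_le_pow₀ (by norm_num)
    refine (H X hX1 (2 ^ j) (2 ^ k) (blk j α) (blk k β) hA1 hB1 hB2 hαj hβk).trans ?_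
    have hsp' : Sp w ((X : ℝ) ^ c0) (blk k β) ∨ Sp w ((X : ℝ) ^ c0) (blk j α) := by
      rcases hsp with h | h
      · exact Or.inl fun T hT => h T (blk_ne hT).1
      · exact Or.inr fun T hT => h T (blk_ne hT).1
    obtain ⟨M1, M2, hM1, hM2, hM10, hM20, hMM⟩ := dens_pair (c := D * c ^ 2) (by positivity) hX2 hw
      (blk j α) (blk k β) hsp'
    have q1 := l2_general hc hD (blk j α) (norm_blk_le hc hα)
      (R := 2 * 2 ^ j) (by positivity) (fun S hS => (hαj S hS).2) hM1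
    have q2 := l2_general hc hD (blk k β) (norm_blk_le hc hβ)
      (R := 2 * 2 ^ k) (by positivity) (fun S hS => (hβk S hS).2) hM2
    have q1' : ∑ S ∈ (UX X).powerset, ‖blk j α S‖ ^ 2 ≤ 2 * 2 ^ j * M1 := by
      refine le_trans (Finset.sum_le_sum fun S _ => ?_) q1
      have : (1 : ℝ) ≤ D ^ S.card := one_le_pow₀ hD
      nlinarith [sq_nonneg ‖blk j α S‖]
    have hA0 : (0 : ℝ) < 2 ^ j := by positivity
    have hB0 : (0 : ℝ) < 2 ^ k := by positivity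
    have q2' : ∑ T ∈ (UX X).powerset, D ^ T.card * ‖blk k β T‖ ^ 2 ≤ 2 * 2 ^ k * M2 := q2
    generalize ∑ S ∈ (UX X).powerset, ‖blk j α S‖ ^ 2 = s1 at q1' ⊢
    generalize ∑ T ∈ (UX X).powerset, D ^ T.card * ‖blk k β T‖ ^ 2 = s2 at q2' ⊢
    have r1 : s1 / 2 ^ j ≤ 2 * M1 := by
      rw [div_le_iff₀ hA0]; linarith
    have r2 : s2 / 2 ^ k ≤ 2 * M2 := by
      rw [div_le_iff₀ hB0]; linarith
    have r3 : Real.sqrt (s1 / 2 ^ j) * Real.sqrt (s2 / 2 ^ k) ≤ Real.sqrt (2 * Q) := by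
      calc Real.sqrt (s1 / 2 ^ j) * Real.sqrt (s2 / 2 ^ k)
          ≤ Real.sqrt (2 * M1) * Real.sqrt (2 * M2) :=
            mul_le_mul (Real.sqrt_le_sqrt r1) (Real.sqrt_le_sqrt r2) (Real.sqrt_nonneg _)
              (Real.sqrt_nonneg _)
        _ = Real.sqrt (2 * M1 * (2 * M2)) := (Real.sqrt_mul (by positivity) _).symm
        _ ≤ Real.sqrt (2 * Q) := by
            apply Real.sqrt_le_sqrt
            calc 2 * M1 * (2 * M2) = 2 * (2 * (M1 * M2)) := by ring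
              _ ≤ 2 * Q := by
                rw [hMM]
                exact mul_le_mul_of_nonneg_left hQ (by norm_num)
    rw [mul_assoc]
    exact mul_le_mul_of_nonneg_left r3 (by positivity)
  · push Not at hex
    rw [Bil_zero_right l X _ _ hex, norm_zero]
    exact hposR

open Classical in
/-- **The sparse class.** -/
theorem sparse_of_T0 (h0 : T0_Prop) (l : ℤ) {c0 c : ℝ} (hc0 : 0 < c0) (hc : 1 ≤ c) (A : ℕ) :
    ∃ (K : ℝ) (X0 : ℕ), 0 < K ∧ ∀ X : ℕ, X0 ≤ X → ∀ w : ℝ, 2 ≤ w →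
      Real.log w ≤ (Real.log X) ^ ((2 : ℝ) / 3) →
      ∀ α β : Finset PrP → ℂ, (∀ S, ‖α S‖ ≤ c ^ S.card) → (∀ T, ‖β T‖ ≤ c ^ T.card) →
      (∀ T, β T ≠ 0 → 2 * (X : ℝ) ^ (0.34 : ℝ) ≤ nm (prd T) ∧
        (nm (prd T) : ℝ) ≤ (X : ℝ) ^ (0.41 : ℝ)) →
      (Sp w ((X : ℝ) ^ c0) β ∨ Sp w ((X : ℝ) ^ c0) α) →
      ‖Bil l X α β‖ ≤ K * (X : ℝ) ^ ((5 : ℝ) / 6) / LX X ^ A := by
  obtain ⟨D, K0, X1, hD, H⟩ := h0 l
  obtain ⟨m, hm⟩ := exists_nat_ge (2 * (K0 + 2 + A))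
  obtain ⟨Cd, hCd, hdel⟩ := delta_bound (c := D * c ^ 2) (c0 := c0) (by positivity) hc0 m
  refine ⟨9 * Real.sqrt (2 * Cd), max X1 4, by positivity, ?_⟩
  intro X hXX w hw hwX α β hα hβ hβn hsp
  have hX1 : X1 ≤ X := le_trans (le_max_left _ _) hXX
  have hX4 : 4 ≤ X := le_trans (le_max_right _ _) hXX
  have hX2 : 2 ≤ X := by omega
  have hX4' : (4 : ℝ) ≤ X := by exact_mod_cast hX4
  have hX0 : (0 : ℝ) < X := by linarith
  have hL1 : 1 ≤ LX X := by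
    unfold LX
    rw [Real.le_log_iff_exp_le hX0]
    linarith [Real.exp_one_lt_d9]
  have hL0 : 0 < LX X := by linarith
  have hXpow : (X : ℝ) ^ (0.41 : ℝ) ≤ X := by
    calc (X : ℝ) ^ (0.41 : ℝ) ≤ (X : ℝ) ^ (1 : ℝ) :=
          Real.rpow_le_rpow_of_exponent_le (by linarith) (by norm_num)
      _ = X := Real.rpow_one _
  have hβlt : ∀ S ∈ (UX X).powerset, β S ≠ 0 → jx S < Nat.log 2 X + 1 := by
    intro S _ hS
    apply jx_lt
    have := (hβn S hS).2.trans hXpow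
    exact_mod_cast this
  have hsp' : Sp w ((X : ℝ) ^ c0) β ∨ Sp w ((X : ℝ) ^ c0) (rst X α) := by
    rcases hsp with h | h
    · exact Or.inl h
    · exact Or.inr fun T hT => h T (rst_ne hT).1
  have hblock := block (c0 := c0) hD H hc hX1 hX2 hw (rst X α) β (norm_rst_le hc hα) hβ
    (fun S hS => (rst_ne hS).2.1) hβn hsp' (hdel X w (by exact_mod_cast hX2) hw hwX)
  rw [Bil_rst l hX4 α β (fun T hT => (hβn T hT).2), Bil_left l X (rst X α) β (Nat.log 2 X + 1) jx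
    (fun S _ hS => jx_lt S (rst_ne hS).2.2)]
  have hJ3 : ((Nat.log 2 X + 1 : ℕ) : ℝ) ≤ 3 * LX X := natlog_le hX2
  generalize Nat.log 2 X + 1 = J at hJ3 hβlt ⊢
  have hsum : ‖∑ j ∈ Finset.range J, Bil l X (blk j (rst X α)) β‖ ≤
      (J : ℝ) * ((J : ℝ) *
        (LX X ^ K0 * (X : ℝ) ^ ((5 : ℝ) / 6) * Real.sqrt (2 * (Cd / LX X ^ m)))) := by
    refine (norm_sum_le _ _).trans ?_
    have h1 : ∀ j ∈ Finset.range J, ‖Bil l X (blk j (rst X α)) β‖ ≤
        (J : ℝ) * (LX X ^ K0 * (X : ℝ) ^ ((5 : ℝ) / 6) * Real.sqrt (2 * (Cd / LX X ^ m))) := by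
      intro j _
      rw [Bil_right l X _ β J jx hβlt]
      refine (norm_sum_le _ _).trans ?_
      refine (Finset.sum_le_sum fun k _ => hblock j k).trans ?_
      rw [Finset.sum_const, Finset.card_range, nsmul_eq_mul]
      exact le_rfl
    refine (Finset.sum_le_sum h1).trans ?_
    rw [Finset.sum_const, Finset.card_range, nsmul_eq_mul]
  refine le_trans hsum ?_
  have hJ0 : (0 : ℝ) ≤ J := Nat.cast_nonneg _
  have hsq : Real.sqrt (2 * (Cd / LX X ^ m)) ≤ Real.sqrt (2 * Cd) / LX X ^ (K0 + 2 + A) := by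
    rw [show 2 * (Cd / LX X ^ m) = 2 * Cd / LX X ^ m by ring, Real.sqrt_div (by positivity)]
    refine div_le_div_of_nonneg_left (by positivity) (by positivity) ?_
    apply Real.le_sqrt_of_sq_le
    rw [← Real.rpow_natCast, ← Real.rpow_mul hL0.le, ← Real.rpow_natCast]
    exact Real.rpow_le_rpow_of_exponent_le hL1 (by push_cast; linarith)
  calc (J : ℝ) * ((J : ℝ) *
        (LX X ^ K0 * (X : ℝ) ^ ((5 : ℝ) / 6) * Real.sqrt (2 * (Cd / LX X ^ m))))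
      ≤ (3 * LX X) * ((3 * LX X) *
        (LX X ^ K0 * (X : ℝ) ^ ((5 : ℝ) / 6) *
          (Real.sqrt (2 * Cd) / LX X ^ (K0 + 2 + A)))) := by
        gcongr
    _ = 9 * Real.sqrt (2 * Cd) * (X : ℝ) ^ ((5 : ℝ) / 6) *
        (LX X ^ 2 * LX X ^ K0 / LX X ^ (K0 + 2 + A)) := by ring
    _ = 9 * Real.sqrt (2 * Cd) * (X : ℝ) ^ ((5 : ℝ) / 6) * (1 / LX X ^ A) := by
        congr 1
        rw [Real.rpow_add hL0, Real.rpow_add hL0, Real.rpow_natCast,
          show (2 : ℝ) = ((2 : ℕ) : ℝ) by norm_num, Real.rpow_natCast]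
        have h1 : LX X ^ K0 ≠ 0 := (Real.rpow_pos_of_pos hL0 _).ne'
        field_simp
    _ = _ := by ring

/-! ### The Legendre part of the sieve -/

lemma supp_FX (l : ℤ) (X : ℕ) : Sieve812.Supp X (FX l X) := by
  have key : ∀ n, FX l X n ≠ 0 → (X < 2 * nm n ∧ nm n ≤ X) ∧ Squarefree n := by
    intro n hn
    unfold FX at hn
    by_cases h : X < 2 * nm n ∧ nm n ≤ X
    · rw [if_pos h] at hn
      refine ⟨h, ?_⟩
      unfold Fl at hn
      by_contra hc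
      rw [if_neg hc] at hn
      exact hn rfl
    · rw [if_neg h] at hn; exact absurd rfl hn
  exact ⟨fun n hn => (key n hn).2, fun n hn => (key n hn).1.2, fun n hn => (key n hn).1.1⟩

open Classical in
/-- bilinear sums over a set `s` of outer variables as `Bil` -/
lemma outer_eq_Bil (l : ℤ) (X : ℕ) (s : Finset (Finset PrP)) (hs : s ⊆ (UX X).powerset)
    (γ : Finset PrP → ℂ) (α : Eis → ℂ) :
    ∑ K ∈ s, γ K * ∑ a ∈ primBall X, α a * FX l X (prd K * a) =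
      Bil l X (fun S => α (prd S)) (fun K => if K ∈ s then γ K else 0) := by
  unfold Bil
  symm
  refine Finset.sum_comm.trans ?_
  have h1 : ∀ T ∈ (UX X).powerset, ∑ S ∈ (UX X).powerset,
      α (prd S) * (if T ∈ s then γ T else 0) * FX l X (prd S * prd T) =
      if T ∈ s then γ T * ∑ a ∈ primBall X, α a * FX l X (prd T * a) else 0 := by
    intro T _
    by_cases hT : T ∈ s
    · simp only [if_pos hT]
      have h2 := Sieve812.sum_J (supp_FX l X) T (fun S => α (prd S))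
      have h3 : ∑ a ∈ primBall X, α (prd (pset a)) * FX l X (prd T * a) =
          ∑ a ∈ primBall X, α a * FX l X (prd T * a) := by
        refine Finset.sum_congr rfl fun a ha => ?_
        by_cases h0 : FX l X (prd T * a) = 0
        · rw [h0]; ring
        · have h4 := ((supp_FX l X).sq _ h0).of_mul_right
          rw [prd_pset (mem_primBall.mp ha).2 h4]
      rw [← h3, ← h2, Finset.mul_sum]
      refine Finset.sum_congr rfl fun S _ => ?_
      rw [mul_comm (prd S) (prd T)]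
      ring
    · simp only [if_neg hT, mul_zero, zero_mul, Finset.sum_const_zero]
  rw [Finset.sum_congr rfl h1, ← Finset.sum_filter]
  refine Finset.sum_congr ?_ fun _ _ => rfl
  ext T
  rw [Finset.mem_filter]
  exact ⟨fun h => h.2, fun h => ⟨hs h, h⟩⟩

lemma log_wX (X : ℕ) : Real.log (wX X) = (Real.log X) ^ ((2 : ℝ) / 3) := by
  unfold wX; rw [Real.log_exp]

/-- `w ≤ X^0.01` for large `X` -/
lemma wX_le : ∀ᶠ X : ℕ in Filter.atTop, wX X ≤ (X : ℝ) ^ (0.01 : ℝ) := by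
  refine Filter.eventually_atTop.mpr ⟨⌈Real.exp (10 ^ 6)⌉₊, fun X hX => ?_⟩
  have h1 : Real.exp (10 ^ 6) ≤ X := (Nat.le_ceil _).trans (by exact_mod_cast hX)
  have hX0 : (0 : ℝ) < X := lt_of_lt_of_le (Real.exp_pos _) h1
  have h2 : (10 : ℝ) ^ 6 ≤ Real.log X := by
    rw [Real.le_log_iff_exp_le hX0]; exact h1
  unfold wX
  rw [Real.rpow_def_of_pos hX0]
  apply Real.exp_le_exp.mpr
  set L := Real.log X
  have hL0 : 0 < L := by
    have : (0 : ℝ) < 10 ^ 6 := by norm_num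
    linarith
  have h3 : (100 : ℝ) ≤ L ^ ((1 : ℝ) / 3) := by
    calc (100 : ℝ) = ((10 : ℝ) ^ 6) ^ ((1 : ℝ) / 3) := by
          rw [show ((10 : ℝ) ^ 6) = 100 ^ (3 : ℝ) by norm_num, ← Real.rpow_mul (by norm_num)]
          norm_num
      _ ≤ _ := Real.rpow_le_rpow (by norm_num) h2 (by norm_num)
  have h4 : L = L ^ ((2 : ℝ) / 3) * L ^ ((1 : ℝ) / 3) := by
    rw [← Real.rpow_add hL0]; norm_num
  have h5 : 0 < L ^ ((2 : ℝ) / 3) := Real.rpow_pos_of_pos hL0 _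
  nlinarith

lemma log_pow_le (C s : ℝ) (hs : 0 < s) :
    ∀ᶠ X : ℕ in Filter.atTop, LX X ^ C ≤ (X : ℝ) ^ s := by
  have h := (isLittleO_log_rpow_rpow_atTop C hs).bound (c := 1) one_pos
  have h2 := tendsto_natCast_atTop_atTop (R := ℝ) |>.eventually h
  filter_upwards [h2, Filter.eventually_ge_atTop 1] with X hX hX1
  have hX1' : (1 : ℝ) ≤ X := by exact_mod_cast hX1
  have hL : 0 ≤ Real.log X := Real.log_nonneg hX1'
  rw [one_mul, Real.norm_of_nonneg (by positivity), Real.norm_of_nonneg (by positivity)] at hX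
  exact hX

open Classical in
/-- facts about the outer variables of the Legendre part -/
lemma Lset_facts {X : ℕ} {w z D Y : ℝ} {K : Finset PrP}
    (hK : K ∈ Sieve812.Lset X w z D Y) :
    Y ≤ nm (prd K) ∧ (nm (prd K) : ℝ) ≤ w * Y ∧
      Y / D ≤ (nm (prd (K.filter (fun p => (nm p.1 : ℝ) ≤ w))) : ℝ) ∧ K ⊆ UX X := by
  unfold Sieve812.Lset at hK
  rw [Finset.mem_filter, Finset.mem_powerset, Sieve812.Cr_iff] at hK
  obtain ⟨hKU, hKz, hKD, hKlo, hne, hlt, hge⟩ := hK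
  have h1 : (nm (Sieve812.mn K).1 : ℝ) < w := by
    obtain ⟨p, hp⟩ := hKlo
    have hp' := Finset.mem_filter.mp hp
    have h2 : (nm (Sieve812.mn K).1 : ℝ) ≤ nm p.1 := by
      exact_mod_cast PrP.nm_le_of_le (Sieve812.mn_le hp'.1)
    linarith [hp'.2]
  have h3 := Sieve812.nK_erase (Sieve812.mn_mem hne)
  have h4 := Sieve812.nK_pos (K.erase (Sieve812.mn K))
  have h5 := Sieve812.one_le_nm (Sieve812.mn K)
  refine ⟨hge, ?_, ?_, hKU⟩
  · show Sieve812.nK K ≤ w * Y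
    rw [← h3]
    exact mul_le_mul h1.le hlt.le h4.le (by linarith)
  · have h6 := Sieve812.nK_union (Sieve812.disjoint_hi_lo w K)
    rw [Sieve812.hi_union_lo] at h6
    have h7 := Sieve812.nK_pos (Sieve812.hi w K)
    have h8 := Sieve812.nK_pos (Sieve812.lo w K)
    have hD0 : 0 < D := lt_trans h7 hKD
    have h9 : Sieve812.nK (Sieve812.lo w K) ≤
        Sieve812.nK (K.filter (fun p => (nm p.1 : ℝ) ≤ w)) := by
      apply Sieve812.nK_mono
      intro p hp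
      rw [Finset.mem_filter]
      have := Finset.mem_filter.mp hp
      exact ⟨this.1, this.2.le⟩
    have h10 : Y / D ≤ Sieve812.nK (Sieve812.lo w K) := by
      rw [div_le_iff₀ hD0]
      nlinarith
    exact h10.trans h9

open Classical in
/-- **Legendre part** of `Sieve812.exact`, from `T0_Prop`. -/
theorem L_of_T0 (h0 : T0_Prop) (l : ℤ) (A : ℕ) (C0 : ℝ) :
    ∃ (K : ℝ) (X0 : ℕ), 0 < K ∧ ∀ X : ℕ, X0 ≤ X → ∀ z D Y : ℝ,
      0 < D → D ≤ (X : ℝ) ^ ((1 : ℝ) / 3) * LX X ^ C0 →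
      (X : ℝ) ^ (0.39 : ℝ) ≤ Y → Y ≤ (X : ℝ) ^ (0.4 : ℝ) →
      ∀ (φ : PrP → ℂ) (α : Eis → ℂ), (∀ p, ‖φ p‖ ≤ 1) → (∀ a, ‖α a‖ ≤ 1) →
      ‖∑ K ∈ Sieve812.Lset X (wX X) z D Y, (-1 : ℂ) ^ K.card * φ (Sieve812.mn K) *
        ∑ a ∈ primBall X, α a * FX l X (prd K * a)‖ ≤
        K * (X : ℝ) ^ ((5 : ℝ) / 6) / LX X ^ A := by
  obtain ⟨K, X1, hK, H⟩ := sparse_of_T0 h0 l (c0 := 0.05) (c := 1) (by norm_num) le_rfl A
  obtain ⟨X2, hX2⟩ := Filter.eventually_atTop.mp wX_le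
  obtain ⟨X3, hX3⟩ := Filter.eventually_atTop.mp (log_pow_le C0 0.006 (by norm_num))
  refine ⟨K, max (max X1 X2) (max X3 ⌈Real.exp 100⌉₊), hK, ?_⟩
  intro X hX z D Y hD0 hD hY1 hY2 φ α hφ hα
  have k1 : X1 ≤ X := (le_max_left _ _).trans ((le_max_left _ _).trans hX)
  have k2 : wX X ≤ (X : ℝ) ^ (0.01 : ℝ) :=
    hX2 X ((le_max_right _ _).trans ((le_max_left _ _).trans hX))
  have k3 : LX X ^ C0 ≤ (X : ℝ) ^ (0.006 : ℝ) :=
    hX3 X ((le_max_left _ _).trans ((le_max_right _ _).trans hX))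
  have k4 : Real.exp 100 ≤ X := (Nat.le_ceil _).trans
    (by exact_mod_cast (le_max_right _ _).trans ((le_max_right _ _).trans hX))
  have hX0 : (0 : ℝ) < X := lt_of_lt_of_le (Real.exp_pos _) k4
  have hlog : 100 ≤ Real.log X := by rw [Real.le_log_iff_exp_le hX0]; exact k4
  have hXe : (1 : ℝ) ≤ X := by
    have : (1 : ℝ) ≤ Real.exp 100 := Real.one_le_exp (by norm_num)
    linarith
  have hL1 : 1 ≤ Real.log X := by linarith
  have hw2 : 2 ≤ wX X := by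
    unfold wX
    have h1 : (1 : ℝ) ≤ (Real.log X) ^ ((2 : ℝ) / 3) := Real.one_le_rpow hL1 (by norm_num)
    have h2 := Real.add_one_le_exp ((Real.log X) ^ ((2 : ℝ) / 3))
    linarith
  have hY0 : 0 < Y := lt_of_lt_of_le (Real.rpow_pos_of_pos hX0 _) hY1
  rw [outer_eq_Bil l X _ (fun K hK' => Finset.mem_powerset.mpr (Lset_facts hK').2.2.2)
    (fun K => (-1 : ℂ) ^ K.card * φ (Sieve812.mn K)) α]
  refine H X k1 (wX X) hw2 (log_wX X).le _ _ ?_ ?_ ?_ (Or.inl ?_)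
  · intro S; rw [one_pow]; exact hα _
  · intro T
    rw [one_pow]
    split_ifs
    · rw [norm_mul, norm_pow, norm_neg, norm_one, one_pow, one_mul]; exact hφ _
    · rw [norm_zero]; exact zero_le_one
  · intro T hT
    have hT' : T ∈ Sieve812.Lset X (wX X) z D Y := by
      by_contra hc; exact hT (if_neg hc)
    obtain ⟨f1, f2, f3, -⟩ := Lset_facts hT'
    constructor
    · refine le_trans ?_ (hY1.trans f1)
      have h1 : (2 : ℝ) ≤ (X : ℝ) ^ (0.05 : ℝ) := by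
        rw [Real.rpow_def_of_pos hX0]
        have := Real.add_one_le_exp (Real.log X * 0.05)
        linarith
      calc 2 * (X : ℝ) ^ (0.34 : ℝ) ≤ (X : ℝ) ^ (0.05 : ℝ) * (X : ℝ) ^ (0.34 : ℝ) := by gcongr
        _ = (X : ℝ) ^ (0.39 : ℝ) := by rw [← Real.rpow_add hX0]; norm_num
    · refine f2.trans ?_
      calc wX X * Y ≤ (X : ℝ) ^ (0.01 : ℝ) * (X : ℝ) ^ (0.4 : ℝ) := by gcongr
        _ = (X : ℝ) ^ (0.41 : ℝ) := by rw [← Real.rpow_add hX0]; norm_num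
  · intro T hT
    have hT' : T ∈ Sieve812.Lset X (wX X) z D Y := by
      by_contra hc; exact hT (if_neg hc)
    obtain ⟨f1, f2, f3, -⟩ := Lset_facts hT'
    refine le_trans ?_ f3
    rw [le_div_iff₀ hD0]
    calc (X : ℝ) ^ (0.05 : ℝ) * D
        ≤ (X : ℝ) ^ (0.05 : ℝ) * ((X : ℝ) ^ ((1 : ℝ) / 3) * (X : ℝ) ^ (0.006 : ℝ)) := by
          gcongr
          exact hD.trans (by gcongr)
      _ = (X : ℝ) ^ (0.05 + ((1 : ℝ) / 3 + 0.006)) := by
          rw [Real.rpow_add hX0, Real.rpow_add hX0]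
      _ ≤ (X : ℝ) ^ (0.39 : ℝ) := Real.rpow_le_rpow_of_exponent_le hXe (by norm_num)
      _ ≤ Y := hY1

/-- `LegPart` of helper812. -/
theorem legPart (h0 : T0_Prop) (l : ℤ) (A : ℕ) (C0 : ℝ) : Sieve812.LegPart l A C0 := by
  obtain ⟨K, X0, -, H⟩ := L_of_T0 h0 l A C0
  refine ⟨K, max X0 2, fun X hX z φ α hφ hα => ?_⟩
  have hX2 : 2 ≤ X := (le_max_right _ _).trans hX
  have hX0 : (0 : ℝ) < X := by exact_mod_cast (by omega : 0 < X)
  have hX1 : (1 : ℝ) ≤ X := by exact_mod_cast (by omega : 1 ≤ X)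
  have hL : 0 < LX X := Real.log_pos (by exact_mod_cast (by omega : 1 < X))
  refine H X ((le_max_left _ _).trans hX) z _ _ (by positivity) le_rfl ?_ ?_ φ α hφ hα
  · exact Real.rpow_le_rpow_of_exponent_le hX1 (by norm_num)
  · exact Real.rpow_le_rpow_of_exponent_le hX1 (by norm_num)

end Crest.Agent.R012.SparseT0420
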