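import Crest.Agent.R012.SpecMain_48
import Crest.Agent.R012.SieveC_812
import Crest.Agent.R012.Dens_420
import Crest.Agent.R012.Div_277
import Crest.Agent.R012.SparseT0_420
import Crest.Agent.R012.IxOf_106
import Crest.Agent.R012.SieveUse_50
import Crest.Agent.R012.Sep_290
import Crest.Agent.R012.MV_400

-- ▼ part R012/NearHalf_828
section

/-!
# Row 12, item SNH (helper828): primes near `X^(1/2)`.  Definitions and the four parts.

`Fa l X α V₁ V₂ T = ∑_S α_S F_X(prd S · prd T)` if `V₁ ≤ N(prd T) ≤ V₂`, else `0`.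
Parameters `w = wX X`, `z = X^0.06`, levels `X^0.05` (primes in `[w, z)`) and `X^0.1` (primes `< w`).

`∑_p Fa {p} = (rough) - (composite)`, `composite = CompPart`, and `rough = TIPart + LPart + CrPart`.
-/

set_option autoImplicit false

noncomputable section

open Complex Filter Topology

namespace Crest.Agent.R012.NearHalf828

open Crest.Agent.R012 Eis Buch420 Main48

/-- `z = X^0.06`. -/
def zX (X : ℕ) : ℝ := (X : ℝ) ^ (0.06 : ℝ)
/-- level for the primes in `[w, z)`. -/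
def D1 (X : ℕ) : ℝ := (X : ℝ) ^ (0.05 : ℝ)
/-- level for the primes `< w`. -/
def D2 (X : ℕ) : ℝ := (X : ℝ) ^ (0.1 : ℝ)

open Classical in
/-- `∑_S α_S F_X(prd S · prd T)`, restricted to `V₁ ≤ N(prd T) ≤ V₂`. -/
def Fa (l : ℤ) (X : ℕ) (α : Finset PrP → ℂ) (V₁ V₂ : ℝ) (T : Finset PrP) : ℂ :=
  if V₁ ≤ nm (prd T) ∧ (nm (prd T) : ℝ) ≤ V₂ then
    ∑ S ∈ (UX X).powerset, α S * FX l X (prd S * prd T) else 0

open Classical in
/-- primes `≥ w`. -/
def Uw (X : ℕ) : Finset PrP := (UX X).filter (fun p => ¬ (nm p.1 : ℝ) < wX X)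

open Classical in
/-- **TI part.**  `I`, `E` run over arbitrary families of sets of norm `< X^0.05`, `< X^0.1`. -/
def TIPart : Prop := ∀ l : ℤ, ∃ (δ K : ℝ) (X0 : ℕ), 0 < δ ∧ ∀ X : ℕ, X0 ≤ X →
  ∀ (α : Finset PrP → ℂ) (V₁ V₂ : ℝ), (∀ S, ‖α S‖ ≤ 1) →
    (X : ℝ) ^ (0.495 : ℝ) ≤ V₁ → V₂ ≤ (X : ℝ) ^ (0.505 : ℝ) →
  ∀ (II : Finset (Finset PrP)) (EE : Finset PrP → Finset (Finset PrP)),
    (∀ I ∈ II, I ⊆ UX X ∧ nu PrP.N I < D1 X) →
    (∀ I ∈ II, ∀ E ∈ EE I, E ⊆ UX X \ I ∧ nu PrP.N E < D2 X) →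
    ‖∑ I ∈ II, (-1 : ℂ) ^ I.card * ∑ E ∈ EE I, (-1 : ℂ) ^ E.card *
      ∑ J ∈ ((UX X \ I) \ E).powerset, Fa l X α V₁ V₂ (I ∪ (E ∪ J))‖ ≤
      K * (X : ℝ) ^ (5 / 6 - δ)

open Classical in
/-- **L part** (crossing of the level by the primes `< w`). -/
def LPart : Prop := ∀ (l : ℤ) (A : ℕ), ∃ (K : ℝ) (X0 : ℕ), ∀ X : ℕ, X0 ≤ X →
  ∀ (α : Finset PrP → ℂ) (V₁ V₂ : ℝ), (∀ S, ‖α S‖ ≤ 1) →
    (X : ℝ) ^ (0.495 : ℝ) ≤ V₁ → V₂ ≤ (X : ℝ) ^ (0.505 : ℝ) →
    ‖∑ I ∈ ((Uw X).filter (fun p => (nm p.1 : ℝ) < zX X)).powerset.filter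
        (fun I => nu PrP.N I < D1 X), (-1 : ℂ) ^ I.card *
      ∑ E ∈ ((UX X \ I).filter (fun p => (nm p.1 : ℝ) < wX X)).powerset.filter
        (fun E => Cr PrP.N (D2 X) E), (-1 : ℂ) ^ E.card *
      ∑ J ∈ (((UX X \ I) \ E).filter (fun p => Ab E p)).powerset, Fa l X α V₁ V₂ (I ∪ (E ∪ J))‖ ≤
      K * (X : ℝ) ^ ((5 : ℝ) / 6) / LX X ^ A

open Classical in
/-- **Cr part** (crossing of the level by the primes in `[w, z)`). -/
def CrPart : Prop := ∀ (l : ℤ) (A : ℕ), ∃ (K : ℝ) (X0 : ℕ), ∀ X : ℕ, X0 ≤ X →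
  ∀ (α : Finset PrP → ℂ) (V₁ V₂ : ℝ), (∀ S, ‖α S‖ ≤ 1) →
    (X : ℝ) ^ (0.495 : ℝ) ≤ V₁ → V₂ ≤ (X : ℝ) ^ (0.505 : ℝ) →
    ‖∑ I ∈ ((Uw X).filter (fun p => (nm p.1 : ℝ) < zX X)).powerset.filter
        (fun I => Cr PrP.N (D1 X) I), (-1 : ℂ) ^ I.card *
      ∑ J ∈ ((Uw X \ I).filter (fun p => Ab I p)).powerset, Fa l X α V₁ V₂ (I ∪ J)‖ ≤
      K * (X : ℝ) ^ ((5 : ℝ) / 6) / LX X ^ A

open Classical in
/-- **composite part**. -/
def CompPart : Prop := ∃ η : ℝ, 0 < η ∧ ∀ (l : ℤ) (A : ℕ), ∃ (K : ℝ) (X0 : ℕ), ∀ X : ℕ, X0 ≤ X →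
  ∀ (α : Finset PrP → ℂ) (V₁ V₂ : ℝ), (∀ S, ‖α S‖ ≤ 1) →
    (X : ℝ) ^ (1 / 2 - η) ≤ V₁ → V₂ ≤ (X : ℝ) ^ (1 / 2 + η) →
    ‖∑ T ∈ ((UX X).filter (fun p => ¬ (nm p.1 : ℝ) < zX X)).powerset.filter (fun T => 2 ≤ T.card),
      Fa l X α V₁ V₂ T‖ ≤ K * (X : ℝ) ^ ((5 : ℝ) / 6) / LX X ^ A

/-- (helper766) -/
def TIPart_of : Prop := TI_Prop → TIPart
/-- (helper286; helper50 backup) -/
def LPart_of : Prop := T0x_Prop → LPart
/-- (helper828) -/
def CrPart_of : Prop := TIIx_Prop → CrPart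
/-- (helper47) -/
def CompPart_of : Prop := TIIc_Prop → CompPart
/-- (helper828) -/
def SNH_assembly : Prop := TIPart → LPart → CrPart → CompPart → SNH_Prop

end Crest.Agent.R012.NearHalf828
end
end

-- ▼ part R012/SNH_Comp_47
section

/-!
# Row 12, item SNH: the composite part (helper47)

`CompPart_of : TIIc_Prop → CompPart`.
-/

set_option autoImplicit false

noncomputable section

open Complex Filter Topology

namespace Crest.Agent.R012.NearHalf828

open Crest.Agent.R012 Eis Buch420 Main48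

namespace Comp47

/-- the condition on `b = prd T`. -/
def Cond (z V₁ V₂ : ℝ) (T : Finset PrP) : Prop :=
  2 ≤ T.card ∧ (∀ p ∈ T, z ≤ nm p.1) ∧ V₁ ≤ nm (prd T) ∧ (nm (prd T) : ℝ) ≤ V₂

open Classical in
/-- the coefficient. -/
def be (z V₁ V₂ : ℝ) (T : Finset PrP) : ℂ := if Cond z V₁ V₂ T then 1 else 0

open Classical in
/-- coefficient `c`. -/
def cc (z : ℝ) (T : Finset PrP) : ℂ := if T.Nonempty ∧ ∀ p ∈ T, z ≤ nm p.1 then 1 else 0

/-- lower end. -/
def lo (z V₁ : ℝ) (T : Finset PrP) : ℕ := max ⌈z⌉₊ ⌈V₁ / nm (prd T)⌉₊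

/-- upper end. -/
def hi (V₂ : ℝ) (T : Finset PrP) : ℕ := ⌊V₂ / nm (prd T)⌋₊ + 1

lemma nm_prd_pos (T : Finset PrP) : (0 : ℝ) < nm (prd T) := by
  have : nm (prd T) ≠ 0 := by
    rw [Ne, nm_eq_zero]; exact prd_ne_zero T
  exact_mod_cast Nat.pos_of_ne_zero this

lemma nm_pos (p : PrP) : 0 < nm p.1 := by
  have : nm p.1 ≠ 0 := by
    rw [Ne, nm_eq_zero]; exact p.2.2.ne_zero
  exact Nat.pos_of_ne_zero this

lemma cond_insert {z V₁ V₂ : ℝ} {T : Finset PrP} {p : PrP} (hp : ∀ q ∈ T, q < p) :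
    Cond z V₁ V₂ (insert p T) ↔
      (lo z V₁ T ≤ nm p.1 ∧ nm p.1 < hi V₂ T) ∧ (T.Nonempty ∧ ∀ q ∈ T, z ≤ nm q.1) := by
  have hnot : p ∉ T := fun h => lt_irrefl _ (hp p h)
  have hT := nm_prd_pos T
  have hp0 := nm_pos p
  have e1 : (nm (prd (insert p T)) : ℝ) = nm p.1 * nm (prd T) := by
    rw [prd_insert hnot, nm_mul]; push_cast; rfl
  unfold Cond
  rw [e1, Finset.card_insert_of_notMem hnot]
  have h1 : lo z V₁ T ≤ nm p.1 ↔ z ≤ nm p.1 ∧ V₁ ≤ nm p.1 * nm (prd T) := by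
    unfold lo
    rw [max_le_iff, Nat.ceil_le, Nat.ceil_le, div_le_iff₀ hT]
  have h2 : nm p.1 < hi V₂ T ↔ (nm p.1 * nm (prd T) : ℝ) ≤ V₂ := by
    unfold hi
    rw [Nat.lt_succ_iff, Nat.le_floor_iff' hp0.ne', le_div_iff₀ hT]
  rw [h1, h2]
  have h3 : 2 ≤ T.card + 1 ↔ T.Nonempty := by
    rw [← Finset.card_pos]; omega
  rw [h3]
  simp only [Finset.mem_insert, forall_eq_or_imp]
  tauto

lemma swc_be (z V₁ V₂ : ℝ) : SWc (be z V₁ V₂) where
  bd T := by
    unfold be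
    split_ifs <;> simp
  int := by
    refine ⟨cc z, lo z V₁, hi V₂, fun T => ?_, fun T p hp => ?_⟩
    · unfold cc
      split_ifs <;> simp
    · have h := cond_insert (z := z) (V₁ := V₁) (V₂ := V₂) hp
      unfold be cc
      by_cases h1 : lo z V₁ T ≤ nm p.1 ∧ nm p.1 < hi V₂ T
      · by_cases h2 : T.Nonempty ∧ ∀ q ∈ T, z ≤ nm q.1
        · rw [if_pos (h.mpr ⟨h1, h2⟩), if_pos h1, if_pos h2]
        · rw [if_neg (fun h3 => h2 (h.mp h3).2), if_pos h1, if_neg h2]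
      · rw [if_neg (fun h3 => h1 (h.mp h3).1), if_neg h1]

open Classical in
lemma sum_eq (l : ℤ) (X : ℕ) (α : Finset PrP → ℂ) (V₁ V₂ : ℝ) :
    ∑ T ∈ ((UX X).filter (fun p => ¬ (nm p.1 : ℝ) < zX X)).powerset.filter (fun T => 2 ≤ T.card),
      Fa l X α V₁ V₂ T = Bil l X α (be (zX X) V₁ V₂) := by
  unfold Bil
  rw [Finset.sum_comm]
  have h1 : ∀ T ∈ (UX X).powerset, ∑ S ∈ (UX X).powerset,
      α S * be (zX X) V₁ V₂ T * FX l X (prd S * prd T) =
      if Cond (zX X) V₁ V₂ T then ∑ S ∈ (UX X).powerset, α S * FX l X (prd S * prd T) else 0 := by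
    intro T _
    unfold be
    split_ifs
    · simp
    · simp
  rw [Finset.sum_congr rfl h1, ← Finset.sum_filter]
  unfold Fa
  rw [← Finset.sum_filter]
  refine Finset.sum_congr ?_ fun _ _ => rfl
  ext T
  rw [Finset.mem_filter, Finset.mem_filter, Finset.mem_filter, Finset.mem_powerset,
    Finset.mem_powerset]
  constructor
  · rintro ⟨⟨h1, h2⟩, h3⟩
    refine ⟨fun p hp => (Finset.mem_filter.mp (h1 hp)).1, h2, fun p hp =>
      not_lt.mp (Finset.mem_filter.mp (h1 hp)).2, h3⟩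
  · rintro ⟨h1, h2, h3, h4⟩
    exact ⟨⟨fun p hp => Finset.mem_filter.mpr ⟨h1 hp, not_lt.mpr (h3 p hp)⟩, h2⟩, h4⟩

end Comp47

/-- **(SNH, composite part)** (helper47) -/
theorem compPart_of : CompPart_of := by
  rintro ⟨η, hη, H⟩
  refine ⟨η, hη, fun l A => ?_⟩
  obtain ⟨K, X0, h⟩ := H l A
  refine ⟨K, X0, fun X hX α V₁ V₂ hα hV1 hV2 => ?_⟩
  rw [Comp47.sum_eq]
  refine h X hX α (Comp47.be (zX X) V₁ V₂) hα (Comp47.swc_be _ _ _) fun T hT => ?_
  have hc : Comp47.Cond (zX X) V₁ V₂ T := by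
    by_contra hc
    exact hT (by unfold Comp47.be; rw [if_neg hc])
  exact ⟨hc.1, hc.2.1, hV1.trans hc.2.2.1, hc.2.2.2.trans hV2⟩

end Crest.Agent.R012.NearHalf828
end
end

-- ▼ part R012/SNHa_766
section

/-!
# Row 12: primes near `X^(1/2)`, part A: exact identity without the lower bound on the support
-/

set_option autoImplicit false

noncomputable section

namespace Crest.Agent.R012.SNH766

open Finset Eis Buch420 Sieve812

/-- `f` is supported on squarefree `n` of norm `≤ X`. -/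
structure Sp (X : ℕ) (f : Eis → ℂ) : Prop where
  sq : ∀ n, f n ≠ 0 → Squarefree n
  le : ∀ n, f n ≠ 0 → nm n ≤ X

variable {X : ℕ} {f : Eis → ℂ}








end Crest.Agent.R012.SNH766
end
end

-- ▼ part R012/SNHb_766
section

/-!
# Row 12: primes near `X^(1/2)`, part B: conversion to the index form
-/

set_option autoImplicit false

noncomputable section

namespace Crest.Agent.R012.SNH766

open Finset Eis Buch420 Sieve812 Main48

open Classical in
/-- dyadic block of a coefficient sequence -/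
def dy (k : ℕ) (β : Finset PrP → ℂ) (T : Finset PrP) : ℂ :=
  if (2 : ℝ) ^ k < nK T ∧ nK T ≤ 2 ^ (k + 1) then β T else 0

lemma nK_nat (T : Finset PrP) : nK T = ((nm (prd T) : ℕ) : ℝ) := rfl








end Crest.Agent.R012.SNH766
end
end

-- ▼ part R012/SNH_TI_766
section

/-!
# Row 12: primes near `X^(1/2)`, the Type I part (`NearHalf828.TIPart_of`)
-/

set_option autoImplicit false

noncomputable section

namespace Crest.Agent.R012.SNH766

open Finset Eis Buch420 Sieve812 Main48 NearHalf828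

open Classical in
/-- type I sum -/
def GG (l : ℤ) (X : ℕ) (d : Eis) (y : ℕ) : ℝ :=
  ‖∑ m ∈ (primBall X).filter (fun m => nm (d * m) ≤ y), Fl l (d * m)‖

lemma exists_max (l : ℤ) (X : ℕ) :
    ∃ Y : Eis → ℕ, (∀ d, Y d ≤ X) ∧ ∀ d, ∀ y, y ≤ X → GG l X d y ≤ GG l X d (Y d) := by
  have h : ∀ d : Eis, ∃ y : ℕ, y ≤ X ∧ ∀ y', y' ≤ X → GG l X d y' ≤ GG l X d y := by
    intro d
    obtain ⟨y, hy, hmax⟩ := Finset.exists_max_image (Finset.range (X + 1)) (GG l X d)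
      ⟨0, by simp⟩
    exact ⟨y, by rw [Finset.mem_range] at hy; omega, fun y' hy' => hmax y' (by
      rw [Finset.mem_range]; omega)⟩
  choose Y hY1 hY2 using h
  exact ⟨Y, hY1, hY2⟩

lemma Fl_eq_zero (l : ℤ) {n : Eis} (h : ¬ Squarefree n) : Fl l n = 0 := by
  unfold Fl; rw [if_neg h]

lemma FX_ne_zero {l : ℤ} {X : ℕ} {n : Eis} (h : FX l X n ≠ 0) :
    Squarefree n ∧ X < 2 * nm n ∧ nm n ≤ X := by
  unfold FX at h
  split_ifs at h with h1
  · refine ⟨?_, h1⟩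
    by_contra hc
    exact h (Fl_eq_zero l hc)
  · exact absurd rfl h

open Classical in
/-- The inner sum. -/
lemma inner_le (l : ℤ) {X : ℕ} {Y : Eis → ℕ}
    (hY : ∀ d, ∀ y, y ≤ X → GG l X d y ≤ GG l X d (Y d)) {S T0 : Finset PrP}
    (hd : Disjoint S T0) {V₁ V₂ : ℝ} (hV : 0 < V₁) :
    ‖∑ J ∈ (UX X \ T0).powerset, (if V₁ ≤ nm (prd (T0 ∪ J)) ∧ (nm (prd (T0 ∪ J)) : ℝ) ≤ V₂ then
        FX l X (prd S * prd (T0 ∪ J)) else 0)‖ ≤
      2 * GG l X (prd (S ∪ T0)) (Y (prd (S ∪ T0))) := by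
  set f : Eis → ℂ := fun n => if V₁ ≤ nm n ∧ (nm n : ℝ) ≤ V₂ then FX l X (prd S * n) else 0
    with hf
  have hS0 : 0 < nm (prd S) := nm_pos.mpr (prd_ne_zero S)
  have hT0 : 0 < nm (prd T0) := nm_pos.mpr (prd_ne_zero T0)
  have hfs : ∀ n, f n ≠ 0 → Squarefree n ∧ nm n ≤ X := by
    intro n hn
    rw [hf] at hn
    simp only at hn
    split_ifs at hn with h1
    · have h2 := FX_ne_zero hn
      refine ⟨h2.1.of_mul_right, ?_⟩
      have h3 := h2.2.2
      rw [nm_mul] at h3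
      nlinarith
    · exact absurd rfl hn
  have e1 : ∑ J ∈ (UX X \ T0).powerset, (if V₁ ≤ nm (prd (T0 ∪ J)) ∧
      (nm (prd (T0 ∪ J)) : ℝ) ≤ V₂ then FX l X (prd S * prd (T0 ∪ J)) else 0) =
      ∑ n ∈ (primBall X).filter (fun n => prd T0 ∣ n), f n :=
    sum_powerset_multiples f hfs T0
  set D := prd (S ∪ T0) with hD
  have hDe : D = prd S * prd T0 := prd_union hd
  -- change to `m`
  have e2 : ∑ n ∈ (primBall X).filter (fun n => prd T0 ∣ n), f n =
      ∑ m ∈ primBall X, f (prd T0 * m) := by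
    rw [Div277.primBall_filter_dvd X (isPrim_prd T0), Finset.sum_map]
    simp only [Div277.mulEmb_apply]
    refine Finset.sum_subset ?_ ?_
    · intro m hm
      rw [mem_primBall] at hm ⊢
      exact ⟨hm.1.trans (Nat.div_le_self _ _), hm.2⟩
    · intro m hm hm'
      by_contra hc
      apply hm'
      have h2 := (hfs _ hc).2
      rw [nm_mul] at h2
      rw [mem_primBall] at hm ⊢
      refine ⟨?_, hm.2⟩
      rw [Nat.le_div_iff_mul_le hT0, mul_comm]; exact h2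
  -- the two cut-offs
  set y2 : ℕ := min X ⌊V₂ * nm (prd S)⌋₊ with hy2
  set y1 : ℕ := min y2 (max (⌈V₁ * nm (prd S)⌉₊ - 1) (X / 2)) with hy1
  have hSr : (0 : ℝ) < nm (prd S) := by exact_mod_cast hS0
  have e3 : ∀ m ∈ primBall X, f (prd T0 * m) =
      (if nm (D * m) ≤ y2 then Fl l (D * m) else 0) -
      (if nm (D * m) ≤ y1 then Fl l (D * m) else 0) := by
    intro m hm
    rw [mem_primBall] at hm
    have hm0 : 0 < nm m := nm_pos.mpr hm.2.ne_zero
    have hDm : D * m = prd S * (prd T0 * m) := by rw [hDe, mul_assoc]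
    have hN : nm (D * m) = nm (prd S) * nm (prd T0 * m) := by rw [hDm, nm_mul]
    have hNpos : 0 < nm (D * m) := by
      rw [hN, nm_mul]; positivity
    have c1 : V₁ ≤ nm (prd T0 * m) ↔ ¬ nm (D * m) ≤ ⌈V₁ * nm (prd S)⌉₊ - 1 := by
      have h1 : 0 < V₁ * nm (prd S) := mul_pos hV hSr
      have h2 : 0 < ⌈V₁ * nm (prd S)⌉₊ := Nat.ceil_pos.mpr h1
      have h3 : (¬ nm (D * m) ≤ ⌈V₁ * nm (prd S)⌉₊ - 1) ↔ ⌈V₁ * nm (prd S)⌉₊ ≤ nm (D * m) := by
        omega
      rw [h3, Nat.ceil_le, hN]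
      push_cast
      rw [mul_comm V₁]
      exact (mul_le_mul_iff_right₀ hSr).symm
    have c2 : (nm (prd T0 * m) : ℝ) ≤ V₂ ↔ nm (D * m) ≤ ⌊V₂ * nm (prd S)⌋₊ := by
      rw [Nat.le_floor_iff' hNpos.ne', hN]
      push_cast
      rw [mul_comm V₂]
      exact (mul_le_mul_iff_right₀ hSr).symm
    have c3 : X < 2 * nm (D * m) ↔ ¬ nm (D * m) ≤ X / 2 := by omega
    rw [hf]
    simp only
    rw [← hDm]
    have c4 : ((V₁ ≤ nm (prd T0 * m) ∧ (nm (prd T0 * m) : ℝ) ≤ V₂) ∧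
        X < 2 * nm (D * m) ∧ nm (D * m) ≤ X) ↔ (nm (D * m) ≤ y2 ∧ ¬ nm (D * m) ≤ y1) := by
      rw [c1, c2, c3, hy1, hy2]
      omega
    by_cases h1 : (V₁ ≤ nm (prd T0 * m) ∧ (nm (prd T0 * m) : ℝ) ≤ V₂) ∧
        X < 2 * nm (D * m) ∧ nm (D * m) ≤ X
    · have h2 := c4.mp h1
      rw [if_pos h1.1, if_pos h2.1, if_neg h2.2, sub_zero]
      unfold FX
      rw [if_pos h1.2]
    · have h3 : (if V₁ ≤ nm (prd T0 * m) ∧ (nm (prd T0 * m) : ℝ) ≤ V₂ then FX l X (D * m)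
          else 0) = 0 := by
        split_ifs with h4
        · unfold FX
          rw [if_neg (fun h5 => h1 ⟨h4, h5⟩)]
        · rfl
      rw [h3]
      have h5 : ¬ (nm (D * m) ≤ y2 ∧ ¬ nm (D * m) ≤ y1) := fun h6 => h1 (c4.mpr h6)
      have h12 : y1 ≤ y2 := min_le_left _ _
      by_cases h6 : nm (D * m) ≤ y2
      · have h7 : nm (D * m) ≤ y1 := by
          by_contra h8; exact h5 ⟨h6, h8⟩
        rw [if_pos h6, if_pos h7, sub_self]
      · rw [if_neg h6, if_neg (fun h8 => h6 (h8.trans h12)), sub_self]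
  rw [e1, e2, Finset.sum_congr rfl e3, Finset.sum_sub_distrib, ← Finset.sum_filter,
    ← Finset.sum_filter]
  refine (norm_sub_le _ _).trans ?_
  have h1 := hY D y2 (min_le_left _ _)
  have h2 := hY D y1 ((min_le_left _ _).trans (min_le_left _ _))
  unfold GG at h1 h2 ⊢
  linarith

open Classical in
lemma two_pow_card_le_tau (D : Finset PrP) : 2 ^ D.card ≤ Div277.tau (prd D) := by
  rw [← Finset.card_powerset, Div277.tau, ← Finset.card_image_of_injective _ prd_injective]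
  refine Finset.card_le_card ?_
  intro d hd
  rw [Finset.mem_image] at hd
  obtain ⟨T, hT, rfl⟩ := hd
  rw [Div277.mem_dvs (prd_ne_zero D)]
  exact ⟨isPrim_prd T, prd_dvd_prd_iff.mpr (Finset.mem_powerset.mp hT)⟩

open Classical in
/-- the triple sum -/
lemma triple_le (P : Finset PrP) (H : Finset PrP → ℝ) (hH : ∀ D, 0 ≤ H D) :
    ∑ I ∈ P.powerset, ∑ E ∈ P.powerset, ∑ S ∈ P.powerset, H (S ∪ (I ∪ E)) ≤
      ∑ D ∈ P.powerset, (2 : ℝ) ^ D.card * 2 ^ D.card * 2 ^ D.card * H D := by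
  have e1 : ∑ I ∈ P.powerset, ∑ E ∈ P.powerset, ∑ S ∈ P.powerset, H (S ∪ (I ∪ E)) =
      ∑ x ∈ P.powerset ×ˢ (P.powerset ×ˢ P.powerset), H (x.2.2 ∪ (x.1 ∪ x.2.1)) := by
    rw [Finset.sum_product]
    refine Finset.sum_congr rfl fun I _ => ?_
    rw [Finset.sum_product]
  rw [e1]
  have hmap : ∀ x ∈ P.powerset ×ˢ (P.powerset ×ˢ P.powerset), x.2.2 ∪ (x.1 ∪ x.2.1) ∈ P.powerset := by
    intro x hx
    rw [Finset.mem_product, Finset.mem_product, Finset.mem_powerset, Finset.mem_powerset,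
      Finset.mem_powerset] at hx
    rw [Finset.mem_powerset]
    exact Finset.union_subset hx.2.2 (Finset.union_subset hx.1 hx.2.1)
  rw [← Finset.sum_fiberwise_of_maps_to hmap]
  refine Finset.sum_le_sum fun D _ => ?_
  have e2 : ∑ x ∈ (P.powerset ×ˢ (P.powerset ×ˢ P.powerset)).filter
      (fun x => x.2.2 ∪ (x.1 ∪ x.2.1) = D), H (x.2.2 ∪ (x.1 ∪ x.2.1)) =
      ((P.powerset ×ˢ (P.powerset ×ˢ P.powerset)).filter
        (fun x => x.2.2 ∪ (x.1 ∪ x.2.1) = D)).card * H D := by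
    rw [← nsmul_eq_mul, ← Finset.sum_const]
    refine Finset.sum_congr rfl fun x hx => ?_
    rw [(Finset.mem_filter.mp hx).2]
  rw [e2]
  refine mul_le_mul_of_nonneg_right ?_ (hH D)
  have h3 : (P.powerset ×ˢ (P.powerset ×ˢ P.powerset)).filter
        (fun x => x.2.2 ∪ (x.1 ∪ x.2.1) = D) ⊆ D.powerset ×ˢ (D.powerset ×ˢ D.powerset) := by
    intro x hx
    have h4 := (Finset.mem_filter.mp hx).2
    rw [Finset.mem_product, Finset.mem_product, Finset.mem_powerset, Finset.mem_powerset,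
      Finset.mem_powerset, ← h4]
    refine ⟨?_, ?_, ?_⟩
    · exact Finset.subset_union_left.trans Finset.subset_union_right
    · exact Finset.subset_union_right.trans Finset.subset_union_right
    · exact Finset.subset_union_left
  have h5 := Finset.card_le_card h3
  rw [Finset.card_product, Finset.card_product, Finset.card_powerset] at h5
  have h6 : 2 ^ D.card * (2 ^ D.card * 2 ^ D.card) = 2 ^ D.card * 2 ^ D.card * 2 ^ D.card := by ring
  rw [h6] at h5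
  exact_mod_cast h5

open Classical in
theorem tiPart : TIPart_of := by
  intro hTI l
  obtain ⟨δ, C, hδ, hC, hmain⟩ := hTI l (1 / 100) (by norm_num)
  obtain ⟨Ct, hCt, htau⟩ := Div277.tau_le_rpow (ε := δ / 6) (by positivity)
  refine ⟨δ / 2, 2 * Ct ^ 3 * C, 2, by positivity, ?_⟩
  intro X hX2 α V₁ V₂ hα hV1 hV2 II EE hII hEE
  have hXr : (2 : ℝ) ≤ X := by exact_mod_cast hX2
  have hX0 : (0 : ℝ) < X := by linarith
  have hX1 : (1 : ℝ) ≤ X := by linarith
  have hV : 0 < V₁ := lt_of_lt_of_le (Real.rpow_pos_of_pos hX0 _) hV1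
  obtain ⟨Y, hYX, hY⟩ := exists_max l X
  have hGG0 : ∀ d y, 0 ≤ GG l X d y := fun d y => norm_nonneg _
  -- the majorant
  set H : Finset PrP → ℝ := fun D =>
    if (nm (prd D) : ℝ) ≤ (X : ℝ) ^ ((2 : ℝ) / 3 - 1 / 100) then
      2 * GG l X (prd D) (Y (prd D)) else 0 with hH
  have hH0 : ∀ D, 0 ≤ H D := by
    intro D
    rw [hH]
    simp only
    split_ifs
    · have := hGG0 (prd D) (Y (prd D)); linarith
    · exact le_rfl
  -- bound for a triple
  have key : ∀ I ∈ II, ∀ E ∈ EE I, ∀ S ∈ (UX X).powerset,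
      ‖∑ J ∈ ((UX X \ I) \ E).powerset, (if V₁ ≤ nm (prd (I ∪ (E ∪ J))) ∧
        (nm (prd (I ∪ (E ∪ J))) : ℝ) ≤ V₂ then FX l X (prd S * prd (I ∪ (E ∪ J))) else 0)‖ ≤
        H (S ∪ (I ∪ E)) := by
    intro I hI E hE S hS
    have e1 : (UX X \ I) \ E = UX X \ (I ∪ E) := by
      ext p
      rw [Finset.mem_sdiff, Finset.mem_sdiff, Finset.mem_sdiff, Finset.mem_union, not_or,
        and_assoc]
    have e2 : ∀ J : Finset PrP, I ∪ (E ∪ J) = (I ∪ E) ∪ J := fun J =>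
      (Finset.union_assoc _ _ _).symm
    simp only [e1, e2]
    by_cases hd : Disjoint S (I ∪ E)
    · by_cases hS2 : nK S * V₁ ≤ X
      · have hIE : Disjoint I E := by
          rw [Finset.disjoint_left]
          intro p hp hp'
          exact (Finset.mem_sdiff.mp ((hEE I hI E hE).1 hp')).2 hp
        have hsmall : (nm (prd (S ∪ (I ∪ E))) : ℝ) ≤ (X : ℝ) ^ ((2 : ℝ) / 3 - 1 / 100) := by
          have h1 : (nm (prd (S ∪ (I ∪ E))) : ℝ) = nK S * (nK I * nK E) := by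
            rw [← nK_nat, nK_union hd, nK_union hIE]
          have h2 : nK S ≤ (X : ℝ) ^ (0.505 : ℝ) := by
            have h3 : nK S ≤ X / V₁ := by rw [le_div_iff₀ hV]; exact hS2
            have h4 : (X : ℝ) / V₁ ≤ X / (X : ℝ) ^ (0.495 : ℝ) :=
              div_le_div_of_nonneg_left hX0.le (Real.rpow_pos_of_pos hX0 _) hV1
            have h5 : (X : ℝ) / (X : ℝ) ^ (0.495 : ℝ) = (X : ℝ) ^ (0.505 : ℝ) := by
              conv_lhs => rw [← Real.rpow_one (X : ℝ), ← Real.rpow_mul hX0.le, one_mul]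
              rw [← Real.rpow_sub hX0]
              norm_num
            linarith
          have h3 : nK I ≤ (X : ℝ) ^ (0.05 : ℝ) := by
            have := (hII I hI).2.le
            rw [nK_eq]; exact this
          have h4 : nK E ≤ (X : ℝ) ^ (0.1 : ℝ) := by
            have := (hEE I hI E hE).2.le
            rw [nK_eq]; exact this
          rw [h1]
          calc nK S * (nK I * nK E) ≤ (X : ℝ) ^ (0.505 : ℝ) * ((X : ℝ) ^ (0.05 : ℝ) *
                (X : ℝ) ^ (0.1 : ℝ)) := by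
                have a1 := nK_pos I
                have a2 := nK_pos E
                have a3 := nK_pos S
                gcongr
            _ = (X : ℝ) ^ (0.655 : ℝ) := by
                rw [← Real.rpow_add hX0, ← Real.rpow_add hX0]; norm_num
            _ ≤ (X : ℝ) ^ ((2 : ℝ) / 3 - 1 / 100) :=
                Real.rpow_le_rpow_of_exponent_le hX1 (by norm_num)
        have h1 := inner_le l hY hd (V₂ := V₂) hV
        rw [hH]
        simp only
        rw [if_pos hsmall]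
        exact h1
      · have h0 : ∑ J ∈ (UX X \ (I ∪ E)).powerset, (if V₁ ≤ nm (prd ((I ∪ E) ∪ J)) ∧
          (nm (prd ((I ∪ E) ∪ J)) : ℝ) ≤ V₂ then FX l X (prd S * prd ((I ∪ E) ∪ J)) else 0) = 0 := by
          refine Finset.sum_eq_zero fun J _ => ?_
          split_ifs with h1
          · by_contra hc
            have h2 := (FX_ne_zero hc).2.2
            rw [nm_mul] at h2
            have h3 : nK S * (nm (prd ((I ∪ E) ∪ J)) : ℝ) ≤ X := by
              rw [nK_nat]; exact_mod_cast h2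
            apply hS2
            have := nK_pos S
            nlinarith [h1.1]
          · rfl
        rw [h0, norm_zero]; exact hH0 _
    · have h0 : ∑ J ∈ (UX X \ (I ∪ E)).powerset, (if V₁ ≤ nm (prd ((I ∪ E) ∪ J)) ∧
          (nm (prd ((I ∪ E) ∪ J)) : ℝ) ≤ V₂ then FX l X (prd S * prd ((I ∪ E) ∪ J)) else 0) = 0 := by
        refine Finset.sum_eq_zero fun J _ => ?_
        split_ifs with h1
        · by_contra hc
          have h2 := (FX_ne_zero hc).1
          apply hd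
          rw [Finset.disjoint_left]
          intro p hp hp'
          have h3 : p.1 ∣ prd S := dvd_prd_iff.mpr hp
          have h4 : p.1 ∣ prd ((I ∪ E) ∪ J) := dvd_prd_iff.mpr (Finset.mem_union_left _ hp')
          exact p.prime.not_isUnit (h2 _ (mul_dvd_mul h3 h4))
        · rfl
      rw [h0, norm_zero]; exact hH0 _
  -- the total sum is bounded by the triple sum
  have step1 : ‖∑ I ∈ II, (-1 : ℂ) ^ I.card * ∑ E ∈ EE I, (-1 : ℂ) ^ E.card *
      ∑ J ∈ ((UX X \ I) \ E).powerset, Fa l X α V₁ V₂ (I ∪ (E ∪ J))‖ ≤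
      ∑ I ∈ II, ∑ E ∈ EE I, ∑ S ∈ (UX X).powerset, H (S ∪ (I ∪ E)) := by
    refine (norm_sum_le _ _).trans (Finset.sum_le_sum fun I hI => ?_)
    rw [norm_mul, norm_pow, norm_neg, norm_one, one_pow, one_mul]
    refine (norm_sum_le _ _).trans (Finset.sum_le_sum fun E hE => ?_)
    rw [norm_mul, norm_pow, norm_neg, norm_one, one_pow, one_mul]
    have e1 : ∑ J ∈ ((UX X \ I) \ E).powerset, Fa l X α V₁ V₂ (I ∪ (E ∪ J)) =
        ∑ S ∈ (UX X).powerset, α S * ∑ J ∈ ((UX X \ I) \ E).powerset,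
          (if V₁ ≤ nm (prd (I ∪ (E ∪ J))) ∧ (nm (prd (I ∪ (E ∪ J))) : ℝ) ≤ V₂ then
            FX l X (prd S * prd (I ∪ (E ∪ J))) else 0) := by
      simp only [Finset.mul_sum]
      rw [Finset.sum_comm]
      refine Finset.sum_congr rfl fun J _ => ?_
      unfold Fa
      split_ifs with h
      · rfl
      · simp
    rw [e1]
    refine (norm_sum_le _ _).trans (Finset.sum_le_sum fun S hS => ?_)
    rw [norm_mul]
    have h1 := key I hI E hE S hS
    have h2 := hα S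
    calc ‖α S‖ * _ ≤ 1 * _ := mul_le_mul_of_nonneg_right h2 (norm_nonneg _)
      _ ≤ H (S ∪ (I ∪ E)) := by rw [one_mul]; exact h1
  have step2 : ∑ I ∈ II, ∑ E ∈ EE I, ∑ S ∈ (UX X).powerset, H (S ∪ (I ∪ E)) ≤
      ∑ I ∈ (UX X).powerset, ∑ E ∈ (UX X).powerset, ∑ S ∈ (UX X).powerset, H (S ∪ (I ∪ E)) := by
    have hnn : ∀ I E, 0 ≤ ∑ S ∈ (UX X).powerset, H (S ∪ (I ∪ E)) := fun I E =>
      Finset.sum_nonneg fun S _ => hH0 _
    refine (Finset.sum_le_sum fun I hI => ?_).trans (Finset.sum_le_sum_of_subset_of_nonneg ?_ ?_)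
    · refine Finset.sum_le_sum_of_subset_of_nonneg (t := (UX X).powerset) ?_ ?_
      · intro E hE
        rw [Finset.mem_powerset]
        exact (hEE I hI E hE).1.trans Finset.sdiff_subset
      · intro E _ _; exact hnn I E
    · intro I hI
      rw [Finset.mem_powerset]; exact (hII I hI).1
    · intro I _ _
      exact Finset.sum_nonneg fun E _ => hnn I E
  have step3 := triple_le (UX X) H hH0
  -- back to the sum over `d`
  have step4 : ∑ D ∈ (UX X).powerset, (2 : ℝ) ^ D.card * 2 ^ D.card * 2 ^ D.card * H D ≤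
      Ct ^ 3 * (X : ℝ) ^ (δ / 2) * (2 * ∑ d ∈ (primBall X).filter (fun d => Squarefree d ∧
        (nm d : ℝ) ≤ (X : ℝ) ^ ((2 : ℝ) / 3 - 1 / 100)), GG l X d (Y d)) := by
    have h1 : ∀ D ∈ (UX X).powerset, (2 : ℝ) ^ D.card * 2 ^ D.card * 2 ^ D.card * H D ≤
        Ct ^ 3 * (X : ℝ) ^ (δ / 2) * H D := by
      intro D _
      rw [hH]
      simp only
      split_ifs with h2
      · refine mul_le_mul_of_nonneg_right ?_ (by have := hGG0 (prd D) (Y (prd D)); linarith)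
        have h3 : (2 : ℝ) ^ D.card ≤ Ct * (X : ℝ) ^ (δ / 6) := by
          have h4 : (2 : ℝ) ^ D.card ≤ Div277.tau (prd D) := by
            exact_mod_cast two_pow_card_le_tau D
          have h5 := htau (prd D) (prd_ne_zero D)
          have h6 : (nm (prd D) : ℝ) ^ (δ / 6) ≤ (X : ℝ) ^ (δ / 6) := by
            refine Real.rpow_le_rpow (Nat.cast_nonneg _) ?_ (by positivity)
            refine h2.trans ?_
            conv_rhs => rw [← Real.rpow_one (X : ℝ)]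
            exact Real.rpow_le_rpow_of_exponent_le hX1 (by norm_num)
          have h7 : Ct * (nm (prd D) : ℝ) ^ (δ / 6) ≤ Ct * (X : ℝ) ^ (δ / 6) :=
            mul_le_mul_of_nonneg_left h6 (by linarith)
          linarith
        have h0 : (0 : ℝ) ≤ 2 ^ D.card := by positivity
        have e : Ct ^ 3 * (X : ℝ) ^ (δ / 2) = (Ct * (X : ℝ) ^ (δ / 6)) * (Ct * (X : ℝ) ^ (δ / 6)) *
            (Ct * (X : ℝ) ^ (δ / 6)) := by
          have : (X : ℝ) ^ (δ / 2) = (X : ℝ) ^ (δ / 6) * (X : ℝ) ^ (δ / 6) * (X : ℝ) ^ (δ / 6) := by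
            rw [← Real.rpow_add hX0, ← Real.rpow_add hX0]; ring_nf
          rw [this]; ring
        rw [e]
        have hpos : 0 ≤ Ct * (X : ℝ) ^ (δ / 6) := le_trans h0 h3
        exact mul_le_mul (mul_le_mul h3 h3 h0 hpos) h3 h0 (mul_nonneg hpos hpos)
      · simp
    refine (Finset.sum_le_sum h1).trans ?_
    rw [← Finset.mul_sum]
    refine mul_le_mul_of_nonneg_left ?_ (by positivity)
    rw [hH]
    simp only
    rw [← Finset.sum_filter, ← Finset.mul_sum]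
    refine mul_le_mul_of_nonneg_left ?_ (by norm_num)
    rw [← Finset.sum_image (s := ((UX X).powerset.filter
      (fun D => (nm (prd D) : ℝ) ≤ (X : ℝ) ^ ((2 : ℝ) / 3 - 1 / 100)))) (g := prd)
      (f := fun d => GG l X d (Y d)) (fun a _ b _ hab => prd_injective hab)]
    refine Finset.sum_le_sum_of_subset_of_nonneg ?_ fun _ _ _ => hGG0 _ _
    intro d hd
    rw [Finset.mem_image] at hd
    obtain ⟨D, hD, rfl⟩ := hd
    rw [Finset.mem_filter] at hD
    rw [Finset.mem_filter, mem_primBall]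
    refine ⟨⟨?_, isPrim_prd D⟩, squarefree_prd D, hD.2⟩
    have h2 : (nm (prd D) : ℝ) ≤ X := by
      refine hD.2.trans ?_
      conv_rhs => rw [← Real.rpow_one (X : ℝ)]
      exact Real.rpow_le_rpow_of_exponent_le hX1 (by norm_num)
    exact_mod_cast h2
  have step5 := hmain X hX2 Y hYX
  have step6 : Ct ^ 3 * (X : ℝ) ^ (δ / 2) * (2 * ∑ d ∈ (primBall X).filter (fun d => Squarefree d ∧
        (nm d : ℝ) ≤ (X : ℝ) ^ ((2 : ℝ) / 3 - 1 / 100)), GG l X d (Y d)) ≤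
      2 * Ct ^ 3 * C * (X : ℝ) ^ (5 / 6 - δ / 2) := by
    have h1 : ∑ d ∈ (primBall X).filter (fun d => Squarefree d ∧
        (nm d : ℝ) ≤ (X : ℝ) ^ ((2 : ℝ) / 3 - 1 / 100)), GG l X d (Y d) ≤
        C * (X : ℝ) ^ (5 / 6 - δ) := step5
    have h2 : (X : ℝ) ^ (5 / 6 - δ / 2) = (X : ℝ) ^ (δ / 2) * (X : ℝ) ^ (5 / 6 - δ) := by
      rw [← Real.rpow_add hX0]; ring_nf
    rw [h2]
    have h3 : 0 ≤ Ct ^ 3 * (X : ℝ) ^ (δ / 2) := by positivity
    calc Ct ^ 3 * (X : ℝ) ^ (δ / 2) * (2 * _) ≤ Ct ^ 3 * (X : ℝ) ^ (δ / 2) *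
          (2 * (C * (X : ℝ) ^ (5 / 6 - δ))) := by gcongr
      _ = _ := by ring
  exact step1.trans (step2.trans (step3.trans (step4.trans step6)))

end Crest.Agent.R012.SNH766
end
end

-- ▼ part R012/SNH_L_50
section

/-!
# Row 12, item SNH: the `L` part (helper50)

`lPart_of : T0x_Prop → LPart`.  The three couplings between `E` (primes `< w`) and `T = I ∪ J`
(order of the least primes, and `V₁ ≤ N(E T) ≤ V₂`) are separated by `Sep812.sep_bound`; the rest is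
the sparse class `SparseT0420.sparse_of_T0`.
-/

set_option autoImplicit false

noncomputable section

namespace Crest.Agent.R012.SNHL50

open Finset Eis Buch420 Sieve812 Main48 NearHalf828

/-! ### separation of three couplings -/

lemma sep3 {A B ι₁ : Type*} [LinearOrder ι₁] (U₁ : Finset ι₁) (S N : ℕ) (h1 : U₁.card ≤ 2 ^ S)
    (hN : N + 1 ≤ 2 ^ S) (sA : Finset A) (sB : Finset B) (u₁ : A → ι₁) (v₁ : B → ι₁)
    (hu₁ : ∀ a ∈ sA, u₁ a ∈ U₁) (hv₁ : ∀ b ∈ sB, v₁ b ∈ U₁) (r s : A → ℕ) (n : B → ℕ)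
    (hr : ∀ a ∈ sA, r a ≤ N) (hs : ∀ a ∈ sA, s a ≤ N) (hn : ∀ b ∈ sB, n b + 1 ≤ N)
    (F : A → B → ℂ) (E : ℝ)
    (h : ∀ (x : A → ℂ) (y : B → ℂ), (∀ a, ‖x a‖ ≤ 1) → (∀ b, ‖y b‖ ≤ 1) →
      ‖∑ a ∈ sA, ∑ b ∈ sB, x a * y b * F a b‖ ≤ E) :
    ‖∑ a ∈ sA, ∑ b ∈ sB, (if u₁ a < v₁ b ∧ n b < r a ∧ s a < n b + 1 then F a b else 0)‖ ≤
      S * (S * (S * E)) := by
  have hcard : (Finset.range (N + 1)).card ≤ 2 ^ S := by rw [Finset.card_range]; exact hN
  have e0 : ∀ a b, (if u₁ a < v₁ b ∧ n b < r a ∧ s a < n b + 1 then F a b else 0) =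
      if u₁ a < v₁ b then (if n b < r a then (if s a < n b + 1 then F a b else 0) else 0)
        else 0 := by
    intro a b
    by_cases k1 : u₁ a < v₁ b <;> by_cases k2 : n b < r a <;> by_cases k3 : s a < n b + 1 <;>
      simp [k1, k2, k3]
  simp only [e0]
  refine Sep812.sep_bound U₁ S h1 sA sB u₁ v₁ hu₁ hv₁ _ _ fun φ ψ hφ hψ => ?_
  have e1 : ∑ a ∈ sA, ∑ b ∈ sB, φ (u₁ a) * ψ (v₁ b) *
      (if n b < r a then (if s a < n b + 1 then F a b else 0) else 0) =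
      ∑ b ∈ sB, ∑ a ∈ sA, (if n b < r a then φ (u₁ a) * ψ (v₁ b) *
        (if s a < n b + 1 then F a b else 0) else 0) := by
    rw [Finset.sum_comm]
    refine Finset.sum_congr rfl fun b _ => Finset.sum_congr rfl fun a _ => ?_
    split_ifs <;> simp
  rw [e1]
  refine Sep812.sep_bound (Finset.range (N + 1)) S hcard sB sA n r
    (fun b hb => Finset.mem_range.mpr (by have := hn b hb; omega))
    (fun a ha => Finset.mem_range.mpr (by have := hr a ha; omega)) _ _ fun φ₂ ψ₂ hφ₂ hψ₂ => ?_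
  have e2 : ∑ b ∈ sB, ∑ a ∈ sA, φ₂ (n b) * ψ₂ (r a) * (φ (u₁ a) * ψ (v₁ b) *
        (if s a < n b + 1 then F a b else 0)) =
      ∑ a ∈ sA, ∑ b ∈ sB, (if s a < n b + 1 then φ₂ (n b) * ψ₂ (r a) * (φ (u₁ a) * ψ (v₁ b) *
        F a b) else 0) := by
    rw [Finset.sum_comm]
    refine Finset.sum_congr rfl fun b _ => Finset.sum_congr rfl fun a _ => ?_
    split_ifs <;> simp
  rw [e2]
  refine Sep812.sep_bound (Finset.range (N + 1)) S hcard sA sB s (fun b => n b + 1)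
    (fun a ha => Finset.mem_range.mpr (by have := hs a ha; omega))
    (fun b hb => Finset.mem_range.mpr (by have := hn b hb; omega)) _ _ fun φ₃ ψ₃ hφ₃ hψ₃ => ?_
  have h2 := h (fun a => φ₃ (s a) * (ψ₂ (r a) * φ (u₁ a)))
    (fun b => ψ₃ (n b + 1) * (φ₂ (n b) * ψ (v₁ b))) ?_ ?_
  · refine le_trans (le_of_eq ?_) h2
    congr 1
    refine Finset.sum_congr rfl fun a _ => Finset.sum_congr rfl fun b _ => ?_
    ring
  · intro a
    rw [norm_mul, norm_mul]
    exact mul_le_one₀ (hφ₃ _) (by positivity) (mul_le_one₀ (hψ₂ _) (norm_nonneg _) (hφ _))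
  · intro b
    rw [norm_mul, norm_mul]
    exact mul_le_one₀ (hψ₃ _) (by positivity) (mul_le_one₀ (hφ₂ _) (norm_nonneg _) (hψ _))

/-! ### the sets -/

open Classical in
/-- crossing sets of primes `< w` -/
def EE (X : ℕ) : Finset (Finset PrP) :=
  ((UX X).filter (fun p => (nm p.1 : ℝ) < wX X)).powerset.filter (fun E => Cr PrP.N (D2 X) E)

open Classical in
lemma mem_EE {X : ℕ} {E : Finset PrP} : E ∈ EE X ↔
    E ⊆ UX X ∧ (∀ p ∈ E, (nm p.1 : ℝ) < wX X) ∧ E.Nonempty ∧ nK (E.erase (mn E)) < D2 X ∧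
      D2 X ≤ nK E := by
  unfold EE
  rw [Finset.mem_filter, Finset.mem_powerset, Cr_iff, Finset.subset_iff, Finset.subset_iff]
  constructor
  · rintro ⟨h1, h2⟩
    exact ⟨fun p hp => (Finset.mem_filter.mp (h1 hp)).1, fun p hp => (Finset.mem_filter.mp (h1 hp)).2,
      h2⟩
  · rintro ⟨h1, h2, h3⟩
    exact ⟨fun p hp => Finset.mem_filter.mpr ⟨h1 hp, h2 p hp⟩, h3⟩

/-- the middle primes -/
def Zp (X : ℕ) (p : PrP) : Prop := wX X ≤ (nm p.1 : ℝ) ∧ (nm p.1 : ℝ) < zX X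

open Classical in
/-- coefficient of `T = I ∪ J` -/
def gam (X : ℕ) (T : Finset PrP) : ℂ :=
  ∑ I ∈ (T.filter (Zp X)).powerset, if nu PrP.N I < D1 X then (-1 : ℂ) ^ I.card else 0

lemma norm_gam_le (X : ℕ) (T : Finset PrP) : ‖gam X T‖ ≤ (2 : ℝ) ^ T.card := by
  classical
  unfold gam
  refine (norm_sum_le _ _).trans ?_
  have h1 : ∀ I ∈ (T.filter (Zp X)).powerset,
      ‖(if nu PrP.N I < D1 X then (-1 : ℂ) ^ I.card else 0)‖ ≤ 1 := by
    intro I _
    split_ifs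
    · rw [norm_pow, norm_neg, norm_one, one_pow]
    · simp
  refine (Finset.sum_le_sum h1).trans ?_
  rw [Finset.sum_const, nsmul_eq_mul, mul_one, Finset.card_powerset]
  have h2 : (T.filter (Zp X)).card ≤ T.card := Finset.card_filter_le _ _
  push_cast
  exact pow_le_pow_right₀ (by norm_num) h2

/-- inner sum -/
def Hf (l : ℤ) (X : ℕ) (α : Finset PrP → ℂ) (E T : Finset PrP) : ℂ :=
  ∑ S ∈ (UX X).powerset, α S * FX l X (prd S * (prd E * prd T))

lemma Hf_zero {l : ℤ} {X : ℕ} {α : Finset PrP → ℂ} {E T : Finset PrP} (h : ¬ Disjoint E T) :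
    Hf l X α E T = 0 := by
  unfold Hf
  refine Finset.sum_eq_zero fun S _ => ?_
  have : FX l X (prd S * (prd E * prd T)) = 0 := by
    by_contra hc
    have hs := ((SieveUse50.supp_FX l X).sq _ hc).of_mul_right
    rw [Finset.not_disjoint_iff] at h
    obtain ⟨p, hp, hp'⟩ := h
    exact p.prime.not_isUnit (hs _ (mul_dvd_mul (dvd_prd_iff.mpr hp) (dvd_prd_iff.mpr hp')))
  rw [this, mul_zero]

/-- window -/
def Win (V₁ V₂ : ℝ) (E T : Finset PrP) : Prop := V₁ ≤ nK E * nK T ∧ nK E * nK T ≤ V₂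

open Classical in
lemma Fa_union {l : ℤ} {X : ℕ} {α : Finset PrP → ℂ} {V₁ V₂ : ℝ} {E T : Finset PrP}
    (h : Disjoint E T) :
    Fa l X α V₁ V₂ (E ∪ T) = if Win V₁ V₂ E T then Hf l X α E T else 0 := by
  unfold Fa Win Hf
  have e : ((nm (prd (E ∪ T)) : ℕ) : ℝ) = nK E * nK T := by
    rw [prd_union h, nm_mul]
    push_cast
    rfl
  rw [e, prd_union h]
  by_cases hc : V₁ ≤ nK E * nK T ∧ nK E * nK T ≤ V₂
  · rw [if_pos hc, if_pos hc]
  · rw [if_neg hc, if_neg hc]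

open Classical in
lemma step_E {l : ℤ} {X : ℕ} {α : Finset PrP → ℂ} {V₁ V₂ : ℝ} {E : Finset PrP} (hE : E ∈ EE X) :
    ∑ I ∈ ((Uw X).filter (fun p => (nm p.1 : ℝ) < zX X)).powerset.filter
        (fun I => nu PrP.N I < D1 X), (-1 : ℂ) ^ I.card *
      ∑ J ∈ (((UX X \ I) \ E).filter (fun p => Ab E p)).powerset, Fa l X α V₁ V₂ (I ∪ (E ∪ J)) =
    ∑ T ∈ (UX X).powerset, if (∀ p ∈ T, Ab E p) then
      gam X T * (if Win V₁ V₂ E T then Hf l X α E T else 0) else 0 := by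
  obtain ⟨hE1, hE2, hE3, hE4, hE5⟩ := mem_EE.mp hE
  set AE := (UX X \ E).filter (fun p => Ab E p) with hAE
  have hx := exchange AE (Zp X) (fun I T => (if nu PrP.N I < D1 X then (-1 : ℂ) ^ I.card else 0) *
    Fa l X α V₁ V₂ (E ∪ T))
  have hset : AE.filter (Zp X) = (Uw X).filter (fun p => (nm p.1 : ℝ) < zX X) := by
    ext p
    rw [hAE]
    unfold Uw Zp
    simp only [Finset.mem_filter, Finset.mem_sdiff, not_lt]
    constructor
    · rintro ⟨⟨⟨h1, h2⟩, h3⟩, h4, h5⟩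
      exact ⟨⟨h1, h4⟩, h5⟩
    · rintro ⟨⟨h1, h4⟩, h5⟩
      refine ⟨⟨⟨h1, fun hp => ?_⟩, ?_⟩, h4, h5⟩
      · exact absurd (hE2 p hp) (not_lt.mpr h4)
      · obtain ⟨q, hq⟩ := hE3
        refine ⟨q, hq, PrP.lt_of_nm_lt ?_⟩
        have := hE2 q hq
        exact_mod_cast lt_of_lt_of_le this h4
  rw [hset] at hx
  have e1 : ∑ I ∈ ((Uw X).filter (fun p => (nm p.1 : ℝ) < zX X)).powerset.filter
        (fun I => nu PrP.N I < D1 X), (-1 : ℂ) ^ I.card *
      ∑ J ∈ (((UX X \ I) \ E).filter (fun p => Ab E p)).powerset,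
        Fa l X α V₁ V₂ (I ∪ (E ∪ J)) =
      ∑ I ∈ ((Uw X).filter (fun p => (nm p.1 : ℝ) < zX X)).powerset,
        ∑ J ∈ (AE \ I).powerset, (if nu PrP.N I < D1 X then (-1 : ℂ) ^ I.card else 0) *
          Fa l X α V₁ V₂ (E ∪ (I ∪ J)) := by
    rw [Finset.sum_filter]
    refine Finset.sum_congr rfl fun I _ => ?_
    have hs : (((UX X \ I) \ E).filter (fun p => Ab E p)) = AE \ I := by
      ext p
      rw [hAE]
      simp only [Finset.mem_filter, Finset.mem_sdiff]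
      constructor
      · rintro ⟨⟨⟨h1, h2⟩, h3⟩, h4⟩
        exact ⟨⟨⟨h1, h3⟩, h4⟩, h2⟩
      · rintro ⟨⟨⟨h1, h3⟩, h4⟩, h2⟩
        exact ⟨⟨⟨h1, h2⟩, h3⟩, h4⟩
    rw [hs]
    by_cases h : nu PrP.N I < D1 X
    · rw [if_pos h, if_pos h, Finset.mul_sum]
      refine Finset.sum_congr rfl fun J _ => ?_
      rw [Finset.union_left_comm I E J]
    · rw [if_neg h, if_neg h]
      refine (Finset.sum_eq_zero fun J _ => ?_).symm
      rw [zero_mul]
  rw [e1, ← hx]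
  have e2 : ∀ T ∈ AE.powerset, ∑ I ∈ (T.filter (Zp X)).powerset,
      (if nu PrP.N I < D1 X then (-1 : ℂ) ^ I.card else 0) * Fa l X α V₁ V₂ (E ∪ T) =
      gam X T * Fa l X α V₁ V₂ (E ∪ T) := by
    intro T _
    unfold gam
    rw [Finset.sum_mul]
  rw [Finset.sum_congr rfl e2]
  have hsub : AE.powerset ⊆ (UX X).powerset := by
    rw [Finset.powerset_mono, hAE]
    exact (Finset.filter_subset _ _).trans Finset.sdiff_subset
  rw [← Finset.sum_subset hsub]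
  · refine Finset.sum_congr rfl fun T hT => ?_
    rw [Finset.mem_powerset] at hT
    have hdis : Disjoint E T := by
      rw [Finset.disjoint_left]
      intro p hp hp'
      have := hT hp'
      rw [hAE, Finset.mem_filter, Finset.mem_sdiff] at this
      exact this.1.2 hp
    have hAb : ∀ p ∈ T, Ab E p := by
      intro p hp
      have := hT hp
      rw [hAE, Finset.mem_filter] at this
      exact this.2
    rw [if_pos hAb, Fa_union hdis]
  · intro T hT hT'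
    rw [Finset.mem_powerset] at hT hT'
    split_ifs with h1 h2
    · have hnd : ¬ Disjoint E T := by
        intro hd
        apply hT'
        intro p hp
        rw [hAE, Finset.mem_filter, Finset.mem_sdiff]
        exact ⟨⟨hT hp, fun hpE => (Finset.disjoint_left.mp hd hpE hp)⟩, h1 p hp⟩
      rw [Hf_zero hnd, mul_zero]
    · rw [mul_zero]
    · rfl

open Classical in
/-- the class of `T = I ∪ J` -/
def TT (X : ℕ) : Finset (Finset PrP) := (UX X).powerset.filter (fun T =>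
  2 * (X : ℝ) ^ (0.34 : ℝ) ≤ nK T ∧ nK T ≤ (X : ℝ) ^ (0.41 : ℝ))

lemma mem_TT {X : ℕ} {T : Finset PrP} : T ∈ TT X ↔
    T ⊆ UX X ∧ 2 * (X : ℝ) ^ (0.34 : ℝ) ≤ nK T ∧ nK T ≤ (X : ℝ) ^ (0.41 : ℝ) := by
  classical
  unfold TT
  rw [Finset.mem_filter, Finset.mem_powerset]

/-- `X` is large -/
structure Big (X : ℕ) : Prop where
  one : 12 ≤ X
  w2 : 2 ≤ wX X
  w : wX X ≤ (X : ℝ) ^ (0.01 : ℝ)
  p : 2 * (X : ℝ) ^ (0.34 : ℝ) ≤ (X : ℝ) ^ (0.385 : ℝ)

lemma big_ev : ∀ᶠ X : ℕ in Filter.atTop, Big X := by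
  have h1 := SieveUse50.ev_wX (e := 0.01) (by norm_num)
  have h2 := SieveUse50.ev_pow (a := 0.34) (b := 0.385) (by norm_num) 1
  have h3 := SieveUse50.ev_LX 2
  filter_upwards [h1, h2, h3, Filter.eventually_ge_atTop 12] with X k1 k2 k3 k4
  rw [Real.rpow_one] at k2
  refine ⟨k4, ?_, k1, ?_⟩
  · unfold wX
    have h4 : (1 : ℝ) ≤ (Real.log X) ^ ((2 : ℝ) / 3) :=
      Real.one_le_rpow (by unfold LX at k3; linarith) (by norm_num)
    have h5 := Real.add_one_le_exp ((Real.log X) ^ ((2 : ℝ) / 3))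
    linarith
  · refine le_trans ?_ k2
    rw [mul_comm]
    exact mul_le_mul_of_nonneg_left k3 (by positivity)

lemma EE_hi {X : ℕ} {E : Finset PrP} (hb : Big X) (hE : E ∈ EE X) :
    nK E ≤ (X : ℝ) ^ (0.11 : ℝ) := by
  obtain ⟨hE1, hE2, hE3, hE4, hE5⟩ := mem_EE.mp hE
  have hX0 : (0 : ℝ) < X := by exact_mod_cast (by have := hb.one; omega : 0 < X)
  have h1 := nK_erase (mn_mem hE3)
  have h2 := (hE2 _ (mn_mem hE3)).le.trans hb.w
  rw [← h1, show (0.11 : ℝ) = 0.01 + 0.1 by norm_num, Real.rpow_add hX0]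
  exact mul_le_mul h2 hE4.le (nK_pos _).le (by positivity)

lemma win_TT {X : ℕ} {E T : Finset PrP} {V₁ V₂ : ℝ} (hb : Big X) (hE : E ∈ EE X)
    (hT : T ⊆ UX X) (hV1 : (X : ℝ) ^ (0.495 : ℝ) ≤ V₁) (hV2 : V₂ ≤ (X : ℝ) ^ (0.505 : ℝ))
    (hW : Win V₁ V₂ E T) : T ∈ TT X := by
  have h1 := EE_hi hb hE
  obtain ⟨hE1, hE2, hE3, hE4, hE5⟩ := mem_EE.mp hE
  have hX1 : (1 : ℝ) ≤ X := by exact_mod_cast (by have := hb.one; omega : 1 ≤ X)
  have hX0 : (0 : ℝ) < X := by linarith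
  have hT0 := nK_pos T
  have hE0 := nK_pos E
  obtain ⟨hW1, hW2⟩ := hW
  rw [mem_TT]
  refine ⟨hT, hb.p.trans ?_, ?_⟩
  · have h2 : (X : ℝ) ^ (0.11 : ℝ) * (X : ℝ) ^ (0.385 : ℝ) ≤ (X : ℝ) ^ (0.11 : ℝ) * nK T := by
      rw [← Real.rpow_add hX0]
      norm_num
      calc (X : ℝ) ^ ((99 : ℝ) / 200) = (X : ℝ) ^ (0.495 : ℝ) := by norm_num
        _ ≤ V₁ := hV1
        _ ≤ nK E * nK T := hW1
        _ ≤ (X : ℝ) ^ (0.11 : ℝ) * nK T := mul_le_mul_of_nonneg_right h1 hT0.le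
        _ = (X : ℝ) ^ ((11 : ℝ) / 100) * nK T := by norm_num
    exact le_of_mul_le_mul_left h2 (by positivity)
  · have h2 : (X : ℝ) ^ (0.1 : ℝ) * nK T ≤ (X : ℝ) ^ (0.1 : ℝ) * (X : ℝ) ^ (0.41 : ℝ) := by
      calc (X : ℝ) ^ (0.1 : ℝ) * nK T ≤ nK E * nK T := mul_le_mul_of_nonneg_right hE5 hT0.le
        _ ≤ V₂ := hW2
        _ ≤ (X : ℝ) ^ (0.505 : ℝ) := hV2
        _ ≤ (X : ℝ) ^ (0.1 + 0.41 : ℝ) := Real.rpow_le_rpow_of_exponent_le hX1 (by norm_num)
        _ = _ := Real.rpow_add hX0 _ _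
    exact le_of_mul_le_mul_left h2 (by positivity)

lemma TT_nonempty {X : ℕ} {T : Finset PrP} (hb : Big X) (hT : T ∈ TT X) : T.Nonempty := by
  rw [Finset.nonempty_iff_ne_empty]
  rintro rfl
  obtain ⟨-, h1, -⟩ := mem_TT.mp hT
  have hX1 : (1 : ℝ) ≤ X := by exact_mod_cast (by have := hb.one; omega : 1 ≤ X)
  have h2 : (1 : ℝ) ≤ (X : ℝ) ^ (0.34 : ℝ) := Real.one_le_rpow hX1 (by norm_num)
  rw [nK_empty] at h1
  linarith

lemma TT_le {X : ℕ} {T : Finset PrP} (hb : Big X) (hT : T ∈ TT X) : nm (prd T) ≤ X := by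
  obtain ⟨-, -, h1⟩ := mem_TT.mp hT
  have hX1 : (1 : ℝ) ≤ X := by exact_mod_cast (by have := hb.one; omega : 1 ≤ X)
  have h2 : (X : ℝ) ^ (0.41 : ℝ) ≤ (X : ℝ) ^ (1 : ℝ) :=
    Real.rpow_le_rpow_of_exponent_le hX1 (by norm_num)
  rw [Real.rpow_one] at h2
  have h3 : ((nm (prd T) : ℕ) : ℝ) ≤ X := h1.trans h2
  exact_mod_cast h3

/-- upper cut-off -/
def rr (V₂ : ℝ) (E : Finset PrP) : ℕ := ⌊V₂ / nK E⌋₊ + 1
/-- lower cut-off -/
def ss (X : ℕ) (V₁ : ℝ) (E : Finset PrP) : ℕ := min ⌈V₁ / nK E⌉₊ (X + 1)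

lemma win_iff {X : ℕ} {V₁ V₂ : ℝ} {E T : Finset PrP} (hT : nm (prd T) ≤ X) :
    Win V₁ V₂ E T ↔ nm (prd T) < rr V₂ E ∧ ss X V₁ E < nm (prd T) + 1 := by
  have hE0 := nK_pos E
  have hT0 : nm (prd T) ≠ 0 := (nm_pos.mpr (prd_ne_zero T)).ne'
  unfold Win rr ss
  have h1 : (nm (prd T) < ⌊V₂ / nK E⌋₊ + 1) ↔ nK E * nK T ≤ V₂ := by
    rw [Nat.lt_succ_iff, Nat.le_floor_iff' hT0, le_div_iff₀ hE0, mul_comm]
    rfl
  have h2 : (min ⌈V₁ / nK E⌉₊ (X + 1) < nm (prd T) + 1) ↔ V₁ ≤ nK E * nK T := by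
    rw [Nat.lt_succ_iff, min_le_iff]
    have h3 : ¬ (X + 1 ≤ nm (prd T)) := by omega
    rw [or_iff_left h3, Nat.ceil_le, div_le_iff₀ hE0, mul_comm]
    rfl
  rw [h1, h2]
  tauto

open Classical in
lemma conv (l : ℤ) (X : ℕ) (α g : Finset PrP → ℂ) (T : Finset PrP) :
    ∑ S ∈ (UX X).powerset, (∑ E ∈ S.powerset, g E * α (S \ E)) * FX l X (prd S * prd T) =
      ∑ E ∈ (UX X).powerset, g E * Hf l X α E T := by
  have hx := exchange (UX X) (fun _ => True)
    (fun E S => g E * α (S \ E) * FX l X (prd S * prd T))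
  simp only [Finset.filter_true] at hx
  have e1 : ∀ S ∈ (UX X).powerset, (∑ E ∈ S.powerset, g E * α (S \ E)) *
      FX l X (prd S * prd T) = ∑ E ∈ S.powerset, g E * α (S \ E) * FX l X (prd S * prd T) := by
    intro S _
    rw [Finset.sum_mul]
  rw [Finset.sum_congr rfl e1, hx]
  refine Finset.sum_congr rfl fun E hE => ?_
  unfold Hf
  rw [Finset.mul_sum]
  have hsub : (UX X \ E).powerset ⊆ (UX X).powerset := by
    rw [Finset.powerset_mono]; exact Finset.sdiff_subset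
  rw [← Finset.sum_subset hsub]
  · refine Finset.sum_congr rfl fun J hJ => ?_
    rw [Finset.mem_powerset] at hJ
    have hdis : Disjoint E J := by
      rw [Finset.disjoint_left]
      intro p hp hp'
      exact (Finset.mem_sdiff.mp (hJ hp')).2 hp
    have h1 : (E ∪ J) \ E = J := by
      rw [Finset.union_sdiff_left, Finset.sdiff_eq_self_iff_disjoint]
      exact hdis.symm
    rw [h1, prd_union hdis]
    rw [show prd J * (prd E * prd T) = prd E * prd J * prd T by ring]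
    ring
  · intro J hJ hJ'
    rw [Finset.mem_powerset] at hJ hJ'
    have hnd : ¬ Disjoint E J := by
      intro hd
      apply hJ'
      intro p hp
      rw [Finset.mem_sdiff]
      exact ⟨hJ hp, fun hpE => (Finset.disjoint_left.mp hd hpE hp)⟩
    have : FX l X (prd J * (prd E * prd T)) = 0 := by
      by_contra hc
      have hs : Squarefree (prd E * prd J) := by
        have := (SieveUse50.supp_FX l X).sq _ hc
        rw [show prd J * (prd E * prd T) = prd E * prd J * prd T by ring] at this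
        exact this.of_mul_left
      rw [Finset.not_disjoint_iff] at hnd
      obtain ⟨p, hp, hp'⟩ := hnd
      exact p.prime.not_isUnit (hs _ (mul_dvd_mul (dvd_prd_iff.mpr hp) (dvd_prd_iff.mpr hp')))
    rw [this]; ring

/-- the new left coefficient -/
def al (α g : Finset PrP → ℂ) (S : Finset PrP) : ℂ := by
  classical exact ∑ E ∈ S.powerset, g E * α (S \ E)

open Classical in
lemma al_def (α g : Finset PrP → ℂ) (S : Finset PrP) :
    al α g S = ∑ E ∈ S.powerset, g E * α (S \ E) := rfl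

lemma norm_al_le {α g : Finset PrP → ℂ} (hα : ∀ S, ‖α S‖ ≤ 1) (hg : ∀ E, ‖g E‖ ≤ 1)
    (S : Finset PrP) : ‖al α g S‖ ≤ (2 : ℝ) ^ S.card := by
  classical
  rw [al_def]
  refine (norm_sum_le _ _).trans ?_
  have h1 : ∀ E ∈ S.powerset, ‖g E * α (S \ E)‖ ≤ 1 := by
    intro E _
    rw [norm_mul]
    exact mul_le_one₀ (hg _) (norm_nonneg _) (hα _)
  refine (Finset.sum_le_sum h1).trans ?_
  rw [Finset.sum_const, nsmul_eq_mul, mul_one, Finset.card_powerset]
  push_cast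
  exact le_refl _

lemma sp_al {X : ℕ} {α g : Finset PrP → ℂ} (hg : ∀ E, g E ≠ 0 → E ∈ EE X) :
    SparseT0420.Sp (wX X) ((X : ℝ) ^ (0.1 : ℝ)) (al α g) := by
  classical
  intro S hS
  rw [al_def] at hS
  obtain ⟨E, hE, hE'⟩ := Finset.exists_ne_zero_of_sum_ne_zero hS
  rw [Finset.mem_powerset] at hE
  have h1 := hg E (left_ne_zero_of_mul hE')
  obtain ⟨hE1, hE2, hE3, hE4, hE5⟩ := mem_EE.mp h1
  have h2 : nK E ≤ nK (S.filter (fun p => (nm p.1 : ℝ) ≤ wX X)) := by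
    apply nK_mono
    intro p hp
    rw [Finset.mem_filter]
    exact ⟨hE hp, (hE2 p hp).le⟩
  exact hE5.trans h2

open Classical in
/-- the separated form is a `Bil` -/
lemma to_bil (l : ℤ) (X : ℕ) (α : Finset PrP → ℂ) (x : Finset PrP → ℂ) (y : Finset PrP → ℂ) :
    ∑ E ∈ EE X, ∑ T ∈ TT X, x E * y T * ((-1 : ℂ) ^ E.card * (gam X T * Hf l X α E T)) =
      Bil l X (al α (fun E => if E ∈ EE X then x E * (-1 : ℂ) ^ E.card else 0))
        (fun T => if T ∈ TT X then y T * gam X T else 0) := by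
  have hE : EE X ⊆ (UX X).powerset := by
    intro E hE
    rw [Finset.mem_powerset]; exact (mem_EE.mp hE).1
  have hT : TT X ⊆ (UX X).powerset := by
    intro T hT
    rw [Finset.mem_powerset]; exact (mem_TT.mp hT).1
  unfold Bil
  refine Eq.trans ?_ Finset.sum_comm
  refine Eq.trans Finset.sum_comm ?_
  rw [← Finset.sum_subset hT]
  · refine Finset.sum_congr rfl fun T hT' => ?_
    have h1 := conv l X α (fun E => if E ∈ EE X then x E * (-1 : ℂ) ^ E.card else 0) T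
    have h2 : ∑ S ∈ (UX X).powerset,
        al α (fun E => if E ∈ EE X then x E * (-1 : ℂ) ^ E.card else 0) S *
        (if T ∈ TT X then y T * gam X T else 0) * FX l X (prd S * prd T) =
        (y T * gam X T) * ∑ S ∈ (UX X).powerset,
          (∑ E ∈ S.powerset, (if E ∈ EE X then x E * (-1 : ℂ) ^ E.card else 0) * α (S \ E)) *
            FX l X (prd S * prd T) := by
      rw [if_pos hT', Finset.mul_sum]
      refine Finset.sum_congr rfl fun S _ => ?_
      rw [al_def]; ring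
    rw [h2, h1, Finset.mul_sum, ← Finset.sum_subset hE]
    · refine Finset.sum_congr rfl fun E hE' => ?_
      rw [if_pos hE']; ring
    · intro E _ hE'
      rw [if_neg hE']; ring
  · intro T _ hT'
    refine Finset.sum_eq_zero fun S _ => ?_
    show _ * (if T ∈ TT X then y T * gam X T else 0) * _ = 0
    rw [if_neg hT']; ring

/-- **The L part.** -/
theorem lPart_of : LPart_of := by
  classical
  intro h0x l A
  have h0 : T0_Prop := IxOf106.ix_of.2.2 h0x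
  obtain ⟨K, X1, hK, H⟩ := SparseT0420.sparse_of_T0 h0 l (c0 := 0.1) (c := 2) (by norm_num)
    (by norm_num) (A + 3)
  obtain ⟨X2, hX2⟩ := Filter.eventually_atTop.mp big_ev
  refine ⟨125 * K, max X1 X2, ?_⟩
  intro X hX α V₁ V₂ hα hV1 hV2
  have hb := hX2 X ((le_max_right _ _).trans hX)
  have hH := H X ((le_max_left _ _).trans hX) (wX X) hb.w2 (SparseT0420.log_wX X).le
  have hX1 : (1 : ℝ) ≤ X := by exact_mod_cast (by have := hb.one; omega : 1 ≤ X)
  have hX0 : (0 : ℝ) < X := by linarith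
  -- rewriting
  have e1 : ∑ I ∈ ((Uw X).filter (fun p => (nm p.1 : ℝ) < zX X)).powerset.filter
        (fun I => nu PrP.N I < D1 X), (-1 : ℂ) ^ I.card *
      ∑ E ∈ ((UX X \ I).filter (fun p => (nm p.1 : ℝ) < wX X)).powerset.filter
        (fun E => Cr PrP.N (D2 X) E), (-1 : ℂ) ^ E.card *
      ∑ J ∈ (((UX X \ I) \ E).filter (fun p => Ab E p)).powerset, Fa l X α V₁ V₂ (I ∪ (E ∪ J)) =
      ∑ E ∈ EE X, (-1 : ℂ) ^ E.card *
        ∑ I ∈ ((Uw X).filter (fun p => (nm p.1 : ℝ) < zX X)).powerset.filter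
          (fun I => nu PrP.N I < D1 X), (-1 : ℂ) ^ I.card *
        ∑ J ∈ (((UX X \ I) \ E).filter (fun p => Ab E p)).powerset,
          Fa l X α V₁ V₂ (I ∪ (E ∪ J)) := by
    have e2 : ∀ I ∈ ((Uw X).filter (fun p => (nm p.1 : ℝ) < zX X)).powerset.filter
        (fun I => nu PrP.N I < D1 X), ((UX X \ I).filter
          (fun p => (nm p.1 : ℝ) < wX X)).powerset.filter (fun E => Cr PrP.N (D2 X) E) =
        EE X := by
      intro I hI
      rw [Finset.mem_filter, Finset.mem_powerset] at hI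
      have : (UX X \ I).filter (fun p => (nm p.1 : ℝ) < wX X) =
          (UX X).filter (fun p => (nm p.1 : ℝ) < wX X) := by
        ext p
        simp only [Finset.mem_filter, Finset.mem_sdiff]
        constructor
        · rintro ⟨⟨h1, -⟩, h3⟩
          exact ⟨h1, h3⟩
        · rintro ⟨h1, h3⟩
          refine ⟨⟨h1, fun hp => ?_⟩, h3⟩
          have h4 := (Finset.mem_filter.mp (hI.1 hp)).1
          unfold Uw at h4
          exact (Finset.mem_filter.mp h4).2 h3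
      unfold EE
      rw [this]
    have e3 : ∀ I ∈ ((Uw X).filter (fun p => (nm p.1 : ℝ) < zX X)).powerset.filter
        (fun I => nu PrP.N I < D1 X), (-1 : ℂ) ^ I.card *
      ∑ E ∈ ((UX X \ I).filter (fun p => (nm p.1 : ℝ) < wX X)).powerset.filter
        (fun E => Cr PrP.N (D2 X) E), (-1 : ℂ) ^ E.card *
      ∑ J ∈ (((UX X \ I) \ E).filter (fun p => Ab E p)).powerset, Fa l X α V₁ V₂ (I ∪ (E ∪ J)) =
        ∑ E ∈ EE X, (-1 : ℂ) ^ E.card * ((-1 : ℂ) ^ I.card *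
          ∑ J ∈ (((UX X \ I) \ E).filter (fun p => Ab E p)).powerset,
            Fa l X α V₁ V₂ (I ∪ (E ∪ J))) := by
      intro I hI
      rw [e2 I hI, Finset.mul_sum]
      refine Finset.sum_congr rfl fun E _ => ?_
      ring
    rw [Finset.sum_congr rfl e3]
    refine Finset.sum_comm.trans (Finset.sum_congr rfl fun E _ => ?_)
    rw [Finset.mul_sum]
  have e4 : ∀ E ∈ EE X, (-1 : ℂ) ^ E.card *
        ∑ I ∈ ((Uw X).filter (fun p => (nm p.1 : ℝ) < zX X)).powerset.filter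
          (fun I => nu PrP.N I < D1 X), (-1 : ℂ) ^ I.card *
        ∑ J ∈ (((UX X \ I) \ E).filter (fun p => Ab E p)).powerset,
          Fa l X α V₁ V₂ (I ∪ (E ∪ J)) =
      ∑ T ∈ TT X, (if mn E < mn T ∧ nm (prd T) < rr V₂ E ∧ ss X V₁ E < nm (prd T) + 1 then
        (-1 : ℂ) ^ E.card * (gam X T * Hf l X α E T) else 0) := by
    intro E hE
    rw [step_E hE, Finset.mul_sum]
    have hT : TT X ⊆ (UX X).powerset := by
      intro T hT
      rw [Finset.mem_powerset]; exact (mem_TT.mp hT).1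
    rw [← Finset.sum_subset hT]
    · refine Finset.sum_congr rfl fun T hT' => ?_
      have h1 := forall_ab_iff (mem_EE.mp hE).2.2.1 (TT_nonempty hb hT')
      have h2 := win_iff (V₁ := V₁) (V₂ := V₂) (E := E) (TT_le hb hT')
      by_cases c1 : mn E < mn T
      · rw [if_pos (h1.mpr c1)]
        by_cases c2 : Win V₁ V₂ E T
        · rw [if_pos c2, if_pos ⟨c1, h2.mp c2⟩]
        · rw [if_neg c2, if_neg (fun hh => c2 (h2.mpr hh.2)), mul_zero, mul_zero]
      · rw [if_neg (fun hh => c1 (h1.mp hh)), if_neg (fun hh => c1 hh.1), mul_zero]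
    · intro T hT1 hT2
      rw [Finset.mem_powerset] at hT1
      have c2 : ¬ Win V₁ V₂ E T := fun hh => hT2 (win_TT hb hE hT1 hV1 hV2 hh)
      rw [if_neg c2]
      split_ifs <;> simp
  rw [e1, Finset.sum_congr rfl e4]
  -- separation
  have hS1 := card_UX_le (X := X) (by have := hb.one; omega)
  have hS2 : X + 1 + 1 ≤ 2 ^ SX X := by
    have := Nat.le_pow_clog (b := 2) (by norm_num) (12 * X)
    unfold SX
    have := hb.one
    omega
  have hsep := sep3 (UX X) (SX X) (X + 1) hS1 hS2 (EE X) (TT X) mn mn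
    (fun E hE => (mem_EE.mp hE).1 (mn_mem (mem_EE.mp hE).2.2.1))
    (fun T hT => (mem_TT.mp hT).1 (mn_mem (TT_nonempty hb hT)))
    (rr V₂) (ss X V₁) (fun T => nm (prd T)) ?_ ?_ ?_
    (fun E T => (-1 : ℂ) ^ E.card * (gam X T * Hf l X α E T))
    (K * (X : ℝ) ^ ((5 : ℝ) / 6) / LX X ^ (A + 3)) ?_
  · refine hsep.trans ?_
    have hL0 : 0 < LX X := by
      unfold LX
      exact Real.log_pos (by
        have := hb.one
        have : (12 : ℝ) ≤ X := by exact_mod_cast this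
        linarith)
    have hS3 := SX_le hb.one
    have hS0 : (0 : ℝ) ≤ SX X := Nat.cast_nonneg _
    have hQ : 0 ≤ K * (X : ℝ) ^ ((5 : ℝ) / 6) / LX X ^ (A + 3) := by positivity
    calc (SX X : ℝ) * (SX X * (SX X * (K * (X : ℝ) ^ ((5 : ℝ) / 6) / LX X ^ (A + 3))))
        = (SX X : ℝ) ^ 3 * (K * (X : ℝ) ^ ((5 : ℝ) / 6) / LX X ^ (A + 3)) := by ring
      _ ≤ (5 * LX X) ^ 3 * (K * (X : ℝ) ^ ((5 : ℝ) / 6) / LX X ^ (A + 3)) :=
          mul_le_mul_of_nonneg_right (pow_le_pow_left₀ hS0 hS3 3) hQ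
      _ = 125 * K * (X : ℝ) ^ ((5 : ℝ) / 6) / LX X ^ A := by
          rw [pow_add]
          field_simp
          ring
  · intro E _
    unfold rr
    have h1 : V₂ / nK E ≤ X := by
      rw [div_le_iff₀ (nK_pos E)]
      calc V₂ ≤ (X : ℝ) ^ (0.505 : ℝ) := hV2
        _ ≤ (X : ℝ) ^ (1 : ℝ) := Real.rpow_le_rpow_of_exponent_le hX1 (by norm_num)
        _ = X := Real.rpow_one _
        _ ≤ X * nK E := by nlinarith [one_le_nK E]
    have h2 : ⌊V₂ / nK E⌋₊ ≤ X := by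
      have := Nat.floor_le_floor h1
      rwa [Nat.floor_natCast] at this
    omega
  · intro E _
    exact min_le_right _ _
  · intro T hT
    have := TT_le hb hT
    omega
  · intro x y hx hy
    rw [to_bil]
    have hg : ∀ E, ‖(if E ∈ EE X then x E * (-1 : ℂ) ^ E.card else 0)‖ ≤ 1 := by
      intro E
      split_ifs
      · rw [norm_mul, norm_pow, norm_neg, norm_one, one_pow, mul_one]; exact hx E
      · simp
    refine hH _ _ (norm_al_le hα hg) ?_ ?_ (Or.inr (sp_al ?_))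
    · intro T
      split_ifs
      · rw [norm_mul]
        calc ‖y T‖ * ‖gam X T‖ ≤ 1 * (2 : ℝ) ^ T.card :=
              mul_le_mul (hy T) (norm_gam_le X T) (norm_nonneg _) (by norm_num)
          _ = _ := one_mul _
      · rw [norm_zero]; positivity
    · intro T hT
      have : T ∈ TT X := by
        by_contra hc
        exact hT (if_neg hc)
      exact (mem_TT.mp this).2
    · intro E hE
      by_contra hc
      exact hE (if_neg hc)

end Crest.Agent.R012.SNHL50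
end
end

-- ▼ part R012/SNH_Eng_828
section

/-!
# Row 12, item SNH (helper828): the engine

* `engine_ix` : index form with a range `lo i < N(b) ≤ hi i` and a cross condition `u i < v b`
  is bounded by dyadic blocks of `Ix` without cross condition.
* `reindex` : `∑_G c_G ∑_{T ⊆ UX \ G, C G T} λ_T Fa (G ∪ T)` is such an index form.
* `rk`, `rkm` : rank functions; `ab_iff` : `(∀ p ∈ T, Ab G p) ↔ rkm G < rkm T`.
-/

set_option autoImplicit false

noncomputable section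

open Complex Filter Topology

namespace Crest.Agent.R012.SNHEng828

open Crest.Agent.R012 Eis Buch420 Main48 NearHalf828

/-! ### `Fl` vanishes on non-squarefree products -/

lemma Fl_of_not_squarefree {l : ℤ} {n : Eis} (h : ¬ Squarefree n) : Fl l n = 0 := by
  unfold Fl; rw [if_neg h]

lemma not_squarefree_of_not_disjoint {S T : Finset PrP} (h : ¬ Disjoint S T) :
    ¬ Squarefree (prd S * prd T) := by
  rw [Finset.not_disjoint_iff] at h
  obtain ⟨p, hp1, hp2⟩ := h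
  intro hs
  have : p.1 * p.1 ∣ prd S * prd T := mul_dvd_mul (dvd_prd_iff.mpr hp1) (dvd_prd_iff.mpr hp2)
  exact p.prime.not_isUnit (hs _ this)

lemma Fl_of_not_disjoint {l : ℤ} {S T : Finset PrP} (h : ¬ Disjoint S T) :
    Fl l (prd S * prd T) = 0 := Fl_of_not_squarefree (not_squarefree_of_not_disjoint h)

lemma nm_prd_pos (T : Finset PrP) : (0 : ℝ) < nm (prd T) := by
  exact_mod_cast nm_pos.mpr (prd_ne_zero T)

/-! ### The engine -/

/-- the block `B < N(b) ≤ 2B` -/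
def bl (B : ℝ) (T : Finset PrP) : Prop := B < nm (prd T) ∧ (nm (prd T) : ℝ) ≤ 2 * B

open Classical in
lemma block_sum {B0 : ℝ} (hB0 : 1 ≤ B0) (T : Finset PrP) (h1 : B0 < nm (prd T)) (n : ℕ)
    (h2 : (nm (prd T) : ℝ) ≤ B0 * 2 ^ n) :
    ∑ k ∈ Finset.range n, (if bl (B0 * 2 ^ k) T then (1 : ℂ) else 0) = 1 := by
  induction n with
  | zero => rw [pow_zero, mul_one] at h2; linarith
  | succ n ih =>
    rw [Finset.sum_range_succ]
    by_cases hc : (nm (prd T) : ℝ) ≤ B0 * 2 ^ n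
    · rw [ih hc, if_neg, add_zero]
      intro hb; exact absurd hb.1 (not_lt.mpr hc)
    · rw [if_pos, Finset.sum_eq_zero, zero_add]
      · intro k hk
        rw [if_neg]
        intro hb
        have h3 : B0 * 2 ^ (k + 1) ≤ B0 * 2 ^ n := by
          apply mul_le_mul_of_nonneg_left _ (by linarith)
          exact pow_le_pow_right₀ (by norm_num) (Finset.mem_range.mp hk)
        rw [pow_succ] at h3
        have := hb.2
        apply hc; linarith
      · refine ⟨not_le.mp hc, ?_⟩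
        rw [pow_succ] at h2; linarith

open Classical in
/-- the kernel with a range -/
def Kf (l : ℤ) {ι : Type} (a : ι → Finset PrP) (α : ι → ℂ) (lo hi : ι → ℝ)
    (lam : Finset PrP → ℂ) (i : ι) (T : Finset PrP) : ℂ :=
  if lo i < nm (prd T) ∧ (nm (prd T) : ℝ) ≤ hi i then α i * lam T * Fl l (prd (a i) * prd T) else 0

open Classical in
lemma engine_block (l : ℤ) (X : ℕ) {ι : Type} (I : Finset ι) (a : ι → Finset PrP) (α : ι → ℂ)
    (lo hi : ι → ℝ) (lam : Finset PrP → ℂ) (B : ℝ) (u : ι → ℕ) (v : Finset PrP → ℕ) (M : ℕ)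
    (hM : 1 ≤ M) (hu : ∀ i ∈ I, u i < M) (hv : ∀ T ∈ (UX X).powerset, v T ≤ M) (Q : ℝ)
    (hQ : ∀ φ : ℕ → ℂ, (∀ n, ‖φ n‖ ≤ 1) → ∀ α' : ι → ℂ, (∀ i, ‖α' i‖ ≤ ‖α i‖) →
      ∀ g : ι → ℝ, ‖Ix l X I a g α' (fun T => if bl B T then φ (v T) * lam T else 0)‖ ≤ Q) :
    ‖∑ i ∈ I, ∑ T ∈ (UX X).powerset, (if u i < v T then (1 : ℂ) else 0) *
          (if bl B T then Kf l a α lo hi lam i T else 0)‖ ≤ (2 + Real.log M) * (2 * Q) := by
  refine Sep290.sep_bilin _ _ (fun i T => if bl B T then Kf l a α lo hi lam i T else 0) u v M hM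
    hu hv (2 * Q) ?_
  intro x y hx hy
  obtain ⟨φ, hφ⟩ : ∃ φ : ℕ → ℂ, φ = fun n => if n ≤ M then y n else 0 := ⟨_, rfl⟩
  have hφ1 : ∀ n, ‖φ n‖ ≤ 1 := by
    intro n
    rw [hφ]
    show ‖if n ≤ M then y n else 0‖ ≤ 1
    split_ifs with h
    · exact hy n h
    · simp
  have hφM : ∀ n, n ≤ M → φ n = y n := by
    intro n hn; rw [hφ]; exact if_pos hn
  have hα' : ∀ i, ‖x (u i) * α i‖ ≤ ‖α i‖ := by
    intro i
    rw [norm_mul]
    exact mul_le_of_le_one_left (norm_nonneg _) (hx _)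
  have e : ∑ i ∈ I, ∑ T ∈ (UX X).powerset, x (u i) * y (v T) *
        (if bl B T then Kf l a α lo hi lam i T else 0) =
      Ix l X I a hi (fun i => x (u i) * α i) (fun T => if bl B T then φ (v T) * lam T else 0) -
      Ix l X I a (fun i => min (lo i) (hi i)) (fun i => x (u i) * α i)
        (fun T => if bl B T then φ (v T) * lam T else 0) := by
    unfold Ix
    rw [← Finset.sum_sub_distrib]
    refine Finset.sum_congr rfl fun i _ => ?_
    rw [← mul_sub, ← Finset.sum_sub_distrib, Finset.mul_sum]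
    refine Finset.sum_congr rfl fun T hT => ?_
    rw [← hφM _ (hv T hT)]
    unfold Kf
    by_cases hb : bl B T
    · simp only [if_pos hb]
      by_cases h2 : (nm (prd T) : ℝ) ≤ hi i
      · by_cases h3 : lo i < nm (prd T)
        · rw [if_pos ⟨h3, h2⟩, if_pos h2, if_neg]
          · ring
          · intro h; exact absurd (h.trans (min_le_left _ _)) (not_le.mpr h3)
        · rw [if_neg (fun h => h3 h.1), if_pos h2, if_pos (le_min (not_lt.mp h3) h2)]
          ring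
      · rw [if_neg (fun h => h2 h.2), if_neg h2, if_neg]
        · ring
        · intro h; exact h2 (h.trans (min_le_right _ _))
    · simp only [if_neg hb]
      simp
  rw [e]
  refine (norm_sub_le _ _).trans ?_
  have q1 := hQ φ hφ1 (fun i => x (u i) * α i) hα' hi
  have q2 := hQ φ hφ1 (fun i => x (u i) * α i) hα' (fun i => min (lo i) (hi i))
  linarith

open Classical in
lemma engine_dyadic (l : ℤ) (X : ℕ) {ι : Type} (I : Finset ι) (a : ι → Finset PrP) (α : ι → ℂ)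
    (lo hi : ι → ℝ) (hhi : ∀ i ∈ I, hi i * nm (prd (a i)) ≤ X) (lam : Finset PrP → ℂ) {B0 : ℝ}
    (hB0 : 1 ≤ B0) (m : ℕ)
    (hlam : ∀ i ∈ I, ∀ T ∈ (UX X).powerset, lo i < nm (prd T) → (nm (prd T) : ℝ) ≤ hi i →
      lam T ≠ 0 → B0 < nm (prd T) ∧ (nm (prd T) : ℝ) ≤ B0 * 2 ^ m)
    (u : ι → ℕ) (v : Finset PrP → ℕ) :
    ∑ i ∈ I, ∑ T ∈ (UX X).powerset,
      (if (lo i < nm (prd T) ∧ (nm (prd T) : ℝ) ≤ hi i) ∧ u i < v T then
        α i * lam T * Fl l (prd (a i) * prd T) else 0) =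
      ∑ k ∈ Finset.range m, ∑ i ∈ I.filter (fun i => (nm (prd (a i)) : ℝ) ≤ X / (B0 * 2 ^ k)),
        ∑ T ∈ (UX X).powerset, (if u i < v T then (1 : ℂ) else 0) *
          (if bl (B0 * 2 ^ k) T then Kf l a α lo hi lam i T else 0) := by
  have h2 : ∀ k ∈ Finset.range m,
      ∑ i ∈ I.filter (fun i => (nm (prd (a i)) : ℝ) ≤ X / (B0 * 2 ^ k)),
        ∑ T ∈ (UX X).powerset, (if u i < v T then (1 : ℂ) else 0) *
          (if bl (B0 * 2 ^ k) T then Kf l a α lo hi lam i T else 0) =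
      ∑ i ∈ I, ∑ T ∈ (UX X).powerset, (if u i < v T then (1 : ℂ) else 0) *
        (if bl (B0 * 2 ^ k) T then Kf l a α lo hi lam i T else 0) := by
    intro k _
    refine Finset.sum_subset (Finset.filter_subset _ _) fun i hi' hni => ?_
    refine Finset.sum_eq_zero fun T _ => ?_
    have hn : ¬ (nm (prd (a i)) : ℝ) ≤ X / (B0 * 2 ^ k) := fun h =>
      hni (Finset.mem_filter.mpr ⟨hi', h⟩)
    by_cases hb : bl (B0 * 2 ^ k) T
    · rw [if_pos hb]
      have : Kf l a α lo hi lam i T = 0 := by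
        unfold Kf
        rw [if_neg]
        rintro ⟨-, h4⟩
        apply hn
        rw [le_div_iff₀ (by positivity)]
        have h5 := hhi i hi'
        have h6 := nm_prd_pos (a i)
        have h7 : B0 * 2 ^ k ≤ hi i := (le_of_lt hb.1).trans h4
        calc (nm (prd (a i)) : ℝ) * (B0 * 2 ^ k) ≤ (nm (prd (a i)) : ℝ) * hi i :=
              mul_le_mul_of_nonneg_left h7 h6.le
          _ = hi i * nm (prd (a i)) := mul_comm _ _
          _ ≤ X := h5
      rw [this, mul_zero]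
    · rw [if_neg hb, mul_zero]
  rw [Finset.sum_congr rfl h2, Finset.sum_comm (s := Finset.range m)]
  refine Finset.sum_congr rfl fun i hi' => ?_
  rw [Finset.sum_comm (s := Finset.range m)]
  refine Finset.sum_congr rfl fun T hT => ?_
  rw [← Finset.mul_sum]
  have h3 : ∑ k ∈ Finset.range m, (if bl (B0 * 2 ^ k) T then Kf l a α lo hi lam i T else 0) =
      (∑ k ∈ Finset.range m, (if bl (B0 * 2 ^ k) T then (1 : ℂ) else 0)) *
        Kf l a α lo hi lam i T := by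
    rw [Finset.sum_mul]
    refine Finset.sum_congr rfl fun k _ => ?_
    split_ifs <;> simp
  rw [h3]
  unfold Kf
  by_cases hr : lo i < nm (prd T) ∧ (nm (prd T) : ℝ) ≤ hi i
  · rw [if_pos hr]
    by_cases hl : lam T = 0
    · rw [hl]; simp
    · have h4 := hlam i hi' T hT hr.1 hr.2 hl
      rw [block_sum hB0 T h4.1 m h4.2]
      by_cases hc : u i < v T
      · rw [if_pos ⟨hr, hc⟩, if_pos hc]; ring
      · rw [if_neg (fun h => hc h.2), if_neg hc]; ring
  · rw [if_neg (fun h => hr h.1), if_neg hr]; ring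

open Classical in
/-- **The engine**: index form with range and cross condition, in terms of dyadic `Ix`. -/
theorem engine_ix (l : ℤ) (X : ℕ) {ι : Type} (I : Finset ι) (a : ι → Finset PrP) (α : ι → ℂ)
    (lo hi : ι → ℝ) (hhi : ∀ i ∈ I, hi i * nm (prd (a i)) ≤ X) (lam : Finset PrP → ℂ) {B0 : ℝ}
    (hB0 : 1 ≤ B0) (m : ℕ)
    (hlam : ∀ i ∈ I, ∀ T ∈ (UX X).powerset, lo i < nm (prd T) → (nm (prd T) : ℝ) ≤ hi i →
      lam T ≠ 0 → B0 < nm (prd T) ∧ (nm (prd T) : ℝ) ≤ B0 * 2 ^ m)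
    (u : ι → ℕ) (v : Finset PrP → ℕ) (M : ℕ) (hM : 1 ≤ M) (hu : ∀ i ∈ I, u i < M)
    (hv : ∀ T ∈ (UX X).powerset, v T ≤ M) (Q : ℝ)
    (hQ : ∀ k < m, ∀ φ : ℕ → ℂ, (∀ n, ‖φ n‖ ≤ 1) → ∀ α' : ι → ℂ, (∀ i, ‖α' i‖ ≤ ‖α i‖) →
      ∀ g : ι → ℝ, ‖Ix l X (I.filter (fun i => (nm (prd (a i)) : ℝ) ≤ X / (B0 * 2 ^ k))) a g α'
        (fun T => if bl (B0 * 2 ^ k) T then φ (v T) * lam T else 0)‖ ≤ Q) :
    ‖∑ i ∈ I, ∑ T ∈ (UX X).powerset,
      (if (lo i < nm (prd T) ∧ (nm (prd T) : ℝ) ≤ hi i) ∧ u i < v T then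
        α i * lam T * Fl l (prd (a i) * prd T) else 0)‖ ≤ m * ((2 + Real.log M) * (2 * Q)) := by
  rw [engine_dyadic l X I a α lo hi hhi lam hB0 m hlam u v]
  refine (norm_sum_le _ _).trans ?_
  have h5 : ∀ k ∈ Finset.range m,
      ‖∑ i ∈ I.filter (fun i => (nm (prd (a i)) : ℝ) ≤ X / (B0 * 2 ^ k)),
        ∑ T ∈ (UX X).powerset, (if u i < v T then (1 : ℂ) else 0) *
          (if bl (B0 * 2 ^ k) T then Kf l a α lo hi lam i T else 0)‖ ≤
        (2 + Real.log M) * (2 * Q) := by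
    intro k hk
    exact engine_block l X _ a α lo hi lam (B0 * 2 ^ k) u v M hM
      (fun i hi' => hu i (Finset.mem_filter.mp hi').1) hv Q (hQ k (Finset.mem_range.mp hk))
  refine (Finset.sum_le_sum h5).trans ?_
  rw [Finset.sum_const, Finset.card_range, nsmul_eq_mul]

/-! ### Ranks -/

open Classical in
/-- rank of a prime among the primes of norm `≤ X` -/
def rk (X : ℕ) (p : PrP) : ℕ := ((UX X).filter (fun q => q < p)).card

lemma rk_lt_iff {X : ℕ} {p q : PrP} (hp : p ∈ UX X) : rk X p < rk X q ↔ p < q := by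
  classical
  unfold rk
  constructor
  · intro h
    by_contra hc
    push Not at hc
    refine absurd h (not_lt.mpr (Finset.card_le_card ?_))
    intro x hx
    rw [Finset.mem_filter] at hx ⊢
    exact ⟨hx.1, lt_of_lt_of_le hx.2 hc⟩
  · intro h
    apply Finset.card_lt_card
    rw [Finset.ssubset_iff_of_subset]
    · exact ⟨p, Finset.mem_filter.mpr ⟨hp, h⟩, fun hx => lt_irrefl _ (Finset.mem_filter.mp hx).2⟩
    · intro x hx
      rw [Finset.mem_filter] at hx ⊢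
      exact ⟨hx.1, lt_trans hx.2 h⟩

/-- rank of the smallest prime (`0` for the empty set) -/
def rkm (X : ℕ) (T : Finset PrP) : ℕ := if h : T.Nonempty then rk X (T.min' h) else 0

lemma rk_le_card (X : ℕ) (p : PrP) : rk X p ≤ (UX X).card := Finset.card_filter_le _ _

lemma rkm_le_card (X : ℕ) (T : Finset PrP) : rkm X T ≤ (UX X).card := by
  unfold rkm
  split_ifs
  · exact rk_le_card X _
  · exact Nat.zero_le _

lemma rkm_lt (X : ℕ) (T : Finset PrP) : rkm X T < (UX X).card + 1 :=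
  Nat.lt_succ_of_le (rkm_le_card X T)

/-- the cross condition in terms of ranks -/
lemma ab_iff {X : ℕ} {G T : Finset PrP} (hG : G.Nonempty) (hGX : G ⊆ UX X) (hT : T.Nonempty) :
    (∀ p ∈ T, Ab G p) ↔ rkm X G < rkm X T := by
  unfold rkm
  rw [dif_pos hG, dif_pos hT, rk_lt_iff (hGX (G.min'_mem hG))]
  constructor
  · intro h
    obtain ⟨q, hq, hqp⟩ := h _ (T.min'_mem hT)
    exact lt_of_le_of_lt (G.min'_le q hq) hqp
  · intro h p hp
    exact ⟨_, G.min'_mem hG, lt_of_lt_of_le h (T.min'_le p hp)⟩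

/-- adding a larger prime does not change the rank of the smallest prime -/
lemma rkm_insert {X : ℕ} {T : Finset PrP} (hT : T.Nonempty) {p : PrP} (hp : ∀ q ∈ T, q < p) :
    rkm X (insert p T) = rkm X T := by
  unfold rkm
  rw [dif_pos hT, dif_pos (Finset.insert_nonempty p T)]
  congr 1
  apply le_antisymm
  · exact Finset.min'_le _ _ (Finset.mem_insert_of_mem (T.min'_mem hT))
  · refine Finset.le_min' _ _ _ fun y hy => ?_
    rcases Finset.mem_insert.mp hy with rfl | hy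
    · exact (hp _ (T.min'_mem hT)).le
    · exact T.min'_le y hy

/-! ### Reindexing -/

/-- lower cut -/
def loI (X : ℕ) (V₁ : ℝ) (i : Finset PrP × Finset PrP) : ℝ :=
  max ((⌈V₁ / nm (prd i.2)⌉₊ : ℝ) - 1) (X / (2 * nm (prd (i.1 ∪ i.2))))
/-- upper cut -/
def hiI (X : ℕ) (V₂ : ℝ) (i : Finset PrP × Finset PrP) : ℝ :=
  min (V₂ / nm (prd i.2)) (X / nm (prd (i.1 ∪ i.2)))

lemma hiI_mul_le (X : ℕ) (V₂ : ℝ) (i : Finset PrP × Finset PrP) :
    hiI X V₂ i * nm (prd (i.1 ∪ i.2)) ≤ X := by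
  have h := nm_prd_pos (i.1 ∪ i.2)
  calc hiI X V₂ i * nm (prd (i.1 ∪ i.2)) ≤ (X / nm (prd (i.1 ∪ i.2))) * nm (prd (i.1 ∪ i.2)) :=
        mul_le_mul_of_nonneg_right (min_le_right _ _) h.le
    _ = X := by field_simp

lemma cut_iff {X : ℕ} {V₁ V₂ : ℝ} {S G T : Finset PrP} (hSG : Disjoint S G) (hGT : Disjoint G T) :
    (loI X V₁ (S, G) < nm (prd T) ∧ (nm (prd T) : ℝ) ≤ hiI X V₂ (S, G)) ↔
      (V₁ ≤ nm (prd (G ∪ T)) ∧ (nm (prd (G ∪ T)) : ℝ) ≤ V₂) ∧
      (X < 2 * nm (prd S * prd (G ∪ T)) ∧ nm (prd S * prd (G ∪ T)) ≤ X) := by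
  have hg := nm_prd_pos G
  have hs := nm_prd_pos S
  have e1 : (nm (prd (G ∪ T)) : ℝ) = nm (prd G) * nm (prd T) := by
    rw [prd_union hGT, nm_mul]; push_cast; ring
  have e2 : (nm (prd S * prd (G ∪ T)) : ℝ) = nm (prd S) * (nm (prd G) * nm (prd T)) := by
    rw [nm_mul, prd_union hGT, nm_mul]; push_cast; ring
  have e3 : (nm (prd (S ∪ G)) : ℝ) = nm (prd S) * nm (prd G) := by
    rw [prd_union hSG, nm_mul]; push_cast; ring
  unfold loI hiI
  simp only
  rw [max_lt_iff, le_min_iff, e1, e3]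
  have a1 : ((⌈V₁ / nm (prd G)⌉₊ : ℝ) - 1 < nm (prd T)) ↔ V₁ ≤ nm (prd G) * nm (prd T) := by
    rw [sub_lt_iff_lt_add]
    have : ((⌈V₁ / nm (prd G)⌉₊ : ℝ) < nm (prd T) + 1) ↔ ⌈V₁ / nm (prd G)⌉₊ ≤ nm (prd T) := by
      rw [← Nat.lt_add_one_iff]
      exact_mod_cast Iff.rfl
    rw [this, Nat.ceil_le, div_le_iff₀ hg, mul_comm]
  have a2 : ((nm (prd T) : ℝ) ≤ V₂ / nm (prd G)) ↔ (nm (prd G) : ℝ) * nm (prd T) ≤ V₂ := by
    rw [le_div_iff₀ hg, mul_comm]
  have a3 : ((X : ℝ) / (2 * (nm (prd S) * nm (prd G))) < nm (prd T)) ↔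
      X < 2 * nm (prd S * prd (G ∪ T)) := by
    rw [div_lt_iff₀ (by positivity)]
    have : (X < 2 * nm (prd S * prd (G ∪ T))) ↔ ((X : ℝ) < 2 * nm (prd S * prd (G ∪ T))) := by
      exact_mod_cast Iff.rfl
    rw [this, e2]
    constructor <;> intro h <;> linarith
  have a4 : ((nm (prd T) : ℝ) ≤ X / (nm (prd S) * nm (prd G))) ↔
      nm (prd S * prd (G ∪ T)) ≤ X := by
    rw [le_div_iff₀ (by positivity)]
    have : (nm (prd S * prd (G ∪ T)) ≤ X) ↔ ((nm (prd S * prd (G ∪ T)) : ℝ) ≤ X) := by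
      exact_mod_cast Iff.rfl
    rw [this, e2]
    constructor <;> intro h <;> linarith
  rw [a1, a2, a3, a4]
  tauto

open Classical in
/-- the index set -/
def IxS (X : ℕ) (GG : Finset (Finset PrP)) : Finset (Finset PrP × Finset PrP) :=
  ((UX X).powerset ×ˢ GG).filter (fun i => Disjoint i.1 i.2)

open Classical in
theorem reindex (l : ℤ) (X : ℕ) (α : Finset PrP → ℂ) (V₁ V₂ : ℝ) (GG : Finset (Finset PrP))
    (c lam : Finset PrP → ℂ) (u v : Finset PrP → ℕ) :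
    ∑ G ∈ GG, c G * ∑ T ∈ (UX X \ G).powerset,
      (if u G < v T then lam T * Fa l X α V₁ V₂ (G ∪ T) else 0) =
    ∑ i ∈ IxS X GG, ∑ T ∈ (UX X).powerset,
      (if (loI X V₁ i < nm (prd T) ∧ (nm (prd T) : ℝ) ≤ hiI X V₂ i) ∧ u i.2 < v T then
        (α i.1 * c i.2) * lam T * Fl l (prd (i.1 ∪ i.2) * prd T) else 0) := by
  obtain ⟨tm, htm⟩ : ∃ tm : Finset PrP → Finset PrP → Finset PrP → ℂ, tm = fun S G T =>
    (if (loI X V₁ (S, G) < nm (prd T) ∧ (nm (prd T) : ℝ) ≤ hiI X V₂ (S, G)) ∧ u G < v T then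
        (α S * c G) * lam T * Fl l (prd (S ∪ G) * prd T) else 0) := ⟨_, rfl⟩
  have hR : ∑ i ∈ IxS X GG, ∑ T ∈ (UX X).powerset,
      (if (loI X V₁ i < nm (prd T) ∧ (nm (prd T) : ℝ) ≤ hiI X V₂ i) ∧ u i.2 < v T then
        (α i.1 * c i.2) * lam T * Fl l (prd (i.1 ∪ i.2) * prd T) else 0) =
      ∑ G ∈ GG, ∑ T ∈ (UX X).powerset, ∑ S ∈ (UX X).powerset,
        (if Disjoint S G then tm S G T else 0) := by
    unfold IxS
    rw [Finset.sum_filter, Finset.sum_product_right]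
    refine Finset.sum_congr rfl fun G _ => ?_
    rw [Finset.sum_comm (s := (UX X).powerset) (t := (UX X).powerset)]
    refine Finset.sum_congr rfl fun S _ => ?_
    rw [htm]
    split_ifs with h
    · rfl
    · simp
  rw [hR]
  refine Finset.sum_congr rfl fun G _ => ?_
  have h1 : ∑ T ∈ (UX X).powerset, ∑ S ∈ (UX X).powerset, (if Disjoint S G then tm S G T else 0) =
      ∑ T ∈ (UX X \ G).powerset, ∑ S ∈ (UX X).powerset, (if Disjoint S G then tm S G T else 0) := by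
    symm
    refine Finset.sum_subset (Finset.powerset_mono.mpr Finset.sdiff_subset) fun T hT hnT => ?_
    refine Finset.sum_eq_zero fun S _ => ?_
    split_ifs with hd
    · have hnd : ¬ Disjoint (S ∪ G) T := by
        intro h
        apply hnT
        rw [Finset.mem_powerset] at hT ⊢
        intro p hp
        rw [Finset.mem_sdiff]
        exact ⟨hT hp, fun hpG => (Finset.disjoint_left.mp h (Finset.mem_union_right _ hpG)) hp⟩
      rw [htm]
      simp only [Fl_of_not_disjoint hnd, mul_zero, ite_self]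
    · rfl
  rw [h1, Finset.mul_sum]
  refine Finset.sum_congr rfl fun T hT => ?_
  have hGT : Disjoint G T := by
    rw [Finset.mem_powerset] at hT
    rw [Finset.disjoint_left]
    intro p hp hp'
    exact (Finset.mem_sdiff.mp (hT hp')).2 hp
  by_cases hu : u G < v T
  · rw [if_pos hu]
    unfold Fa
    by_cases hV : V₁ ≤ nm (prd (G ∪ T)) ∧ (nm (prd (G ∪ T)) : ℝ) ≤ V₂
    · rw [if_pos hV, Finset.mul_sum, Finset.mul_sum]
      refine Finset.sum_congr rfl fun S _ => ?_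
      by_cases hd : Disjoint S G
      · rw [if_pos hd, htm]
        simp only
        have hc := cut_iff (X := X) (V₁ := V₁) (V₂ := V₂) hd hGT
        unfold FX
        by_cases hx : X < 2 * nm (prd S * prd (G ∪ T)) ∧ nm (prd S * prd (G ∪ T)) ≤ X
        · rw [if_pos hx, if_pos ⟨hc.mpr ⟨hV, hx⟩, hu⟩, prd_union hGT, prd_union hd]
          ring_nf
        · rw [if_neg hx, if_neg]
          · ring
          · rintro ⟨h, -⟩; exact hx (hc.mp h).2
      · rw [if_neg hd]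
        have : FX l X (prd S * prd (G ∪ T)) = 0 := by
          unfold FX
          split_ifs
          · apply Fl_of_not_disjoint
            intro h
            exact hd (h.mono_right Finset.subset_union_left)
          · rfl
        rw [this]; ring
    · rw [if_neg hV, mul_zero, mul_zero]
      symm
      refine Finset.sum_eq_zero fun S _ => ?_
      split_ifs with hd
      · rw [htm]
        simp only
        rw [if_neg]
        rintro ⟨h, -⟩
        exact hV ((cut_iff (X := X) (V₁ := V₁) (V₂ := V₂) hd hGT).mp h).1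
      · rfl
  · rw [if_neg hu, mul_zero]
    symm
    refine Finset.sum_eq_zero fun S _ => ?_
    split_ifs with hd
    · rw [htm]
      simp only
      rw [if_neg]
      rintro ⟨-, h⟩
      exact hu h
    · rfl

end Crest.Agent.R012.SNHEng828
end
end

-- ▼ part R012/PerronIx_828
section

/-!
# Row 12: sharp cut-off in index form (Perron), helper828

* `sq N x = ∑_{j<N} sin((2j+1)x)/(2j+1)`, `abs_sq_sub_le : |sq N x - π/4| ≤ 2/(N x)` on `(0,π/2]`.
* `perron_abs` : abstract form. `x i b = lg i - lb b`, `δ ≤ |x i b| ≤ π/2`, then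
  `‖∑_{lb b < lg i} K i b‖ ≤ ½‖T 0‖ + (2/π) ∫_{1/2}^{2N} (‖T t‖ + ‖T (-t)‖)/t dt + 4/(Nδ) ∑∑ ‖K i b‖`,
  `T t = ∑_i ∑_b exp(i t (lg i - lb b)) K i b`.
* `perron_ix` : for `B < nm b ≤ 2B` and an arbitrary cut-off `nm b ≤ g i`.
* `perron_ix_M` : the same with an `ℓ²`-hypothesis with bound `M t` for the bilinear form.
-/

set_option autoImplicit false

noncomputable section

open MeasureTheory Complex Set Filter Real

namespace Crest.Agent.R012.Perron828

open Crest.Agent.R012.Eis Crest.Agent.R012.MV400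

/-- Partial sums of the square wave. -/
def sq (N : ℕ) (x : ℝ) : ℝ := ∑ j ∈ Finset.range N, Real.sin ((2 * j + 1) * x) / (2 * j + 1)









/-! ### Averaging over the period -/



/-! ### Abstract index form -/

section absform

variable {ι σ : Type*}

/-- `T t = ∑_i ∑_b exp(i t x_{ib}) K i b`. -/
def TT (s : Finset ι) (S : Finset σ) (x : ι → σ → ℝ) (K : ι → σ → ℂ) (t : ℝ) : ℂ :=
  ∑ i ∈ s, ∑ b ∈ S, cexp (I * ((x i b : ℝ) : ℂ) * (t : ℂ)) * K i b







end absform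

/-! ### Concrete form over `Eis` -/









section concrete

variable {ι : Type*}


variable {A : Type*} [DecidableEq A]

/-- number of pairs of indices with the same `a`. -/
def Rp (s : Finset ι) (a : ι → A) : ℕ := ((s ×ˢ s).filter (fun p => a p.1 = a p.2)).card

lemma Rp_eq (s : Finset ι) (a : ι → A) (AA : Finset A) (h : ∀ i ∈ s, a i ∈ AA) :
    (Rp s a : ℝ) = ∑ x ∈ AA, ((s.filter (fun i => a i = x)).card : ℝ) ^ 2 := by
  unfold Rp
  have h1 : ((s ×ˢ s).filter (fun p => a p.1 = a p.2)).card =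
      ∑ x ∈ AA, (((s ×ˢ s).filter (fun p => a p.1 = a p.2)).filter (fun p => a p.1 = x)).card := by
    refine Finset.card_eq_sum_card_fiberwise (f := fun p : ι × ι => a p.1) ?_
    intro p hp
    have : p.1 ∈ s := (Finset.mem_product.mp (Finset.mem_filter.mp hp).1).1
    exact h _ this
  rw [h1]
  push_cast
  refine Finset.sum_congr rfl fun x _ => ?_
  have h2 : ((s ×ˢ s).filter (fun p => a p.1 = a p.2)).filter (fun p => a p.1 = x) =
      (s.filter (fun i => a i = x)) ×ˢ (s.filter (fun i => a i = x)) := by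
    ext p
    simp only [Finset.mem_filter, Finset.mem_product]
    constructor
    · rintro ⟨⟨⟨h3, h4⟩, h5⟩, h6⟩
      exact ⟨⟨h3, h6⟩, ⟨h4, by rw [← h5]; exact h6⟩⟩
    · rintro ⟨⟨h3, h4⟩, ⟨h5, h6⟩⟩
      exact ⟨⟨⟨h3, h5⟩, by rw [h4, h6]⟩, h4⟩
  rw [h2, Finset.card_product]
  push_cast; ring





end concrete

end Crest.Agent.R012.Perron828
end
end

-- ▼ part R012/SNH_Cr_828
section

/-!
# Row 12, item SNH (helper828): `CrPart_of : TIIx_Prop → CrPart`
-/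

set_option autoImplicit false

noncomputable section

open Complex Filter Topology

namespace Crest.Agent.R012.NearHalf828

open Crest.Agent.R012 Eis Buch420 Main48 SNHEng828 Perron828

namespace Cr828

open Classical in
lemma mu_le_Rp {ι : Type} (I : Finset ι) (a : ι → Finset PrP) (α : ι → ℂ) (h : ∀ i ∈ I, ‖α i‖ ≤ 1) :
    Mu I a α ≤ (Rp I a : ℝ) := by
  unfold Mu Rp
  have h1 : ((((I ×ˢ I).filter (fun p => a p.1 = a p.2)).card : ℕ) : ℝ) =
      ∑ i ∈ I, ∑ j ∈ I, if a i = a j then (1 : ℝ) else 0 := by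
    rw [Finset.card_filter, Finset.sum_product]
    push_cast
    rfl
  have h2 : ∑ i ∈ I, ∑ j ∈ I, (if a i = a j then ‖α i‖ * ‖α j‖ else 0) ≤
      ∑ i ∈ I, ∑ j ∈ I, if a i = a j then (1 : ℝ) else 0 := by
    refine Finset.sum_le_sum fun i hi => Finset.sum_le_sum fun j hj => ?_
    split_ifs
    · calc ‖α i‖ * ‖α j‖ ≤ 1 * 1 := mul_le_mul (h i hi) (h j hj) (norm_nonneg _) (by norm_num)
        _ = 1 := one_mul 1
    · exact le_rfl
  refine h2.trans (le_of_eq ?_)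
  rw [← h1]

open Classical in
/-- `∑ 4^{ω(D)}` over squarefree `D` of norm `≤ Z`. -/
lemma sum_four (X : ℕ) (hX : 3 ≤ X) (DD : Finset (Finset PrP)) {Z : ℝ} (hZ : 0 ≤ Z)
    (h1 : ∀ D ∈ DD, D ⊆ UX X) (h2 : ∀ D ∈ DD, (nm (prd D) : ℝ) ≤ Z) :
    ∑ D ∈ DD, (4 : ℝ) ^ D.card ≤ Z * (Real.exp 300 * LX X ^ 8) := by
  have h4c : (0 : ℝ) ≤ 4 := by norm_num
  have h3 := Dens420.sum_le_mul_sum_div h4c DD h2
  have hX3 : (3 : ℝ) ≤ X := by exact_mod_cast hX
  have hX2 : (2 : ℝ) ≤ X := by linarith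
  have hp : ∀ D ∈ DD, ∀ p ∈ D, (nm p.1 : ℝ) ≤ X := by
    intro D hD p hp
    have := mem_UX.mp (h1 D hD hp)
    exact_mod_cast this
  have h4 := Dens420.sum_omega_div h4c hX2 DD hp
  have hL : 0 < Real.log X := Real.log_pos (by linarith)
  have e : (4 : ℝ) * (2 * Real.log (Real.log X) + 75) = 300 + 8 * Real.log (Real.log X) := by ring
  rw [e, Real.exp_add] at h4
  have e8 : Real.exp (8 * Real.log (Real.log X)) = Real.log X ^ 8 := by
    have : (8 : ℝ) * Real.log (Real.log X) = ((8 : ℕ) : ℝ) * Real.log (Real.log X) := by norm_num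
    rw [this, Real.exp_nat_mul, Real.exp_log hL]
  rw [e8] at h4
  exact h3.trans (mul_le_mul_of_nonneg_left h4 hZ)

open Classical in
/-- fibre count -/
lemma fibre_le {X : ℕ} {GG : Finset (Finset PrP)} (I : Finset (Finset PrP × Finset PrP))
    (hI : I ⊆ IxS X GG) (D : Finset PrP) :
    ((I.filter (fun i => i.1 ∪ i.2 = D)).card : ℝ) ^ 2 ≤ (4 : ℝ) ^ D.card := by
  have h1 : (I.filter (fun i => i.1 ∪ i.2 = D)).card ≤ 2 ^ D.card := by
    rw [← Finset.card_powerset]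
    refine Finset.card_le_card_of_injOn (fun i => i.2) ?_ ?_
    · intro i hi
      rw [Finset.mem_coe, Finset.mem_filter] at hi
      rw [Finset.mem_coe, Finset.mem_powerset, ← hi.2]
      exact Finset.subset_union_right
    · intro i hi j hj hij
      rw [Finset.mem_coe, Finset.mem_filter] at hi hj
      have hdi : Disjoint i.1 i.2 := by
        have := hI hi.1
        rw [IxS, Finset.mem_filter] at this
        exact this.2
      have hdj : Disjoint j.1 j.2 := by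
        have := hI hj.1
        rw [IxS, Finset.mem_filter] at this
        exact this.2
      have e1 : i.1 = D \ i.2 := by
        rw [← hi.2, Finset.union_sdiff_cancel_right hdi]
      have e2 : j.1 = D \ j.2 := by
        rw [← hj.2, Finset.union_sdiff_cancel_right hdj]
      have hij' : i.2 = j.2 := hij
      exact Prod.ext (by rw [e1, e2, hij']) hij'
  have h2 : ((I.filter (fun i => i.1 ∪ i.2 = D)).card : ℝ) ≤ 2 ^ D.card := by exact_mod_cast h1
  have h3 : ((2 : ℝ) ^ D.card) ^ 2 = 4 ^ D.card := by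
    rw [← pow_mul, mul_comm, pow_mul]; norm_num
  rw [← h3]
  exact pow_le_pow_left₀ (Nat.cast_nonneg _) h2 2

open Classical in
/-- The bound for `Mu` : index `(S, G)` disjoint, `a = S ∪ G`, `N(a) ≤ Z`. -/
lemma mu_bound {X : ℕ} (hX : 3 ≤ X) (GG : Finset (Finset PrP)) (hGG : ∀ G ∈ GG, G ⊆ UX X)
    {Z : ℝ} (hZ : 0 ≤ Z) (α : Finset PrP × Finset PrP → ℂ) (hα : ∀ i, ‖α i‖ ≤ 1) :
    Mu ((IxS X GG).filter (fun i => (nm (prd (i.1 ∪ i.2)) : ℝ) ≤ Z)) (fun i => i.1 ∪ i.2) α ≤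
      Z * (Real.exp 300 * LX X ^ 8) := by
  obtain ⟨I, hI⟩ : ∃ I, I = (IxS X GG).filter (fun i => (nm (prd (i.1 ∪ i.2)) : ℝ) ≤ Z) := ⟨_, rfl⟩
  obtain ⟨DD, hDD⟩ : ∃ DD, DD = (UX X).powerset.filter (fun D => (nm (prd D) : ℝ) ≤ Z) := ⟨_, rfl⟩
  rw [← hI]
  have hmem : ∀ i ∈ I, i.1 ∪ i.2 ∈ DD := by
    intro i hi
    rw [hI, Finset.mem_filter, IxS, Finset.mem_filter, Finset.mem_product] at hi
    rw [hDD, Finset.mem_filter, Finset.mem_powerset]
    exact ⟨Finset.union_subset (Finset.mem_powerset.mp hi.1.1.1) (hGG _ hi.1.1.2), hi.2⟩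
  have hsub : I ⊆ IxS X GG := by rw [hI]; exact Finset.filter_subset _ _
  refine (mu_le_Rp I _ α fun i _ => hα i).trans ?_
  rw [Rp_eq I (fun i => i.1 ∪ i.2) DD hmem]
  refine (Finset.sum_le_sum fun D _ => fibre_le I hsub D).trans ?_
  refine sum_four X hX DD hZ ?_ ?_
  · intro D hD
    rw [hDD, Finset.mem_filter, Finset.mem_powerset] at hD
    exact hD.1
  · intro D hD
    rw [hDD, Finset.mem_filter] at hD
    exact hD.2

lemma numeric1 {X L B M K : ℝ} {A' : ℕ} (hX : 0 < X) (hL : 0 < L) (hB : 1 ≤ B)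
    (hM : M ≤ X / B * (Real.exp 300 * L ^ 8)) :
    K * X ^ ((1 : ℝ) / 3) * Real.sqrt B * Real.sqrt M / L ^ A' ≤
      |K| * Real.exp 150 * X ^ ((5 : ℝ) / 6) * L ^ 4 / L ^ A' := by
  have hB0 : 0 < B := by linarith
  have h3 : Real.sqrt B * Real.sqrt M ≤ X ^ ((1 : ℝ) / 2) * (Real.exp 150 * L ^ 4) := by
    rw [← Real.sqrt_mul hB0.le, ← Real.sqrt_eq_rpow]
    have e1 : Real.exp 150 * L ^ 4 = Real.sqrt ((Real.exp 150 * L ^ 4) ^ 2) :=
      (Real.sqrt_sq (by positivity)).symm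
    rw [e1, ← Real.sqrt_mul hX.le]
    apply Real.sqrt_le_sqrt
    have e2 : (Real.exp 150 * L ^ 4) ^ 2 = Real.exp 300 * L ^ 8 := by
      have : Real.exp 300 = Real.exp 150 ^ 2 := by
        rw [← Real.exp_nat_mul]; norm_num
      rw [this]; ring
    rw [e2]
    calc B * M ≤ B * (X / B * (Real.exp 300 * L ^ 8)) :=
          mul_le_mul_of_nonneg_left hM hB0.le
      _ = X * (Real.exp 300 * L ^ 8) := by
          field_simp
  have e3 : X ^ ((5 : ℝ) / 6) = X ^ ((1 : ℝ) / 3) * X ^ ((1 : ℝ) / 2) := by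
    rw [← Real.rpow_add hX]; norm_num
  rw [e3]
  apply div_le_div_of_nonneg_right _ (by positivity)
  have hm : 0 ≤ X ^ ((1 : ℝ) / 3) := by positivity
  have hR0 : 0 ≤ Real.sqrt B * Real.sqrt M := by positivity
  calc K * X ^ ((1 : ℝ) / 3) * Real.sqrt B * Real.sqrt M
      = K * (X ^ ((1 : ℝ) / 3) * (Real.sqrt B * Real.sqrt M)) := by ring
    _ ≤ |K| * (X ^ ((1 : ℝ) / 3) * (Real.sqrt B * Real.sqrt M)) :=
        mul_le_mul_of_nonneg_right (le_abs_self K) (mul_nonneg hm hR0)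
    _ ≤ |K| * (X ^ ((1 : ℝ) / 3) * (X ^ ((1 : ℝ) / 2) * (Real.exp 150 * L ^ 4))) :=
        mul_le_mul_of_nonneg_left (mul_le_mul_of_nonneg_left h3 hm) (abs_nonneg K)
    _ = _ := by ring

open Classical in
/-- consequence of `TIIx_Prop` for the index sets `IxS X GG`. -/
lemma tii_use {l : ℤ} {X : ℕ} {K : ℝ} {A' : ℕ} (hX : 3 ≤ X) {B : ℝ} (hB : 1 ≤ B)
    {β : Finset PrP → ℂ}
    (hT : ∀ (ι : Type) (I : Finset ι) (a : ι → Finset PrP) (g : ι → ℝ) (α : ι → ℂ),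
      (∀ i ∈ I, (nm (prd (a i)) : ℝ) ≤ X / B) →
      ‖Ix l X I a g α β‖ ≤
        K * (X : ℝ) ^ ((1 : ℝ) / 3) * Real.sqrt B * Real.sqrt (Mu I a α) / LX X ^ A')
    (GG : Finset (Finset PrP)) (hGG : ∀ G ∈ GG, G ⊆ UX X)
    (α' : Finset PrP × Finset PrP → ℂ) (hα' : ∀ i, ‖α' i‖ ≤ 1)
    (g : Finset PrP × Finset PrP → ℝ) :
    ‖Ix l X ((IxS X GG).filter (fun i => (nm (prd (i.1 ∪ i.2)) : ℝ) ≤ X / B))
      (fun i => i.1 ∪ i.2) g α' β‖ ≤
      |K| * Real.exp 150 * (X : ℝ) ^ ((5 : ℝ) / 6) * LX X ^ 4 / LX X ^ A' := by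
  have hX3 : (3 : ℝ) ≤ X := by exact_mod_cast hX
  have hX0 : (0 : ℝ) < X := by linarith
  have hL : 0 < LX X := by
    unfold LX
    exact Real.log_pos (by linarith)
  have hZ : (0 : ℝ) ≤ X / B := div_nonneg hX0.le (by linarith)
  have h2 := mu_bound hX GG hGG hZ α' hα'
  obtain ⟨I, hI⟩ : ∃ I, I = (IxS X GG).filter (fun i => (nm (prd (i.1 ∪ i.2)) : ℝ) ≤ X / B) :=
    ⟨_, rfl⟩
  rw [← hI] at h2 ⊢
  have h3 : ∀ i ∈ I, (nm (prd (i.1 ∪ i.2)) : ℝ) ≤ X / B := by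
    intro i hi
    rw [hI, Finset.mem_filter] at hi
    exact hi.2
  have h1 := hT _ I (fun i => i.1 ∪ i.2) g α' h3
  refine le_trans h1 ?_
  exact numeric1 hX0 hL hB h2

/-! ### The two classes -/

open Classical in
/-- primes -/
def lam1 (X : ℕ) (T : Finset PrP) : ℂ :=
  if T.card = 1 ∧ ∀ p ∈ T, ¬ (nm p.1 : ℝ) < wX X then 1 else 0

open Classical in
/-- composite rough numbers -/
def lam2 (X : ℕ) (T : Finset PrP) : ℂ :=
  if 2 ≤ T.card ∧ ∀ p ∈ T, ¬ (nm p.1 : ℝ) < wX X then 1 else 0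

lemma ordConnected_aux (B s : ℝ) (hs : 0 < s) (q : ℕ → Prop) (hq : ∀ m n, m ≤ n → q m → q n) :
    Set.OrdConnected {n : ℕ | q n ∧ B < s * n ∧ s * (n : ℝ) ≤ 2 * B} := by
  constructor
  rintro x ⟨hx1, hx2, -⟩ y ⟨-, -, hy3⟩ z ⟨hz1, hz2⟩
  have h1 : (x : ℝ) ≤ z := by exact_mod_cast hz1
  have h2 : (z : ℝ) ≤ y := by exact_mod_cast hz2
  refine ⟨hq _ _ hz1 hx1, ?_, ?_⟩
  · exact lt_of_lt_of_le hx2 (mul_le_mul_of_nonneg_left h1 hs.le)
  · exact (mul_le_mul_of_nonneg_left h2 hs.le).trans hy3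

lemma bl_insert {B : ℝ} {T : Finset PrP} {p : PrP} (hp : ∀ q ∈ T, q < p) :
    bl B (insert p T) ↔ B < (nm (prd T) : ℝ) * nm p.1 ∧ (nm (prd T) : ℝ) * nm p.1 ≤ 2 * B := by
  have hpT : p ∉ T := fun h => lt_irrefl _ (hp p h)
  unfold bl
  rw [prd_insert hpT, nm_mul]
  push_cast
  rw [mul_comm]

open Classical in
lemma swc1 (X : ℕ) (B : ℝ) (x : ℂ) (hx : ‖x‖ ≤ 1) :
    SWc (fun T => if bl B T then x * lam1 X T else 0) := by
  refine SieveUse50.swc_mk ?_ (fun T => if T = ∅ then x else 0) ?_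
    (fun T => {n : ℕ | (wX X ≤ n) ∧ B < (nm (prd T) : ℝ) * n ∧ (nm (prd T) : ℝ) * n ≤ 2 * B})
    ?_ ⌊2 * B⌋₊ ?_ ?_
  · intro T
    unfold lam1
    split_ifs <;> simp [hx]
  · intro T
    split_ifs <;> simp [hx]
  · intro T
    refine ordConnected_aux B _ (nm_prd_pos T) (fun n => wX X ≤ n) ?_
    intro m n hmn hm
    have : (m : ℝ) ≤ n := by exact_mod_cast hmn
    linarith
  · rintro T n ⟨-, -, h3⟩
    apply Nat.le_floor
    have h4 : (1 : ℝ) ≤ nm (prd T) := by exact_mod_cast nm_pos.mpr (prd_ne_zero T)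
    have h5 : (0 : ℝ) ≤ n := Nat.cast_nonneg n
    nlinarith
  · intro T p hp
    have hpT : p ∉ T := fun h => lt_irrefl _ (hp p h)
    constructor
    · rintro ⟨h1, h2⟩
      rw [if_pos ((bl_insert hp).mpr h2)]
      by_cases hT : T = ∅
      · subst hT
        rw [if_pos rfl]
        have : lam1 X (insert p ∅) = 1 := by
          unfold lam1
          rw [if_pos]
          refine ⟨by simp, ?_⟩
          intro q hq
          have : q = p := by simpa using hq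
          rw [this]; exact not_lt.mpr h1
        rw [this, mul_one]
      · rw [if_neg hT]
        have : lam1 X (insert p T) = 0 := by
          unfold lam1
          rw [if_neg]
          rintro ⟨h3, -⟩
          rw [Finset.card_insert_of_notMem hpT] at h3
          exact hT (Finset.card_eq_zero.mp (by omega))
        rw [this, mul_zero]
    · intro hn
      by_cases hb : bl B (insert p T)
      · rw [if_pos hb]
        have : lam1 X (insert p T) = 0 := by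
          unfold lam1
          rw [if_neg]
          rintro ⟨-, h3⟩
          apply hn
          exact ⟨not_lt.mp (h3 p (Finset.mem_insert_self p T)), (bl_insert hp).mp hb⟩
        rw [this, mul_zero]
      · rw [if_neg hb]

open Classical in
lemma swc2 (X : ℕ) (B : ℝ) (φ : ℕ → ℂ) (hφ : ∀ n, ‖φ n‖ ≤ 1) :
    SWc (fun T => if bl B T then φ (rkm X T) * lam2 X T else 0) := by
  refine SieveUse50.swc_mk ?_
    (fun T => if T.Nonempty ∧ ∀ p ∈ T, ¬ (nm p.1 : ℝ) < wX X then φ (rkm X T) else 0) ?_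
    (fun T => {n : ℕ | True ∧ B < (nm (prd T) : ℝ) * n ∧ (nm (prd T) : ℝ) * n ≤ 2 * B})
    ?_ ⌊2 * B⌋₊ ?_ ?_
  · intro T
    unfold lam2
    split_ifs <;> simp [hφ]
  · intro T
    split_ifs <;> simp [hφ]
  · intro T
    exact ordConnected_aux B _ (nm_prd_pos T) (fun _ => True) (fun _ _ _ _ => trivial)
  · rintro T n ⟨-, -, h3⟩
    apply Nat.le_floor
    have h4 : (1 : ℝ) ≤ nm (prd T) := by exact_mod_cast nm_pos.mpr (prd_ne_zero T)
    have h5 : (0 : ℝ) ≤ n := Nat.cast_nonneg n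
    nlinarith
  · intro T p hp
    have hpT : p ∉ T := fun h => lt_irrefl _ (hp p h)
    have key : lam2 X (insert p T) =
        if T.Nonempty ∧ ∀ q ∈ T, ¬ (nm q.1 : ℝ) < wX X then 1 else 0 := by
      unfold lam2
      have : (2 ≤ (insert p T).card ∧ ∀ q ∈ insert p T, ¬ (nm q.1 : ℝ) < wX X) ↔
          (T.Nonempty ∧ ∀ q ∈ T, ¬ (nm q.1 : ℝ) < wX X) := by
        rw [Finset.card_insert_of_notMem hpT]
        constructor
        · rintro ⟨h1, h2⟩
          exact ⟨Finset.card_pos.mp (by omega), fun q hq => h2 q (Finset.mem_insert_of_mem hq)⟩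
        · rintro ⟨h1, h2⟩
          refine ⟨by have := Finset.card_pos.mpr h1; omega, fun q hq => ?_⟩
          rcases Finset.mem_insert.mp hq with rfl | hq
          · obtain ⟨r, hr⟩ := h1
            have h3 := h2 r hr
            have h4 := PrP.nm_le_of_le (hp r hr).le
            have h5 : (nm r.1 : ℝ) ≤ nm q.1 := by exact_mod_cast h4
            push Not at h3 ⊢
            linarith
          · exact h2 q hq
      by_cases hc : T.Nonempty ∧ ∀ q ∈ T, ¬ (nm q.1 : ℝ) < wX X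
      · rw [if_pos hc, if_pos (this.mpr hc)]
      · rw [if_neg hc, if_neg (fun h => hc (this.mp h))]
    constructor
    · rintro ⟨-, h2⟩
      rw [if_pos ((bl_insert hp).mpr h2), key]
      by_cases hc : T.Nonempty ∧ ∀ q ∈ T, ¬ (nm q.1 : ℝ) < wX X
      · rw [if_pos hc, if_pos hc, rkm_insert hc.1 hp, mul_one]
      · rw [if_neg hc, if_neg hc, mul_zero]
    · intro hn
      rw [if_neg]
      intro hb
      exact hn ⟨trivial, (bl_insert hp).mp hb⟩

/-! ### Elementary facts -/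

lemma card_UX_le {X : ℕ} (hX : 1 ≤ X) : ((UX X).card : ℝ) ≤ 12 * X := by
  classical
  have h1 : ((UX X).image (fun p => p.1)).card = (UX X).card :=
    Finset.card_image_of_injective _ Subtype.val_injective
  rw [← h1]
  refine Dens420.card_nm_le (by exact_mod_cast hX) _ ?_
  intro z hz
  rw [Finset.mem_image] at hz
  obtain ⟨p, hp, rfl⟩ := hz
  exact_mod_cast mem_UX.mp hp

open Classical in
lemma cr_facts {X : ℕ} {G : Finset PrP}
    (hG : G ∈ ((Uw X).filter (fun p => (nm p.1 : ℝ) < zX X)).powerset.filter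
      (fun I => Cr PrP.N (D1 X) I)) :
    G ⊆ UX X ∧ G.Nonempty ∧ (∀ p ∈ G, (nm p.1 : ℝ) < zX X) ∧ D1 X ≤ nm (prd G) ∧
      (nm (prd G) : ℝ) < zX X * D1 X := by
  rw [Finset.mem_filter, Finset.mem_powerset] at hG
  obtain ⟨h1, hne, h2, h3⟩ := hG
  have hz : ∀ p ∈ G, (nm p.1 : ℝ) < zX X := fun p hp => (Finset.mem_filter.mp (h1 hp)).2
  refine ⟨?_, hne, hz, ?_, ?_⟩
  · intro p hp
    have := (Finset.mem_filter.mp (h1 hp)).1
    unfold Uw at this
    exact (Finset.mem_filter.mp this).1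
  · rw [← nu_eq]; exact h3
  · rw [← nu_eq]
    have hm := G.min'_mem hne
    have e : nu PrP.N G = PrP.N (G.min' hne) * nu PrP.N (G.erase (G.min' hne)) := by
      conv_lhs => rw [← Finset.insert_erase hm]
      rw [nu_insert _ (Finset.notMem_erase _ _)]
    rw [e]
    have h4 : PrP.N (G.min' hne) < zX X := hz _ hm
    have h5 : 0 < PrP.N (G.min' hne) := by
      have := PrP.one_le_N (G.min' hne); linarith
    have h6 : 0 < nu PrP.N (G.erase (G.min' hne)) := nu_pos PrP.one_le_N _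
    exact mul_lt_mul'' h4 h2 h5.le h6.le

open Classical in
/-- splitting of the inner sum into primes and composite numbers. -/
lemma split_T (l : ℤ) (X : ℕ) (α : Finset PrP → ℂ) (V₁ V₂ : ℝ) {G : Finset PrP}
    (hGX : G ⊆ UX X) (hne : G.Nonempty) (hz : ∀ p ∈ G, (nm p.1 : ℝ) < zX X)
    (hG2 : (nm (prd G) : ℝ) < zX X * D1 X) (hV1 : (nm (prd G) : ℝ) < V₁)
    (hV2 : zX X * D1 X * zX X ≤ V₁) :
    ∑ T ∈ ((Uw X \ G).filter (fun p => Ab G p)).powerset, Fa l X α V₁ V₂ (G ∪ T) =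
      ∑ T ∈ (UX X \ G).powerset,
        (if rkm X G < rkm X T then lam2 X T * Fa l X α V₁ V₂ (G ∪ T) else 0) +
      ∑ T ∈ (UX X \ G).powerset,
        (if (0 : ℕ) < 1 then lam1 X T * Fa l X α V₁ V₂ (G ∪ T) else 0) := by
  have hsub : ((Uw X \ G).filter (fun p => Ab G p)).powerset ⊆ (UX X \ G).powerset := by
    refine Finset.powerset_mono.mpr ?_
    intro p hp
    rw [Finset.mem_filter, Finset.mem_sdiff] at hp
    rw [Finset.mem_sdiff]
    refine ⟨?_, hp.1.2⟩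
    have := hp.1.1
    unfold Uw at this
    exact (Finset.mem_filter.mp this).1
  have h1 : ∑ T ∈ ((Uw X \ G).filter (fun p => Ab G p)).powerset, Fa l X α V₁ V₂ (G ∪ T) =
      ∑ T ∈ (UX X \ G).powerset, if T ∈ ((Uw X \ G).filter (fun p => Ab G p)).powerset then
        Fa l X α V₁ V₂ (G ∪ T) else 0 := by
    rw [← Finset.sum_filter]
    refine Finset.sum_congr ?_ fun _ _ => rfl
    ext T
    rw [Finset.mem_filter]
    exact ⟨fun h => ⟨hsub h, h⟩, fun h => h.2⟩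
  rw [h1, ← Finset.sum_add_distrib]
  refine Finset.sum_congr rfl fun T hT => ?_
  rw [Finset.mem_powerset] at hT
  have hmem : T ∈ ((Uw X \ G).filter (fun p => Ab G p)).powerset ↔
      (∀ p ∈ T, ¬ (nm p.1 : ℝ) < wX X) ∧ ∀ p ∈ T, Ab G p := by
    rw [Finset.mem_powerset]
    constructor
    · intro h
      refine ⟨fun p hp => ?_, fun p hp => (Finset.mem_filter.mp (h hp)).2⟩
      have h2 := (Finset.mem_sdiff.mp (Finset.mem_filter.mp (h hp)).1).1
      unfold Uw at h2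
      exact (Finset.mem_filter.mp h2).2
    · rintro ⟨h2, h3⟩ p hp
      have h4 := Finset.mem_sdiff.mp (hT hp)
      rw [Finset.mem_filter, Finset.mem_sdiff]
      refine ⟨⟨?_, h4.2⟩, h3 p hp⟩
      unfold Uw
      exact Finset.mem_filter.mpr ⟨h4.1, h2 p hp⟩
  rw [if_pos (by norm_num : (0 : ℕ) < 1)]
  have hdis : Disjoint G T := by
    rw [Finset.disjoint_left]
    intro p hp hp'
    exact (Finset.mem_sdiff.mp (hT hp')).2 hp
  rcases Nat.lt_trichotomy T.card 1 with hc | hc | hc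
  · -- empty
    have hT0 : T = ∅ := Finset.card_eq_zero.mp (by omega)
    subst hT0
    have hF : Fa l X α V₁ V₂ (G ∪ ∅) = 0 := by
      unfold Fa
      rw [if_neg]
      rintro ⟨h, -⟩
      rw [Finset.union_empty] at h
      exact absurd h (not_le.mpr hV1)
    rw [hF]; simp
  · -- one prime
    obtain ⟨p, rfl⟩ := Finset.card_eq_one.mp hc
    have hl2 : lam2 X {p} = 0 := by
      unfold lam2
      rw [if_neg]
      rintro ⟨h, -⟩
      simp at h
    rw [hl2, zero_mul, ite_self, zero_add]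
    by_cases hw : ¬ (nm p.1 : ℝ) < wX X
    · have hl1 : lam1 X {p} = 1 := by
        unfold lam1
        rw [if_pos]
        exact ⟨by simp, by simpa using hw⟩
      rw [hl1, one_mul]
      by_cases hF : Fa l X α V₁ V₂ (G ∪ {p}) = 0
      · rw [hF, ite_self]
      · rw [if_pos]
        rw [hmem]
        refine ⟨by simpa using hw, ?_⟩
        intro q hq
        have hqp : q = p := by simpa using hq
        subst hqp
        have hV : V₁ ≤ nm (prd (G ∪ {q})) := by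
          by_contra hcon
          apply hF
          unfold Fa
          rw [if_neg (fun h => hcon h.1)]
        rw [prd_union hdis, nm_mul, prd_singleton] at hV
        push_cast at hV
        refine ⟨G.min' hne, G.min'_mem hne, ?_⟩
        apply PrP.lt_of_nm_lt
        have h5 := hz _ (G.min'_mem hne)
        have h6 : zX X < nm q.1 := by
          by_contra hcon
          push Not at hcon
          have h7 : (nm (prd G) : ℝ) * nm q.1 < zX X * D1 X * zX X := by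
            have h8 : (0 : ℝ) < nm q.1 := by exact_mod_cast nm_pos.mpr q.ne_zero
            calc (nm (prd G) : ℝ) * nm q.1 < (zX X * D1 X) * nm q.1 :=
                  mul_lt_mul_of_pos_right hG2 h8
              _ ≤ (zX X * D1 X) * zX X :=
                  mul_le_mul_of_nonneg_left hcon (le_trans (nm_prd_pos G).le hG2.le)
          linarith
        have h9 : (nm (G.min' hne).1 : ℝ) < nm q.1 := by linarith
        exact_mod_cast h9
    · have hl1 : lam1 X {p} = 0 := by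
        unfold lam1
        rw [if_neg]
        rintro ⟨-, h⟩
        exact hw (h p (Finset.mem_singleton_self p))
      rw [hl1, zero_mul, if_neg]
      rw [hmem]
      rintro ⟨h, -⟩
      exact hw (h p (Finset.mem_singleton_self p))
  · -- at least two primes
    have hl1 : lam1 X T = 0 := by
      unfold lam1
      rw [if_neg]
      rintro ⟨h, -⟩
      omega
    have hTne : T.Nonempty := Finset.card_pos.mp (by omega)
    rw [hl1, zero_mul, add_zero]
    by_cases hw : ∀ p ∈ T, ¬ (nm p.1 : ℝ) < wX X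
    · have hl2 : lam2 X T = 1 := by
        unfold lam2
        rw [if_pos ⟨by omega, hw⟩]
      rw [hl2, one_mul]
      have : T ∈ ((Uw X \ G).filter (fun p => Ab G p)).powerset ↔ rkm X G < rkm X T := by
        rw [hmem, ← ab_iff hne hGX hTne]
        exact ⟨fun h => h.2, fun h => ⟨hw, h⟩⟩
      by_cases hr : rkm X G < rkm X T
      · rw [if_pos hr, if_pos (this.mpr hr)]
      · rw [if_neg hr, if_neg (fun h => hr (this.mp h))]
    · have hl2 : lam2 X T = 0 := by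
        unfold lam2
        rw [if_neg (fun h => hw h.2)]
      rw [hl2, zero_mul, ite_self, if_neg]
      rw [hmem]
      exact fun h => hw h.1

/-! ### Dyadic range -/

/-- number of dyadic blocks -/
def mX (X : ℕ) : ℕ := ⌊Real.logb 2 ((X : ℝ) ^ (0.075 : ℝ))⌋₊ + 1

lemma le_two_pow_mX {X : ℕ} (hX : 1 ≤ X) : (X : ℝ) ^ (0.075 : ℝ) ≤ 2 ^ mX X := by
  have hX0 : (0 : ℝ) < X := by exact_mod_cast hX
  have h0 : 0 < (X : ℝ) ^ (0.075 : ℝ) := Real.rpow_pos_of_pos hX0 _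
  have h1 : Real.logb 2 ((X : ℝ) ^ (0.075 : ℝ)) ≤ mX X := by
    unfold mX
    push_cast
    exact (Nat.lt_floor_add_one _).le
  calc (X : ℝ) ^ (0.075 : ℝ) = (2 : ℝ) ^ (Real.logb 2 ((X : ℝ) ^ (0.075 : ℝ))) :=
        (Real.rpow_logb (by norm_num) (by norm_num) h0).symm
    _ ≤ (2 : ℝ) ^ ((mX X : ℕ) : ℝ) := Real.rpow_le_rpow_of_exponent_le (by norm_num) h1
    _ = 2 ^ mX X := Real.rpow_natCast _ _

lemma two_pow_le {X : ℕ} (hX : 1 ≤ X) {k : ℕ} (hk : k < mX X) : (2 : ℝ) ^ k ≤ (X : ℝ) ^ (0.075 : ℝ) := by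
  have hX0 : (0 : ℝ) < X := by exact_mod_cast hX
  have hX1 : (1 : ℝ) ≤ X := by exact_mod_cast hX
  have h0 : 0 < (X : ℝ) ^ (0.075 : ℝ) := Real.rpow_pos_of_pos hX0 _
  have h00 : 1 ≤ (X : ℝ) ^ (0.075 : ℝ) := Real.one_le_rpow hX1 (by norm_num)
  have h1 : (k : ℝ) ≤ Real.logb 2 ((X : ℝ) ^ (0.075 : ℝ)) := by
    have h2 : k ≤ ⌊Real.logb 2 ((X : ℝ) ^ (0.075 : ℝ))⌋₊ := by
      unfold mX at hk; omega
    have h3 : 0 ≤ Real.logb 2 ((X : ℝ) ^ (0.075 : ℝ)) := Real.logb_nonneg (by norm_num) h00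
    exact le_trans (by exact_mod_cast h2) (Nat.floor_le h3)
  calc (2 : ℝ) ^ k = (2 : ℝ) ^ ((k : ℕ) : ℝ) := (Real.rpow_natCast _ _).symm
    _ ≤ (2 : ℝ) ^ (Real.logb 2 ((X : ℝ) ^ (0.075 : ℝ))) :=
        Real.rpow_le_rpow_of_exponent_le (by norm_num) h1
    _ = (X : ℝ) ^ (0.075 : ℝ) := Real.rpow_logb (by norm_num) (by norm_num) h0

lemma mX_le {X : ℕ} (hX : 1 ≤ X) (hL : 1 ≤ LX X) : (mX X : ℝ) ≤ 2 * LX X := by
  have hX0 : (0 : ℝ) < X := by exact_mod_cast hX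
  have hX1 : (1 : ℝ) ≤ X := by exact_mod_cast hX
  have h00 : 1 ≤ (X : ℝ) ^ (0.075 : ℝ) := Real.one_le_rpow hX1 (by norm_num)
  have h3 : 0 ≤ Real.logb 2 ((X : ℝ) ^ (0.075 : ℝ)) := Real.logb_nonneg (by norm_num) h00
  unfold mX
  push_cast
  have h4 := Nat.floor_le h3
  have h5 : Real.logb 2 ((X : ℝ) ^ (0.075 : ℝ)) ≤ LX X := by
    unfold LX at hL ⊢
    rw [Real.logb, Real.log_rpow hX0, div_le_iff₀ (Real.log_pos (by norm_num))]
    have h6 : (0.5 : ℝ) ≤ Real.log 2 := by have := Real.log_two_gt_d9; linarith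
    nlinarith
  linarith

lemma range_ok {X : ℕ} (hX : 3 ≤ X) {V₁ V₂ : ℝ} (hV1 : (X : ℝ) ^ (0.495 : ℝ) ≤ V₁)
    (hV2 : V₂ ≤ (X : ℝ) ^ (0.505 : ℝ)) {S G T : Finset PrP} (hG1 : D1 X ≤ nm (prd G))
    (hG2 : (nm (prd G) : ℝ) < zX X * D1 X) (h1 : loI X V₁ (S, G) < nm (prd T))
    (h2 : (nm (prd T) : ℝ) ≤ hiI X V₂ (S, G)) :
    (X : ℝ) ^ (0.38 : ℝ) < nm (prd T) ∧ (nm (prd T) : ℝ) ≤ (X : ℝ) ^ (0.38 : ℝ) * 2 ^ mX X := by
  have hX0 : (0 : ℝ) < X := by
    have : (3 : ℝ) ≤ X := by exact_mod_cast hX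
    linarith
  have hX1 : (1 : ℝ) < X := by
    have : (3 : ℝ) ≤ X := by exact_mod_cast hX
    linarith
  have hg := nm_prd_pos G
  have hT := nm_prd_pos T
  unfold loI at h1
  unfold hiI at h2
  simp only at h1 h2
  have h3 : ((⌈V₁ / nm (prd G)⌉₊ : ℝ) - 1) < nm (prd T) := lt_of_le_of_lt (le_max_left _ _) h1
  have h4 : ⌈V₁ / nm (prd G)⌉₊ ≤ nm (prd T) := by
    have : ((⌈V₁ / nm (prd G)⌉₊ : ℕ) : ℝ) < ((nm (prd T) + 1 : ℕ) : ℝ) := by push_cast; linarith
    have h5 : ⌈V₁ / nm (prd G)⌉₊ < nm (prd T) + 1 := by exact_mod_cast this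
    omega
  have h5 : V₁ / nm (prd G) ≤ nm (prd T) := Nat.ceil_le.mp h4
  rw [div_le_iff₀ hg] at h5
  have h6 : (nm (prd T) : ℝ) ≤ V₂ / nm (prd G) := h2.trans (min_le_left _ _)
  rw [le_div_iff₀ hg] at h6
  have e1 : zX X * D1 X = (X : ℝ) ^ (0.11 : ℝ) := by
    unfold zX D1; rw [← Real.rpow_add hX0]; norm_num
  have e2 : (X : ℝ) ^ (0.495 : ℝ) = (X : ℝ) ^ (0.11 : ℝ) * (X : ℝ) ^ (0.385 : ℝ) := by
    rw [← Real.rpow_add hX0]; norm_num
  have e3 : (X : ℝ) ^ (0.505 : ℝ) = (X : ℝ) ^ (0.05 : ℝ) * (X : ℝ) ^ (0.455 : ℝ) := by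
    rw [← Real.rpow_add hX0]; norm_num
  have e4 : (X : ℝ) ^ (0.455 : ℝ) = (X : ℝ) ^ (0.38 : ℝ) * (X : ℝ) ^ (0.075 : ℝ) := by
    rw [← Real.rpow_add hX0]; norm_num
  have p1 : 0 < (X : ℝ) ^ (0.11 : ℝ) := Real.rpow_pos_of_pos hX0 _
  have p2 : 0 < (X : ℝ) ^ (0.05 : ℝ) := Real.rpow_pos_of_pos hX0 _
  have p3 : 0 < (X : ℝ) ^ (0.38 : ℝ) := Real.rpow_pos_of_pos hX0 _
  rw [e1] at hG2
  unfold D1 at hG1
  constructor
  · have h7 : (X : ℝ) ^ (0.38 : ℝ) < (X : ℝ) ^ (0.385 : ℝ) :=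
      Real.rpow_lt_rpow_of_exponent_lt hX1 (by norm_num)
    refine lt_of_lt_of_le h7 ?_
    by_contra hc
    push Not at hc
    have h8 : (nm (prd T) : ℝ) * nm (prd G) < (X : ℝ) ^ (0.11 : ℝ) * (X : ℝ) ^ (0.385 : ℝ) := by
      rw [mul_comm]
      exact mul_lt_mul'' hG2 hc hg.le hT.le
    rw [← e2] at h8
    linarith
  · have h8 : (nm (prd T) : ℝ) ≤ (X : ℝ) ^ (0.455 : ℝ) := by
      by_contra hc
      push Not at hc
      have h9 : (X : ℝ) ^ (0.455 : ℝ) * (X : ℝ) ^ (0.05 : ℝ) < (nm (prd T) : ℝ) * nm (prd G) :=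
        mul_lt_mul hc hG1 p2 hT.le
      rw [mul_comm, ← e3] at h9
      linarith
    rw [e4] at h8
    exact h8.trans (mul_le_mul_of_nonneg_left (le_two_pow_mX (by omega)) p3.le)

/-- Everything needed about a (large) `X`. -/
structure Good (l : ℤ) (A' : ℕ) (C0 K : ℝ) (X : ℕ) : Prop where
  three : 3 ≤ X
  L3 : 3 ≤ LX X
  b0 : (X : ℝ) ^ ((1 : ℝ) / 3) * LX X ^ C0 ≤ (X : ℝ) ^ (0.38 : ℝ)
  tii : ∀ (B : ℝ) (β : Finset PrP → ℂ), (X : ℝ) ^ ((1 : ℝ) / 3) * LX X ^ C0 ≤ B →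
    B ≤ (X : ℝ) ^ (1 / 2 - (0.04 : ℝ)) → SWc β →
    (∀ T, β T ≠ 0 → (∀ p ∈ T, wX X ≤ nm p.1) ∧ B < nm (prd T) ∧ (nm (prd T) : ℝ) ≤ 2 * B) →
    ∀ (ι : Type) (I : Finset ι) (a : ι → Finset PrP) (g : ι → ℝ) (α : ι → ℂ),
      (∀ i ∈ I, (nm (prd (a i)) : ℝ) ≤ X / B) →
      ‖Ix l X I a g α β‖ ≤
        K * (X : ℝ) ^ ((1 : ℝ) / 3) * Real.sqrt B * Real.sqrt (Mu I a α) / LX X ^ A'

/-- the block bound -/
def Qb (A' : ℕ) (K : ℝ) (X : ℕ) : ℝ :=
  |K| * Real.exp 150 * (X : ℝ) ^ ((5 : ℝ) / 6) * LX X ^ 4 / LX X ^ A'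

lemma block_range {X : ℕ} (hX : 3 ≤ X) {k : ℕ} (hk : k < mX X) :
    1 ≤ (X : ℝ) ^ (0.38 : ℝ) * 2 ^ k ∧ (X : ℝ) ^ (0.38 : ℝ) ≤ (X : ℝ) ^ (0.38 : ℝ) * 2 ^ k ∧
      (X : ℝ) ^ (0.38 : ℝ) * 2 ^ k ≤ (X : ℝ) ^ (1 / 2 - (0.04 : ℝ)) := by
  have hX3 : (3 : ℝ) ≤ X := by exact_mod_cast hX
  have hX0 : (0 : ℝ) < X := by linarith
  have h1 : 1 ≤ (X : ℝ) ^ (0.38 : ℝ) := Real.one_le_rpow (by linarith) (by norm_num)
  have h2 : (1 : ℝ) ≤ 2 ^ k := one_le_pow₀ (by norm_num)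
  have h3 : (X : ℝ) ^ (0.38 : ℝ) ≤ (X : ℝ) ^ (0.38 : ℝ) * 2 ^ k := le_mul_of_one_le_right (by linarith) h2
  refine ⟨h1.trans h3, h3, ?_⟩
  have h4 := two_pow_le (by omega : 1 ≤ X) hk
  calc (X : ℝ) ^ (0.38 : ℝ) * 2 ^ k ≤ (X : ℝ) ^ (0.38 : ℝ) * (X : ℝ) ^ (0.075 : ℝ) :=
        mul_le_mul_of_nonneg_left h4 (by linarith)
    _ = (X : ℝ) ^ (0.455 : ℝ) := by rw [← Real.rpow_add hX0]; norm_num
    _ ≤ (X : ℝ) ^ (1 / 2 - (0.04 : ℝ)) :=
        Real.rpow_le_rpow_of_exponent_le (by linarith) (by norm_num)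

open Classical in
/-- the two index sums through the engine -/
lemma engine_use {l : ℤ} {A' : ℕ} {C0 K : ℝ} {X : ℕ} (hg : Good l A' C0 K X)
    {α c : Finset PrP → ℂ} (hα : ∀ S, ‖α S‖ ≤ 1) (hc : ∀ G, ‖c G‖ ≤ 1) {V₁ V₂ : ℝ}
    (hV1 : (X : ℝ) ^ (0.495 : ℝ) ≤ V₁) (hV2 : V₂ ≤ (X : ℝ) ^ (0.505 : ℝ))
    (GG : Finset (Finset PrP))
    (hGG : ∀ G ∈ GG, G ⊆ UX X ∧ D1 X ≤ nm (prd G) ∧ (nm (prd G) : ℝ) < zX X * D1 X)
    (lam : Finset PrP → ℂ) (u v : Finset PrP → ℕ) (M : ℕ) (hM : 1 ≤ M) (hu : ∀ G ∈ GG, u G < M)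
    (hv : ∀ T, v T ≤ M)
    (hlw : ∀ T, lam T ≠ 0 → ∀ p ∈ T, ¬ (nm p.1 : ℝ) < wX X)
    (hswc : ∀ (B : ℝ) (φ : ℕ → ℂ), (∀ n, ‖φ n‖ ≤ 1) →
      SWc (fun T => if bl B T then φ (v T) * lam T else 0)) :
    ‖∑ G ∈ GG, c G * ∑ T ∈ (UX X \ G).powerset,
      (if u G < v T then lam T * Fa l X α V₁ V₂ (G ∪ T) else 0)‖ ≤
      mX X * ((2 + Real.log M) * (2 * Qb A' K X)) := by
  have hX := hg.three
  rw [reindex l X α V₁ V₂ GG c lam u v]
  have hB0 : 1 ≤ (X : ℝ) ^ (0.38 : ℝ) := by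
    have hX3 : (3 : ℝ) ≤ X := by exact_mod_cast hX
    exact Real.one_le_rpow (by linarith) (by norm_num)
  have hmem : ∀ i ∈ IxS X GG, i.2 ∈ GG := by
    intro i hi
    rw [IxS, Finset.mem_filter, Finset.mem_product] at hi
    exact hi.1.2
  refine engine_ix l X (IxS X GG) (fun i => i.1 ∪ i.2) (fun i => α i.1 * c i.2)
    (loI X V₁) (hiI X V₂) (fun i _ => hiI_mul_le X V₂ i) lam hB0 (mX X) ?_ (fun i => u i.2) v M hM
    (fun i hi => hu _ (hmem i hi)) (fun T _ => hv T) (Qb A' K X) ?_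
  · rintro ⟨S, G⟩ hi T _ h1 h2 _
    obtain ⟨-, h3, h4⟩ := hGG G (hmem _ hi)
    exact range_ok hX hV1 hV2 h3 h4 h1 h2
  · intro k hk φ hφ α' hα' g
    obtain ⟨r1, r2, r3⟩ := block_range hX hk
    have hα1 : ∀ i, ‖α' i‖ ≤ 1 := by
      intro i
      refine (hα' i).trans ?_
      rw [norm_mul]
      calc ‖α i.1‖ * ‖c i.2‖ ≤ 1 * 1 := mul_le_mul (hα _) (hc _) (norm_nonneg _) (by norm_num)
        _ = 1 := one_mul 1
    unfold Qb
    refine tii_use hX r1 ?_ GG (fun G hG => (hGG G hG).1) α' hα1 g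
    refine hg.tii _ _ (hg.b0.trans r2) r3 (hswc _ φ hφ) ?_
    intro T hT
    have hb : bl ((X : ℝ) ^ (0.38 : ℝ) * 2 ^ k) T := by
      by_contra h
      exact hT (if_neg h)
    have hl : lam T ≠ 0 := by
      intro h
      apply hT
      simp only [h, mul_zero, ite_self]
    exact ⟨fun p hp => not_lt.mp (hlw T hl p hp), hb.1, hb.2⟩

lemma log_card_le {X : ℕ} (hX : 3 ≤ X) (hL : 3 ≤ LX X) :
    2 + Real.log (((UX X).card + 1 : ℕ) : ℝ) ≤ 3 * LX X := by
  have hX3 : (3 : ℝ) ≤ X := by exact_mod_cast hX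
  have hX0 : (0 : ℝ) < X := by linarith
  have h1 := card_UX_le (by omega : 1 ≤ X)
  have h2 : (((UX X).card + 1 : ℕ) : ℝ) ≤ 13 * X := by push_cast; linarith
  have h3 : Real.log (((UX X).card + 1 : ℕ) : ℝ) ≤ Real.log (13 * X) :=
    Real.log_le_log (by positivity) h2
  rw [Real.log_mul (by norm_num) hX0.ne'] at h3
  have h4 : Real.log 13 ≤ 3 := by
    rw [Real.log_le_iff_le_exp (by norm_num)]
    have := Real.exp_one_gt_d9
    have e : Real.exp 3 = Real.exp 1 ^ 3 := by rw [← Real.exp_nat_mul]; norm_num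
    rw [e]
    calc (13 : ℝ) ≤ (2.7182818283 : ℝ) ^ 3 := by norm_num
      _ ≤ Real.exp 1 ^ 3 := pow_le_pow_left₀ (by norm_num) this.le 3
  unfold LX at hL ⊢
  linarith

lemma cr_large (l : ℤ) (A : ℕ) {C0 K : ℝ} {X : ℕ} (hg : Good l (A + 6) C0 K X)
    {α : Finset PrP → ℂ} (hα : ∀ S, ‖α S‖ ≤ 1) {V₁ V₂ : ℝ}
    (hV1 : (X : ℝ) ^ (0.495 : ℝ) ≤ V₁) (hV2 : V₂ ≤ (X : ℝ) ^ (0.505 : ℝ))
    (GG : Finset (Finset PrP)) (hGG : ∀ G ∈ GG, G ⊆ UX X ∧ G.Nonempty ∧
      (∀ p ∈ G, (nm p.1 : ℝ) < zX X) ∧ D1 X ≤ nm (prd G) ∧ (nm (prd G) : ℝ) < zX X * D1 X) :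
    ‖∑ G ∈ GG, (-1 : ℂ) ^ G.card *
      ∑ T ∈ (open Classical in ((Uw X \ G).filter (fun p => Ab G p)).powerset),
        Fa l X α V₁ V₂ (G ∪ T)‖ ≤
      20 * (|K| * Real.exp 150) * (X : ℝ) ^ ((5 : ℝ) / 6) / LX X ^ A := by
  classical
  have hX := hg.three
  have hL := hg.L3
  have hX3 : (3 : ℝ) ≤ X := by exact_mod_cast hX
  have hX0 : (0 : ℝ) < X := by linarith
  have hX1 : (1 : ℝ) ≤ X := by linarith
  have hL0 : 0 < LX X := by linarith
  have hz0 : zX X * D1 X = (X : ℝ) ^ (0.11 : ℝ) := by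
    unfold zX D1; rw [← Real.rpow_add hX0]; norm_num
  have hz1 : zX X * D1 X ≤ V₁ := by
    rw [hz0]
    exact (Real.rpow_le_rpow_of_exponent_le hX1 (by norm_num)).trans hV1
  have hz2 : zX X * D1 X * zX X ≤ V₁ := by
    rw [hz0]
    unfold zX
    rw [← Real.rpow_add hX0]
    exact (Real.rpow_le_rpow_of_exponent_le hX1 (by norm_num)).trans hV1
  have hc : ∀ G : Finset PrP, ‖(-1 : ℂ) ^ G.card‖ ≤ 1 := by intro G; simp
  have hsplit : ∑ G ∈ GG, (-1 : ℂ) ^ G.card *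
      ∑ T ∈ ((Uw X \ G).filter (fun p => Ab G p)).powerset, Fa l X α V₁ V₂ (G ∪ T) =
      ∑ G ∈ GG, (-1 : ℂ) ^ G.card * ∑ T ∈ (UX X \ G).powerset,
        (if rkm X G < rkm X T then lam2 X T * Fa l X α V₁ V₂ (G ∪ T) else 0) +
      ∑ G ∈ GG, (-1 : ℂ) ^ G.card * ∑ T ∈ (UX X \ G).powerset,
        (if (0 : ℕ) < 1 then lam1 X T * Fa l X α V₁ V₂ (G ∪ T) else 0) := by
    rw [← Finset.sum_add_distrib]
    refine Finset.sum_congr rfl fun G hG => ?_
    obtain ⟨h1, h2, h3, h4, h5⟩ := hGG G hG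
    rw [split_T l X α V₁ V₂ h1 h2 h3 h5 (lt_of_lt_of_le h5 hz1) hz2, mul_add]
  rw [hsplit]
  have hGG' : ∀ G ∈ GG, G ⊆ UX X ∧ D1 X ≤ nm (prd G) ∧ (nm (prd G) : ℝ) < zX X * D1 X := by
    intro G hG
    obtain ⟨h1, h2, h3, h4, h5⟩ := hGG G hG
    exact ⟨h1, h4, h5⟩
  have b2 := engine_use hg hα hc hV1 hV2 GG hGG' (lam2 X) (rkm X) (rkm X) ((UX X).card + 1)
    (by omega) (fun G _ => rkm_lt X G) (fun T => (rkm_lt X T).le)
    (by
      intro T hT
      unfold lam2 at hT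
      by_contra h
      exact hT (if_neg (fun h' => h h'.2)))
    (fun B φ hφ => swc2 X B φ hφ)
  have b1 := engine_use hg hα hc hV1 hV2 GG hGG' (lam1 X) (fun _ => 0) (fun _ => 1) 1
    le_rfl (fun G _ => by norm_num) (fun T => le_rfl)
    (by
      intro T hT
      unfold lam1 at hT
      by_contra h
      exact hT (if_neg (fun h' => h h'.2)))
    (fun B φ hφ => swc1 X B (φ 1) (hφ 1))
  refine (norm_add_le _ _).trans ((add_le_add b2 b1).trans ?_)
  have hm := mX_le (by omega : 1 ≤ X) (by linarith)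
  have hlc := log_card_le hX hL
  have hQ0 : 0 ≤ Qb (A + 6) K X := by unfold Qb; positivity
  have hm0 : (0 : ℝ) ≤ mX X := Nat.cast_nonneg _
  have e1 : (mX X : ℝ) * ((2 + Real.log (((UX X).card + 1 : ℕ) : ℝ)) * (2 * Qb (A + 6) K X)) ≤
      (2 * LX X) * ((3 * LX X) * (2 * Qb (A + 6) K X)) := by
    apply mul_le_mul hm _ _ (by positivity)
    · exact mul_le_mul_of_nonneg_right hlc (by positivity)
    · have : 0 ≤ Real.log (((UX X).card + 1 : ℕ) : ℝ) := Real.log_natCast_nonneg _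
      positivity
  have e2 : (mX X : ℝ) * ((2 + Real.log ((1 : ℕ) : ℝ)) * (2 * Qb (A + 6) K X)) ≤
      (2 * LX X) * (2 * (2 * Qb (A + 6) K X)) := by
    rw [Nat.cast_one, Real.log_one, add_zero]
    exact mul_le_mul_of_nonneg_right hm (by positivity)
  have e3 : (2 * LX X) * ((3 * LX X) * (2 * Qb (A + 6) K X)) +
      (2 * LX X) * (2 * (2 * Qb (A + 6) K X)) ≤ 20 * (LX X ^ 2 * Qb (A + 6) K X) := by
    nlinarith [mul_nonneg hL0.le hQ0]
  refine (add_le_add e1 e2).trans (e3.trans (le_of_eq ?_))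
  unfold Qb
  have hLp : LX X ^ (A + 6) = LX X ^ A * LX X ^ 6 := pow_add _ _ _
  rw [hLp]
  field_simp

theorem crPart_of' : CrPart_of := by
  intro hII l A
  obtain ⟨C0, K, X1, hT⟩ := hII l (A + 6) 0.04 (by norm_num)
  have ev : ∀ᶠ X : ℕ in atTop, Good l (A + 6) C0 K X := by
    filter_upwards [SieveUse50.ev_pow (a := 1 / 3) (b := 0.38) (by norm_num) C0,
      SieveUse50.ev_LX 3, eventually_ge_atTop 3, eventually_ge_atTop X1] with X h1 h2 h3 h4
    exact ⟨h3, h2, h1, hT X h4⟩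
  obtain ⟨X0, hX0⟩ := eventually_atTop.mp ev
  refine ⟨20 * (|K| * Real.exp 150), X0, fun X hX α V₁ V₂ hα hV1 hV2 => ?_⟩
  exact cr_large l A (hX0 X hX) hα hV1 hV2 _ (fun G hG => cr_facts hG)

end Cr828

/-- **`TIIx_Prop → CrPart`** -/
theorem crPart_of : CrPart_of := Cr828.crPart_of'

end Crest.Agent.R012.NearHalf828
end
end

-- ▼ part R012/SNH_828

/-!
# Row 12, item SNH (helper828): `SNH_assembly : TIPart → LPart → CrPart → CompPart → SNH_Prop`
-/

set_option autoImplicit false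

noncomputable section

open Complex Filter Topology

namespace Crest.Agent.R012.NearHalf828

open Crest.Agent.R012 Eis Buch420 Main48

namespace Asm828

lemma sum_powerset_split' (A : Finset PrP) (F : Finset PrP → ℂ) (h0 : F ∅ = 0) :
    ∑ T ∈ A.powerset, F T = ∑ p ∈ A, F {p} + ∑ T ∈ A.powerset.filter (fun T => 2 ≤ T.card), F T := by
  classical
  have hinj : Set.InjOn (fun p : PrP => ({p} : Finset PrP)) A := fun a _ b _ hab =>
    Finset.singleton_injective hab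
  rw [← Finset.sum_image (f := F) hinj, ← Finset.sum_union]
  · symm
    refine Finset.sum_subset ?_ ?_
    · intro T hT
      rcases Finset.mem_union.mp hT with hT | hT
      · rw [Finset.mem_image] at hT
        obtain ⟨p, hp, rfl⟩ := hT
        rw [Finset.mem_powerset]
        exact Finset.singleton_subset_iff.mpr hp
      · exact (Finset.mem_filter.mp hT).1
    · intro T hT hT'
      rw [Finset.mem_union, not_or] at hT'
      have h2 : ¬ 2 ≤ T.card := fun h => hT'.2 (Finset.mem_filter.mpr ⟨hT, h⟩)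
      have h1 : T.card ≠ 1 := by
        intro h1
        obtain ⟨p, rfl⟩ := Finset.card_eq_one.mp h1
        exact hT'.1 (Finset.mem_image.mpr
          ⟨p, Finset.mem_powerset.mp hT (Finset.mem_singleton_self p), rfl⟩)
      have h3 : T = ∅ := Finset.card_eq_zero.mp (by omega)
      rw [h3]; exact h0
  · rw [Finset.disjoint_left]
    intro T hT hT'
    rw [Finset.mem_image] at hT
    obtain ⟨p, hp, rfl⟩ := hT
    have := (Finset.mem_filter.mp hT').2
    simp at this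

open Classical in
/-- step 1: primes in `[w, z)`, level `X^0.05`. -/
lemma step1 {X : ℕ} (hX : 3 ≤ X) (hwz : wX X ≤ zX X) (F : Finset PrP → ℂ) :
    ∑ T ∈ ((UX X).filter (fun p => ¬ (nm p.1 : ℝ) < zX X)).powerset, F T =
      ∑ I ∈ ((Uw X).filter (fun p => (nm p.1 : ℝ) < zX X)).powerset.filter
        (fun I => nu PrP.N I < D1 X), (-1 : ℂ) ^ I.card * ∑ J ∈ (Uw X \ I).powerset, F (I ∪ J) +
      ∑ I ∈ ((Uw X).filter (fun p => (nm p.1 : ℝ) < zX X)).powerset.filter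
        (fun I => Cr PrP.N (D1 X) I), (-1 : ℂ) ^ I.card *
      ∑ J ∈ ((Uw X \ I).filter (fun p => Ab I p)).powerset, F (I ∪ J) := by
  have hX1 : (1 : ℝ) < X := by
    have : (3 : ℝ) ≤ X := by exact_mod_cast hX
    linarith
  have hD : 1 < D1 X := Real.one_lt_rpow hX1 (by norm_num)
  have h := buchstab PrP.one_le_N hD (Uw X) (fun p => (nm p.1 : ℝ) < zX X) (by
    intro p q hpq hq
    have h1 := PrP.nm_le_of_le hpq
    have h2 : (nm p.1 : ℝ) ≤ nm q.1 := by exact_mod_cast h1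
    linarith) F
  have e : (Uw X).filter (fun p => ¬ (nm p.1 : ℝ) < zX X) =
      (UX X).filter (fun p => ¬ (nm p.1 : ℝ) < zX X) := by
    unfold Uw
    ext p
    simp only [Finset.mem_filter]
    constructor
    · rintro ⟨⟨h1, -⟩, h2⟩; exact ⟨h1, h2⟩
    · rintro ⟨h1, h2⟩
      exact ⟨⟨h1, by push Not at h2 ⊢; linarith⟩, h2⟩
  rw [← e]
  convert h

open Classical in
/-- step 2: primes `< w`, level `X^0.1`. -/
lemma step2 {X : ℕ} (hX : 3 ≤ X) (I : Finset PrP) (F : Finset PrP → ℂ) :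
    ∑ J ∈ (Uw X \ I).powerset, F (I ∪ J) =
      ∑ E ∈ ((UX X \ I).filter (fun p => (nm p.1 : ℝ) < wX X)).powerset.filter
        (fun E => nu PrP.N E < D2 X), (-1 : ℂ) ^ E.card *
        ∑ J ∈ ((UX X \ I) \ E).powerset, F (I ∪ (E ∪ J)) +
      ∑ E ∈ ((UX X \ I).filter (fun p => (nm p.1 : ℝ) < wX X)).powerset.filter
        (fun E => Cr PrP.N (D2 X) E), (-1 : ℂ) ^ E.card *
        ∑ J ∈ (((UX X \ I) \ E).filter (fun p => Ab E p)).powerset, F (I ∪ (E ∪ J)) := by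
  have hX1 : (1 : ℝ) < X := by
    have : (3 : ℝ) ≤ X := by exact_mod_cast hX
    linarith
  have hD : 1 < D2 X := Real.one_lt_rpow hX1 (by norm_num)
  have h := buchstab PrP.one_le_N hD (UX X \ I) (fun p => (nm p.1 : ℝ) < wX X) (by
    intro p q hpq hq
    have h1 := PrP.nm_le_of_le hpq
    have h2 : (nm p.1 : ℝ) ≤ nm q.1 := by exact_mod_cast h1
    linarith) (fun J => F (I ∪ J))
  have e : (UX X \ I).filter (fun p => ¬ (nm p.1 : ℝ) < wX X) = Uw X \ I := by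
    unfold Uw
    ext p
    simp only [Finset.mem_filter, Finset.mem_sdiff]
    tauto
  rw [← e]
  convert h

open Classical in
/-- the complete identity -/
lemma identity {X : ℕ} (hX : 3 ≤ X) (hwz : wX X ≤ zX X) (F : Finset PrP → ℂ) (h0 : F ∅ = 0) :
    ∑ p ∈ (UX X).filter (fun p => ¬ (nm p.1 : ℝ) < zX X), F {p} =
      ∑ I ∈ ((Uw X).filter (fun p => (nm p.1 : ℝ) < zX X)).powerset.filter
        (fun I => nu PrP.N I < D1 X), (-1 : ℂ) ^ I.card *
        ∑ E ∈ ((UX X \ I).filter (fun p => (nm p.1 : ℝ) < wX X)).powerset.filter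
          (fun E => nu PrP.N E < D2 X), (-1 : ℂ) ^ E.card *
          ∑ J ∈ ((UX X \ I) \ E).powerset, F (I ∪ (E ∪ J)) +
      ∑ I ∈ ((Uw X).filter (fun p => (nm p.1 : ℝ) < zX X)).powerset.filter
        (fun I => nu PrP.N I < D1 X), (-1 : ℂ) ^ I.card *
        ∑ E ∈ ((UX X \ I).filter (fun p => (nm p.1 : ℝ) < wX X)).powerset.filter
          (fun E => Cr PrP.N (D2 X) E), (-1 : ℂ) ^ E.card *
          ∑ J ∈ (((UX X \ I) \ E).filter (fun p => Ab E p)).powerset, F (I ∪ (E ∪ J)) +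
      ∑ I ∈ ((Uw X).filter (fun p => (nm p.1 : ℝ) < zX X)).powerset.filter
        (fun I => Cr PrP.N (D1 X) I), (-1 : ℂ) ^ I.card *
      ∑ J ∈ ((Uw X \ I).filter (fun p => Ab I p)).powerset, F (I ∪ J) -
      ∑ T ∈ ((UX X).filter (fun p => ¬ (nm p.1 : ℝ) < zX X)).powerset.filter (fun T => 2 ≤ T.card),
        F T := by
  have h1 := sum_powerset_split' ((UX X).filter (fun p => ¬ (nm p.1 : ℝ) < zX X)) F h0
  have h2 := step1 hX hwz F
  have h3 : ∑ I ∈ ((Uw X).filter (fun p => (nm p.1 : ℝ) < zX X)).powerset.filter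
        (fun I => nu PrP.N I < D1 X), (-1 : ℂ) ^ I.card * ∑ J ∈ (Uw X \ I).powerset, F (I ∪ J) =
      ∑ I ∈ ((Uw X).filter (fun p => (nm p.1 : ℝ) < zX X)).powerset.filter
        (fun I => nu PrP.N I < D1 X), (-1 : ℂ) ^ I.card *
        ∑ E ∈ ((UX X \ I).filter (fun p => (nm p.1 : ℝ) < wX X)).powerset.filter
          (fun E => nu PrP.N E < D2 X), (-1 : ℂ) ^ E.card *
          ∑ J ∈ ((UX X \ I) \ E).powerset, F (I ∪ (E ∪ J)) +
      ∑ I ∈ ((Uw X).filter (fun p => (nm p.1 : ℝ) < zX X)).powerset.filter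
        (fun I => nu PrP.N I < D1 X), (-1 : ℂ) ^ I.card *
        ∑ E ∈ ((UX X \ I).filter (fun p => (nm p.1 : ℝ) < wX X)).powerset.filter
          (fun E => Cr PrP.N (D2 X) E), (-1 : ℂ) ^ E.card *
          ∑ J ∈ (((UX X \ I) \ E).filter (fun p => Ab E p)).powerset, F (I ∪ (E ∪ J)) := by
    rw [← Finset.sum_add_distrib]
    refine Finset.sum_congr rfl fun I _ => ?_
    rw [step2 hX I F, mul_add]
  rw [h3] at h2
  rw [← h2, h1]
  ring

open Classical in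
lemma lhs_eq (l : ℤ) {X : ℕ} (hX : 3 ≤ X) (α : Finset PrP → ℂ) {V₁ V₂ : ℝ}
    (hV1 : (X : ℝ) ^ (0.495 : ℝ) ≤ V₁) :
    ∑ S ∈ (UX X).powerset, ∑ p ∈ (UX X).filter (fun p => V₁ ≤ nm p.1 ∧ (nm p.1 : ℝ) ≤ V₂),
        α S * FX l X (prd S * p.1) =
      ∑ p ∈ (UX X).filter (fun p => ¬ (nm p.1 : ℝ) < zX X), Fa l X α V₁ V₂ {p} := by
  have hX1 : (1 : ℝ) ≤ X := by
    have : (3 : ℝ) ≤ X := by exact_mod_cast hX
    linarith
  have hz : zX X ≤ V₁ :=
    (Real.rpow_le_rpow_of_exponent_le hX1 (by norm_num : (0.06 : ℝ) ≤ 0.495)).trans hV1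
  rw [Finset.sum_comm]
  unfold Fa
  simp only [prd_singleton]
  rw [← Finset.sum_filter, Finset.filter_filter]
  refine Finset.sum_congr ?_ fun _ _ => rfl
  ext p
  simp only [Finset.mem_filter]
  constructor
  · rintro ⟨h1, h2, h3⟩
    exact ⟨h1, not_lt.mpr (hz.trans h2), h2, h3⟩
  · rintro ⟨h1, -, h2, h3⟩
    exact ⟨h1, h2, h3⟩

end Asm828

open Asm828 in
/-- **The four parts give `SNH_Prop`.** -/
theorem snh_assembly : SNH_assembly := by
  classical
  intro hTI hL hCr hComp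
  obtain ⟨η0, hη0, hComp⟩ := hComp
  refine ⟨min η0 0.005, lt_min hη0 (by norm_num), fun l A => ?_⟩
  obtain ⟨δ, K1, X1, hδ, h1⟩ := hTI l
  obtain ⟨K2, X2, h2⟩ := hL l A
  obtain ⟨K3, X3, h3⟩ := hCr l A
  obtain ⟨K4, X4, h4⟩ := hComp l A
  have ev : ∀ᶠ X : ℕ in atTop, (3 ≤ X ∧ X1 ≤ X ∧ X2 ≤ X ∧ X3 ≤ X ∧ X4 ≤ X) ∧ 1 ≤ LX X ∧
      wX X ≤ (X : ℝ) ^ (0.06 : ℝ) ∧
      (X : ℝ) ^ (5 / 6 - δ) * LX X ^ (A : ℝ) ≤ (X : ℝ) ^ ((5 : ℝ) / 6) := by
    filter_upwards [SieveUse50.ev_pow (a := 5 / 6 - δ) (b := 5 / 6) (by linarith) (A : ℝ),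
      SieveUse50.ev_LX 1, SieveUse50.ev_wX (e := 0.06) (by norm_num), eventually_ge_atTop 3,
      eventually_ge_atTop X1, eventually_ge_atTop X2, eventually_ge_atTop X3,
      eventually_ge_atTop X4] with X a1 a2 a3 a4 a5 a6 a7 a8
    exact ⟨⟨a4, a5, a6, a7, a8⟩, a2, a3, a1⟩
  obtain ⟨X0, hX0⟩ := eventually_atTop.mp ev
  refine ⟨|K1| + K2 + K3 + K4, X0, fun X hX α V₁ V₂ hα hV1 hV2 => ?_⟩
  obtain ⟨⟨g3, g1, g2, g33, g4⟩, gL, gw, gp⟩ := hX0 X hX
  have hX3 : (3 : ℝ) ≤ X := by exact_mod_cast g3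
  have hX1 : (1 : ℝ) ≤ X := by linarith
  have hXpos : (0 : ℝ) < X := by linarith
  have hV1' : (X : ℝ) ^ (0.495 : ℝ) ≤ V₁ := by
    refine le_trans (Real.rpow_le_rpow_of_exponent_le hX1 ?_) hV1
    have := min_le_right η0 (0.005 : ℝ)
    linarith
  have hV2' : V₂ ≤ (X : ℝ) ^ (0.505 : ℝ) := by
    refine le_trans hV2 (Real.rpow_le_rpow_of_exponent_le hX1 ?_)
    have := min_le_right η0 (0.005 : ℝ)
    linarith
  have hV1'' : (X : ℝ) ^ (1 / 2 - η0) ≤ V₁ := by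
    refine le_trans (Real.rpow_le_rpow_of_exponent_le hX1 ?_) hV1
    have := min_le_left η0 (0.005 : ℝ)
    linarith
  have hV2'' : V₂ ≤ (X : ℝ) ^ (1 / 2 + η0) := by
    refine le_trans hV2 (Real.rpow_le_rpow_of_exponent_le hX1 ?_)
    have := min_le_left η0 (0.005 : ℝ)
    linarith
  have hF0 : Fa l X α V₁ V₂ ∅ = 0 := by
    unfold Fa
    rw [if_neg]
    rintro ⟨h, -⟩
    have hn1 : nm (prd ∅) = 1 := by rw [prd_empty]; simp
    rw [hn1] at h
    have h5 : (1 : ℝ) < (X : ℝ) ^ (0.495 : ℝ) := Real.one_lt_rpow (by linarith) (by norm_num)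
    push_cast at h
    linarith
  rw [lhs_eq l g3 α hV1', identity g3 gw _ hF0]
  have b1 := h1 X g1 α V₁ V₂ hα hV1' hV2'
    (((Uw X).filter (fun p => (nm p.1 : ℝ) < zX X)).powerset.filter (fun I => nu PrP.N I < D1 X))
    (fun I => ((UX X \ I).filter (fun p => (nm p.1 : ℝ) < wX X)).powerset.filter
          (fun E => nu PrP.N E < D2 X))
    (by
      intro I hI
      rw [Finset.mem_filter, Finset.mem_powerset] at hI
      refine ⟨fun p hp => ?_, hI.2⟩
      have := (Finset.mem_filter.mp (hI.1 hp)).1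
      unfold Uw at this
      exact (Finset.mem_filter.mp this).1)
    (by
      intro I _ E hE
      rw [Finset.mem_filter, Finset.mem_powerset] at hE
      exact ⟨fun p hp => (Finset.mem_filter.mp (hE.1 hp)).1, hE.2⟩)
  have b2 := h2 X g2 α V₁ V₂ hα hV1' hV2'
  have b3 := h3 X g33 α V₁ V₂ hα hV1' hV2'
  have b4 := h4 X g4 α V₁ V₂ hα hV1'' hV2''
  have hLA : 0 < LX X ^ A := by positivity
  have b1' : K1 * (X : ℝ) ^ (5 / 6 - δ) ≤ |K1| * (X : ℝ) ^ ((5 : ℝ) / 6) / LX X ^ A := by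
    rw [le_div_iff₀ hLA]
    rw [Real.rpow_natCast] at gp
    calc K1 * (X : ℝ) ^ (5 / 6 - δ) * LX X ^ A ≤ |K1| * (X : ℝ) ^ (5 / 6 - δ) * LX X ^ A := by
          gcongr
          exact le_abs_self K1
      _ = |K1| * ((X : ℝ) ^ (5 / 6 - δ) * LX X ^ A) := by ring
      _ ≤ |K1| * (X : ℝ) ^ ((5 : ℝ) / 6) := by gcongr
  refine (norm_sub_le _ _).trans ?_
  refine (add_le_add ((norm_add_le _ _).trans (add_le_add ((norm_add_le _ _).trans
    (add_le_add (b1.trans b1') b2)) b3)) b4).trans (le_of_eq ?_)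
  ring

end Crest.Agent.R012.NearHalf828
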