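import Crest.Agent.R012.Zeta2_85
import Crest.Agent.R012.GaussInst_880
import Crest.Agent.R012.Spec_T_411
import Crest.Agent.R012.SpecM_49

-- ▼ part R012/T3Sum_85
section

/-!
# Row 12, item T3 (part b): `∑_{N(a) ≤ y, (a,b) = 1} |τ(a)|²` with sharp cut-off.
-/

set_option autoImplicit false
set_option linter.unusedSimpArgs false
set_option linter.unusedVariables false

noncomputable section

open Finset MeasureTheory

namespace Crest.Agent.R012.T3_85

open Eis Crest.Agent.R012 Crest.Agent.R012.Mob705 Crest.Agent.R012.Div277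
open Crest.Agent.R012.Tau85

/-! ### Abel summation over families of primary elements -/

open Classical in
lemma sum_fam_eq (P : Eis → Prop) (F : ℕ → ℝ) (Y : ℝ) :
    ∑ k ∈ Icc 0 ⌊Y⌋₊, F k * (((pb Y).filter (fun x => P x ∧ nm x = k)).card : ℝ) =
      ∑ a ∈ (pb Y).filter P, F (nm a) := by
  have h1 : ∀ a ∈ (pb Y).filter P, nm a ∈ Icc 0 ⌊Y⌋₊ := by
    intro a ha
    rw [mem_filter, mem_pb] at ha
    rw [mem_Icc]
    exact ⟨Nat.zero_le _, Nat.le_floor ha.1.1⟩
  rw [← Finset.sum_fiberwise_of_maps_to h1]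
  refine Finset.sum_congr rfl fun k _ => ?_
  rw [Finset.filter_filter]
  have h2 : ∀ a ∈ (pb Y).filter (fun x => P x ∧ nm x = k), F (nm a) = F k := by
    intro a ha
    rw [mem_filter] at ha
    rw [ha.2.2]
  rw [Finset.sum_congr rfl h2, Finset.sum_const, nsmul_eq_mul, mul_comm]

open Classical in
/-- coefficient sequence counting the elements of norm `k` with property `P`. -/
def cnt (P : Eis → Prop) (k : ℕ) : ℝ := (((primBall k).filter (fun x => P x ∧ nm x = k)).card : ℝ)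

open Classical in
lemma cnt_eq (P : Eis → Prop) {Y : ℝ} {k : ℕ} (hk : k ≤ ⌊Y⌋₊) :
    (((pb Y).filter (fun x => P x ∧ nm x = k)).card : ℝ) = cnt P k := by
  unfold cnt
  congr 2
  ext x
  simp only [mem_filter, mem_pb, mem_primBall]
  constructor
  · rintro ⟨⟨h1, h2⟩, h3, h4⟩
    exact ⟨⟨h4.le, h2⟩, h3, h4⟩
  · rintro ⟨⟨h1, h2⟩, h3, h4⟩
    refine ⟨⟨?_, h2⟩, h3, h4⟩
    have h5 : nm x ≠ 0 := fun h => h2.ne_zero (nm_eq_zero.mp h)
    exact (Nat.le_floor_iff' h5).mp (h4 ▸ hk)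

open Classical in
lemma sum_cnt (P : Eis → Prop) (F : ℕ → ℝ) (Y : ℝ) :
    ∑ k ∈ Icc 0 ⌊Y⌋₊, F k * cnt P k = ∑ a ∈ (pb Y).filter P, F (nm a) := by
  rw [← sum_fam_eq]
  refine Finset.sum_congr rfl fun k hk => ?_
  rw [cnt_eq P (mem_Icc.mp hk).2]

open Classical in
lemma sum_cnt_one (P : Eis → Prop) (Y : ℝ) :
    ∑ k ∈ Icc 0 ⌊Y⌋₊, cnt P k = ((pb Y).filter P).card := by
  have := sum_cnt P (fun _ => 1) Y
  simpa using this

lemma cnt_zero (P : Eis → Prop) : cnt P 0 = 0 := by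
  classical
  unfold cnt
  have : (primBall 0).filter (fun x => P x ∧ nm x = 0) = ∅ := by
    ext x
    simp only [mem_filter, mem_primBall, notMem_empty, iff_false, not_and]
    rintro ⟨_, h2⟩ _ h3
    exact h2.ne_zero (nm_eq_zero.mp h3)
  rw [this]; simp

open Classical in
/-- Abel summation. -/
lemma abel_fam (P : Eis → Prop) (f : ℝ → ℝ) (Y : ℝ)
    (hf : ∀ t ∈ Set.Icc 1 Y, DifferentiableAt ℝ f t)
    (hint : IntegrableOn (deriv f) (Set.Icc 1 Y)) :
    ∑ a ∈ (pb Y).filter P, f (nm a) = f Y * ((pb Y).filter P).card -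
      ∫ t in Set.Ioc 1 Y, deriv f t * ((pb t).filter P).card := by
  have h := sum_mul_eq_sub_integral_mul₀ (cnt P) (cnt_zero P) Y hf hint
  rw [sum_cnt P (fun k => f k) Y] at h
  rw [h, sum_cnt_one]
  congr 1
  refine setIntegral_congr_fun measurableSet_Ioc fun t _ => ?_
  simp only [sum_cnt_one]

lemma deriv_rpow' (s : ℝ) {t : ℝ} (ht : 0 < t) : deriv (fun x : ℝ => x ^ s) t = s * t ^ (s - 1) :=
  (Real.hasDerivAt_rpow_const (Or.inl ht.ne')).deriv

lemma diff_rpow (s : ℝ) {t : ℝ} (ht : 0 < t) : DifferentiableAt ℝ (fun x : ℝ => x ^ s) t :=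
  (Real.hasDerivAt_rpow_const (Or.inl ht.ne')).differentiableAt

lemma intOn_rpow (s : ℝ) {Y : ℝ} (hY : 1 ≤ Y) : IntegrableOn (fun x : ℝ => x ^ s) (Set.Icc 1 Y) := by
  have : ContinuousOn (fun x : ℝ => x ^ s) (Set.Icc 1 Y) := by
    intro x hx
    exact (Real.continuousAt_rpow_const _ _ (Or.inl (by linarith [hx.1]))).continuousWithinAt
  exact this.integrableOn_Icc

lemma intOn_deriv_rpow (s : ℝ) {Y : ℝ} (hY : 1 ≤ Y) :
    IntegrableOn (deriv (fun x : ℝ => x ^ s)) (Set.Icc 1 Y) := by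
  have h : IntegrableOn (fun x : ℝ => s * x ^ (s - 1)) (Set.Icc 1 Y) :=
    (intOn_rpow (s - 1) hY).const_mul s
  refine IntegrableOn.congr_fun h (fun x hx => ?_) measurableSet_Icc
  exact (deriv_rpow' s (by linarith [hx.1])).symm

lemma integral_rpow_Ioc (s : ℝ) (hs : s ≠ -1) {Y : ℝ} (hY : 1 ≤ Y) :
    ∫ t in Set.Ioc 1 Y, t ^ s = (Y ^ (s + 1) - 1) / (s + 1) := by
  rw [← intervalIntegral.integral_of_le hY, integral_rpow]
  · rw [Real.one_rpow]
  · right
    refine ⟨hs, ?_⟩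
    rw [Set.uIcc_of_le hY]
    intro h
    linarith [h.1]

open Classical in
/-- Abel summation for powers. -/
lemma abel_pow (P : Eis → Prop) (s : ℝ) {Y : ℝ} (hY : 1 ≤ Y) :
    ∑ a ∈ (pb Y).filter P, (nm a : ℝ) ^ s = Y ^ s * ((pb Y).filter P).card -
      s * ∫ t in Set.Ioc 1 Y, t ^ (s - 1) * ((pb t).filter P).card := by
  rw [abel_fam P (fun x => x ^ s) Y (fun t ht => diff_rpow s (by linarith [ht.1]))
    (intOn_deriv_rpow s hY)]
  congr 1
  rw [← integral_const_mul]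
  refine setIntegral_congr_fun measurableSet_Ioc fun t ht => ?_
  have h1 := deriv_rpow' s (t := t) (by linarith [ht.1])
  show deriv (fun x : ℝ => x ^ s) t * _ = s * (t ^ (s - 1) * _)
  rw [h1]
  ring

lemma card_meas (P : Eis → Prop) [DecidablePred P] :
    Measurable (fun t : ℝ => (((pb t).filter P).card : ℝ)) := by
  have : Monotone (fun t : ℝ => (((pb t).filter P).card : ℝ)) := by
    intro s t hst
    show (((pb s).filter P).card : ℝ) ≤ (((pb t).filter P).card : ℝ)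
    exact_mod_cast Finset.card_le_card (Finset.filter_subset_filter _ (pb_mono hst))
  exact this.measurable

lemma intOn_pow_card (P : Eis → Prop) [DecidablePred P] (s : ℝ) {Y : ℝ} (hY : 1 ≤ Y) :
    IntegrableOn (fun t : ℝ => t ^ s * (((pb t).filter P).card : ℝ)) (Set.Ioc 1 Y) := by
  have h1 : IntegrableOn (fun x : ℝ => x ^ s) (Set.Ioc 1 Y) :=
    (intOn_rpow s hY).mono_set Set.Ioc_subset_Icc_self
  have h2 : IntegrableOn (fun x : ℝ => (((pb x).filter P).card : ℝ) * x ^ s) (Set.Ioc 1 Y) := by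
    refine Integrable.bdd_mul (c := ((pb Y).filter P).card) h1
      (card_meas P).aestronglyMeasurable ?_
    filter_upwards [ae_restrict_mem measurableSet_Ioc] with x hx
    rw [Real.norm_eq_abs, abs_of_nonneg (by positivity)]
    exact_mod_cast Finset.card_le_card (Finset.filter_subset_filter _ (pb_mono hx.2))
  exact IntegrableOn.congr_fun h2 (fun x _ => mul_comm _ _) measurableSet_Ioc

/-- `∑_{N(m) ≤ M} N(m)^(-1/2) ≤ 200 √M`. -/
lemma sum_inv_sqrt_le {M : ℝ} (hM : 1 ≤ M) :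
    ∑ m ∈ pb M, (nm m : ℝ) ^ (-(1 / 2) : ℝ) ≤ 200 * M ^ (1 / 2 : ℝ) := by
  classical
  have h := abel_pow (fun _ => True) (-(1 / 2)) hM
  simp only [Finset.filter_true] at h
  rw [h]
  have h1 : ((pb M).card : ℝ) ≤ 100 * M := card_pb_le M (by linarith)
  have h2 : ∫ t in Set.Ioc 1 M, t ^ ((-(1 / 2) : ℝ) - 1) * ((pb t).card : ℝ) ≤
      ∫ t in Set.Ioc 1 M, 100 * t ^ (-(1 / 2) : ℝ) := by
    refine setIntegral_mono_on ?_ ?_ measurableSet_Ioc fun t ht => ?_
    · have := intOn_pow_card (fun _ => True) ((-(1 / 2) : ℝ) - 1) hM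
      simpa using this
    · exact ((intOn_rpow _ hM).mono_set Set.Ioc_subset_Icc_self).const_mul 100
    · have ht0 : 0 < t := by linarith [ht.1]
      have h3 : ((pb t).card : ℝ) ≤ 100 * t := card_pb_le t ht0.le
      calc t ^ ((-(1 / 2) : ℝ) - 1) * ((pb t).card : ℝ) ≤ t ^ ((-(1 / 2) : ℝ) - 1) * (100 * t) := by
            gcongr
        _ = 100 * t ^ (-(1 / 2) : ℝ) := by
            rw [Real.rpow_sub_one ht0.ne']; field_simp
  rw [integral_const_mul, integral_rpow_Ioc _ (by norm_num) hM] at h2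
  have h4 : M ^ (-(1 / 2) : ℝ) * ((pb M).card : ℝ) ≤ 100 * M ^ (1 / 2 : ℝ) := by
    calc M ^ (-(1 / 2) : ℝ) * ((pb M).card : ℝ) ≤ M ^ (-(1 / 2) : ℝ) * (100 * M) := by gcongr
      _ = 100 * (M ^ (-(1 / 2) : ℝ) * M ^ (1 : ℝ)) := by rw [Real.rpow_one]; ring
      _ = 100 * M ^ (1 / 2 : ℝ) := by
          rw [← Real.rpow_add (by linarith)]; norm_num
  have h5 : (-(1 / 2) : ℝ) + 1 = 1 / 2 := by norm_num
  rw [h5] at h2
  have h6 : (0 : ℝ) ≤ M ^ (1 / 2 : ℝ) := by positivity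
  linarith

/-! ### `∑ N(a₀)^(-1/3)` over squarefree `a₀` coprime to `b` -/

/-- the error function. -/
def EL (Y : ℝ) : ℝ := 1 + Real.log (1 + Real.sqrt Y)

lemma EL_mono {Y Z : ℝ} (h : Y ≤ Z) : EL Y ≤ EL Z := by
  have h1 : Real.sqrt Y ≤ Real.sqrt Z := Real.sqrt_le_sqrt h
  have h0 := Real.sqrt_nonneg Y
  unfold EL
  linarith [Real.log_le_log (show 0 < 1 + Real.sqrt Y by linarith) (by linarith :
    1 + Real.sqrt Y ≤ 1 + Real.sqrt Z)]

lemma one_le_EL (Y : ℝ) : 1 ≤ EL Y := by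
  have h0 := Real.sqrt_nonneg Y
  unfold EL
  linarith [Real.log_nonneg (show 1 ≤ 1 + Real.sqrt Y by linarith)]

/-- sum of `N(a₀)^(-1/3)`. -/
def LL (b : Eis) (Y : ℝ) : ℝ := ∑ a ∈ sfc b Y, (nm a : ℝ) ^ (-(1 / 3) : ℝ)

lemma abs_kap_le (b : Eis) : |kap b| ≤ 300 := by
  unfold kap
  rw [abs_mul, abs_mul, abs_of_pos kap0_pos, abs_of_pos (PE_pos b)]
  have h1 := kap0_le_one
  have h2 := PE_le_one b
  have h3 := abs_Z_le b
  have h4 := kap0_pos
  have h5 := PE_pos b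
  calc kap0 * PE b * |Z b| ≤ 1 * 1 * 300 := by gcongr
    _ = 300 := by norm_num

/-- squarefree and coprime to `b`. -/
def SC (b x : Eis) : Prop := IsCoprime x b ∧ Squarefree x

open Classical in
lemma sfc_eq_filter (b : Eis) (Y : ℝ) :
    sfc b Y = (pb Y).filter (SC b) := by
  ext x
  rw [mem_sfc, mem_filter, mem_pb, SC]

theorem abs_LL_sub_le {b : Eis} (hb : b ≠ 0) {Y : ℝ} (hY : 1 ≤ Y) :
    |LL b Y - 3 / 2 * kap b * Y ^ (2 / 3 : ℝ)| ≤ 20000 * sig b * Y ^ (1 / 6 : ℝ) * EL Y := by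
  classical
  have hY0 : 0 < Y := by linarith
  have h := abel_pow (SC b) (-(1 / 3)) hY
  simp only [← sfc_eq_filter] at h
  have hN : ∀ t, 0 ≤ t → |((sfc b t).card : ℝ) - kap b * t| ≤
      6400 * sig b * Real.sqrt t * EL t := fun t ht => card_sfc hb ht
  have hint := intOn_pow_card (SC b) ((-(1 / 3) : ℝ) - 1) hY
  simp only [← sfc_eq_filter] at hint
  have hint2 : IntegrableOn (fun t : ℝ => kap b * t ^ (-(1 / 3) : ℝ)) (Set.Ioc 1 Y) :=
    ((intOn_rpow _ hY).mono_set Set.Ioc_subset_Icc_self).const_mul _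
  -- the integral
  have hI : |(∫ t in Set.Ioc 1 Y, t ^ ((-(1 / 3) : ℝ) - 1) * ((sfc b t).card : ℝ)) -
      ∫ t in Set.Ioc 1 Y, kap b * t ^ (-(1 / 3) : ℝ)| ≤
      6400 * sig b * EL Y * (6 * Y ^ (1 / 6 : ℝ)) := by
    rw [← integral_sub hint hint2]
    rw [← Real.norm_eq_abs]
    refine (norm_integral_le_integral_norm _).trans ?_
    have h1 : ∫ t in Set.Ioc 1 Y, ‖t ^ ((-(1 / 3) : ℝ) - 1) * ((sfc b t).card : ℝ) -
        kap b * t ^ (-(1 / 3) : ℝ)‖ ≤
        ∫ t in Set.Ioc 1 Y, 6400 * sig b * EL Y * t ^ (-(5 / 6) : ℝ) := by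
      refine setIntegral_mono_on (hint.sub hint2).norm
        (((intOn_rpow _ hY).mono_set Set.Ioc_subset_Icc_self).const_mul _) measurableSet_Ioc
        fun t ht => ?_
      have ht0 : 0 < t := by linarith [ht.1]
      have e1 : kap b * t ^ (-(1 / 3) : ℝ) = t ^ ((-(1 / 3) : ℝ) - 1) * (kap b * t) := by
        rw [Real.rpow_sub_one ht0.ne']; field_simp
      rw [e1, ← mul_sub, norm_mul, Real.norm_eq_abs, Real.norm_eq_abs,
        abs_of_nonneg (Real.rpow_nonneg ht0.le _)]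
      calc t ^ ((-(1 / 3) : ℝ) - 1) * |((sfc b t).card : ℝ) - kap b * t| ≤
          t ^ ((-(1 / 3) : ℝ) - 1) * (6400 * sig b * Real.sqrt t * EL Y) := by
            gcongr
            refine (hN t ht0.le).trans ?_
            have := sig_pos b
            gcongr
            exact EL_mono ht.2
        _ = 6400 * sig b * EL Y * (t ^ ((-(1 / 3) : ℝ) - 1) * t ^ (1 / 2 : ℝ)) := by
            rw [Real.sqrt_eq_rpow]; ring
        _ = _ := by
            rw [← Real.rpow_add ht0]; norm_num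
    refine h1.trans ?_
    rw [integral_const_mul, integral_rpow_Ioc _ (by norm_num) hY]
    have h2 : (-(5 / 6) : ℝ) + 1 = 1 / 6 := by norm_num
    rw [h2]
    have h3 : 0 ≤ 6400 * sig b * EL Y := by
      have := sig_pos b
      have := one_le_EL Y
      positivity
    have h4 : (Y ^ (1 / 6 : ℝ) - 1) / (1 / 6) ≤ 6 * Y ^ (1 / 6 : ℝ) := by
      rw [div_le_iff₀ (by norm_num)]; linarith
    exact mul_le_mul_of_nonneg_left h4 h3
  rw [integral_const_mul, integral_rpow_Ioc _ (by norm_num) hY] at hI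
  have e2 : (-(1 / 3) : ℝ) + 1 = 2 / 3 := by norm_num
  rw [e2] at hI
  have hNY := hN Y hY0.le
  have e3 : LL b Y - 3 / 2 * kap b * Y ^ (2 / 3 : ℝ) =
      Y ^ (-(1 / 3) : ℝ) * (((sfc b Y).card : ℝ) - kap b * Y) +
      (1 / 3) * ((∫ t in Set.Ioc 1 Y, t ^ ((-(1 / 3) : ℝ) - 1) * ((sfc b t).card : ℝ)) -
        kap b * ((Y ^ (2 / 3 : ℝ) - 1) / (2 / 3))) - kap b / 2 := by
    unfold LL
    rw [h]
    have e4 : Y ^ (2 / 3 : ℝ) = Y ^ (-(1 / 3) : ℝ) * Y := by
      rw [← Real.rpow_add_one hY0.ne']; norm_num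
    rw [e4]
    ring
  rw [e3]
  have hk := abs_kap_le b
  have hs := one_le_sig b
  have hE := one_le_EL Y
  have hY6 : 1 ≤ Y ^ (1 / 6 : ℝ) := Real.one_le_rpow hY (by norm_num)
  have h7 : |Y ^ (-(1 / 3) : ℝ) * (((sfc b Y).card : ℝ) - kap b * Y)| ≤
      6400 * sig b * Y ^ (1 / 6 : ℝ) * EL Y := by
    rw [abs_mul, abs_of_nonneg (Real.rpow_nonneg hY0.le _)]
    calc Y ^ (-(1 / 3) : ℝ) * |((sfc b Y).card : ℝ) - kap b * Y| ≤
        Y ^ (-(1 / 3) : ℝ) * (6400 * sig b * Real.sqrt Y * EL Y) := by gcongr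
      _ = 6400 * sig b * (Y ^ (-(1 / 3) : ℝ) * Y ^ (1 / 2 : ℝ)) * EL Y := by
          rw [Real.sqrt_eq_rpow]; ring
      _ = _ := by rw [← Real.rpow_add hY0]; norm_num
  have h8 : |kap b / 2| ≤ 150 := by
    rw [abs_div, abs_two]; linarith
  have h9 : (1 : ℝ) ≤ sig b * Y ^ (1 / 6 : ℝ) * EL Y := by
    have : (1 : ℝ) ≤ sig b * Y ^ (1 / 6 : ℝ) := by nlinarith
    nlinarith
  have h10 : |(1 / 3 : ℝ) * ((∫ t in Set.Ioc 1 Y, t ^ ((-(1 / 3) : ℝ) - 1) * ((sfc b t).card : ℝ)) -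
        kap b * ((Y ^ (2 / 3 : ℝ) - 1) / (2 / 3)))| ≤ 12800 * (sig b * Y ^ (1 / 6 : ℝ) * EL Y) := by
    rw [abs_mul, abs_of_pos (by norm_num : (0 : ℝ) < 1 / 3)]
    linarith
  have h11 := abs_add_le (Y ^ (-(1 / 3) : ℝ) * (((sfc b Y).card : ℝ) - kap b * Y) +
      (1 / 3) * ((∫ t in Set.Ioc 1 Y, t ^ ((-(1 / 3) : ℝ) - 1) * ((sfc b t).card : ℝ)) -
        kap b * ((Y ^ (2 / 3 : ℝ) - 1) / (2 / 3)))) (-(kap b / 2))
  have h12 := abs_add_le (Y ^ (-(1 / 3) : ℝ) * (((sfc b Y).card : ℝ) - kap b * Y))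
      ((1 / 3) * ((∫ t in Set.Ioc 1 Y, t ^ ((-(1 / 3) : ℝ) - 1) * ((sfc b t).card : ℝ)) -
        kap b * ((Y ^ (2 / 3 : ℝ) - 1) / (2 / 3))))
  rw [abs_neg] at h11
  rw [sub_eq_add_neg]
  linarith

end Crest.Agent.R012.T3_85
end
end

-- ▼ part R012/T3Sharp_85
section

/-!
# Row 12, item T3 (part c): the summatory function of `|τ(a)|²` over primary `a` coprime to `b`

`TT b y = ∑_{a primary, N(a) ≤ y, (a,b)=1} |τ(a)|²`,
`|TT b y - 3/2 * kap0 * PE b * y^(2/3)| ≤ 10^7 * sig b * y^(1/3) * EL y` for all `y ≥ 0`.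
-/

set_option autoImplicit false
set_option linter.unusedSimpArgs false
set_option linter.unusedVariables false

noncomputable section

open Finset MeasureTheory

namespace Crest.Agent.R012.T3_85

open Eis Crest.Agent.R012 Crest.Agent.R012.Mob705 Crest.Agent.R012.Div277
open Crest.Agent.R012.Tau85

open Classical in
/-- `|τ(a)|²` on `a` coprime to `b`. -/
def g2 (b a : Eis) : ℝ := if IsCoprime a b then ‖tauE a‖ ^ 2 else 0

lemma g2_nonneg (b a : Eis) : 0 ≤ g2 b a := by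
  unfold g2; split_ifs <;> positivity

lemma norm_tauE_cp {q : Eis × Eis} (hq : q ∈ TP) :
    ‖tauE (cp q)‖ ^ 2 = (nm q.1 : ℝ) ^ (-(1 / 3) : ℝ) := by
  rw [tauE_cp hq, norm_mul, RCLike.norm_conj, Gauss880.norm_G Gauss880.syG hq.1 hq.2.1, one_mul,
    Complex.norm_real, Real.norm_eq_abs, abs_of_nonneg (by positivity), ← Real.rpow_natCast,
    ← Real.rpow_mul (by positivity)]
  norm_num

lemma g2_cp {b : Eis} {q : Eis × Eis} (hq : q ∈ TP) (hc : IsCoprime (cp q) b) :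
    g2 b (cp q) = (nm q.1 : ℝ) ^ (-(1 / 3) : ℝ) := by
  classical
  unfold g2
  rw [if_pos hc, norm_tauE_cp hq]



/-- the summatory function. -/
def TT (b : Eis) (y : ℝ) : ℝ := ∑ a ∈ pb y, g2 b a

lemma le_div_cube_iff {m n y : ℝ} (hm : 0 < m) : n ≤ y / m ^ 3 ↔ n * m ^ 3 ≤ y :=
  le_div_iff₀ (by positivity)

lemma TT_eq (b : Eis) {y : ℝ} (hy : 0 ≤ y) :
    TT b y = ∑ m ∈ cop b (y ^ (1 / 3 : ℝ)), LL b (y / (nm m : ℝ) ^ 3) := by
  classical
  unfold TT LL
  rw [Finset.sum_sigma']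
  symm
  refine Finset.sum_of_injOn (fun x : (Σ _ : Eis, Eis) => cp (x.2, x.1)) ?_ ?_ ?_ ?_
  · rintro ⟨m, a⟩ hx ⟨m', a'⟩ hx' h
    simp only [mem_coe, mem_sigma, mem_cop, mem_sfc] at hx hx'
    have h1 : ((a, m) : Eis × Eis) ∈ TP := ⟨hx.2.1.2, hx.2.2.2, hx.1.1.2⟩
    have h2 : ((a', m') : Eis × Eis) ∈ TP := ⟨hx'.2.1.2, hx'.2.2.2, hx'.1.1.2⟩
    have h3 := cp_injOn h1 h2 h
    simp only [Prod.mk.injEq] at h3
    obtain ⟨rfl, rfl⟩ := h3
    rfl
  · rintro ⟨m, a⟩ hx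
    simp only [mem_coe, mem_sigma, mem_cop, mem_sfc] at hx ⊢
    have h1 : ((a, m) : Eis × Eis) ∈ TP := ⟨hx.2.1.2, hx.2.2.2, hx.1.1.2⟩
    rw [mem_pb]
    refine ⟨?_, cp_isPrim h1⟩
    rw [nm_cp]
    push_cast
    have hm : (0 : ℝ) < nm m := by exact_mod_cast nm_pos.mpr hx.1.1.2.ne_zero
    exact (le_div_cube_iff hm).mp hx.2.1.1
  · intro a ha hna
    unfold g2
    split_ifs with hc
    · have h0 : tauE a = 0 := by
        apply tauE_eq_zero
        rintro ⟨a0, m⟩ hq rfl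
        apply hna
        refine ⟨⟨m, a0⟩, ?_, rfl⟩
        rw [mem_pb, nm_cp] at ha
        push_cast at ha
        rw [isCoprime_cp] at hc
        have hm : (1 : ℝ) ≤ nm m := one_le_nm_of_isPrim hq.2.2
        have ha0 : (1 : ℝ) ≤ nm a0 := one_le_nm_of_isPrim hq.1
        simp only [mem_coe, mem_sigma, mem_cop, mem_sfc]
        simp only at ha hc hm ha0
        refine ⟨⟨⟨?_, hq.2.2⟩, hc.2⟩, ⟨?_, hq.1⟩, hc.1, hq.2.1⟩
        · have h1 : (nm m : ℝ) ^ 3 ≤ y := by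
            refine le_trans ?_ ha.1
            nlinarith [pow_nonneg (by linarith : (0 : ℝ) ≤ nm m) 3]
          calc (nm m : ℝ) = ((nm m : ℝ) ^ (3 : ℕ)) ^ (1 / 3 : ℝ) := by
                rw [← Real.rpow_natCast, ← Real.rpow_mul (by linarith)]; norm_num
            _ ≤ y ^ (1 / 3 : ℝ) := Real.rpow_le_rpow (by positivity) h1 (by norm_num)
        · exact (le_div_cube_iff (by linarith)).mpr ha.1
      rw [h0]; simp
    · rfl
  · rintro ⟨m, a⟩ hx
    simp only [mem_sigma, mem_cop, mem_sfc] at hx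
    have h1 : ((a, m) : Eis × Eis) ∈ TP := ⟨hx.2.1.2, hx.2.2.2, hx.1.1.2⟩
    rw [g2_cp h1 (isCoprime_cp.mpr ⟨hx.2.2.1, hx.1.2⟩)]

lemma sum_z2_cop (b : Eis) (M : ℝ) : ∑ m ∈ cop b M, z2 b m = ∑ m ∈ cop b M, 1 / (nm m : ℝ) ^ 2 := by
  classical
  refine Finset.sum_congr rfl fun m hm => ?_
  rw [mem_cop] at hm
  unfold z2
  rw [if_pos ⟨hm.1.2, hm.2⟩]

theorem abs_TT_sub_le {b : Eis} (hb : b ≠ 0) {y : ℝ} (hy : 0 ≤ y) :
    |TT b y - 3 / 2 * (kap0 * PE b) * y ^ (2 / 3 : ℝ)| ≤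
      10000000 * sig b * y ^ (1 / 3 : ℝ) * EL y := by
  classical
  have hs := one_le_sig b
  have hE := one_le_EL y
  have hk1 := kap0_le_one
  have hk0 := kap0_pos
  have hP1 := PE_le_one b
  have hP0 := PE_pos b
  rcases lt_or_ge y 1 with h1 | h1
  · have h2 : TT b y = 0 := by
      unfold TT; rw [pb_eq_empty h1, Finset.sum_empty]
    rw [h2, zero_sub, abs_neg, abs_of_nonneg (by positivity)]
    have h3 : y ^ (2 / 3 : ℝ) ≤ y ^ (1 / 3 : ℝ) := by
      rcases hy.lt_or_eq with h | h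
      · exact Real.rpow_le_rpow_of_exponent_ge h h1.le (by norm_num)
      · rw [← h, Real.zero_rpow (by norm_num), Real.zero_rpow (by norm_num)]
    have h4 : (0 : ℝ) ≤ y ^ (1 / 3 : ℝ) := by positivity
    calc 3 / 2 * (kap0 * PE b) * y ^ (2 / 3 : ℝ) ≤ 3 / 2 * (1 * 1) * y ^ (1 / 3 : ℝ) := by gcongr
      _ ≤ 10000000 * 1 * y ^ (1 / 3 : ℝ) * 1 := by linarith
      _ ≤ _ := by gcongr
  · set M := y ^ (1 / 3 : ℝ) with hM
    have hM1 : 1 ≤ M := Real.one_le_rpow h1 (by norm_num)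
    have hM3 : M ^ 3 = y := by
      rw [hM, ← Real.rpow_natCast, ← Real.rpow_mul hy]; norm_num
    have hmem : ∀ m ∈ cop b M, 1 ≤ y / (nm m : ℝ) ^ 3 ∧ (1 : ℝ) ≤ nm m := by
      intro m hm
      rw [mem_cop] at hm
      have hm1 := one_le_nm_of_isPrim hm.1.2
      refine ⟨?_, hm1⟩
      rw [one_le_div (by positivity), ← hM3]
      gcongr
      exact hm.1.1
    have e1 : 3 / 2 * (kap0 * PE b) * y ^ (2 / 3 : ℝ) =
        3 / 2 * kap b * y ^ (2 / 3 : ℝ) * Z2 b := by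
      rw [← kap_mul_Z2]; ring
    have e2 : TT b y - 3 / 2 * (kap0 * PE b) * y ^ (2 / 3 : ℝ) =
        (∑ m ∈ cop b M, (LL b (y / (nm m : ℝ) ^ 3) -
          3 / 2 * kap b * (y / (nm m : ℝ) ^ 3) ^ (2 / 3 : ℝ))) -
        3 / 2 * kap b * y ^ (2 / 3 : ℝ) * (Z2 b - ∑ m ∈ cop b M, z2 b m) := by
      rw [e1, TT_eq b hy, Finset.sum_sub_distrib, sum_z2_cop, mul_sub, Finset.mul_sum]
      have e3 : ∀ m ∈ cop b M, 3 / 2 * kap b * (y / (nm m : ℝ) ^ 3) ^ (2 / 3 : ℝ) =
          3 / 2 * kap b * y ^ (2 / 3 : ℝ) * (1 / (nm m : ℝ) ^ 2) := by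
        intro m hm
        have hm1 := (hmem m hm).2
        rw [Real.div_rpow hy (by positivity)]
        have : (((nm m : ℝ)) ^ 3) ^ (2 / 3 : ℝ) = (nm m : ℝ) ^ 2 := by
          rw [← Real.rpow_natCast, ← Real.rpow_mul (by linarith), ← Real.rpow_natCast]
          norm_num
        rw [this]; ring
      rw [Finset.sum_congr rfl e3]
      ring
    rw [e2]
    have hA : |∑ m ∈ cop b M, (LL b (y / (nm m : ℝ) ^ 3) -
          3 / 2 * kap b * (y / (nm m : ℝ) ^ 3) ^ (2 / 3 : ℝ))| ≤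
        4000000 * sig b * M * EL y := by
      refine (Finset.abs_sum_le_sum_abs _ _).trans ?_
      have h2 : ∀ m ∈ cop b M, |LL b (y / (nm m : ℝ) ^ 3) -
          3 / 2 * kap b * (y / (nm m : ℝ) ^ 3) ^ (2 / 3 : ℝ)| ≤
          20000 * sig b * EL y * y ^ (1 / 6 : ℝ) * (nm m : ℝ) ^ (-(1 / 2) : ℝ) := by
        intro m hm
        have hm1 := (hmem m hm).2
        refine (abs_LL_sub_le hb (hmem m hm).1).trans ?_
        have h3 : EL (y / (nm m : ℝ) ^ 3) ≤ EL y := by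
          apply EL_mono
          apply div_le_self hy
          exact one_le_pow₀ hm1
        have h4 : (y / (nm m : ℝ) ^ 3) ^ (1 / 6 : ℝ) =
            y ^ (1 / 6 : ℝ) * (nm m : ℝ) ^ (-(1 / 2) : ℝ) := by
          rw [Real.div_rpow hy (by positivity), div_eq_mul_inv]
          congr 1
          rw [← Real.rpow_natCast, ← Real.rpow_mul (by linarith), ← Real.rpow_neg (by linarith)]
          norm_num
        rw [h4]
        have h5 : 0 ≤ 20000 * sig b * (y ^ (1 / 6 : ℝ) * (nm m : ℝ) ^ (-(1 / 2) : ℝ)) := by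
          have := sig_pos b
          positivity
        calc 20000 * sig b * (y ^ (1 / 6 : ℝ) * (nm m : ℝ) ^ (-(1 / 2) : ℝ)) *
              EL (y / (nm m : ℝ) ^ 3) ≤
            20000 * sig b * (y ^ (1 / 6 : ℝ) * (nm m : ℝ) ^ (-(1 / 2) : ℝ)) * EL y := by gcongr
          _ = _ := by ring
      refine (Finset.sum_le_sum h2).trans ?_
      rw [← Finset.mul_sum]
      have h3 : ∑ m ∈ cop b M, (nm m : ℝ) ^ (-(1 / 2) : ℝ) ≤ 200 * M ^ (1 / 2 : ℝ) := by
        refine le_trans ?_ (sum_inv_sqrt_le hM1)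
        exact Finset.sum_le_sum_of_subset_of_nonneg (cop_subset b M)
          fun _ _ _ => by positivity
      have h4 : y ^ (1 / 6 : ℝ) * M ^ (1 / 2 : ℝ) = M := by
        rw [hM, ← Real.rpow_mul hy, ← Real.rpow_add (by linarith)]; norm_num
      have h5 : 0 ≤ 20000 * sig b * EL y * y ^ (1 / 6 : ℝ) := by
        have := sig_pos b; positivity
      calc 20000 * sig b * EL y * y ^ (1 / 6 : ℝ) * ∑ m ∈ cop b M, (nm m : ℝ) ^ (-(1 / 2) : ℝ) ≤
          20000 * sig b * EL y * y ^ (1 / 6 : ℝ) * (200 * M ^ (1 / 2 : ℝ)) := by gcongr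
        _ = 4000000 * sig b * EL y * (y ^ (1 / 6 : ℝ) * M ^ (1 / 2 : ℝ)) := by ring
        _ = _ := by rw [h4]; ring
    have hB : |3 / 2 * kap b * y ^ (2 / 3 : ℝ) * (Z2 b - ∑ m ∈ cop b M, z2 b m)| ≤
        135000 * M := by
      rw [abs_mul, abs_mul, abs_mul, abs_of_pos (by norm_num : (0 : ℝ) < 3 / 2),
        abs_of_nonneg (by positivity : (0 : ℝ) ≤ y ^ (2 / 3 : ℝ))]
      have h2 := abs_kap_le b
      have h3 : |Z2 b - ∑ m ∈ cop b M, z2 b m| ≤ 300 / M := by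
        have h4 := abs_Z2_sub_le b (cop b M) ⌊M⌋₊ (fun d hd hd1 hd2 => by
          by_contra hle
          push Not at hle
          apply hd
          rw [mem_cop]
          refine ⟨⟨?_, hd1⟩, hd2⟩
          exact (Nat.cast_le.mpr hle).trans (Nat.floor_le (by linarith)))
        refine h4.trans ?_
        gcongr
        exact (Nat.lt_floor_add_one M).le
      have h5 : y ^ (2 / 3 : ℝ) = M * M := by
        rw [hM, ← Real.rpow_add (by linarith)]; norm_num
      rw [h5]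
      calc 3 / 2 * |kap b| * (M * M) * |Z2 b - ∑ m ∈ cop b M, z2 b m| ≤
          3 / 2 * 300 * (M * M) * (300 / M) := by gcongr
        _ = 135000 * M := by field_simp; norm_num
    have hMEs : M ≤ sig b * M * EL y := by
      have h2 : M ≤ sig b * M := by nlinarith
      nlinarith
    have h6 := abs_sub (∑ m ∈ cop b M, (LL b (y / (nm m : ℝ) ^ 3) -
          3 / 2 * kap b * (y / (nm m : ℝ) ^ 3) ^ (2 / 3 : ℝ)))
        (3 / 2 * kap b * y ^ (2 / 3 : ℝ) * (Z2 b - ∑ m ∈ cop b M, z2 b m))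
    linarith

end Crest.Agent.R012.T3_85
end
end

-- ▼ part R012/T3_85

/-!
# Row 12, item T3

`T3_proof : T411.T3` : the model-model main term of the dispersion;
`Dsf_eq : M49.Dsf = kap 1`.
-/

set_option autoImplicit false
set_option linter.unusedSimpArgs false
set_option linter.unusedVariables false

noncomputable section

open Finset MeasureTheory

namespace Crest.Agent.R012.T3_85

open Eis Crest.Agent.R012 Crest.Agent.R012.Mob705 Crest.Agent.R012.Div277
open Crest.Agent.R012.Tau85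

/-! ### `M49.Dsf = kap 1` -/



/-! ### Exponential weights -/

/-- summand of `P3`. -/
def fq (A : ℝ) (b : Eis) (q : Eis × Eis) : ℝ := by
  classical
  exact if T411.SqP q.1 ∧ IsPrim q.2 ∧ IsCoprime (q.1 * q.2) b then
      Real.exp (-((nm q.1 : ℝ) * (nm q.2 : ℝ) ^ 3) / A) * (nm q.1 : ℝ) ^ (-(1 : ℝ) / 3) else 0

/-- coefficient of the pair `q`. -/
def cq (b : Eis) (q : Eis × Eis) : ℝ := by
  classical
  exact if q ∈ TP ∧ IsCoprime (cp q) b then (nm q.1 : ℝ) ^ (-(1 / 3) : ℝ) else 0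

lemma cq_nonneg (b : Eis) (q : Eis × Eis) : 0 ≤ cq b q := by
  classical
  unfold cq; split_ifs <;> positivity

lemma cond_iff (b : Eis) (q : Eis × Eis) :
    (T411.SqP q.1 ∧ IsPrim q.2 ∧ IsCoprime (q.1 * q.2) b) ↔ (q ∈ TP ∧ IsCoprime (cp q) b) := by
  rw [isCoprime_cp, IsCoprime.mul_left_iff]
  unfold T411.SqP TP
  simp only [Set.mem_setOf_eq]
  tauto

lemma fq_eq (A : ℝ) (b : Eis) (q : Eis × Eis) :
    fq A b q = cq b q * Real.exp (-(nm (cp q) : ℝ) / A) := by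
  classical
  unfold fq cq
  by_cases h : q ∈ TP ∧ IsCoprime (cp q) b
  · rw [if_pos h, if_pos ((cond_iff b q).mpr h), nm_cp]
    push_cast
    rw [mul_comm]
    norm_num
  · rw [if_neg h, if_neg (fun h' => h ((cond_iff b q).mp h')), zero_mul]

lemma cq_eq_zero {b : Eis} {q : Eis × Eis} (h : ¬ (q ∈ TP ∧ IsCoprime (cp q) b)) : cq b q = 0 := by
  classical
  unfold cq; rw [if_neg h]

/-- For each `t`, the sum of the coefficients with `N(a₀m³) ≤ t`. -/
lemma tsum_cq (b : Eis) (t : ℝ) :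
    ∑' q : Eis × Eis, ENNReal.ofReal (if (nm (cp q) : ℝ) ≤ t then cq b q else 0) =
      ENNReal.ofReal (TT b t) := by
  classical
  have h := tsum_TP' (E := ENNReal)
    (fun a => if a ∈ pb t then ENNReal.ofReal (g2 b a) else 0) ?_
  · rw [tsum_eq_sum (s := pb t) (fun a ha => if_neg ha)] at h
    have h2 : ∑ a ∈ pb t, (if a ∈ pb t then ENNReal.ofReal (g2 b a) else 0) =
        ENNReal.ofReal (TT b t) := by
      unfold TT
      rw [ENNReal.ofReal_sum_of_nonneg (fun a _ => g2_nonneg b a)]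
      exact Finset.sum_congr rfl fun a ha => if_pos ha
    rw [← h2, h]
    refine tsum_congr fun q => ?_
    by_cases hq : q ∈ TP
    · rw [if_pos hq]
      by_cases hn : (nm (cp q) : ℝ) ≤ t
      · rw [if_pos hn, if_pos (mem_pb.mpr ⟨hn, cp_isPrim hq⟩)]
        by_cases hc : IsCoprime (cp q) b
        · rw [g2_cp hq hc]; unfold cq; rw [if_pos ⟨hq, hc⟩]
        · unfold g2; rw [if_neg hc, cq_eq_zero (fun h' => hc h'.2)]
      · rw [if_neg hn, if_neg (fun h' => hn (mem_pb.mp h').1)]; simp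
    · rw [if_neg hq, cq_eq_zero (fun h' => hq h'.1)]; simp
  · intro a ha
    have h0 : g2 b a = 0 := by
      unfold g2
      rw [tauE_eq_zero ha]; simp
    rw [h0]; simp

/-- the weight. -/
def wt (A t : ℝ) : ℝ := A⁻¹ * Real.exp (-(A⁻¹ * t))

lemma wt_nonneg {A : ℝ} (hA : 0 < A) (t : ℝ) : 0 ≤ wt A t := by unfold wt; positivity

lemma measurable_wt (A : ℝ) : Measurable (wt A) := by unfold wt; fun_prop

lemma lint_wt {A : ℝ} (hA : 0 < A) {c n : ℝ} (hc : 0 ≤ c) (hn : 0 ≤ n) :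
    ∫⁻ t in Set.Ioi 0, ENNReal.ofReal (if n ≤ t then c else 0) * ENNReal.ofReal (wt A t) =
      ENNReal.ofReal (c * Real.exp (-n / A)) := by
  have e1 : ∀ t ∈ Set.Ioi (0 : ℝ), ENNReal.ofReal (if n ≤ t then c else 0) *
      ENNReal.ofReal (wt A t) =
      (Set.Ici n).indicator (fun t => ENNReal.ofReal (c * wt A t)) t := by
    intro t _
    by_cases h : n ≤ t
    · rw [if_pos h, Set.indicator_of_mem (show t ∈ Set.Ici n from h), ENNReal.ofReal_mul hc]
    · rw [if_neg h, Set.indicator_of_notMem (show t ∉ Set.Ici n from h)]; simp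
  rw [setLIntegral_congr_fun measurableSet_Ioi e1, lintegral_indicator measurableSet_Ici,
    Measure.restrict_restrict measurableSet_Ici]
  have e2 : (∫⁻ t in Set.Ici n ∩ Set.Ioi 0, ENNReal.ofReal (c * wt A t)) =
      ∫⁻ t in Set.Ioi n, ENNReal.ofReal (c * wt A t) := by
    apply setLIntegral_congr
    rcases hn.lt_or_eq with h | h
    · have : Set.Ici n ∩ Set.Ioi 0 = Set.Ici n := by
        ext x; simp only [Set.mem_inter_iff, Set.mem_Ici, Set.mem_Ioi]
        constructor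
        · exact fun hx => hx.1
        · exact fun hx => ⟨hx, by linarith⟩
      rw [this]
      exact Ioi_ae_eq_Ici.symm
    · subst h
      have : Set.Ici (0 : ℝ) ∩ Set.Ioi 0 = Set.Ioi 0 := by
        ext x; simp only [Set.mem_inter_iff, Set.mem_Ici, Set.mem_Ioi]
        constructor
        · exact fun hx => hx.2
        · exact fun hx => ⟨hx.le, hx⟩
      rw [this]
  rw [e2]
  have hi : IntegrableOn (fun t => c * wt A t) (Set.Ioi n) := by
    have := (integrableOn_exp_mul_Ioi (a := -A⁻¹) (by simpa using hA) n).const_mul (c * A⁻¹)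
    refine IntegrableOn.congr_fun (f := fun x => c * A⁻¹ * Real.exp (-A⁻¹ * x)) this
      (fun t _ => ?_) measurableSet_Ioi
    unfold wt; simp only; rw [neg_mul]; ring
  rw [← ofReal_integral_eq_lintegral_ofReal hi
    (Filter.Eventually.of_forall fun t => mul_nonneg hc (wt_nonneg hA t))]
  congr 1
  have e3 : ∀ t, c * wt A t = (c * A⁻¹) * Real.exp (-A⁻¹ * t) := by
    intro t; unfold wt; rw [neg_mul]; ring
  simp_rw [e3]
  rw [integral_const_mul, integral_exp_mul_Ioi (by simpa using hA)]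
  have hA' : A ≠ 0 := hA.ne'
  have e4 : -A⁻¹ * n = -n / A := by field_simp
  rw [e4]
  field_simp

lemma P3_eq {A : ℝ} (hA : 0 < A) (b : Eis) :
    T411.P3 A b = ∫ t in Set.Ioi 0, TT b t * wt A t := by
  classical
  have h1 : T411.P3 A b = ∑' q, fq A b q := rfl
  have hnn : ∀ q, 0 ≤ fq A b q := fun q => by
    rw [fq_eq]; exact mul_nonneg (cq_nonneg b q) (Real.exp_nonneg _)
  have hTT : ∀ t, 0 ≤ TT b t := fun t => Finset.sum_nonneg fun a _ => g2_nonneg b a
  have hTm : Measurable (TT b) := by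
    have : Monotone (TT b) := by
      intro s t hst
      exact Finset.sum_le_sum_of_subset_of_nonneg (pb_mono hst) fun a _ _ => g2_nonneg b a
    exact this.measurable
  have h2 : ∑' q, fq A b q = (∑' q, ENNReal.ofReal (fq A b q)).toReal := by
    rw [ENNReal.tsum_toReal_eq (fun q => ENNReal.ofReal_ne_top)]
    exact tsum_congr fun q => (ENNReal.toReal_ofReal (hnn q)).symm
  have h3 : ∀ q, ENNReal.ofReal (fq A b q) = ∫⁻ t in Set.Ioi 0,
      ENNReal.ofReal (if (nm (cp q) : ℝ) ≤ t then cq b q else 0) * ENNReal.ofReal (wt A t) := by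
    intro q
    rw [lint_wt hA (cq_nonneg b q) (Nat.cast_nonneg _), fq_eq]
  rw [h1, h2, integral_eq_lintegral_of_nonneg_ae
    (Filter.Eventually.of_forall fun t => mul_nonneg (hTT t) (wt_nonneg hA t))
    (hTm.mul (measurable_wt A)).aestronglyMeasurable]
  congr 1
  rw [tsum_congr h3, ← lintegral_tsum]
  · refine lintegral_congr fun t => ?_
    rw [ENNReal.tsum_mul_right, tsum_cq, ENNReal.ofReal_mul (hTT t)]
  · intro q
    refine (Measurable.mul ?_ (measurable_wt A).ennreal_ofReal).aemeasurable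
    refine Measurable.ennreal_ofReal (Measurable.ite ?_ measurable_const measurable_const)
    exact measurableSet_Ici

lemma int_pow_wt {A s : ℝ} (hA : 0 < A) (hs : 0 < s + 1) :
    IntegrableOn (fun t => t ^ s * wt A t) (Set.Ioi 0) ∧
      ∫ t in Set.Ioi 0, t ^ s * wt A t = A ^ s * Real.Gamma (s + 1) := by
  have h := Real.integral_rpow_mul_exp_neg_mul_Ioi (a := s + 1) (r := A⁻¹) hs (by positivity)
  have e : ∀ t : ℝ, t ^ s * wt A t = A⁻¹ * (t ^ (s + 1 - 1) * Real.exp (-(A⁻¹ * t))) := by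
    intro t; unfold wt; rw [add_sub_cancel_right]; ring
  have hne : ∫ t in Set.Ioi 0, t ^ (s + 1 - 1) * Real.exp (-(A⁻¹ * t)) ≠ 0 := by
    rw [h]
    have := Real.Gamma_pos_of_pos hs
    positivity
  constructor
  · simp_rw [e]
    exact (Integrable.of_integral_ne_zero hne).const_mul _
  · simp_rw [e]
    rw [integral_const_mul, h]
    have : (1 / A⁻¹) ^ (s + 1) = A ^ s * A := by
      rw [one_div, inv_inv, Real.rpow_add_one hA.ne']
    rw [this]
    field_simp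

lemma EL_le {A t : ℝ} (hA : 1 ≤ A) (ht : 0 < t) :
    EL t ≤ 2 * (1 + Real.log A) * (1 + Real.sqrt (A⁻¹ * t)) := by
  have hA0 : 0 < A := by linarith
  have hlA : 0 ≤ Real.log A := Real.log_nonneg hA
  have hs : Real.sqrt t = Real.sqrt A * Real.sqrt (A⁻¹ * t) := by
    rw [← Real.sqrt_mul hA0.le, mul_inv_cancel_left₀ hA0.ne']
  set x := Real.sqrt (A⁻¹ * t) with hx
  have hx0 : 0 ≤ x := Real.sqrt_nonneg _
  have hsA : 1 ≤ Real.sqrt A := by
    rw [show (1 : ℝ) = Real.sqrt 1 by simp]; exact Real.sqrt_le_sqrt hA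
  unfold EL
  rw [hs]
  have h1 : 1 + Real.sqrt A * x ≤ (2 * Real.sqrt A) * (1 + x) := by nlinarith
  have h2 : Real.log (1 + Real.sqrt A * x) ≤ Real.log ((2 * Real.sqrt A) * (1 + x)) :=
    Real.log_le_log (by positivity) h1
  rw [Real.log_mul (by positivity) (by positivity), Real.log_mul (by norm_num) (by positivity),
    Real.log_sqrt hA0.le] at h2
  have h3 : Real.log (1 + x) ≤ x := by
    have := Real.log_le_sub_one_of_pos (x := 1 + x) (by positivity)
    linarith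
  have h4 : Real.log 2 < 1 := by
    have := Real.log_two_lt_d9; linarith
  nlinarith [mul_nonneg hlA hx0]

theorem T3_proof : T411.T3 := by
  classical
  refine ⟨20000000 * (Real.Gamma (1 / 3 + 1) + Real.Gamma (5 / 6 + 1)), 1, fun A b hA hb => ?_⟩
  have hA0 : 0 < A := by linarith
  have hb0 := hb.ne_zero
  have hlA : 0 ≤ Real.log A := Real.log_nonneg hA
  obtain ⟨hi1, hv1⟩ := int_pow_wt (s := 2 / 3) hA0 (by norm_num)
  obtain ⟨hi2, hv2⟩ := int_pow_wt (s := 1 / 3) hA0 (by norm_num)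
  obtain ⟨hi3, hv3⟩ := int_pow_wt (s := 5 / 6) hA0 (by norm_num)
  have hTm : Measurable (TT b) := by
    have : Monotone (TT b) := by
      intro s t hst
      exact Finset.sum_le_sum_of_subset_of_nonneg (pb_mono hst) fun a _ _ => g2_nonneg b a
    exact this.measurable
  -- the difference
  set K := 20000000 * sig b * (1 + Real.log A) with hK
  have hs1 := one_le_sig b
  have hK0 : 0 ≤ K := by positivity
  have hbound : ∀ t ∈ Set.Ioi (0 : ℝ),
      ‖(TT b t - 3 / 2 * (kap0 * PE b) * t ^ (2 / 3 : ℝ)) * wt A t‖ ≤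
      K * (t ^ (1 / 3 : ℝ) * wt A t) + K * A ^ (-(1 / 2) : ℝ) * (t ^ (5 / 6 : ℝ) * wt A t) := by
    intro t ht
    have ht0 : 0 < t := ht
    rw [norm_mul, Real.norm_eq_abs, Real.norm_eq_abs, abs_of_nonneg (wt_nonneg hA0 t)]
    have h1 := abs_TT_sub_le hb0 ht0.le
    have h2 := EL_le hA ht0
    have hw := wt_nonneg hA0 t
    have h3 : Real.sqrt (A⁻¹ * t) = A ^ (-(1 / 2) : ℝ) * t ^ (1 / 2 : ℝ) := by
      rw [Real.sqrt_eq_rpow, Real.mul_rpow (by positivity) ht0.le, Real.inv_rpow hA0.le,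
        Real.rpow_neg hA0.le]
    have h4 : t ^ (5 / 6 : ℝ) = t ^ (1 / 3 : ℝ) * t ^ (1 / 2 : ℝ) := by
      rw [← Real.rpow_add ht0]; norm_num
    calc |TT b t - 3 / 2 * (kap0 * PE b) * t ^ (2 / 3 : ℝ)| * wt A t ≤
        (10000000 * sig b * t ^ (1 / 3 : ℝ) *
          (2 * (1 + Real.log A) * (1 + Real.sqrt (A⁻¹ * t)))) * wt A t := by
          gcongr
          refine h1.trans ?_
          have : 0 ≤ 10000000 * sig b * t ^ (1 / 3 : ℝ) := by positivity
          exact mul_le_mul_of_nonneg_left h2 this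
      _ = _ := by rw [h3, h4, hK]; ring
  have hI1 : IntegrableOn (fun t => K * (t ^ (1 / 3 : ℝ) * wt A t) +
      K * A ^ (-(1 / 2) : ℝ) * (t ^ (5 / 6 : ℝ) * wt A t)) (Set.Ioi 0) :=
    (hi2.const_mul K).add (hi3.const_mul _)
  have hI2 : IntegrableOn (fun t => (TT b t - 3 / 2 * (kap0 * PE b) * t ^ (2 / 3 : ℝ)) * wt A t)
      (Set.Ioi 0) := by
    refine Integrable.mono' hI1 ?_ ?_
    · refine Measurable.aestronglyMeasurable ?_
      exact (hTm.sub (measurable_const.mul (measurable_id.pow_const _))).mul (measurable_wt A)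
    · filter_upwards [ae_restrict_mem measurableSet_Ioi] with t ht using hbound t ht
  have hI3 : IntegrableOn (fun t => 3 / 2 * (kap0 * PE b) * (t ^ (2 / 3 : ℝ) * wt A t))
      (Set.Ioi 0) := hi1.const_mul _
  have e1 : T411.P3 A b - 2 * Real.pi / (9 * Real.sqrt 3) * Real.Gamma (2 / 3) * PE b *
      A ^ ((2 : ℝ) / 3) =
      ∫ t in Set.Ioi 0, (TT b t - 3 / 2 * (kap0 * PE b) * t ^ (2 / 3 : ℝ)) * wt A t := by
    have e2 : ∫ t in Set.Ioi 0, TT b t * wt A t =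
        (∫ t in Set.Ioi 0, (TT b t - 3 / 2 * (kap0 * PE b) * t ^ (2 / 3 : ℝ)) * wt A t) +
        ∫ t in Set.Ioi 0, 3 / 2 * (kap0 * PE b) * (t ^ (2 / 3 : ℝ) * wt A t) := by
      rw [← integral_add hI2 hI3]
      refine setIntegral_congr_fun measurableSet_Ioi fun t _ => ?_
      ring
    rw [P3_eq hA0, e2, integral_const_mul, hv1, Real.Gamma_add_one (by norm_num)]
    unfold kap0
    ring
  rw [e1, ← Real.norm_eq_abs]
  refine (norm_integral_le_integral_norm _).trans ?_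
  refine (setIntegral_mono_on hI2.norm hI1 measurableSet_Ioi hbound).trans ?_
  rw [integral_add (hi2.const_mul K) (hi3.const_mul _), integral_const_mul, integral_const_mul,
    hv2, hv3]
  have e3 : A ^ (-(1 / 2) : ℝ) * A ^ (5 / 6 : ℝ) = A ^ (1 / 3 : ℝ) := by
    rw [← Real.rpow_add hA0]; norm_num
  have hg1 : 0 < Real.Gamma (1 / 3 + 1) := Real.Gamma_pos_of_pos (by norm_num)
  have hg2 : 0 < Real.Gamma (5 / 6 + 1) := Real.Gamma_pos_of_pos (by norm_num)
  calc K * (A ^ (1 / 3 : ℝ) * Real.Gamma (1 / 3 + 1)) +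
        K * A ^ (-(1 / 2) : ℝ) * (A ^ (5 / 6 : ℝ) * Real.Gamma (5 / 6 + 1)) =
      K * ((A ^ (1 / 3 : ℝ)) * (Real.Gamma (1 / 3 + 1))) +
        K * ((A ^ (-(1 / 2) : ℝ) * A ^ (5 / 6 : ℝ)) * Real.Gamma (5 / 6 + 1)) := by ring
    _ = 20000000 * (Real.Gamma (1 / 3 + 1) + Real.Gamma (5 / 6 + 1)) * sig b *
        A ^ (1 / 3 : ℝ) * (1 + Real.log A) := by rw [e3, hK]; ring
    _ ≤ 20000000 * (Real.Gamma (1 / 3 + 1) + Real.Gamma (5 / 6 + 1)) * (tau b : ℝ) ^ 1 *
        A ^ ((1 : ℝ) / 3) * (1 + Real.log A) := by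
        rw [pow_one]
        gcongr
        exact sig_le_tau hb0

end Crest.Agent.R012.T3_85
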