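import Crest.Agent.R012.TDec_411
import Crest.Agent.R012.EdgeA_79
import Crest.Agent.R012.PairSum_286_Mg
import Crest.Agent.R012.T3_85

-- ▼ part R012/T13_541
section

/-!
# Row 12, part (T): (T13), the combination `S1 - S3`: the main terms cancel (helper541)
-/

set_option autoImplicit false

noncomputable section

namespace Crest.Agent.R012.T13x541

open Eis Mob705 Div277 T411

local notation "cj" => starRingEnd ℂ

/-! ### elementary bounds -/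

lemma pC_pos : 0 < pC := by
  unfold pC
  have := Real.Gamma_pos_of_pos (show (0 : ℝ) < 2 / 3 by norm_num)
  positivity

lemma norm_P1_le {A : ℝ} (hA : 1 ≤ A) {b₁ b₂ : Eis} (h₁ : IsPrim b₁) (h₂ : IsPrim b₂) :
    ‖P1 A b₁ b₂‖ ≤ 101 * A := by
  classical
  have hA0 : 0 < A := by linarith
  have hs : Summable (fun a : Eis => Real.exp (-(nm a : ℝ) / A)) := summable_exp hA0
  have h1 : ‖P1 A b₁ b₂‖ ≤ ∑' a : Eis, Real.exp (-(nm a : ℝ) / A) := by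
    unfold P1
    refine tsum_of_norm_bounded hs.hasSum (fun a => ?_)
    split_ifs
    · rw [norm_mul, Complex.norm_real, Real.norm_eq_abs, abs_of_pos (Real.exp_pos _)]
      refine mul_le_of_le_one_right (Real.exp_pos _).le ?_
      rw [norm_mul, RCLike.norm_conj]
      exact mul_le_one₀ (norm_term_le h₁) (norm_nonneg _) (norm_term_le h₂)
    · rw [norm_zero]; exact (Real.exp_pos _).le
  have h2 := Edge79.tsum_exp_le (c := 1 / A) (by positivity)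
  have h3 : (fun a : Eis => Real.exp (-(nm a : ℝ) / A)) =
      fun h : Eis => Real.exp (-(1 / A * nm h)) := by
    funext a; congr 1; ring
  rw [h3] at h1
  have h4 : 1 + 100 / (1 / A) = 1 + 100 * A := by field_simp
  rw [h4] at h2
  linarith

/-- moments of `tau` over a set of primary `b`, `nm b ≤ 2B`. -/
lemma sum_tau_le (k : ℕ) {A B : ℝ} (hA : 1 ≤ A) (hB : 1 ≤ B) {𝓑 : Finset Eis}
    (h1 : ∀ b ∈ 𝓑, b ≠ 0) (h2 : ∀ b ∈ 𝓑, (nm b : ℝ) ≤ 2 * B) :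
    ∑ b ∈ 𝓑, (tau b : ℝ) ^ k ≤ 2 * B * (200 * (1 + Real.log (A * B))) ^ (2 ^ k) := by
  have hsub : 𝓑 ⊆ nz ⌊2 * B⌋₊ := fun b hb => by
    rw [mem_nz]; exact ⟨h1 b hb, Nat.le_floor (h2 b hb)⟩
  refine (Finset.sum_le_sum_of_subset_of_nonneg hsub (fun _ _ _ => by positivity)).trans ?_
  refine (sum_tau_pow_le k _).trans ?_
  have h3 : (⌊2 * B⌋₊ : ℝ) ≤ 2 * B := Nat.floor_le (by linarith)
  have h4 : (1 : ℝ) ≤ ⌊2 * B⌋₊ := by
    have : 1 ≤ ⌊2 * B⌋₊ := Nat.le_floor (by push_cast; linarith)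
    exact_mod_cast this
  have h5 : Real.log (⌊2 * B⌋₊ : ℝ) ≤ Real.log (2 * B) := Real.log_le_log (by linarith) h3
  have h6 : Real.log (2 * B) = Real.log 2 + Real.log B := Real.log_mul (by norm_num) (by linarith)
  have h7 : Real.log 2 ≤ 1 := by linarith [Real.log_two_lt_d9]
  have h8 : Real.log B ≤ Real.log (A * B) := Real.log_le_log (by linarith) (by nlinarith)
  have h9 : 0 ≤ Real.log (⌊2 * B⌋₊ : ℝ) := Real.log_nonneg h4
  have h10 : 0 ≤ Real.log B := Real.log_nonneg hB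
  refine mul_le_mul h3 (pow_le_pow_left₀ (by positivity) (by linarith) _) (by positivity)
    (by linarith)

lemma RHSd_nonneg {A B : ℝ} (hA : 0 ≤ A) (hB : 0 ≤ B) (𝓑 : Finset Eis) (β : Eis → ℂ) :
    0 ≤ RHSd A B 𝓑 β := by
  classical
  unfold RHSd
  refine Finset.sum_nonneg fun e _ => Finset.sum_nonneg fun f _ => Finset.sum_nonneg fun g _ => ?_
  refine mul_nonneg (by positivity) (MeasureTheory.integral_nonneg fun u => ?_)
  refine mul_nonneg (by positivity) (tsum_nonneg fun h => ?_)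
  split_ifs
  · refine mul_nonneg ?_ (by positivity)
    unfold om
    refine le_min (Real.rpow_nonneg (by positivity) _) (Real.rpow_nonneg (by positivity) _)
  · exact le_rfl

/-- constant of the main term of `P3`. -/
def c3 : ℝ := 2 * Real.pi / (9 * Real.sqrt 3) * Real.Gamma (2 / 3)

lemma c3_pos : 0 < c3 := by
  unfold c3
  have := Real.Gamma_pos_of_pos (show (0 : ℝ) < 2 / 3 by norm_num)
  have := Real.pi_pos
  positivity

/-- the `S3` pair term. -/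
def Q (A : ℝ) (b₁ b₂ : Eis) : ℝ :=
  pC ^ 2 * ((nm b₁ : ℝ) * nm b₂) ^ (-(1 : ℝ) / 6) * P3 A (b₁ * b₂)

lemma MM_sub_Q (A : ℝ) (b₁ b₂ : Eis) :
    MM A b₁ b₂ - Q A b₁ b₂ = -(pC ^ 2 * ((nm b₁ : ℝ) * nm b₂) ^ (-(1 : ℝ) / 6) *
      (P3 A (b₁ * b₂) - 2 * Real.pi / (9 * Real.sqrt 3) * Real.Gamma (2 / 3) * PE (b₁ * b₂) *
        A ^ ((2 : ℝ) / 3))) := by
  unfold MM Q cM; ring

/-- size of the weight. -/
lemma wt_le {B : ℝ} (hB : 1 ≤ B) {b₁ b₂ : Eis} (h₁ : B < nm b₁) (h₂ : B < nm b₂) :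
    ((nm b₁ : ℝ) * nm b₂) ^ (-(1 : ℝ) / 6) ≤ B ^ (-(1 : ℝ) / 3) := by
  have hB0 : 0 < B := by linarith
  have h : B ^ (2 : ℝ) ≤ (nm b₁ : ℝ) * nm b₂ := by
    rw [Real.rpow_two]; nlinarith
  calc ((nm b₁ : ℝ) * nm b₂) ^ (-(1 : ℝ) / 6) ≤ (B ^ (2 : ℝ)) ^ (-(1 : ℝ) / 6) :=
        Real.rpow_le_rpow_of_nonpos (by positivity) h (by norm_num)
    _ = B ^ (-(1 : ℝ) / 3) := by rw [← Real.rpow_mul hB0.le]; norm_num

lemma pow_L_le {L : ℝ} (hL : 1 ≤ L) {m n : ℕ} (h : m ≤ n) : L ^ m ≤ L ^ n :=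
  pow_le_pow_right₀ hL h

set_option maxHeartbeats 1600000 in
theorem t13_of (hx : T1x) (hc : T1c) (hd : T1d) (h3 : T3) : T13 := by
  classical
  obtain ⟨C1', k1, hc⟩ := hc
  obtain ⟨Cd, hCd, hd⟩ := hd
  obtain ⟨C3', k3, h3⟩ := h3
  obtain ⟨Cp, cp, hCp, hps⟩ := PairSum286.pair_sum_mul k1
  -- nonnegative constants
  set C1 : ℝ := max C1' 0 with hC1
  set C3 : ℝ := max C3' 0 with hC3
  have hC1n : 0 ≤ C1 := le_max_right _ _
  have hC3n : 0 ≤ C3 := le_max_right _ _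
  have hpC := pC_pos
  have hc3 := c3_pos
  -- exponent
  set K : ℕ := 4 + cp + (1 + (2 ^ k3 + 2 ^ k3)) with hK
  set Cf : ℝ := 101 * 400 + pC ^ 2 * c3 * 400 + C1 * Cp +
    pC ^ 2 * C3 * (4 * ((200 : ℝ) ^ (2 ^ k3) * (200 : ℝ) ^ (2 ^ k3))) + Cd * (2 * (200 : ℝ) ^ 4) + Cd
    with hCf
  refine ⟨Cf, K, by positivity, by positivity, ?_⟩
  intro A B 𝓑 β hA hB hcls
  have hA0 : 0 < A := by linarith
  have hB0 : 0 < B := by linarith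
  have hAB : 1 ≤ A * B := by nlinarith
  set L : ℝ := 1 + Real.log (A * B) with hL
  have hL1 : 1 ≤ L := by
    have := Real.log_nonneg hAB
    linarith
  have hlA : 1 + Real.log A ≤ L := by
    have : Real.log A ≤ Real.log (A * B) := Real.log_le_log hA0 (by nlinarith)
    linarith
  have hlA0 : 0 ≤ 1 + Real.log A := by
    have := Real.log_nonneg hA
    linarith
  have hlB : 1 + Real.log B ≤ L := by
    have : Real.log B ≤ Real.log (A * B) := Real.log_le_log hB0 (by nlinarith)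
    linarith
  have hlB0 : 0 ≤ 1 + Real.log B := by
    have := Real.log_nonneg hB
    linarith
  have hprim : ∀ b ∈ 𝓑, IsPrim b := fun b hb => (hcls.sq b hb).1
  have hne : ∀ b ∈ 𝓑, b ≠ 0 := fun b hb => (hprim b hb).ne_zero
  have htau : ∀ k : ℕ, ∑ b ∈ 𝓑, (tau b : ℝ) ^ k ≤ 2 * B * (200 * L) ^ (2 ^ k) :=
    fun k => sum_tau_le k hA hB hne hcls.hi
  -- pieces
  set err : Eis → Eis → ℝ := fun b₁ b₂ =>
    (if b₁ = b₂ then 101 * A + pC ^ 2 * B ^ (-(1 : ℝ) / 3) * (c3 * A ^ ((2 : ℝ) / 3)) else 0) +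
    C1 * A / B * ((tau b₁ : ℝ) ^ k1 * (tau b₂ : ℝ) ^ k1 * nm (gE b₁ b₂)) +
    pC ^ 2 * B ^ (-(1 : ℝ) / 3) * C3 * A ^ ((1 : ℝ) / 3) * L *
      ((tau b₁ : ℝ) ^ k3 * (tau b₂ : ℝ) ^ k3) with herr
  have hAr : 0 < A ^ ((2 : ℝ) / 3) := Real.rpow_pos_of_pos hA0 _
  have hAr' : 0 < A ^ ((1 : ℝ) / 3) := Real.rpow_pos_of_pos hA0 _
  have hBr : 0 < B ^ (-(1 : ℝ) / 3) := Real.rpow_pos_of_pos hB0 _
  -- bound of the T3 error
  have hQ3 : ∀ b₁ ∈ 𝓑, ∀ b₂ ∈ 𝓑, |pC ^ 2 * ((nm b₁ : ℝ) * nm b₂) ^ (-(1 : ℝ) / 6) *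
      (P3 A (b₁ * b₂) - 2 * Real.pi / (9 * Real.sqrt 3) * Real.Gamma (2 / 3) * PE (b₁ * b₂) *
        A ^ ((2 : ℝ) / 3))| ≤ pC ^ 2 * B ^ (-(1 : ℝ) / 3) * C3 * A ^ ((1 : ℝ) / 3) * L *
      ((tau b₁ : ℝ) ^ k3 * (tau b₂ : ℝ) ^ k3) := by
    intro b₁ hb₁ b₂ hb₂
    have e1 := h3 A (b₁ * b₂) hA ((hprim b₁ hb₁).mul (hprim b₂ hb₂))
    have e2 := wt_le hB (hcls.lo b₁ hb₁) (hcls.lo b₂ hb₂)
    have e3 : (0 : ℝ) ≤ ((nm b₁ : ℝ) * nm b₂) ^ (-(1 : ℝ) / 6) :=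
      Real.rpow_nonneg (by positivity) _
    have e4 : (tau (b₁ * b₂) : ℝ) ^ k3 ≤ (tau b₁ : ℝ) ^ k3 * (tau b₂ : ℝ) ^ k3 := by
      rw [← mul_pow]
      gcongr
      exact_mod_cast tau_mul_le b₁ b₂
    rw [abs_mul, abs_of_nonneg (mul_nonneg (by positivity) e3)]
    have e5 : |P3 A (b₁ * b₂) - 2 * Real.pi / (9 * Real.sqrt 3) * Real.Gamma (2 / 3) *
        PE (b₁ * b₂) * A ^ ((2 : ℝ) / 3)| ≤
        C3 * ((tau b₁ : ℝ) ^ k3 * (tau b₂ : ℝ) ^ k3) * A ^ ((1 : ℝ) / 3) * L := by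
      refine e1.trans ?_
      have : C3' * (tau (b₁ * b₂) : ℝ) ^ k3 ≤ C3 * ((tau b₁ : ℝ) ^ k3 * (tau b₂ : ℝ) ^ k3) :=
        (mul_le_mul_of_nonneg_right (le_max_left _ _) (by positivity)).trans
          (mul_le_mul_of_nonneg_left e4 hC3n)
      have h0 : 0 ≤ C3 * ((tau b₁ : ℝ) ^ k3 * (tau b₂ : ℝ) ^ k3) := by positivity
      exact mul_le_mul (mul_le_mul_of_nonneg_right this hAr'.le) hlA hlA0
        (mul_nonneg h0 hAr'.le)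
    calc pC ^ 2 * ((nm b₁ : ℝ) * nm b₂) ^ (-(1 : ℝ) / 6) * _
        ≤ pC ^ 2 * B ^ (-(1 : ℝ) / 3) *
          (C3 * ((tau b₁ : ℝ) ^ k3 * (tau b₂ : ℝ) ^ k3) * A ^ ((1 : ℝ) / 3) * L) :=
          mul_le_mul (mul_le_mul_of_nonneg_left e2 (by positivity)) e5 (abs_nonneg _)
            (by positivity)
      _ = _ := by ring
  -- pointwise decomposition
  have hdec : ∀ b₁ ∈ 𝓑, ∀ b₂ ∈ 𝓑, ‖β b₁ * cj (β b₂) * (P1 A b₁ b₂ - (Q A b₁ b₂ : ℂ)) -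
      (if b₁ = b₂ then 0 else β b₁ * cj (β b₂) * NP A b₁ b₂)‖ ≤ err b₁ b₂ := by
    intro b₁ hb₁ b₂ hb₂
    have hβ : ‖β b₁ * cj (β b₂)‖ ≤ 1 := by
      rw [norm_mul, RCLike.norm_conj]
      exact mul_le_one₀ (hcls.le b₁) (norm_nonneg _) (hcls.le b₂)
    have hq := hQ3 b₁ hb₁ b₂ hb₂
    have hg0 : 0 ≤ C1 * A / B * ((tau b₁ : ℝ) ^ k1 * (tau b₂ : ℝ) ^ k1 * nm (gE b₁ b₂)) := by
      positivity
    by_cases hb : b₁ = b₂
    · simp only [herr, if_pos hb, sub_zero]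
      rw [norm_mul]
      refine (mul_le_of_le_one_left (norm_nonneg _) hβ).trans ((norm_sub_le _ _).trans ?_)
      have e1 := norm_P1_le hA (hprim b₁ hb₁) (hprim b₂ hb₂)
      have e2 : ‖(Q A b₁ b₂ : ℂ)‖ ≤ pC ^ 2 * B ^ (-(1 : ℝ) / 3) * (c3 * A ^ ((2 : ℝ) / 3)) +
          pC ^ 2 * B ^ (-(1 : ℝ) / 3) * C3 * A ^ ((1 : ℝ) / 3) * L *
          ((tau b₁ : ℝ) ^ k3 * (tau b₂ : ℝ) ^ k3) := by
        rw [Complex.norm_real, Real.norm_eq_abs]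
        have e3 : Q A b₁ b₂ = MM A b₁ b₂ - (MM A b₁ b₂ - Q A b₁ b₂) := by ring
        rw [e3, MM_sub_Q]
        refine (abs_sub _ _).trans (add_le_add ?_ ?_)
        · have hp0 := (PE_pos (b₁ * b₂)).le
          have hp1 := PE_le_one (b₁ * b₂)
          have e5 := wt_le hB (hcls.lo b₁ hb₁) (hcls.lo b₂ hb₂)
          have e6 : (0 : ℝ) ≤ ((nm b₁ : ℝ) * nm b₂) ^ (-(1 : ℝ) / 6) :=
            Real.rpow_nonneg (by positivity) _
          have e4 : MM A b₁ b₂ = pC ^ 2 * ((nm b₁ : ℝ) * nm b₂) ^ (-(1 : ℝ) / 6) *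
              (c3 * A ^ ((2 : ℝ) / 3)) * PE (b₁ * b₂) := by
            unfold MM cM c3; ring
          rw [e4, abs_of_nonneg (by positivity)]
          refine (mul_le_of_le_one_right (by positivity) hp1).trans ?_
          gcongr
        · rw [abs_neg]; exact hq
      linarith
    · have hT := hx A b₁ b₂ hA0 (hcls.sq b₁ hb₁) (hcls.sq b₂ hb₂) hb
      have hCc := hc A b₁ b₂ hA (hcls.sq b₁ hb₁) (hcls.sq b₂ hb₂) hb
      simp only [herr, if_neg hb, zero_add]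
      have e1 : β b₁ * cj (β b₂) * (P1 A b₁ b₂ - (Q A b₁ b₂ : ℂ)) -
          β b₁ * cj (β b₂) * NP A b₁ b₂ =
          β b₁ * cj (β b₂) * ((CP A b₁ b₂ - (MM A b₁ b₂ : ℂ)) +
            ((MM A b₁ b₂ - Q A b₁ b₂ : ℝ) : ℂ)) := by
        rw [hT]; push_cast; ring
      rw [e1, norm_mul]
      refine (mul_le_of_le_one_left (norm_nonneg _) hβ).trans
        ((norm_add_le _ _).trans (add_le_add ?_ ?_))
      · refine hCc.trans ?_
        have e4 : (tau (b₁ * b₂) : ℝ) ^ k1 ≤ (tau b₁ : ℝ) ^ k1 * (tau b₂ : ℝ) ^ k1 := by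
          rw [← mul_pow]
          gcongr
          exact_mod_cast tau_mul_le b₁ b₂
        have e5 : B ≤ Real.sqrt ((nm b₁ : ℝ) * nm b₂) := by
          apply Real.le_sqrt_of_sq_le
          have := hcls.lo b₁ hb₁
          have := hcls.lo b₂ hb₂
          nlinarith
        have e6 : C1' * A * (tau (b₁ * b₂) : ℝ) ^ k1 * nm (gE b₁ b₂) ≤
            C1 * A * ((tau b₁ : ℝ) ^ k1 * (tau b₂ : ℝ) ^ k1) * nm (gE b₁ b₂) := by
          refine mul_le_mul_of_nonneg_right ?_ (by positivity)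
          refine mul_le_mul ?_ e4 (by positivity) (by positivity)
          exact mul_le_mul_of_nonneg_right (le_max_left _ _) hA0.le
        calc C1' * A * (tau (b₁ * b₂) : ℝ) ^ k1 * nm (gE b₁ b₂) / Real.sqrt ((nm b₁ : ℝ) * nm b₂)
            ≤ C1 * A * ((tau b₁ : ℝ) ^ k1 * (tau b₂ : ℝ) ^ k1) * nm (gE b₁ b₂) /
              Real.sqrt ((nm b₁ : ℝ) * nm b₂) :=
              div_le_div_of_nonneg_right e6 (Real.sqrt_nonneg _)
          _ ≤ C1 * A * ((tau b₁ : ℝ) ^ k1 * (tau b₂ : ℝ) ^ k1) * nm (gE b₁ b₂) / B :=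
              div_le_div_of_nonneg_left (by positivity) hB0 e5
          _ = _ := by ring
      · rw [Complex.norm_real, Real.norm_eq_abs, MM_sub_Q, abs_neg]
        exact hq
  -- summation
  have hsum : ‖∑ b₁ ∈ 𝓑, ∑ b₂ ∈ 𝓑, β b₁ * cj (β b₂) * (P1 A b₁ b₂ - (Q A b₁ b₂ : ℂ))‖ ≤
      ∑ b₁ ∈ 𝓑, ∑ b₂ ∈ 𝓑, err b₁ b₂ +
      ‖∑ b₁ ∈ 𝓑, ∑ b₂ ∈ 𝓑.erase b₁, β b₁ * cj (β b₂) * NP A b₁ b₂‖ := by
    have e1 : ∑ b₁ ∈ 𝓑, ∑ b₂ ∈ 𝓑.erase b₁, β b₁ * cj (β b₂) * NP A b₁ b₂ =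
        ∑ b₁ ∈ 𝓑, ∑ b₂ ∈ 𝓑, (if b₁ = b₂ then 0 else β b₁ * cj (β b₂) * NP A b₁ b₂) := by
      refine Finset.sum_congr rfl fun b₁ hb₁ => ?_
      rw [← Finset.add_sum_erase _ _ hb₁, if_pos rfl, zero_add]
      refine Finset.sum_congr rfl fun b₂ hb₂ => ?_
      rw [if_neg (Ne.symm (Finset.ne_of_mem_erase hb₂))]
    rw [e1]
    have e2 : ∑ b₁ ∈ 𝓑, ∑ b₂ ∈ 𝓑, β b₁ * cj (β b₂) * (P1 A b₁ b₂ - (Q A b₁ b₂ : ℂ)) =
        ∑ b₁ ∈ 𝓑, ∑ b₂ ∈ 𝓑, (β b₁ * cj (β b₂) * (P1 A b₁ b₂ - (Q A b₁ b₂ : ℂ)) -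
          (if b₁ = b₂ then 0 else β b₁ * cj (β b₂) * NP A b₁ b₂)) +
        ∑ b₁ ∈ 𝓑, ∑ b₂ ∈ 𝓑, (if b₁ = b₂ then 0 else β b₁ * cj (β b₂) * NP A b₁ b₂) := by
      simp_rw [Finset.sum_sub_distrib]
      ring
    rw [e2]
    refine (norm_add_le _ _).trans (add_le_add ?_ le_rfl)
    refine (norm_sum_le _ _).trans (Finset.sum_le_sum fun b₁ hb₁ => ?_)
    exact (norm_sum_le _ _).trans (Finset.sum_le_sum fun b₂ hb₂ => hdec b₁ hb₁ b₂ hb₂)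
  -- the error sum
  have hcard : (𝓑.card : ℝ) ≤ 2 * B * (200 * L) := by
    have := htau 0
    simpa using this
  have hE : ∑ b₁ ∈ 𝓑, ∑ b₂ ∈ 𝓑, err b₁ b₂ ≤
      (2 * B * (200 * L)) * (101 * A + pC ^ 2 * B ^ (-(1 : ℝ) / 3) * (c3 * A ^ ((2 : ℝ) / 3))) +
      C1 * A / B * (Cp * B ^ 2 * L ^ cp) +
      pC ^ 2 * B ^ (-(1 : ℝ) / 3) * C3 * A ^ ((1 : ℝ) / 3) * L *
        ((2 * B * (200 * L) ^ (2 ^ k3)) * (2 * B * (200 * L) ^ (2 ^ k3))) := by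
    simp only [herr, Finset.sum_add_distrib, ← Finset.mul_sum]
    refine add_le_add (add_le_add ?_ ?_) ?_
    · have : ∀ b₁ ∈ 𝓑, ∑ b₂ ∈ 𝓑, (if b₁ = b₂ then 101 * A + pC ^ 2 * B ^ (-(1 : ℝ) / 3) *
          (c3 * A ^ ((2 : ℝ) / 3)) else 0) = 101 * A + pC ^ 2 * B ^ (-(1 : ℝ) / 3) *
          (c3 * A ^ ((2 : ℝ) / 3)) := fun b₁ hb₁ => by
        rw [Finset.sum_ite_eq, if_pos hb₁]
      rw [Finset.sum_congr rfl this, Finset.sum_const, nsmul_eq_mul]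
      exact mul_le_mul_of_nonneg_right hcard (by positivity)
    · refine mul_le_mul_of_nonneg_left ?_ (by positivity)
      refine (hps B 𝓑 hB hcls.sq hcls.hi).trans ?_
      gcongr
    · refine mul_le_mul_of_nonneg_left ?_ (by positivity)
      rw [← Finset.sum_mul]
      exact mul_le_mul (htau k3) (htau k3) (Finset.sum_nonneg fun _ _ => by positivity)
        (by positivity)
  have hNP : ‖∑ b₁ ∈ 𝓑, ∑ b₂ ∈ 𝓑.erase b₁, β b₁ * cj (β b₂) * NP A b₁ b₂‖ ≤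
      Cd * (2 * B * (200 * L) ^ 4) + Cd * RHSd A B 𝓑 β := by
    refine (hd A B 𝓑 β hA hB hcls).trans (add_le_add (mul_le_mul_of_nonneg_left ?_ hCd.le) le_rfl)
    have h4 := htau 2
    refine le_trans (Finset.sum_le_sum fun b hb => ?_) h4
    exact mul_le_of_le_one_left (by positivity) (pow_le_one₀ (norm_nonneg _) (hcls.le b))
  -- final algebra
  have hR := RHSd_nonneg hA0.le hB0.le 𝓑 β
  have hgoal : ‖∑ b₁ ∈ 𝓑, ∑ b₂ ∈ 𝓑, β b₁ * cj (β b₂) * (P1 A b₁ b₂ - (Q A b₁ b₂ : ℂ))‖ ≤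
      Cf * L ^ K * (A * B + A ^ ((2 : ℝ) / 3) * B ^ ((2 : ℝ) / 3) +
        A ^ ((1 : ℝ) / 3) * B ^ ((5 : ℝ) / 3)) + Cf * RHSd A B 𝓑 β := by
    refine (hsum.trans (add_le_add hE hNP)).trans ?_
    have r1 : B ^ (-(1 : ℝ) / 3) * B = B ^ ((2 : ℝ) / 3) := by
      rw [← Real.rpow_add_one hB0.ne']; norm_num
    have r2 : B ^ (-(1 : ℝ) / 3) * (B * B) = B ^ ((5 : ℝ) / 3) := by
      rw [← mul_assoc, r1, ← Real.rpow_add_one hB0.ne']; norm_num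
    have hB2 : 0 < B ^ ((2 : ℝ) / 3) := Real.rpow_pos_of_pos hB0 _
    have hB5 : 0 < B ^ ((5 : ℝ) / 3) := Real.rpow_pos_of_pos hB0 _
    set X1 : ℝ := A * B with hX1
    set X2 : ℝ := A ^ ((2 : ℝ) / 3) * B ^ ((2 : ℝ) / 3) with hX2
    set X3 : ℝ := A ^ ((1 : ℝ) / 3) * B ^ ((5 : ℝ) / 3) with hX3
    have hX1p : 0 < X1 := by positivity
    have hX2p : 0 < X2 := by positivity
    have hX3p : 0 < X3 := by positivity
    have t1 : (2 * B * (200 * L)) * (101 * A + pC ^ 2 * B ^ (-(1 : ℝ) / 3) *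
        (c3 * A ^ ((2 : ℝ) / 3))) = 101 * 400 * L ^ 1 * X1 + pC ^ 2 * c3 * 400 * L ^ 1 * X2 := by
      rw [hX2, ← r1, hX1]; ring
    have t2 : C1 * A / B * (Cp * B ^ 2 * L ^ cp) = C1 * Cp * L ^ cp * X1 := by
      rw [hX1]; field_simp
    have t3 : pC ^ 2 * B ^ (-(1 : ℝ) / 3) * C3 * A ^ ((1 : ℝ) / 3) * L *
        ((2 * B * (200 * L) ^ (2 ^ k3)) * (2 * B * (200 * L) ^ (2 ^ k3))) =
        pC ^ 2 * C3 * (4 * ((200 : ℝ) ^ (2 ^ k3) * (200 : ℝ) ^ (2 ^ k3))) *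
          L ^ (1 + (2 ^ k3 + 2 ^ k3)) * X3 := by
      rw [hX3, ← r2, mul_pow, pow_add, pow_add, pow_one]; ring
    have t4 : Cd * (2 * B * (200 * L) ^ 4) ≤ Cd * (2 * (200 : ℝ) ^ 4) * L ^ 4 * X1 := by
      have : Cd * (2 * B * (200 * L) ^ 4) = Cd * (2 * (200 : ℝ) ^ 4) * L ^ 4 * B := by ring
      rw [this]
      refine mul_le_mul_of_nonneg_left ?_ (by positivity)
      rw [hX1]; nlinarith
    rw [t1, t2, t3]
    have hpk : 0 < (2 : ℕ) ^ k3 := Nat.two_pow_pos k3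
    have p1 : L ^ 1 ≤ L ^ K := pow_L_le hL1 (by omega)
    have p2 : L ^ cp ≤ L ^ K := pow_L_le hL1 (by omega)
    have p3 : L ^ (1 + (2 ^ k3 + 2 ^ k3)) ≤ L ^ K := pow_L_le hL1 (by omega)
    have p4 : L ^ 4 ≤ L ^ K := pow_L_le hL1 (by omega)
    have hLK : 0 < L ^ K := by positivity
    set S : ℝ := X1 + X2 + X3 with hS
    have s1 : X1 ≤ S := by linarith
    have s2 : X2 ≤ S := by linarith
    have s3 : X3 ≤ S := by linarith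
    have q1 : 101 * 400 * L ^ 1 * X1 ≤ 101 * 400 * (L ^ K * S) := by
      rw [mul_assoc]; gcongr
    have q2 : pC ^ 2 * c3 * 400 * L ^ 1 * X2 ≤ pC ^ 2 * c3 * 400 * (L ^ K * S) := by
      rw [mul_assoc (pC ^ 2 * c3 * 400)]; gcongr
    have q3 : C1 * Cp * L ^ cp * X1 ≤ C1 * Cp * (L ^ K * S) := by
      rw [mul_assoc (C1 * Cp)]; gcongr
    have q4 : pC ^ 2 * C3 * (4 * ((200 : ℝ) ^ (2 ^ k3) * (200 : ℝ) ^ (2 ^ k3))) *
          L ^ (1 + (2 ^ k3 + 2 ^ k3)) * X3 ≤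
        pC ^ 2 * C3 * (4 * ((200 : ℝ) ^ (2 ^ k3) * (200 : ℝ) ^ (2 ^ k3))) * (L ^ K * S) := by
      rw [mul_assoc (pC ^ 2 * C3 * (4 * ((200 : ℝ) ^ (2 ^ k3) * (200 : ℝ) ^ (2 ^ k3))))]; gcongr
    have q5 : Cd * (2 * (200 : ℝ) ^ 4) * L ^ 4 * X1 ≤ Cd * (2 * (200 : ℝ) ^ 4) * (L ^ K * S) := by
      rw [mul_assoc (Cd * (2 * (200 : ℝ) ^ 4))]; gcongr
    have q6 : Cd * RHSd A B 𝓑 β ≤ Cf * RHSd A B 𝓑 β := by
      refine mul_le_mul_of_nonneg_right ?_ hR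
      rw [hCf]
      have : 0 ≤ 101 * 400 + pC ^ 2 * c3 * 400 + C1 * Cp +
        pC ^ 2 * C3 * (4 * ((200 : ℝ) ^ (2 ^ k3) * (200 : ℝ) ^ (2 ^ k3))) +
        Cd * (2 * (200 : ℝ) ^ 4) := by positivity
      linarith
    have q7 : 0 ≤ Cd * (L ^ K * S) := by positivity
    have q8 : Cf * L ^ K * S = 101 * 400 * (L ^ K * S) + pC ^ 2 * c3 * 400 * (L ^ K * S) +
        C1 * Cp * (L ^ K * S) +
        pC ^ 2 * C3 * (4 * ((200 : ℝ) ^ (2 ^ k3) * (200 : ℝ) ^ (2 ^ k3))) * (L ^ K * S) +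
        Cd * (2 * (200 : ℝ) ^ 4) * (L ^ K * S) + Cd * (L ^ K * S) := by
      rw [hCf]; ring
    rw [q8]
    linarith
  rw [Real.rpow_natCast]
  exact hgoal

/-- (T13) from the two remaining inputs (T1c) and (T3). -/
theorem t13_of_t1c_t3 (hc : T1c) (h3 : T3) : T13 := t13_of T1x671.t1x hc T1d671.t1d h3

end Crest.Agent.R012.T13x541
end
end

-- ▼ part R012/T13Fin_541

/-!
# Row 12, part (T): (T13) holds (helper541)
-/

set_option autoImplicit false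

namespace Crest.Agent.R012.T13x541

/-- (T13), unconditional. -/
theorem t13 : T411.T13 := t13_of_t1c_t3 T1c413.t1c T3_85.T3_proof

end Crest.Agent.R012.T13x541
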