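import Crest.Agent.R012.PC_355
import Crest.Agent.R012.PSer_47

/-!
# Row 12, part (P): packaging of Siegel–Walfisz over `ℤ[ω]` (helper355)

* `PT_Prop` : Siegel–Walfisz for an abstract completely multiplicative `ψ` with small partial sums
  (proved by the chain PSer_47, P2, P34_994, PInv_255).
* `SW_of_PT` : the same for `χ * ang l * nm^{it}`, `χ` periodic modulo `M ≤ (log x)^C`.
-/

set_option autoImplicit false

noncomputable section

open Complex

namespace Crest.Agent.R012.P355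

open Crest.Agent.R012 Eis PSer47

open Classical in
/-- Siegel–Walfisz for an abstract completely multiplicative `ψ` with small partial sums -/
def PT_Prop : Prop := ∀ A C : ℕ, ∃ K : ℝ, 0 < K ∧ ∀ (ψ : Eis → ℂ) (Q : ℝ), IsChar ψ → 1 ≤ Q →
  (∀ N : ℕ, ‖∑ b ∈ primBall N, ψ b‖ ≤ Q * Real.sqrt N) →
  (∀ N : ℕ, ‖∑ b ∈ primBall N, ψ b ^ 2‖ ≤ Q * Real.sqrt N) →
  ∀ x t : ℝ, 2 ≤ x → Q * (|t| + 2) ≤ Real.log x ^ C →
    ‖∑ p ∈ (primBall ⌊x⌋₊).filter (fun p => Prime p), ψ p * (nm p : ℂ) ^ ((t : ℂ) * I)‖ ≤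
      K * x / Real.log x ^ A

lemma ang_sq (l : ℤ) (b : Eis) : ang l b ^ 2 = ang (2 * l) b := by
  unfold ang
  rw [← zpow_natCast, ← zpow_mul]
  congr 1
  push_cast
  ring

lemma norm_nm_cpow_le (b : Eis) (t : ℝ) (hb : IsPrim b) : ‖(nm b : ℂ) ^ ((t : ℂ) * I)‖ ≤ 1 :=
  (nmTwist_isChar t).norm_le hb

open Classical in
/-- trivial bound -/
lemma trivial_bound (ψ : Eis → ℂ) (h : ∀ b, IsPrim b → ‖ψ b‖ ≤ 1) {x : ℝ} (hx : 0 ≤ x) :
    ‖∑ p ∈ (primBall ⌊x⌋₊).filter (fun p => Prime p), ψ p‖ ≤ 25 * x := by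
  refine (norm_sum_le_of_le _ (n := fun _ => 1) ?_).trans ?_
  · intro b hb
    exact h b (mem_primBall.mp (Finset.mem_filter.mp hb).1).2
  · rw [Finset.sum_const, nsmul_eq_mul, mul_one]
    have h1 : (((primBall ⌊x⌋₊).filter (fun p => Prime p)).card : ℝ) ≤ (primBall ⌊x⌋₊).card := by
      exact_mod_cast Finset.card_filter_le _ _
    have h2 := C1 ⌊x⌋₊
    have h3 := Nat.floor_le hx
    linarith


end Crest.Agent.R012.P355
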