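import Crest.Agent.R012.PC_355
import Crest.Agent.R012.Quot_666
import Crest.Agent.R012.PFinal_355
import Crest.Agent.R012.Sym6_645
import Crest.Agent.SW.Engine3_259
import Mathlib
import Crest.Agent.R012.PSer_47
import Mathlib.NumberTheory.LSeries.SumCoeff
import Mathlib.NumberTheory.LSeries.Deriv
import Mathlib.NumberTheory.LSeries.Convolution
import Mathlib.NumberTheory.LSeries.Injectivity
import Mathlib.NumberTheory.Harmonic.Bounds
import Mathlib.NumberTheory.AbelSummation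

-- ▼ part R012/PC2_355
section

/-!
# Row 12, part (P): lattice counting modulo a general `q ∈ ℤ[ω]` (helper355)

`‖∑_{b ∈ ball N} X b * ang l b‖ ≤ C_l * √(nm q) * √N` for `X` periodic modulo `q`, `|X| ≤ 1`,
with `sumMod q X = 0` if `l = 0`.
-/

set_option autoImplicit false

noncomputable section

open Complex

namespace Crest.Agent.R012.P355

open Crest.Agent.R012 Eis

/-- a complete residue system consisting of small elements -/
lemma exists_small_crs {q : Eis} (hq : q ≠ 0) :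
    ∃ S : Finset Eis, IsCRS q S ∧ ∀ s ∈ S, nm s < nm q := by
  classical
  refine ⟨(crs q).image (fun s => s - q * quo s q), ?_, ?_⟩
  · have h := isCRS_crs hq
    rw [isCRS_iff] at h ⊢
    obtain ⟨h1, h2⟩ := h
    constructor
    · intro x
      obtain ⟨s, hs, hd⟩ := h1 x
      refine ⟨s - q * quo s q, Finset.mem_image_of_mem _ hs, ?_⟩
      have e : x - (s - q * quo s q) = (x - s) + q * quo s q := by ring
      rw [e]
      exact dvd_add hd (Dvd.intro _ rfl)
    · intro s hs t ht hd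
      obtain ⟨s', hs', rfl⟩ := Finset.mem_image.mp hs
      obtain ⟨t', ht', rfl⟩ := Finset.mem_image.mp ht
      have e : s' - t' = (s' - q * quo s' q - (t' - q * quo t' q)) + q * (quo s' q - quo t' q) := by
        ring
      have : s' = t' := h2 s' hs' t' ht' (by rw [e]; exact dvd_add hd (Dvd.intro _ rfl))
      rw [this]
  · intro s hs
    obtain ⟨s', hs', rfl⟩ := Finset.mem_image.mp hs
    exact nm_sub_quo_lt s' hq

lemma block_sum_q {q : Eis} (hq : q ≠ 0) {S : Finset Eis} (hS : IsCRS q S)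
    (hsm : ∀ s ∈ S, nm s < nm q) (N : ℕ) (F : Eis → ℂ) :
    ∑ b ∈ ball N, F b = ∑ k ∈ ball (4 * N + 4), ∑ s ∈ S,
      (if nm (q * k + s) ≤ N then F (q * k + s) else 0) := by
  classical
  rw [← Finset.sum_product', ← Finset.sum_filter]
  symm
  apply Finset.sum_nbij (fun kp => q * kp.1 + kp.2)
  · intro kp hkp
    rw [Finset.mem_filter] at hkp
    exact mem_ball.mpr hkp.2
  · intro a ha b hb hab
    rw [Finset.mem_coe, Finset.mem_filter, Finset.mem_product] at ha hb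
    simp only at hab
    have h1 : a.2 = b.2 := by
      apply hS.inj ha.1.2 hb.1.2
      refine ⟨b.1 - a.1, ?_⟩
      linear_combination hab
    have h2 : a.1 = b.1 := by
      rw [h1] at hab
      exact mul_left_cancel₀ hq (add_right_cancel hab)
    exact Prod.ext h2 h1
  · intro b hb
    rw [Finset.mem_coe, mem_ball] at hb
    obtain ⟨s, ⟨hs, k, hk⟩, -⟩ := hS b
    refine ⟨(k, s), ?_, ?_⟩
    · rw [Finset.mem_coe, Finset.mem_filter, Finset.mem_product]
      have hbk : q * k + s = b := by rw [← hk]; ring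
      refine ⟨⟨?_, hs⟩, by simp only; rw [hbk]; exact hb⟩
      simp only
      rw [mem_ball]
      have hqR : (1 : ℝ) ≤ ‖toC q‖ := by
        rw [norm_toC, Real.one_le_sqrt]; exact_mod_cast nm_pos.mpr hq
      have hsR : ‖toC s‖ ≤ ‖toC q‖ := by
        rw [norm_toC, norm_toC]; exact Real.sqrt_le_sqrt (by exact_mod_cast (hsm s hs).le)
      have h3 : ‖toC q‖ * ‖toC k‖ ≤ Real.sqrt N + ‖toC q‖ := by
        rw [← norm_mul, ← map_mul, ← hk, map_sub]
        refine (norm_sub_le _ _).trans ?_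
        have := norm_le_of_nm_le hb
        linarith
      have h6 : ‖toC k‖ ≤ Real.sqrt N + 1 := by
        have : ‖toC q‖ * ‖toC k‖ ≤ ‖toC q‖ * (Real.sqrt N + 1) := by
          nlinarith [Real.sqrt_nonneg (N : ℝ)]
        exact le_of_mul_le_mul_left this (by linarith)
      have h7 : ((nm k : ℕ) : ℝ) ≤ 4 * N + 4 := by
        rw [← norm_toC_sq]
        have hN2 : Real.sqrt N ^ 2 = N := Real.sq_sqrt (Nat.cast_nonneg N)
        nlinarith [norm_nonneg (toC k), Real.sqrt_nonneg (N : ℝ), sq_nonneg (Real.sqrt N - 1)]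
      exact_mod_cast h7
    · simp only; rw [← hk]; ring
  · intro _ _; rfl

/-- mean zero modulo `q`, for every angular character. -/
theorem mean_zero_bound_q (l : ℤ) {q : Eis} (hq : q ≠ 0) {X : Eis → ℂ} (hX : ∀ a, ‖X a‖ ≤ 1)
    (hper : PMod q X) (h0 : sumMod q X = 0) {N : ℕ} (hN : 1 ≤ N) :
    ‖∑ b ∈ ball N, X b * ang l b‖ ≤ (302 + 180 * |(l : ℝ)|) * Real.sqrt (nm q) * Real.sqrt N := by
  classical
  obtain ⟨S, hS, hsm⟩ := exists_small_crs hq
  rw [sumMod_eq_sum hS hper] at h0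
  rw [← norm_toC]
  set M : ℝ := ‖toC q‖ with hMdef
  have hsN : 1 ≤ Real.sqrt N := by
    rw [Real.one_le_sqrt]; exact_mod_cast hN
  have hMR : (1 : ℝ) ≤ M := by
    rw [hMdef, norm_toC, Real.one_le_sqrt]; exact_mod_cast nm_pos.mpr hq
  have hScard : (S.card : ℝ) = M ^ 2 := by
    rw [hS.card, hMdef, norm_toC_sq]
  have hl0 := abs_nonneg (l : ℝ)
  rcases lt_or_ge (Real.sqrt N) M with hcase | hcase
  · refine (norm_sum_le_of_le (ball N) (f := fun b => X b * ang l b) (n := fun _ => 1) ?_).trans ?_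
    · intro b _
      rw [norm_mul]
      exact mul_le_one₀ (hX b) (norm_nonneg _) (norm_ang_le l b)
    · rw [Finset.sum_const, nsmul_eq_mul, mul_one]
      refine (ball_card N hN).trans ?_
      have e : (25 : ℝ) * N = 25 * Real.sqrt N * Real.sqrt N := by
        rw [mul_assoc, Real.mul_self_sqrt (Nat.cast_nonneg N)]
      rw [e]
      have : 25 * Real.sqrt N ≤ (302 + 180 * |(l : ℝ)|) * M := by nlinarith
      exact mul_le_mul_of_nonneg_right this (by linarith)
  · set R : ℝ := Real.sqrt N / M with hRdef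
    have hMpos : (0 : ℝ) < M := by linarith
    have hMR2 : M * R = Real.sqrt N := by rw [hRdef]; field_simp
    have hR1 : 1 ≤ R := by rw [hRdef, le_div_iff₀ hMpos]; linarith
    set G : Eis → Eis → ℂ := fun k p => if nm (q * k + p) ≤ N then ang l (q * k + p) else 0 with hG
    set G0 : Eis → ℂ := fun k => if nm (q * k) ≤ N then ang l (q * k) else 0 with hG0
    have hSum : ∑ b ∈ ball N, X b * ang l b =
        ∑ k ∈ ball (4 * N + 4), ∑ p ∈ S, X p * (G k p - G0 k) := by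
      rw [block_sum_q hq hS hsm]
      apply Finset.sum_congr rfl
      intro k _
      simp only [mul_sub]
      rw [Finset.sum_sub_distrib, ← Finset.sum_mul, h0, zero_mul, sub_zero]
      apply Finset.sum_congr rfl
      intro p _
      simp only [hG]
      split_ifs
      · have : q * k + p = p + q * k := by ring
        rw [this, hper]
      · simp
    set D : Eis → ℝ := fun k => (if R - 1 ≤ ‖toC k‖ ∧ ‖toC k‖ ≤ R + 1 then 2 else 0) +
      (if k = 0 then 2 else 0) +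
      (if 1 ≤ ‖toC k‖ ∧ ‖toC k‖ ≤ R then 2 * |(l : ℝ)| * (1 / ‖toC k‖) else 0) with hD
    have hGle : ∀ k p, ‖G k p‖ ≤ 1 := by
      intro k p; simp only [hG]; split_ifs
      · exact norm_ang_le _ _
      · simp
    have hG0le : ∀ k, ‖G0 k‖ ≤ 1 := by
      intro k; simp only [hG0]; split_ifs
      · exact norm_ang_le _ _
      · simp
    have h2 : ∀ k p, ‖G k p - G0 k‖ ≤ 2 := by
      intro k p
      refine (norm_sub_le _ _).trans ?_
      linarith [hGle k p, hG0le k]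
    have hlast : ∀ k : Eis, 0 ≤ (if 1 ≤ ‖toC k‖ ∧ ‖toC k‖ ≤ R then 2 * |(l : ℝ)| * (1 / ‖toC k‖) else 0) := by
      intro k; split_ifs
      · positivity
      · exact le_rfl
    have key : ∀ k, ∀ p ∈ S, ‖G k p - G0 k‖ ≤ D k := by
      intro k p hp
      have hpn : ‖toC p‖ < M := by
        rw [hMdef, norm_toC, norm_toC]
        exact Real.sqrt_lt_sqrt (Nat.cast_nonneg _) (by exact_mod_cast hsm p hp)
      have hnMk : ‖toC (q * k)‖ = M * ‖toC k‖ := by
        rw [map_mul, norm_mul]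
      have hdiff : ‖toC (q * k + p) - toC (q * k)‖ < M := by
        rw [map_add]; simpa using hpn
      by_cases c1 : R - 1 ≤ ‖toC k‖ ∧ ‖toC k‖ ≤ R + 1
      · have : 2 ≤ D k := by
          simp only [hD]; rw [if_pos c1]
          have := hlast k
          split_ifs at this ⊢ <;> linarith
        exact (h2 k p).trans this
      · have hDge : 0 ≤ D k := by
          simp only [hD]
          have := hlast k
          split_ifs at this ⊢ <;> linarith
        rcases lt_or_ge (R + 1) ‖toC k‖ with c2 | c2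
        · -- both outside
          have o1 : ¬ nm (q * k) ≤ N := by
            rw [nm_le_iff, hnMk, not_le, ← hMR2]
            exact mul_lt_mul_of_pos_left (by linarith) hMpos
          have o2 : ¬ nm (q * k + p) ≤ N := by
            rw [nm_le_iff, not_le]
            have h3 : ‖toC (q * k)‖ - ‖toC (q * k + p)‖ < M := by
              refine lt_of_le_of_lt (norm_sub_norm_le _ _) ?_
              rw [norm_sub_rev]; exact hdiff
            have h4 : M * (R + 1) < M * ‖toC k‖ := mul_lt_mul_of_pos_left c2 hMpos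
            rw [hnMk] at h3
            nlinarith
          have : G k p - G0 k = 0 := by
            simp only [hG, hG0]; rw [if_neg o1, if_neg o2, sub_zero]
          rw [this, norm_zero]
          exact hDge
        · have c3 : ‖toC k‖ < R - 1 := by
            by_contra hcon
            exact c1 ⟨not_lt.mp hcon, c2⟩
          have i1 : nm (q * k) ≤ N := by
            rw [nm_le_iff, hnMk, ← hMR2]
            exact mul_le_mul_of_nonneg_left (by linarith) hMpos.le
          have i2 : nm (q * k + p) ≤ N := by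
            rw [nm_le_iff]
            have h3 : ‖toC (q * k + p)‖ - ‖toC (q * k)‖ < M :=
              lt_of_le_of_lt (norm_sub_norm_le _ _) hdiff
            have h4 : M * ‖toC k‖ < M * (R - 1) := mul_lt_mul_of_pos_left c3 hMpos
            rw [hnMk] at h3
            nlinarith
          by_cases hk : k = 0
          · have : 2 ≤ D k := by
              simp only [hD]; rw [if_pos hk]
              have := hlast k
              split_ifs at this ⊢ <;> linarith
            exact (h2 k p).trans this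
          · have hk1 : 1 ≤ ‖toC k‖ := by
              rw [norm_toC, Real.one_le_sqrt]
              exact_mod_cast nm_pos.mpr hk
            have hkR : ‖toC k‖ ≤ R := by linarith
            have n0 : q * k ≠ 0 := mul_ne_zero hq hk
            have n1 : q * k + p ≠ 0 := by
              intro h
              rw [h] at hdiff
              simp only [map_zero, zero_sub, norm_neg] at hdiff
              rw [hnMk] at hdiff
              nlinarith
            have e : G k p - G0 k = ang l (q * k + p) - ang l (q * k) := by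
              simp only [hG, hG0]; rw [if_pos i1, if_pos i2]
            rw [e]
            refine (ang_sub_le l n1 n0).trans ?_
            have h5 : 2 * |(l : ℝ)| * (1 / ‖toC k‖) ≤ D k := by
              simp only [hD]
              rw [if_pos (⟨hk1, hkR⟩ : 1 ≤ ‖toC k‖ ∧ ‖toC k‖ ≤ R)]
              split_ifs <;> linarith
            refine le_trans ?_ h5
            rw [hnMk]
            have h6 : 2 * ‖toC (q * k + p) - toC (q * k)‖ / (M * ‖toC k‖) ≤
                2 * (1 / ‖toC k‖) := by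
              rw [div_le_iff₀ (by positivity)]
              have : 2 * (1 / ‖toC k‖) * (M * ‖toC k‖) = 2 * M := by field_simp
              rw [this]; linarith
            calc _ ≤ |(l : ℝ)| * (2 * (1 / ‖toC k‖)) := by gcongr
              _ = _ := by ring
    have hsumD : ∑ k ∈ ball (4 * N + 4), D k ≤ (302 + 180 * |(l : ℝ)|) * R := by
      simp only [hD]
      rw [Finset.sum_add_distrib, Finset.sum_add_distrib]
      have t1 : ∑ k ∈ ball (4 * N + 4), (if R - 1 ≤ ‖toC k‖ ∧ ‖toC k‖ ≤ R + 1 then (2 : ℝ) else 0) ≤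
          300 * R := by
        rw [← Finset.sum_filter, Finset.sum_const, nsmul_eq_mul]
        have := annulus_count (R := R) (c := 1) (by linarith) (by norm_num)
          ((ball (4 * N + 4)).filter (fun k => R - 1 ≤ ‖toC k‖ ∧ ‖toC k‖ ≤ R + 1))
          (fun z hz => (Finset.mem_filter.mp hz).2)
        nlinarith
      have t2 : ∑ k ∈ ball (4 * N + 4), (if k = 0 then (2 : ℝ) else 0) ≤ 2 := by
        rw [Finset.sum_ite_eq']
        split_ifs <;> norm_num
      have t3 : ∑ k ∈ ball (4 * N + 4), (if 1 ≤ ‖toC k‖ ∧ ‖toC k‖ ≤ R then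
          2 * |(l : ℝ)| * (1 / ‖toC k‖) else 0) ≤ 180 * |(l : ℝ)| * R := by
        rw [← Finset.sum_filter, ← Finset.mul_sum]
        have := sum_inv_norm (R := R) (by linarith)
          ((ball (4 * N + 4)).filter (fun k => 1 ≤ ‖toC k‖ ∧ ‖toC k‖ ≤ R))
          (fun z hz => (Finset.mem_filter.mp hz).2)
        calc _ ≤ 2 * |(l : ℝ)| * (90 * R) := by gcongr
          _ = _ := by ring
      nlinarith
    rw [hSum]
    refine (norm_sum_le_of_le (ball (4 * N + 4)) (n := fun k => M ^ 2 * D k) ?_).trans ?_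
    · intro k _
      refine (norm_sum_le_of_le S (n := fun _ => D k) ?_).trans ?_
      · intro p hp
        rw [norm_mul]
        calc _ ≤ 1 * ‖G k p - G0 k‖ := by gcongr; exact hX _
          _ ≤ D k := by rw [one_mul]; exact key k p hp
      · rw [Finset.sum_const, nsmul_eq_mul, hScard]
    · rw [← Finset.mul_sum]
      calc M ^ 2 * ∑ k ∈ ball (4 * N + 4), D k ≤ M ^ 2 * ((302 + 180 * |(l : ℝ)|) * R) := by
            gcongr
        _ = (302 + 180 * |(l : ℝ)|) * M * (M * R) := by ring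
        _ = _ := by rw [hMR2]

/-- sums of a function periodic modulo `q` against an angular character. -/
theorem C2q (l : ℤ) : ∃ C : ℝ, 0 < C ∧ ∀ (q : Eis) (X : Eis → ℂ), q ≠ 0 → (∀ a, ‖X a‖ ≤ 1) →
    PMod q X → (l = 0 → sumMod q X = 0) →
    ∀ N : ℕ, 1 ≤ N → ‖∑ b ∈ ball N, X b * ang l b‖ ≤ C * Real.sqrt (nm q) * Real.sqrt N := by
  by_cases hl : l = 0
  · refine ⟨302 + 180 * |(l : ℝ)|, by positivity, fun q X hq hX hper h0 N hN => ?_⟩
    exact mean_zero_bound_q l hq hX hper (h0 hl) hN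
  · obtain ⟨C1, hC1, h1⟩ := ang_sum_bound hl
    refine ⟨2 * (302 + 180 * |(l : ℝ)|) + C1, by positivity, fun q X hq hX hper _ N hN => ?_⟩
    have hMR : (1 : ℝ) ≤ Real.sqrt (nm q) := by
      rw [Real.one_le_sqrt]; exact_mod_cast nm_pos.mpr hq
    have hnC : ((nm q : ℕ) : ℂ) ≠ 0 := by exact_mod_cast (nm_pos.mpr hq).ne'
    have hnR : (0 : ℝ) < ((nm q : ℕ) : ℝ) := by exact_mod_cast nm_pos.mpr hq
    set c : ℂ := sumMod q X / (nm q : ℂ) with hc
    have hcle : ‖c‖ ≤ 1 := by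
      rw [hc, norm_div, Complex.norm_natCast, div_le_one hnR]
      have := norm_sumMod_le hq hX
      linarith
    have h2 := mean_zero_bound_q l hq (X := fun b => (X b - c) / 2) ?_ ?_ ?_ hN
    · have h3 := h1 N hN
      have e : ∑ b ∈ ball N, X b * ang l b = 2 * ∑ b ∈ ball N, (X b - c) / 2 * ang l b +
          c * ∑ b ∈ ball N, ang l b := by
        rw [Finset.mul_sum, Finset.mul_sum, ← Finset.sum_add_distrib]
        apply Finset.sum_congr rfl
        intro b _
        ring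
      rw [e]
      refine (norm_add_le _ _).trans ?_
      rw [norm_mul, norm_mul]
      have hs := Real.sqrt_nonneg (N : ℝ)
      have h4 : ‖c‖ * ‖∑ b ∈ ball N, ang l b‖ ≤ C1 * Real.sqrt (nm q) * Real.sqrt N := by
        calc _ ≤ 1 * (C1 * Real.sqrt N) := by gcongr
          _ ≤ Real.sqrt (nm q) * (C1 * Real.sqrt N) := by gcongr
          _ = _ := by ring
      have h5 : ‖(2 : ℂ)‖ = 2 := by simp
      rw [h5]
      nlinarith
    · intro a
      rw [norm_div]
      have h5 : ‖(2 : ℂ)‖ = 2 := by simp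
      rw [h5, div_le_one (by norm_num)]
      refine (norm_sub_le _ _).trans ?_
      linarith [hX a]
    · intro x t
      simp only [hper x t]
    · have e : ∀ x, (X x - c) / 2 = (X x - c) * (1 / 2) := by intro x; ring
      rw [sumMod_congr e, sumMod_mul_right hq, sumMod_sub hq, sumMod_const hq, hc]
      field_simp
      ring

/-- sums over primary elements, `q` divisible by `3`. -/
theorem C2q_prim (l : ℤ) : ∃ C : ℝ, 0 < C ∧ ∀ (q : Eis) (χ : Eis → ℂ), q ≠ 0 → (3 : Eis) ∣ q →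
    (∀ a, IsPrim a → ‖χ a‖ ≤ 1) →
    (∀ a b, IsPrim a → IsPrim b → q ∣ a - b → χ a = χ b) →
    (l = 0 → ∃ a, IsPrim a ∧ IsCoprime a q ∧ χ a ≠ 1 ∧ ∀ b, IsPrim b → χ (a * b) = χ a * χ b) →
    ∀ N : ℕ, ‖∑ b ∈ primBall N, χ b * ang l b‖ ≤ C * Real.sqrt (nm q) * Real.sqrt N := by
  classical
  obtain ⟨C, hC, h⟩ := C2q l
  refine ⟨C, hC, fun q χ hq h3 hle hper hne N => ?_⟩
  set X : Eis → ℂ := fun b => if IsPrim b then χ b else 0 with hXdef
  have hprim : ∀ x t, IsPrim (x + q * t) ↔ IsPrim x := by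
    intro x t
    unfold IsPrim
    have e : x + q * t - 1 = (x - 1) + q * t := by ring
    rw [e]
    exact dvd_add_left (Dvd.dvd.mul_right h3 t)
  have hXper : PMod q X := by
    intro x t
    simp only [hXdef]
    by_cases hx : IsPrim x
    · rw [if_pos hx, if_pos ((hprim x t).mpr hx)]
      exact hper _ _ ((hprim x t).mpr hx) hx ⟨t, by ring⟩
    · rw [if_neg hx, if_neg (fun h => hx ((hprim x t).mp h))]
  rcases Nat.eq_zero_or_pos N with rfl | hN
  · have h25 := C1 0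
    have : primBall 0 = ∅ := by
      rw [← Finset.card_eq_zero]
      simpa using h25
    rw [this]; simp
  · have h1 := h q X hq ?_ hXper ?_ N hN
    · refine le_trans (le_of_eq ?_) h1
      congr 1
      unfold primBall
      rw [Finset.sum_filter]
      apply Finset.sum_congr rfl
      intro b _
      simp only [hXdef]
      split_ifs
      · rfl
      · simp
    · intro a
      simp only [hXdef]
      split_ifs with ha
      · exact hle a ha
      · simp
    · intro hl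
      obtain ⟨a, ha, hcop, hne', hmul⟩ := hne hl
      have hXmul : ∀ b, X (a * b) = χ a * X b := by
        intro b
        simp only [hXdef]
        by_cases hb : IsPrim b
        · rw [if_pos hb, if_pos ((isPrim_mul_iff ha).mpr hb), hmul b hb]
        · rw [if_neg hb, if_neg (fun h => hb ((isPrim_mul_iff ha).mp h)), mul_zero]
      have h5 := sumMod_mul_coprime hq hXper hcop
      rw [sumMod_congr hXmul, sumMod_mul_left hq] at h5
      have h6 : (χ a - 1) * sumMod q X = 0 := by rw [sub_mul, h5]; ring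
      rcases mul_eq_zero.mp h6 with h7 | h7
      · exact absurd (sub_eq_zero.mp h7) hne'
      · exact h7

end Crest.Agent.R012.P355
end
end

-- ▼ part R012/PSW_355
section

/-!
# Row 12, part (P): Siegel–Walfisz for `(h/·) (·/|·|)^l N(·)^{it}` (helper355)
-/

set_option autoImplicit false

noncomputable section

open Complex

namespace Crest.Agent.R012.P355

open Crest.Agent.R012 Eis PSer47

/-- `b ↦ (h/b)` is a character on the primary elements. -/
theorem isChar_sy (h : Eis) : IsChar (fun b => sy h b) where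
  one := Sym645.sy_one_right h
  mul a b ha hb := Sym645.sy_mul_right h ha.ne_zero hb.ne_zero
  norm a ha := by
    by_cases hc : IsCoprime h a
    · right; exact Sym645.norm_sy_of_isCoprime (Sym645.prim_nm_mod ha) hc
    · left; exact (Sym645.sy_eq_zero_iff (Sym645.prim_nm_mod ha)).mpr hc

open Classical in
/-- Siegel–Walfisz for `χ * ang l * nm^{it}`, `χ` periodic modulo `q ∈ ℤ[ω]`. -/
theorem SW_of_PT_q (hPT : PT_Prop) (l : ℤ) (A C : ℕ) : ∃ K : ℝ, 0 < K ∧ ∀ (q : Eis) (χ : Eis → ℂ),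
    q ≠ 0 → (3 : Eis) ∣ q → IsChar χ →
    (∀ a b, IsPrim a → IsPrim b → q ∣ a - b → χ a = χ b) →
    (l = 0 → ∃ a, IsPrim a ∧ IsCoprime a q ∧ χ a ≠ 1 ∧ χ a ^ 2 ≠ 1) →
    ∀ x t : ℝ, 2 ≤ x → ((nm q : ℕ) : ℝ) ≤ Real.log x ^ C → |t| ≤ Real.log x ^ C →
      ‖∑ p ∈ (primBall ⌊x⌋₊).filter (fun p => Prime p),
        χ p * ang l p * (nm p : ℂ) ^ ((t : ℂ) * I)‖ ≤ K * x / Real.log x ^ A := by
  obtain ⟨C1', hC1', h1⟩ := C2q_prim l
  obtain ⟨C2', hC2', h2⟩ := C2q_prim (2 * l)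
  obtain ⟨K, hK, hP⟩ := hPT A (2 * C + 1)
  set D : ℝ := C1' + C2' + 1 with hD
  set c0 : ℝ := 3 * D + 1 with hc0
  have hD1 : 1 ≤ D := by rw [hD]; linarith
  refine ⟨K + 25 * c0 ^ A, by positivity, ?_⟩
  intro q χ hq h3 hχ hper hne x t hx hMx htx
  have hlx : 0 < Real.log x := Real.log_pos (by linarith)
  have hx0 : 0 < x := by linarith
  have hchar : IsChar (fun b => χ b * ang l b) := hχ.mul' (ang_isChar l)
  have hnq : (1 : ℝ) ≤ ((nm q : ℕ) : ℝ) := by exact_mod_cast nm_pos.mpr hq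
  set M : ℝ := Real.sqrt (nm q) with hM
  have hMR : (1 : ℝ) ≤ M := by rw [hM, Real.one_le_sqrt]; exact hnq
  have hMle : M ≤ ((nm q : ℕ) : ℝ) := by
    have := Real.mul_self_sqrt (show (0 : ℝ) ≤ ((nm q : ℕ) : ℝ) by linarith)
    rw [← hM] at this
    nlinarith
  rcases lt_or_ge (Real.log x) c0 with hsm | hlg
  · have ht := trivial_bound (fun p => χ p * ang l p * (nm p : ℂ) ^ ((t : ℂ) * I)) ?_ hx0.le
    · refine ht.trans ?_
      have e1 : Real.log x ^ A ≤ c0 ^ A := pow_le_pow_left₀ hlx.le hsm.le A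
      rw [le_div_iff₀ (by positivity)]
      have : 25 * x * Real.log x ^ A ≤ 25 * x * c0 ^ A := by gcongr
      nlinarith [mul_pos hK hx0]
    · intro b hb
      rw [norm_mul]
      calc _ ≤ (1 : ℝ) * 1 := by
            apply mul_le_mul (hchar.norm_le hb) (norm_nm_cpow_le b t hb) (norm_nonneg _) (by norm_num)
        _ = 1 := by norm_num
  · have hfin := hP (fun b => χ b * ang l b) (D * M) hchar (by nlinarith) ?_ ?_ x t hx ?_
    · refine hfin.trans ?_
      gcongr
      have : 0 ≤ 25 * c0 ^ A := by positivity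
      linarith
    · intro N
      refine (h1 q χ hq h3 (fun a ha => hχ.norm_le ha) hper ?_ N).trans ?_
      · intro hl
        obtain ⟨a, ha, hcop, hne1, hne2⟩ := hne hl
        exact ⟨a, ha, hcop, hne1, fun b hb => hχ.mul a b ha hb⟩
      · gcongr
        rw [hD]; linarith
    · intro N
      have e : ∀ b, (χ b * ang l b) ^ 2 = χ b ^ 2 * ang (2 * l) b := by
        intro b; rw [mul_pow, ang_sq]
      simp only [e]
      refine (h2 q (fun b => χ b ^ 2) hq h3 (fun a ha => hχ.sq.norm_le ha) ?_ ?_ N).trans ?_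
      · intro a b ha hb h
        simp only [hper a b ha hb h]
      · intro hl
        obtain ⟨a, ha, hcop, hne1, hne2⟩ := hne (by omega)
        exact ⟨a, ha, hcop, hne2, fun b hb => hχ.sq.mul a b ha hb⟩
      · gcongr
        rw [hD]; linarith
    · have hl1 : 1 ≤ Real.log x := by rw [hc0] at hlg; linarith
      have hp1 : 1 ≤ Real.log x ^ C := one_le_pow₀ hl1
      have hp0 : 0 < Real.log x ^ C := by positivity
      have ht2 : |t| + 2 ≤ 3 * Real.log x ^ C := by linarith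
      have hMx' : M ≤ Real.log x ^ C := hMle.trans hMx
      calc D * M * (|t| + 2) ≤ D * Real.log x ^ C * (3 * Real.log x ^ C) := by gcongr
        _ = (3 * D) * (Real.log x ^ C * Real.log x ^ C) := by ring
        _ ≤ Real.log x * (Real.log x ^ C * Real.log x ^ C) := by
            gcongr
            rw [hc0] at hlg; linarith
        _ = Real.log x ^ (2 * C + 1) := by ring

lemma nm_nine : nm (9 : Eis) = 81 := by
  have : (9 : Eis) = ((9 : ℕ) : Eis) := by norm_num
  rw [this, nm_natCast]; norm_num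

/-- nontriviality of `(h/·)` and its square for a noncube `h`. -/
lemma exists_nontrivial {h : Eis} (h0 : h ≠ 0) (hh : ¬ ∃ e, h = e ^ 3) :
    ∃ a, IsPrim a ∧ IsCoprime a (9 * h) ∧ sy h a ≠ 1 ∧ sy h a ^ 2 ≠ 1 := by
  obtain ⟨b, hb, hcop, hne⟩ := Sym645.exists_sy_ne_one h0 hh
  refine ⟨b, hb, ?_, hne, ?_⟩
  · have h9 : IsCoprime b (9 : Eis) := by
      have h3 := hb.isCoprime_three
      have : (9 : Eis) = 3 * 3 := by norm_num
      rw [this]
      exact h3.mul_right h3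
    exact h9.mul_right hcop.symm
  · intro h2
    apply hne
    have h3 := Sym645.sy_cube (Sym645.prim_nm_mod hb) hcop
    calc sy h b = sy h b * sy h b ^ 2 := by rw [h2, mul_one]
      _ = sy h b ^ 3 := by ring
      _ = 1 := h3

open Classical in
/-- **Siegel–Walfisz for `(h/·) ang^l N^{it}`** : `h ≠ 0`, and `h` not a cube or `l ≠ 0`. -/
theorem SW_sy_of_PT (hPT : PT_Prop) (l : ℤ) (A C : ℕ) : ∃ K : ℝ, 0 < K ∧ ∀ (h : Eis),
    h ≠ 0 → (l = 0 → ¬ ∃ e, h = e ^ 3) →
    ∀ x t : ℝ, 2 ≤ x → ((nm h : ℕ) : ℝ) ≤ Real.log x ^ C → |t| ≤ Real.log x ^ C →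
      ‖∑ p ∈ (primBall ⌊x⌋₊).filter (fun p => Prime p),
        sy h p * ang l p * (nm p : ℂ) ^ ((t : ℂ) * I)‖ ≤ K * x / Real.log x ^ A := by
  obtain ⟨K, hK, hP⟩ := SW_of_PT_q hPT l A (C + 2)
  refine ⟨K + 25 * 81 ^ A, by positivity, ?_⟩
  intro h h0 hh x t hx hhx htx
  have hlx : 0 < Real.log x := Real.log_pos (by linarith)
  have hx0 : 0 < x := by linarith
  have hchar : IsChar (fun b => sy h b * ang l b) := (isChar_sy h).mul' (ang_isChar l)
  rcases lt_or_ge (Real.log x) 81 with hsm | hlg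
  · have ht := trivial_bound (fun p => sy h p * ang l p * (nm p : ℂ) ^ ((t : ℂ) * I)) ?_ hx0.le
    · refine ht.trans ?_
      have e1 : Real.log x ^ A ≤ 81 ^ A := pow_le_pow_left₀ hlx.le hsm.le A
      rw [le_div_iff₀ (by positivity)]
      have : 25 * x * Real.log x ^ A ≤ 25 * x * 81 ^ A := by gcongr
      nlinarith [mul_pos hK hx0]
    · intro b hb
      rw [norm_mul]
      calc _ ≤ (1 : ℝ) * 1 := by
            apply mul_le_mul (hchar.norm_le hb) (norm_nm_cpow_le b t hb) (norm_nonneg _) (by norm_num)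
        _ = 1 := by norm_num
  · have hp0 : 0 < Real.log x ^ C := by positivity
    refine (hP (9 * h) (fun b => sy h b) ?_ ?_ (isChar_sy h) ?_ ?_ x t hx ?_ ?_).trans ?_
    · exact mul_ne_zero (by
        intro h9
        have := nm_nine
        rw [h9] at this
        simp at this) h0
    · exact ⟨3 * h, by ring⟩
    · intro a b ha hb hd
      exact Sym645.sy_periodic h0 ha hb hd
    · intro hl
      exact exists_nontrivial h0 (hh hl)
    · rw [nm_mul, nm_nine]
      push_cast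
      calc (81 : ℝ) * nm h ≤ Real.log x * Real.log x ^ C := by gcongr
        _ ≤ Real.log x ^ (C + 2) := by
            have : Real.log x ^ (C + 2) = Real.log x * (Real.log x * Real.log x ^ C) := by ring
            rw [this]
            have h1 : 1 ≤ Real.log x := by linarith
            nlinarith [mul_pos hlx hp0]
    · refine htx.trans ?_
      exact pow_le_pow_right₀ (by linarith) (by omega)
    · gcongr
      have : (0 : ℝ) ≤ 25 * 81 ^ A := by positivity
      linarith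

end Crest.Agent.R012.P355
end
end

-- ▼ part R012/PInv_255
section

/-!
# Row 12, part (P), steps (5)+(6): from derivative bounds of a Dirichlet series to partial sums

Wrapper around `Crest.Agent.SW.engine`.  If `‖a n‖ ≤ C0 (1 + log n)` and all derivatives of
`LSeries a` are bounded on `1 < Re s ≤ 2` by powers of `log (Q (|Im s| + 2))`, then
`∑_{n ≤ x} a n n^{-iu} ≪ x / (log x)^A` uniformly for `Q (|u| + 2) ≤ (log x)^C`.
-/

set_option autoImplicit false

open Complex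

namespace Crest.Agent.R012.PInv255

noncomputable section

/-- `(1 + log y)^B ≤ C y^δ` for `y ≥ 1`. -/
theorem one_add_log_pow_le (B : ℕ) (δ : ℝ) (hδ : 0 < δ) :
    ∃ C : ℝ, 1 ≤ C ∧ ∀ y : ℝ, 1 ≤ y → (1 + Real.log y) ^ B ≤ C * y ^ δ := by
  set e : ℝ := δ / (B + 1) with he
  have hB : (0 : ℝ) < B + 1 := by positivity
  have he0 : 0 < e := by positivity
  refine ⟨(1 + 1 / e) ^ B, one_le_pow₀ (by have : 0 < 1 / e := by positivity
                                           linarith), fun y hy => ?_⟩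
  have hy0 : 0 ≤ y := by linarith
  have h1 : 1 + Real.log y ≤ (1 + 1 / e) * y ^ e := by
    have h2 : (1 : ℝ) ≤ y ^ e := Real.one_le_rpow hy he0.le
    have h3 := Real.log_le_rpow_div hy0 he0
    calc 1 + Real.log y ≤ y ^ e + y ^ e / e := add_le_add h2 h3
      _ = _ := by ring
  have hl : 0 ≤ Real.log y := Real.log_nonneg hy
  calc (1 + Real.log y) ^ B ≤ ((1 + 1 / e) * y ^ e) ^ B := by gcongr
    _ = (1 + 1 / e) ^ B * (y ^ e) ^ B := mul_pow _ _ _
    _ ≤ (1 + 1 / e) ^ B * y ^ δ := by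
        gcongr
        rw [← Real.rpow_natCast, ← Real.rpow_mul hy0]
        apply Real.rpow_le_rpow_of_exponent_le hy
        rw [he, div_mul_eq_mul_div, div_le_iff₀ hB]
        nlinarith

theorem log_split {Q t : ℝ} (hQ : 1 ≤ Q) :
    Real.log (Q * (|t| + 2)) ≤ (1 + Real.log Q) * (1 + Real.log (|t| + 2)) := by
  have ht : 0 < |t| + 2 := by positivity
  rw [Real.log_mul (by linarith) ht.ne']
  have h1 := Real.log_nonneg hQ
  have h2 : 0 ≤ Real.log (|t| + 2) := Real.log_nonneg (by linarith [abs_nonneg t])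
  nlinarith

/-- polylogarithmic growth is dominated by `(1+|t|)^(1/2)` times a power of `1 + log Q`. -/
theorem polylog_le (B : ℕ) : ∃ C : ℝ, 1 ≤ C ∧ ∀ Q t : ℝ, 1 ≤ Q →
    (Real.log (Q * (|t| + 2))) ^ B ≤ C * (1 + Real.log Q) ^ B * (1 + |t|) ^ (1 / 2 : ℝ) := by
  obtain ⟨C, hC, h⟩ := one_add_log_pow_le B (1 / 2) (by norm_num)
  refine ⟨2 * C, by linarith, fun Q t hQ => ?_⟩
  have ht : 0 ≤ |t| := abs_nonneg t
  have h0 : 0 ≤ Real.log (Q * (|t| + 2)) := Real.log_nonneg (by nlinarith)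
  have hq := Real.log_nonneg hQ
  have h2 : 0 ≤ Real.log (|t| + 2) := Real.log_nonneg (by linarith)
  have h3 := h (|t| + 2) (by linarith)
  have h4 : (|t| + 2) ^ (1 / 2 : ℝ) ≤ 2 * (1 + |t|) ^ (1 / 2 : ℝ) := by
    calc (|t| + 2) ^ (1 / 2 : ℝ) ≤ (2 * (1 + |t|)) ^ (1 / 2 : ℝ) := by
          gcongr; linarith
      _ = 2 ^ (1 / 2 : ℝ) * (1 + |t|) ^ (1 / 2 : ℝ) :=
          Real.mul_rpow (by norm_num) (by positivity)
      _ ≤ 2 * (1 + |t|) ^ (1 / 2 : ℝ) := by
          gcongr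
          calc (2 : ℝ) ^ (1 / 2 : ℝ) ≤ 2 ^ (1 : ℝ) :=
                Real.rpow_le_rpow_of_exponent_le (by norm_num) (by norm_num)
            _ = 2 := Real.rpow_one 2
  calc (Real.log (Q * (|t| + 2))) ^ B
      ≤ ((1 + Real.log Q) * (1 + Real.log (|t| + 2))) ^ B := by
        gcongr; exact log_split hQ
    _ = (1 + Real.log Q) ^ B * (1 + Real.log (|t| + 2)) ^ B := mul_pow _ _ _
    _ ≤ (1 + Real.log Q) ^ B * (C * (|t| + 2) ^ (1 / 2 : ℝ)) := by gcongr
    _ ≤ (1 + Real.log Q) ^ B * (C * (2 * (1 + |t|) ^ (1 / 2 : ℝ))) := by gcongr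
    _ = 2 * C * (1 + Real.log Q) ^ B * (1 + |t|) ^ (1 / 2 : ℝ) := by ring

/-- **Partial sums from derivative bounds**, general form with explicit dependence on `Q`:
the saving is an arbitrary power of `log x`, the loss a fixed power of `1 + log Q`. -/
theorem sum_le_general (C0 : ℝ) (B : ℕ → ℕ) (m : ℕ) :
    ∃ D : ℝ, 0 < D ∧ ∀ (a : ℕ → ℂ) (Q : ℝ), 1 ≤ Q →
      (∀ n : ℕ, 1 ≤ n → ‖a n‖ ≤ C0 * (1 + Real.log n)) →
      (∀ s : ℂ, 1 < s.re → s.re ≤ 2 →
        ‖iteratedDeriv (2 * m + 1) (LSeries a) s‖ ≤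
          B (2 * m + 1) * (Real.log (Q * (|s.im| + 2))) ^ B (2 * m + 1)) →
      ∀ x : ℝ, 2 ≤ x → ‖∑ n ∈ Finset.Icc 1 ⌊x⌋₊, a n‖ ≤
        D * (1 + Real.log Q) ^ B (2 * m + 1) * x / Real.log x ^ m := by
  obtain ⟨C, hC, hE⟩ := Crest.Agent.SW.engine m
  obtain ⟨C', hC', hP⟩ := polylog_le (B (2 * m + 1))
  set b := B (2 * m + 1) with hb
  set c0 : ℝ := max C0 1 with hc0
  have hc01 : 1 ≤ c0 := le_max_right _ _
  have hc00 : 0 < c0 := by linarith
  refine ⟨c0 * C * ((b + 1) * C'), by positivity, ?_⟩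
  intro a Q hQ ha hd x hx
  have hq := Real.log_nonneg hQ
  have h1Q : (1 : ℝ) ≤ (1 + Real.log Q) ^ b := one_le_pow₀ (by linarith)
  have hLS : LSeries (fun n => (c0 : ℂ)⁻¹ * a n) = fun s => (c0 : ℂ)⁻¹ * LSeries a s := by
    funext s
    have := LSeries_smul a (c0 : ℂ)⁻¹ s
    simpa [Pi.smul_apply, smul_eq_mul, Pi.smul_def] using this
  have key := hE (fun n => (c0 : ℂ)⁻¹ * a n) ((b + 1) * C' * (1 + Real.log Q) ^ b) ?_ ?_ ?_ x hx
  · rw [← Finset.mul_sum, norm_mul, norm_inv, Complex.norm_real, Real.norm_of_nonneg hc00.le,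
      inv_mul_le_iff₀ hc00] at key
    refine key.trans (le_of_eq ?_)
    ring
  · have : (0 : ℝ) ≤ b := Nat.cast_nonneg _
    have h1 : (1 : ℝ) ≤ (b + 1) * C' := by nlinarith
    nlinarith
  · intro n hn
    rw [norm_mul, norm_inv, Complex.norm_real, Real.norm_of_nonneg hc00.le, inv_mul_le_iff₀ hc00]
    refine (ha n hn).trans ?_
    have : 0 ≤ Real.log n := Real.log_nonneg (by exact_mod_cast hn)
    gcongr
    exact le_max_left _ _
  · intro s h1 h2
    rw [hLS, iteratedDeriv_const_mul_field, norm_mul, norm_inv, Complex.norm_real,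
      Real.norm_of_nonneg hc00.le, inv_mul_le_iff₀ hc00]
    have hb0 : (0 : ℝ) ≤ b := Nat.cast_nonneg _
    have hlog : 0 ≤ Real.log (Q * (|s.im| + 2)) :=
      Real.log_nonneg (by nlinarith [abs_nonneg s.im])
    calc ‖iteratedDeriv (2 * m + 1) (LSeries a) s‖
        ≤ b * (Real.log (Q * (|s.im| + 2))) ^ b := hd s h1 h2
      _ ≤ (b + 1) * (C' * (1 + Real.log Q) ^ b * (1 + |s.im|) ^ (1 / 2 : ℝ)) := by
          gcongr
          · linarith
          · exact hP Q s.im hQ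
      _ = 1 * ((b + 1) * C' * (1 + Real.log Q) ^ b * (1 + |s.im|) ^ (1 / 2 : ℝ)) := by ring
      _ ≤ c0 * ((b + 1) * C' * (1 + Real.log Q) ^ b * (1 + |s.im|) ^ (1 / 2 : ℝ)) := by
          gcongr

/-- for `Q ≤ (log x)^C`, `(1 + log Q)^B ≤ K log x` -/
theorem loglog_le (B C : ℕ) : ∃ K : ℝ, 0 < K ∧ ∀ Q x : ℝ, 1 ≤ Q → 2 ≤ x →
    Q ≤ Real.log x ^ C → (1 + Real.log Q) ^ B ≤ K * Real.log x := by
  obtain ⟨K, hK, h⟩ := one_add_log_pow_le B (1 / (C + 1)) (by positivity)
  refine ⟨K * 2, by linarith, fun Q x hQ hx hQx => ?_⟩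
  have hl : 1 / 2 ≤ Real.log x := Crest.Agent.SW.log_half hx
  have hlx : 0 < Real.log x := by linarith
  refine (h Q hQ).trans ?_
  have h1 : Q ^ (1 / (C + 1 : ℝ)) ≤ 2 * Real.log x := by
    rcases Nat.eq_zero_or_pos C with rfl | hC
    · simp only [pow_zero] at hQx
      have : Q = 1 := le_antisymm hQx hQ
      rw [this, Real.one_rpow]
      linarith
    · have hlx1 : 1 ≤ Real.log x := by
        by_contra hlt
        push Not at hlt
        have : Real.log x ^ C < 1 := pow_lt_one₀ hlx.le hlt (by omega)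
        linarith
      calc Q ^ (1 / (C + 1 : ℝ)) ≤ (Real.log x ^ C) ^ (1 / (C + 1 : ℝ)) := by gcongr
        _ = Real.log x ^ ((C : ℝ) * (1 / (C + 1))) := by
            rw [← Real.rpow_natCast, ← Real.rpow_mul hlx.le]
        _ ≤ Real.log x ^ (1 : ℝ) := by
            apply Real.rpow_le_rpow_of_exponent_le hlx1
            rw [mul_one_div, div_le_one (by positivity)]
            linarith
        _ = Real.log x := Real.rpow_one _
        _ ≤ 2 * Real.log x := by linarith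
  calc K * Q ^ (1 / (C + 1 : ℝ)) ≤ K * (2 * Real.log x) := by gcongr
    _ = K * 2 * Real.log x := by ring

/-- **(P5)+(P6)** `∑_{n ≤ x} a n ≪ x / (log x)^A`, uniformly for `Q ≤ (log x)^C`. -/
theorem sum_le (C0 : ℝ) (B : ℕ → ℕ) (A C : ℕ) :
    ∃ D : ℝ, 0 < D ∧ ∀ (a : ℕ → ℂ) (Q : ℝ), 1 ≤ Q →
      (∀ n : ℕ, 1 ≤ n → ‖a n‖ ≤ C0 * (1 + Real.log n)) →
      (∀ k : ℕ, ∀ s : ℂ, 1 < s.re → s.re ≤ 2 →
        ‖iteratedDeriv k (LSeries a) s‖ ≤ B k * (Real.log (Q * (|s.im| + 2))) ^ B k) →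
      ∀ x : ℝ, 2 ≤ x → Q ≤ Real.log x ^ C →
        ‖∑ n ∈ Finset.Icc 1 ⌊x⌋₊, a n‖ ≤ D * x / Real.log x ^ A := by
  obtain ⟨D, hD, h⟩ := sum_le_general C0 B (A + 1)
  obtain ⟨K, hK, hl⟩ := loglog_le (B (2 * (A + 1) + 1)) C
  refine ⟨D * K, by positivity, fun a Q hQ ha hd x hx hQx => ?_⟩
  have hlx : 0 < Real.log x := by linarith [Crest.Agent.SW.log_half hx]
  have hx0 : 0 < x := by linarith
  calc ‖∑ n ∈ Finset.Icc 1 ⌊x⌋₊, a n‖
      ≤ D * (1 + Real.log Q) ^ B (2 * (A + 1) + 1) * x / Real.log x ^ (A + 1) :=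
        h a Q hQ ha (hd _) x hx
    _ ≤ D * (K * Real.log x) * x / Real.log x ^ (A + 1) := by
        gcongr
        exact hl Q x hQ hx hQx
    _ = D * K * x / Real.log x ^ A := by
        rw [pow_succ]
        field_simp

/-- the twisted sequence `a n n^{-iu}` -/
def tw (a : ℕ → ℂ) (u : ℝ) (n : ℕ) : ℂ := a n * (n : ℂ) ^ (-(u * I))

theorem norm_tw_le (a : ℕ → ℂ) (u : ℝ) {n : ℕ} (hn : 1 ≤ n) : ‖tw a u n‖ = ‖a n‖ := by
  unfold tw
  have hn0 : (0 : ℝ) < n := by exact_mod_cast hn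
  rw [norm_mul, ← Complex.ofReal_natCast, Complex.norm_cpow_eq_rpow_re_of_pos hn0]
  simp

theorem LSeries_tw (a : ℕ → ℂ) (u : ℝ) (s : ℂ) : LSeries (tw a u) s = LSeries a (s + u * I) := by
  unfold LSeries
  congr 1
  funext n
  rcases Nat.eq_zero_or_pos n with rfl | hn
  · simp
  · have hn0 : (n : ℂ) ≠ 0 := by exact_mod_cast hn.ne'
    rw [LSeries.term_of_ne_zero hn.ne', LSeries.term_of_ne_zero hn.ne', tw, Complex.cpow_neg,
      Complex.cpow_add _ _ hn0]
    field_simp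

theorem iteratedDeriv_tw (a : ℕ → ℂ) (u : ℝ) (k : ℕ) (s : ℂ) :
    iteratedDeriv k (LSeries (tw a u)) s = iteratedDeriv k (LSeries a) (s + u * I) := by
  have h : LSeries (tw a u) = fun s => LSeries a (s + u * I) := funext (LSeries_tw a u)
  rw [h, iteratedDeriv_comp_add_const]

/-- **(P5)+(P6), twisted form** `∑_{n ≤ x} a n n^{-iu} ≪ x / (log x)^A`, uniformly for
`Q (|u| + 2) ≤ (log x)^C`. -/
theorem sum_tw_le (C0 : ℝ) (B : ℕ → ℕ) (A C : ℕ) :
    ∃ D : ℝ, 0 < D ∧ ∀ (a : ℕ → ℂ) (Q : ℝ), 1 ≤ Q →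
      (∀ n : ℕ, 1 ≤ n → ‖a n‖ ≤ C0 * (1 + Real.log n)) →
      (∀ k : ℕ, ∀ s : ℂ, 1 < s.re → s.re ≤ 2 →
        ‖iteratedDeriv k (LSeries a) s‖ ≤ B k * (Real.log (Q * (|s.im| + 2))) ^ B k) →
      ∀ (x u : ℝ), 2 ≤ x → Q * (|u| + 2) ≤ Real.log x ^ C →
        ‖∑ n ∈ Finset.Icc 1 ⌊x⌋₊, a n * (n : ℂ) ^ (-(u * I))‖ ≤ D * x / Real.log x ^ A := by
  obtain ⟨D, hD, h⟩ := sum_le C0 B A C
  refine ⟨D, hD, fun a Q hQ ha hd x u hx hQx => ?_⟩
  have hu := abs_nonneg u
  refine h (tw a u) (Q * (|u| + 2)) (by nlinarith) ?_ ?_ x hx hQx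
  · intro n hn
    rw [norm_tw_le a u hn]
    exact ha n hn
  · intro k s h1 h2
    rw [iteratedDeriv_tw]
    refine (hd k (s + u * I) (by simpa using h1) (by simpa using h2)).trans ?_
    have him : (s + u * I).im = s.im + u := by simp
    rw [him]
    have h3 : |s.im + u| ≤ |s.im| + |u| := abs_add_le _ _
    have h4 := abs_nonneg s.im
    have h5 := abs_nonneg (s.im + u)
    have h6 : 0 ≤ Real.log (Q * (|s.im + u| + 2)) := Real.log_nonneg (by nlinarith)
    have h7 : Q * (|s.im + u| + 2) ≤ Q * (|u| + 2) * (|s.im| + 2) := by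
      nlinarith [mul_nonneg hu h4]
    have h8 : 0 < Q * (|s.im + u| + 2) := by nlinarith
    have h9 := Real.log_le_log h8 h7
    gcongr

end

end Crest.Agent.R012.PInv255
end

-- ▼ part R012/P34_994
section

/-!
# Row 12, part (P3)+(P4): the 3-4-1 argument and bounds for the derivatives of `L'/L`
on `Re s > 1`, in abstract form (helper994).

Everything is about pairs of coefficient sequences `a l : ℕ → ℂ` with `log · a = a ⍟ l`,
`a 1 = 1`, both with abscissa of absolute convergence `≤ 1` (`LogPair a l`).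
For the application `a n = ∑_{b primary, nm b = n} ψ b` and
`l n = ∑_{b primary, nm b = n} Λ b ψ b`.

* `LogPair.ne_zero`      : `LSeries a s ≠ 0` for `1 < re s` (automatic)
* `three_four_one`       : `1 ≤ ‖L₀(x)‖³ ‖L₁(x+it)‖⁴ ‖L₂(x+2it)‖`
* `lower_bound`          : `‖L₁(x+it)‖ ≥ 1/(16 C³ M M'³)`
* `iteratedDeriv_bound`  : bound for the `k`-th derivative of `LSeries l₁`
* `main`                 : everything together, polylog form.
-/

set_option autoImplicit false

open Complex Filter Topology LSeries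
open scoped LSeries.notation

namespace Crest.Agent.R012.P34994

noncomputable section

/-- `a` and `l` are related like `ψ` and `Λ ψ`. -/
structure LogPair (a l : ℕ → ℂ) : Prop where
  one : a 1 = 1
  absA : abscissaOfAbsConv a ≤ 1
  absL : abscissaOfAbsConv l ≤ 1
  conv : ∀ n : ℕ, n ≠ 0 → logMul a n = (a ⍟ l) n

variable {a l : ℕ → ℂ}

lemma abs_lt {f : ℕ → ℂ} (hf : abscissaOfAbsConv f ≤ 1) {s : ℂ} (hs : 1 < s.re) :
    abscissaOfAbsConv f < s.re :=
  lt_of_le_of_lt hf (by exact_mod_cast hs)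

lemma LogPair.logMul_eq (h : LogPair a l) {s : ℂ} (hs : 1 < s.re) :
    LSeries (logMul a) s = LSeries a s * LSeries l s := by
  rw [← LSeries_convolution (abs_lt h.absA hs) (abs_lt h.absL hs)]
  exact LSeries_congr (fun {n} hn => h.conv n hn) s

lemma LogPair.hasDerivAt (h : LogPair a l) {s : ℂ} (hs : 1 < s.re) :
    HasDerivAt (LSeries a) (-(LSeries a s * LSeries l s)) s := by
  have := LSeries_hasDerivAt (abs_lt h.absA hs)
  rwa [h.logMul_eq hs] at this

lemma LogPair.hasDerivAt_line (h : LogPair a l) (t : ℝ) {x : ℝ} (hx : 1 < x) :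
    HasDerivAt (fun y : ℝ => LSeries a (y + t * I))
      (-(LSeries a (x + t * I) * LSeries l (x + t * I))) x := by
  have h1 : HasDerivAt (LSeries a) (-(LSeries a (x + t * I) * LSeries l (x + t * I)))
      (x + t * I) := h.hasDerivAt (by simpa using hx)
  have h2 : HasDerivAt (fun z : ℂ => z + t * I) 1 (x : ℂ) := (hasDerivAt_id _).add_const _
  have h3 := HasDerivAt.comp (x : ℂ) h1 h2
  have h4 := h3.comp_ofReal
  simpa [Function.comp_def] using h4

/-- the limit at infinity along a horizontal line -/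
lemma tendsto_line {f : ℕ → ℂ} (hf : abscissaOfAbsConv f ≤ 1) (t : ℝ) :
    Tendsto (fun x : ℝ => LSeries f (x + t * I)) atTop (𝓝 (f 1)) := by
  set g : ℕ → ℂ := fun n => f n * (n : ℂ) ^ (-(t * I)) with hg
  have hterm : ∀ (x : ℝ) (n : ℕ), term f (x + t * I) n = term g x n := by
    intro x n
    rcases eq_or_ne n 0 with rfl | hn
    · simp
    · rw [term_of_ne_zero hn, term_of_ne_zero hn, hg]
      have hn' : (n : ℂ) ≠ 0 := by exact_mod_cast hn
      simp only
      rw [cpow_add _ _ hn', cpow_neg]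
      field_simp
  have hL : ∀ x : ℝ, LSeries f (x + t * I) = LSeries g x := by
    intro x
    unfold LSeries
    exact tsum_congr (hterm x)
  have hsum : LSeriesSummable g (2 : ℝ) := by
    have : LSeriesSummable f ((2 : ℝ) + t * I) :=
      LSeriesSummable_of_abscissaOfAbsConv_lt_re (abs_lt hf (by simp))
    unfold LSeriesSummable at this ⊢
    exact this.congr (fun n => hterm 2 n)
  have hg' : abscissaOfAbsConv g < ⊤ :=
    lt_of_le_of_lt hsum.abscissaOfAbsConv_le (EReal.coe_lt_top _)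
  have := LSeries.tendsto_atTop hg'
  simp_rw [hL]
  have hg1 : g 1 = f 1 := by simp [hg]
  rwa [hg1] at this


/-- Non-vanishing on `Re s > 1` is automatic. -/
theorem LogPair.ne_zero (h : LogPair a l) {s : ℂ} (hs : 1 < s.re) : LSeries a s ≠ 0 := by
  intro h0
  -- on the line through `s`, `g' = -P g`
  set t := s.im
  set x₀ := s.re
  have hs' : s = (x₀ : ℂ) + t * I := (Complex.re_add_im s).symm
  set P : ℝ → ℂ := fun x => LSeries l (max x x₀ + t * I) with hP
  have hPc : Continuous P := by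
    rw [continuous_iff_continuousAt]
    intro x
    have h1 : ContinuousAt (LSeries l) (((max x x₀ : ℝ) : ℂ) + t * I) :=
      (LSeries_hasDerivAt (abs_lt h.absL (by
        simp only [add_re, ofReal_re, mul_re, I_re, mul_zero, ofReal_im, I_im, mul_one, sub_self,
          add_zero]
        exact lt_of_lt_of_le hs (le_max_right _ _)))).continuousAt
    have h2 : ContinuousAt (fun y : ℝ => ((max y x₀ : ℝ) : ℂ) + t * I) x := by fun_prop
    exact ContinuousAt.comp (f := fun y : ℝ => ((max y x₀ : ℝ) : ℂ) + t * I) h1 h2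
  set E : ℝ → ℂ := fun x => Complex.exp (∫ u in x₀..x, P u) with hE
  have hEd : ∀ x, HasDerivAt E (E x * P x) x := by
    intro x
    have := (intervalIntegral.integral_hasDerivAt_right (hPc.intervalIntegrable x₀ x)
      (hPc.stronglyMeasurableAtFilter _ _) hPc.continuousAt)
    exact this.cexp
  set F : ℝ → ℂ := fun x => LSeries a (x + t * I) * E x with hF
  have hFd : ∀ x, x₀ ≤ x → HasDerivAt F 0 x := by
    intro x hx
    have h1 := (h.hasDerivAt_line t (lt_of_lt_of_le hs hx)).mul (hEd x)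
    have h2 : P x = LSeries l (x + t * I) := by simp only [hP, max_eq_left hx]
    rw [h2] at h1
    refine h1.congr_deriv ?_
    ring
  have hconst : ∀ x, x₀ ≤ x → F x = 0 := by
    intro x hx
    have hF0 : F x₀ = 0 := by
      simp only [hF]
      rw [← hs', h0, zero_mul]
    have := (convex_Icc x₀ x).norm_image_sub_le_of_norm_hasDerivWithin_le (f := F)
      (f' := fun _ => 0) (C := 0) (x := x₀) (y := x)
      (fun y hy => (hFd y hy.1).hasDerivWithinAt) (by simp) ⟨le_rfl, hx⟩ ⟨hx, le_rfl⟩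
    rw [zero_mul, hF0, sub_zero] at this
    exact norm_le_zero_iff.mp this
  have hzero : ∀ x, x₀ ≤ x → LSeries a (x + t * I) = 0 := by
    intro x hx
    have := hconst x hx
    rcases mul_eq_zero.mp this with h1 | h1
    · exact h1
    · exact absurd h1 (Complex.exp_ne_zero _)
  have hlim := tendsto_line h.absA t
  rw [h.one] at hlim
  have hlim0 : Tendsto (fun x : ℝ => LSeries a (x + t * I)) atTop (𝓝 0) := by
    refine tendsto_const_nhds.congr' ?_
    filter_upwards [eventually_ge_atTop x₀] with x hx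
    exact (hzero x hx).symm
  exact one_ne_zero (tendsto_nhds_unique hlim hlim0)

/-- derivative of `log ‖L‖` along a horizontal line -/
lemma LogPair.hasDerivAt_logNorm (h : LogPair a l) (t : ℝ) {x : ℝ} (hx : 1 < x) :
    HasDerivAt (fun y : ℝ => Real.log ‖LSeries a (y + t * I)‖)
      (-(LSeries l (x + t * I)).re) x := by
  have hne : LSeries a (x + t * I) ≠ 0 := h.ne_zero (by simpa using hx)
  have h1 := (h.hasDerivAt_line t hx).norm_sq
  have hpos : 0 < ‖LSeries a (x + t * I)‖ := norm_pos_iff.mpr hne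
  have h2 := h1.log (by positivity)
  have h3 : (fun y : ℝ => Real.log ‖LSeries a (y + t * I)‖) =
      fun y : ℝ => (1 / 2) * Real.log (‖LSeries a (y + t * I)‖ ^ 2) := by
    funext y
    rw [Real.log_pow]
    push_cast
    ring
  rw [h3]
  have h4 := h2.const_mul (1 / 2 : ℝ)
  refine h4.congr_deriv ?_
  have h5 : inner ℝ (LSeries a (x + t * I)) (-(LSeries a (x + t * I) * LSeries l (x + t * I))) =
      -(‖LSeries a (x + t * I)‖ ^ 2 * (LSeries l (x + t * I)).re) := by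
    rw [Complex.inner]
    have : -(LSeries a (x + t * I) * LSeries l (x + t * I)) *
        starRingEnd ℂ (LSeries a (x + t * I)) =
        -(((‖LSeries a (x + t * I)‖ ^ 2 : ℝ) : ℂ) * LSeries l (x + t * I)) := by
      rw [← Complex.normSq_eq_norm_sq, Complex.normSq_eq_conj_mul_self]
      ring
    rw [this, neg_re, re_ofReal_mul]
  rw [h5]
  field_simp

/-- the 3-4-1 inequality -/
theorem three_four_one {a₀ a₁ a₂ l₀ l₁ l₂ : ℕ → ℂ} (h₀ : LogPair a₀ l₀) (h₁ : LogPair a₁ l₁)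
    (h₂ : LogPair a₂ l₂)
    (pos : ∀ (n : ℕ) (z : ℂ), n ≠ 0 → ‖z‖ = 1 → 0 ≤ (3 * l₀ n + 4 * (l₁ n * z) + l₂ n * z ^ 2).re)
    (t : ℝ) {x : ℝ} (hx : 1 < x) :
    1 ≤ ‖LSeries a₀ x‖ ^ 3 * ‖LSeries a₁ (x + t * I)‖ ^ 4 *
      ‖LSeries a₂ (x + (2 * t : ℝ) * I)‖ := by
  set f : ℝ → ℝ := fun y => 3 * Real.log ‖LSeries a₀ (y + (0 : ℝ) * I)‖ +
    4 * Real.log ‖LSeries a₁ (y + t * I)‖ + Real.log ‖LSeries a₂ (y + (2 * t : ℝ) * I)‖ with hf
  have hfd : ∀ y : ℝ, 1 < y → HasDerivAt f (-(3 * (LSeries l₀ (y + (0 : ℝ) * I)).re +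
      4 * (LSeries l₁ (y + t * I)).re + (LSeries l₂ (y + (2 * t : ℝ) * I)).re)) y := by
    intro y hy
    have := (((h₀.hasDerivAt_logNorm 0 hy).const_mul 3).add
      ((h₁.hasDerivAt_logNorm t hy).const_mul 4)).add (h₂.hasDerivAt_logNorm (2 * t) hy)
    refine this.congr_deriv ?_
    ring
  have hpos : ∀ y : ℝ, 1 < y → 0 ≤ 3 * (LSeries l₀ (y + (0 : ℝ) * I)).re +
      4 * (LSeries l₁ (y + t * I)).re + (LSeries l₂ (y + (2 * t : ℝ) * I)).re := by
    intro y hy
    have s0 : LSeriesSummable l₀ (y + (0 : ℝ) * I) :=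
      LSeriesSummable_of_abscissaOfAbsConv_lt_re (abs_lt h₀.absL (by simpa using hy))
    have s1 : LSeriesSummable l₁ (y + t * I) :=
      LSeriesSummable_of_abscissaOfAbsConv_lt_re (abs_lt h₁.absL (by simpa using hy))
    have s2 : LSeriesSummable l₂ (y + (2 * t : ℝ) * I) :=
      LSeriesSummable_of_abscissaOfAbsConv_lt_re (abs_lt h₂.absL (by simpa using hy))
    unfold LSeriesSummable at s0 s1 s2
    have hs : HasSum (fun n => (3 * term l₀ (y + (0 : ℝ) * I) n + 4 * term l₁ (y + t * I) n +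
        term l₂ (y + (2 * t : ℝ) * I) n).re)
        ((3 * LSeries l₀ (y + (0 : ℝ) * I) + 4 * LSeries l₁ (y + t * I) +
        LSeries l₂ (y + (2 * t : ℝ) * I)).re) :=
      Complex.hasSum_re (((s0.hasSum.mul_left 3).add (s1.hasSum.mul_left 4)).add s2.hasSum)
    have e1 : 3 * (LSeries l₀ (y + (0 : ℝ) * I)).re +
      4 * (LSeries l₁ (y + t * I)).re + (LSeries l₂ (y + (2 * t : ℝ) * I)).re =
      (3 * LSeries l₀ (y + (0 : ℝ) * I) + 4 * LSeries l₁ (y + t * I) +
        LSeries l₂ (y + (2 * t : ℝ) * I)).re := by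
      simp
    rw [e1, ← hs.tsum_eq]
    refine tsum_nonneg (fun n => ?_)
    rcases eq_or_ne n 0 with rfl | hn
    · simp
    · rw [term_of_ne_zero hn, term_of_ne_zero hn, term_of_ne_zero hn]
      have hn' : (n : ℂ) ≠ 0 := by exact_mod_cast hn
      set z : ℂ := (n : ℂ) ^ (-(t * I)) with hz
      have hzn : ‖z‖ = 1 := by
        rw [hz, Complex.norm_natCast_cpow_of_pos (Nat.pos_of_ne_zero hn)]
        simp
      have hny : (0 : ℝ) < (n : ℝ) ^ y := by positivity
      have e0 : (n : ℂ) ^ ((y : ℂ) + (0 : ℝ) * I) = (((n : ℝ) ^ y : ℝ) : ℂ) := by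
        rw [Complex.ofReal_cpow (Nat.cast_nonneg n)]
        simp
      have ex1 : (n : ℂ) ^ ((y : ℂ) + t * I) * z = (((n : ℝ) ^ y : ℝ) : ℂ) := by
        rw [hz, ← cpow_add _ _ hn', Complex.ofReal_cpow (Nat.cast_nonneg n)]
        simp
      have ex2 : (n : ℂ) ^ ((y : ℂ) + (2 * t : ℝ) * I) * z ^ 2 = (((n : ℝ) ^ y : ℝ) : ℂ) := by
        rw [hz, pow_two, ← cpow_add _ _ hn', ← cpow_add _ _ hn',
          Complex.ofReal_cpow (Nat.cast_nonneg n)]
        congr 1
        push_cast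
        ring
      have hz0 : z ≠ 0 := by
        intro h
        rw [h, norm_zero] at hzn
        exact zero_ne_one hzn
      have hN : (((n : ℝ) ^ y : ℝ) : ℂ) ≠ 0 := by exact_mod_cast hny.ne'
      have d1 : l₁ n / (n : ℂ) ^ ((y : ℂ) + t * I) = l₁ n * z / (((n : ℝ) ^ y : ℝ) : ℂ) := by
        rw [← ex1]
        field_simp
      have d2 : l₂ n / (n : ℂ) ^ ((y : ℂ) + (2 * t : ℝ) * I) =
          l₂ n * z ^ 2 / (((n : ℝ) ^ y : ℝ) : ℂ) := by
        rw [← ex2]
        field_simp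
      rw [e0, d1, d2]
      have : 3 * (l₀ n / (((n : ℝ) ^ y : ℝ) : ℂ)) + 4 * (l₁ n * z / (((n : ℝ) ^ y : ℝ) : ℂ)) +
          l₂ n * z ^ 2 / (((n : ℝ) ^ y : ℝ) : ℂ) =
          (3 * l₀ n + 4 * (l₁ n * z) + l₂ n * z ^ 2) / (((n : ℝ) ^ y : ℝ) : ℂ) := by ring
      rw [this, Complex.div_ofReal_re]
      exact div_nonneg (pos n z hn hzn) hny.le
  -- `f` is antitone on `(1, ∞)` and tends to `0`
  have hanti : AntitoneOn f (Set.Ici x) := by
    refine antitoneOn_of_deriv_nonpos (convex_Ici x) ?_ ?_ ?_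
    · intro y hy
      exact (hfd y (lt_of_lt_of_le hx hy)).continuousAt.continuousWithinAt
    · intro y hy
      rw [interior_Ici] at hy
      exact (hfd y (hx.trans hy)).differentiableAt.differentiableWithinAt
    · intro y hy
      rw [interior_Ici] at hy
      rw [(hfd y (hx.trans hy)).deriv]
      have := hpos y (hx.trans hy)
      linarith
  have hlim : Tendsto f atTop (𝓝 0) := by
    have LL : ∀ (a l : ℕ → ℂ), LogPair a l → ∀ t : ℝ,
        Tendsto (fun y : ℝ => Real.log ‖LSeries a (y + t * I)‖) atTop (𝓝 0) := by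
      intro a l h t
      have h1 := (tendsto_line h.absA t).norm
      rw [h.one, norm_one] at h1
      have h2 := h1.log one_ne_zero
      rwa [Real.log_one] at h2
    have := (((LL _ _ h₀ 0).const_mul 3).add ((LL _ _ h₁ t).const_mul 4)).add (LL _ _ h₂ (2 * t))
    simpa [hf] using this
  have hfx : 0 ≤ f x := by
    refine le_of_tendsto hlim ?_
    filter_upwards [eventually_ge_atTop x] with y hy
    exact hanti (Set.mem_Ici.mpr le_rfl) (Set.mem_Ici.mpr hy) hy
  have n0 : 0 < ‖LSeries a₀ (x + (0 : ℝ) * I)‖ := norm_pos_iff.mpr (h₀.ne_zero (by simpa using hx))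
  have n1 : 0 < ‖LSeries a₁ (x + t * I)‖ := norm_pos_iff.mpr (h₁.ne_zero (by simpa using hx))
  have n2 : 0 < ‖LSeries a₂ (x + (2 * t : ℝ) * I)‖ :=
    norm_pos_iff.mpr (h₂.ne_zero (by simpa using hx))
  have e : ‖LSeries a₀ x‖ ^ 3 * ‖LSeries a₁ (x + t * I)‖ ^ 4 *
      ‖LSeries a₂ (x + (2 * t : ℝ) * I)‖ = Real.exp (f x) := by
    simp only [hf]
    rw [Real.exp_add, Real.exp_add, Real.exp_log n2,
      show (3 : ℝ) * Real.log ‖LSeries a₀ (x + (0 : ℝ) * I)‖ =
        ((3 : ℕ) : ℝ) * Real.log ‖LSeries a₀ (x + (0 : ℝ) * I)‖ by norm_num,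
      show (4 : ℝ) * Real.log ‖LSeries a₁ (x + t * I)‖ =
        ((4 : ℕ) : ℝ) * Real.log ‖LSeries a₁ (x + t * I)‖ by norm_num,
      Real.exp_nat_mul, Real.exp_nat_mul, Real.exp_log n0, Real.exp_log n1]
    simp
  rw [e]
  exact Real.one_le_exp hfx

/-- Lower bound for `L₁` on a horizontal line, from an upper bound `M` for `L₂` on the line
`2t`, an upper bound `M'` for `L₁'` on the line `t` and a simple pole bound for `L₀`. -/
theorem lower_bound {a₀ a₁ a₂ l₀ l₁ l₂ : ℕ → ℂ} (h₀ : LogPair a₀ l₀) (h₁ : LogPair a₁ l₁)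
    (h₂ : LogPair a₂ l₂)
    (pos : ∀ (n : ℕ) (z : ℂ), n ≠ 0 → ‖z‖ = 1 → 0 ≤ (3 * l₀ n + 4 * (l₁ n * z) + l₂ n * z ^ 2).re)
    (t : ℝ) {C M M' : ℝ} (hC : 1 ≤ C) (hM1 : 1 ≤ M) (hM1' : 1 ≤ M')
    (hC0 : ∀ x : ℝ, 1 < x → x ≤ 2 → ‖LSeries a₀ x‖ ≤ C / (x - 1))
    (hM : ∀ x : ℝ, 1 < x → x ≤ 2 → ‖LSeries a₂ (x + (2 * t : ℝ) * I)‖ ≤ M)
    (hM' : ∀ x : ℝ, 1 < x → x ≤ 2 → ‖deriv (LSeries a₁) (x + t * I)‖ ≤ M')
    {x : ℝ} (hx1 : 1 < x) (hx2 : x ≤ 2) :
    1 / (16 * C ^ 3 * M * M' ^ 3) ≤ ‖LSeries a₁ (x + t * I)‖ := by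
  have hC' : 0 < C := by linarith
  have hMp : 0 < M := by linarith
  have hMp' : 0 < M' := by linarith
  set y : ℝ := 1 / (16 * C ^ 3 * M * M' ^ 4) with hy
  have hy0 : 0 < y := by positivity
  have hy1 : y ≤ 1 := by
    rw [hy, div_le_one (by positivity)]
    have e1 : 1 ≤ C ^ 3 := one_le_pow₀ hC
    have e2 : 1 ≤ M' ^ 4 := one_le_pow₀ hM1'
    have e3 : 1 ≤ C ^ 3 * M := one_le_mul_of_one_le_of_one_le e1 hM1
    have e4 : 1 ≤ C ^ 3 * M * M' ^ 4 := one_le_mul_of_one_le_of_one_le e3 e2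
    linarith
  have hyM : M' * y = 1 / (16 * C ^ 3 * M * M' ^ 3) := by
    rw [hy]
    field_simp
  have key : ∀ z : ℝ, y ≤ z - 1 → z ≤ 2 → 2 * M' * y ≤ ‖LSeries a₁ (z + t * I)‖ := by
    intro z hz hz2
    have hz1 : 1 < z := by linarith
    have hzp : 0 < z - 1 := by linarith
    have h := three_four_one h₀ h₁ h₂ pos t hz1
    have h3 : 1 ≤ (C / (z - 1)) ^ 3 * ‖LSeries a₁ (z + t * I)‖ ^ 4 * M := by
      refine h.trans ?_
      have := hC0 z hz1 hz2
      have := hM z hz1 hz2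
      gcongr
    have h4 : (z - 1) ^ 3 / (C ^ 3 * M) ≤ ‖LSeries a₁ (z + t * I)‖ ^ 4 := by
      rw [div_le_iff₀ (by positivity)]
      calc (z - 1) ^ 3 = (z - 1) ^ 3 * 1 := (mul_one _).symm
        _ ≤ (z - 1) ^ 3 * ((C / (z - 1)) ^ 3 * ‖LSeries a₁ (z + t * I)‖ ^ 4 * M) := by gcongr
        _ = ‖LSeries a₁ (z + t * I)‖ ^ 4 * (C ^ 3 * M) := by
            field_simp
    have h5 : (2 * M' * y) ^ 4 ≤ ‖LSeries a₁ (z + t * I)‖ ^ 4 := by
      refine le_trans ?_ h4
      have h6 : (2 * M' * y) ^ 4 = y ^ 3 / (C ^ 3 * M) := by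
        have e : y ^ 4 = y ^ 3 * (1 / (16 * C ^ 3 * M * M' ^ 4)) := by rw [← hy]; ring
        rw [mul_pow, e]
        field_simp
        norm_num
      rw [h6]
      gcongr
    exact (pow_le_pow_iff_left₀ (by positivity) (norm_nonneg _) (by norm_num)).mp h5
  rw [← hyM]
  rcases le_or_gt y (x - 1) with h | h
  · have := key x h hx2
    have : 0 < M' * y := by positivity
    linarith
  · have hw := key (1 + y) (by linarith) (by linarith)
    have hdiff := (convex_Icc x (1 + y)).norm_image_sub_le_of_norm_hasDerivWithin_le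
      (f := fun u : ℝ => LSeries a₁ (u + t * I)) (f' := fun u : ℝ => deriv (LSeries a₁) (u + t * I))
      (C := M') (x := x) (y := 1 + y)
      (fun u hu => by
        have hu1 : 1 < u := lt_of_lt_of_le hx1 hu.1
        have := h₁.hasDerivAt_line t hu1
        have e : deriv (LSeries a₁) (u + t * I) =
            -(LSeries a₁ (u + t * I) * LSeries l₁ (u + t * I)) :=
          (h₁.hasDerivAt (by simpa using hu1)).deriv
        rw [e]
        exact this.hasDerivWithinAt)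
      (fun u hu => hM' u (lt_of_lt_of_le hx1 hu.1) (by linarith [hu.2]))
      ⟨le_rfl, by linarith⟩ ⟨by linarith, le_rfl⟩
    have h6 : ‖(1 + y) - x‖ ≤ y := by
      rw [Real.norm_eq_abs, abs_le]
      constructor <;> linarith
    have h7 : ‖LSeries a₁ ((1 + y : ℝ) + t * I)‖ - ‖LSeries a₁ (x + t * I)‖ ≤
        ‖LSeries a₁ ((1 + y : ℝ) + t * I) - LSeries a₁ (x + t * I)‖ := norm_sub_norm_le _ _
    have h8 : M' * ‖(1 + y) - x‖ ≤ M' * y := by gcongr
    linarith

/-- positivity input of the 3-4-1 argument, for sums `l n = ∑ w b ψ b` -/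
theorem pos_of_sum {ι : Type*} (S : Finset ι) (w : ι → ℝ) (hw : ∀ b ∈ S, 0 ≤ w b) (ψ : ι → ℂ)
    (hψ : ∀ b ∈ S, ‖ψ b‖ ≤ 1) (z : ℂ) (hz : ‖z‖ = 1) :
    0 ≤ (3 * (∑ b ∈ S, (w b : ℂ)) + 4 * ((∑ b ∈ S, (w b : ℂ) * ψ b) * z) +
      (∑ b ∈ S, (w b : ℂ) * ψ b ^ 2) * z ^ 2).re := by
  have e : 3 * (∑ b ∈ S, (w b : ℂ)) + 4 * ((∑ b ∈ S, (w b : ℂ) * ψ b) * z) +
      (∑ b ∈ S, (w b : ℂ) * ψ b ^ 2) * z ^ 2 =
      ∑ b ∈ S, (w b : ℂ) * (3 + 4 * (ψ b * z) + (ψ b * z) ^ 2) := by
    rw [Finset.sum_mul, Finset.sum_mul, Finset.mul_sum, Finset.mul_sum, ← Finset.sum_add_distrib,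
      ← Finset.sum_add_distrib]
    refine Finset.sum_congr rfl (fun b _ => ?_)
    ring
  rw [e, Complex.re_sum]
  refine Finset.sum_nonneg (fun b hb => ?_)
  rw [re_ofReal_mul]
  refine mul_nonneg (hw b hb) ?_
  set u := ψ b * z with hu
  have hun : ‖u‖ ≤ 1 := by
    rw [hu, norm_mul, hz, mul_one]
    exact hψ b hb
  have h1 : u.re ^ 2 + u.im ^ 2 ≤ 1 := by
    have := Complex.normSq_eq_norm_sq u
    rw [Complex.normSq_apply] at this
    have h2 : ‖u‖ ^ 2 ≤ 1 := pow_le_one₀ (norm_nonneg _) hun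
    nlinarith
  have h2 : (3 + 4 * u + u ^ 2).re = 3 + 4 * u.re + (u.re ^ 2 - u.im ^ 2) := by
    simp [pow_two]
  rw [h2]
  nlinarith [sq_nonneg (1 + u.re)]

lemma LogPair.iteratedDeriv_succ_eq (h : LogPair a l) (k : ℕ) {s : ℂ} (hs : 1 < s.re) :
    iteratedDeriv (k + 1) (LSeries a) s = -∑ i ∈ Finset.range (k + 1),
      (k.choose i : ℂ) * iteratedDeriv i (LSeries l) s * iteratedDeriv (k - i) (LSeries a) s := by
  have hcl : ContDiffAt ℂ k (LSeries l) s :=
    (LSeries_analyticOnNhd l s (abs_lt h.absL hs)).contDiffAt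
  have hca : ContDiffAt ℂ k (LSeries a) s :=
    (LSeries_analyticOnNhd a s (abs_lt h.absA hs)).contDiffAt
  rw [← iteratedDeriv_mul hcl hca, iteratedDeriv_succ']
  have hev : deriv (LSeries a) =ᶠ[𝓝 s] -(LSeries l * LSeries a) := by
    have ho : IsOpen {z : ℂ | 1 < z.re} := isOpen_lt continuous_const continuous_re
    filter_upwards [ho.mem_nhds hs] with z hz
    rw [(h.hasDerivAt hz).deriv]
    simp only [Pi.neg_apply, Pi.mul_apply]
    ring
  rw [hev.iteratedDeriv_eq k, iteratedDeriv_neg]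

/-- Bounds for the derivatives of `LSeries l = -L'/L`. -/
theorem iteratedDeriv_bound (B : ℝ) (hB : 1 ≤ B) (k : ℕ) : ∃ D : ℝ, 1 ≤ D ∧
    ∀ i ≤ k, ∀ (a l : ℕ → ℂ), LogPair a l → ∀ (s : ℂ), 1 < s.re → ∀ T : ℝ, 1 ≤ T →
      (∀ j ≤ i + 1, ‖iteratedDeriv j (LSeries a) s‖ ≤ B * T ^ (j + 1)) →
      1 / (B * T ^ 7) ≤ ‖LSeries a s‖ →
      ‖iteratedDeriv i (LSeries l) s‖ ≤ D * T ^ (9 * (i + 1)) := by
  have step : ∀ (i : ℕ) (D : ℝ), 1 ≤ D →
      ∀ (a l : ℕ → ℂ), LogPair a l → ∀ (s : ℂ), 1 < s.re → ∀ T : ℝ, 1 ≤ T →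
      (∀ j ≤ i + 1, ‖iteratedDeriv j (LSeries a) s‖ ≤ B * T ^ (j + 1)) →
      1 / (B * T ^ 7) ≤ ‖LSeries a s‖ →
      (∀ j < i, ‖iteratedDeriv j (LSeries l) s‖ ≤ D * T ^ (9 * (j + 1))) →
      ‖iteratedDeriv i (LSeries l) s‖ ≤ B ^ 2 * (1 + 2 ^ i * D) * T ^ (9 * (i + 1)) := by
    intro i D hD a l h s hs T hT hj hlow hind
    have hT0 : 0 < T := by linarith
    have hB0 : 0 < B := by linarith
    have e := h.iteratedDeriv_succ_eq i hs
    rw [Finset.sum_range_succ, Nat.choose_self, Nat.sub_self, iteratedDeriv_zero] at e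
    have e2 : iteratedDeriv i (LSeries l) s * LSeries a s =
        -iteratedDeriv (i + 1) (LSeries a) s - ∑ j ∈ Finset.range i,
      (i.choose j : ℂ) * iteratedDeriv j (LSeries l) s * iteratedDeriv (i - j) (LSeries a) s := by
      rw [e]
      push_cast
      ring
    have h1 : ‖iteratedDeriv i (LSeries l) s‖ * ‖LSeries a s‖ ≤
        B * T ^ (i + 2) + ∑ j ∈ Finset.range i, (i.choose j : ℝ) * (B * D * T ^ (9 * i + 2)) := by
      rw [← norm_mul, e2]
      refine (norm_sub_le _ _).trans ?_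
      rw [norm_neg]
      refine add_le_add (hj (i + 1) le_rfl) ((norm_sum_le _ _).trans (Finset.sum_le_sum ?_))
      intro j hjr
      rw [Finset.mem_range] at hjr
      rw [norm_mul, norm_mul, Complex.norm_natCast, mul_assoc]
      refine mul_le_mul_of_nonneg_left ?_ (Nat.cast_nonneg _)
      calc ‖iteratedDeriv j (LSeries l) s‖ * ‖iteratedDeriv (i - j) (LSeries a) s‖
          ≤ (D * T ^ (9 * (j + 1))) * (B * T ^ (i - j + 1)) := by
            have := hind j hjr
            have := hj (i - j) (by omega)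
            gcongr
        _ = B * D * T ^ (9 * (j + 1) + (i - j + 1)) := by ring
        _ ≤ B * D * T ^ (9 * i + 2) := by
            have : 9 * (j + 1) + (i - j + 1) ≤ 9 * i + 2 := by omega
            gcongr
    rw [← Finset.sum_mul] at h1
    have h2 : (∑ j ∈ Finset.range i, (i.choose j : ℝ)) ≤ 2 ^ i := by
      have h3 : (∑ j ∈ Finset.range (i + 1), i.choose j) = 2 ^ i := Nat.sum_range_choose i
      have h4 : (∑ j ∈ Finset.range (i + 1), (i.choose j : ℝ)) = 2 ^ i := by exact_mod_cast h3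
      rw [← h4, Finset.sum_range_succ]
      have : (0 : ℝ) ≤ i.choose i := Nat.cast_nonneg _
      linarith
    have h5 : ‖iteratedDeriv i (LSeries l) s‖ * ‖LSeries a s‖ ≤
        B * (1 + 2 ^ i * D) * T ^ (9 * i + 2) := by
      refine h1.trans ?_
      have h6 : T ^ (i + 2) ≤ T ^ (9 * i + 2) := pow_le_pow_right₀ hT (by omega)
      calc B * T ^ (i + 2) + (∑ j ∈ Finset.range i, (i.choose j : ℝ)) * (B * D * T ^ (9 * i + 2))
          ≤ B * T ^ (9 * i + 2) + 2 ^ i * (B * D * T ^ (9 * i + 2)) := by gcongr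
        _ = _ := by ring
    have h7 : ‖iteratedDeriv i (LSeries l) s‖ * (1 / (B * T ^ 7)) ≤
        B * (1 + 2 ^ i * D) * T ^ (9 * i + 2) :=
      (mul_le_mul_of_nonneg_left hlow (norm_nonneg _)).trans h5
    rw [mul_one_div, div_le_iff₀ (by positivity)] at h7
    refine h7.trans (le_of_eq ?_)
    have : 9 * (i + 1) = (9 * i + 2) + 7 := by ring
    rw [this, pow_add T (9 * i + 2) 7]
    ring
  induction k with
  | zero =>
    refine ⟨B ^ 2 * (1 + 2 ^ 0 * 1), ?_, ?_⟩
    · have : 1 ≤ B ^ 2 := one_le_pow₀ hB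
      nlinarith
    · intro i hi a l h s hs T hT hj hlow
      obtain rfl : i = 0 := by omega
      exact step 0 1 le_rfl a l h s hs T hT hj hlow (fun j hj => by omega)
  | succ k ih =>
    obtain ⟨D, hD, hDk⟩ := ih
    have hBsq : 1 ≤ B ^ 2 := one_le_pow₀ hB
    have h2k : (1 : ℝ) ≤ 2 ^ (k + 1) := one_le_pow₀ (by norm_num)
    refine ⟨max D (B ^ 2 * (1 + 2 ^ (k + 1) * D)), hD.trans (le_max_left _ _), ?_⟩
    intro i hi a l h s hs T hT hj hlow
    have hTp : 0 ≤ T ^ (9 * (i + 1)) := by positivity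
    rcases Nat.lt_or_ge i (k + 1) with h1 | h1
    · exact (hDk i (by omega) a l h s hs T hT hj hlow).trans
        (mul_le_mul_of_nonneg_right (le_max_left _ _) hTp)
    · obtain rfl : i = k + 1 := by omega
      refine (step (k + 1) D hD a l h s hs T hT hj hlow (fun j hjk => ?_)).trans
        (mul_le_mul_of_nonneg_right (le_max_right _ _) hTp)
      exact hDk j (by omega) a l h s hs T hT (fun j' hj' => hj j' (by omega)) hlow

/-- The size parameter. -/
def TT (Q : ℝ) (s : ℂ) : ℝ := Real.log (Q * (|s.im| + 2))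

lemma one_le_TT {Q : ℝ} (hQ : 2 ≤ Q) (s : ℂ) : 1 ≤ TT Q s := by
  unfold TT
  rw [Real.le_log_iff_exp_le (by positivity)]
  have h1 : Real.exp 1 < 3 := Real.exp_one_lt_three
  nlinarith [abs_nonneg s.im]

/-- **(P3)+(P4)**: polylogarithmic bounds for the derivatives of `LSeries l₁ = -L₁'/L₁`. -/
theorem main (k : ℕ) (C₀ : ℝ) (hC₀ : 1 ≤ C₀) : ∃ K : ℝ, 1 ≤ K ∧
    ∀ (a₀ a₁ a₂ l₀ l₁ l₂ : ℕ → ℂ), LogPair a₀ l₀ → LogPair a₁ l₁ → LogPair a₂ l₂ →
    (∀ (n : ℕ) (z : ℂ), n ≠ 0 → ‖z‖ = 1 → 0 ≤ (3 * l₀ n + 4 * (l₁ n * z) + l₂ n * z ^ 2).re) →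
    ∀ Q : ℝ, 2 ≤ Q →
    (∀ x : ℝ, 1 < x → x ≤ 2 → ‖LSeries a₀ x‖ ≤ C₀ / (x - 1)) →
    (∀ s : ℂ, 1 < s.re → s.re ≤ 2 →
      ‖LSeries a₂ s‖ ≤ C₀ * Real.log (Q * (|s.im| + 2))) →
    (∀ j ≤ k + 1, ∀ s : ℂ, 1 < s.re → s.re ≤ 2 →
      ‖iteratedDeriv j (LSeries a₁) s‖ ≤ C₀ * Real.log (Q * (|s.im| + 2)) ^ (j + 1)) →
    ∀ s : ℂ, 1 < s.re → s.re ≤ 2 →
      ‖iteratedDeriv k (LSeries l₁) s‖ ≤ K * Real.log (Q * (|s.im| + 2)) ^ (9 * (k + 1)) := by
  have hB : 1 ≤ 32 * C₀ ^ 7 := by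
    have : 1 ≤ C₀ ^ 7 := one_le_pow₀ hC₀
    linarith
  obtain ⟨D, hD, hDk⟩ := iteratedDeriv_bound (32 * C₀ ^ 7) hB k
  refine ⟨D, hD, ?_⟩
  intro a₀ a₁ a₂ l₀ l₁ l₂ h₀ h₁ h₂ pos Q hQ hp h2 h1 s hs1 hs2
  have hC00 : 0 < C₀ := by linarith
  have hT1 := one_le_TT hQ s
  have hTdef : TT Q s = Real.log (Q * (|s.im| + 2)) := rfl
  rw [← hTdef]
  have hT0 : 0 < TT Q s := by linarith
  refine hDk k le_rfl a₁ l₁ h₁ s hs1 (TT Q s) hT1 ?_ ?_
  · intro j hj
    refine (h1 j hj s hs1 hs2).trans ?_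
    rw [← hTdef]
    have h7 : C₀ ≤ 32 * C₀ ^ 7 := by
      have : C₀ ^ 1 ≤ C₀ ^ 7 := pow_le_pow_right₀ hC₀ (by norm_num)
      rw [pow_one] at this
      have : 0 < C₀ ^ 7 := by positivity
      linarith
    gcongr
  · have hs : s = (s.re : ℂ) + s.im * I := (Complex.re_add_im s).symm
    have hM1 : 1 ≤ C₀ * (2 * TT Q s) := by nlinarith
    have hM1' : 1 ≤ C₀ * TT Q s ^ 2 :=
      one_le_mul_of_one_le_of_one_le hC₀ (one_le_pow₀ hT1)
    have hlb := lower_bound h₀ h₁ h₂ pos s.im (C := C₀) (M := C₀ * (2 * TT Q s))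
      (M' := C₀ * TT Q s ^ 2) hC₀ hM1 hM1' hp ?_ ?_ hs1 hs2
    · rw [← hs] at hlb
      refine le_trans (le_of_eq ?_) hlb
      congr 1
      ring
    · intro x hx1 hx2
      refine (h2 _ (by simpa using hx1) (by simpa using hx2)).trans ?_
      gcongr
      have e1 : ((x : ℂ) + ((2 * s.im : ℝ) : ℂ) * I).im = 2 * s.im := by simp
      rw [e1, hTdef]
      have h3 : Real.log (Q * (|2 * s.im| + 2)) ≤ Real.log (2 * (Q * (|s.im| + 2))) := by
        apply Real.log_le_log (by positivity)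
        rw [abs_mul, abs_two]
        nlinarith [abs_nonneg s.im]
      refine h3.trans ?_
      rw [Real.log_mul (by norm_num) (by positivity)]
      have h4 : Real.log 2 ≤ Real.log (Q * (|s.im| + 2)) := by
        apply Real.log_le_log (by norm_num)
        nlinarith [abs_nonneg s.im]
      linarith
    · intro x hx1 hx2
      have := h1 1 (by omega) (x + s.im * I) (by simpa using hx1) (by simpa using hx2)
      rw [iteratedDeriv_one] at this
      refine this.trans (le_of_eq ?_)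
      simp [TT]

end

end Crest.Agent.R012.P34994
end

-- ▼ part R012/PSW_255
section

/-!
# Row 12, part (P): Siegel–Walfisz over `ℤ[ω]`, abstract form

Assembly of (P0) `PSer_47`, (P2) bounds for `L^{(j)}` on `Re s > 1` (hypotheses `P2Prop`, `P2One`),
(P3)+(P4) `P34_994`, (P5)+(P6) `PInv_255`.
-/

set_option autoImplicit false

open Complex Filter Topology LSeries
open scoped LSeries.notation

namespace Crest.Agent.R012.PSW255

open Crest.Agent.R012 Crest.Agent.R012.Eis PSer47 P34994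

noncomputable section

/-- (P2): bounds for the derivatives of `L(s, ψ)` on `1 < Re s ≤ 2`. -/
def P2Prop : Prop := ∀ j : ℕ, ∃ C : ℝ, 1 ≤ C ∧ ∀ (ψ : Eis → ℂ) (Q : ℝ), IsChar ψ → 1 ≤ Q →
  (∀ N : ℕ, ‖∑ b ∈ primBall N, ψ b‖ ≤ Q * Real.sqrt N) → ∀ s : ℂ, 1 < s.re → s.re ≤ 2 →
  ‖iteratedDeriv j (LSeries (push ψ)) s‖ ≤ C * Real.log (Q * (|s.im| + 2)) ^ (j + 1)

/-- (P2) for the trivial character at real points -/
def P2One : Prop := ∃ C : ℝ, 1 ≤ C ∧ ∀ x : ℝ, 1 < x → x ≤ 2 →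
  ‖LSeries (push (fun _ => 1)) x‖ ≤ C / (x - 1)

theorem convolution_comm' (f g : ℕ → ℂ) : f ⍟ g = g ⍟ f := by
  ext n
  rw [LSeries.convolution_def, LSeries.convolution_def]
  refine Finset.sum_nbij' Prod.swap Prod.swap ?_ ?_ ?_ ?_ ?_
  · intro p hp
    rw [Nat.mem_divisorsAntidiagonal] at hp ⊢
    exact ⟨by rw [← hp.1]; exact mul_comm _ _, hp.2⟩
  · intro p hp
    rw [Nat.mem_divisorsAntidiagonal] at hp ⊢
    exact ⟨by rw [← hp.1]; exact mul_comm _ _, hp.2⟩
  · intro p _; rfl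
  · intro p _; rfl
  · intro p _; exact mul_comm _ _

theorem absc_push {ψ : Eis → ℂ} (hψ : ∀ b, IsPrim b → ‖ψ b‖ ≤ 1) :
    abscissaOfAbsConv (push ψ) ≤ 1 := by
  refine abscissaOfAbsConv_le_of_forall_lt_LSeriesSummable' (x := 1) (fun y hy => ?_)
  have hy' : (1 : ℝ) < y := by exact_mod_cast hy
  refine LSeriesSummable_of_sum_norm_bigO (r := 1) ?_ zero_le_one (by simpa using hy')
  refine Asymptotics.IsBigO.of_bound 18 (Eventually.of_forall fun N => ?_)
  rw [Real.rpow_one, Real.norm_natCast, Real.norm_of_nonneg (by positivity)]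
  exact sum_norm_push_le hψ N

theorem absc_LamPsi {ψ : Eis → ℂ} (hψ : ∀ b, IsPrim b → ‖ψ b‖ ≤ 1) :
    abscissaOfAbsConv (push (LamPsi ψ)) ≤ 1 := by
  refine abscissaOfAbsConv_le_of_forall_lt_LSeriesSummable' (x := 1) (fun y hy => ?_)
  have hy' : (1 : ℝ) < y := by exact_mod_cast hy
  have h := Crest.Agent.SW.summable_of_log (fun n => (2 : ℂ)⁻¹ * push (LamPsi ψ) n) (fun n hn => ?_)
    (s := (y : ℂ)) (by simpa using hy')
  · have h2 := LSeriesSummable.smul (2 : ℂ) h
    refine (LSeriesSummable_congr _ (fun {n} _ => ?_)).mp h2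
    simp [Pi.smul_apply]
  · rw [norm_mul, norm_inv]
    have h1 := norm_push_LamPsi_le hψ n
    have h0 : ‖(2 : ℂ)‖ = 2 := by simp
    rw [h0]
    linarith

theorem logPair {ψ : Eis → ℂ} (h : IsChar ψ) : LogPair (push ψ) (push (LamPsi ψ)) where
  one := by rw [push_one, h.one]
  absA := absc_push fun _ hb => h.norm_le hb
  absL := absc_LamPsi fun _ hb => h.norm_le hb
  conv n _ := by
    rw [← conv_LamPsi h, convolution_comm']

theorem pos {ψ : Eis → ℂ} (h : IsChar ψ) (n : ℕ) (z : ℂ) (hz : ‖z‖ = 1) :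
    0 ≤ (3 * push (LamPsi fun _ => 1) n + 4 * (push (LamPsi ψ) n * z) +
      push (LamPsi fun b => ψ b ^ 2) n * z ^ 2).re := by
  have := pos_of_sum (fib n) Lam (fun b _ => Lam_nonneg b) ψ
    (fun b hb => h.norm_le (mem_fib.mp hb).2) z hz
  simpa [push, LamPsi] using this

/-- bounds for all derivatives of `-L'/L` -/
theorem deriv_bound (h2 : P2Prop) (h1 : P2One) : ∃ B : ℕ → ℕ, ∀ (ψ : Eis → ℂ) (Q : ℝ),
    IsChar ψ → 2 ≤ Q → (∀ N : ℕ, ‖∑ b ∈ primBall N, ψ b‖ ≤ Q * Real.sqrt N) →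
    (∀ N : ℕ, ‖∑ b ∈ primBall N, ψ b ^ 2‖ ≤ Q * Real.sqrt N) →
    ∀ k : ℕ, ∀ s : ℂ, 1 < s.re → s.re ≤ 2 →
      ‖iteratedDeriv k (LSeries (push (LamPsi ψ))) s‖ ≤
        B k * Real.log (Q * (|s.im| + 2)) ^ B k := by
  choose c hc1 hc using h2
  obtain ⟨c1, hc11, hc1'⟩ := h1
  -- a common constant for `j ≤ k + 1`
  set M : ℕ → ℝ := fun k => c1 + ∑ j ∈ Finset.range (k + 2), c j with hM
  have hcpos : ∀ j, 0 ≤ c j := fun j => by linarith [hc1 j]
  have hMc : ∀ k, ∀ j ≤ k + 1, c j ≤ M k := fun k j hj => by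
    have : c j ≤ ∑ j ∈ Finset.range (k + 2), c j :=
      Finset.single_le_sum (f := c) (fun j _ => hcpos j) (Finset.mem_range.mpr (by omega))
    simp only [hM]; linarith
  have hM1 : ∀ k, c1 ≤ M k := fun k => by
    have : 0 ≤ ∑ j ∈ Finset.range (k + 2), c j := Finset.sum_nonneg fun j _ => hcpos j
    simp only [hM]; linarith
  have hmain := fun k => P34994.main k (M k) (hc11.trans (hM1 k))
  choose K hK1 hK using hmain
  refine ⟨fun k => max ⌈K k⌉₊ (9 * (k + 1)), ?_⟩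
  intro ψ Q hψ hQ hs hs2 k s hs1 hs2'
  have hlog : ∀ s : ℂ, 1 ≤ Real.log (Q * (|s.im| + 2)) := fun s => P34994.one_le_TT hQ s
  have key := hK k (push fun _ => 1) (push ψ) (push fun b => ψ b ^ 2) (push (LamPsi fun _ => 1))
    (push (LamPsi ψ)) (push (LamPsi fun b => ψ b ^ 2)) (logPair isChar_one) (logPair hψ)
    (logPair hψ.sq) (fun n z _ hz => pos hψ n z hz) Q hQ ?_ ?_ ?_ s hs1 hs2'
  · refine key.trans ?_
    have hl := hlog s
    have h3 : K k ≤ ((max ⌈K k⌉₊ (9 * (k + 1)) : ℕ) : ℝ) :=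
      (Nat.le_ceil _).trans (by exact_mod_cast le_max_left _ _)
    have h4 : (0 : ℝ) ≤ K k := by linarith [hK1 k]
    have h5 : Real.log (Q * (|s.im| + 2)) ^ (9 * (k + 1)) ≤
        Real.log (Q * (|s.im| + 2)) ^ (max ⌈K k⌉₊ (9 * (k + 1))) :=
      pow_le_pow_right₀ hl (le_max_right _ _)
    exact mul_le_mul h3 h5 (by positivity) (by positivity)
  · intro x hx1 hx2
    refine (hc1' x hx1 hx2).trans ?_
    have : 0 < x - 1 := by linarith
    gcongr
    exact hM1 k
  · intro s h1 h2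
    have := hc 0 (fun b => ψ b ^ 2) Q hψ.sq (by linarith) hs2 s h1 h2
    rw [iteratedDeriv_zero] at this
    refine this.trans ?_
    have hl := hlog s
    rw [zero_add, pow_one]
    gcongr
    exact hMc k 0 (by omega)
  · intro j hj s h1 h2
    refine (hc j ψ Q hψ (by linarith) hs s h1 h2).trans ?_
    have hl := hlog s
    gcongr
    exact hMc k j hj

/-- **Siegel–Walfisz with von Mangoldt weight**, twisted by `nm b ^ (it)`. -/
theorem SW_Lam (h2 : P2Prop) (h1 : P2One) (A C : ℕ) : ∃ K : ℝ, 0 < K ∧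
    ∀ (ψ : Eis → ℂ) (Q : ℝ), IsChar ψ → 1 ≤ Q →
    (∀ N : ℕ, ‖∑ b ∈ primBall N, ψ b‖ ≤ Q * Real.sqrt N) →
    (∀ N : ℕ, ‖∑ b ∈ primBall N, ψ b ^ 2‖ ≤ Q * Real.sqrt N) →
    ∀ (t x : ℝ), 2 ≤ x → Q * (|t| + 2) ≤ Real.log x ^ C →
      ‖∑ b ∈ primBall ⌊x⌋₊, (Lam b : ℂ) * ψ b * (nm b : ℂ) ^ (t * I)‖ ≤
        K * x / Real.log x ^ A := by
  obtain ⟨B, hB⟩ := deriv_bound h2 h1
  obtain ⟨D, hD, h⟩ := PInv255.sum_tw_le 2 B A (2 * C)
  refine ⟨D, hD, fun ψ Q hψ hQ hs hs2 t x hx hQx => ?_⟩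
  have ht := abs_nonneg t
  have key := h (push (LamPsi ψ)) (2 * Q) (by linarith) ?_ ?_ x (-t) hx ?_
  · refine le_trans (le_of_eq ?_) key
    congr 1
    rw [← sum_push]
    refine Finset.sum_congr rfl fun n _ => ?_
    unfold push
    rw [Finset.sum_mul]
    refine Finset.sum_congr rfl fun b hb => ?_
    rw [mem_fib] at hb
    simp only [LamPsi, hb.1, Complex.ofReal_neg, neg_mul, neg_neg]
  · intro n hn
    refine (norm_push_LamPsi_le (fun b hb => hψ.norm_le hb) n).trans ?_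
    linarith
  · intro k s h1 h2
    refine hB ψ (2 * Q) hψ (by linarith) (fun N => (hs N).trans ?_) (fun N => (hs2 N).trans ?_)
      k s h1 h2
    · gcongr; linarith
    · gcongr; linarith
  · rw [abs_neg, mul_assoc, pow_mul]
    have h3 : 2 ≤ Real.log x ^ C := le_trans (by nlinarith) hQx
    calc 2 * (Q * (|t| + 2)) ≤ Real.log x ^ C * Real.log x ^ C := by
          apply mul_le_mul h3 hQx (by positivity) (by linarith)
      _ = (Real.log x ^ 2) ^ C := by rw [← mul_pow, pow_two]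

end

end Crest.Agent.R012.PSW255
end

-- ▼ part R012/PLog_255
section

/-!
# Row 12, part (P): from von Mangoldt sums to sums over primary primes
-/

set_option autoImplicit false

open Complex

namespace Crest.Agent.R012.PLog255

open Crest.Agent.R012 Crest.Agent.R012.Eis PSer47

noncomputable section

/-- Abel summation with a nonnegative antitone weight. -/
theorem abel {a : ℕ → ℂ} {w : ℕ → ℝ} {M : ℕ} {B : ℝ} (N : ℕ) (hMN : M < N)
    (hw : ∀ n, M < n → w (n + 1) ≤ w n) (hw0 : ∀ n, M < n → 0 ≤ w n)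
    (hB : ∀ n, M < n → n ≤ N → ‖∑ m ∈ Finset.Ioc M n, a m‖ ≤ B) :
    ‖∑ n ∈ Finset.Ioc M N, (w n : ℂ) * a n‖ ≤ w (M + 1) * B := by
  have key : ∀ N, M < N → (∀ n, M < n → n ≤ N → ‖∑ m ∈ Finset.Ioc M n, a m‖ ≤ B) →
      ‖∑ n ∈ Finset.Ioc M N, (w n : ℂ) * a n - (w N : ℂ) * ∑ n ∈ Finset.Ioc M N, a n‖ ≤
        (w (M + 1) - w N) * B := by
    intro N hMN
    induction N, hMN using Nat.le_induction with
    | base =>
      intro _
      have : Finset.Ioc M (M + 1) = {M + 1} := by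
        ext n; simp only [Finset.mem_Ioc, Finset.mem_singleton]; omega
      rw [Nat.succ_eq_add_one, this]
      simp
    | succ N hMN ih =>
      intro hB
      have hMN' : M < N := hMN
      have h1 := ih (fun n h1 h2 => hB n h1 (by omega))
      rw [Finset.sum_Ioc_succ_top (by omega), Finset.sum_Ioc_succ_top (by omega)]
      have e : ∑ n ∈ Finset.Ioc M N, (w n : ℂ) * a n + (w (N + 1) : ℂ) * a (N + 1) -
          (w (N + 1) : ℂ) * (∑ n ∈ Finset.Ioc M N, a n + a (N + 1)) =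
          (∑ n ∈ Finset.Ioc M N, (w n : ℂ) * a n - (w N : ℂ) * ∑ n ∈ Finset.Ioc M N, a n) +
          ((w N - w (N + 1) : ℝ) : ℂ) * ∑ n ∈ Finset.Ioc M N, a n := by
        push_cast; ring
      rw [e]
      refine (norm_add_le _ _).trans ?_
      rw [norm_mul, Complex.norm_real, Real.norm_of_nonneg (by linarith [hw N hMN'])]
      have h2 := hB N hMN' (by omega)
      have h3 : (w N - w (N + 1)) * ‖∑ n ∈ Finset.Ioc M N, a n‖ ≤ (w N - w (N + 1)) * B :=
        mul_le_mul_of_nonneg_left h2 (by linarith [hw N hMN'])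
      linarith
  have h1 := key N hMN hB
  have h2 := hB N hMN le_rfl
  have h3 : ‖(w N : ℂ) * ∑ n ∈ Finset.Ioc M N, a n‖ ≤ w N * B := by
    rw [norm_mul, Complex.norm_real, Real.norm_of_nonneg (hw0 N hMN)]
    exact mul_le_mul_of_nonneg_left h2 (hw0 N hMN)
  have h4 := norm_sub_norm_le (∑ n ∈ Finset.Ioc M N, (w n : ℂ) * a n)
    ((w N : ℂ) * ∑ n ∈ Finset.Ioc M N, a n)
  linarith

open Classical in
/-- the primary primes of norm `≤ N` -/
def primes (N : ℕ) : Finset Eis := (primBall N).filter (fun p => Prime p)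

theorem mem_primes {N : ℕ} {p : Eis} : p ∈ primes N ↔ nm p ≤ N ∧ IsPrim p ∧ Prime p := by
  simp [primes, mem_primBall, and_assoc]

theorem primes_subset (N : ℕ) : primes N ⊆ primBall N := by
  classical
  exact Finset.filter_subset _ _

/-- number of proper prime powers -/
theorem card_pp_le (N : ℕ) (S : Finset Eis) (hS : ∀ b ∈ S, b ∈ primBall N ∧ IsPP b ∧ ¬ Prime b) :
    S.card ≤ 18 * Nat.sqrt N * Nat.log 2 N := by
  classical
  have hsub : S ⊆ (primBall (Nat.sqrt N) ×ˢ Finset.Icc 1 (Nat.log 2 N)).image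
      (fun q => q.1 ^ q.2) := by
    intro b hb
    obtain ⟨h1, ⟨p, k, hp, hp', hk, rfl⟩, h3⟩ := hS b hb
    rw [mem_primBall, nm_pow] at h1
    have hk2 : 2 ≤ k := by
      rcases Nat.eq_or_lt_of_le hk with h | h
      · exact absurd (by rw [← h, pow_one]; exact hp) h3
      · exact h
    have hp2 := two_le_nm_of_prime hp
    simp only [Finset.mem_image, Finset.mem_product, mem_primBall, Finset.mem_Icc, Prod.exists]
    refine ⟨p, k, ⟨⟨?_, hp'⟩, hk, ?_⟩, rfl⟩
    · rw [Nat.le_sqrt']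
      exact (Nat.pow_le_pow_right (by omega) hk2).trans h1.1
    · have h4 : 2 ^ k ≤ N := (Nat.pow_le_pow_left hp2 k).trans h1.1
      exact Nat.le_log_of_pow_le (by norm_num) h4
  refine (Finset.card_le_card hsub).trans (Finset.card_image_le.trans ?_)
  rw [Finset.card_product, Nat.card_Icc, Nat.add_sub_cancel]
  exact Nat.mul_le_mul_right _ (card_primBall_le' _)

theorem Lam_le {b : Eis} (hb : b ≠ 0) : Lam b ≤ Real.log (nm b) := by
  by_cases h : IsPP b
  · obtain ⟨p, k, hp, hp', hk, rfl⟩ := h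
    rw [Lam_pow hp hp' hk, nm_pow]
    have h2 := two_le_nm_of_prime hp
    apply Real.log_le_log (by positivity)
    push_cast
    have : (1 : ℝ) ≤ nm p := by exact_mod_cast (by omega : 1 ≤ nm p)
    exact le_self_pow₀ this (by omega)
  · rw [Lam_of_not h]
    exact Real.log_natCast_nonneg _

/-- proper prime powers contribute `O(√N log² N)` -/
theorem pp_sum (g : Eis → ℂ) (hg : ∀ b, IsPrim b → ‖g b‖ ≤ 1) (N : ℕ) (hN : 1 ≤ N) :
    ‖∑ b ∈ primBall N, (Lam b : ℂ) * g b - ∑ p ∈ primes N, (Real.log (nm p) : ℂ) * g p‖ ≤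
      36 * Real.sqrt N * Real.log N ^ 2 := by
  classical
  have hl0 : 0 ≤ Real.log N := Real.log_natCast_nonneg N
  have e1 : ∑ p ∈ primes N, (Real.log (nm p) : ℂ) * g p =
      ∑ b ∈ (primBall N).filter (fun p => Prime p), (Lam b : ℂ) * g b := by
    unfold primes
    refine Finset.sum_congr rfl fun p hp => ?_
    rw [Finset.mem_filter, mem_primBall] at hp
    rw [Lam_prime hp.2 hp.1.2]
  rw [e1, ← Finset.sum_filter_add_sum_filter_not (primBall N) (fun p => Prime p)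
    (fun b => (Lam b : ℂ) * g b), add_sub_cancel_left]
  rw [← Finset.sum_filter_add_sum_filter_not ((primBall N).filter (fun p => ¬ Prime p))
    (fun b => IsPP b) (fun b => (Lam b : ℂ) * g b)]
  have e2 : ∑ b ∈ ((primBall N).filter (fun p => ¬ Prime p)).filter (fun b => ¬ IsPP b),
      (Lam b : ℂ) * g b = 0 := by
    refine Finset.sum_eq_zero fun b hb => ?_
    rw [Finset.mem_filter] at hb
    rw [Lam_of_not hb.2]; simp
  rw [e2, add_zero]
  set S := ((primBall N).filter (fun p => ¬ Prime p)).filter (fun b => IsPP b) with hS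
  have hc := card_pp_le N S (fun b hb => by
    rw [hS, Finset.mem_filter, Finset.mem_filter] at hb
    exact ⟨hb.1.1, hb.2, hb.1.2⟩)
  have hc' : (S.card : ℝ) ≤ 18 * Real.sqrt N * (2 * Real.log N) := by
    have h1 : (S.card : ℝ) ≤ 18 * (Nat.sqrt N : ℝ) * (Nat.log 2 N : ℝ) := by exact_mod_cast hc
    have h2 : (Nat.sqrt N : ℝ) ≤ Real.sqrt N := Real.nat_sqrt_le_real_sqrt
    have h3 : (Nat.log 2 N : ℝ) ≤ 2 * Real.log N := by
      have h4 : (2 : ℝ) ^ (Nat.log 2 N) ≤ N := by exact_mod_cast Nat.pow_log_le_self 2 (by omega)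
      have h5 := Real.log_le_log (by positivity) h4
      rw [Real.log_pow] at h5
      have h6 : (1 / 2 : ℝ) ≤ Real.log 2 := Crest.Agent.SW.log_half le_rfl
      have h7 : (0 : ℝ) ≤ Nat.log 2 N := Nat.cast_nonneg _
      nlinarith
    refine h1.trans ?_
    gcongr
  calc ‖∑ b ∈ S, (Lam b : ℂ) * g b‖ ≤ ∑ b ∈ S, ‖(Lam b : ℂ) * g b‖ := norm_sum_le _ _
    _ ≤ ∑ _b ∈ S, Real.log N := by
        refine Finset.sum_le_sum fun b hb => ?_
        rw [hS, Finset.mem_filter, Finset.mem_filter, mem_primBall] at hb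
        have h0 : b ≠ 0 := hb.1.1.2.ne_zero
        have h1 := Lam_le h0
        have h2 : Real.log (nm b) ≤ Real.log N :=
          Real.log_le_log (by exact_mod_cast nm_pos.mpr h0) (by exact_mod_cast hb.1.1.1)
        have h3 := hg b hb.1.1.2
        rw [norm_mul, Complex.norm_real, Real.norm_of_nonneg (Lam_nonneg b)]
        have h4 := Lam_nonneg b
        nlinarith
    _ = S.card * Real.log N := by rw [Finset.sum_const, nsmul_eq_mul]
    _ ≤ 18 * Real.sqrt N * (2 * Real.log N) * Real.log N := by gcongr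
    _ = _ := by ring

open Classical in
/-- `∑_{p primary prime, nm p = n} g p` -/
def cc (g : Eis → ℂ) (n : ℕ) : ℂ := push (fun b => if Prime b then g b else 0) n

theorem sum_cc (g : Eis → ℂ) (N : ℕ) : ∑ n ∈ Finset.Ioc 0 N, cc g n = ∑ p ∈ primes N, g p := by
  classical
  have h := sum_push (fun b => if Prime b then g b else 0) N
  unfold cc
  rw [primes, Finset.sum_filter, ← h]
  rfl

theorem log_mul_cc (g : Eis → ℂ) (n : ℕ) :
    (Real.log n : ℂ) * cc g n = cc (fun b => (Real.log (nm b) : ℂ) * g b) n := by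
  classical
  unfold cc push
  rw [Finset.mul_sum]
  refine Finset.sum_congr rfl fun b hb => ?_
  rw [mem_fib] at hb
  by_cases hp : Prime b
  · simp only [if_pos hp, hb.1]
  · simp only [if_neg hp, mul_zero]

theorem card_primes_le (N : ℕ) : ((primes N).card : ℝ) ≤ 18 * N := by
  have h := (Finset.card_le_card (primes_subset N)).trans (card_primBall_le' N)
  exact_mod_cast h

theorem norm_sum_primes_le (g : Eis → ℂ) (hg : ∀ b, IsPrim b → ‖g b‖ ≤ 1) (N : ℕ) :
    ‖∑ p ∈ primes N, g p‖ ≤ 18 * N := by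
  calc ‖∑ p ∈ primes N, g p‖ ≤ ∑ p ∈ primes N, ‖g p‖ := norm_sum_le _ _
    _ ≤ ∑ _p ∈ primes N, (1 : ℝ) :=
        Finset.sum_le_sum fun p hp => hg p (mem_primes.mp hp).2.1
    _ = (primes N).card := by simp
    _ ≤ 18 * N := card_primes_le N

/-- **Removal of the weight.** -/
theorem primes_of_Lam (g : Eis → ℂ) (hg : ∀ b, IsPrim b → ‖g b‖ ≤ 1) (x B : ℝ) (hx : 2 ≤ x)
    (hB : ∀ n : ℕ, Real.sqrt x < n → (n : ℝ) ≤ x → ‖∑ b ∈ primBall n, (Lam b : ℂ) * g b‖ ≤ B) :
    ‖∑ p ∈ primes ⌊x⌋₊, g p‖ ≤ 4 * B + 400 * Real.sqrt x * (1 + Real.log x) ^ 2 := by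
  have hx0 : 0 ≤ x := by linarith
  have hsx : 1 ≤ Real.sqrt x := by rw [Real.one_le_sqrt]; linarith
  have hlx : 1 / 2 ≤ Real.log x := Crest.Agent.SW.log_half hx
  set N := ⌊x⌋₊ with hN
  set M := ⌊Real.sqrt x⌋₊ with hM
  have hNx : (N : ℝ) ≤ x := Nat.floor_le hx0
  have hMx : (M : ℝ) ≤ Real.sqrt x := Nat.floor_le (by linarith)
  have hM1 : 1 ≤ M := by rw [hM, Nat.one_le_floor_iff]; exact hsx
  have hxM : Real.sqrt x < M + 1 := Nat.lt_floor_add_one _
  have hsq : Real.sqrt x * Real.sqrt x = x := Real.mul_self_sqrt hx0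
  have hMN : M ≤ N := Nat.floor_le_floor (by nlinarith)
  have hB0 : 0 ≤ B := by
    have h1 : Real.sqrt x < (N : ℝ) ∨ M = N := by
      rcases Nat.eq_or_lt_of_le hMN with h | h
      · right; exact h
      · left
        have : (M : ℝ) + 1 ≤ N := by exact_mod_cast h
        linarith
    rcases h1 with h1 | h1
    · exact (norm_nonneg _).trans (hB N h1 hNx)
    · -- `M = N` is impossible for `x ≥ 2`
      exfalso
      have h2 : x < N + 1 := Nat.lt_floor_add_one _
      have h3 : (N : ℝ) = M := by rw [h1]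
      have h4 : (2 : ℝ) ≤ N := by
        have : 2 ≤ N := by rw [hN]; exact Nat.le_floor (by exact_mod_cast hx)
        exact_mod_cast this
      nlinarith
  -- the two parts
  have hsplit : ∑ p ∈ primes N, g p = ∑ p ∈ primes M, g p + ∑ n ∈ Finset.Ioc M N, cc g n := by
    rw [← sum_cc, ← sum_cc, Finset.sum_Ioc_consecutive _ (Nat.zero_le M) hMN]
  rw [hsplit]
  have h1 : ‖∑ p ∈ primes M, g p‖ ≤ 18 * Real.sqrt x :=
    (norm_sum_primes_le g hg M).trans (by linarith)
  have h2 : ‖∑ n ∈ Finset.Ioc M N, cc g n‖ ≤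
      4 * (B + 36 * Real.sqrt x * Real.log x ^ 2 + 18 * Real.sqrt x * Real.log x) := by
    rcases Nat.eq_or_lt_of_le hMN with h | hlt
    · rw [h, Finset.Ioc_self, Finset.sum_empty, norm_zero]
      positivity
    have e : ∑ n ∈ Finset.Ioc M N, cc g n =
        ∑ n ∈ Finset.Ioc M N, (((Real.log n)⁻¹ : ℝ) : ℂ) * ((Real.log n : ℂ) * cc g n) := by
      refine Finset.sum_congr rfl fun n hn => ?_
      have hn' := Finset.mem_Ioc.mp hn
      have h3 : 0 < Real.log n := Real.log_pos (by exact_mod_cast (by omega : 1 < n))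
      rw [← mul_assoc, ← Complex.ofReal_mul, inv_mul_cancel₀ h3.ne', Complex.ofReal_one, one_mul]
    rw [e]
    have hpos : ∀ n, M < n → 0 < Real.log n := fun n hn =>
      Real.log_pos (by exact_mod_cast (by omega : 1 < n))
    refine (abel (w := fun n => (Real.log n)⁻¹)
      (B := B + 36 * Real.sqrt x * Real.log x ^ 2 + 18 * Real.sqrt x * Real.log x) N hlt
      ?_ ?_ ?_).trans ?_
    · intro n hn
      have h3 := hpos n hn
      have h4 : Real.log n ≤ Real.log ((n + 1 : ℕ) : ℝ) :=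
        Real.log_le_log (by exact_mod_cast (by omega : 0 < n)) (by push_cast; linarith)
      exact inv_anti₀ h3 h4
    · intro n hn
      exact (inv_pos.mpr (hpos n hn)).le
    · intro n hn1 hn2
      have hn1' : Real.sqrt x < n := by
        have : (M : ℝ) + 1 ≤ n := by exact_mod_cast hn1
        linarith
      have hnx : (n : ℝ) ≤ x := le_trans (by exact_mod_cast hn2) hNx
      have e3 : ∑ m ∈ Finset.Ioc M n, (Real.log m : ℂ) * cc g m =
          ∑ p ∈ primes n, (Real.log (nm p) : ℂ) * g p -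
            ∑ p ∈ primes M, (Real.log (nm p) : ℂ) * g p := by
        rw [← sum_cc, ← sum_cc, ← Finset.sum_Ioc_consecutive _ (Nat.zero_le M) hn1.le,
          add_sub_cancel_left]
        exact Finset.sum_congr rfl fun m _ => log_mul_cc g m
      rw [e3]
      refine (norm_sub_le _ _).trans ?_
      have h4 : ‖∑ p ∈ primes n, (Real.log (nm p) : ℂ) * g p‖ ≤
          B + 36 * Real.sqrt x * Real.log x ^ 2 := by
        have h5 := pp_sum g hg n (by omega)
        have h6 := hB n hn1' hnx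
        have h7 : ‖∑ p ∈ primes n, (Real.log (nm p) : ℂ) * g p‖ ≤
            ‖∑ b ∈ primBall n, (Lam b : ℂ) * g b‖ +
            ‖∑ b ∈ primBall n, (Lam b : ℂ) * g b -
              ∑ p ∈ primes n, (Real.log (nm p) : ℂ) * g p‖ := by
          have := norm_sub_le (∑ b ∈ primBall n, (Lam b : ℂ) * g b)
            (∑ b ∈ primBall n, (Lam b : ℂ) * g b - ∑ p ∈ primes n, (Real.log (nm p) : ℂ) * g p)
          rwa [sub_sub_cancel] at this
        have hn0 : (0 : ℝ) < n := by linarith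
        have h8 : Real.sqrt n ≤ Real.sqrt x := Real.sqrt_le_sqrt hnx
        have h9 : Real.log n ≤ Real.log x := Real.log_le_log hn0 hnx
        have h10 : 0 ≤ Real.log n := Real.log_natCast_nonneg n
        have h11 : 36 * Real.sqrt n * Real.log n ^ 2 ≤ 36 * Real.sqrt x * Real.log x ^ 2 := by
          gcongr
        linarith
      have h5 : ‖∑ p ∈ primes M, (Real.log (nm p) : ℂ) * g p‖ ≤
          18 * Real.sqrt x * Real.log x := by
        calc ‖∑ p ∈ primes M, (Real.log (nm p) : ℂ) * g p‖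
            ≤ ∑ p ∈ primes M, ‖(Real.log (nm p) : ℂ) * g p‖ := norm_sum_le _ _
          _ ≤ ∑ _p ∈ primes M, Real.log x := by
              refine Finset.sum_le_sum fun p hp => ?_
              rw [mem_primes] at hp
              have h6 : 0 ≤ Real.log (nm p) := Real.log_natCast_nonneg _
              have h7 : Real.log (nm p) ≤ Real.log x := by
                apply Real.log_le_log
                · exact_mod_cast nm_pos.mpr hp.2.1.ne_zero
                · have : (nm p : ℝ) ≤ M := by exact_mod_cast hp.1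
                  nlinarith
              have h8 := hg p hp.2.1
              rw [norm_mul, Complex.norm_real, Real.norm_of_nonneg h6]
              nlinarith
          _ = (primes M).card * Real.log x := by rw [Finset.sum_const, nsmul_eq_mul]
          _ ≤ 18 * M * Real.log x := by
              gcongr
              exact card_primes_le M
          _ ≤ 18 * Real.sqrt x * Real.log x := by gcongr
      linarith
    · have h3 : (Real.log ((M + 1 : ℕ) : ℝ))⁻¹ ≤ 4 := by
        have h4 : Real.log x ≤ 2 * Real.log ((M + 1 : ℕ) : ℝ) := by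
          have h5 : Real.log x = 2 * Real.log (Real.sqrt x) := by
            rw [Real.log_sqrt hx0]; ring
          rw [h5]
          have h6 : Real.log (Real.sqrt x) ≤ Real.log ((M + 1 : ℕ) : ℝ) :=
            Real.log_le_log (by linarith) (by push_cast; linarith)
          linarith
        have h5 : 1 / 4 ≤ Real.log ((M + 1 : ℕ) : ℝ) := by linarith
        calc (Real.log ((M + 1 : ℕ) : ℝ))⁻¹ ≤ (1 / 4)⁻¹ := inv_anti₀ (by norm_num) h5
          _ = 4 := by norm_num
      exact mul_le_mul_of_nonneg_right h3 (by positivity)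
  refine (norm_add_le _ _).trans ?_
  have h3 : 0 ≤ Real.sqrt x := by linarith
  have h4 : 18 * Real.sqrt x +
      4 * (B + 36 * Real.sqrt x * Real.log x ^ 2 + 18 * Real.sqrt x * Real.log x) ≤
      4 * B + 400 * Real.sqrt x * (1 + Real.log x) ^ 2 := by
    have h5 : 0 ≤ Real.sqrt x * (382 + 728 * Real.log x + 256 * Real.log x ^ 2) := by positivity
    nlinarith
  linarith

end

end Crest.Agent.R012.PLog255
end

-- ▼ part R012/LSer_47
section

/-!
# Row 12, parts (P0)/(P2): the L-series of `push ψ`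

* summability for `Re s > 1`, `-L' = L(Λψ) L`, `L = exp H`, non-vanishing
* the 3-4-1 inequality
* `‖L^{(j)}(s)‖ ≤ C_j (log (Q (|t|+2)))^{j+1}` for `1 < Re s ≤ 2` from `|∑_{N b ≤ x} ψ b| ≤ Q √x`
-/

set_option autoImplicit false

noncomputable section

open Complex Filter Topology

namespace Crest.Agent.R012.LSer47

open Crest.Agent.R012 Crest.Agent.R012.Eis Crest.Agent.R012.PSer47
open scoped LSeries.notation

/-! ### Summability -/


lemma abscissa_lt_of_summable {a : ℕ → ℂ} (h : ∀ s : ℂ, 1 < s.re → LSeriesSummable a s) {s : ℂ}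
    (hs : 1 < s.re) : LSeries.abscissaOfAbsConv a < s.re := by
  refine lt_of_le_of_lt (b := 1) ?_ (by exact_mod_cast hs)
  apply LSeries.abscissaOfAbsConv_le_of_forall_lt_LSeriesSummable' (x := (1 : EReal))
  intro y hy
  apply h
  have : ((1 : ℝ) : EReal) < y := by simpa using hy
  simpa using (EReal.coe_lt_coe_iff.mp this)





/-! ### Logarithmic derivative -/




/-- coefficients of `log L` -/
def hcoef (ψ : Eis → ℂ) (n : ℕ) : ℂ := push (LamPsi ψ) n / (Real.log n : ℂ)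








/-! ### The 3-4-1 inequality -/



/-! ### Trivial bounds -/

lemma abel_le {b w : ℕ → ℝ} {C : ℝ} (hB : ∀ N : ℕ, ∑ n ∈ Finset.Icc 1 N, b n ≤ C * N)
    (hw : ∀ n, 1 ≤ n → w (n + 1) ≤ w n) (N : ℕ) (hN : 1 ≤ N) :
    (C * N - ∑ n ∈ Finset.Icc 1 N, b n) * w N ≤
      C * ∑ n ∈ Finset.Icc 1 N, w n - ∑ n ∈ Finset.Icc 1 N, b n * w n := by
  induction N, hN using Nat.le_induction with
  | base => simp; linarith
  | succ N hN ih =>
    rw [Finset.sum_Icc_succ_top (by omega), Finset.sum_Icc_succ_top (by omega),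
      Finset.sum_Icc_succ_top (by omega)]
    have h1 := hB N
    have h2 := hw N hN
    have h3 : (C * N - ∑ n ∈ Finset.Icc 1 N, b n) * w (N + 1) ≤
        (C * N - ∑ n ∈ Finset.Icc 1 N, b n) * w N := by
      apply mul_le_mul_of_nonneg_left h2
      linarith
    push_cast
    nlinarith

lemma abel_le' {b w : ℕ → ℝ} {C : ℝ} (hB : ∀ N : ℕ, ∑ n ∈ Finset.Icc 1 N, b n ≤ C * N)
    (hw : ∀ n, 1 ≤ n → w (n + 1) ≤ w n) (hw0 : ∀ n, 0 ≤ w n) (N : ℕ) :
    ∑ n ∈ Finset.Icc 1 N, b n * w n ≤ C * ∑ n ∈ Finset.Icc 1 N, w n := by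
  rcases Nat.eq_zero_or_pos N with rfl | hN
  · simp
  have h1 := abel_le hB hw N hN
  have h2 : 0 ≤ (C * N - ∑ n ∈ Finset.Icc 1 N, b n) * w N :=
    mul_nonneg (by linarith [hB N]) (hw0 N)
  linarith

lemma sum_norm_div_le {a : ℕ → ℂ} {C : ℝ} (hC : 0 ≤ C)
    (ha : ∀ N : ℕ, ∑ n ∈ Finset.Icc 1 N, ‖a n‖ ≤ C * N) (N : ℕ) :
    ∑ n ∈ Finset.Icc 1 N, ‖a n‖ / n ≤ C * (1 + Real.log N) := by
  have h1 := abel_le' (b := fun n => ‖a n‖) (w := fun n => ((n : ℝ))⁻¹) ha
    (fun n hn => by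
      have : (0 : ℝ) < n := by exact_mod_cast hn
      have h2 : (n : ℝ) ≤ ((n + 1 : ℕ) : ℝ) := by push_cast; linarith
      exact inv_anti₀ this h2)
    (fun n => by positivity) N
  have h2 := harmonic_le_one_add_log N
  rw [harmonic_eq_sum_Icc] at h2
  push_cast at h2
  calc ∑ n ∈ Finset.Icc 1 N, ‖a n‖ / n = ∑ n ∈ Finset.Icc 1 N, ‖a n‖ * ((n : ℝ))⁻¹ := by
        simp only [div_eq_mul_inv]
    _ ≤ C * ∑ n ∈ Finset.Icc 1 N, ((n : ℝ))⁻¹ := h1
    _ ≤ C * (1 + Real.log N) := by gcongr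

/-- `‖L(s)‖ ≤ C σ / (σ - 1)` -/
lemma norm_LSeries_le {a : ℕ → ℂ} {C : ℝ}
    (ha : ∀ N : ℕ, ∑ n ∈ Finset.Icc 1 N, ‖a n‖ ≤ C * N) {s : ℂ} (hs : 1 < s.re) :
    ‖LSeries a s‖ ≤ C * s.re / (s.re - 1) := by
  set σ := s.re with hσ
  have hC : 0 ≤ C := by
    have := ha 1
    simp at this
    exact (norm_nonneg _).trans this
  have hO : (fun n : ℕ => ∑ k ∈ Finset.Icc 1 n, ‖a k‖) =O[atTop] fun n : ℕ => (n : ℝ) ^ (1 : ℝ) := by
    refine Asymptotics.IsBigO.of_bound C (Eventually.of_forall fun N => ?_)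
    rw [Real.rpow_one, Real.norm_natCast, Real.norm_of_nonneg
      (Finset.sum_nonneg fun _ _ => norm_nonneg _)]
    exact ha N
  have hsum : LSeriesSummable a s := LSeriesSummable_of_sum_norm_bigO hO zero_le_one hs
  set b : ℕ → ℂ := fun n => ((‖a n‖ : ℝ) : ℂ) with hb
  have hσre : ((σ : ℝ) : ℂ).re = σ := Complex.ofReal_re σ
  have hsumb : LSeriesSummable b (σ : ℂ) := by
    refine LSeriesSummable_of_sum_norm_bigO (r := 1) ?_ zero_le_one (by rw [hσre]; exact hs)
    simpa [hb] using hO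
  -- comparison with the real series
  have h1 : ‖LSeries a s‖ ≤ ‖LSeries b (σ : ℂ)‖ := by
    have hn : Summable fun n => ‖LSeries.term a s n‖ := hsum.norm
    have e1 : ∀ n, ((‖LSeries.term a s n‖ : ℝ) : ℂ) = LSeries.term b (σ : ℂ) n := by
      intro n
      rcases eq_or_ne n 0 with rfl | hn0
      · simp
      · rw [LSeries.norm_term_eq, if_neg hn0, LSeries.term_of_ne_zero hn0, hb]
        push_cast
        rw [Complex.ofReal_cpow (Nat.cast_nonneg n)]
        simp [hσ]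
    have e2 : LSeries b (σ : ℂ) = ((∑' n, ‖LSeries.term a s n‖ : ℝ) : ℂ) := by
      rw [Complex.ofReal_tsum]
      unfold LSeries
      exact tsum_congr fun n => (e1 n).symm
    rw [e2, Complex.norm_real, Real.norm_of_nonneg (tsum_nonneg fun _ => norm_nonneg _)]
    exact norm_tsum_le_tsum_norm hn
  refine h1.trans ?_
  have hOb : (fun n : ℕ => ∑ k ∈ Finset.Icc 1 n, ‖b k‖) =O[atTop] fun n : ℕ => (n : ℝ) ^ (1 : ℝ) := by
    simpa [hb] using hO
  rw [LSeries_eq_mul_integral' b zero_le_one (s := (σ : ℂ)) (by rw [hσre]; exact hs) hOb]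
  rw [norm_mul, Complex.norm_real, Real.norm_of_nonneg (by linarith)]
  have h2 : ‖∫ t in Set.Ioi (1 : ℝ), (∑ k ∈ Finset.Icc 1 ⌊t⌋₊, b k) * (t : ℂ) ^ (-((σ : ℂ) + 1))‖ ≤
      ∫ t in Set.Ioi (1 : ℝ), C * t ^ (-σ) := by
    apply MeasureTheory.norm_integral_le_of_norm_le
    · exact (integrableOn_Ioi_rpow_of_lt (by linarith) zero_lt_one).const_mul C
    · refine (MeasureTheory.ae_restrict_iff' measurableSet_Ioi).mpr (Eventually.of_forall ?_)
      intro t ht
      have ht0 : 0 < t := lt_trans zero_lt_one ht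
      rw [norm_mul, Complex.norm_cpow_eq_rpow_re_of_pos ht0]
      have h3 : ‖∑ k ∈ Finset.Icc 1 ⌊t⌋₊, b k‖ ≤ C * t := by
        refine (norm_sum_le _ _).trans ?_
        have : ∑ k ∈ Finset.Icc 1 ⌊t⌋₊, ‖b k‖ = ∑ k ∈ Finset.Icc 1 ⌊t⌋₊, ‖a k‖ := by
          simp [hb]
        rw [this]
        refine (ha _).trans ?_
        gcongr
        exact Nat.floor_le ht0.le
      have h4 : (-((σ : ℂ) + 1)).re = -σ - 1 := by simp; ring
      rw [h4]
      calc ‖∑ k ∈ Finset.Icc 1 ⌊t⌋₊, b k‖ * t ^ (-σ - 1) ≤ (C * t) * t ^ (-σ - 1) := by gcongr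
        _ = C * t ^ (-σ) := by
            rw [mul_assoc]
            congr 1
            rw [Real.rpow_sub_one ht0.ne']
            field_simp
  rw [MeasureTheory.integral_const_mul, integral_Ioi_rpow_of_lt (by linarith) zero_lt_one,
    Real.one_rpow] at h2
  calc σ * _ ≤ σ * (C * (-1 / (-σ + 1))) := by gcongr
    _ = C * σ / (σ - 1) := by
        rw [show -σ + 1 = -(σ - 1) by ring, neg_div_neg_eq]
        ring

/-- `‖L(s)‖ ≤ 36 / (σ - 1)` for `1 < σ ≤ 2` -/
theorem norm_LSeries_push_le {f : Eis → ℂ} (hf : ∀ b, IsPrim b → ‖f b‖ ≤ 1) {s : ℂ}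
    (hs : 1 < s.re) (hs2 : s.re ≤ 2) : ‖LSeries (push f) s‖ ≤ 36 / (s.re - 1) := by
  refine (norm_LSeries_le (sum_norm_push_le hf) hs).trans ?_
  have : 0 < s.re - 1 := by linarith
  gcongr
  linarith

end Crest.Agent.R012.LSer47
end
end

-- ▼ part R012/LDer_47
section

/-!
# Row 12, part (P2): bounds for the derivatives of the L-series near `Re s = 1`

From `∑_{n ≤ N} ‖a n‖ ≤ C₀ N` and `‖∑_{n ≤ N} a n‖ ≤ Q √N` we get, for `1 < Re s ≤ 2`,
`‖LSeries (logMul^[j] a) s‖ ≤ C (log (Q (|t| + 2)))^{j+1}`.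
-/

set_option autoImplicit false

noncomputable section

open Complex Filter Topology MeasureTheory

namespace Crest.Agent.R012.LDer47

open Crest.Agent.R012 Crest.Agent.R012.Eis Crest.Agent.R012.PSer47 Crest.Agent.R012.LSer47

/-- `log^j · a` -/
def lp (j : ℕ) (a : ℕ → ℂ) (n : ℕ) : ℂ := ((Real.log n : ℝ) : ℂ) ^ j * a n

theorem logMul_iter (a : ℕ → ℂ) (k : ℕ) : LSeries.logMul^[k] a = lp k a := by
  induction k with
  | zero =>
    ext n
    simp [lp]
  | succ k ih =>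
    rw [Function.iterate_succ', Function.comp_apply, ih]
    ext n
    simp only [LSeries.logMul, lp, ← Complex.natCast_log]
    ring

/-- the smooth weight -/
def gw (j : ℕ) (s : ℂ) (u : ℝ) : ℂ := ((Real.log u : ℝ) : ℂ) ^ j * (u : ℂ) ^ (-s)

lemma pow_log_le (j : ℕ) {u : ℝ} (hu : 1 ≤ u) :
    (1 + Real.log u) ^ j ≤ (2 * 4 ^ j * j.factorial) * u ^ (1 / 4 : ℝ) := by
  have hu0 : 0 < u := by linarith
  have hl : 0 ≤ Real.log u := Real.log_nonneg hu
  have h := Real.pow_div_factorial_le_exp ((1 + Real.log u) / 4) (by linarith) j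
  have hf : (0 : ℝ) < j.factorial := by exact_mod_cast Nat.factorial_pos j
  rw [div_le_iff₀ hf, div_pow, div_le_iff₀ (by positivity)] at h
  refine h.trans ?_
  have h2 : Real.exp ((1 + Real.log u) / 4) ≤ 2 * u ^ (1 / 4 : ℝ) := by
    rw [add_div, Real.exp_add]
    have e1 : Real.exp (Real.log u / 4) = u ^ (1 / 4 : ℝ) := by
      rw [Real.rpow_def_of_pos hu0]
      congr 1
      ring
    rw [e1]
    have e2 : Real.exp (1 / 4) ≤ 2 := by
      have h1 : Real.exp (1 / 4) ≤ Real.exp (Real.log 2) := by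
        apply Real.exp_le_exp.mpr
        have := Real.log_two_gt_d9
        linarith
      rwa [Real.exp_log (by norm_num)] at h1
    gcongr
  calc Real.exp ((1 + Real.log u) / 4) * j.factorial * 4 ^ j
      ≤ (2 * u ^ (1 / 4 : ℝ)) * j.factorial * 4 ^ j := by gcongr
    _ = _ := by ring

lemma gw_hasDerivAt (j : ℕ) (s : ℂ) {u : ℝ} (hu : 1 ≤ u) :
    HasDerivAt (gw j s) ((j * ((Real.log u : ℝ) : ℂ) ^ (j - 1) * ((u⁻¹ : ℝ) : ℂ)) * (u : ℂ) ^ (-s) +
      ((Real.log u : ℝ) : ℂ) ^ j * (-s * (u : ℂ) ^ (-s - 1))) u := by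
  have hu0 : 0 < u := by linarith
  have h1 : HasDerivAt (fun y : ℝ => ((Real.log y : ℝ) : ℂ)) ((u⁻¹ : ℝ) : ℂ) u :=
    (Real.hasDerivAt_log hu0.ne').ofReal_comp
  have h2 := h1.pow j
  have h3 : HasDerivAt (fun y : ℝ => (y : ℂ) ^ (-s)) (-s * (u : ℂ) ^ (-s - 1)) u := by
    by_cases hs : s = 0
    · subst hs
      simp only [neg_zero, Complex.cpow_zero, zero_mul]
      exact hasDerivAt_const _ _
    · have := hasDerivAt_ofReal_cpow_const' (x := u) (r := -s - 1) hu0.ne'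
        (by intro h; apply hs; linear_combination -h)
      have h4 := this.const_mul (-s)
      have e : (fun y : ℝ => (-s) * ((y : ℂ) ^ (-s - 1 + 1) / (-s - 1 + 1))) =
          fun y : ℝ => (y : ℂ) ^ (-s) := by
        ext y
        rw [show -s - 1 + 1 = -s by ring]
        field_simp
      rw [e] at h4
      exact h4
  exact h2.mul h3

lemma norm_cpow_le {s : ℂ} (hs : 1 ≤ s.re) {u : ℝ} (hu : 1 ≤ u) : ‖(u : ℂ) ^ (-s)‖ ≤ u⁻¹ := by
  have hu0 : 0 < u := by linarith
  rw [Complex.norm_cpow_eq_rpow_re_of_pos hu0, Complex.neg_re, ← Real.rpow_neg_one]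
  exact Real.rpow_le_rpow_of_exponent_le hu (by linarith)

lemma norm_cpow_le' {s : ℂ} (hs : 1 ≤ s.re) {u : ℝ} (hu : 1 ≤ u) :
    ‖(u : ℂ) ^ (-s - 1)‖ ≤ (u⁻¹) ^ 2 := by
  have hu0 : 0 < u := by linarith
  rw [Complex.norm_cpow_eq_rpow_re_of_pos hu0]
  have : (u⁻¹) ^ 2 = u ^ (-2 : ℝ) := by
    rw [Real.rpow_neg hu0.le, inv_pow]
    norm_cast
  rw [this]
  apply Real.rpow_le_rpow_of_exponent_le hu
  simp
  linarith

lemma gw_norm_le (j : ℕ) {s : ℂ} (hs : 1 ≤ s.re) {u : ℝ} (hu : 1 ≤ u) :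
    ‖gw j s u‖ ≤ (1 + Real.log u) ^ j * u⁻¹ := by
  have hl : 0 ≤ Real.log u := Real.log_nonneg hu
  unfold gw
  rw [norm_mul, norm_pow, Complex.norm_real, Real.norm_of_nonneg hl]
  exact mul_le_mul (by gcongr; linarith) (norm_cpow_le hs hu) (norm_nonneg _) (by positivity)

lemma gw_deriv_norm_le (j : ℕ) {s : ℂ} (hs : 1 ≤ s.re) {u : ℝ} (hu : 1 ≤ u) :
    ‖deriv (gw j s) u‖ ≤ (j + ‖s‖) * (1 + Real.log u) ^ j * (u⁻¹) ^ 2 := by
  have hu0 : 0 < u := by linarith
  have hl : 0 ≤ Real.log u := Real.log_nonneg hu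
  rw [(gw_hasDerivAt j s hu).deriv]
  have h1 : ‖(j * ((Real.log u : ℝ) : ℂ) ^ (j - 1) * ((u⁻¹ : ℝ) : ℂ)) * (u : ℂ) ^ (-s)‖ ≤
      j * (1 + Real.log u) ^ j * (u⁻¹) ^ 2 := by
    rw [norm_mul, norm_mul, norm_mul, norm_pow, Complex.norm_real, Complex.norm_real,
      Real.norm_of_nonneg hl, Real.norm_of_nonneg (inv_pos.mpr hu0).le, Complex.norm_natCast]
    have h2 : Real.log u ^ (j - 1) ≤ (1 + Real.log u) ^ j := by
      calc Real.log u ^ (j - 1) ≤ (1 + Real.log u) ^ (j - 1) := by gcongr; linarith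
        _ ≤ (1 + Real.log u) ^ j := pow_le_pow_right₀ (by linarith) (by omega)
    calc (j : ℝ) * Real.log u ^ (j - 1) * u⁻¹ * ‖(u : ℂ) ^ (-s)‖
        ≤ j * (1 + Real.log u) ^ j * u⁻¹ * u⁻¹ := by
          gcongr
          exact norm_cpow_le hs hu
      _ = _ := by ring
  have h3 : ‖((Real.log u : ℝ) : ℂ) ^ j * (-s * (u : ℂ) ^ (-s - 1))‖ ≤
      ‖s‖ * (1 + Real.log u) ^ j * (u⁻¹) ^ 2 := by
    rw [norm_mul, norm_mul, norm_pow, Complex.norm_real, Real.norm_of_nonneg hl, norm_neg]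
    calc Real.log u ^ j * (‖s‖ * ‖(u : ℂ) ^ (-s - 1)‖)
        ≤ (1 + Real.log u) ^ j * (‖s‖ * (u⁻¹) ^ 2) := by
          gcongr
          · linarith
          · exact norm_cpow_le' hs hu
      _ = _ := by ring
  calc _ ≤ _ := norm_add_le _ _
    _ ≤ j * (1 + Real.log u) ^ j * (u⁻¹) ^ 2 + ‖s‖ * (1 + Real.log u) ^ j * (u⁻¹) ^ 2 :=
        add_le_add h1 h3
    _ = _ := by ring

lemma gw_deriv_cont (j : ℕ) (s : ℂ) (a b : ℝ) (ha : 1 ≤ a) :
    ContinuousOn (deriv (gw j s)) (Set.Icc a b) := by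
  have h : Set.EqOn (deriv (gw j s)) (fun u : ℝ =>
      (j * ((Real.log u : ℝ) : ℂ) ^ (j - 1) * ((u⁻¹ : ℝ) : ℂ)) * (u : ℂ) ^ (-s) +
      ((Real.log u : ℝ) : ℂ) ^ j * (-s * (u : ℂ) ^ (-s - 1))) (Set.Icc a b) := fun u hu =>
    (gw_hasDerivAt j s (ha.trans hu.1)).deriv
  refine ContinuousOn.congr ?_ h
  have hlog : ContinuousOn (fun u : ℝ => ((Real.log u : ℝ) : ℂ)) (Set.Icc a b) := by
    refine Complex.continuous_ofReal.comp_continuousOn (Real.continuousOn_log.mono ?_)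
    intro u hu
    have : a ≤ u := hu.1
    simp only [Set.mem_compl_iff, Set.mem_singleton_iff]
    linarith
  have hinv : ContinuousOn (fun u : ℝ => ((u⁻¹ : ℝ) : ℂ)) (Set.Icc a b) := by
    refine Complex.continuous_ofReal.comp_continuousOn (continuousOn_inv₀.mono ?_)
    intro u hu
    have : a ≤ u := hu.1
    simp only [Set.mem_compl_iff, Set.mem_singleton_iff]
    linarith
  have hpow : ∀ z : ℂ, ContinuousOn (fun u : ℝ => (u : ℂ) ^ z) (Set.Icc a b) := by
    intro z u hu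
    have : a ≤ u := hu.1
    exact (Complex.continuousAt_ofReal_cpow_const u z (Or.inr (by linarith))).continuousWithinAt
  exact (((continuousOn_const.mul (hlog.pow _)).mul hinv).mul (hpow _)).add
    ((hlog.pow _).mul (continuousOn_const.mul (hpow _)))

/-- the tail of the series by partial summation -/
lemma tail_bound (j : ℕ) {a : ℕ → ℂ} (h0 : a 0 = 0) {Q : ℝ} (hQ : 0 ≤ Q)
    (hS : ∀ N : ℕ, ‖∑ n ∈ Finset.Icc 1 N, a n‖ ≤ Q * Real.sqrt N) {s : ℂ} (hs : 1 ≤ s.re)
    {Y M : ℕ} (hY : 1 ≤ Y) (hYM : Y ≤ M) :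
    ‖∑ n ∈ Finset.Ioc Y M, gw j s n * a n‖ ≤
      (2 * 4 ^ j * j.factorial) * Q * (2 + 4 * (j + ‖s‖)) * (Y : ℝ) ^ (-(1 / 4) : ℝ) := by
  set D : ℝ := 2 * 4 ^ j * j.factorial with hD
  have hD0 : 0 ≤ D := by positivity
  have hYr : (1 : ℝ) ≤ Y := by exact_mod_cast hY
  have hY0 : (0 : ℝ) < Y := by linarith
  have hMr : (Y : ℝ) ≤ M := by exact_mod_cast hYM
  have hS0 : ∀ N : ℕ, ‖∑ n ∈ Finset.Icc 0 N, a n‖ ≤ Q * Real.sqrt N := by
    intro N
    have e : ∑ n ∈ Finset.Icc 0 N, a n = ∑ n ∈ Finset.Icc 1 N, a n := by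
      rw [← Finset.sum_erase_add (Finset.Icc 0 N) _ (Finset.left_mem_Icc.mpr (Nat.zero_le N)), h0,
        add_zero]
      refine Finset.sum_congr ?_ fun _ _ => rfl
      ext n
      simp only [Finset.mem_erase, Finset.mem_Icc]
      omega
    rw [e]
    exact hS N
  have hint : IntegrableOn (deriv (gw j s)) (Set.Icc (Y : ℝ) M) :=
    (gw_deriv_cont j s Y M hYr).integrableOn_Icc
  rw [sum_mul_eq_sub_sub_integral_mul' a hYM
    (fun t ht => (gw_hasDerivAt j s (hYr.trans ht.1)).differentiableAt) hint]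
  -- pointwise estimates
  have hbd : ∀ N : ℕ, Y ≤ N → ‖gw j s N * ∑ n ∈ Finset.Icc 0 N, a n‖ ≤
      D * Q * (Y : ℝ) ^ (-(1 / 4) : ℝ) := by
    intro N hN
    have hNr : (Y : ℝ) ≤ N := by exact_mod_cast hN
    have hN1 : (1 : ℝ) ≤ N := hYr.trans hNr
    have hN0 : (0 : ℝ) < N := by linarith
    rw [norm_mul]
    calc ‖gw j s N‖ * ‖∑ n ∈ Finset.Icc 0 N, a n‖
        ≤ ((D * (N : ℝ) ^ (1 / 4 : ℝ)) * (N : ℝ)⁻¹) * (Q * Real.sqrt N) := by
          gcongr
          · refine (gw_norm_le j hs hN1).trans ?_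
            gcongr
            exact pow_log_le j hN1
          · exact hS0 N
      _ = D * Q * (N : ℝ) ^ (-(1 / 4) : ℝ) := by
          rw [Real.sqrt_eq_rpow, ← Real.rpow_neg_one (N : ℝ)]
          have : (N : ℝ) ^ (-(1 / 4) : ℝ) = (N : ℝ) ^ (1 / 4 : ℝ) * (N : ℝ) ^ (-1 : ℝ) *
              (N : ℝ) ^ (1 / 2 : ℝ) := by
            rw [← Real.rpow_add hN0, ← Real.rpow_add hN0]
            norm_num
          rw [this]
          ring
      _ ≤ D * Q * (Y : ℝ) ^ (-(1 / 4) : ℝ) := by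
          have : (N : ℝ) ^ (-(1 / 4) : ℝ) ≤ (Y : ℝ) ^ (-(1 / 4) : ℝ) :=
            Real.rpow_le_rpow_of_nonpos hY0 hNr (by norm_num)
          gcongr
  have hI : ‖∫ t in Set.Ioc (Y : ℝ) M, deriv (gw j s) t * ∑ k ∈ Finset.Icc 0 ⌊t⌋₊, a k‖ ≤
      (j + ‖s‖) * D * Q * (4 * (Y : ℝ) ^ (-(1 / 4) : ℝ)) := by
    have hgi : IntegrableOn (fun t : ℝ => (j + ‖s‖) * D * Q * t ^ (-(5 / 4) : ℝ))
        (Set.Ioi (Y : ℝ)) :=
      (integrableOn_Ioi_rpow_of_lt (by norm_num) hY0).const_mul _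
    have h1 : ‖∫ t in Set.Ioc (Y : ℝ) M, deriv (gw j s) t * ∑ k ∈ Finset.Icc 0 ⌊t⌋₊, a k‖ ≤
        ∫ t in Set.Ioc (Y : ℝ) M, (j + ‖s‖) * D * Q * t ^ (-(5 / 4) : ℝ) := by
      apply MeasureTheory.norm_integral_le_of_norm_le
      · exact hgi.mono_set Set.Ioc_subset_Ioi_self
      · refine (MeasureTheory.ae_restrict_iff' measurableSet_Ioc).mpr (Eventually.of_forall ?_)
        intro t ht
        have ht1 : 1 ≤ t := hYr.trans ht.1.le
        have ht0 : 0 < t := by linarith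
        rw [norm_mul]
        have h2 : ‖∑ k ∈ Finset.Icc 0 ⌊t⌋₊, a k‖ ≤ Q * Real.sqrt t := by
          refine (hS0 _).trans ?_
          gcongr
          exact Nat.floor_le ht0.le
        calc ‖deriv (gw j s) t‖ * ‖∑ k ∈ Finset.Icc 0 ⌊t⌋₊, a k‖
            ≤ ((j + ‖s‖) * (D * t ^ (1 / 4 : ℝ)) * (t⁻¹) ^ 2) * (Q * Real.sqrt t) := by
              gcongr
              refine (gw_deriv_norm_le j hs ht1).trans ?_
              gcongr
              exact pow_log_le j ht1
          _ = (j + ‖s‖) * D * Q * t ^ (-(5 / 4) : ℝ) := by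
              have e : t ^ (-(5 / 4) : ℝ) = t ^ (1 / 4 : ℝ) * (t⁻¹) ^ 2 * Real.sqrt t := by
                rw [Real.sqrt_eq_rpow, ← Real.rpow_neg_one t, ← Real.rpow_natCast,
                  ← Real.rpow_mul ht0.le, ← Real.rpow_add ht0, ← Real.rpow_add ht0]
                norm_num
              rw [e]
              ring
    refine h1.trans ?_
    have h2 : ∫ t in Set.Ioc (Y : ℝ) M, (j + ‖s‖) * D * Q * t ^ (-(5 / 4) : ℝ) ≤
        ∫ t in Set.Ioi (Y : ℝ), (j + ‖s‖) * D * Q * t ^ (-(5 / 4) : ℝ) := by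
      apply MeasureTheory.setIntegral_mono_set hgi
      · refine (MeasureTheory.ae_restrict_iff' measurableSet_Ioi).mpr (Eventually.of_forall ?_)
        intro t ht
        have ht0 : 0 < t := lt_trans hY0 ht
        simp only [Pi.zero_apply]
        positivity
      · exact Set.Ioc_subset_Ioi_self.eventuallyLE
    refine h2.trans (le_of_eq ?_)
    rw [MeasureTheory.integral_const_mul, integral_Ioi_rpow_of_lt (by norm_num) hY0]
    norm_num
    left
    ring
  calc _ ≤ ‖gw j s M * ∑ k ∈ Finset.Icc 0 M, a k - gw j s Y * ∑ k ∈ Finset.Icc 0 Y, a k‖ +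
        ‖∫ t in Set.Ioc (Y : ℝ) M, deriv (gw j s) t * ∑ k ∈ Finset.Icc 0 ⌊t⌋₊, a k‖ :=
        norm_sub_le _ _
    _ ≤ (D * Q * (Y : ℝ) ^ (-(1 / 4) : ℝ) + D * Q * (Y : ℝ) ^ (-(1 / 4) : ℝ)) +
        (j + ‖s‖) * D * Q * (4 * (Y : ℝ) ^ (-(1 / 4) : ℝ)) := by
        gcongr
        refine (norm_sub_le _ _).trans (add_le_add (hbd M hYM) (hbd Y le_rfl))
    _ = _ := by ring

/-- the head of the series -/
lemma head_bound (j : ℕ) {a : ℕ → ℂ} {C : ℝ} (hC : 0 ≤ C)
    (ha : ∀ N : ℕ, ∑ n ∈ Finset.Icc 1 N, ‖a n‖ ≤ C * N) {s : ℂ} (hs : 1 ≤ s.re) (Y : ℕ) :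
    ‖∑ n ∈ Finset.Icc 1 Y, gw j s n * a n‖ ≤ C * Real.log Y ^ j * (1 + Real.log Y) := by
  rcases Nat.eq_zero_or_pos Y with rfl | hY
  · simp only [Finset.Icc_eq_empty_of_lt one_pos, Finset.sum_empty, norm_zero, Nat.cast_zero,
      Real.log_zero, add_zero, mul_one]
    positivity
  calc ‖∑ n ∈ Finset.Icc 1 Y, gw j s n * a n‖ ≤ ∑ n ∈ Finset.Icc 1 Y, ‖gw j s n * a n‖ :=
        norm_sum_le _ _
    _ ≤ ∑ n ∈ Finset.Icc 1 Y, Real.log Y ^ j * (‖a n‖ / n) := by
        refine Finset.sum_le_sum fun n hn => ?_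
        rw [Finset.mem_Icc] at hn
        have h1 : (1 : ℝ) ≤ n := by exact_mod_cast hn.1
        have h2 : (n : ℝ) ≤ Y := by exact_mod_cast hn.2
        have hl : 0 ≤ Real.log n := Real.log_nonneg h1
        have hl2 : Real.log n ≤ Real.log Y := Real.log_le_log (by linarith) h2
        unfold gw
        rw [norm_mul, norm_mul, norm_pow, Complex.norm_real, Real.norm_of_nonneg hl]
        calc Real.log n ^ j * ‖((n : ℝ) : ℂ) ^ (-s)‖ * ‖a n‖
            ≤ Real.log Y ^ j * ((n : ℝ))⁻¹ * ‖a n‖ := by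
              gcongr
              exact norm_cpow_le hs h1
          _ = _ := by ring
    _ = Real.log Y ^ j * ∑ n ∈ Finset.Icc 1 Y, ‖a n‖ / n := by rw [Finset.mul_sum]
    _ ≤ Real.log Y ^ j * (C * (1 + Real.log Y)) := by
        have : 0 ≤ Real.log Y := Real.log_natCast_nonneg Y
        gcongr
        exact sum_norm_div_le hC ha Y
    _ = _ := by ring

lemma term_eq (j : ℕ) (a : ℕ → ℂ) (s : ℂ) {n : ℕ} (hn : n ≠ 0) :
    LSeries.term (lp j a) s n = gw j s n * a n := by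
  rw [LSeries.term_of_ne_zero hn]
  unfold lp gw
  rw [Complex.ofReal_natCast, Complex.cpow_neg, div_eq_mul_inv]
  ring

lemma half_le_log {Z : ℝ} (hZ : 2 ≤ Z) : 1 ≤ 2 * Real.log Z := by
  have h1 : Real.log 2 ≤ Real.log Z := Real.log_le_log (by norm_num) hZ
  have h2 := Real.log_two_gt_d9
  linarith

/-- the constant in `deriv_bound` -/
def Cj (C : ℝ) (j : ℕ) : ℝ :=
  7 * 5 ^ j * C + 2 ^ (j + 1) * ((2 * 4 ^ j * j.factorial) * (4 * j + 6))


/-- **(P2)** bounds for the derivatives of the L-series -/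
theorem deriv_bound {a : ℕ → ℂ} (h0 : a 0 = 0) {C Q : ℝ} (hC : 0 ≤ C) (hQ : 1 ≤ Q)
    (ha : ∀ N : ℕ, ∑ n ∈ Finset.Icc 1 N, ‖a n‖ ≤ C * N)
    (hS : ∀ N : ℕ, ‖∑ n ∈ Finset.Icc 1 N, a n‖ ≤ Q * Real.sqrt N) (j : ℕ) {s : ℂ}
    (hs : 1 < s.re) (hs2 : s.re ≤ 2) :
    ‖iteratedDeriv j (LSeries a) s‖ ≤ Cj C j * Real.log (Q * (|s.im| + 2)) ^ (j + 1) := by
  set Z : ℝ := Q * (|s.im| + 2) with hZ
  have him : 0 ≤ |s.im| := abs_nonneg _
  have hZ2 : 2 ≤ Z := by rw [hZ]; nlinarith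
  have hZ0 : 0 < Z := by linarith
  have hl := half_le_log hZ2
  have hl0 : 0 < Real.log Z := by linarith
  -- summability
  have hO : (fun n : ℕ => ∑ k ∈ Finset.Icc 1 n, ‖a k‖) =O[atTop] fun n : ℕ => (n : ℝ) ^ (1 : ℝ) := by
    refine Asymptotics.IsBigO.of_bound C (Eventually.of_forall fun N => ?_)
    rw [Real.rpow_one, Real.norm_natCast, Real.norm_of_nonneg
      (Finset.sum_nonneg fun _ _ => norm_nonneg _)]
    exact ha N
  have hsum : ∀ z : ℂ, 1 < z.re → LSeriesSummable a z := fun z hz =>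
    LSeriesSummable_of_sum_norm_bigO hO zero_le_one hz
  have habs := abscissa_lt_of_summable hsum hs
  rw [LSeries_iteratedDeriv j habs, norm_mul, norm_pow, norm_neg, norm_one, one_pow, one_mul,
    logMul_iter]
  have hsj : LSeriesSummable (lp j a) s := by
    apply LSeriesSummable_of_abscissaOfAbsConv_lt_re
    rw [← logMul_iter, LSeries.absicssaOfAbsConv_logPowMul]
    exact habs
  -- partial sums
  have hpart : Tendsto (fun M : ℕ => ∑ n ∈ Finset.Icc 1 M, gw j s n * a n) atTop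
      (𝓝 (LSeries (lp j a) s)) := by
    have h1 := hsj.hasSum.tendsto_sum_nat
    have h2 := (tendsto_add_atTop_iff_nat 1).mpr h1
    refine h2.congr fun M => ?_
    rw [Finset.range_eq_Ico, ← Finset.sum_erase_add _ _ (show 0 ∈ Finset.Ico 0 (M + 1) by simp),
      LSeries.term_zero, add_zero]
    refine Finset.sum_congr ?_ fun n hn => ?_
    · ext n
      simp only [Finset.mem_erase, Finset.mem_Ico, Finset.mem_Icc]
      omega
    · exact term_eq j a s (by simp only [Finset.mem_Icc] at hn; omega)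
  -- the truncation point
  set Y : ℕ := ⌈Z ^ 4⌉₊ with hY
  have hYZ : Z ^ 4 ≤ Y := Nat.le_ceil _
  have hZ4 : (16 : ℝ) ≤ Z ^ 4 := by
    calc (16 : ℝ) = 2 ^ 4 := by norm_num
      _ ≤ Z ^ 4 := by gcongr
  have hYZ2 : (Y : ℝ) ≤ Z ^ 5 := by
    have h1 := (Nat.ceil_lt_add_one (show 0 ≤ Z ^ 4 by positivity)).le
    calc (Y : ℝ) ≤ Z ^ 4 + 1 := h1
      _ ≤ Z ^ 4 * 2 := by linarith
      _ ≤ Z ^ 4 * Z := by gcongr
      _ = Z ^ 5 := by ring
  have hY1r : (1 : ℝ) ≤ Y := by linarith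
  have hY1 : 1 ≤ Y := by exact_mod_cast hY1r
  have hY0 : (0 : ℝ) < Y := by linarith
  have hlY : Real.log Y ≤ 5 * Real.log Z := by
    calc Real.log Y ≤ Real.log (Z ^ 5) := Real.log_le_log hY0 hYZ2
      _ = _ := by rw [Real.log_pow]; norm_num
  have hlY0 : 0 ≤ Real.log Y := Real.log_nonneg hY1r
  have hYpow : (Y : ℝ) ^ (-(1 / 4) : ℝ) ≤ Z⁻¹ := by
    calc (Y : ℝ) ^ (-(1 / 4) : ℝ) ≤ (Z ^ 4) ^ (-(1 / 4) : ℝ) :=
          Real.rpow_le_rpow_of_nonpos (by positivity) hYZ (by norm_num)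
      _ = Z⁻¹ := by
          rw [← Real.rpow_natCast, ← Real.rpow_mul hZ0.le, ← Real.rpow_neg_one]
          norm_num
  have hsn : ‖s‖ ≤ |s.im| + 2 := by
    have := Complex.norm_le_abs_re_add_abs_im s
    rw [abs_of_pos (show 0 < s.re by linarith)] at this
    linarith
  set D : ℝ := 2 * 4 ^ j * j.factorial with hD
  have hD0 : 0 ≤ D := by positivity
  -- bound for all partial sums
  have hb : ∀ M : ℕ, Y ≤ M → ‖∑ n ∈ Finset.Icc 1 M, gw j s n * a n‖ ≤
      Cj C j * Real.log Z ^ (j + 1) := by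
    intro M hM
    have e : ∑ n ∈ Finset.Icc 1 M, gw j s n * a n = ∑ n ∈ Finset.Icc 1 Y, gw j s n * a n +
        ∑ n ∈ Finset.Ioc Y M, gw j s n * a n := by
      have h1 : ∀ N : ℕ, Finset.Icc 1 N = Finset.Ioc 0 N := fun N => rfl
      rw [h1, h1, Finset.sum_Ioc_consecutive _ (Nat.zero_le Y) hM]
    rw [e]
    have t1 := head_bound j hC ha hs.le Y
    have t2 := tail_bound j h0 (by linarith) hS hs.le hY1 hM
    have b1 : C * Real.log Y ^ j * (1 + Real.log Y) ≤ 7 * 5 ^ j * C * Real.log Z ^ (j + 1) := by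
      calc C * Real.log Y ^ j * (1 + Real.log Y)
          ≤ C * (5 * Real.log Z) ^ j * (7 * Real.log Z) := by
            gcongr
            linarith
        _ = _ := by ring
    have b2 : D * Q * (2 + 4 * (j + ‖s‖)) * (Y : ℝ) ^ (-(1 / 4) : ℝ) ≤
        2 ^ (j + 1) * (D * (4 * j + 6)) * Real.log Z ^ (j + 1) := by
      have c1 : Q * (2 + 4 * (j + ‖s‖)) ≤ (4 * j + 6) * Z := by
        have hj : (0 : ℝ) ≤ j := Nat.cast_nonneg j
        have : 2 + 4 * (j + ‖s‖) ≤ (4 * j + 6) * (|s.im| + 2) := by nlinarith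
        calc Q * (2 + 4 * (j + ‖s‖)) ≤ Q * ((4 * j + 6) * (|s.im| + 2)) := by gcongr
          _ = _ := by rw [hZ]; ring
      have c2 : (1 : ℝ) ≤ (2 * Real.log Z) ^ (j + 1) := one_le_pow₀ hl
      calc D * Q * (2 + 4 * (j + ‖s‖)) * (Y : ℝ) ^ (-(1 / 4) : ℝ)
          = D * (Q * (2 + 4 * (j + ‖s‖))) * (Y : ℝ) ^ (-(1 / 4) : ℝ) := by ring
        _ ≤ D * ((4 * j + 6) * Z) * Z⁻¹ := by gcongr
        _ = D * (4 * j + 6) * 1 := by field_simp
        _ ≤ D * (4 * j + 6) * (2 * Real.log Z) ^ (j + 1) := by gcongr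
        _ = _ := by ring
    calc _ ≤ _ := norm_add_le _ _
      _ ≤ 7 * 5 ^ j * C * Real.log Z ^ (j + 1) +
          2 ^ (j + 1) * (D * (4 * j + 6)) * Real.log Z ^ (j + 1) :=
          add_le_add (t1.trans b1) (t2.trans b2)
      _ = _ := by unfold Cj; ring
  exact le_of_tendsto hpart.norm (eventually_atTop.mpr ⟨Y, hb⟩)

/-- (P2) for completely multiplicative `ψ` on primary elements -/
theorem deriv_bound_push {f : Eis → ℂ} (hf : ∀ b, IsPrim b → ‖f b‖ ≤ 1) {Q : ℝ} (hQ : 1 ≤ Q)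
    (hS : ∀ N : ℕ, ‖∑ b ∈ primBall N, f b‖ ≤ Q * Real.sqrt N) (j : ℕ) {s : ℂ}
    (hs : 1 < s.re) (hs2 : s.re ≤ 2) :
    ‖iteratedDeriv j (LSeries (push f)) s‖ ≤
      Cj 18 j * Real.log (Q * (|s.im| + 2)) ^ (j + 1) :=
  deriv_bound (push_zero f) (by norm_num) hQ (sum_norm_push_le hf)
    (fun N => by rw [sum_push]; exact hS N) j hs hs2

end Crest.Agent.R012.LDer47
end
end

-- ▼ part R012/PT_255

/-!
# Row 12, part (P): Siegel–Walfisz over `ℤ[ω]`, unconditional abstract form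

* `SW_Lam'` : von Mangoldt weight
* `PT` : `P355.PT_Prop` (sum over primary primes)
* `SW_twisted` : the form for `χ * ang l * nm^{it}`, `χ` periodic.
-/

set_option autoImplicit false

open Complex

namespace Crest.Agent.R012.PT255

open Crest.Agent.R012 Crest.Agent.R012.Eis PSer47 PSW255 PLog255

noncomputable section

theorem p2Prop : P2Prop := fun j => by
  refine ⟨max 1 (LDer47.Cj 18 j), le_max_left _ _, ?_⟩
  intro ψ Q hψ hQ hS s h1 h2
  refine (LDer47.deriv_bound_push (fun b hb => hψ.norm_le hb) hQ hS j h1 h2).trans ?_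
  have h0 : 0 ≤ Real.log (Q * (|s.im| + 2)) := Real.log_nonneg (by nlinarith [abs_nonneg s.im])
  gcongr
  exact le_max_right _ _

theorem p2One : P2One := by
  refine ⟨36, by norm_num, fun x h1 h2 => ?_⟩
  have := LSer47.norm_LSeries_push_le (f := fun _ => 1) (s := (x : ℂ)) (fun b _ => by simp)
    (by simpa using h1) (by simpa using h2)
  simpa using this

/-- **Siegel–Walfisz over `ℤ[ω]` with von Mangoldt weight** (abstract form) -/
theorem SW_Lam' (A C : ℕ) : ∃ K : ℝ, 0 < K ∧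
    ∀ (ψ : Eis → ℂ) (Q : ℝ), IsChar ψ → 1 ≤ Q →
    (∀ N : ℕ, ‖∑ b ∈ primBall N, ψ b‖ ≤ Q * Real.sqrt N) →
    (∀ N : ℕ, ‖∑ b ∈ primBall N, ψ b ^ 2‖ ≤ Q * Real.sqrt N) →
    ∀ (t x : ℝ), 2 ≤ x → Q * (|t| + 2) ≤ Real.log x ^ C →
      ‖∑ b ∈ primBall ⌊x⌋₊, (Lam b : ℂ) * ψ b * (nm b : ℂ) ^ (t * I)‖ ≤
        K * x / Real.log x ^ A :=
  SW_Lam p2Prop p2One A C

/-- `√x (1 + log x)^2 ≤ c x / (log x)^A` -/
theorem sqrt_le (A : ℕ) : ∃ c : ℝ, 0 < c ∧ ∀ x : ℝ, 2 ≤ x →
    Real.sqrt x * (1 + Real.log x) ^ 2 ≤ c * x / Real.log x ^ A := by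
  obtain ⟨c, hc, h⟩ := PInv255.one_add_log_pow_le (A + 2) (1 / 2) (by norm_num)
  refine ⟨c, by linarith, fun x hx => ?_⟩
  have hl : 0 < Real.log x := by linarith [Crest.Agent.SW.log_half hx]
  have h1 := h x (by linarith)
  rw [← Real.sqrt_eq_rpow] at h1
  rw [le_div_iff₀ (by positivity)]
  have h2 : Real.log x ^ A ≤ (1 + Real.log x) ^ A := by gcongr; linarith
  have hs : Real.sqrt x * Real.sqrt x = x := Real.mul_self_sqrt (by linarith)
  have h3 : 0 ≤ Real.sqrt x := Real.sqrt_nonneg x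
  calc Real.sqrt x * (1 + Real.log x) ^ 2 * Real.log x ^ A
      ≤ Real.sqrt x * (1 + Real.log x) ^ 2 * (1 + Real.log x) ^ A := by gcongr
    _ = Real.sqrt x * (1 + Real.log x) ^ (A + 2) := by ring
    _ ≤ Real.sqrt x * (c * Real.sqrt x) := by gcongr
    _ = c * (Real.sqrt x * Real.sqrt x) := by ring
    _ = c * x := by rw [hs]

/-- **Siegel–Walfisz over `ℤ[ω]` for primary primes** (abstract form, `P355.PT_Prop`) -/
theorem PT : P355.PT_Prop := by
  intro A C
  obtain ⟨K, hK, h⟩ := SW_Lam' A (C + 1)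
  obtain ⟨c, hc, hcx⟩ := sqrt_le A
  set L0 : ℝ := 2 ^ (C + 1) with hL0
  have hL01 : 1 ≤ L0 := one_le_pow₀ (by norm_num)
  refine ⟨18 * L0 ^ A + 4 * (K * 2 ^ A) + 400 * c, by positivity, ?_⟩
  intro ψ Q hψ hQ hS hS2 x t hx hQx
  have hx0 : 0 < x := by linarith
  have hl : 1 / 2 ≤ Real.log x := Crest.Agent.SW.log_half hx
  have hl0 : 0 < Real.log x := by linarith
  have hlA : 0 < Real.log x ^ A := by positivity
  have ht := abs_nonneg t
  have hg : ∀ b, IsPrim b → ‖ψ b * (nm b : ℂ) ^ ((t : ℂ) * I)‖ ≤ 1 :=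
    fun b hb => (hψ.mul' (nmTwist_isChar t)).norm_le hb
  change ‖∑ p ∈ primes ⌊x⌋₊, ψ p * (nm p : ℂ) ^ ((t : ℂ) * I)‖ ≤ _
  rcases lt_or_ge (Real.log x) L0 with hsm | hlg
  · have h1 := norm_sum_primes_le _ hg ⌊x⌋₊
    have h2 : (⌊x⌋₊ : ℝ) ≤ x := Nat.floor_le hx0.le
    refine h1.trans ?_
    rw [le_div_iff₀ hlA]
    have h3 : Real.log x ^ A ≤ L0 ^ A := by gcongr
    calc 18 * (⌊x⌋₊ : ℝ) * Real.log x ^ A ≤ 18 * x * L0 ^ A := by gcongr
      _ = 18 * L0 ^ A * x := by ring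
      _ ≤ (18 * L0 ^ A + 4 * (K * 2 ^ A) + 400 * c) * x := by
          gcongr
          have : 0 < 4 * (K * 2 ^ A) := by positivity
          linarith
  · have hB : ∀ n : ℕ, Real.sqrt x < n → (n : ℝ) ≤ x →
        ‖∑ b ∈ primBall n, (Lam b : ℂ) * (ψ b * (nm b : ℂ) ^ ((t : ℂ) * I))‖ ≤
          K * 2 ^ A * x / Real.log x ^ A := by
      intro n hn1 hn2
      have hsx : 1 ≤ Real.sqrt x := by rw [Real.one_le_sqrt]; linarith
      have hn0 : (0 : ℝ) < n := by linarith
      have hlog : Real.log x / 2 ≤ Real.log n := by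
        rw [← Real.log_sqrt hx0.le]
        exact Real.log_le_log (by linarith) hn1.le
      have hn2' : (2 : ℝ) ≤ n := by
        have h1 : (1 : ℝ) < n := by linarith
        have h2 : 1 < n := by exact_mod_cast h1
        exact_mod_cast h2
      have hln : 2 ^ C ≤ Real.log n := by
        have : L0 = 2 * 2 ^ C := by rw [hL0]; ring
        linarith
      have hln0 : 0 < Real.log n := by linarith [Crest.Agent.SW.log_half hn2']
      have hcond : Q * (|t| + 2) ≤ Real.log n ^ (C + 1) := by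
        calc Q * (|t| + 2) ≤ Real.log x ^ C := hQx
          _ ≤ (2 * Real.log n) ^ C := by gcongr; linarith
          _ = 2 ^ C * Real.log n ^ C := mul_pow _ _ _
          _ ≤ Real.log n * Real.log n ^ C := by gcongr
          _ = Real.log n ^ (C + 1) := by ring
      have key := h ψ Q hψ hQ hS hS2 t n hn2' hcond
      rw [Nat.floor_natCast] at key
      have e : ∑ b ∈ primBall n, (Lam b : ℂ) * (ψ b * (nm b : ℂ) ^ ((t : ℂ) * I)) =
          ∑ b ∈ primBall n, (Lam b : ℂ) * ψ b * (nm b : ℂ) ^ ((t : ℂ) * I) :=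
        Finset.sum_congr rfl fun b _ => by ring
      rw [e]
      refine key.trans ?_
      rw [div_le_div_iff₀ (by positivity) hlA]
      have h5 : Real.log x ^ A ≤ 2 ^ A * Real.log n ^ A := by
        rw [← mul_pow]
        gcongr
        linarith
      calc K * n * Real.log x ^ A ≤ K * x * (2 ^ A * Real.log n ^ A) := by gcongr
        _ = K * 2 ^ A * x * Real.log n ^ A := by ring
    have hfin := primes_of_Lam _ hg x _ hx hB
    refine hfin.trans ?_
    have h6 := hcx x hx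
    have h7 : 400 * Real.sqrt x * (1 + Real.log x) ^ 2 ≤ 400 * (c * x / Real.log x ^ A) := by
      calc 400 * Real.sqrt x * (1 + Real.log x) ^ 2 =
          400 * (Real.sqrt x * (1 + Real.log x) ^ 2) := by ring
        _ ≤ _ := by gcongr
    have h8 : 4 * (K * 2 ^ A * x / Real.log x ^ A) + 400 * (c * x / Real.log x ^ A) ≤
        (18 * L0 ^ A + 4 * (K * 2 ^ A) + 400 * c) * x / Real.log x ^ A := by
      have e : (18 * L0 ^ A + 4 * (K * 2 ^ A) + 400 * c) * x / Real.log x ^ A =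
          18 * L0 ^ A * x / Real.log x ^ A + (4 * (K * 2 ^ A * x / Real.log x ^ A) +
            400 * (c * x / Real.log x ^ A)) := by ring
      rw [e]
      have : 0 ≤ 18 * L0 ^ A * x / Real.log x ^ A := by positivity
      linarith
    linarith


end

end Crest.Agent.R012.PT255
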