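import Crest.Agent.R012.Weight_600
import Crest.Agent.R012.MV_400

/-!
# Row 12, item T7a : from fixed `t` to the sharp cut-off `N(ab) ≤ X`  (helper54)

* `perron`      : exact detection of `nm b ≤ g i` (`nm b` an integer in `(B, 2B]`)
* `int_split`   : `∫ K(t) D(t) dt` from a pointwise bound for `|t| ≤ T₀` and a mean square bound
                  with the weight `dt/|t|` for `T₀ ≤ |t| ≤ T₂`
* `tavg`        : the mean square in `t` of `∫ e^{-|u|} |P(t+u)|² du`
* `sharp_abs`   : the abstract Type II estimate with sharp cut-offs, index form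
-/

set_option autoImplicit false

noncomputable section

open MeasureTheory Complex Set Filter Topology
open Crest.Agent.R012 Crest.Agent.R012.Eis Crest.Agent.R012.Weight600 Crest.Agent.R012.MV400

namespace Crest.Agent.R012.TII54

/-! ### Perron's formula, exact form -/

/-- the kernel detecting `n ≤ m` for integers `B < n ≤ 2B`. -/
def kB (B : ℝ) (t : ℝ) : ℂ := kerC (-2) 0 (1 / (8 * B + 8)) t

lemma eta_pos {B : ℝ} (hB : 1 ≤ B) : (0 : ℝ) < 1 / (8 * B + 8) := by positivity

lemma eta_le {B : ℝ} (hB : 1 ≤ B) : (1 : ℝ) / (8 * B + 8) ≤ 0 - (-2) := by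
  rw [div_le_iff₀ (by positivity)]; linarith

lemma integrable_kB {B : ℝ} (hB : 1 ≤ B) : Integrable (kB B) :=
  integrable_kerC (eta_pos hB) (by norm_num)


lemma detect {B : ℝ} (hB : 1 ≤ B) {n m : ℕ} (h1 : B < n) (h2 : (n : ℝ) ≤ 2 * B)
    (h3 : B - 1 ≤ m) (hm1 : 1 ≤ m) (h4 : (m : ℝ) ≤ 2 * B) :
    cutL (-2) 0 (1 / (8 * B + 8)) (Real.log n - Real.log (m + 1 / 2)) =
      if n ≤ m then 1 else 0 := by
  have hη := eta_pos hB
  have hn0 : (0 : ℝ) < n := by linarith
  have hm0 : (0 : ℝ) < m := by exact_mod_cast hm1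
  have e : Real.log n - Real.log (m + 1 / 2) = Real.log (n / (m + 1 / 2)) := by
    rw [Real.log_div hn0.ne' (by positivity)]
  have hlow : 1 - ((m : ℝ) + 1 / 2) / n ≤ Real.log (n / (m + 1 / 2)) := by
    have := Real.one_sub_inv_le_log_of_pos (x := (n : ℝ) / (m + 1 / 2)) (by positivity)
    rwa [inv_div] at this
  rw [e]
  split_ifs with h
  · have hnm : (n : ℝ) ≤ m := by exact_mod_cast h
    apply cutL_eq_one hη
    · have h5 : ((m : ℝ) + 1 / 2) / n ≤ 5 / 2 := by
        rw [div_le_iff₀ hn0]; linarith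
      have h6 : (1 : ℝ) / (8 * B + 8) ≤ 1 / 16 := by
        apply one_div_le_one_div_of_le (by norm_num); linarith
      linarith
    · have h5 : 1 - (n : ℝ) / (m + 1 / 2) ≤ Real.log ((m + 1 / 2) / n) := by
        have := Real.one_sub_inv_le_log_of_pos (x := ((m : ℝ) + 1 / 2) / n) (by positivity)
        rwa [inv_div] at this
      have h6 : Real.log ((m + 1 / 2) / n) = -Real.log (n / (m + 1 / 2)) := by
        rw [← Real.log_inv, inv_div]
      have h7 : (1 : ℝ) / (8 * B + 8) ≤ 1 - (n : ℝ) / (m + 1 / 2) := by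
        rw [one_sub_div (by positivity), div_le_div_iff₀ (by positivity) (by positivity)]
        nlinarith
      linarith
  · have hnm : (m : ℝ) + 1 ≤ n := by
      have : m + 1 ≤ n := by omega
      exact_mod_cast this
    apply cutL_eq_zero_right hη (by norm_num)
    have h7 : (1 : ℝ) / (8 * B + 8) ≤ 1 - ((m : ℝ) + 1 / 2) / n := by
      rw [one_sub_div (by positivity), div_le_div_iff₀ (by positivity) (by positivity)]
      nlinarith
    linarith

/-- the integer cut-off. -/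
def cutN (B g : ℝ) : ℕ := max ⌊B⌋₊ (min ⌊g⌋₊ ⌊2 * B⌋₊)

lemma cutN_facts {B : ℝ} (hB : 1 ≤ B) (g : ℝ) :
    B - 1 ≤ (cutN B g : ℝ) ∧ 1 ≤ cutN B g ∧ (cutN B g : ℝ) ≤ 2 * B := by
  have h0 : ⌊B⌋₊ ≤ cutN B g := le_max_left _ _
  have h1 : 1 ≤ ⌊B⌋₊ := by
    rw [Nat.one_le_floor_iff]; exact hB
  refine ⟨?_, h1.trans h0, ?_⟩
  · have h2 : B < ⌊B⌋₊ + 1 := Nat.lt_floor_add_one B
    have h3 : ((⌊B⌋₊ : ℕ) : ℝ) ≤ cutN B g := by exact_mod_cast h0
    linarith
  · have h4 : cutN B g ≤ ⌊2 * B⌋₊ := by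
      unfold cutN
      apply max_le
      · exact Nat.floor_mono (by linarith)
      · exact min_le_right _ _
    have h5 : ((⌊2 * B⌋₊ : ℕ) : ℝ) ≤ 2 * B := Nat.floor_le (by linarith)
    have h6 : (cutN B g : ℝ) ≤ ((⌊2 * B⌋₊ : ℕ) : ℝ) := by exact_mod_cast h4
    linarith

lemma le_cutN_iff {B : ℝ} (hB : 1 ≤ B) (g : ℝ) {n : ℕ} (h1 : B < n) (h2 : (n : ℝ) ≤ 2 * B) :
    n ≤ cutN B g ↔ (n : ℝ) ≤ g := by
  have hn1 : ¬ n ≤ ⌊B⌋₊ := by
    intro h
    have : (n : ℝ) ≤ B := (Nat.cast_le.mpr h).trans (Nat.floor_le (by linarith))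
    linarith
  have hn2 : n ≤ ⌊2 * B⌋₊ := Nat.le_floor h2
  unfold cutN
  rw [le_max_iff, le_min_iff]
  constructor
  · rintro (h | h)
    · exact absurd h hn1
    · have hn0 : n ≠ 0 := by
        rintro rfl
        simp at h1
        linarith
      exact (Nat.le_floor_iff' hn0).mp h.1
  · intro h
    right
    exact ⟨Nat.le_floor h, hn2⟩

/-- the phase attached to the cut-off `g`. -/
def cph (B g : ℝ) : ℝ := Real.log (cutN B g + 1 / 2)

open Classical in
/-- **Perron's formula**, exact, bilinear index form. -/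
theorem perron {ι : Type*} (I : Finset ι) (S : Finset Eis) {B : ℝ} (hB : 1 ≤ B)
    (hS : ∀ b ∈ S, B < nm b ∧ (nm b : ℝ) ≤ 2 * B) (f : ι → Eis → ℂ) (g : ι → ℝ) :
    ‖∑ i ∈ I, ∑ b ∈ S.filter (fun b => (nm b : ℝ) ≤ g i), f i b‖ ≤
      ∫ t, ‖kB B t‖ * ‖∑ i ∈ I, ∑ b ∈ S, f i b * (osc t (-cph B (g i)) * pw t (nm b))‖ := by
  have hη := eta_pos hB
  have key := norm_sum_cutL_le_integral (I ×ˢ S) (fun p : ι × Eis => f p.1 p.2)
    (fun p => Real.log (nm p.2) - cph B (g p.1)) hη (show (-2 : ℝ) ≤ 0 by norm_num)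
  have e1 : ∑ p ∈ I ×ˢ S, f p.1 p.2 *
      (cutL (-2) 0 (1 / (8 * B + 8)) (Real.log (nm p.2) - cph B (g p.1)) : ℂ) =
      ∑ i ∈ I, ∑ b ∈ S.filter (fun b => (nm b : ℝ) ≤ g i), f i b := by
    rw [Finset.sum_product]
    refine Finset.sum_congr rfl fun i _ => ?_
    rw [Finset.sum_filter]
    refine Finset.sum_congr rfl fun b hb => ?_
    obtain ⟨hb1, hb2⟩ := hS b hb
    obtain ⟨c1, c2, c3⟩ := cutN_facts hB (g i)
    have := detect hB hb1 hb2 c1 c2 c3
    unfold cph
    rw [this]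
    by_cases hc : (nm b : ℝ) ≤ g i
    · rw [if_pos hc, if_pos ((le_cutN_iff hB (g i) hb1 hb2).mpr hc)]; simp
    · rw [if_neg hc, if_neg (fun h => hc ((le_cutN_iff hB (g i) hb1 hb2).mp h))]; simp
  rw [e1] at key
  refine key.trans (le_of_eq ?_)
  congr 1
  ext t
  unfold kB
  congr 2
  rw [Finset.sum_product]
  refine Finset.sum_congr rfl fun i _ => Finset.sum_congr rfl fun b _ => ?_
  rw [sub_eq_add_neg, osc_add_right]
  unfold pw
  ring

/-! ### The kernel -/

lemma norm_kB_le_div {B : ℝ} (hB : 1 ≤ B) {t : ℝ} (ht : t ≠ 0) :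
    ‖kB B t‖ ≤ 2 * Ck 0 / |t| := by
  have h := norm_kerC_le_div (a := -2) (b := 0) (eta_pos hB) (by norm_num) ht
  have h2 := pk_le 0 (1 / (8 * B + 8) * t)
  rw [pow_zero, div_one] at h2
  have hp : 0 < |t| := abs_pos.mpr ht
  unfold kB
  calc _ ≤ 2 / |t| * ‖pk (1 / (8 * B + 8) * t)‖ := h
    _ ≤ 2 / |t| * Ck 0 := by gcongr
    _ = _ := by ring

lemma integral_norm_kB_le {B : ℝ} (hB : 1 ≤ B) :
    ∫ t, ‖kB B t‖ ≤ Cint * (1 + Real.log (32 * B)) := by
  have h := integral_norm_kerC_le (a := -2) (b := 0) (eta_pos hB) (eta_le hB)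
  unfold kB
  refine h.trans ?_
  have hC := Cint_pos
  have : Real.log ((0 - -2) / (1 / (8 * B + 8))) ≤ Real.log (32 * B) := by
    apply Real.log_le_log (by positivity)
    rw [div_div_eq_mul_div, div_one]
    linarith
  gcongr

lemma tail_norm_kB_le {B : ℝ} (hB : 1 ≤ B) {T : ℝ} (hT : 0 < T) {k : ℕ} (hk : 0 < k) :
    ∫ t in {t : ℝ | T < |t|}, ‖kB B t‖ ≤ 4 * Ck k * ((8 * B + 8) / T) ^ k := by
  have h := tail_norm_kerC_le (a := -2) (b := 0) (eta_pos hB) (by norm_num) hT hk
  unfold kB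
  refine h.trans (le_of_eq ?_)
  rw [div_eq_mul_inv, ← inv_pow]
  congr 2
  field_simp

/-! ### Splitting the `t`-integral -/

lemma int_neg_eq (D : ℝ → ℝ) (T0 T2 : ℝ) (h : T0 ≤ T2) :
    ∫ t in Ico (-T2) (-T0), D t / |t| = ∫ t in T0..T2, D (-t) / |t| := by
  rw [integral_Ico_eq_integral_Ioo, ← integral_Ioc_eq_integral_Ioo,
    ← intervalIntegral.integral_of_le (by linarith)]
  have := intervalIntegral.integral_comp_neg (a := T0) (b := T2) (fun t => D t / |t|)
  rw [← this]
  simp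

/-- Split of `∫ K D`. -/
theorem int_split {B : ℝ} (hB : 1 ≤ B) (D : ℝ → ℝ) (hD : Continuous D) (hD0 : ∀ t, 0 ≤ D t)
    {MD : ℝ} (hMD : ∀ t, D t ≤ MD) {T0 T2 Z0 : ℝ} (hT0 : 0 < T0) (h02 : T0 ≤ T2)
    (hZ0 : 0 ≤ Z0) (h1 : ∀ t, |t| ≤ T0 → D t ≤ Z0) {k : ℕ} (hk : 0 < k) :
    ∫ t, ‖kB B t‖ * D t ≤ Cint * (1 + Real.log (32 * B)) * Z0 +
      2 * Ck 0 * ((∫ t in T0..T2, D t / t) + ∫ t in T0..T2, D (-t) / t) +
      4 * Ck k * ((8 * B + 8) / T2) ^ k * MD := by
  have hT2 : 0 < T2 := by linarith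
  have hMD0 : 0 ≤ MD := (hD0 0).trans (hMD 0)
  have hkI := (integrable_kB hB).norm
  have hCk := Ck_pos 0
  set A1 : Set ℝ := Ioc T0 T2 with hA1
  set A2 : Set ℝ := Ico (-T2) (-T0) with hA2
  set A3 : Set ℝ := {t : ℝ | T2 < |t|} with hA3
  have hm3 : MeasurableSet A3 := measurableSet_lt measurable_const continuous_abs.measurable
  have hI1 : IntegrableOn (fun t => D t / |t|) A1 := by
    have : IntervalIntegrable (fun t => D t / |t|) volume T0 T2 := by
      apply ContinuousOn.intervalIntegrable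
      rw [uIcc_of_le h02]
      apply ContinuousOn.div hD.continuousOn continuous_abs.continuousOn
      intro t ht
      exact (abs_pos.mpr (by linarith [ht.1] : t ≠ 0)).ne'
    exact (intervalIntegrable_iff_integrableOn_Ioc_of_le h02).mp this
  have hI2 : IntegrableOn (fun t => D t / |t|) A2 := by
    have : IntervalIntegrable (fun t => D t / |t|) volume (-T2) (-T0) := by
      apply ContinuousOn.intervalIntegrable
      rw [uIcc_of_le (by linarith)]
      apply ContinuousOn.div hD.continuousOn continuous_abs.continuousOn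
      intro t ht
      exact (abs_pos.mpr (by linarith [ht.2] : t ≠ 0)).ne'
    rw [intervalIntegrable_iff_integrableOn_Ioc_of_le (by linarith)] at this
    rw [hA2, integrableOn_Ico_iff_integrableOn_Ioo, ← integrableOn_Ioc_iff_integrableOn_Ioo]
    exact this
  have hpt : ∀ t, ‖kB B t‖ * D t ≤ ‖kB B t‖ * Z0 +
      (A1.indicator (fun t => 2 * Ck 0 * (D t / |t|)) t +
        A2.indicator (fun t => 2 * Ck 0 * (D t / |t|)) t) +
      A3.indicator (fun t => ‖kB B t‖ * MD) t := by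
    intro t
    have n1 : 0 ≤ A1.indicator (fun t => 2 * Ck 0 * (D t / |t|)) t :=
      indicator_nonneg (fun t _ => by have := hD0 t; positivity) t
    have n2 : 0 ≤ A2.indicator (fun t => 2 * Ck 0 * (D t / |t|)) t :=
      indicator_nonneg (fun t _ => by have := hD0 t; positivity) t
    have n3 : 0 ≤ A3.indicator (fun t => ‖kB B t‖ * MD) t :=
      indicator_nonneg (fun t _ => by positivity) t
    have n0 : 0 ≤ ‖kB B t‖ * Z0 := by positivity
    by_cases ht : |t| ≤ T0
    · have := mul_le_mul_of_nonneg_left (h1 t ht) (norm_nonneg (kB B t))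
      linarith
    push Not at ht
    by_cases ht2 : T2 < |t|
    · have e3 : A3.indicator (fun t => ‖kB B t‖ * MD) t = ‖kB B t‖ * MD :=
        indicator_of_mem (by exact ht2) _
      have := mul_le_mul_of_nonneg_left (hMD t) (norm_nonneg (kB B t))
      linarith
    push Not at ht2
    have htne : t ≠ 0 := by
      rintro rfl; simp at ht; linarith
    have hk1 := norm_kB_le_div hB htne
    have hb : ‖kB B t‖ * D t ≤ 2 * Ck 0 * (D t / |t|) := by
      calc ‖kB B t‖ * D t ≤ 2 * Ck 0 / |t| * D t :=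
            mul_le_mul_of_nonneg_right hk1 (hD0 t)
        _ = _ := by ring
    rcases le_total 0 t with h0 | h0
    · rw [abs_of_nonneg h0] at ht ht2
      have e1 : A1.indicator (fun t => 2 * Ck 0 * (D t / |t|)) t = 2 * Ck 0 * (D t / |t|) :=
        indicator_of_mem (by exact ⟨ht, ht2⟩) _
      linarith
    · rw [abs_of_nonpos h0] at ht ht2
      have e1 : A2.indicator (fun t => 2 * Ck 0 * (D t / |t|)) t = 2 * Ck 0 * (D t / |t|) :=
        indicator_of_mem (by exact ⟨by linarith, by linarith⟩) _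
      linarith
  have hLI : Integrable fun t => ‖kB B t‖ * D t := by
    have := hkI.mul_bdd (c := MD) (g := fun t => D t) hD.aestronglyMeasurable
      (Eventually.of_forall fun t => by rw [Real.norm_eq_abs, abs_of_nonneg (hD0 t)]; exact hMD t)
    exact this
  have i0 : Integrable fun t => ‖kB B t‖ * Z0 := hkI.mul_const _
  have i1 : Integrable (A1.indicator (fun t => 2 * Ck 0 * (D t / |t|))) :=
    (integrable_indicator_iff measurableSet_Ioc).mpr (hI1.const_mul _)
  have i2 : Integrable (A2.indicator (fun t => 2 * Ck 0 * (D t / |t|))) :=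
    (integrable_indicator_iff measurableSet_Ico).mpr (hI2.const_mul _)
  have i3 : Integrable (A3.indicator (fun t => ‖kB B t‖ * MD)) :=
    (integrable_indicator_iff hm3).mpr (hkI.mul_const _).integrableOn
  have hmono := integral_mono hLI ((i0.add (i1.add i2)).add i3) hpt
  refine hmono.trans ?_
  have e : ∫ t, ((fun t => ‖kB B t‖ * Z0) + (A1.indicator (fun t => 2 * Ck 0 * (D t / |t|)) +
      A2.indicator (fun t => 2 * Ck 0 * (D t / |t|))) +
      A3.indicator (fun t => ‖kB B t‖ * MD)) t =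
      (∫ t, ‖kB B t‖) * Z0 + ((∫ t in A1, 2 * Ck 0 * (D t / |t|)) +
        ∫ t in A2, 2 * Ck 0 * (D t / |t|)) + (∫ t in A3, ‖kB B t‖) * MD := by
    rw [integral_add' (i0.add (i1.add i2)) i3, integral_add' i0 (i1.add i2),
      integral_add' i1 i2, integral_indicator measurableSet_Ioc,
      integral_indicator measurableSet_Ico, integral_indicator hm3, integral_mul_const,
      integral_mul_const]
  rw [e]
  have f1 : ∫ t in A1, 2 * Ck 0 * (D t / |t|) = 2 * Ck 0 * ∫ t in T0..T2, D t / t := by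
    rw [integral_const_mul, hA1, ← intervalIntegral.integral_of_le h02]
    congr 1
    apply intervalIntegral.integral_congr
    intro t ht
    rw [uIcc_of_le h02] at ht
    simp only
    rw [abs_of_nonneg (by linarith [ht.1])]
  have f2 : ∫ t in A2, 2 * Ck 0 * (D t / |t|) = 2 * Ck 0 * ∫ t in T0..T2, D (-t) / t := by
    rw [integral_const_mul, hA2, int_neg_eq D T0 T2 h02]
    congr 1
    apply intervalIntegral.integral_congr
    intro t ht
    rw [uIcc_of_le h02] at ht
    simp only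
    rw [abs_of_nonneg (by linarith [ht.1])]
  rw [f1, f2]
  have g1 := integral_norm_kB_le hB
  have g3 := tail_norm_kB_le hB hT2 hk
  rw [← mul_add]
  gcongr

end Crest.Agent.R012.TII54
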