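import Crest.Agent.R012.AddChar_666
import Crest.Agent.R012.GaussInst_880

/-!
# Row 12 (R4b): two-character sums modulo `k₁ k₂`

* `sumMod_mul_eC` : CRT with an additive character
* `tau2` : `∑_{a mod k₁k₂} (a/k₁) conj (a/k₂) e(h a/(k₁k₂)) = g(h,k₁) conj g(h,k₂)`
* `tau2_sq3` : the same with the frequency `h/(√-3 k₁ k₂)`
* `tau2_prim` : the sum over primary `a` modulo `3 k₁ k₂` with frequency `h/(3√-3 k₁k₂)`
* `tau1_prim` : the same for a single character
-/

set_option autoImplicit false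
set_option linter.unusedSimpArgs false
set_option linter.unusedVariables false

noncomputable section

namespace Crest.Agent.R012.Tau671

open Eis
open Gauss880 (syG)

/-- Chinese remainder theorem with an additive character. -/
lemma sumMod_mul_eC {k1 k2 : Eis} (h1 : k1 ≠ 0) (h2 : k2 ≠ 0) (hcop : IsCoprime k1 k2)
    {f1 f2 : Eis → ℂ} (hf1 : PMod k1 f1) (hf2 : PMod k2 f2) (h : Eis) :
    sumMod (k1 * k2) (fun a => f1 a * f2 a * eC (toC h * toC a / (toC k1 * toC k2))) =
      sumMod k1 (fun x => f1 (k2 * x) * eC (toC h * toC x / toC k1)) *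
        sumMod k2 (fun y => f2 (k1 * y) * eC (toC h * toC y / toC k2)) := by
  have c1 := toC_ne_zero h1
  have c2 := toC_ne_zero h2
  apply sumMod_crt_mul h1 h2 _ hcop
  · have hp : PMod (k1 * k2) (fun a => eC (toC h * toC a / (toC k1 * toC k2))) := by
      have := pmod_eC h (k1 * k2)
      rwa [map_mul] at this
    exact ((hf1.mono (dvd_mul_right _ _)).mul (hf2.mono (dvd_mul_left _ _))).mul hp
  · intro x y
    have e1 : f1 (k2 * x + k1 * y) = f1 (k2 * x) := hf1 _ _
    have e2 : f2 (k2 * x + k1 * y) = f2 (k1 * y) := by rw [add_comm]; exact hf2 _ _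
    have e3 : toC h * toC (k2 * x + k1 * y) / (toC k1 * toC k2) =
        toC h * toC x / toC k1 + toC h * toC y / toC k2 := by
      rw [map_add, map_mul, map_mul]; field_simp
    rw [e1, e2, e3, eC_add]; ring

lemma pmod_sy {c : Eis} (hc : IsPrim c) : PMod c (fun x => sy x c) := fun x t =>
  syG.congr _ _ _ hc ⟨t, by ring⟩

lemma sy_ne_zero {x c : Eis} (hc : IsPrim c) (h : IsCoprime x c) : sy x c ≠ 0 := fun h0 =>
  ((syG.eq_zero x c hc).mp h0) h

lemma sy_eq_zero {x c : Eis} (hc : IsPrim c) (h : ¬ IsCoprime x c) : sy x c = 0 :=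
  (syG.eq_zero x c hc).mpr h

lemma norm_sy {x c : Eis} (hc : IsPrim c) (h : IsCoprime x c) : ‖sy x c‖ = 1 := by
  have h3 := syG.cube x c hc h
  have h4 : ‖sy x c‖ ^ 3 = 1 := by rw [← norm_pow, h3, norm_one]
  exact (pow_eq_one_iff_of_nonneg (norm_nonneg _) (by norm_num)).mp h4

lemma norm_sy_le {x c : Eis} (hc : IsPrim c) : ‖sy x c‖ ≤ 1 := by
  by_cases h : IsCoprime x c
  · exact (norm_sy hc h).le
  · rw [sy_eq_zero hc h, norm_zero]; exact zero_le_one

lemma sy_mul_star {x c : Eis} (hc : IsPrim c) (h : IsCoprime x c) :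
    sy x c * (starRingEnd ℂ) (sy x c) = 1 := by
  rw [Complex.mul_conj, Complex.normSq_eq_norm_sq, norm_sy hc h]; simp


lemma star_sy {x c : Eis} (hc : IsPrim c) : (starRingEnd ℂ) (sy x c) = sy x c ^ 2 := by
  by_cases h : IsCoprime x c
  · have h1 := sy_mul_star hc h
    have h2 := syG.cube x c hc h
    apply mul_left_cancel₀ (sy_ne_zero hc h)
    rw [h1]; rw [← h2]; ring
  · rw [sy_eq_zero hc h]; simp


lemma sy_pow {x c : Eis} (hc : IsPrim c) (k : ℕ) : sy (x ^ k) c = sy x c ^ k :=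
  Sym645.sy_pow_left hc.nm_mod x k

lemma sy_cube {x c : Eis} (hc : IsPrim c) (h : IsCoprime x c) : sy (x ^ 3) c = 1 := by
  rw [sy_pow hc, syG.cube _ _ hc h]

lemma sy_neg_one {c : Eis} (hc : IsPrim c) : sy (-1) c = 1 := by
  have h1 : ((-1 : Eis)) = (-1) ^ 3 := by ring
  rw [h1]
  exact sy_cube hc (isCoprime_of_isUnit (isUnit_one.neg) _)

lemma sy_neg {x c : Eis} (hc : IsPrim c) : sy (-x) c = sy x c := by
  rw [← neg_one_mul, syG.mul_left _ _ _ hc, sy_neg_one hc, one_mul]

/-- `3√-3 = -(√-3)³` is minus a cube. -/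
lemma sy_three_sq3 {c : Eis} (hc : IsPrim c) : sy (3 * sq3) c = 1 := by
  have h1 : (3 * sq3 : Eis) = (-sq3) ^ 3 := by
    have := sq3_sq
    linear_combination (sq3) * this
  have hcop : IsCoprime (-sq3) c := by
    have : IsCoprime c sq3 := (isCoprime_lam_iff.mpr hc.not_lam_dvd).of_isCoprime_of_dvd_right
      associated_lam_sq3.symm.dvd
    exact this.symm.neg_left
  rw [h1]
  exact sy_cube hc hcop

/-! ### Gauss sums -/

/-- Substituting `a x` for `x` in a Gauss sum. -/
lemma gs_twist {c a : Eis} (hc : IsPrim c) (ha : IsCoprime a c) (h : Eis) :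
    sumMod c (fun x => sy (a * x) c * eC (toC h * toC x / toC c)) = sy a c * gs h c := by
  rw [gs, ← sumMod_mul_left hc.ne_zero]
  exact sumMod_congr fun x => by rw [syG.mul_left _ _ _ hc]; ring

lemma star_gs {c : Eis} (hc : IsPrim c) (h : Eis) :
    (starRingEnd ℂ) (gs h c) =
      sumMod c (fun x => (starRingEnd ℂ) (sy x c) * eC (toC h * toC x / toC c)) := by
  rw [gs, sumMod_star hc.ne_zero]
  have hp : PMod c (fun x => (starRingEnd ℂ) (sy x c) * eC (toC h * toC x / toC c)) :=
    ((pmod_sy hc).comp (starRingEnd ℂ)).mul (pmod_eC h c)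
  rw [← sumMod_neg hc.ne_zero hp]
  refine sumMod_congr fun x => ?_
  rw [map_mul, star_eC, sy_neg hc, map_neg]
  congr 2; ring

lemma star_gs_twist {c a : Eis} (hc : IsPrim c) (h : Eis) :
    sumMod c (fun x => (starRingEnd ℂ) (sy (a * x) c) * eC (toC h * toC x / toC c)) =
      (starRingEnd ℂ) (sy a c) * (starRingEnd ℂ) (gs h c) := by
  rw [star_gs hc, ← sumMod_mul_left hc.ne_zero]
  exact sumMod_congr fun x => by rw [syG.mul_left _ _ _ hc, map_mul]; ring

/-- `∑_{a mod k₁k₂} (a/k₁) conj (a/k₂) e(h a/(k₁k₂)) = g(h,k₁) conj g(h,k₂)` for all `h`. -/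
theorem tau2 {k1 k2 : Eis} (h1 : IsPrim k1) (h2 : IsPrim k2) (hcop : IsCoprime k1 k2) (h : Eis) :
    sumMod (k1 * k2) (fun a => sy a k1 * (starRingEnd ℂ) (sy a k2) *
      eC (toC h * toC a / (toC k1 * toC k2))) = gs h k1 * (starRingEnd ℂ) (gs h k2) := by
  rw [sumMod_mul_eC h1.ne_zero h2.ne_zero hcop (pmod_sy h1)
    ((pmod_sy h2).comp (starRingEnd ℂ)) h]
  rw [gs_twist h1 hcop.symm h, star_gs_twist h2 h]
  have e : sy k2 k1 * (starRingEnd ℂ) (sy k1 k2) = 1 := by
    rw [syG.recip k2 k1 h2 h1]; exact sy_mul_star h2 hcop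
  calc sy k2 k1 * gs h k1 * ((starRingEnd ℂ) (sy k1 k2) * (starRingEnd ℂ) (gs h k2))
      = (sy k2 k1 * (starRingEnd ℂ) (sy k1 k2)) * (gs h k1 * (starRingEnd ℂ) (gs h k2)) := by ring
    _ = _ := by rw [e, one_mul]



/-- The function `x ↦ e(r x / (√-3 c))` is periodic modulo `c`. -/
lemma pmod_eC_sq3 (r c : Eis) (hc : c ≠ 0) :
    PMod c (fun x => eC (toC r * toC x / (toC sq3 * toC c))) := by
  intro x t
  have h := toC_ne_zero hc
  have h3 := toC_ne_zero sq3_ne_zero
  have e : toC r * toC (x + c * t) / (toC sq3 * toC c) =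
      toC r * toC x / (toC sq3 * toC c) + toC (r * t) / toC sq3 := by
    rw [map_add, map_mul, map_mul]; field_simp
  beta_reduce
  rw [e, eC_add, eC_toC_div_sq3, mul_one]

/-- Passing from the frequency `h/(√-3 c)` to `h/c`. -/
lemma sumMod_sq3 {c : Eis} (hc : IsPrim c) {f : Eis → ℂ} (hf : PMod c f) (h : Eis) :
    sumMod c (fun a => f a * eC (toC h * toC a / (toC sq3 * toC c))) =
      sumMod c (fun a => f (sq3 * a) * eC (toC h * toC a / toC c)) := by
  have h0 := hc.ne_zero
  have hcop : IsCoprime sq3 c := ((isCoprime_lam_iff.mpr hc.not_lam_dvd).of_isCoprime_of_dvd_right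
      associated_lam_sq3.symm.dvd).symm
  have hp : PMod c (fun a => f a * eC (toC h * toC a / (toC sq3 * toC c))) :=
    hf.mul (pmod_eC_sq3 h c h0)
  rw [← sumMod_mul_coprime h0 hp hcop]
  refine sumMod_congr fun a => ?_
  have h3 := toC_ne_zero sq3_ne_zero
  have h4 := toC_ne_zero h0
  congr 2
  rw [map_mul]; field_simp

/-- The two-character sum with the frequency of Poisson summation over all of `Eis`. -/
theorem tau2_sq3 {k1 k2 : Eis} (h1 : IsPrim k1) (h2 : IsPrim k2) (hcop : IsCoprime k1 k2)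
    (h : Eis) :
    sumMod (k1 * k2) (fun a => sy a k1 * (starRingEnd ℂ) (sy a k2) *
      eC (toC h * toC a / (toC sq3 * toC (k1 * k2)))) =
      sy sq3 k1 * (starRingEnd ℂ) (sy sq3 k2) * (gs h k1 * (starRingEnd ℂ) (gs h k2)) := by
  have hp : PMod (k1 * k2) (fun a => sy a k1 * (starRingEnd ℂ) (sy a k2)) :=
    ((pmod_sy h1).mono (dvd_mul_right _ _)).mul
      (((pmod_sy h2).comp (starRingEnd ℂ)).mono (dvd_mul_left _ _))
  rw [sumMod_sq3 (h1.mul h2) hp, ← tau2 h1 h2 hcop h,
    ← sumMod_mul_left (mul_ne_zero h1.ne_zero h2.ne_zero)]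
  refine sumMod_congr fun a => ?_
  rw [syG.mul_left _ _ _ h1, syG.mul_left _ _ _ h2, map_mul, map_mul]; ring

/-- The phase `e(h/(3√-3)) = exp(2πi im(h)/3)`. -/
def ph (h : Eis) : ℂ := eC (toC h / (3 * toC sq3))

@[simp] lemma norm_ph (h : Eis) : ‖ph h‖ = 1 := norm_eC _







open Classical in
/-- The sum over primary residues modulo `3c`, `c` primary, with frequency `h/(3√-3 c)`. -/
lemma sumMod_prim {c : Eis} (hc : IsPrim c) {f : Eis → ℂ} (hf : PMod c f) (h : Eis) :
    sumMod (3 * c) (fun a => (if IsPrim a then f a else 0) *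
      eC (toC h * toC a / (toC sq3 * toC (3 * c)))) =
      ph h * sumMod c (fun a => f (3 * sq3 * a) * eC (toC h * toC a / toC c)) := by
  have h0 := hc.ne_zero
  have h3 := toC_ne_zero sq3_ne_zero
  have h4 := toC_ne_zero h0
  have h30 : (3 : Eis) ≠ 0 := three_ne_zero'
  have hprim : PMod (3 : Eis) (fun a => if IsPrim a then (1 : ℂ) else 0) := by
    intro x t
    have : IsPrim (x + 3 * t) ↔ IsPrim x := by
      unfold IsPrim
      have e : x + 3 * t - 1 = (x - 1) + 3 * t := by ring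
      rw [e]
      exact ⟨fun h => (dvd_add_left (dvd_mul_right _ _)).mp h,
        fun h => dvd_add h (dvd_mul_right _ _)⟩
    simp only [this]
  have hF : PMod (3 * c) (fun a => (if IsPrim a then f a else 0) *
      eC (toC h * toC a / (toC sq3 * toC (3 * c)))) := by
    refine PMod.mul ?_ (pmod_eC_sq3 h (3 * c) (mul_ne_zero h30 h0))
    have : (fun a => if IsPrim a then f a else 0) =
        fun a => (if IsPrim a then (1 : ℂ) else 0) * f a := by
      funext a; split_ifs <;> simp
    rw [this]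
    exact (hprim.mono (dvd_mul_right _ _)).mul (hf.mono (dvd_mul_left _ _))
  have hcop3 : IsCoprime (3 : Eis) c := hc.isCoprime_three.symm
  have key : ∀ x y : Eis, (if IsPrim (c * x + 3 * y) then f (c * x + 3 * y) else 0) *
      eC (toC h * toC (c * x + 3 * y) / (toC sq3 * toC (3 * c))) =
      ((if IsPrim x then (1 : ℂ) else 0) * eC (toC h * toC x / (toC sq3 * toC 3))) *
        (f (3 * y) * eC (toC h * toC y / (toC sq3 * toC c))) := by
    intro x y
    have hp : IsPrim (c * x + 3 * y) ↔ IsPrim x := by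
      unfold IsPrim
      obtain ⟨t, ht⟩ := hc
      have e : c * x + 3 * y - 1 = (x - 1) + 3 * (y + t * x) := by linear_combination x * ht
      rw [e]
      exact ⟨fun h => (dvd_add_left (dvd_mul_right _ _)).mp h,
        fun h => dvd_add h (dvd_mul_right _ _)⟩
    have e1 : f (c * x + 3 * y) = f (3 * y) := by rw [add_comm]; exact hf _ _
    have t3 : toC (3 : Eis) ≠ 0 := toC_ne_zero h30
    have e3 : toC h * toC (c * x + 3 * y) / (toC sq3 * toC (3 * c)) =
        toC h * toC x / (toC sq3 * toC 3) + toC h * toC y / (toC sq3 * toC c) := by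
      rw [map_add, map_mul, map_mul, map_mul]; field_simp
    rw [e3, eC_add]
    by_cases hx : IsPrim x
    · rw [if_pos (hp.mpr hx), if_pos hx, e1]; ring
    · rw [if_neg (fun h => hx (hp.mp h)), if_neg hx]; ring
  rw [sumMod_crt_mul h30 h0 _ hcop3 hF key]
  congr 1
  · -- the sum modulo 3 has the single term x = 1
    have hp3 : PMod (3 : Eis) (fun x => (if IsPrim x then (1 : ℂ) else 0) *
        eC (toC h * toC x / (toC sq3 * toC 3))) := hprim.mul (pmod_eC_sq3 h 3 h30)
    rw [sumMod_eq_sum (isCRS_crs h30) hp3]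
    obtain ⟨s, ⟨hs, hd⟩, hu⟩ := isCRS_crs h30 1
    have hsp : IsPrim s := by
      unfold IsPrim; rw [← neg_sub]; exact (dvd_neg.mpr hd)
    rw [Finset.sum_eq_single_of_mem s hs]
    · rw [if_pos hsp, one_mul]
      have := (pmod_eC_sq3 h 3 h30).congr (x := s) (y := 1) hsp
      beta_reduce at this
      rw [this, map_one, mul_one, map_ofNat]
      unfold ph
      rw [mul_comm (toC sq3)]
    · intro t ht hne
      rw [if_neg, zero_mul]
      intro htp
      apply hne
      apply hu t ⟨ht, ?_⟩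
      unfold IsPrim at htp
      rw [← neg_sub]; exact (dvd_neg.mpr htp)
  · have hf3 : PMod c (fun y => f (3 * y)) := hf.comp_mul 3
    rw [sumMod_sq3 hc hf3]
    exact sumMod_congr fun a => by rw [mul_assoc]




end Crest.Agent.R012.Tau671
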