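import Crest.Agent.R012.SpecMain_48
import Crest.Agent.R012.Spec_T_411
import Crest.Agent.R012.MV_400
import Crest.Agent.R012.SWBcore_994
import Crest.Agent.R012.PT_255_Mg
import Crest.Agent.R012.Spec_CR_290
import Crest.Agent.R012.LScount_448
import Crest.Agent.R012.TIIsharp_54
import Crest.Agent.R012.EdgeA_79
import Crest.Agent.R012.PC_355
import Crest.Agent.R012.GaussInst_880
import Mathlib
import Crest.Agent.R012.Tau_671

-- ▼ part R012/TIISpec_54
section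

/-!
# Row 12, item TIIS: the two inputs of the Type II assembly (helper54)

* `Supp w B β`  : support of `β`: all primes of norm `≥ w`, `B < N(b) ≤ 2B`
* `tw l X β h t`: `∑_T β_T ang l (b) N(b)^{it} (h/b)`, `b = prd T`, primes of norm `≤ X`
* `SWx_Prop`    : Siegel–Walfisz input (helper355, from SWB of helper994)
* `CRx_Prop`    : critical range input (helper852, from CRProd of helper290)
-/

set_option autoImplicit false

noncomputable section

open Complex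

namespace Crest.Agent.R012.TII54

open Crest.Agent.R012 Eis Buch420 Main48 MV400

/-- support condition -/
def Supp (w B : ℝ) (β : Finset PrP → ℂ) : Prop :=
  ∀ T, β T ≠ 0 → (∀ p ∈ T, w ≤ nm p.1) ∧ B < nm (prd T) ∧ (nm (prd T) : ℝ) ≤ 2 * B

/-- twisted sums of `β` -/
def tw (l : ℤ) (X : ℕ) (β : Finset PrP → ℂ) (h : Eis) (t : ℝ) : ℂ :=
  ∑ T ∈ (UX X).powerset, β T * ang l (prd T) * nit t (prd T) * sy h (prd T)

/-- **Siegel–Walfisz input** -/
def SWx_Prop : Prop := ∀ (l : ℤ) (K : ℝ), 0 < K → ∃ (C : ℝ) (X0 : ℕ), 0 < C ∧ ∀ X : ℕ, X0 ≤ X →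
  ∀ (B : ℝ) (β : Finset PrP → ℂ), 1 ≤ B → 2 * B ≤ X → SWc β → Supp (wX X) B β →
  ∀ h ∈ T411.NC (LX X ^ K), ∀ t : ℝ, |t| ≤ LX X ^ K → ‖tw l X β h t‖ ≤ C * B * LX X ^ (-K)

/-- **Critical range input**, uniform in `t`; the exponents do not depend on `l`. -/
def CRx_Prop : Prop := ∃ e0 d η : ℝ, 0 < e0 ∧ e0 ≤ 1 / 10 ∧ 2 * e0 ≤ d ∧ 0 < η ∧
  ∀ l : ℤ, ∃ (C : ℝ) (X0 : ℕ), 0 < C ∧ ∀ X : ℕ, X0 ≤ X →
  ∀ (B : ℝ) (β : Finset PrP → ℂ), (X : ℝ) ^ (1 / 2 - η) ≤ B → B ≤ (X : ℝ) ^ (1 / 2 + η) →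
  SWc β → (∀ T, β T ≠ 0 → 2 ≤ T.card) → Supp ((X : ℝ) ^ (0.06 : ℝ)) B β →
  ∀ t : ℝ, ∑ q ∈ T411.Ker (B ^ (1 + e0)), ‖tw l X β (T411.kv q) t‖ ^ 2 ≤
    C * B ^ ((7 : ℝ) / 3 - d)

end Crest.Agent.R012.TII54
end
end

-- ▼ part R012/SWB_994
section

/-!
# Row 12, item SWB (helper994): Siegel–Walfisz for coefficients of class `Main48.SWc`

`SWB_disj`, `SWB` : for `β` of class `SWc`, supported on nonempty sets of primary primes of norm
`≥ w`, `log X ≤ (log w)²`, `h` not a cube (or `l ≠ 0`), `nm h, |t|, log nm k ≤ (log X)^C`, `n ≤ X`: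

`|∑_{nm b ≤ n, (b, k) = 1} β_b (h/b) ang l b nm(b)^{it}| ≤ K n / (log X)^A`.
-/

set_option autoImplicit false

noncomputable section

open Complex

namespace Crest.Agent.R012.SWB994

open Crest.Agent.R012 Eis Buch420 PSer47

lemma ClsB.of_SWc {w : ℝ} {β : Finset PrP → ℂ} (h : Main48.SWc β)
    (hs : ∀ T, β T ≠ 0 → T.Nonempty ∧ ∀ p ∈ T, w ≤ (nm p.1 : ℝ)) : ClsB w β where
  empty := by
    by_contra hc
    exact Finset.not_nonempty_empty (hs _ hc).1
  rough T hT := (hs T hT).2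
  ex := h.int

/-- A completely multiplicative function on `prd T`. -/
lemma prod_char {ψ : Eis → ℂ} (h : IsChar ψ) (T : Finset PrP) : ∏ p ∈ T, ψ p.1 = ψ (prd T) := by
  classical
  induction T using Finset.induction_on with
  | empty => simp [h.one]
  | insert p T hp ih =>
    rw [Finset.prod_insert hp, prd_insert hp, h.mul _ _ p.isPrim (isPrim_prd T), ih]

open Classical in
lemma sum_UX (f : Eis → ℂ) (m : ℕ) :
    ∑ p ∈ UX m, f p.1 = ∑ p ∈ (primBall m).filter (fun p => Prime p), f p := by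
  have h1 : (UX m).image (fun p : PrP => p.1) = (primBall m).filter (fun p => Prime p) := by
    ext z
    rw [Finset.mem_image, Finset.mem_filter, mem_primBall]
    constructor
    · rintro ⟨p, hp, rfl⟩
      exact ⟨⟨mem_UX.mp hp, p.isPrim⟩, p.prime⟩
    · rintro ⟨⟨h1, h2⟩, h3⟩
      exact ⟨⟨z, h2, h3⟩, mem_UX.mpr h1, rfl⟩
  rw [← h1]
  exact (Finset.sum_image (f := f) (g := fun p : PrP => p.1) (s := UX m)
    (fun a _ b _ h => Subtype.ext h)).symm



/-- `x^(2 N) ≤ (2N)! e^x` in the form needed -/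
lemma pow_le_exp {L v : ℝ} (hL : 0 ≤ L) (hv : 0 ≤ v) (h : L ≤ v ^ 2) (N : ℕ) :
    L ^ N ≤ (2 * N).factorial * Real.exp v := by
  have h1 : L ^ N ≤ v ^ (2 * N) := by
    rw [pow_mul]
    exact pow_le_pow_left₀ hL h N
  have h2 := Real.pow_div_factorial_le_exp v hv (2 * N)
  rw [div_le_iff₀ (by positivity)] at h2
  linarith

set_option maxHeartbeats 1600000 in
/-- **Siegel–Walfisz for the class `SWc`**, coprimality to a set `K` of primes. -/
theorem SWB_disj (l : ℤ) (A C : ℕ) : ∃ K : ℝ, 0 < K ∧ ∀ (X w : ℝ) (β : Finset PrP → ℂ),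
    2 ≤ X → 1 ≤ w → Real.log X ≤ Real.log w ^ 2 → Main48.SWc β →
    (∀ T, β T ≠ 0 → T.Nonempty ∧ ∀ p ∈ T, w ≤ (nm p.1 : ℝ)) →
    ∀ (h : Eis) (Kp : Finset PrP) (t : ℝ) (n : ℕ), h ≠ 0 → (l = 0 → ¬ ∃ e, h = e ^ 3) →
      (nm h : ℝ) ≤ Real.log X ^ C → (Kp.card : ℝ) ≤ Real.log X ^ C → |t| ≤ Real.log X ^ C →
      (n : ℝ) ≤ X →
      ‖∑ T ∈ (TB n).filter (fun T => Disjoint T Kp),
        β T * (sy h (prd T) * ang l (prd T) * (nm (prd T) : ℂ) ^ ((t : ℂ) * I))‖ ≤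
        K * n / Real.log X ^ A := by
  obtain ⟨K0, hK0, hSW⟩ := P355.SW_sy_of_PT PT255.PT l (3 * (A + 2)) (3 * C)
  set K : ℝ := 12 * 64 ^ A + 2 * K0 * Real.exp 75 + 12 * (2 * (A + C)).factorial +
    24 * 77 * (2 * (A + 1)).factorial with hK
  refine ⟨K, by positivity, ?_⟩
  intro X w β hX hw hXw hβ hsupp h Kp t n h0 hh hhX hKp ht hnX
  set L := Real.log X with hL
  have hL0 : 0 < L := Real.log_pos (by linarith)
  set ψ : Eis → ℂ := fun b => sy h b * ang l b * (nm b : ℂ) ^ ((t : ℂ) * I) with hψ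
  have hchar : IsChar ψ := ((P355.isChar_sy h).mul' (ang_isChar l)).mul' (nmTwist_isChar t)
  have hcls : ClsB w β := ClsB.of_SWc hβ hsupp
  have hrew : ∑ T ∈ (TB n).filter (fun T => Disjoint T Kp),
        β T * (sy h (prd T) * ang l (prd T) * (nm (prd T) : ℂ) ^ ((t : ℂ) * I)) =
      ∑ T ∈ (TB n).filter (fun T => Disjoint T Kp), β T * ∏ p ∈ T, ψ p.1 := by
    refine Finset.sum_congr rfl fun T _ => ?_
    rw [prod_char hchar]
  rw [hrew]
  have hψ1 : ∀ p : PrP, ‖ψ p.1‖ ≤ 1 := fun p => hchar.norm_le p.isPrim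
  rcases lt_or_ge L 64 with hsm | hlg
  · -- trivial bound
    have h1 : ‖∑ T ∈ (TB n).filter (fun T => Disjoint T Kp), β T * ∏ p ∈ T, ψ p.1‖ ≤
        ((TB n).filter (fun T => Disjoint T Kp)).card := by
      refine (norm_sum_le_of_le _ (n := fun _ => 1) ?_).trans (by simp)
      intro T _
      rw [prod_char hchar, norm_mul]
      calc ‖β T‖ * ‖ψ (prd T)‖ ≤ 1 * 1 := by
            gcongr
            · exact hcls.norm_le T
            · exact hchar.norm_le (isPrim_prd T)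
        _ = 1 := by norm_num
    have h2 : (((TB n).filter (fun T => Disjoint T Kp)).card : ℝ) ≤ 12 * n / 1 := by
      refine card_le _ n one_pos fun T hT => ?_
      rw [Finset.mem_filter, mem_TB] at hT
      rw [mul_one]
      exact_mod_cast hT.1
    rw [div_one] at h2
    refine (h1.trans h2).trans ?_
    rw [le_div_iff₀ (by positivity)]
    have h3 : L ^ A ≤ 64 ^ A := pow_le_pow_left₀ hL0.le hsm.le A
    have h4 : 12 * 64 ^ A ≤ K := by
      rw [hK]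
      have : 0 ≤ 2 * K0 * Real.exp 75 + 12 * (2 * (A + C)).factorial +
        24 * 77 * (2 * (A + 1)).factorial := by positivity
      linarith
    calc 12 * (n : ℝ) * L ^ A ≤ 12 * n * 64 ^ A := by gcongr
      _ = 12 * 64 ^ A * n := by ring
      _ ≤ K * n := by gcongr
  · -- main case
    set v := Real.log w with hv
    have hv0 : 0 ≤ v := Real.log_nonneg hw
    have hv8 : 8 ≤ v := by nlinarith
    have hw0 : 0 < w := by linarith
    have hwexp : Real.exp v = w := Real.exp_log hw0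
    have hv3 : v ^ 2 ≤ (v / 2) ^ 3 := by
      have : (v / 2) ^ 3 - v ^ 2 = v ^ 2 * (v - 8) / 8 := by ring
      have h1 : 0 ≤ v ^ 2 * (v - 8) / 8 := by
        have : 0 ≤ v - 8 := by linarith
        positivity
      linarith
    have hL3 : L ≤ (v / 2) ^ 3 := hXw.trans hv3
    have hw2 : 2 ≤ w := by
      rw [← hwexp]
      have := Real.add_one_le_exp v
      linarith
    have hS : ∀ m : ℕ, w ≤ (m : ℝ) + 1 → m ≤ n →
        ‖∑ p ∈ UX m, ψ p.1‖ ≤ K0 / L ^ (A + 2) * m := by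
      intro m hm hmn
      have hm1 : w / 2 ≤ m := by linarith
      have hlogm : v / 2 ≤ Real.log m := by
        have h1 : Real.log (w / 2) ≤ Real.log m := Real.log_le_log (by linarith) hm1
        rw [Real.log_div hw0.ne' (by norm_num)] at h1
        have h2 := Real.log_two_lt_d9
        rw [← hv] at h1
        linarith
      have hlogm3 : L ≤ Real.log m ^ 3 := hL3.trans (pow_le_pow_left₀ (by linarith) hlogm 3)
      have hm2 : (2 : ℝ) ≤ m := by
        have h9 : (9 : ℝ) ≤ w := by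
          rw [← hwexp]
          have := Real.add_one_le_exp v
          linarith
        linarith
      have hLC : L ^ C ≤ Real.log m ^ (3 * C) := by
        rw [pow_mul]
        exact pow_le_pow_left₀ hL0.le hlogm3 C
      have hLA : L ^ (A + 2) ≤ Real.log m ^ (3 * (A + 2)) := by
        rw [pow_mul]
        exact pow_le_pow_left₀ hL0.le hlogm3 (A + 2)
      have h5 := hSW h h0 hh m t hm2 (hhX.trans hLC) (ht.trans hLC)
      rw [Nat.floor_natCast] at h5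
      rw [sum_UX ψ m]
      refine h5.trans ?_
      rw [div_mul_eq_mul_div]
      exact div_le_div_of_nonneg_left (by positivity) (by positivity) hLA
    have hδ0 : 0 ≤ K0 / L ^ (A + 2) := by positivity
    refine (core hw hcls hψ1 hδ0 hS Kp).trans ?_
    have hXU : ∀ p ∈ UX n, (nm p.1 : ℝ) ≤ X := by
      intro p hp
      rw [mem_UX] at hp
      exact le_trans (by exact_mod_cast hp) hnX
    have hL1 : 1 ≤ L := by linarith
    have hlogL : Real.log L ≤ L := by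
      have := Real.log_le_sub_one_of_pos hL0
      linarith
    have b1 : ∑ T ∈ (UX n).powerset, 1 / (nm (prd T) : ℝ) ≤ Real.exp 75 * L ^ 2 := by
      have h1 := Dens420.sum_omega_div (c := 1) zero_le_one hX (UX n).powerset (by
        intro T hT p hp
        exact hXU p (Finset.mem_powerset.mp hT hp))
      simp only [one_pow, one_mul] at h1
      refine h1.trans ?_
      rw [Real.exp_add, ← hL]
      have : Real.exp (2 * Real.log L) = L ^ 2 := by
        rw [mul_comm, Real.exp_mul, Real.exp_log hL0]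
        norm_num
      rw [this, mul_comm]
    have b2 : ∑ p ∈ UX n, 1 / (nm p.1 : ℝ) ≤ 77 * L := by
      have h1 := Dens420.sum_inv_le' (UX n) hX hXU
      rw [← hL] at h1
      linarith
    have e1 := pow_le_exp hL0.le hv0 hXw (A + C)
    have e2 := pow_le_exp hL0.le hv0 hXw (A + 1)
    rw [hwexp] at e1 e2
    have hLA0 : 0 < L ^ A := by positivity
    have T1 : 2 * (K0 / L ^ (A + 2)) * n * (∑ T ∈ (UX n).powerset, 1 / (nm (prd T) : ℝ)) ≤
        2 * K0 * Real.exp 75 * n / L ^ A := by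
      calc 2 * (K0 / L ^ (A + 2)) * n * (∑ T ∈ (UX n).powerset, 1 / (nm (prd T) : ℝ)) ≤
          2 * (K0 / L ^ (A + 2)) * n * (Real.exp 75 * L ^ 2) := by gcongr
        _ = 2 * K0 * Real.exp 75 * n / L ^ A := by
          rw [pow_add]
          field_simp
    have T2 : 12 * n * (Kp.card : ℝ) / w ≤ 12 * (2 * (A + C)).factorial * n / L ^ A := by
      rw [div_le_div_iff₀ hw0 hLA0]
      calc 12 * n * (Kp.card : ℝ) * L ^ A ≤ 12 * n * L ^ C * L ^ A := by gcongr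
        _ = 12 * n * L ^ (A + C) := by rw [pow_add]; ring
        _ ≤ 12 * n * ((2 * (A + C)).factorial * w) := by gcongr
        _ = 12 * (2 * (A + C)).factorial * n * w := by ring
    have T3 : 24 * n / w * (∑ p ∈ UX n, 1 / (nm p.1 : ℝ)) ≤
        24 * 77 * (2 * (A + 1)).factorial * n / L ^ A := by
      calc 24 * n / w * (∑ p ∈ UX n, 1 / (nm p.1 : ℝ)) ≤ 24 * n / w * (77 * L) := by gcongr
        _ = (24 * n * (77 * L)) / w := by ring
        _ ≤ _ := by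
          rw [div_le_div_iff₀ hw0 hLA0]
          calc 24 * n * (77 * L) * L ^ A = 24 * 77 * n * L ^ (A + 1) := by ring
            _ ≤ 24 * 77 * n * ((2 * (A + 1)).factorial * w) := by gcongr
            _ = 24 * 77 * (2 * (A + 1)).factorial * n * w := by ring
    have hfin : 2 * K0 * Real.exp 75 * n / L ^ A + 12 * (2 * (A + C)).factorial * n / L ^ A +
        24 * 77 * (2 * (A + 1)).factorial * n / L ^ A ≤ K * n / L ^ A := by
      rw [← add_div, ← add_div]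
      refine div_le_div_of_nonneg_right ?_ hLA0.le
      rw [hK]
      have : (0 : ℝ) ≤ 12 * 64 ^ A * n := by positivity
      nlinarith
    linarith


end Crest.Agent.R012.SWB994
end
end

-- ▼ part R012/SWx_355
section

/-!
# Row 12, item TIIS: the Siegel–Walfisz input `TII54.SWx_Prop` (helper355, from SWB_994)
-/

set_option autoImplicit false

noncomputable section

open Complex

namespace Crest.Agent.R012.SWx355

open Crest.Agent.R012 Eis Buch420 Main48 MV400 TII54 SWB994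

lemma rpow_le_pow_ceil {L K : ℝ} (hL : 1 ≤ L) : L ^ K ≤ L ^ ⌈K⌉₊ := by
  rw [← Real.rpow_natCast]
  exact Real.rpow_le_rpow_of_exponent_le hL (Nat.le_ceil K)

/-- **Siegel–Walfisz input of the Type II assembly.** -/
theorem SWx : SWx_Prop := by
  classical
  intro l K hK
  obtain ⟨D, hD, hSW⟩ := SWB_disj l ⌈K⌉₊ ⌈K⌉₊
  refine ⟨2 * D, 3, by positivity, ?_⟩
  intro X hX B β hB hBX hβ hsupp h hh t ht
  have hX3 : (3 : ℝ) ≤ X := by exact_mod_cast hX
  have hL1 : 1 ≤ LX X := by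
    unfold LX
    rw [Real.le_log_iff_exp_le (by linarith)]
    have := Real.exp_one_lt_d9
    linarith
  have hL0 : 0 < LX X := by linarith
  have hpow : LX X ^ K ≤ LX X ^ ⌈K⌉₊ := rpow_le_pow_ceil hL1
  -- the support
  have hne : ∀ T, β T ≠ 0 → T.Nonempty ∧ ∀ p ∈ T, wX X ≤ (nm p.1 : ℝ) := by
    intro T hT
    obtain ⟨h1, h2, h3⟩ := hsupp T hT
    refine ⟨?_, h1⟩
    rw [Finset.nonempty_iff_ne_empty]
    rintro rfl
    rw [prd_empty, nm_one] at h2
    push_cast at h2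
    linarith
  have hw1 : 1 ≤ wX X := by
    unfold wX
    apply Real.one_le_exp
    exact Real.rpow_nonneg (by unfold LX at hL0; exact hL0.le) _
  have hlw : Real.log X ≤ Real.log (wX X) ^ 2 := by
    unfold wX
    rw [Real.log_exp, ← Real.rpow_natCast, ← Real.rpow_mul (by unfold LX at hL0; exact hL0.le)]
    have h1 : 1 ≤ Real.log X := hL1
    calc Real.log X = Real.log X ^ (1 : ℝ) := (Real.rpow_one _).symm
      _ ≤ Real.log X ^ ((2 : ℝ) / 3 * (2 : ℕ)) :=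
          Real.rpow_le_rpow_of_exponent_le h1 (by norm_num)
  unfold T411.NC at hh
  rw [Finset.mem_filter] at hh
  obtain ⟨hh1, hh2, hh3⟩ := hh
  have hnm : (nm h : ℝ) ≤ LX X ^ K := by
    exact ((LS2.mem_bl (Real.rpow_nonneg hL0.le K)).mp hh1).2
  have hn : ((⌊2 * B⌋₊ : ℕ) : ℝ) ≤ 2 * B := Nat.floor_le (by linarith)
  have hmain := hSW X (wX X) β (by linarith) hw1 hlw hβ hne h ∅ t ⌊2 * B⌋₊ hh2
    (fun _ => by rintro ⟨e, he⟩; exact hh3 e he) (hnm.trans hpow)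
    (by simp only [Finset.card_empty, Nat.cast_zero]; positivity) (ht.trans hpow)
    (hn.trans hBX)
  -- the two sums agree
  have hsum : tw l X β h t = ∑ T ∈ (TB ⌊2 * B⌋₊).filter (fun T => Disjoint T ∅),
      β T * (sy h (prd T) * ang l (prd T) * (nm (prd T) : ℂ) ^ ((t : ℂ) * I)) := by
    unfold tw
    symm
    have hsub : (TB ⌊2 * B⌋₊).filter (fun T => Disjoint T ∅) ⊆ (UX X).powerset := by
      intro T hT
      rw [Finset.mem_filter] at hT
      unfold TB at hT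
      rw [Finset.mem_filter, Finset.mem_powerset] at hT
      rw [Finset.mem_powerset]
      intro p hp
      rw [mem_UX]
      have h1 := mem_UX.mp (hT.1.1 hp)
      have h2 : ⌊2 * B⌋₊ ≤ X := by exact_mod_cast hn.trans hBX
      omega
    rw [← Finset.sum_subset hsub]
    · refine Finset.sum_congr rfl fun T _ => ?_
      unfold nit
      ring
    · intro T hT hT2
      have : β T = 0 := by
        by_contra hne0
        apply hT2
        obtain ⟨h1, h2, h3⟩ := hsupp T hne0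
        have h4 : nm (prd T) ≤ ⌊2 * B⌋₊ := Nat.le_floor h3
        rw [Finset.mem_filter]
        refine ⟨?_, by simp⟩
        unfold TB
        rw [Finset.mem_filter, Finset.mem_powerset]
        refine ⟨?_, h4⟩
        intro p hp
        rw [mem_UX]
        exact (nm_le_of_mem hp).trans h4
      rw [this]
      simp
  rw [hsum]
  refine hmain.trans ?_
  have hneg : LX X ^ (-K) = (LX X ^ K)⁻¹ := Real.rpow_neg hL0.le K
  rw [hneg]
  have hKpos : 0 < LX X ^ K := Real.rpow_pos_of_pos hL0 K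
  have e1 : D * (⌊2 * B⌋₊ : ℝ) / Real.log X ^ ⌈K⌉₊ ≤ D * (2 * B) / LX X ^ K := by
    have : LX X ^ K ≤ Real.log X ^ ⌈K⌉₊ := hpow
    gcongr
  refine e1.trans (le_of_eq ?_)
  field_simp

end Crest.Agent.R012.SWx355
end
end

-- ▼ part R012/CRbeta_852
section

/-!
# Row 12, (CR): `CRProd` for coefficients in the class `SWc` (helper852)

`crbeta : CRProd → ...` : for `β` in the Siegel–Walfisz class `Main48.SWc`, supported on products of
at least two primes `≥ X^0.06`, of norm in `(B, 2B]`, `X^0.45 ≤ B ≤ X^0.55`, and any multiplicative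
twist `θ` with `|θ| ≤ 1` (uniformly),
`∑_{y ∈ S} |∑_T β_T θ(prd T) (num y / prd T)|^2 ≤ K (2B)^(7/3-δ)` for `S` a set of cubefree
numerators of norm `≤ (2B)^(1+δ)`.
-/

set_option autoImplicit false

noncomputable section

open Complex Finset

namespace Crest.Agent.R012.CRbeta852

open Crest.Agent.R012 Eis Buch420 CR290

/-- sums over subsets: split off the largest element -/
lemma sum_max {A : Type*} [LinearOrder A] (U : Finset A) (f : Finset A → ℂ) (h0 : f ∅ = 0) :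
    ∑ T ∈ U.powerset, f T =
      ∑ T ∈ U.powerset, ∑ p ∈ U.filter (fun p => ∀ q ∈ T, q < p), f (insert p T) := by
  have h1 : ∑ T ∈ U.powerset, f T = ∑ T ∈ U.powerset.filter (fun T => T.Nonempty), f T := by
    rw [Finset.sum_filter]
    refine Finset.sum_congr rfl fun T _ => ?_
    split_ifs with h
    · rfl
    · rw [Finset.not_nonempty_iff_eq_empty.mp h, h0]
  rw [h1, Finset.sum_sigma']
  symm
  refine Finset.sum_bij (fun x _ => insert x.2 x.1) ?_ ?_ ?_ ?_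
  · intro x hx
    rw [Finset.mem_sigma, Finset.mem_powerset, Finset.mem_filter] at hx
    rw [Finset.mem_filter, Finset.mem_powerset]
    exact ⟨Finset.insert_subset hx.2.1 hx.1, Finset.insert_nonempty _ _⟩
  · rintro ⟨T, p⟩ hx ⟨T', p'⟩ hx' h
    rw [Finset.mem_sigma, Finset.mem_powerset, Finset.mem_filter] at hx hx'
    simp only at hx hx' h
    have hpp : p = p' := by
      refine le_antisymm ?_ ?_
      · have : p ∈ insert p' T' := by rw [← h]; exact Finset.mem_insert_self _ _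
        rcases Finset.mem_insert.mp this with h2 | h2
        · exact h2.le
        · exact (hx'.2.2 p h2).le
      · have : p' ∈ insert p T := by rw [h]; exact Finset.mem_insert_self _ _
        rcases Finset.mem_insert.mp this with h2 | h2
        · exact h2.le
        · exact (hx.2.2 p' h2).le
    subst hpp
    have hT : p ∉ T := fun hc => lt_irrefl _ (hx.2.2 p hc)
    have hT' : p ∉ T' := fun hc => lt_irrefl _ (hx'.2.2 p hc)
    have : T = T' := by
      rw [← Finset.erase_insert hT, ← Finset.erase_insert hT', h]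
    subst this
    rfl
  · intro T hT
    rw [Finset.mem_filter, Finset.mem_powerset] at hT
    obtain ⟨hTU, hne⟩ := hT
    refine ⟨⟨T.erase (T.max' hne), T.max' hne⟩, ?_, ?_⟩
    · rw [Finset.mem_sigma, Finset.mem_powerset, Finset.mem_filter]
      refine ⟨(Finset.erase_subset _ _).trans hTU, hTU (Finset.max'_mem T hne), ?_⟩
      intro q hq
      simp only at hq ⊢
      rw [Finset.mem_erase] at hq
      exact lt_of_le_of_ne (Finset.le_max' _ _ hq.2) hq.1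
    · exact Finset.insert_erase (Finset.max'_mem T hne)
  · intro x _
    rfl

/-- rank in a finite set -/
def rk {A : Type*} [LinearOrder A] (U : Finset A) (p : A) : ℕ := (U.filter (fun q => q < p)).card

lemma rk_lt_iff {A : Type*} [LinearOrder A] (U L : Finset A)
    (hL : ∀ q ∈ U, ∀ r ∈ L, q ≤ r → q ∈ L) (hLU : L ⊆ U) {p : A} (hp : p ∈ U) :
    rk U p < L.card ↔ p ∈ L := by
  constructor
  · intro h
    by_contra hc
    have : L ⊆ U.filter (fun q => q < p) := by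
      intro r hr
      rw [Finset.mem_filter]
      refine ⟨hLU hr, ?_⟩
      by_contra h2
      exact hc (hL p hp r hr (not_lt.mp h2))
    exact absurd h (not_lt.mpr (Finset.card_le_card this))
  · intro h
    have : U.filter (fun q => q < p) ⊂ L := by
      rw [Finset.ssubset_iff_of_subset]
      · exact ⟨p, h, by simp⟩
      · intro q hq
        rw [Finset.mem_filter] at hq
        exact hL q hq.1 p h hq.2.le
    exact Finset.card_lt_card this

lemma rk_lt_card {A : Type*} [LinearOrder A] (U : Finset A) {p : A} (hp : p ∈ U) :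
    rk U p < U.card := (rk_lt_iff U U (fun _ hq _ _ _ => hq) (Finset.Subset.refl _) hp).mpr hp

lemma rk_le_card {A : Type*} [LinearOrder A] (U : Finset A) (p : A) :
    rk U p ≤ U.card := Finset.card_le_card (Finset.filter_subset _ _)

/-- the underlying element -/
def pv (p : PrP) : Eis := p.1

lemma pv_inj : Function.Injective pv := fun _ _ h => Subtype.ext h

open Classical in
/-- rank of an element of `Eis` among the primes of `U` -/
def ph1 (U : Finset PrP) (x : Eis) : ℕ := if h : IsPrim x ∧ Prime x then rk U ⟨x, h⟩ else 0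

/-- reversed rank -/
def ph2 (U : Finset PrP) (x : Eis) : ℕ := U.card - ph1 U x

/-- number of primes below the upper limit -/
def ps1 (U : Finset PrP) (hi : Finset PrP → ℕ) (d : Eis) : ℕ :=
  (U.filter (fun q => nm q.1 < hi (pset d))).card

/-- primes excluded by the lower conditions -/
def LL (U : Finset PrP) (lo : Finset PrP → ℕ) (T : Finset PrP) : Finset PrP :=
  U.filter (fun q => nm q.1 < lo T ∨ ∃ r ∈ T, q ≤ r)

lemma mem_LL {U : Finset PrP} {lo : Finset PrP → ℕ} {T : Finset PrP} {p : PrP} :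
    p ∈ LL U lo T ↔ p ∈ U ∧ (nm p.1 < lo T ∨ ∃ r ∈ T, p ≤ r) := Finset.mem_filter

/-- reversed number of the primes excluded by the lower conditions -/
def ps2 (U : Finset PrP) (lo : Finset PrP → ℕ) (d : Eis) : ℕ :=
  U.card + 1 - (LL U lo (pset d)).card

lemma ph1_coe (U : Finset PrP) (p : PrP) : ph1 U p.1 = rk U p := by
  unfold ph1; rw [dif_pos p.2]; rfl

lemma ph1_le (U : Finset PrP) (x : Eis) : ph1 U x ≤ U.card := by
  unfold ph1
  split_ifs with h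
  · exact rk_le_card _ _
  · exact Nat.zero_le _

lemma cond_iff (U : Finset PrP) (lo hi : Finset PrP → ℕ) (T : Finset PrP) {p : PrP} (hp : p ∈ U) :
    (ph1 U p.1 < ps1 U hi (prd T) ∧ ph2 U p.1 < ps2 U lo (prd T)) ↔
      ((∀ q ∈ T, q < p) ∧ (lo T ≤ nm p.1 ∧ nm p.1 < hi T)) := by
  have h1 : ph1 U p.1 < ps1 U hi (prd T) ↔ nm p.1 < hi T := by
    unfold ps1
    rw [ph1_coe, pset_prd, rk_lt_iff U _ ?_ (Finset.filter_subset _ _) hp]
    · rw [Finset.mem_filter]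
      exact ⟨fun h => h.2, fun h => ⟨hp, h⟩⟩
    · intro q hq r hr hqr
      rw [Finset.mem_filter] at hr ⊢
      exact ⟨hq, lt_of_le_of_lt (PrP.nm_le_of_le hqr) hr.2⟩
  have h2 : ph2 U p.1 < ps2 U lo (prd T) ↔ ¬ (nm p.1 < lo T ∨ ∃ r ∈ T, p ≤ r) := by
    have h3 : rk U p < (LL U lo T).card ↔ p ∈ LL U lo T := by
      refine rk_lt_iff U (LL U lo T) ?_ (Finset.filter_subset _ _) hp
      intro q hq r hr hqr
      refine mem_LL.mpr ⟨hq, ?_⟩
      rcases (mem_LL.mp hr).2 with h | ⟨s, hs, h⟩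
      · exact Or.inl (lt_of_le_of_lt (PrP.nm_le_of_le hqr) h)
      · exact Or.inr ⟨s, hs, hqr.trans h⟩
    have h4 : p ∈ LL U lo T ↔ (nm p.1 < lo T ∨ ∃ r ∈ T, p ≤ r) := by
      rw [mem_LL]
      exact ⟨fun h => h.2, fun h => ⟨hp, h⟩⟩
    rw [← h4, ← h3]
    unfold ph2 ps2
    rw [ph1_coe, pset_prd]
    have h5 := rk_lt_card U hp
    have h6 : (LL U lo T).card ≤ U.card := Finset.card_le_card (Finset.filter_subset _ _)
    omega
  rw [h1, h2]
  push Not
  tauto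

open Classical in
lemma sum_identity (U P : Finset PrP) (β c : Finset PrP → ℂ) (lo hi : Finset PrP → ℕ)
    (hint : ∀ (T : Finset PrP) (p : PrP), (∀ q ∈ T, q < p) →
      β (insert p T) = if lo T ≤ nm p.1 ∧ nm p.1 < hi T then c T else 0)
    (h0 : β ∅ = 0) (hPU : P ⊆ U)
    (hr : ∀ T ∈ U.powerset, ∀ p ∈ U, (∀ q ∈ T, q < p) → β (insert p T) ≠ 0 → T.Nonempty ∧ p ∈ P)
    (θ : Eis → ℂ) (hθ : ∀ a b, IsPrim a → IsPrim b → θ (a * b) = θ a * θ b) (s : Eis → ℂ) :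
    ∑ T ∈ U.powerset, β T * θ (prd T) * s (prd T) =
      ∑ x ∈ P.image pv, ∑ d ∈ (U.powerset.filter
          (fun T => T.Nonempty ∧ c T ≠ 0)).image prd,
        (if ph1 U x < ps1 U hi d ∧ ph2 U x < ps2 U lo d then (1 : ℂ) else 0) *
          (θ x * (c (pset d) * θ d) * s (x * d)) := by
  rw [sum_max U (fun T => β T * θ (prd T) * s (prd T)) (by simp [h0])]
  rw [Finset.sum_image (fun a _ b _ h => pv_inj h)]
  have h1 : ∀ p ∈ P, ∑ d ∈ (U.powerset.filter
          (fun T => T.Nonempty ∧ c T ≠ 0)).image prd,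
        (if ph1 U (pv p) < ps1 U hi d ∧ ph2 U (pv p) < ps2 U lo d then (1 : ℂ) else 0) *
          (θ (pv p) * (c (pset d) * θ d) * s (pv p * d)) =
      ∑ T ∈ U.powerset.filter (fun T => T.Nonempty ∧ c T ≠ 0),
        (if (∀ q ∈ T, q < p) ∧ (lo T ≤ nm p.1 ∧ nm p.1 < hi T) then (1 : ℂ) else 0) *
          (θ p.1 * (c T * θ (prd T)) * s (p.1 * prd T)) := by
    intro p hp
    rw [Finset.sum_image (fun a _ b _ h => prd_injective h)]
    refine Finset.sum_congr rfl fun T _ => ?_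
    have h2 := cond_iff U lo hi T (hPU hp)
    rw [pset_prd]
    simp only [pv, h2]
  rw [Finset.sum_congr rfl h1, Finset.sum_comm]
  symm
  refine Finset.sum_subset_zero_on_sdiff (Finset.filter_subset _ _) ?_ ?_
  · intro T hT
    rw [Finset.mem_sdiff, Finset.mem_filter] at hT
    refine Finset.sum_eq_zero fun p hp => ?_
    rw [Finset.mem_filter] at hp
    by_cases hβ : β (insert p T) = 0
    · rw [hβ]; ring
    · exfalso
      have h2 := hr T hT.1 p hp.1 hp.2 hβ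
      rw [hint T p hp.2] at hβ
      refine hT.2 ⟨hT.1, h2.1, ?_⟩
      intro hc
      apply hβ
      rw [hc]; simp
  · intro T hT
    rw [Finset.mem_filter] at hT
    rw [Finset.sum_filter]
    refine Finset.sum_subset_zero_on_sdiff hPU ?_ ?_
    · intro p hp
      rw [Finset.mem_sdiff] at hp
      split_ifs with h
      · by_cases hβ : β (insert p T) = 0
        · rw [hβ]; ring
        · exact absurd (hr T hT.1 p hp.1 h hβ).2 hp.2
      · rfl
    · intro p _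
      by_cases h : ∀ q ∈ T, q < p
      · rw [if_pos h, hint T p h]
        have hpT : p ∉ T := fun hc => lt_irrefl _ (h p hc)
        rw [prd_insert hpT, hθ _ _ p.isPrim (isPrim_prd T)]
        by_cases h2 : lo T ≤ nm p.1 ∧ nm p.1 < hi T
        · rw [if_pos h2, if_pos ⟨h, h2⟩]; ring
        · rw [if_neg h2, if_neg (fun hc => h2 hc.2)]; ring
      · rw [if_neg h, if_neg (fun hc => h hc.1)]; ring

lemma card_UX_le {X : ℕ} (hX : 1 ≤ X) : (UX X).card ≤ 16 * X := by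
  classical
  refine le_trans ?_ (LS448.card_ball_le hX)
  have h : (UX X).card = ((UX X).image pv).card :=
    (Finset.card_image_of_injective _ pv_inj).symm
  rw [h]
  refine Finset.card_le_card ?_
  intro x hx
  rw [Finset.mem_image] at hx
  obtain ⟨p, hp, rfl⟩ := hx
  exact mem_ball.mpr (mem_UX.mp hp)

lemma rng {x B : ℝ} (hx : 2 ^ 20 ≤ x) (hB1 : x ^ (0.45 : ℝ) ≤ B) (hB2 : B ≤ x ^ (0.55 : ℝ)) :
    1 ≤ B ∧ (2 * B) ^ (0.1 : ℝ) ≤ x ^ (0.06 : ℝ) ∧ 16 * x + 1 ≤ (2 * B) ^ 3 := by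
  have hx1 : (1 : ℝ) ≤ x := le_trans (by norm_num) hx
  have hx0 : 0 < x := by linarith
  have hB : 1 ≤ B := le_trans (Real.one_le_rpow hx1 (by norm_num)) hB1
  have key : ∀ (a b : ℝ), 0 ≤ a → 20 * a = b → (2 : ℝ) ^ b ≤ x ^ a := by
    intro a b ha hab
    rw [← hab, Real.rpow_mul (by norm_num)]
    refine Real.rpow_le_rpow (by positivity) ?_ ha
    refine le_trans (le_of_eq ?_) hx
    rw [← Real.rpow_natCast]; norm_num
  refine ⟨hB, ?_, ?_⟩
  · have h1 : (2 * B) ^ (0.1 : ℝ) ≤ (2 * x ^ (0.55 : ℝ)) ^ (0.1 : ℝ) :=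
      Real.rpow_le_rpow (by linarith) (by linarith) (by norm_num)
    refine h1.trans ?_
    rw [Real.mul_rpow (by norm_num) (by positivity), ← Real.rpow_mul hx0.le]
    have h2 : x ^ (0.06 : ℝ) = x ^ (0.005 : ℝ) * x ^ ((0.55 : ℝ) * 0.1) := by
      rw [← Real.rpow_add hx0]; norm_num
    rw [h2]
    exact mul_le_mul_of_nonneg_right (key _ _ (by norm_num) (by norm_num)) (by positivity)
  · have h1 : (x ^ (0.45 : ℝ)) ^ 3 ≤ B ^ 3 := pow_le_pow_left₀ (by positivity) hB1 3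
    have h2 : (x ^ (0.45 : ℝ)) ^ 3 = x * x ^ (0.35 : ℝ) := by
      rw [← Real.rpow_natCast, ← Real.rpow_mul hx0.le]
      nth_rewrite 2 [← Real.rpow_one x]
      rw [← Real.rpow_add hx0]; norm_num
    have h3 : (128 : ℝ) ≤ x ^ (0.35 : ℝ) := by
      have := key 0.35 7 (by norm_num) (by norm_num)
      refine le_trans (le_of_eq ?_) this
      rw [show (7 : ℝ) = ((7 : ℕ) : ℝ) by norm_num, Real.rpow_natCast]; norm_num
    have h4 : x * 128 ≤ x * x ^ (0.35 : ℝ) := mul_le_mul_of_nonneg_left h3 hx0.le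
    have h5 : (2 * B) ^ 3 = 8 * B ^ 3 := by ring
    rw [h5]
    linarith

open Classical in
/-- **(CR) for the class `SWc`.** -/
theorem crbeta (hCR : CRProd) : ∃ δ K : ℝ, 0 < δ ∧ 0 < K ∧ ∀ X : ℕ, 2 ^ 20 ≤ X →
    ∀ (B : ℝ) (β : Finset PrP → ℂ), (X : ℝ) ^ (0.45 : ℝ) ≤ B → B ≤ (X : ℝ) ^ (0.55 : ℝ) →
      Main48.SWc β →
    (∀ T, β T ≠ 0 → 2 ≤ T.card ∧ (∀ p ∈ T, (X : ℝ) ^ (0.06 : ℝ) ≤ nm p.1) ∧
      (nm (prd T) : ℝ) ≤ 2 * B) →
    ∀ θ : Eis → ℂ, (∀ a b, IsPrim a → IsPrim b → θ (a * b) = θ a * θ b) → (∀ a, ‖θ a‖ ≤ 1) →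
    ∀ S : Finset Tup, IsTS S ((2 * B) ^ (1 + δ)) →
      ∑ y ∈ S, ‖∑ T ∈ (UX X).powerset, β T * θ (prd T) * sy (num y) (prd T)‖ ^ 2
        ≤ K * (2 * B) ^ (7 / 3 - δ) := by
  obtain ⟨δ, K, hδ, hK, h⟩ := hCR 0.1 (by norm_num)
  refine ⟨δ, K, hδ, hK, ?_⟩
  intro X hX B β hB1 hB2 hβ hsupp θ hθ hθ1 S hS
  have hXr : (2 : ℝ) ^ 20 ≤ X := by exact_mod_cast hX
  have hX1 : 1 ≤ X := le_trans (by norm_num) hX
  obtain ⟨hB, hr1, hr2⟩ := rng hXr hB1 hB2
  obtain ⟨c, lo, hi, hc1, hint⟩ := hβ.int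
  have h2B : (0 : ℝ) < 2 * B := by linarith
  have hXp : (0 : ℝ) < (X : ℝ) ^ (0.06 : ℝ) := Real.rpow_pos_of_pos (by positivity) _
  have h0 : β ∅ = 0 := by
    by_contra hc
    have := (hsupp _ hc).1
    simp at this
  set U := UX X with hU
  set P : Finset PrP := U.filter (fun p => (2 * B) ^ (0.1 : ℝ) ≤ nm p.1 ∧
    (nm p.1 : ℝ) ≤ (2 * B) ^ (0.9 : ℝ)) with hP
  have hPU : P ⊆ U := Finset.filter_subset _ _
  have hrange : ∀ T ∈ U.powerset, ∀ p ∈ U, (∀ q ∈ T, q < p) → β (insert p T) ≠ 0 →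
      T.Nonempty ∧ p ∈ P := by
    intro T hT p hp hTp hb
    obtain ⟨hcard, hlow, hup⟩ := hsupp _ hb
    have hpT : p ∉ T := fun hc => lt_irrefl _ (hTp p hc)
    rw [Finset.card_insert_of_notMem hpT] at hcard
    have hne : T.Nonempty := Finset.card_pos.mp (by omega)
    refine ⟨hne, ?_⟩
    obtain ⟨q, hq⟩ := hne
    have hp1 := hlow p (Finset.mem_insert_self _ _)
    have hq1 := hlow q (Finset.mem_insert_of_mem hq)
    rw [hP, Finset.mem_filter]
    refine ⟨hp, hr1.trans hp1, ?_⟩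
    rw [prd_insert hpT, nm_mul] at hup
    push_cast at hup
    have hqd : (nm q.1 : ℝ) ≤ nm (prd T) := by
      exact_mod_cast nm_le_of_dvd' (prd_ne_zero T) (dvd_prd_iff.mpr hq)
    have h3 : (nm p.1 : ℝ) * (X : ℝ) ^ (0.06 : ℝ) ≤ (2 * B) ^ (0.9 : ℝ) * (X : ℝ) ^ (0.06 : ℝ) := by
      calc (nm p.1 : ℝ) * (X : ℝ) ^ (0.06 : ℝ) ≤ nm p.1 * nm (prd T) :=
            mul_le_mul_of_nonneg_left (hq1.trans hqd) (by positivity)
        _ ≤ 2 * B := hup
        _ = (2 * B) ^ (0.9 : ℝ) * (2 * B) ^ (0.1 : ℝ) := by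
            rw [← Real.rpow_add h2B]; norm_num
        _ ≤ (2 * B) ^ (0.9 : ℝ) * (X : ℝ) ^ (0.06 : ℝ) :=
            mul_le_mul_of_nonneg_left hr1 (by positivity)
    exact le_of_mul_le_mul_right h3 hXp
  have hM : ((U.card : ℝ) + 1) ≤ (2 * B) ^ 3 := by
    refine le_trans ?_ hr2
    have : (U.card : ℝ) ≤ 16 * X := by exact_mod_cast card_UX_le hX1
    linarith
  have hfin := h (2 * B) (by linarith) (P.image pv)
    ((U.powerset.filter (fun T => T.Nonempty ∧ c T ≠ 0)).image prd) θ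
    (fun d => c (pset d) * θ d) (ph1 U) (ph2 U) (ps1 U hi) (ps2 U lo) ?_ ?_ ?_ ?_ ?_ ?_ S hS
  · refine le_trans (le_of_eq ?_) hfin
    refine Finset.sum_congr rfl fun y _ => ?_
    rw [sum_identity U P β c lo hi hint h0 hPU hrange θ hθ (sy (num y))]
  · intro x hx
    rw [Finset.mem_image] at hx
    obtain ⟨p, hp, rfl⟩ := hx
    rw [hP, Finset.mem_filter] at hp
    exact ⟨p.isPrim, p.prime, hp.2.1, hp.2.2⟩
  · intro d hd
    rw [Finset.mem_image] at hd
    obtain ⟨T, -, rfl⟩ := hd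
    exact isPrim_prd T
  · intro p _; exact hθ1 p
  · intro d _
    rw [norm_mul]
    exact mul_le_one₀ (hc1 _) (norm_nonneg _) (hθ1 _)
  · intro x
    have h1 : (ph1 U x : ℝ) ≤ U.card := by exact_mod_cast ph1_le U x
    have h2 : (ph2 U x : ℝ) ≤ U.card := by
      have : ph2 U x ≤ U.card := by unfold ph2; omega
      exact_mod_cast this
    have h3 : (ps1 U hi x : ℝ) ≤ U.card := by
      have : ps1 U hi x ≤ U.card := Finset.card_le_card (Finset.filter_subset _ _)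
      exact_mod_cast this
    have h4 : (ps2 U lo x : ℝ) ≤ U.card + 1 := by
      have : ps2 U lo x ≤ U.card + 1 := by unfold ps2; omega
      exact_mod_cast this
    refine ⟨?_, ?_, ?_, ?_⟩ <;> linarith
  · intro x hx d hd h1 h2
    rw [Finset.mem_image] at hx hd
    obtain ⟨p, hp, rfl⟩ := hx
    obtain ⟨T, hT, rfl⟩ := hd
    rw [Finset.mem_filter] at hT
    have hc := (cond_iff U lo hi T (hPU hp)).mp ⟨h1, h2⟩
    have hb : β (insert p T) ≠ 0 := by
      rw [hint T p hc.1, if_pos hc.2]; exact hT.2.2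
    have hup := (hsupp _ hb).2.2
    have hpT : p ∉ T := fun hc' => lt_irrefl _ (hc.1 p hc')
    rw [prd_insert hpT, nm_mul] at hup
    push_cast at hup
    exact hup

/-! ### twists -/

lemma ang_mul' (l : ℤ) (a b : Eis) : ang l (a * b) = ang l a * ang l b := by
  unfold ang
  rw [← mul_zpow]
  congr 1
  rw [map_mul, norm_mul]
  push_cast
  rw [mul_div_mul_comm]

lemma norm_ang_le' (l : ℤ) (z : Eis) : ‖ang l z‖ ≤ 1 := by
  unfold ang
  by_cases h : toC z = 0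
  · rw [h]
    simp only [norm_zero, Complex.ofReal_zero, div_zero]
    by_cases hl : l = 0
    · simp [hl]
    · rw [zero_zpow _ hl]; simp
  · have : ‖toC z / (‖toC z‖ : ℂ)‖ = 1 := by
      rw [norm_div, Complex.norm_real, norm_norm, div_self (norm_ne_zero_iff.mpr h)]
    rw [norm_zpow, this, one_zpow]

/-- the twist `(b/|b|)^l N(b)^{it}` -/
def tw (l : ℤ) (t : ℝ) (b : Eis) : ℂ := ang l b * (nm b : ℂ) ^ ((t : ℂ) * I)

lemma tw_mul (l : ℤ) (t : ℝ) (a b : Eis) : tw l t (a * b) = tw l t a * tw l t b := by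
  unfold tw
  rw [ang_mul', nm_mul, Nat.cast_mul, Complex.natCast_mul_natCast_cpow]
  ring

lemma norm_natCast_cpow_le (n : ℕ) (t : ℝ) : ‖(n : ℂ) ^ ((t : ℂ) * I)‖ ≤ 1 := by
  rcases Nat.eq_zero_or_pos n with rfl | hn
  · by_cases ht : (t : ℂ) * I = 0
    · rw [ht]; simp
    · rw [Nat.cast_zero, Complex.zero_cpow ht]; simp
  · rw [Complex.norm_natCast_cpow_of_pos hn]
    simp

lemma norm_tw_le (l : ℤ) (t : ℝ) (b : Eis) : ‖tw l t b‖ ≤ 1 := by
  unfold tw
  rw [norm_mul]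
  exact mul_le_one₀ (norm_ang_le' _ _) (norm_nonneg _) (norm_natCast_cpow_le _ _)

open Classical in
/-- `crbeta` with the twists `(b/|b|)^l N(b)^{it}`, uniformly in `l` and `t`. -/
theorem crbeta_tw (hCR : CRProd) : ∃ δ K : ℝ, 0 < δ ∧ 0 < K ∧ ∀ X : ℕ, 2 ^ 20 ≤ X →
    ∀ (B : ℝ) (β : Finset PrP → ℂ), (X : ℝ) ^ (0.45 : ℝ) ≤ B → B ≤ (X : ℝ) ^ (0.55 : ℝ) →
      Main48.SWc β →
    (∀ T, β T ≠ 0 → 2 ≤ T.card ∧ (∀ p ∈ T, (X : ℝ) ^ (0.06 : ℝ) ≤ nm p.1) ∧
      (nm (prd T) : ℝ) ≤ 2 * B) →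
    ∀ (l : ℤ) (t : ℝ), ∀ S : Finset Tup, IsTS S ((2 * B) ^ (1 + δ)) →
      ∑ y ∈ S, ‖∑ T ∈ (UX X).powerset,
          β T * ang l (prd T) * (nm (prd T) : ℂ) ^ ((t : ℂ) * I) * sy (num y) (prd T)‖ ^ 2
        ≤ K * (2 * B) ^ (7 / 3 - δ) := by
  obtain ⟨δ, K, hδ, hK, h⟩ := crbeta hCR
  refine ⟨δ, K, hδ, hK, ?_⟩
  intro X hX B β hB1 hB2 hβ hsupp l t S hS
  refine le_trans (le_of_eq ?_) (h X hX B β hB1 hB2 hβ hsupp (tw l t)
    (fun a b _ _ => tw_mul l t a b) (norm_tw_le l t) S hS)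
  refine Finset.sum_congr rfl fun y _ => ?_
  congr 2
  refine Finset.sum_congr rfl fun T _ => ?_
  unfold tw
  ring

end Crest.Agent.R012.CRbeta852
end
end

-- ▼ part R012/CRbetaK_852
section

/-!
# Row 12, (CR): `crbeta` over the kernels `Ker` of `Spec_T_411` (helper852)
-/

set_option autoImplicit false

noncomputable section

open Complex Finset

namespace Crest.Agent.R012.CRbeta852

open Crest.Agent.R012 Eis Buch420 CR290 T411

/-- tuple of a kernel -/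
def tupK (q : ℕ × ℕ × Eis × Eis) : Tup := ((q.1, q.2.1), (q.2.2.1, q.2.2.2))

lemma tupK_inj : Function.Injective tupK := by
  rintro ⟨a, b, c, d⟩ ⟨a', b', c', d'⟩ h
  simp only [tupK, Prod.mk.injEq] at h
  obtain ⟨⟨rfl, rfl⟩, rfl, rfl⟩ := h
  rfl

lemma num_tupK (q : ℕ × ℕ × Eis × Eis) : num (tupK q) = kv q := rfl

lemma tupK_spec {H : ℝ} {q : ℕ × ℕ × Eis × Eis} (hq : q ∈ Ker H) :
    IsTup (tupK q) ∧ (nm (num (tupK q)) : ℝ) ≤ H := by
  classical
  unfold Ker at hq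
  rw [Finset.mem_filter, Finset.mem_product, Finset.mem_product, Finset.mem_product,
    Finset.mem_range, Finset.mem_range, LS2.S, Finset.mem_filter, Finset.mem_filter,
    mem_primBall, mem_primBall] at hq
  obtain ⟨⟨h1, h2, ⟨⟨-, h3⟩, h3s⟩, ⟨⟨-, h4⟩, h4s⟩⟩, h5, h6⟩ := hq
  refine ⟨⟨h1, h2, ?_, ?_, h3s, h4s, h5⟩, ?_⟩
  · exact h3
  · exact h4
  · rw [num_tupK]; exact h6






end Crest.Agent.R012.CRbeta852
end
end

-- ▼ part R012/CRx_852
section

/-!
# Row 12: `CRx_Prop` of `TIISpec_54` from `CRProd` (helper852)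
-/

set_option autoImplicit false

noncomputable section

open Complex Finset

namespace Crest.Agent.R012.CRbeta852

open Crest.Agent.R012 Eis Buch420 CR290 T411

theorem crx_of (hCR : CRProd) : TII54.CRx_Prop := by
  classical
  obtain ⟨δ, K, hδ, hK, h⟩ := crbeta_tw hCR
  refine ⟨min (δ / 2) (1 / 10), δ, 0.05, by positivity, min_le_right _ _, ?_, by norm_num, ?_⟩
  · have := min_le_left (δ / 2) ((1 : ℝ) / 10)
    linarith
  intro l
  refine ⟨K * 2 ^ ((7 : ℝ) / 3 - δ), 2 ^ 20, by positivity, ?_⟩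
  intro X hX B β hB1 hB2 hβ hcard hsupp t
  have hXr : (2 : ℝ) ^ 20 ≤ X := by exact_mod_cast hX
  have hB1' : (X : ℝ) ^ (0.45 : ℝ) ≤ B := by
    refine le_trans (le_of_eq ?_) hB1; norm_num
  have hB2' : B ≤ (X : ℝ) ^ (0.55 : ℝ) := by
    refine le_trans hB2 (le_of_eq ?_); norm_num
  obtain ⟨hB, -, -⟩ := rng hXr hB1' hB2'
  have hmin := min_le_left (δ / 2) ((1 : ℝ) / 10)
  have hS : IsTS ((Ker (B ^ (1 + min (δ / 2) (1 / 10)))).image tupK) ((2 * B) ^ (1 + δ)) := by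
    intro x hx
    rw [Finset.mem_image] at hx
    obtain ⟨q, hq, rfl⟩ := hx
    refine ⟨(tupK_spec hq).1, (tupK_spec hq).2.trans ?_⟩
    calc B ^ (1 + min (δ / 2) (1 / 10)) ≤ B ^ (1 + δ) :=
          Real.rpow_le_rpow_of_exponent_le hB (by linarith)
      _ ≤ (2 * B) ^ (1 + δ) := Real.rpow_le_rpow (by linarith) (by linarith) (by linarith)
  have hm := h X hX B β hB1' hB2' hβ
    (fun T hT => ⟨hcard T hT, (hsupp T hT).1, (hsupp T hT).2.2⟩) l t _ hS
  rw [Finset.sum_image (fun a _ b _ hab => tupK_inj hab)] at hm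
  have hK2 : K * (2 * B) ^ (7 / 3 - δ) = K * 2 ^ ((7 : ℝ) / 3 - δ) * B ^ ((7 : ℝ) / 3 - δ) := by
    rw [Real.mul_rpow (by norm_num) (by linarith)]; ring
  rw [hK2] at hm
  exact hm




end Crest.Agent.R012.CRbeta852
end
end

-- ▼ part R012/TIImean_54
section

/-!
# Row 12, item TIIS: averages in `t`  (helper54)

* `cv f t = ∫ (1+u²)⁻¹ f(t+u) du`, continuity, bounds, `cv_small`
* `tavg`   : `∫_{T1}^{T2} cv(|P|²)(± t) dt/t` by the mean value theorem
* `am_gm`  : `∫ D dt/t` from `∫ D² dt/t`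
-/

set_option autoImplicit false

noncomputable section

open MeasureTheory Complex Set Filter Topology
open Crest.Agent.R012 Crest.Agent.R012.Eis Crest.Agent.R012.Weight600 Crest.Agent.R012.MV400

namespace Crest.Agent.R012.TII54

/-- convolution with `(1+u²)⁻¹` -/
def cv (f : ℝ → ℝ) (t : ℝ) : ℝ := ∫ u : ℝ, (1 + u ^ 2)⁻¹ * f (t + u)

lemma cont_w : Continuous (fun u : ℝ => (1 + u ^ 2)⁻¹) := by
  apply Continuous.inv₀ (by fun_prop)
  intro u
  positivity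

section conv

variable {f : ℝ → ℝ}

lemma cv_int (hf : Continuous f) (hf0 : ∀ t, 0 ≤ f t) {M : ℝ} (hM : ∀ t, f t ≤ M) (t : ℝ) :
    Integrable (fun u : ℝ => (1 + u ^ 2)⁻¹ * f (t + u)) := by
  refine integrable_inv_one_add_sq.mul_bdd (c := M) (g := fun u => f (t + u))
    (by fun_prop) ?_
  exact Eventually.of_forall fun u => by
    rw [Real.norm_eq_abs, abs_of_nonneg (hf0 _)]; exact hM _


lemma cv_le (hf : Continuous f) (hf0 : ∀ t, 0 ≤ f t) {M : ℝ} (hM : ∀ t, f t ≤ M) (t : ℝ) :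
    cv f t ≤ Real.pi * M := by
  have h : cv f t ≤ ∫ u : ℝ, (1 + u ^ 2)⁻¹ * M := by
    apply integral_mono (cv_int hf hf0 hM t) (integrable_inv_one_add_sq.mul_const _)
    intro u
    have := hM (t + u)
    simp only
    gcongr
  rw [integral_mul_const, integral_univ_inv_one_add_sq] at h
  exact h

lemma continuous_cv (hf : Continuous f) (hf0 : ∀ t, 0 ≤ f t) {M : ℝ} (hM : ∀ t, f t ≤ M) :
    Continuous (cv f) := by
  unfold cv
  apply continuous_of_dominated (bound := fun u => (1 + u ^ 2)⁻¹ * M)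
  · intro t
    exact (cv_int hf hf0 hM t).aestronglyMeasurable
  · intro t
    refine Eventually.of_forall fun u => ?_
    have h1 := hf0 (t + u)
    have h2 := hM (t + u)
    rw [Real.norm_eq_abs, abs_of_nonneg (by positivity)]
    gcongr
  · exact integrable_inv_one_add_sq.mul_const _
  · exact Eventually.of_forall fun u => by fun_prop

lemma tail_w {T : ℝ} (hT : 0 < T) : ∫ u in Ioi T, (1 + u ^ 2)⁻¹ ≤ 1 / T := by
  rw [integral_Ioi_inv_one_add_sq, ← Real.arctan_inv_of_pos hT, one_div]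
  have h0 : 0 ≤ Real.arctan T⁻¹ := Real.arctan_nonneg.mpr (by positivity)
  have := Real.le_tan h0 (Real.arctan_lt_pi_div_two _)
  rwa [Real.tan_arctan] at this

lemma tail_w' {T : ℝ} (hT : 0 < T) : ∫ u in Iic (-T), (1 + u ^ 2)⁻¹ ≤ 1 / T := by
  have h := integral_comp_neg_Iic (-T) (fun u : ℝ => (1 + u ^ 2)⁻¹)
  simp only [neg_sq, neg_neg] at h
  rw [h]
  exact tail_w hT

lemma cv_small (hf : Continuous f) (hf0 : ∀ t, 0 ≤ f t) {M : ℝ} (hM : ∀ t, f t ≤ M)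
    {T0 E : ℝ} (hT0 : 0 < T0) (hE : 0 ≤ E) (h1 : ∀ s, |s| ≤ 2 * T0 → f s ≤ E) {t : ℝ}
    (ht : |t| ≤ T0) : cv f t ≤ Real.pi * E + 2 * M / T0 := by
  have hM0 : 0 ≤ M := (hf0 0).trans (hM 0)
  have i1 : Integrable ((Ioi T0).indicator fun u : ℝ => (1 + u ^ 2)⁻¹ * M) :=
    (integrable_indicator_iff measurableSet_Ioi).mpr
      (integrable_inv_one_add_sq.mul_const _).integrableOn
  have i2 : Integrable ((Iic (-T0)).indicator fun u : ℝ => (1 + u ^ 2)⁻¹ * M) :=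
    (integrable_indicator_iff measurableSet_Iic).mpr
      (integrable_inv_one_add_sq.mul_const _).integrableOn
  have i0 : Integrable (fun u : ℝ => (1 + u ^ 2)⁻¹ * E) := integrable_inv_one_add_sq.mul_const _
  have h : cv f t ≤ ∫ u : ℝ, ((fun u : ℝ => (1 + u ^ 2)⁻¹ * E) +
      ((Ioi T0).indicator (fun u : ℝ => (1 + u ^ 2)⁻¹ * M) +
      (Iic (-T0)).indicator (fun u : ℝ => (1 + u ^ 2)⁻¹ * M))) u := by
    apply integral_mono (cv_int hf hf0 hM t) (i0.add (i1.add i2))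
    intro u
    have hw : (0 : ℝ) ≤ (1 + u ^ 2)⁻¹ := by positivity
    have n1 : 0 ≤ (Ioi T0).indicator (fun u : ℝ => (1 + u ^ 2)⁻¹ * M) u :=
      indicator_nonneg (fun u _ => by positivity) u
    have n2 : 0 ≤ (Iic (-T0)).indicator (fun u : ℝ => (1 + u ^ 2)⁻¹ * M) u :=
      indicator_nonneg (fun u _ => by positivity) u
    have n0 : 0 ≤ (1 + u ^ 2)⁻¹ * E := by positivity
    simp only [Pi.add_apply]
    rcases le_or_gt |u| T0 with hu | hu
    · have h3 : |t + u| ≤ 2 * T0 := (abs_add_le t u).trans (by linarith)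
      have := mul_le_mul_of_nonneg_left (h1 _ h3) hw
      linarith
    · have h4 := mul_le_mul_of_nonneg_left (hM (t + u)) hw
      rcases le_total 0 u with h0 | h0
      · rw [abs_of_nonneg h0] at hu
        have e : (Ioi T0).indicator (fun u : ℝ => (1 + u ^ 2)⁻¹ * M) u = (1 + u ^ 2)⁻¹ * M :=
          indicator_of_mem (by exact hu) _
        linarith
      · rw [abs_of_nonpos h0] at hu
        have e : (Iic (-T0)).indicator (fun u : ℝ => (1 + u ^ 2)⁻¹ * M) u =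
            (1 + u ^ 2)⁻¹ * M := indicator_of_mem (by show u ≤ -T0; linarith) _
        linarith
  refine h.trans ?_
  rw [integral_add' i0 (i1.add i2), integral_add' i1 i2, integral_indicator measurableSet_Ioi,
    integral_indicator measurableSet_Iic, integral_mul_const, integral_mul_const,
    integral_mul_const, integral_univ_inv_one_add_sq]
  have t1 := mul_le_mul_of_nonneg_right (tail_w hT0) hM0
  have t2 := mul_le_mul_of_nonneg_right (tail_w' hT0) hM0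
  have e : 2 * M / T0 = 1 / T0 * M + 1 / T0 * M := by ring
  rw [e]
  linarith

lemma cv_swap (hf : Continuous f) (hf0 : ∀ t, 0 ≤ f t) {M : ℝ} (hM : ∀ t, f t ≤ M) (σ : ℝ)
    {T1 T2 : ℝ} (hT1 : 0 < T1) (h12 : T1 ≤ T2) :
    ∫ t in T1..T2, cv f (σ * t) / t =
      ∫ u : ℝ, (1 + u ^ 2)⁻¹ * ∫ t in T1..T2, f (σ * t + u) / t := by
  have hM0 : 0 ≤ M := (hf0 0).trans (hM 0)
  have e1 : ∫ t in T1..T2, cv f (σ * t) / t =
      ∫ t in T1..T2, ∫ u : ℝ, (1 + u ^ 2)⁻¹ * (f (σ * t + u) / t) := by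
    apply intervalIntegral.integral_congr
    intro t _
    simp only
    unfold cv
    rw [← integral_div]
    congr 1
    ext u
    ring
  rw [e1, intervalIntegral_integral_swap]
  · congr 1
    ext u
    rw [intervalIntegral.integral_const_mul]
  · -- integrability
    rw [uIoc_of_le h12]
    have hb : Integrable (fun p : ℝ × ℝ => (M / T1) * (1 + p.2 ^ 2)⁻¹)
        ((volume.restrict (Ioc T1 T2)).prod volume) :=
      Integrable.mul_prod (μ := volume.restrict (Ioc T1 T2)) (ν := volume)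
        (f := fun _ : ℝ => M / T1) (g := fun u : ℝ => (1 + u ^ 2)⁻¹)
        (integrable_const _) integrable_inv_one_add_sq
    refine hb.mono' ?_ ?_
    · apply Measurable.aestronglyMeasurable
      have h2 : Measurable (fun p : ℝ × ℝ => f (σ * p.1 + p.2)) :=
        (hf.comp (by fun_prop : Continuous fun p : ℝ × ℝ => σ * p.1 + p.2)).measurable
      have h3 : Measurable (fun p : ℝ × ℝ => (1 + p.2 ^ 2)⁻¹) :=
        (cont_w.comp continuous_snd).measurable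
      show Measurable (fun p : ℝ × ℝ => (1 + p.2 ^ 2)⁻¹ * (f (σ * p.1 + p.2) / p.1))
      exact h3.mul (h2.div measurable_fst)
    · have : ∀ᵐ p ∂((volume.restrict (Ioc T1 T2)).prod (volume : Measure ℝ)),
          p ∈ (Ioc T1 T2) ×ˢ (univ : Set ℝ) := by
        have : (volume.restrict (Ioc T1 T2)).prod (volume : Measure ℝ) =
            ((volume : Measure ℝ).prod (volume : Measure ℝ)).restrict
              ((Ioc T1 T2) ×ˢ (univ : Set ℝ)) := by
          rw [← Measure.prod_restrict, Measure.restrict_univ]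
        rw [this]
        exact ae_restrict_mem (measurableSet_Ioc.prod MeasurableSet.univ)
      filter_upwards [this] with p hp
      obtain ⟨⟨hp1, hp2⟩, -⟩ := hp
      show ‖(1 + p.2 ^ 2)⁻¹ * (f (σ * p.1 + p.2) / p.1)‖ ≤ _
      have hp0 : 0 < p.1 := hT1.trans hp1
      have := hf0 (σ * p.1 + p.2)
      have h5 := hM (σ * p.1 + p.2)
      rw [Real.norm_eq_abs, abs_of_nonneg (by positivity), mul_comm]
      gcongr

end conv

/-! ### The mean value theorem -/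

lemma dp_shift {S : Finset Eis} (hS : ∀ z ∈ S, z ≠ 0) (a : Eis → ℂ) (t u : ℝ) :
    dp S a (t + u) = dp S (fun z => a z * nit u z) t := by
  unfold dp
  refine Finset.sum_congr rfl fun z hz => ?_
  rw [nit_add (hS z hz)]
  ring

/-- The average in `t` of the convolution of `|P|²`. -/
theorem tavg (S : Finset Eis) (a : Eis → ℂ) {N T1 T2 : ℝ} (hN : 1 ≤ N) (hT1 : 1 ≤ T1)
    (h12 : T1 ≤ T2) (hS : ∀ z ∈ S, z ≠ 0 ∧ (nm z : ℝ) ≤ N) {σ : ℝ} (hσ : σ = 1 ∨ σ = -1) :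
    ∫ t in T1..T2, cv (fun s => ‖dp S a s‖ ^ 2) (σ * t) / t ≤
      Real.pi * (900000 * (N / T1 + Real.sqrt N * (1 + Real.log (T2 / T1))) *
        ∑ z ∈ S, ‖a z‖ ^ 2) := by
  have hS0 : ∀ z ∈ S, z ≠ 0 := fun z hz => (hS z hz).1
  have hc := continuous_dp hS0 a
  have hf : Continuous (fun s => ‖dp S a s‖ ^ 2) := by fun_prop
  have hf0 : ∀ s, 0 ≤ ‖dp S a s‖ ^ 2 := fun s => by positivity
  have hb : ∀ s, ‖dp S a s‖ ≤ ∑ z ∈ S, ‖a z‖ := fun s => by
    unfold dp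
    refine (norm_sum_le _ _).trans (le_of_eq (Finset.sum_congr rfl fun z hz => ?_))
    rw [norm_mul, norm_nit (hS0 z hz), mul_one]
  have hM : ∀ s, ‖dp S a s‖ ^ 2 ≤ (∑ z ∈ S, ‖a z‖) ^ 2 := fun s =>
    pow_le_pow_left₀ (norm_nonneg _) (hb s) 2
  rw [cv_swap hf hf0 hM σ (by linarith) h12]
  set R := 900000 * (N / T1 + Real.sqrt N * (1 + Real.log (T2 / T1))) * ∑ z ∈ S, ‖a z‖ ^ 2
    with hR
  have key : ∀ u : ℝ, ∫ t in T1..T2, ‖dp S a (σ * t + u)‖ ^ 2 / t ≤ R := by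
    intro u
    have e : ∑ z ∈ S, ‖a z * nit u z‖ ^ 2 = ∑ z ∈ S, ‖a z‖ ^ 2 :=
      Finset.sum_congr rfl fun z hz => by rw [norm_mul, norm_nit (hS0 z hz), mul_one]
    rcases hσ with rfl | rfl
    · have := mv_eis_dt S N T1 T2 hN hT1 h12 hS (fun z => a z * nit u z)
      rw [e] at this
      refine le_trans (le_of_eq ?_) this
      apply intervalIntegral.integral_congr
      intro t _
      simp only [one_mul]
      rw [dp_shift hS0]
    · have := mv_eis_dt_neg S N T1 T2 hN hT1 h12 hS (fun z => a z * nit u z)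
      rw [e] at this
      refine le_trans (le_of_eq ?_) this
      apply intervalIntegral.integral_congr
      intro t _
      simp only [neg_mul, one_mul]
      rw [dp_shift hS0]
  have hR0 : 0 ≤ R := by
    refine le_trans ?_ (key 0)
    apply intervalIntegral.integral_nonneg h12
    intro t ht
    have : 0 < t := by linarith [ht.1]
    positivity
  have hint : ∀ u : ℝ, 0 ≤ ∫ t in T1..T2, ‖dp S a (σ * t + u)‖ ^ 2 / t := fun u => by
    apply intervalIntegral.integral_nonneg h12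
    intro t ht
    have : 0 < t := by linarith [ht.1]
    positivity
  calc ∫ u : ℝ, (1 + u ^ 2)⁻¹ * ∫ t in T1..T2, ‖dp S a (σ * t + u)‖ ^ 2 / t
      ≤ ∫ u : ℝ, (1 + u ^ 2)⁻¹ * R := by
        apply integral_mono_of_nonneg
        · exact Eventually.of_forall fun u => by have := hint u; positivity
        · exact integrable_inv_one_add_sq.mul_const _
        · refine Eventually.of_forall fun u => ?_
          simp only
          have := key u
          gcongr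
    _ = Real.pi * R := by rw [integral_mul_const, integral_univ_inv_one_add_sq]

/-! ### AM-GM -/

/-- `∫ D dt/t` from `∫ D² dt/t`. -/
theorem am_gm {D : ℝ → ℝ} (hD : Continuous D) {T0 T2 ρ Lg : ℝ} (hT0 : 0 < T0)
    (h02 : T0 ≤ T2) (hρ : 0 ≤ ρ) (hLg : Real.log (T2 / T0) ≤ Lg) (hLg0 : 0 ≤ Lg)
    (hJ : ∫ t in T0..T2, D t ^ 2 / t ≤ ρ ^ 2 * Lg) : ∫ t in T0..T2, D t / t ≤ ρ * Lg := by
  have hne : ∀ t ∈ uIcc T0 T2, t ≠ 0 := by
    intro t ht
    rw [uIcc_of_le h02] at ht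
    exact (hT0.trans_le ht.1).ne'
  have i1 : IntervalIntegrable (fun t => D t / t) volume T0 T2 :=
    ContinuousOn.intervalIntegrable (hD.continuousOn.div continuousOn_id hne)
  have i2 : IntervalIntegrable (fun t => D t ^ 2 / t) volume T0 T2 :=
    ContinuousOn.intervalIntegrable ((hD.pow 2).continuousOn.div continuousOn_id hne)
  have i3 : IntervalIntegrable (fun t : ℝ => 1 / t) volume T0 T2 :=
    ContinuousOn.intervalIntegrable (continuousOn_const.div continuousOn_id hne)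
  have e3 : ∫ t in T0..T2, 1 / t = Real.log (T2 / T0) := by
    apply integral_one_div
    rw [uIcc_of_le h02]
    rintro ⟨h, -⟩
    linarith
  have main : ∀ r : ℝ, 0 < r → ρ ≤ r → ∫ t in T0..T2, D t / t ≤ r * Lg := by
    intro r hr hρr
    have h1 : ∫ t in T0..T2, D t / t ≤
        ∫ t in T0..T2, ((1 / (2 * r)) * (D t ^ 2 / t) + (r / 2) * (1 / t)) := by
      apply intervalIntegral.integral_mono_on h02 i1 ((i2.const_mul _).add (i3.const_mul _))
      intro t ht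
      have ht0 : 0 < t := hT0.trans_le ht.1
      have : (1 / (2 * r)) * (D t ^ 2 / t) + (r / 2) * (1 / t) - D t / t =
          (D t - r) ^ 2 / (2 * r * t) := by
        field_simp
        ring
      have h4 : 0 ≤ (D t - r) ^ 2 / (2 * r * t) := by positivity
      linarith
    rw [intervalIntegral.integral_add (i2.const_mul _) (i3.const_mul _),
      intervalIntegral.integral_const_mul, intervalIntegral.integral_const_mul, e3] at h1
    have h2 : 1 / (2 * r) * ∫ t in T0..T2, D t ^ 2 / t ≤ 1 / (2 * r) * (r ^ 2 * Lg) := by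
      apply mul_le_mul_of_nonneg_left _ (by positivity)
      refine hJ.trans ?_
      gcongr
    have h3 : 1 / (2 * r) * (r ^ 2 * Lg) = r / 2 * Lg := by
      field_simp
    have h5 : r / 2 * Real.log (T2 / T0) ≤ r / 2 * Lg := by gcongr
    linarith
  rcases hρ.eq_or_lt with h0 | h0
  · rw [← h0, zero_mul]
    apply le_of_forall_pos_le_add
    intro ε hε
    have h6 := main (ε / (Lg + 1)) (by positivity) (by rw [← h0]; positivity)
    have h7 : ε / (Lg + 1) * Lg ≤ ε := by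
      rw [div_mul_eq_mul_div, div_le_iff₀ (by linarith)]
      nlinarith
    linarith
  · exact main ρ h0 le_rfl

end Crest.Agent.R012.TII54
end
end

-- ▼ part R012/TIIabs_54
section

/-!
# Row 12, item TIIS: Cauchy–Schwarz with multiplicities, and the abstract estimate (helper54)

* `cs_mu`     : `∑_i x_i V(a_i) ≤ (∑_{a_i = a_j} x_i x_j)^{1/2} (∑_{a} V(a)²)^{1/2}`
* `sum_le_SS` : finite sum over `nm a ≤ A` is at most `e · SS A`
* `abs_bound` : from the fixed-`t` estimate to the integral against `kB`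
-/

set_option autoImplicit false

noncomputable section

open MeasureTheory Complex Set Filter Topology
open Crest.Agent.R012 Crest.Agent.R012.Eis Crest.Agent.R012.Weight600 Crest.Agent.R012.MV400

namespace Crest.Agent.R012.TII54

/-! ### Cauchy–Schwarz with multiplicities -/

open Classical in
lemma cs_mu {ι κ : Type*} (I : Finset ι) (a : ι → κ) (x : ι → ℝ) (V : κ → ℝ) (P : Finset κ)
    (hP : ∀ i ∈ I, a i ∈ P) :
    ∑ i ∈ I, x i * V (a i) ≤
      Real.sqrt (∑ i ∈ I, ∑ j ∈ I, if a i = a j then x i * x j else 0) *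
        Real.sqrt (∑ c ∈ P, V c ^ 2) := by
  have e1 : ∑ i ∈ I, x i * V (a i) = ∑ c ∈ P, (∑ i ∈ I with a i = c, x i) * V c := by
    rw [← Finset.sum_fiberwise_of_maps_to hP]
    refine Finset.sum_congr rfl fun c _ => ?_
    rw [Finset.sum_mul]
    refine Finset.sum_congr rfl fun i hi => ?_
    rw [(Finset.mem_filter.mp hi).2]
  have e2 : ∑ i ∈ I, ∑ j ∈ I, (if a i = a j then x i * x j else 0) =
      ∑ c ∈ P, (∑ i ∈ I with a i = c, x i) ^ 2 := by
    rw [← Finset.sum_fiberwise_of_maps_to hP]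
    refine Finset.sum_congr rfl fun c _ => ?_
    rw [pow_two, Finset.sum_mul_sum]
    refine Finset.sum_congr rfl fun i hi => ?_
    rw [Finset.sum_filter]
    refine Finset.sum_congr rfl fun j _ => ?_
    rw [(Finset.mem_filter.mp hi).2]
    by_cases h : a j = c
    · rw [if_pos h, if_pos h.symm]
    · rw [if_neg h, if_neg (fun h' => h h'.symm)]
  rw [e1, e2, ← Real.sqrt_mul (Finset.sum_nonneg fun _ _ => by positivity)]
  apply Real.le_sqrt_of_sq_le
  exact Finset.sum_mul_sq_le_sq_mul_sq _ _ _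

/-! ### The dispersion sum -/

/-- bound for `F` -/
def KF : ℝ := 1 + |pC|

lemma KF_pos : 0 < KF := by unfold KF; positivity

lemma norm_F_le {n : Eis} (hn : IsPrim n) : ‖T411.F n‖ ≤ KF := by
  unfold T411.F T411.mdl KF
  refine (norm_sub_le _ _).trans (add_le_add (Gauss880.norm_G_le Gauss880.syG hn) ?_)
  split_ifs
  · rw [Complex.norm_real, Real.norm_eq_abs, abs_mul]
    have h1 : (1 : ℝ) ≤ nm n := by exact_mod_cast nm_pos.mpr hn.ne_zero
    have h2 : |(nm n : ℝ) ^ (-(1 / 6) : ℝ)| ≤ 1 := by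
      rw [abs_of_nonneg (by positivity)]
      exact Real.rpow_le_one_of_one_le_of_nonpos h1 (by norm_num)
    exact mul_le_of_le_one_right (abs_nonneg _) h2
  · simp

lemma F_eq_zero {n : Eis} (hn : IsPrim n) (h : ¬ Squarefree n) : T411.F n = 0 := by
  unfold T411.F T411.mdl
  rw [Gauss880.G_eq_zero Gauss880.syG hn h, if_neg h]
  simp

open Classical in
lemma SS_term_le {A : ℝ} (𝓑 : Finset Eis) (β : Eis → ℂ) (h𝓑 : ∀ b ∈ 𝓑, IsPrim b)
    (hβ : ∀ b, ‖β b‖ ≤ 1) (a : Eis) :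
    (if T411.SqP a then Real.exp (-(nm a : ℝ) / A) * ‖∑ b ∈ 𝓑, β b * T411.F (a * b)‖ ^ 2
      else 0) ≤ (KF * 𝓑.card) ^ 2 * Real.exp (-(1 / A * nm a)) := by
  have hK := KF_pos
  split_ifs with h
  · have h1 : ‖∑ b ∈ 𝓑, β b * T411.F (a * b)‖ ≤ KF * 𝓑.card := by
      refine (norm_sum_le _ _).trans ?_
      calc ∑ b ∈ 𝓑, ‖β b * T411.F (a * b)‖ ≤ ∑ b ∈ 𝓑, KF := by
            refine Finset.sum_le_sum fun b hb => ?_
            rw [norm_mul]
            calc ‖β b‖ * ‖T411.F (a * b)‖ ≤ 1 * KF := by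
                  apply mul_le_mul (hβ b) (norm_F_le (h.1.mul (h𝓑 b hb))) (norm_nonneg _)
                    zero_le_one
              _ = KF := one_mul _
        _ = KF * 𝓑.card := by rw [Finset.sum_const, nsmul_eq_mul]; ring
    have h2 : -(nm a : ℝ) / A = -(1 / A * nm a) := by ring
    rw [h2, mul_comm]
    gcongr
  · positivity

open Classical in
lemma sum_le_SS {A : ℝ} (hA : 0 < A) (𝓑 : Finset Eis) (β : Eis → ℂ)
    (h𝓑 : ∀ b ∈ 𝓑, IsPrim b) (hβ : ∀ b, ‖β b‖ ≤ 1) (P : Finset Eis)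
    (hP : ∀ a ∈ P, T411.SqP a ∧ (nm a : ℝ) ≤ A) :
    ∑ a ∈ P, ‖∑ b ∈ 𝓑, β b * T411.F (a * b)‖ ^ 2 ≤ Real.exp 1 * T411.SS A 𝓑 β := by
  set tm : Eis → ℝ := fun a => if T411.SqP a then
    Real.exp (-(nm a : ℝ) / A) * ‖∑ b ∈ 𝓑, β b * T411.F (a * b)‖ ^ 2 else 0 with htm
  have h0 : ∀ a, 0 ≤ tm a := fun a => by
    rw [htm]; simp only; split_ifs <;> positivity
  have hsum : Summable tm := by
    refine Summable.of_nonneg_of_le h0 (fun a => SS_term_le 𝓑 β h𝓑 hβ a) ?_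
    exact (Edge79.summable_exp (c := 1 / A) (by positivity)).mul_left _
  have h1 : ∑ a ∈ P, tm a ≤ T411.SS A 𝓑 β := by
    have := hsum.sum_le_tsum P (fun a _ => h0 a)
    exact this
  have h2 : ∑ a ∈ P, ‖∑ b ∈ 𝓑, β b * T411.F (a * b)‖ ^ 2 ≤ ∑ a ∈ P, Real.exp 1 * tm a := by
    refine Finset.sum_le_sum fun a ha => ?_
    obtain ⟨q1, q2⟩ := hP a ha
    rw [htm]
    simp only
    rw [if_pos q1, ← mul_assoc, ← Real.exp_add]
    have h3 : (1 : ℝ) ≤ Real.exp (1 + -(nm a : ℝ) / A) := by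
      apply Real.one_le_exp
      rw [neg_div]
      have : (nm a : ℝ) / A ≤ 1 := by rw [div_le_one hA]; exact q2
      linarith
    have h4 : 0 ≤ ‖∑ b ∈ 𝓑, β b * T411.F (a * b)‖ ^ 2 := by positivity
    nlinarith
  rw [← Finset.mul_sum] at h2
  exact h2.trans (mul_le_mul_of_nonneg_left h1 (Real.exp_pos _).le)

/-! ### The abstract estimate -/

/-- From a pointwise bound of `D(t)²` by convolutions `cv (f h) t` to `∫ |kB| D`. -/
theorem abs_bound {κ : Type*} {B : ℝ} (hB : 1 ≤ B) (D : ℝ → ℝ) (hD : Continuous D)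
    (hD0 : ∀ t, 0 ≤ D t) (H : Finset κ) (f : κ → ℝ → ℝ) (hf : ∀ h ∈ H, Continuous (f h))
    (hf0 : ∀ h ∈ H, ∀ t, 0 ≤ f h t) {M E J V q0 q1 T0 T2 Lg : ℝ}
    (hM : ∀ h ∈ H, ∀ t, f h t ≤ M) (hV : 0 ≤ V) (hq0 : 0 ≤ q0) (hq1 : 0 ≤ q1)
    (hM0 : 0 ≤ M) (hE : 0 ≤ E) (hJ : 0 ≤ J)
    (h1 : ∀ t, D t ^ 2 ≤ V * (q0 + q1 * ∑ h ∈ H, cv (f h) t))
    (hT0 : 0 < T0) (h02 : T0 ≤ T2) (hLg : Real.log (T2 / T0) ≤ Lg) (hLg1 : 1 ≤ Lg)
    (h2 : ∀ h ∈ H, ∀ s, |s| ≤ 2 * T0 → f h s ≤ E)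
    (h3 : ∀ h ∈ H, ∀ σ : ℝ, (σ = 1 ∨ σ = -1) → ∫ t in T0..T2, cv (f h) (σ * t) / t ≤ J) :
    ∫ t, ‖kB B t‖ * D t ≤ Real.sqrt V * (
      Cint * (1 + Real.log (32 * B)) *
        Real.sqrt (q0 + q1 * (H.card * (Real.pi * E + 2 * M / T0))) +
      4 * Ck 0 * (Real.sqrt (q0 + q1 * (H.card * J)) * Lg) +
      4 * Ck 1 * ((8 * B + 8) / T2) * Real.sqrt (q0 + q1 * (H.card * (Real.pi * M)))) := by
  have hT2 : 0 < T2 := by linarith
  have hC := Cint_pos
  have hCk0 := Ck_pos 0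
  have hCk1 := Ck_pos 1
  have hLg0 : 0 ≤ Lg := by linarith
  have bd : ∀ {t Z : ℝ}, (∀ h ∈ H, cv (f h) t ≤ Z) →
      D t ≤ Real.sqrt V * Real.sqrt (q0 + q1 * (H.card * Z)) := by
    intro t Z hZ
    rw [← Real.sqrt_mul hV]
    apply Real.le_sqrt_of_sq_le
    refine (h1 t).trans ?_
    have : ∑ h ∈ H, cv (f h) t ≤ H.card * Z := by
      calc ∑ h ∈ H, cv (f h) t ≤ ∑ h ∈ H, Z := Finset.sum_le_sum hZ
        _ = _ := by rw [Finset.sum_const, nsmul_eq_mul]
    gcongr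
  have hZ0 : ∀ t, |t| ≤ T0 →
      D t ≤ Real.sqrt V * Real.sqrt (q0 + q1 * (H.card * (Real.pi * E + 2 * M / T0))) :=
    fun t ht => bd fun h hh => cv_small (hf h hh) (hf0 h hh) (hM h hh) hT0 hE (h2 h hh) ht
  have hMD : ∀ t, D t ≤ Real.sqrt V * Real.sqrt (q0 + q1 * (H.card * (Real.pi * M))) :=
    fun t => bd fun h hh => cv_le (hf h hh) (hf0 h hh) (hM h hh) t
  have hcc : ∀ σ : ℝ, ∀ h ∈ H, Continuous fun t => cv (f h) (σ * t) := fun σ h hh =>
    (continuous_cv (hf h hh) (hf0 h hh) (hM h hh)).comp (by fun_prop)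
  have hne : ∀ t ∈ uIcc T0 T2, t ≠ 0 := by
    intro t ht
    rw [uIcc_of_le h02] at ht
    exact (hT0.trans_le ht.1).ne'
  set ρ := Real.sqrt V * Real.sqrt (q0 + q1 * (H.card * J)) with hρ
  have hρ0 : 0 ≤ ρ := by positivity
  -- the mean square
  have hms : ∀ σ : ℝ, (σ = 1 ∨ σ = -1) →
      ∫ t in T0..T2, D (σ * t) ^ 2 / t ≤ ρ ^ 2 * Lg := by
    intro σ hσ
    have hDc : Continuous fun t => D (σ * t) := hD.comp (by fun_prop)
    have i0 : IntervalIntegrable (fun t : ℝ => q0 * (1 / t)) volume T0 T2 :=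
      (ContinuousOn.intervalIntegrable
        (continuousOn_const.div continuousOn_id hne)).const_mul _
    have ih : ∀ h ∈ H, IntervalIntegrable (fun t : ℝ => cv (f h) (σ * t) / t) volume T0 T2 :=
      fun h hh => ContinuousOn.intervalIntegrable
        ((hcc σ h hh).continuousOn.div continuousOn_id hne)
    have i1 : IntervalIntegrable (fun t : ℝ => q1 * ∑ h ∈ H, cv (f h) (σ * t) / t)
        volume T0 T2 := by
      have h4 := IntervalIntegrable.sum H (f := fun h => fun t : ℝ => cv (f h) (σ * t) / t)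
        (fun h hh => ih h hh)
      have h5 := h4.const_mul q1
      refine h5.congr ?_
      intro t _
      simp [Finset.sum_apply]
    have i2 : IntervalIntegrable (fun t : ℝ => D (σ * t) ^ 2 / t) volume T0 T2 :=
      ContinuousOn.intervalIntegrable ((hDc.pow 2).continuousOn.div continuousOn_id hne)
    have m1 : ∫ t in T0..T2, D (σ * t) ^ 2 / t ≤
        ∫ t in T0..T2, V * (q0 * (1 / t) + q1 * ∑ h ∈ H, cv (f h) (σ * t) / t) := by
      apply intervalIntegral.integral_mono_on h02 i2 ((i0.add i1).const_mul V)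
      intro t ht
      have ht0 : 0 < t := hT0.trans_le ht.1
      have := h1 (σ * t)
      rw [div_le_iff₀ ht0]
      refine this.trans (le_of_eq ?_)
      rw [← Finset.sum_div]
      field_simp
    rw [intervalIntegral.integral_const_mul, intervalIntegral.integral_add i0 i1,
      intervalIntegral.integral_const_mul, intervalIntegral.integral_const_mul,
      intervalIntegral.integral_finsetSum ih] at m1
    have e3 : ∫ t in T0..T2, 1 / t = Real.log (T2 / T0) := by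
      apply integral_one_div
      rw [uIcc_of_le h02]
      rintro ⟨h, -⟩
      linarith
    rw [e3] at m1
    have m2 : ∑ h ∈ H, ∫ t in T0..T2, cv (f h) (σ * t) / t ≤ H.card * J := by
      calc _ ≤ ∑ h ∈ H, J := Finset.sum_le_sum fun h hh => h3 h hh σ hσ
        _ = _ := by rw [Finset.sum_const, nsmul_eq_mul]
    have e4 : ρ ^ 2 = V * (q0 + q1 * (H.card * J)) := by
      rw [hρ, mul_pow, Real.sq_sqrt hV, Real.sq_sqrt (by positivity)]
    rw [e4]
    refine m1.trans ?_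
    rw [mul_assoc]
    apply mul_le_mul_of_nonneg_left _ hV
    have m3 : q0 * Real.log (T2 / T0) ≤ q0 * Lg := by gcongr
    have m4 : q1 * ∑ h ∈ H, ∫ t in T0..T2, cv (f h) (σ * t) / t ≤
        q1 * (H.card * J) * Lg := by
      have : 0 ≤ q1 * (H.card * J) := by positivity
      calc _ ≤ q1 * (H.card * J) := by gcongr
        _ ≤ q1 * (H.card * J) * Lg := by nlinarith
    linarith
  have hi1 : ∫ t in T0..T2, D t / t ≤ ρ * Lg := by
    have := hms 1 (Or.inl rfl)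
    simp only [one_mul] at this
    exact am_gm hD hT0 h02 hρ0 hLg hLg0 this
  have hi2 : ∫ t in T0..T2, D (-t) / t ≤ ρ * Lg := by
    have := hms (-1) (Or.inr rfl)
    simp only [neg_mul, one_mul] at this
    exact am_gm (D := fun t => D (-t)) (by fun_prop) hT0 h02 hρ0 hLg hLg0 this
  have key := int_split hB D hD hD0 hMD hT0 h02 (by positivity) hZ0 (k := 1) one_pos
  refine key.trans ?_
  have e5 : Real.sqrt V * (
      Cint * (1 + Real.log (32 * B)) *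
        Real.sqrt (q0 + q1 * (H.card * (Real.pi * E + 2 * M / T0))) +
      4 * Ck 0 * (Real.sqrt (q0 + q1 * (H.card * J)) * Lg) +
      4 * Ck 1 * ((8 * B + 8) / T2) * Real.sqrt (q0 + q1 * (H.card * (Real.pi * M)))) =
      Cint * (1 + Real.log (32 * B)) *
        (Real.sqrt V * Real.sqrt (q0 + q1 * (H.card * (Real.pi * E + 2 * M / T0)))) +
      2 * Ck 0 * (ρ * Lg + ρ * Lg) +
      4 * Ck 1 * ((8 * B + 8) / T2) *
        (Real.sqrt V * Real.sqrt (q0 + q1 * (H.card * (Real.pi * M)))) := by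
    rw [hρ]; ring
  rw [e5]
  gcongr
  exact (pow_one _).le

end Crest.Agent.R012.TII54
end
end

-- ▼ part R012/TIIcore_54
section

/-!
# Row 12, item TIIS: the bridge between `Ix` and the dispersion sum (helper54)

* `sB X β`, `bE l β t` : support and coefficients of `β` on `Eis`
* `cls`                : they are in the class `T411.Cls`
* `tws_eq`             : `tws (sB X β) (bE l β t) h u = tw l X β h (t + u)`
* `Ix_le`              : `‖Ix‖ ≤ ∫ ‖kB B t‖ D t`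
* `D_sq_le`            : `D t ^ 2 ≤ Mu · e · SS (X/B) (sB X β) (bE l β t)`
-/

set_option autoImplicit false

noncomputable section

open MeasureTheory Complex Set Filter Topology
open Crest.Agent.R012 Crest.Agent.R012.Eis Crest.Agent.R012.Weight600 Crest.Agent.R012.MV400
open Crest.Agent.R012.Buch420 Crest.Agent.R012.Main48

namespace Crest.Agent.R012.TII54

open Classical in
/-- the support of `β` as a finite set of `Eis` -/
def sB (X : ℕ) (β : Finset PrP → ℂ) : Finset Eis :=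
  ((UX X).powerset.filter (fun T => β T ≠ 0)).image prd

/-- the coefficients on `Eis`, twisted -/
def bE (l : ℤ) (β : Finset PrP → ℂ) (t : ℝ) (b : Eis) : ℂ := β (pset b) * ang l b * nit t b

lemma norm_nit_le (t : ℝ) (z : Eis) : ‖nit t z‖ ≤ 1 := by
  by_cases hz : z = 0
  · subst hz
    unfold nit
    by_cases ht : t = 0
    · subst ht; simp
    · rw [nm_zero, Nat.cast_zero, Complex.zero_cpow]
      · simp
      · simp [ht]
  · exact (norm_nit hz).le

lemma norm_bE_le (l : ℤ) {β : Finset PrP → ℂ} (hβ : ∀ T, ‖β T‖ ≤ 1) (t : ℝ) (b : Eis) :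
    ‖bE l β t b‖ ≤ 1 := by
  unfold bE
  rw [norm_mul, norm_mul]
  exact mul_le_one₀ (mul_le_one₀ (hβ _) (norm_nonneg _) (P355.norm_ang_le l b))
    (norm_nonneg _) (norm_nit_le t b)

/-- sums over `sB` -/
lemma sum_sB (X : ℕ) (β : Finset PrP → ℂ) (g : Eis → ℂ) :
    ∑ b ∈ sB X β, β (pset b) * g b = ∑ T ∈ (UX X).powerset, β T * g (prd T) := by
  classical
  unfold sB
  rw [Finset.sum_image (fun x _ y _ h => prd_injective h), Finset.sum_filter]
  refine Finset.sum_congr rfl fun T _ => ?_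
  split_ifs with h
  · rw [pset_prd]
  · push Not at h
    rw [h, zero_mul]

lemma mem_sB {X : ℕ} {β : Finset PrP → ℂ} {b : Eis} (hb : b ∈ sB X β) :
    ∃ T, T ⊆ UX X ∧ β T ≠ 0 ∧ prd T = b := by
  classical
  unfold sB at hb
  rw [Finset.mem_image] at hb
  obtain ⟨T, hT, rfl⟩ := hb
  rw [Finset.mem_filter, Finset.mem_powerset] at hT
  exact ⟨T, hT.1, hT.2, rfl⟩

lemma sB_prim {X : ℕ} {β : Finset PrP → ℂ} {b : Eis} (hb : b ∈ sB X β) : IsPrim b := by
  obtain ⟨T, -, -, rfl⟩ := mem_sB hb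
  exact isPrim_prd T

lemma cls {X : ℕ} {w B : ℝ} {β : Finset PrP → ℂ} (hβ : ∀ T, ‖β T‖ ≤ 1) (hs : Supp w B β)
    (l : ℤ) (t : ℝ) : T411.Cls w B (sB X β) (bE l β t) := by
  refine ⟨?_, ?_, ?_, ?_, fun b => norm_bE_le l hβ t b⟩
  · intro b hb
    obtain ⟨T, -, -, rfl⟩ := mem_sB hb
    exact ⟨isPrim_prd T, squarefree_prd T⟩
  · intro b hb
    obtain ⟨T, -, h, rfl⟩ := mem_sB hb
    exact (hs T h).2.1
  · intro b hb
    obtain ⟨T, -, h, rfl⟩ := mem_sB hb
    exact (hs T h).2.2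
  · intro b hb p hp hpb
    obtain ⟨T, -, h, rfl⟩ := mem_sB hb
    have h2 : (⟨p, hp⟩ : PrP) ∈ T := dvd_prd_iff.mp hpb
    exact (hs T h).1 ⟨p, hp⟩ h2

lemma nm_sB {X : ℕ} {w B : ℝ} {β : Finset PrP → ℂ} (hs : Supp w B β) {b : Eis}
    (hb : b ∈ sB X β) : B < nm b ∧ (nm b : ℝ) ≤ 2 * B := by
  obtain ⟨T, -, h, rfl⟩ := mem_sB hb
  exact (hs T h).2

lemma card_sB_le {X : ℕ} {w B : ℝ} (hB : 1 ≤ B) {β : Finset PrP → ℂ} (hs : Supp w B β) :
    ((sB X β).card : ℝ) ≤ 200 * B := by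
  have h1 : sB X β ⊆ primBall ⌊2 * B⌋₊ := by
    intro b hb
    obtain ⟨T, -, h, rfl⟩ := mem_sB hb
    rw [mem_primBall]
    exact ⟨Nat.le_floor (hs T h).2.2, isPrim_prd T⟩
  have h2 : ((sB X β).card : ℝ) ≤ ((primBall ⌊2 * B⌋₊).card : ℝ) := by
    exact_mod_cast Finset.card_le_card h1
  have h3 := Lat277.card_primBall_le ⌊2 * B⌋₊
  have h4 : ((⌊2 * B⌋₊ : ℕ) : ℝ) ≤ 2 * B := Nat.floor_le (by linarith)
  linarith

lemma tws_eq (l : ℤ) (X : ℕ) (β : Finset PrP → ℂ) (t : ℝ) (h : Eis) (u : ℝ) :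
    T411.tws (sB X β) (bE l β t) h u = tw l X β h (t + u) := by
  unfold T411.tws tw
  have e : ∑ b ∈ sB X β, bE l β t b * (nm b : ℂ) ^ ((u : ℂ) * Complex.I) * sy h b =
      ∑ b ∈ sB X β, β (pset b) * (ang l b * nit t b * nit u b * sy h b) := by
    refine Finset.sum_congr rfl fun b _ => ?_
    unfold bE
    have : (nm b : ℂ) ^ ((u : ℂ) * Complex.I) = nit u b := rfl
    rw [this]
    ring
  rw [e, sum_sB]
  refine Finset.sum_congr rfl fun T _ => ?_
  rw [nit_add (prd_ne_zero T)]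
  ring

/-- `tw` as a Dirichlet polynomial -/
lemma tw_eq_dp (l : ℤ) (X : ℕ) (β : Finset PrP → ℂ) (h : Eis) (s : ℝ) :
    tw l X β h s = dp (sB X β) (fun b => β (pset b) * (ang l b * sy h b)) s := by
  unfold tw dp
  have e : ∑ b ∈ sB X β, β (pset b) * (ang l b * sy h b) * nit s b =
      ∑ b ∈ sB X β, β (pset b) * (ang l b * sy h b * nit s b) := by
    refine Finset.sum_congr rfl fun b _ => ?_
    ring
  rw [e, sum_sB]
  refine Finset.sum_congr rfl fun T _ => ?_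
  ring

lemma continuous_tw (l : ℤ) (X : ℕ) (β : Finset PrP → ℂ) (h : Eis) :
    Continuous (tw l X β h) := by
  have : tw l X β h = dp (sB X β) (fun b => β (pset b) * (ang l b * sy h b)) :=
    funext fun s => tw_eq_dp l X β h s
  rw [this]
  exact continuous_dp (fun z hz => (sB_prim hz).ne_zero) _

/-! ### The Gauss sums -/

lemma Fl_eq (l : ℤ) {a b : Eis} (ha : IsPrim a) (hb : IsPrim b) :
    Fl l (a * b) = ang l a * ang l b * T411.F (a * b) := by
  classical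
  have hab := ha.mul hb
  by_cases h : Squarefree (a * b)
  · unfold Fl T411.F T411.mdl
    rw [if_pos h, if_pos h, P355.ang_mul, neg_div]
  · rw [F_eq_zero hab h, mul_zero]
    unfold Fl
    rw [if_neg h]

section form

variable {ι : Type} (l : ℤ) (X : ℕ) (B : ℝ) (I : Finset ι) (a : ι → Finset PrP) (g : ι → ℝ)
  (α : ι → ℂ) (β : Finset PrP → ℂ)

/-- the twisted form -/
def DD (t : ℝ) : ℝ :=
  ‖∑ i ∈ I, ∑ b ∈ sB X β, α i * (β (pset b) * Fl l (prd (a i) * b)) *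
    (osc t (-cph B (g i)) * pw t (nm b))‖

lemma continuous_DD : Continuous (DD l X B I a g α β) := by
  unfold DD
  apply Continuous.norm
  apply continuous_finsetSum
  intro i _
  apply continuous_finsetSum
  intro b _
  exact continuous_const.mul ((continuous_osc_left _).mul (continuous_pw_left _))

lemma Ix_le (hB : 1 ≤ B) {w : ℝ} (hs : Supp w B β) :
    ‖Ix l X I a g α β‖ ≤ ∫ t, ‖kB B t‖ * DD l X B I a g α β t := by
  have hS : ∀ b ∈ sB X β, B < nm b ∧ (nm b : ℝ) ≤ 2 * B := fun b hb => nm_sB hs hb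
  have h := perron I (sB X β) hB hS (fun i b => α i * (β (pset b) * Fl l (prd (a i) * b))) g
  refine le_trans (le_of_eq ?_) h
  unfold Ix
  refine congrArg _ ?_
  refine Finset.sum_congr rfl fun i _ => ?_
  rw [Finset.sum_filter]
  have e : ∀ b ∈ sB X β, (if (nm b : ℝ) ≤ g i then
      α i * (β (pset b) * Fl l (prd (a i) * b)) else 0) =
      β (pset b) * (if (nm b : ℝ) ≤ g i then α i * Fl l (prd (a i) * b) else 0) := by
    intro b _
    split_ifs <;> ring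
  rw [Finset.sum_congr rfl e, sum_sB, Finset.mul_sum]
  refine Finset.sum_congr rfl fun T _ => ?_
  by_cases hT : (nm (prd T) : ℝ) ≤ g i
  · rw [if_pos hT, if_pos hT]; ring
  · rw [if_neg hT, if_neg hT]; ring

lemma DD_le (t : ℝ) : DD l X B I a g α β t ≤
    ∑ i ∈ I, ‖α i‖ * ‖∑ b ∈ sB X β, bE l β t b * T411.F (prd (a i) * b)‖ := by
  unfold DD
  refine (norm_sum_le _ _).trans (Finset.sum_le_sum fun i _ => ?_)
  have e : ∑ b ∈ sB X β, α i * (β (pset b) * Fl l (prd (a i) * b)) *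
      (osc t (-cph B (g i)) * pw t (nm b)) =
      (α i * ang l (prd (a i)) * osc t (-cph B (g i))) *
        ∑ b ∈ sB X β, bE l β t b * T411.F (prd (a i) * b) := by
    rw [Finset.mul_sum]
    refine Finset.sum_congr rfl fun b hb => ?_
    have hbp := sB_prim hb
    have h0 : (0 : ℝ) < nm b := by exact_mod_cast nm_pos.mpr hbp.ne_zero
    rw [Fl_eq l (isPrim_prd _) hbp, pw_eq_cpow h0]
    unfold bE nit
    push_cast
    ring
  rw [e, norm_mul, norm_mul, norm_mul, norm_osc, mul_one]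
  have h1 := P355.norm_ang_le l (prd (a i))
  have h2 : ‖α i‖ * ‖ang l (prd (a i))‖ ≤ ‖α i‖ := by nlinarith [norm_nonneg (α i)]
  exact mul_le_mul_of_nonneg_right h2 (norm_nonneg _)

lemma Mu_nonneg : 0 ≤ Mu I a α := by
  unfold Mu
  refine Finset.sum_nonneg fun i _ => Finset.sum_nonneg fun j _ => ?_
  split_ifs <;> positivity

lemma DD_sq_le {A : ℝ} (hA : 0 < A) (hβ : ∀ T, ‖β T‖ ≤ 1)
    (ha : ∀ i ∈ I, (nm (prd (a i)) : ℝ) ≤ A) (t : ℝ) :
    DD l X B I a g α β t ^ 2 ≤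
      Mu I a α * (Real.exp 1 * T411.SS A (sB X β) (bE l β t)) := by
  classical
  have hMu := Mu_nonneg I a α
  have h1 := DD_le l X B I a g α β t
  have h2 := cs_mu I a (fun i => ‖α i‖)
    (fun c => ‖∑ b ∈ sB X β, bE l β t b * T411.F (prd c * b)‖) (I.image a)
    (fun i hi => Finset.mem_image_of_mem a hi)
  have h2' : ∑ i ∈ I, ‖α i‖ * ‖∑ b ∈ sB X β, bE l β t b * T411.F (prd (a i) * b)‖ ≤
      Real.sqrt (Mu I a α) * Real.sqrt (∑ c ∈ I.image a,
        ‖∑ b ∈ sB X β, bE l β t b * T411.F (prd c * b)‖ ^ 2) := by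
    refine h2.trans (le_of_eq ?_)
    refine congrArg (fun x => Real.sqrt x * _) ?_
    unfold Mu
    refine Finset.sum_congr rfl fun i _ => Finset.sum_congr rfl fun j _ => ?_
    by_cases hij : a i = a j
    · rw [if_pos hij, if_pos hij]
    · rw [if_neg hij, if_neg hij]
  have h3 : ∑ c ∈ I.image a, ‖∑ b ∈ sB X β, bE l β t b * T411.F (prd c * b)‖ ^ 2 ≤
      Real.exp 1 * T411.SS A (sB X β) (bE l β t) := by
    have h4 := sum_le_SS hA (sB X β) (bE l β t) (fun b hb => sB_prim hb)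
      (norm_bE_le l hβ t) ((I.image a).image prd) (fun x hx => by
        rw [Finset.mem_image] at hx
        obtain ⟨c, hc, rfl⟩ := hx
        rw [Finset.mem_image] at hc
        obtain ⟨i, hi, rfl⟩ := hc
        exact ⟨⟨isPrim_prd _, squarefree_prd _⟩, ha i hi⟩)
    rw [Finset.sum_image (fun x _ y _ h => prd_injective h)] at h4
    exact h4
  have h0 : 0 ≤ DD l X B I a g α β t := norm_nonneg _
  have h5 : DD l X B I a g α β t ≤ Real.sqrt (Mu I a α) *
      Real.sqrt (Real.exp 1 * T411.SS A (sB X β) (bE l β t)) := by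
    refine (h1.trans h2').trans ?_
    exact mul_le_mul_of_nonneg_left (Real.sqrt_le_sqrt h3) (Real.sqrt_nonneg _)
  have hSS : 0 ≤ Real.exp 1 * T411.SS A (sB X β) (bE l β t) :=
    le_trans (Finset.sum_nonneg fun _ _ => by positivity) h3
  calc DD l X B I a g α β t ^ 2 ≤ (Real.sqrt (Mu I a α) *
      Real.sqrt (Real.exp 1 * T411.SS A (sB X β) (bE l β t))) ^ 2 :=
        pow_le_pow_left₀ h0 h5 2
    _ = _ := by rw [mul_pow, Real.sq_sqrt hMu, Real.sq_sqrt hSS]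

end form

end Crest.Agent.R012.TII54
end
end

-- ▼ part R012/TIInum_54
section

/-!
# Row 12, item TIIS: numeric lemmas (helper54)
-/

set_option autoImplicit false

noncomputable section

open Filter Topology

namespace Crest.Agent.R012.TII54

/-- first bracket -/
lemma num1 {c0 CS L U Y B T0 H : ℝ} (hc0 : 0 ≤ c0) (hL : 1 ≤ L) (hU : 1 ≤ U)
    (hY : 0 < Y) (hY1 : Y ≤ 1) (hB : 1 ≤ B) (hT0 : T0 = U ^ 2 / Y) (hH0 : 0 ≤ H)
    (hH : H ≤ 100 * U) :
    c0 * Y + U / B ^ 2 * (H * (Real.pi * (CS * B * (Y / (U ^ 2 * L))) ^ 2 +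
      2 * (200 * B) ^ 2 / T0)) ≤ (c0 + 100 * (Real.pi * CS ^ 2 + 80000)) * Y := by
  have hpi := Real.pi_pos
  have h1 : Real.pi * (CS * B * (Y / (U ^ 2 * L))) ^ 2 + 2 * (200 * B) ^ 2 / T0 =
      B ^ 2 * (Real.pi * CS ^ 2 * (Y ^ 2 / (U ^ 4 * L ^ 2)) + 80000 * (Y / U ^ 2)) := by
    rw [hT0]; field_simp; ring
  have h2 : Y ^ 2 / (U ^ 4 * L ^ 2) ≤ Y / U ^ 2 := by
    rw [div_le_div_iff₀ (by positivity) (by positivity)]
    have e1 : Y ^ 2 * U ^ 2 = Y * (Y * (U ^ 2 * 1)) := by ring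
    have e2 : Y * (U ^ 4 * L ^ 2) = Y * (1 * (U ^ 2 * (U ^ 2 * L ^ 2))) := by ring
    rw [e1, e2]
    have h3 : (1 : ℝ) ≤ U ^ 2 * L ^ 2 := by
      have := one_le_pow₀ hU (n := 2)
      have := one_le_pow₀ hL (n := 2)
      nlinarith
    gcongr
  rw [h1]
  calc c0 * Y + U / B ^ 2 * (H * (B ^ 2 * (Real.pi * CS ^ 2 * (Y ^ 2 / (U ^ 4 * L ^ 2)) +
        80000 * (Y / U ^ 2))))
      ≤ c0 * Y + U / B ^ 2 * (100 * U * (B ^ 2 * (Real.pi * CS ^ 2 * (Y / U ^ 2) +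
        80000 * (Y / U ^ 2)))) := by gcongr
    _ = _ := by field_simp

/-- second bracket -/
lemma num2 {c0 L U Y B T0 H : ℝ} (hc0 : 0 ≤ c0) (hL : 1 ≤ L) (hU : 1 ≤ U)
    (hY : 0 < Y) (hY1 : Y ≤ 1) (hB : 1 ≤ B) (hT0 : T0 = U ^ 2 / Y) (hH0 : 0 ≤ H)
    (hH : H ≤ 100 * U) (hB2 : U ^ 2 * L / Y ≤ Real.sqrt B) :
    c0 * Y + U / B ^ 2 * (H * (Real.pi * (900000 * (2 * B / T0 + Real.sqrt (2 * B) *
      (1 + 5 * L)) * (200 * B)))) ≤ (c0 + 18000000000 * 14 * Real.pi) * Y := by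
  have hpi := Real.pi_pos
  have hs : Real.sqrt (2 * B) ≤ 2 * Real.sqrt B := by
    rw [Real.sqrt_le_left (by positivity), mul_pow, Real.sq_sqrt (by linarith)]
    linarith
  have hsB : 0 < Real.sqrt B := Real.sqrt_pos.mpr (by linarith)
  have hB3 : Real.sqrt B * Real.sqrt B = B := Real.mul_self_sqrt (by linarith)
  have h5 : U ^ 2 * L ≤ Real.sqrt B * Y := by
    rwa [div_le_iff₀ hY] at hB2
  have h6 : U ^ 2 * (Real.sqrt (2 * B) * (1 + 5 * L)) ≤ 12 * B * Y := by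
    calc U ^ 2 * (Real.sqrt (2 * B) * (1 + 5 * L)) ≤ U ^ 2 * (2 * Real.sqrt B * (6 * L)) := by
          gcongr
          linarith
      _ = 12 * Real.sqrt B * (U ^ 2 * L) := by ring
      _ ≤ 12 * Real.sqrt B * (Real.sqrt B * Y) := by gcongr
      _ = 12 * (Real.sqrt B * Real.sqrt B) * Y := by ring
      _ = 12 * B * Y := by rw [hB3]
  have h7 : U ^ 2 * (2 * B / T0) = 2 * B * Y := by
    rw [hT0]; field_simp
  calc c0 * Y + U / B ^ 2 * (H * (Real.pi * (900000 * (2 * B / T0 + Real.sqrt (2 * B) *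
        (1 + 5 * L)) * (200 * B))))
      ≤ c0 * Y + U / B ^ 2 * ((100 * U) * (Real.pi * (900000 * (2 * B / T0 + Real.sqrt (2 * B) *
        (1 + 5 * L)) * (200 * B)))) := by
        have : 0 < T0 := by rw [hT0]; positivity
        gcongr
    _ = c0 * Y + 18000000000 * Real.pi / B * (U ^ 2 * (2 * B / T0) +
        U ^ 2 * (Real.sqrt (2 * B) * (1 + 5 * L))) := by
        field_simp
        ring
    _ ≤ c0 * Y + 18000000000 * Real.pi / B * (2 * B * Y + 12 * B * Y) := by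
        rw [h7]
        gcongr
    _ = _ := by field_simp; ring

/-- third bracket -/
lemma num3 {c0 U Y B H : ℝ} (hc0 : 0 ≤ c0) (hU : 1 ≤ U)
    (hY : 0 < Y) (hY1 : Y ≤ 1) (hB : 1 ≤ B) (hH0 : 0 ≤ H) (hH : H ≤ 100 * U) :
    c0 * Y + U / B ^ 2 * (H * (Real.pi * (200 * B) ^ 2)) ≤
      (c0 + 4000000 * Real.pi) * U ^ 2 := by
  have hpi := Real.pi_pos
  have h1 : (1 : ℝ) ≤ U ^ 2 := one_le_pow₀ hU
  calc c0 * Y + U / B ^ 2 * (H * (Real.pi * (200 * B) ^ 2))
      ≤ c0 * U ^ 2 + U / B ^ 2 * ((100 * U) * (Real.pi * (200 * B) ^ 2)) := by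
        gcongr
        linarith
    _ = _ := by field_simp; ring

/-- the final combination -/
lemma num_final {A : ℕ} {L U Y B k1 k2 k3 cI cK0 cK1 q1 q2 q3 lg ef : ℝ}
    (hL : 1 ≤ L) (hU : 1 ≤ U) (hB : 1 ≤ B) (hYdef : Y = ((L ^ (A + 1)) ^ 2)⁻¹)
    (hk1 : 0 ≤ k1) (hk2 : 0 ≤ k2) (hk3 : 0 ≤ k3) (hI : 0 ≤ cI) (hK0 : 0 ≤ cK0)
    (hK1 : 0 ≤ cK1) (h1 : q1 ≤ k1 * Y) (h2 : q2 ≤ k2 * Y) (h3 : q3 ≤ k3 * U ^ 2)
    (hB2 : U ^ 2 * L / Y ≤ Real.sqrt B) (hlg : lg ≤ 4 * L) (hlg0 : 0 ≤ lg)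
    (hef : ef ≤ 1 / B) (hef0 : 0 ≤ ef) :
    cI * lg * Real.sqrt q1 + 4 * cK0 * (Real.sqrt q2 * (5 * L)) +
      4 * cK1 * ef * Real.sqrt q3 ≤
      (4 * cI * Real.sqrt k1 + 20 * cK0 * Real.sqrt k2 + 4 * cK1 * Real.sqrt k3) / L ^ A := by
  have hL0 : 0 < L := by linarith
  have hLA : 0 < L ^ (A + 1) := by positivity
  have hLA1 : 1 ≤ L ^ (A + 1) := one_le_pow₀ hL
  have hY : 0 < Y := by rw [hYdef]; positivity
  have sY : Real.sqrt Y = (L ^ (A + 1))⁻¹ := by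
    rw [hYdef, Real.sqrt_inv, Real.sqrt_sq hLA.le]
  have s1 : Real.sqrt q1 ≤ Real.sqrt k1 * (L ^ (A + 1))⁻¹ := by
    rw [← sY, ← Real.sqrt_mul hk1]
    exact Real.sqrt_le_sqrt h1
  have s2 : Real.sqrt q2 ≤ Real.sqrt k2 * (L ^ (A + 1))⁻¹ := by
    rw [← sY, ← Real.sqrt_mul hk2]
    exact Real.sqrt_le_sqrt h2
  have s3 : Real.sqrt q3 ≤ Real.sqrt k3 * U := by
    have : Real.sqrt (k3 * U ^ 2) = Real.sqrt k3 * U := by
      rw [Real.sqrt_mul hk3, Real.sqrt_sq (by linarith)]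
    rw [← this]
    exact Real.sqrt_le_sqrt h3
  have hB4 : U * L ^ A ≤ B := by
    have hB0 : 0 ≤ B := by linarith
    have e1 : Real.sqrt B ≤ B := by
      rw [Real.sqrt_le_left hB0]; nlinarith
    have e2 : U * L ^ A ≤ U ^ 2 * L / Y := by
      rw [hYdef, div_inv_eq_mul]
      have e3 : U * L ^ A = U * (1 * (L ^ A)) := by ring
      have e4 : U ^ 2 * L * (L ^ (A + 1)) ^ 2 = U * (U * L * (L ^ (A + 1)) * L * L ^ A) := by
        ring
      rw [e3, e4]
      have e5 : (1 : ℝ) ≤ U * L * (L ^ (A + 1)) * L := by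
        have : (1 : ℝ) ≤ U * L := by nlinarith
        have : (1 : ℝ) ≤ U * L * L ^ (A + 1) := by nlinarith
        nlinarith
      have e6 : 0 < L ^ A := by positivity
      gcongr
    linarith
  have hpow : L ^ (A + 1) = L ^ A * L := pow_succ L A
  have hLA0 : 0 < L ^ A := by positivity
  have t1 : cI * lg * Real.sqrt q1 ≤ 4 * cI * Real.sqrt k1 / L ^ A := by
    calc cI * lg * Real.sqrt q1 ≤ cI * (4 * L) * (Real.sqrt k1 * (L ^ (A + 1))⁻¹) := by gcongr
      _ = _ := by rw [hpow]; field_simp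
  have t2 : 4 * cK0 * (Real.sqrt q2 * (5 * L)) ≤ 20 * cK0 * Real.sqrt k2 / L ^ A := by
    calc 4 * cK0 * (Real.sqrt q2 * (5 * L)) ≤
        4 * cK0 * (Real.sqrt k2 * (L ^ (A + 1))⁻¹ * (5 * L)) := by gcongr
      _ = _ := by rw [hpow]; field_simp; ring
  have t3 : 4 * cK1 * ef * Real.sqrt q3 ≤ 4 * cK1 * Real.sqrt k3 / L ^ A := by
    have hUB : U / B ≤ 1 / L ^ A := by
      rw [div_le_div_iff₀ (by linarith) hLA0]
      linarith
    calc 4 * cK1 * ef * Real.sqrt q3 ≤ 4 * cK1 * (1 / B) * (Real.sqrt k3 * U) := by gcongr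
      _ = 4 * cK1 * Real.sqrt k3 * (U / B) := by ring
      _ ≤ 4 * cK1 * Real.sqrt k3 * (1 / L ^ A) := by gcongr
      _ = _ := by ring
  rw [add_div, add_div]
  linarith

/-- `log^p ≤ X^s` eventually, natural `X` -/
lemma ev_log_le (p s : ℝ) (hs : 0 < s) :
    ∀ᶠ X : ℕ in atTop, Real.log X ^ p ≤ (X : ℝ) ^ s := by
  have h := (isLittleO_log_rpow_rpow_atTop p hs).comp_tendsto tendsto_natCast_atTop_atTop
  have h2 := h.bound (show (0 : ℝ) < 1 by norm_num)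
  filter_upwards [h2, eventually_ge_atTop 3] with X hX h3
  simp only [Function.comp_apply, one_mul] at hX
  have h4 : (0 : ℝ) ≤ Real.log X := Real.log_natCast_nonneg X
  rw [Real.norm_of_nonneg (by positivity), Real.norm_of_nonneg (by positivity)] at hX
  exact hX

lemma ev_log_ge (c : ℝ) : ∀ᶠ X : ℕ in atTop, c ≤ Real.log X :=
  (Real.tendsto_log_atTop.comp tendsto_natCast_atTop_atTop).eventually_ge_atTop c

end Crest.Agent.R012.TII54
end
end

-- ▼ part R012/TIIfin_54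
section

/-!
# Row 12, item TIIS: the common part of `TIIx_Prop` and `TIIcx_Prop`  (helper54)
-/

set_option autoImplicit false

noncomputable section

open MeasureTheory Complex Set Filter Topology
open Crest.Agent.R012 Crest.Agent.R012.Eis Crest.Agent.R012.Weight600 Crest.Agent.R012.MV400
open Crest.Agent.R012.Buch420 Crest.Agent.R012.Main48

namespace Crest.Agent.R012.TII54

lemma card_NC_le {H : ℝ} (hH : 0 ≤ H) : ((T411.NC H).card : ℝ) ≤ 100 * H := by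
  classical
  have h1 : T411.NC H ⊆ LS2.bl H := Finset.filter_subset _ _
  have h2 : ((T411.NC H).card : ℝ) ≤ ((LS2.bl H).card : ℝ) := by
    exact_mod_cast Finset.card_le_card h1
  have h3 : ((LS2.bl H).card : ℝ) ≤ 100 * ⌊H⌋₊ := Lat277.card_ball_erase_le ⌊H⌋₊
  have h4 : ((⌊H⌋₊ : ℕ) : ℝ) ≤ H := Nat.floor_le hH
  linarith

lemma NC_mono {H H' : ℝ} (hH : 0 ≤ H) (h : H ≤ H') {x : Eis} (hx : x ∈ T411.NC H) :
    x ∈ T411.NC H' := by
  classical
  unfold T411.NC at hx ⊢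
  rw [Finset.mem_filter, LS2.mem_bl hH] at hx
  rw [Finset.mem_filter, LS2.mem_bl (hH.trans h)]
  exact ⟨⟨hx.1.1, hx.1.2.trans h⟩, hx.2⟩

lemma norm_tw_le (l : ℤ) (X : ℕ) {β : Finset PrP → ℂ} (hβ : ∀ T, ‖β T‖ ≤ 1) (h : Eis) (s : ℝ) :
    ‖tw l X β h s‖ ≤ (sB X β).card := by
  rw [tw_eq_dp]
  unfold dp
  refine (norm_sum_le _ _).trans ?_
  calc _ ≤ ∑ b ∈ sB X β, (1 : ℝ) := by
        refine Finset.sum_le_sum fun b hb => ?_
        rw [norm_mul, norm_mul, norm_mul]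
        exact mul_le_one₀ (mul_le_one₀ (hβ _) (by positivity)
          (mul_le_one₀ (P355.norm_ang_le l b) (norm_nonneg _)
            (Tau671.norm_sy_le (sB_prim hb)))) (norm_nonneg _) (norm_nit_le s b)
    _ = _ := by rw [Finset.sum_const, nsmul_eq_mul, mul_one]

set_option maxHeartbeats 2000000 in
/-- **The common part.** -/
theorem core (hSW : SWx_Prop) (l : ℤ) (A : ℕ) (C c0 : ℝ) (hC : 0 < C) (hc0 : 0 ≤ c0) :
    ∃ (K : ℝ) (X0 : ℕ), ∀ X : ℕ, X0 ≤ X → ∀ (B : ℝ) (β : Finset PrP → ℂ),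
      (X : ℝ) ^ ((1 : ℝ) / 4) ≤ B → 2 * B ≤ X → SWc β → Supp (wX X) B β →
      (∀ t : ℝ, T411.SS (X / B) (sB X β) (bE l β t) ≤
        C * ((X : ℝ) ^ ((2 : ℝ) / 3) * B * (c0 * ((LX X ^ (A + 1)) ^ 2)⁻¹ +
          LX X ^ C / B ^ 2 * ∑ h ∈ T411.NC (LX X ^ C), cv (fun s => ‖tw l X β h s‖ ^ 2) t))) →
      ∀ (ι : Type) (I : Finset ι) (a : ι → Finset PrP) (g : ι → ℝ) (α : ι → ℂ),
        (∀ i ∈ I, (nm (prd (a i)) : ℝ) ≤ X / B) →
        ‖Ix l X I a g α β‖ ≤
          K * (X : ℝ) ^ ((1 : ℝ) / 3) * Real.sqrt B * Real.sqrt (Mu I a α) / LX X ^ A := by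
  obtain ⟨K2, hK2⟩ : ∃ K2 : ℝ, K2 = 2 * C + (2 * A + 2) + 1 := ⟨_, rfl⟩
  have hK2pos : 0 < K2 := by rw [hK2]; positivity
  obtain ⟨CS, X1, hCS, hS⟩ := hSW l K2 hK2pos
  have hpi := Real.pi_pos
  have hCint := Cint_pos
  have hCk0 := Ck_pos 0
  have hCk1 := Ck_pos 1
  obtain ⟨k1, hk1⟩ : ∃ k1 : ℝ, k1 = c0 + 100 * (Real.pi * CS ^ 2 + 80000) := ⟨_, rfl⟩
  obtain ⟨k2, hk2⟩ : ∃ k2 : ℝ, k2 = c0 + 18000000000 * 14 * Real.pi := ⟨_, rfl⟩
  obtain ⟨k3, hk3⟩ : ∃ k3 : ℝ, k3 = c0 + 4000000 * Real.pi := ⟨_, rfl⟩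
  have hk10 : 0 ≤ k1 := by rw [hk1]; positivity
  have hk20 : 0 ≤ k2 := by rw [hk2]; positivity
  have hk30 : 0 ≤ k3 := by rw [hk3]; positivity
  obtain ⟨X2, hX2⟩ := eventually_atTop.mp ((ev_log_le K2 (1 / 8) (by norm_num)).and
    ((ev_log_ge 2).and (eventually_ge_atTop (max X1 8))))
  refine ⟨Real.sqrt (Real.exp 1 * C) *
    (4 * Cint * Real.sqrt k1 + 20 * Ck 0 * Real.sqrt k2 + 4 * Ck 1 * Real.sqrt k3), X2, ?_⟩
  intro X hX B β hB1 hB2 hβ hs hSS ι I a g α ha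
  obtain ⟨hlog, hL2, hXX⟩ := hX2 X hX
  have hXX1 : X1 ≤ X := (le_max_left _ _).trans hXX
  have hX8 : 8 ≤ X := (le_max_right _ _).trans hXX
  have hXr : (8 : ℝ) ≤ X := by exact_mod_cast hX8
  have hX0 : (0 : ℝ) < X := by linarith
  obtain ⟨L, hL⟩ : ∃ L : ℝ, L = LX X := ⟨_, rfl⟩
  have hLd : L = Real.log X := hL
  rw [← hLd] at hlog hL2
  simp only [← hL] at hSS hS ⊢
  have hL1 : 1 ≤ L := by linarith
  have hL0 : 0 < L := by linarith
  have hB : 1 ≤ B := le_trans (Real.one_le_rpow (by linarith) (by norm_num)) hB1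
  have hB0 : 0 < B := by linarith
  obtain ⟨U, hU⟩ : ∃ U : ℝ, U = L ^ C := ⟨_, rfl⟩
  rw [← hU] at hSS
  have hU1 : 1 ≤ U := by rw [hU]; exact Real.one_le_rpow hL1 hC.le
  have hU0 : 0 < U := by linarith
  obtain ⟨Y, hY⟩ : ∃ Y : ℝ, Y = ((L ^ (A + 1)) ^ 2)⁻¹ := ⟨_, rfl⟩
  rw [← hY] at hSS
  have hY0 : 0 < Y := by rw [hY]; positivity
  have hYinv : Y⁻¹ = (L ^ (A + 1)) ^ 2 := by rw [hY, inv_inv]
  have hYi1 : 1 ≤ Y⁻¹ := by
    rw [hYinv]; exact one_le_pow₀ (one_le_pow₀ hL1)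
  have hY1 : Y ≤ 1 := by
    rw [← inv_inv Y]; exact inv_le_one_of_one_le₀ hYi1
  -- `L ^ K2 = U ^ 2 * L / Y`
  have hLK2 : L ^ K2 = U ^ 2 * L / Y := by
    rw [div_eq_mul_inv, hYinv, hK2, Real.rpow_add hL0, Real.rpow_add hL0, Real.rpow_one]
    have e1 : L ^ (2 * C) = U ^ 2 := by
      rw [hU, mul_comm, Real.rpow_mul hL0.le]
      norm_cast
    have e2 : L ^ (2 * (A : ℝ) + 2) = (L ^ (A + 1)) ^ 2 := by
      rw [← pow_mul]
      have : (2 * (A : ℝ) + 2) = (((A + 1) * 2 : ℕ) : ℝ) := by push_cast; ring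
      rw [this, Real.rpow_natCast]
    rw [e1, e2]
    ring
  have hsB : U ^ 2 * L / Y ≤ Real.sqrt B := by
    rw [← hLK2]
    refine hlog.trans ?_
    apply Real.le_sqrt_of_sq_le
    calc ((X : ℝ) ^ ((1 : ℝ) / 8)) ^ 2 = (X : ℝ) ^ ((1 : ℝ) / 4) := by
          rw [← Real.rpow_natCast, ← Real.rpow_mul hX0.le]; norm_num
      _ ≤ B := hB1
  obtain ⟨T0, hT0⟩ : ∃ T0 : ℝ, T0 = U ^ 2 / Y := ⟨_, rfl⟩
  have hT01 : 1 ≤ T0 := by
    rw [hT0, div_eq_mul_inv]
    exact one_le_mul_of_one_le_of_one_le (one_le_pow₀ hU1) hYi1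
  have hT00 : 0 < T0 := by linarith
  obtain ⟨T2, hT2⟩ : ∃ T2 : ℝ, T2 = (8 * B + 8) ^ 2 := ⟨_, rfl⟩
  have hT20 : 0 < T2 := by rw [hT2]; positivity
  have h02 : T0 ≤ T2 := by
    have h1 : T0 ≤ Real.sqrt B := by
      refine le_trans ?_ hsB
      rw [hT0]
      apply div_le_div_of_nonneg_right _ hY0.le
      exact le_mul_of_one_le_right (by positivity) hL1
    have h2 : Real.sqrt B ≤ B := by
      rw [Real.sqrt_le_left hB0.le]; nlinarith
    rw [hT2]
    have h3 : B ≤ (8 * B + 8) ^ 2 := by nlinarith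
    linarith
  have hLg : Real.log (T2 / T0) ≤ 5 * L := by
    have h1 : Real.log (T2 / T0) ≤ Real.log ((8 * X) ^ 2) := by
      apply Real.log_le_log (by positivity)
      rw [div_le_iff₀ hT00]
      have : T2 ≤ (8 * X) ^ 2 := by
        rw [hT2]
        apply pow_le_pow_left₀ (by positivity)
        linarith
      have h3 : 0 ≤ (8 * (X : ℝ)) ^ 2 := by positivity
      have h4 : (8 * (X : ℝ)) ^ 2 * 1 ≤ (8 * (X : ℝ)) ^ 2 * T0 :=
        mul_le_mul_of_nonneg_left hT01 h3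
      linarith
    have h2 : Real.log ((8 * (X : ℝ)) ^ 2) = 2 * (3 * Real.log 2 + L) := by
      rw [Real.log_pow, Real.log_mul (by norm_num) hX0.ne']
      have : (8 : ℝ) = 2 ^ 3 := by norm_num
      rw [this, Real.log_pow, hLd]
      push_cast
      rfl
    have := Real.log_two_lt_d9
    linarith
  have hlg1 : 1 + Real.log (32 * B) ≤ 4 * L := by
    have h1 : Real.log (32 * B) ≤ Real.log (16 * X) :=
      Real.log_le_log (by positivity) (by linarith)
    have h2 : Real.log (16 * (X : ℝ)) = 4 * Real.log 2 + L := by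
      rw [Real.log_mul (by norm_num) hX0.ne']
      have : (16 : ℝ) = 2 ^ 4 := by norm_num
      rw [this, Real.log_pow, hLd]
      push_cast
      rfl
    have := Real.log_two_lt_d9
    linarith
  have hlg0 : 0 ≤ 1 + Real.log (32 * B) := by
    have : 0 ≤ Real.log (32 * B) := Real.log_nonneg (by linarith)
    linarith
  -- the family
  obtain ⟨H, hH⟩ : ∃ H : Finset Eis, H = T411.NC U := ⟨_, rfl⟩
  rw [← hH] at hSS
  have hHc : ((H.card : ℕ) : ℝ) ≤ 100 * U := by rw [hH]; exact card_NC_le hU0.le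
  obtain ⟨f, hf⟩ : ∃ f : Eis → ℝ → ℝ, ∀ h, f h = fun s => ‖tw l X β h s‖ ^ 2 :=
    ⟨fun h s => ‖tw l X β h s‖ ^ 2, fun _ => rfl⟩
  simp only [← hf] at hSS
  have hfc : ∀ h ∈ H, Continuous (f h) := fun h _ => by
    have := continuous_tw l X β h
    rw [hf]
    fun_prop
  have hf0 : ∀ h ∈ H, ∀ s, 0 ≤ f h s := fun h _ s => by
    rw [hf]
    positivity
  have hcard := card_sB_le (X := X) hB hs
  have hfM : ∀ h ∈ H, ∀ s, f h s ≤ (200 * B) ^ 2 := fun h _ s => by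
    rw [hf]
    exact pow_le_pow_left₀ (norm_nonneg _) ((norm_tw_le l X hβ.bd h s).trans hcard) 2
  obtain ⟨E, hE⟩ : ∃ E : ℝ, E = (CS * B * (Y / (U ^ 2 * L))) ^ 2 := ⟨_, rfl⟩
  have hE0 : 0 ≤ E := by rw [hE]; positivity
  have hfE : ∀ h ∈ H, ∀ s, |s| ≤ 2 * T0 → f h s ≤ E := by
    intro h hh s hsT
    have h1 : |s| ≤ L ^ K2 := by
      rw [hLK2]
      refine hsT.trans ?_
      rw [hT0]
      calc 2 * (U ^ 2 / Y) ≤ L * (U ^ 2 / Y) :=
            mul_le_mul_of_nonneg_right hL2 (by positivity)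
        _ = _ := by ring
    have h2 : h ∈ T411.NC (L ^ K2) := by
      rw [hH] at hh
      apply NC_mono hU0.le _ hh
      rw [hU]
      apply Real.rpow_le_rpow_of_exponent_le hL1
      rw [hK2]
      have : (0 : ℝ) ≤ A := Nat.cast_nonneg A
      linarith
    have h3 := hS X hXX1 B β hB hB2 hβ hs h (by rw [← hL]; exact h2) s (by rw [← hL]; exact h1)
    have h4 : LX X ^ (-K2) = Y / (U ^ 2 * L) := by
      rw [← hL, Real.rpow_neg hL0.le, hLK2, inv_div]
    rw [h4] at h3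
    rw [hf, hE]
    exact pow_le_pow_left₀ (norm_nonneg _) h3 2
  obtain ⟨J, hJ⟩ : ∃ J : ℝ, J = Real.pi * (900000 * (2 * B / T0 + Real.sqrt (2 * B) *
    (1 + 5 * L)) * (200 * B)) := ⟨_, rfl⟩
  have hJ0 : 0 ≤ J := by rw [hJ]; positivity
  have hfJ : ∀ h ∈ H, ∀ σ : ℝ, (σ = 1 ∨ σ = -1) →
      ∫ t in T0..T2, cv (f h) (σ * t) / t ≤ J := by
    intro h _ σ hσ
    have h1 := tavg (sB X β) (fun b => β (pset b) * (ang l b * sy h b)) (N := 2 * B)
      (T1 := T0) (T2 := T2) (by linarith) hT01 h02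
      (fun z hz => ⟨(sB_prim hz).ne_zero, (nm_sB hs hz).2⟩) hσ
    have h2 : (fun s => ‖dp (sB X β) (fun b => β (pset b) * (ang l b * sy h b)) s‖ ^ 2) = f h := by
      rw [hf]
      funext s
      rw [tw_eq_dp]
    rw [h2] at h1
    refine h1.trans ?_
    have h3 : ∑ z ∈ sB X β, ‖β (pset z) * (ang l z * sy h z)‖ ^ 2 ≤ 200 * B := by
      refine le_trans ?_ hcard
      calc _ ≤ ∑ b ∈ sB X β, (1 : ℝ) := by
            refine Finset.sum_le_sum fun b hb => ?_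
            apply pow_le_one₀ (norm_nonneg _)
            rw [norm_mul, norm_mul]
            exact mul_le_one₀ (hβ.bd _) (by positivity)
              (mul_le_one₀ (P355.norm_ang_le l b) (norm_nonneg _)
                (Tau671.norm_sy_le (sB_prim hb)))
        _ = _ := by rw [Finset.sum_const, nsmul_eq_mul, mul_one]
    rw [hJ]
    have h4 : 0 ≤ Real.log (T2 / T0) := Real.log_nonneg (by
      rw [le_div_iff₀ hT00]; linarith)
    have h5 : 0 ≤ Real.sqrt (2 * B) := Real.sqrt_nonneg _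
    apply mul_le_mul_of_nonneg_left _ Real.pi_pos.le
    apply mul_le_mul _ h3 (Finset.sum_nonneg fun _ _ => by positivity) (by positivity)
    apply mul_le_mul_of_nonneg_left _ (by norm_num)
    have h6 : Real.sqrt (2 * B) * (1 + Real.log (T2 / T0)) ≤
        Real.sqrt (2 * B) * (1 + 5 * L) := mul_le_mul_of_nonneg_left (by linarith) h5
    linarith
  -- the pointwise bound
  have hMu := Mu_nonneg I a α
  obtain ⟨V, hV⟩ : ∃ V : ℝ, V = Mu I a α * (Real.exp 1 * C * ((X : ℝ) ^ ((2 : ℝ) / 3) * B)) :=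
    ⟨_, rfl⟩
  have hV0 : 0 ≤ V := by rw [hV]; positivity
  have hpt : ∀ t, DD l X B I a g α β t ^ 2 ≤
      V * (c0 * Y + U / B ^ 2 * ∑ h ∈ H, cv (f h) t) := by
    intro t
    have h1 := DD_sq_le l X B I a g α β (A := X / B) (by positivity) hβ.bd ha t
    have h2 := hSS t
    refine h1.trans ?_
    calc Mu I a α * (Real.exp 1 * T411.SS (X / B) (sB X β) (bE l β t))
        ≤ Mu I a α * (Real.exp 1 * (C * ((X : ℝ) ^ ((2 : ℝ) / 3) * B * (c0 * Y +
          U / B ^ 2 * ∑ h ∈ H, cv (f h) t)))) :=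
          mul_le_mul_of_nonneg_left (mul_le_mul_of_nonneg_left h2 (Real.exp_pos _).le) hMu
      _ = _ := by rw [hV]; ring
  have hq1 : 0 ≤ U / B ^ 2 := by positivity
  have key := abs_bound hB (DD l X B I a g α β) (continuous_DD l X B I a g α β)
    (fun t => norm_nonneg _) H f hfc hf0 hfM hV0 (by positivity : 0 ≤ c0 * Y) hq1
    (by positivity) hE0 hJ0 hpt hT00 h02 hLg
    (by linarith) hfE hfJ
  refine (Ix_le l X B I a g α β hB hs).trans (key.trans ?_)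
  have hHc0 : (0 : ℝ) ≤ H.card := Nat.cast_nonneg _
  have n1 := num1 (CS := CS) hc0 hL1 hU1 hY0 hY1 hB hT0 hHc0 hHc
  have n2 := num2 hc0 hL1 hU1 hY0 hY1 hB hT0 hHc0 hHc hsB
  have n3 := num3 hc0 hU1 hY0 hY1 hB hHc0 hHc
  rw [← hE, ← hk1] at n1
  rw [← hJ, ← hk2] at n2
  rw [← hk3] at n3
  have hef : (8 * B + 8) / T2 ≤ 1 / B := by
    rw [hT2, div_le_div_iff₀ (by positivity) hB0]
    nlinarith
  have nf := num_final (A := A) hL1 hU1 hB hY hk10 hk20 hk30 hCint.le hCk0.le hCk1.le n1 n2 n3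
    hsB hlg1 hlg0 hef (by positivity)
  have hsV : Real.sqrt V = Real.sqrt (Real.exp 1 * C) * ((X : ℝ) ^ ((1 : ℝ) / 3) *
      Real.sqrt B * Real.sqrt (Mu I a α)) := by
    have e1 : V = (Real.exp 1 * C) * (((X : ℝ) ^ ((1 : ℝ) / 3)) ^ 2 * B * Mu I a α) := by
      have : ((X : ℝ) ^ ((1 : ℝ) / 3)) ^ 2 = (X : ℝ) ^ ((2 : ℝ) / 3) := by
        rw [← Real.rpow_natCast, ← Real.rpow_mul hX0.le]; norm_num
      rw [this, hV]; ring
    rw [e1, Real.sqrt_mul (show 0 ≤ Real.exp 1 * C by positivity),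
      Real.sqrt_mul (show 0 ≤ ((X : ℝ) ^ ((1 : ℝ) / 3)) ^ 2 * B by positivity),
      Real.sqrt_mul (show 0 ≤ ((X : ℝ) ^ ((1 : ℝ) / 3)) ^ 2 by positivity),
      Real.sqrt_sq (by positivity)]
  have nf2 := mul_le_mul_of_nonneg_left nf (Real.sqrt_nonneg V)
  refine nf2.trans (le_of_eq ?_)
  rw [hsV]
  ring

end Crest.Agent.R012.TII54
end
end

-- ▼ part R012/TIIend_54

/-!
# Row 12, item TIIS: `Main48.TIIx_Prop` and `Main48.TIIcx_Prop`  (helper54)

* `tiix_of`   : `TMainN → SWx_Prop → TIIx_Prop`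
* `tiicx_of`  : `TMainC → SWx_Prop → CRx_Prop → TIIcx_Prop`
-/

set_option autoImplicit false

noncomputable section

open MeasureTheory Complex Set Filter Topology
open Crest.Agent.R012 Crest.Agent.R012.Eis Crest.Agent.R012.Weight600 Crest.Agent.R012.MV400
open Crest.Agent.R012.Buch420 Crest.Agent.R012.Main48

namespace Crest.Agent.R012.TII54

lemma int_tws_eq (l : ℤ) (X : ℕ) (β : Finset PrP → ℂ) (t : ℝ) (h : Eis) :
    ∫ u : ℝ, (1 + u ^ 2)⁻¹ * ‖T411.tws (sB X β) (bE l β t) h u‖ ^ 2 =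
      cv (fun s => ‖tw l X β h s‖ ^ 2) t := by
  unfold cv
  refine integral_congr_ae (Eventually.of_forall fun u => ?_)
  simp only
  rw [tws_eq]

/-- exponent identities for `A = X/B` -/
lemma pw1 {x B : ℝ} (hx : 0 < x) (hB : 0 < B) :
    (x / B) ^ ((2 : ℝ) / 3) * B ^ ((5 : ℝ) / 3) = x ^ ((2 : ℝ) / 3) * B := by
  rw [Real.div_rpow hx.le hB.le]
  have : B ^ ((5 : ℝ) / 3) = B ^ ((2 : ℝ) / 3) * B := by
    rw [← Real.rpow_add_one hB.ne']; norm_num
  rw [this]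
  have := Real.rpow_pos_of_pos hB ((2 : ℝ) / 3)
  field_simp

lemma pw2 {x B : ℝ} (hx : 0 < x) (hB : 0 < B) :
    (x / B) ^ ((2 : ℝ) / 3) * B ^ (-(1 : ℝ) / 3) = x ^ ((2 : ℝ) / 3) * B / B ^ 2 := by
  rw [Real.div_rpow hx.le hB.le]
  have h1 : B ^ (-(1 : ℝ) / 3) * B = B ^ ((2 : ℝ) / 3) := by
    rw [← Real.rpow_add_one hB.ne']; norm_num
  have h2 := Real.rpow_pos_of_pos hB ((2 : ℝ) / 3)
  have h3 : B ^ (-(1 : ℝ) / 3) = B ^ ((2 : ℝ) / 3) / B := by
    rw [← h1]; field_simp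
  rw [h3]
  field_simp

lemma pw3 {x : ℝ} (hx : 0 < x) : x = x ^ ((2 : ℝ) / 3) * x ^ ((1 : ℝ) / 3) := by
  rw [← Real.rpow_add hx]; norm_num

lemma LY (L : ℝ) (hL : 0 < L) (A : ℕ) :
    L ^ (-(2 * (A : ℝ) + 2)) = ((L ^ (A + 1)) ^ 2)⁻¹ := by
  rw [Real.rpow_neg hL.le, ← pow_mul]
  have : (2 * (A : ℝ) + 2) = (((A + 1) * 2 : ℕ) : ℝ) := by push_cast; ring
  rw [this, Real.rpow_natCast]

/-- the first term -/
lemma t1_le {x B L C : ℝ} {A : ℕ} (hx : 0 < x) (hL : 0 < L)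
    (h : x ^ ((1 : ℝ) / 3) * L ^ (C + (2 * A + 2)) ≤ B) :
    x * L ^ C ≤ x ^ ((2 : ℝ) / 3) * B * ((L ^ (A + 1)) ^ 2)⁻¹ := by
  rw [← LY L hL A]
  have h1 : L ^ (C + (2 * (A : ℝ) + 2)) * L ^ (-(2 * (A : ℝ) + 2)) = L ^ C := by
    rw [← Real.rpow_add hL]; congr 1; ring
  have h2 : 0 < L ^ (-(2 * (A : ℝ) + 2)) := Real.rpow_pos_of_pos hL _
  have h3 : 0 < x ^ ((2 : ℝ) / 3) := Real.rpow_pos_of_pos hx _
  calc x * L ^ C = x ^ ((2 : ℝ) / 3) * (x ^ ((1 : ℝ) / 3) * L ^ (C + (2 * (A : ℝ) + 2))) *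
        L ^ (-(2 * (A : ℝ) + 2)) := by
        rw [← h1]; nth_rewrite 1 [pw3 hx]; ring
    _ ≤ _ := by gcongr

theorem tiix_of (hN : T411.TMainN) (hSW : SWx_Prop) : TIIx_Prop := by
  intro l A η hη
  obtain ⟨C, hC, hT⟩ := hN (4 * η) (2 * A + 2) (by positivity) (by positivity)
  obtain ⟨K, X1, hK⟩ := core hSW l A C 2 hC (by norm_num)
  obtain ⟨X2, hX2⟩ := eventually_atTop.mp ((ev_log_ge 2).and (eventually_ge_atTop (max X1 8)))
  refine ⟨C + (2 * A + 2), K, X2, ?_⟩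
  intro X hX B β hB1 hB2 hβ hs ι I a g α ha
  obtain ⟨hL2, hXX⟩ := hX2 X hX
  have hXX1 : X1 ≤ X := (le_max_left _ _).trans hXX
  have hX8 : 8 ≤ X := (le_max_right _ _).trans hXX
  have hXr : (8 : ℝ) ≤ X := by exact_mod_cast hX8
  have hX0 : (0 : ℝ) < X := by linarith
  have hX1 : (1 : ℝ) ≤ X := by linarith
  have hLL : LX X = Real.log X := rfl
  have hL2' : 2 ≤ LX X := hL2
  have hL0 : 0 < LX X := by linarith
  have hL1 : 1 ≤ LX X := by linarith
  have hB13 : (X : ℝ) ^ ((1 : ℝ) / 3) ≤ B := by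
    refine le_trans ?_ hB1
    have h1 : (1 : ℝ) ≤ LX X ^ (C + (2 * (A : ℝ) + 2)) :=
      Real.one_le_rpow hL1 (by positivity)
    have h2 : 0 < (X : ℝ) ^ ((1 : ℝ) / 3) := by positivity
    nlinarith
  have hB14 : (X : ℝ) ^ ((1 : ℝ) / 4) ≤ B :=
    (Real.rpow_le_rpow_of_exponent_le hX1 (by norm_num)).trans hB13
  have hB : 1 ≤ B := (Real.one_le_rpow hX1 (by norm_num)).trans hB14
  have hB0 : 0 < B := by linarith
  -- `2 B ≤ X`
  have hB12 : B ≤ (X : ℝ) ^ ((1 : ℝ) / 2) :=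
    hB2.trans (Real.rpow_le_rpow_of_exponent_le hX1 (by linarith))
  have hX12 : 2 ≤ (X : ℝ) ^ ((1 : ℝ) / 2) := by
    rw [← Real.sqrt_eq_rpow]
    apply Real.le_sqrt_of_sq_le
    linarith
  have hsq : (X : ℝ) ^ ((1 : ℝ) / 2) * (X : ℝ) ^ ((1 : ℝ) / 2) = X := by
    rw [← Real.rpow_add hX0]; norm_num
  have h2B : 2 * B ≤ X := by
    calc 2 * B ≤ (X : ℝ) ^ ((1 : ℝ) / 2) * (X : ℝ) ^ ((1 : ℝ) / 2) := by gcongr
      _ = X := hsq
  -- `B^(1+e0) ≤ X/B`
  have hAB : B ^ (1 + 4 * η) ≤ X / B := by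
    rw [le_div_iff₀ hB0, ← Real.rpow_add_one hB0.ne']
    calc B ^ (1 + 4 * η + 1) ≤ ((X : ℝ) ^ (1 / 2 - η)) ^ (1 + 4 * η + 1) :=
          Real.rpow_le_rpow hB0.le hB2 (by positivity)
      _ = (X : ℝ) ^ ((1 / 2 - η) * (1 + 4 * η + 1)) := by rw [Real.rpow_mul hX0.le]
      _ ≤ (X : ℝ) ^ (1 : ℝ) := Real.rpow_le_rpow_of_exponent_le hX1 (by nlinarith)
      _ = X := Real.rpow_one _
  have hAX : X / B ≤ X := div_le_self hX0.le hB
  refine hK X hXX1 B β hB14 h2B hβ hs ?_ ι I a g α ha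
  intro t
  have key := hT X (X / B) B (by linarith) hB14 hAB hAX (sB X β) (bE l β t) (cls hβ.bd hs l t)
  simp only [int_tws_eq] at key
  rw [← hLL] at key
  refine key.trans ?_
  have e1 : (X : ℝ) / B * B = X := by field_simp
  rw [e1, LY _ hL0, pw1 hX0 hB0, pw2 hX0 hB0]
  have h1 := t1_le (A := A) hX0 hL0 hB1
  apply mul_le_mul_of_nonneg_left _ hC.le
  have e2 : (X : ℝ) ^ ((2 : ℝ) / 3) * B * (2 * ((LX X ^ (A + 1)) ^ 2)⁻¹ +
      LX X ^ C / B ^ 2 * ∑ h ∈ T411.NC (LX X ^ C), cv (fun s => ‖tw l X β h s‖ ^ 2) t) =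
      (X : ℝ) ^ ((2 : ℝ) / 3) * B * ((LX X ^ (A + 1)) ^ 2)⁻¹ +
      (X : ℝ) ^ ((2 : ℝ) / 3) * B * ((LX X ^ (A + 1)) ^ 2)⁻¹ +
      (X : ℝ) ^ ((2 : ℝ) / 3) * B / B ^ 2 * LX X ^ C *
        ∑ h ∈ T411.NC (LX X ^ C), cv (fun s => ‖tw l X β h s‖ ^ 2) t := by ring
  rw [e2]
  linarith

/-! ### The critical range -/

lemma S_mono {H H' : ℝ} (hH : 0 ≤ H) (h : H ≤ H') : LS2.S H ⊆ LS2.S H' := by
  intro x hx
  rw [LS2.mem_S hH] at hx
  rw [LS2.mem_S (hH.trans h)]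
  exact ⟨hx.1.trans h, hx.2⟩

lemma Ker_mono {H H' : ℝ} (hH : 0 ≤ H) (h : H ≤ H') : T411.Ker H ⊆ T411.Ker H' := by
  classical
  intro q hq
  unfold T411.Ker at hq ⊢
  rw [Finset.mem_filter, Finset.mem_product, Finset.mem_product, Finset.mem_product] at hq ⊢
  exact ⟨⟨hq.1.1, hq.1.2.1, S_mono hH h hq.1.2.2.1, S_mono hH h hq.1.2.2.2⟩, hq.2.1,
    hq.2.2.trans h⟩

lemma sum_cv_le {κ : Type*} (S : Finset κ) (f : κ → ℝ → ℝ) (hf : ∀ q ∈ S, Continuous (f q))
    (hf0 : ∀ q ∈ S, ∀ t, 0 ≤ f q t) {M W : ℝ} (hM : ∀ q ∈ S, ∀ t, f q t ≤ M)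
    (hW : ∀ t, ∑ q ∈ S, f q t ≤ W) (t : ℝ) : ∑ q ∈ S, cv (f q) t ≤ Real.pi * W := by
  unfold cv
  rw [← integral_finsetSum S (fun q hq => cv_int (hf q hq) (hf0 q hq) (hM q hq) t)]
  have h : ∫ u : ℝ, ∑ q ∈ S, (1 + u ^ 2)⁻¹ * f q (t + u) ≤ ∫ u : ℝ, (1 + u ^ 2)⁻¹ * W := by
    apply integral_mono (integrable_finsetSum S
      (fun q hq => cv_int (hf q hq) (hf0 q hq) (hM q hq) t))
      (integrable_inv_one_add_sq.mul_const _)
    intro u
    simp only
    rw [← Finset.mul_sum]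
    have := hW (t + u)
    gcongr
  rw [integral_mul_const, integral_univ_inv_one_add_sq] at h
  exact h

/-- `w ≤ X^0.06` -/
lemma ev_wX : ∀ᶠ X : ℕ in atTop, wX X ≤ (X : ℝ) ^ (0.06 : ℝ) := by
  filter_upwards [ev_log_ge 8000, eventually_ge_atTop 1] with X hX h1
  have hX0 : (0 : ℝ) < X := by exact_mod_cast h1
  unfold wX
  rw [Real.rpow_def_of_pos hX0]
  apply Real.exp_le_exp.mpr
  have hL0 : 0 < Real.log X := by linarith
  have h2 : (20 : ℝ) ≤ Real.log X ^ ((1 : ℝ) / 3) := by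
    have h3 : (8000 : ℝ) ^ ((1 : ℝ) / 3) ≤ Real.log X ^ ((1 : ℝ) / 3) :=
      Real.rpow_le_rpow (by norm_num) hX (by norm_num)
    have h4 : (8000 : ℝ) ^ ((1 : ℝ) / 3) = 20 := by
      rw [show (8000 : ℝ) = 20 ^ (3 : ℝ) by norm_num, ← Real.rpow_mul (by norm_num)]
      norm_num
    linarith
  have h5 : Real.log X = Real.log X ^ ((2 : ℝ) / 3) * Real.log X ^ ((1 : ℝ) / 3) := pw3 hL0
  have h6 : 0 < Real.log X ^ ((2 : ℝ) / 3) := by positivity
  nlinarith

/-- exponents of the CR term -/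
lemma cr_exp {B L C e d : ℝ} {A : ℕ} (hB : 1 ≤ B) (hL : 0 < L) (hd : 2 * e ≤ d)
    (h : L ^ (C + (2 * A + 2)) ≤ B ^ (4 * e / 3)) :
    (B ^ 2)⁻¹ * B ^ (-(1 - 2 * e) / 3) * L ^ C * B ^ ((7 : ℝ) / 3 - d) ≤
      ((L ^ (A + 1)) ^ 2)⁻¹ := by
  have hB0 : 0 < B := by linarith
  have e1 : (B ^ 2)⁻¹ * B ^ (-(1 - 2 * e) / 3) * B ^ ((7 : ℝ) / 3 - d) =
      B ^ (2 * e / 3 - d) := by
    have : (B ^ 2)⁻¹ = B ^ (-2 : ℝ) := by
      rw [Real.rpow_neg hB0.le]; norm_cast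
    rw [this, ← Real.rpow_add hB0, ← Real.rpow_add hB0]
    congr 1
    ring
  have e2 : B ^ (2 * e / 3 - d) ≤ B ^ (-(4 * e / 3)) :=
    Real.rpow_le_rpow_of_exponent_le hB (by linarith)
  have e3 : B ^ (-(4 * e / 3)) ≤ (L ^ (C + (2 * (A : ℝ) + 2)))⁻¹ := by
    rw [Real.rpow_neg hB0.le]
    have : 0 < L ^ (C + (2 * (A : ℝ) + 2)) := Real.rpow_pos_of_pos hL _
    gcongr
  have e4 : (L ^ (C + (2 * (A : ℝ) + 2)))⁻¹ * L ^ C = ((L ^ (A + 1)) ^ 2)⁻¹ := by
    rw [← LY L hL A, ← Real.rpow_neg hL.le, ← Real.rpow_add hL]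
    congr 1
    ring
  have hLC : 0 < L ^ C := Real.rpow_pos_of_pos hL _
  calc (B ^ 2)⁻¹ * B ^ (-(1 - 2 * e) / 3) * L ^ C * B ^ ((7 : ℝ) / 3 - d)
      = ((B ^ 2)⁻¹ * B ^ (-(1 - 2 * e) / 3) * B ^ ((7 : ℝ) / 3 - d)) * L ^ C := by ring
    _ = B ^ (2 * e / 3 - d) * L ^ C := by rw [e1]
    _ ≤ (L ^ (C + (2 * (A : ℝ) + 2)))⁻¹ * L ^ C := by
        exact mul_le_mul_of_nonneg_right (e2.trans e3) hLC.le
    _ = _ := e4

/-- `TMainC` restricted to `e0 ≤ d1` (all that is used) -/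
def TMainC' : Prop := ∀ e0 d1 K : ℝ, 0 < e0 → e0 ≤ 1 / 10 → 0 < d1 → e0 ≤ d1 → 0 < K →
  ∃ C : ℝ, 0 < C ∧ ∀ X A B : ℝ, 2 ≤ X →
  X ^ ((1 : ℝ) / 4) ≤ B → A ≤ B ^ (1 + e0) → B ^ (1 - e0 / 2) ≤ A → A ≤ X →
  ∀ (𝓑 : Finset Eis) (β : Eis → ℂ), T411.Cls (X ^ d1) B 𝓑 β →
  T411.SS A 𝓑 β ≤ C * (A * B * Real.log X ^ C +
    A ^ ((2 : ℝ) / 3) * B ^ ((5 : ℝ) / 3) * Real.log X ^ (-K)
    + A ^ ((2 : ℝ) / 3) * B ^ (-(1 : ℝ) / 3) * Real.log X ^ C *
      (∑ h ∈ T411.NC (Real.log X ^ C), ∫ u : ℝ, (1 + u ^ 2)⁻¹ * ‖T411.tws 𝓑 β h u‖ ^ 2)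
    + A ^ ((2 : ℝ) / 3) * B ^ (-(1 : ℝ) / 3) * B ^ (-(1 - 2 * e0) / 3) * Real.log X ^ C *
      ∑ q ∈ T411.Ker (B ^ (1 + e0)), ∫ u : ℝ, (1 + u ^ 2)⁻¹ * ‖T411.tws 𝓑 β (T411.kv q) u‖ ^ 2)

theorem tiicx_of (hCC : TMainC') (hSW : SWx_Prop) (hCR : CRx_Prop) : TIIcx_Prop := by
  obtain ⟨e0, d, η0, he0, he01, hde, hη0, hCR⟩ := hCR
  obtain ⟨e, he⟩ : ∃ e : ℝ, e = min e0 0.06 := ⟨_, rfl⟩
  have he_pos : 0 < e := by rw [he]; exact lt_min he0 (by norm_num)
  have he_e0 : e ≤ e0 := by rw [he]; exact min_le_left _ _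
  have he_6 : e ≤ 0.06 := by rw [he]; exact min_le_right _ _
  obtain ⟨η, hη⟩ : ∃ η : ℝ, η = min η0 (e / 8) := ⟨_, rfl⟩
  have hη_pos : 0 < η := by rw [hη]; exact lt_min hη0 (by positivity)
  have hη_0 : η ≤ η0 := by rw [hη]; exact min_le_left _ _
  have hη_e : η ≤ e / 8 := by rw [hη]; exact min_le_right _ _
  refine ⟨η, hη_pos, ?_⟩
  intro l A
  obtain ⟨CR, X3, hCRpos, hCR⟩ := hCR l
  obtain ⟨C, hC, hT⟩ := hCC e 0.06 (2 * A + 2) he_pos (by linarith) (by norm_num) he_6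
    (by positivity)
  have hpi := Real.pi_pos
  obtain ⟨K, X1, hK⟩ := core hSW l A C (2 + Real.pi * CR) hC (by positivity)
  obtain ⟨X2, hX2⟩ := eventually_atTop.mp ((ev_log_ge 2).and ((eventually_ge_atTop
    (max X1 (max X3 16))).and ((ev_log_le (C + (2 * A + 2)) (1 / 12) (by norm_num)).and
    ((ev_log_le (C + (2 * A + 2)) (e / 3) (by positivity)).and ev_wX))))
  refine ⟨K, X2, ?_⟩
  intro X hX B β hB1 hB2 hβ hsupp ι I a g α ha
  obtain ⟨hL2, hXX, hl1, hl2, hwX⟩ := hX2 X hX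
  have hXX1 : X1 ≤ X := (le_max_left _ _).trans hXX
  have hXX3 : X3 ≤ X := ((le_max_left _ _).trans (le_max_right _ _)).trans hXX
  have hX16 : 16 ≤ X := ((le_max_right _ _).trans (le_max_right _ _)).trans hXX
  have hXr : (16 : ℝ) ≤ X := by exact_mod_cast hX16
  have hX0 : (0 : ℝ) < X := by linarith
  have hX1 : (1 : ℝ) ≤ X := by linarith
  have hLL : LX X = Real.log X := rfl
  rw [← hLL] at hL2 hl1 hl2
  have hL0 : 0 < LX X := by linarith
  have hL1 : 1 ≤ LX X := by linarith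
  have hη1 : η ≤ 0.01 := by linarith
  have hB14 : (X : ℝ) ^ ((1 : ℝ) / 4) ≤ B :=
    (Real.rpow_le_rpow_of_exponent_le hX1 (by linarith)).trans hB1
  have hB : 1 ≤ B := (Real.one_le_rpow hX1 (by norm_num)).trans hB14
  have hB0 : 0 < B := by linarith
  -- `2 B ≤ X`
  have hB34 : B ≤ (X : ℝ) ^ ((3 : ℝ) / 4) :=
    hB2.trans (Real.rpow_le_rpow_of_exponent_le hX1 (by linarith))
  have hX14 : 2 ≤ (X : ℝ) ^ ((1 : ℝ) / 4) := by
    have h1 : (16 : ℝ) ^ ((1 : ℝ) / 4) ≤ (X : ℝ) ^ ((1 : ℝ) / 4) :=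
      Real.rpow_le_rpow (by norm_num) hXr (by norm_num)
    have h2 : (16 : ℝ) ^ ((1 : ℝ) / 4) = 2 := by
      rw [show (16 : ℝ) = 2 ^ (4 : ℝ) by norm_num, ← Real.rpow_mul (by norm_num)]
      norm_num
    linarith
  have hsq : (X : ℝ) ^ ((1 : ℝ) / 4) * (X : ℝ) ^ ((3 : ℝ) / 4) = X := by
    rw [← Real.rpow_add hX0]; norm_num
  have h2B : 2 * B ≤ X := by
    calc 2 * B ≤ (X : ℝ) ^ ((1 : ℝ) / 4) * (X : ℝ) ^ ((3 : ℝ) / 4) := by gcongr
      _ = X := hsq
  -- the range of `A = X/B`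
  have hAB : X / B ≤ B ^ (1 + e) := by
    rw [div_le_iff₀ hB0, ← Real.rpow_add_one hB0.ne']
    calc (X : ℝ) = (X : ℝ) ^ (1 : ℝ) := (Real.rpow_one _).symm
      _ ≤ (X : ℝ) ^ ((1 / 2 - η) * (1 + e + 1)) :=
          Real.rpow_le_rpow_of_exponent_le hX1 (by nlinarith)
      _ = ((X : ℝ) ^ (1 / 2 - η)) ^ (1 + e + 1) := by rw [Real.rpow_mul hX0.le]
      _ ≤ B ^ (1 + e + 1) := Real.rpow_le_rpow (by positivity) hB1 (by positivity)
  have hAB2 : B ^ (1 - e / 2) ≤ X / B := by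
    rw [le_div_iff₀ hB0, ← Real.rpow_add_one hB0.ne']
    calc B ^ (1 - e / 2 + 1) ≤ ((X : ℝ) ^ (1 / 2 + η)) ^ (1 - e / 2 + 1) :=
          Real.rpow_le_rpow hB0.le hB2 (by linarith)
      _ = (X : ℝ) ^ ((1 / 2 + η) * (1 - e / 2 + 1)) := by rw [Real.rpow_mul hX0.le]
      _ ≤ (X : ℝ) ^ (1 : ℝ) := Real.rpow_le_rpow_of_exponent_le hX1 (by nlinarith)
      _ = X := Real.rpow_one _
  have hAX : X / B ≤ X := div_le_self hX0.le hB
  -- the supports
  have hs6 : Supp ((X : ℝ) ^ (0.06 : ℝ)) B β := fun T hTT =>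
    ⟨(hsupp T hTT).2.1, (hsupp T hTT).2.2⟩
  have hsw : Supp (wX X) B β := fun T hTT =>
    ⟨fun p hp => hwX.trans ((hsupp T hTT).2.1 p hp), (hsupp T hTT).2.2⟩
  refine hK X hXX1 B β hB14 h2B hβ hsw ?_ ι I a g α ha
  intro t
  have key := hT X (X / B) B (by linarith) hB14 hAB hAB2 hAX (sB X β) (bE l β t)
    (cls hβ.bd hs6 l t)
  simp only [int_tws_eq] at key
  rw [← hLL] at key
  refine key.trans ?_
  have e1 : (X : ℝ) / B * B = X := by field_simp
  rw [e1, LY _ hL0, pw1 hX0 hB0, pw2 hX0 hB0]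
  -- first term
  have hB13 : (X : ℝ) ^ ((1 : ℝ) / 3) * LX X ^ (C + (2 * (A : ℝ) + 2)) ≤ B := by
    calc (X : ℝ) ^ ((1 : ℝ) / 3) * LX X ^ (C + (2 * (A : ℝ) + 2))
        ≤ (X : ℝ) ^ ((1 : ℝ) / 3) * (X : ℝ) ^ ((1 : ℝ) / 12) := by gcongr
      _ = (X : ℝ) ^ ((1 : ℝ) / 3 + 1 / 12) := by rw [Real.rpow_add hX0]
      _ ≤ (X : ℝ) ^ (1 / 2 - η) := Real.rpow_le_rpow_of_exponent_le hX1 (by linarith)
      _ ≤ B := hB1
  have h1 := t1_le (A := A) hX0 hL0 hB13
  -- critical term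
  have hker : ∑ q ∈ T411.Ker (B ^ (1 + e)), cv (fun s => ‖tw l X β (T411.kv q) s‖ ^ 2) t ≤
      Real.pi * (CR * B ^ ((7 : ℝ) / 3 - d)) := by
    refine sum_cv_le (T411.Ker (B ^ (1 + e))) (fun q s => ‖tw l X β (T411.kv q) s‖ ^ 2)
      ?_ ?_ (M := ((sB X β).card : ℝ) ^ 2) ?_ ?_ t
    · intro q _
      have := continuous_tw l X β (T411.kv q)
      fun_prop
    · intro q _ s; positivity
    · intro q _ s
      exact pow_le_pow_left₀ (norm_nonneg _) (norm_tw_le l X hβ.bd _ s) 2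
    · intro s
      have h3 := hCR X hXX3 B β
        ((Real.rpow_le_rpow_of_exponent_le hX1 (by linarith)).trans hB1)
        (hB2.trans (Real.rpow_le_rpow_of_exponent_le hX1 (by linarith))) hβ
        (fun T hTT => (hsupp T hTT).1) hs6 s
      refine le_trans ?_ h3
      apply Finset.sum_le_sum_of_subset_of_nonneg
      · exact Ker_mono (by positivity) (Real.rpow_le_rpow_of_exponent_le hB (by linarith))
      · intro q _ _; positivity
  have hBe : LX X ^ (C + (2 * (A : ℝ) + 2)) ≤ B ^ (4 * e / 3) := by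
    calc LX X ^ (C + (2 * (A : ℝ) + 2)) ≤ (X : ℝ) ^ (e / 3) := hl2
      _ = ((X : ℝ) ^ ((1 : ℝ) / 4)) ^ (4 * e / 3) := by
          rw [← Real.rpow_mul hX0.le]; congr 1; ring
      _ ≤ B ^ (4 * e / 3) := Real.rpow_le_rpow (by positivity) hB14 (by positivity)
  have hcr := cr_exp (C := C) (A := A) (d := d) (e := e) hB hL0 (by linarith) hBe
  have h2 : (X : ℝ) ^ ((2 : ℝ) / 3) * B / B ^ 2 * B ^ (-(1 - 2 * e) / 3) * LX X ^ C *
      ∑ q ∈ T411.Ker (B ^ (1 + e)), cv (fun s => ‖tw l X β (T411.kv q) s‖ ^ 2) t ≤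
      (X : ℝ) ^ ((2 : ℝ) / 3) * B * (Real.pi * CR * ((LX X ^ (A + 1)) ^ 2)⁻¹) := by
    calc _ ≤ (X : ℝ) ^ ((2 : ℝ) / 3) * B / B ^ 2 * B ^ (-(1 - 2 * e) / 3) * LX X ^ C *
          (Real.pi * (CR * B ^ ((7 : ℝ) / 3 - d))) := by gcongr
      _ = (X : ℝ) ^ ((2 : ℝ) / 3) * B * (Real.pi * CR * ((B ^ 2)⁻¹ * B ^ (-(1 - 2 * e) / 3) *
          LX X ^ C * B ^ ((7 : ℝ) / 3 - d))) := by
          rw [div_eq_mul_inv]; ring
      _ ≤ _ := by gcongr
  apply mul_le_mul_of_nonneg_left _ hC.le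
  have e2 : (X : ℝ) ^ ((2 : ℝ) / 3) * B * ((2 + Real.pi * CR) * ((LX X ^ (A + 1)) ^ 2)⁻¹ +
      LX X ^ C / B ^ 2 * ∑ h ∈ T411.NC (LX X ^ C), cv (fun s => ‖tw l X β h s‖ ^ 2) t) =
      (X : ℝ) ^ ((2 : ℝ) / 3) * B * ((LX X ^ (A + 1)) ^ 2)⁻¹ +
      (X : ℝ) ^ ((2 : ℝ) / 3) * B * ((LX X ^ (A + 1)) ^ 2)⁻¹ +
      (X : ℝ) ^ ((2 : ℝ) / 3) * B / B ^ 2 * LX X ^ C *
        (∑ h ∈ T411.NC (LX X ^ C), cv (fun s => ‖tw l X β h s‖ ^ 2) t) +
      (X : ℝ) ^ ((2 : ℝ) / 3) * B * (Real.pi * CR * ((LX X ^ (A + 1)) ^ 2)⁻¹) := by ring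
  rw [e2]
  linarith

end Crest.Agent.R012.TII54
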