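import Mathlib
import Crest.Agent.R012.T8G_810_Mg

-- ▼ part R012/T8Abel_810
section

/-!
# Row 12 (T8): separation of variables by two-dimensional Abel summation

For points `y k ∈ [1,2]` and coefficients `x k`,
`‖∑_{k,l} conj (x k) x l exp(-ζ/(y k y l))‖ ≤ 2 (1+|ζ|)² exp(-Re ζ/4) (|X 2|² + ∫_1^2 |X t|² dt)`,
`X t = ∑_{y k ≤ t} x k`.
-/

set_option autoImplicit false

noncomputable section

open Complex MeasureTheory intervalIntegral

namespace Crest.Agent.R012.T8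

variable {ι : Type*}

/-- truncated sums. -/
def Xt (K : Finset ι) (y : ι → ℝ) (x : ι → ℂ) (t : ℝ) : ℂ := ∑ k ∈ K, if y k ≤ t then x k else 0

lemma Xt_intervalIntegrable (K : Finset ι) (y : ι → ℝ) (x : ι → ℂ) {g : ℝ → ℂ}
    (hg : Continuous g) (a b : ℝ) :
    IntervalIntegrable (fun t => Xt K y x t * g t) volume a b := by
  unfold Xt
  have h : (fun t => (∑ k ∈ K, if y k ≤ t then x k else 0) * g t) =
      ∑ k ∈ K, fun t => (Set.indicator (Set.Ici (y k)) (fun t => x k * g t)) t := by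
    funext t
    rw [Finset.sum_mul, Finset.sum_apply]
    refine Finset.sum_congr rfl fun k _ => ?_
    by_cases h : y k ≤ t
    · rw [if_pos h, Set.indicator_of_mem (Set.mem_Ici.mpr h)]
    · rw [if_neg h, Set.indicator_of_notMem (by simpa using h), zero_mul]
  rw [h]
  refine IntervalIntegrable.sum K fun k _ => ?_
  rw [intervalIntegrable_iff]
  have : IntegrableOn (fun t => x k * g t) (Set.uIoc a b) volume := by
    rw [← intervalIntegrable_iff]
    exact (continuous_const.mul hg).intervalIntegrable _ _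
  exact this.indicator measurableSet_Ici

lemma continuousOn_Xt_norm_integrable (K : Finset ι) (y : ι → ℝ) (x : ι → ℂ) (a b : ℝ) :
    IntervalIntegrable (fun t => ‖Xt K y x t‖) volume a b := by
  have h := (Xt_intervalIntegrable K y x (g := fun _ => 1) continuous_const a b).norm
  simpa using h

lemma measurable_Xt (K : Finset ι) (y : ι → ℝ) (x : ι → ℂ) : Measurable (Xt K y x) := by
  unfold Xt
  refine Finset.measurable_sum K fun k _ => ?_
  exact Measurable.ite (measurableSet_Ici) measurable_const measurable_const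

lemma norm_Xt_le (K : Finset ι) (y : ι → ℝ) (x : ι → ℂ) (t : ℝ) :
    ‖Xt K y x t‖ ≤ ∑ k ∈ K, ‖x k‖ := by
  unfold Xt
  refine (norm_sum_le _ _).trans (Finset.sum_le_sum fun k _ => ?_)
  split_ifs
  · exact le_rfl
  · simp

lemma sq_Xt_integrable (K : Finset ι) (y : ι → ℝ) (x : ι → ℂ) (a b : ℝ) :
    IntervalIntegrable (fun t => ‖Xt K y x t‖ ^ 2) volume a b := by
  rw [intervalIntegrable_iff]
  refine Measure.integrableOn_of_bounded (M := (∑ k ∈ K, ‖x k‖) ^ 2) ?_ ?_ ?_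
  · rw [Set.uIoc, Real.volume_Ioc]; exact ENNReal.ofReal_ne_top
  · exact ((measurable_Xt K y x).norm.pow_const 2).aestronglyMeasurable
  · refine Filter.Eventually.of_forall fun t => ?_
    rw [Real.norm_of_nonneg (by positivity)]
    exact pow_le_pow_left₀ (norm_nonneg _) (norm_Xt_le K y x t) 2

/-- `(∫_1^2 |X|)² ≤ ∫_1^2 |X|²`. -/
lemma sq_integral_le (K : Finset ι) (y : ι → ℝ) (x : ι → ℂ) :
    (∫ t in (1:ℝ)..2, ‖Xt K y x t‖) ^ 2 ≤ ∫ t in (1:ℝ)..2, ‖Xt K y x t‖ ^ 2 := by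
  set I := ∫ t in (1:ℝ)..2, ‖Xt K y x t‖ with hI
  have h1 : 0 ≤ ∫ t in (1:ℝ)..2, (‖Xt K y x t‖ - I) ^ 2 :=
    intervalIntegral.integral_nonneg (by norm_num) fun t _ => by positivity
  have h2 : ∫ t in (1:ℝ)..2, (‖Xt K y x t‖ - I) ^ 2 =
      (∫ t in (1:ℝ)..2, ‖Xt K y x t‖ ^ 2) - 2 * I * I + I ^ 2 := by
    have e : (fun t => (‖Xt K y x t‖ - I) ^ 2) =
        fun t => (‖Xt K y x t‖ ^ 2 - 2 * I * ‖Xt K y x t‖) + I ^ 2 := by
      funext t; ring
    rw [e, intervalIntegral.integral_add, intervalIntegral.integral_sub,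
      intervalIntegral.integral_const_mul, intervalIntegral.integral_const]
    · rw [← hI]; norm_num
    · exact sq_Xt_integrable K y x 1 2
    · exact (continuousOn_Xt_norm_integrable K y x 1 2).const_mul _
    · exact (sq_Xt_integrable K y x 1 2).sub
        ((continuousOn_Xt_norm_integrable K y x 1 2).const_mul _)
    · exact intervalIntegrable_const
  rw [h2] at h1
  nlinarith

/-- Abel summation. -/
lemma abel1 (K : Finset ι) {y : ι → ℝ} (hy : ∀ k ∈ K, 1 ≤ y k ∧ y k ≤ 2) (x : ι → ℂ)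
    {g g' : ℝ → ℂ} (hg : ∀ t ∈ Set.Icc (1:ℝ) 2, HasDerivAt g (g' t) t)
    (hg' : ContinuousOn g' (Set.Icc 1 2)) :
    ∑ k ∈ K, x k * g (y k) = g 2 * Xt K y x 2 - ∫ t in (1:ℝ)..2, Xt K y x t * g' t := by
  have hX2 : Xt K y x 2 = ∑ k ∈ K, x k := by
    unfold Xt
    exact Finset.sum_congr rfl fun k hk => by rw [if_pos (hy k hk).2]
  have hint : ∀ k ∈ K, ∀ a b : ℝ, a ∈ Set.Icc (1:ℝ) 2 → b ∈ Set.Icc (1:ℝ) 2 →
      IntervalIntegrable g' volume a b := fun k _ a b ha hb =>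
    (hg'.mono (Set.uIcc_subset_Icc ha hb)).intervalIntegrable
  have h1 : ∀ k ∈ K, g (y k) = g 2 - ∫ t in (1:ℝ)..2, (if y k ≤ t then g' t else 0) := by
    intro k hk
    obtain ⟨hy1, hy2⟩ := hy k hk
    have m1 : (1:ℝ) ∈ Set.Icc (1:ℝ) 2 := ⟨le_rfl, by norm_num⟩
    have m2 : (2:ℝ) ∈ Set.Icc (1:ℝ) 2 := ⟨by norm_num, le_rfl⟩
    have my : y k ∈ Set.Icc (1:ℝ) 2 := ⟨hy1, hy2⟩
    have hFT : ∫ t in (y k)..2, g' t = g 2 - g (y k) :=
      integral_eq_sub_of_hasDerivAt (fun t ht => by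
        rw [Set.uIcc_of_le hy2] at ht
        exact hg t ⟨hy1.trans ht.1, ht.2⟩) (hint k hk _ _ my m2)
    have hsplit : ∫ t in (1:ℝ)..2, (if y k ≤ t then g' t else 0) = ∫ t in (y k)..2, g' t := by
      rw [← intervalIntegral.integral_add_adjacent_intervals (b := y k)]
      · have z1 : ∫ t in (1:ℝ)..(y k), (if y k ≤ t then g' t else 0) = 0 := by
          rw [intervalIntegral.integral_of_le hy1, integral_Ioc_eq_integral_Ioo]
          apply setIntegral_eq_zero_of_forall_eq_zero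
          intro t ht
          rw [if_neg (not_le.mpr ht.2)]
        have z2 : ∫ t in (y k)..2, (if y k ≤ t then g' t else 0) = ∫ t in (y k)..2, g' t := by
          apply intervalIntegral.integral_congr_ae
          refine Filter.Eventually.of_forall fun t ht => ?_
          rw [Set.uIoc_of_le hy2] at ht
          rw [if_pos ht.1.le]
        rw [z1, z2, zero_add]
      · -- integrability on (1, y k)
        have : IntervalIntegrable (fun _ : ℝ => (0:ℂ)) volume 1 (y k) := intervalIntegrable_const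
        refine this.congr_ae ?_
        rw [Filter.EventuallyEq, ae_restrict_iff' measurableSet_uIoc]
        have hne : ∀ᵐ t : ℝ, t ≠ y k := by
          rw [ae_iff]; simp
        filter_upwards [hne] with t htne ht
        rw [Set.uIoc_of_le hy1] at ht
        rw [if_neg (not_le.mpr (lt_of_le_of_ne ht.2 htne))]
      · refine (hint k hk _ _ my m2).congr_ae ?_
        rw [Filter.EventuallyEq, ae_restrict_iff' measurableSet_uIoc]
        refine Filter.Eventually.of_forall fun t ht => ?_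
        rw [Set.uIoc_of_le hy2] at ht
        rw [if_pos ht.1.le]
    rw [hsplit, hFT]; ring
  have h2 : ∑ k ∈ K, x k * g (y k) =
      ∑ k ∈ K, (g 2 * x k - ∫ t in (1:ℝ)..2, (if y k ≤ t then x k else 0) * g' t) := by
    refine Finset.sum_congr rfl fun k hk => ?_
    rw [h1 k hk, mul_sub, ← intervalIntegral.integral_const_mul]
    congr 1
    · ring
    · congr 1
      funext t
      split_ifs <;> simp
  rw [h2, Finset.sum_sub_distrib, ← Finset.mul_sum, ← hX2]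
  congr 1
  rw [← intervalIntegral.integral_finsetSum]
  · congr 1
    funext t
    unfold Xt
    rw [Finset.sum_mul]
  · intro k hk
    have m1 : (1:ℝ) ∈ Set.Icc (1:ℝ) 2 := ⟨le_rfl, by norm_num⟩
    have m2 : (2:ℝ) ∈ Set.Icc (1:ℝ) 2 := ⟨by norm_num, le_rfl⟩
    have h3 := ((hint k hk _ _ m1 m2).const_mul (x k))
    rw [intervalIntegrable_iff] at h3 ⊢
    have h4 := h3.indicator (measurableSet_Ici (a := y k))
    refine h4.congr ?_
    refine Filter.Eventually.of_forall fun t => ?_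
    simp only
    by_cases h : y k ≤ t
    · rw [Set.indicator_of_mem (Set.mem_Ici.mpr h), if_pos h]
    · rw [Set.indicator_of_notMem (by simpa using h), if_neg h, zero_mul]

/-- the norm bound. -/
lemma abel1_le (K : Finset ι) {y : ι → ℝ} (hy : ∀ k ∈ K, 1 ≤ y k ∧ y k ≤ 2) (x : ι → ℂ)
    {g g' : ℝ → ℂ} (hg : ∀ t ∈ Set.Icc (1:ℝ) 2, HasDerivAt g (g' t) t)
    (hg' : ContinuousOn g' (Set.Icc 1 2)) {M : ℝ} (hM : ‖g 2‖ ≤ M)
    (hM' : ∀ t ∈ Set.Icc (1:ℝ) 2, ‖g' t‖ ≤ M) :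
    ‖∑ k ∈ K, x k * g (y k)‖ ≤ M * (‖Xt K y x 2‖ + ∫ t in (1:ℝ)..2, ‖Xt K y x t‖) := by
  rw [abel1 K hy x hg hg']
  refine (norm_sub_le _ _).trans ?_
  rw [mul_add, norm_mul]
  refine add_le_add (mul_le_mul_of_nonneg_right hM (norm_nonneg _)) ?_
  rw [← intervalIntegral.integral_const_mul]
  refine norm_integral_le_of_norm_le (by norm_num) ?_
    ((continuousOn_Xt_norm_integrable K y x 1 2).const_mul M)
  refine Filter.Eventually.of_forall fun t ht => ?_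
  rw [norm_mul, mul_comm]
  exact mul_le_mul_of_nonneg_right (hM' t ⟨ht.1.le, ht.2⟩) (norm_nonneg _)

/-! ### the kernel -/

section kernel

variable {ζ : ℂ}

lemma hasDerivAt_kernel (ζ : ℂ) {t y : ℝ} (ht : t ≠ 0) (hy : y ≠ 0) :
    HasDerivAt (fun y : ℝ => cexp (-(ζ / (y * t)))) (ζ / (y ^ 2 * t) * cexp (-(ζ / (y * t)))) y := by
  have htC : (t : ℂ) ≠ 0 := by exact_mod_cast ht
  have hyC : (y : ℂ) ≠ 0 := by exact_mod_cast hy
  have h1 : HasDerivAt (fun y : ℝ => (y : ℂ)) 1 y := Complex.ofRealCLM.hasDerivAt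
  have h2 : HasDerivAt (fun y : ℝ => ((y : ℂ) * t)) (1 * t) y := h1.mul_const _
  have h3 : HasDerivAt (fun y : ℝ => ζ / ((y : ℂ) * t)) (-(ζ * (1 * t)) / ((y : ℂ) * t) ^ 2) y := by
    have := (hasDerivAt_const y ζ).fun_div h2 (mul_ne_zero hyC htC)
    simpa using this
  have h4 := h3.fun_neg.cexp
  refine h4.congr_deriv ?_
  field_simp

lemma hasDerivAt_kernel2 (ζ : ℂ) {t y : ℝ} (ht : t ≠ 0) (hy : y ≠ 0) :
    HasDerivAt (fun y : ℝ => ζ / (y * t ^ 2) * cexp (-(ζ / (y * t))))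
      ((-(ζ / (y ^ 2 * t ^ 2)) + ζ ^ 2 / (y ^ 3 * t ^ 3)) * cexp (-(ζ / (y * t)))) y := by
  have htC : (t : ℂ) ≠ 0 := by exact_mod_cast ht
  have hyC : (y : ℂ) ≠ 0 := by exact_mod_cast hy
  have h1 : HasDerivAt (fun y : ℝ => (y : ℂ)) 1 y := Complex.ofRealCLM.hasDerivAt
  have h2 : HasDerivAt (fun y : ℝ => ((y : ℂ) * (t : ℂ) ^ 2)) (1 * (t : ℂ) ^ 2) y := h1.mul_const _
  have h3 : HasDerivAt (fun y : ℝ => ζ / ((y : ℂ) * (t : ℂ) ^ 2))
      (-(ζ * (1 * (t : ℂ) ^ 2)) / ((y : ℂ) * (t : ℂ) ^ 2) ^ 2) y := by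
    have := (hasDerivAt_const y ζ).fun_div h2 (mul_ne_zero hyC (pow_ne_zero 2 htC))
    simpa using this
  have h4 := h3.fun_mul (hasDerivAt_kernel ζ ht hy)
  refine h4.congr_deriv ?_
  field_simp

lemma norm_kernel_le (hζ : 0 ≤ ζ.re) {t y : ℝ} (ht : 1 ≤ t) (ht2 : t ≤ 2) (hy : 1 ≤ y)
    (hy2 : y ≤ 2) : ‖cexp (-(ζ / (y * t)))‖ ≤ Real.exp (-(ζ.re / 4)) := by
  rw [Complex.norm_exp]
  apply Real.exp_le_exp.mpr
  have e : (ζ / ((y : ℂ) * t)).re = ζ.re / (y * t) := by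
    rw [← Complex.ofReal_mul, Complex.div_ofReal_re]
  rw [neg_re, e, neg_le_neg_iff]
  apply div_le_div_of_nonneg_left hζ (by positivity)
  nlinarith

/-- **Separation of variables.** -/
theorem sep (K : Finset ι) {y : ι → ℝ} (hy : ∀ k ∈ K, 1 ≤ y k ∧ y k ≤ 2) (x : ι → ℂ)
    (hζ : 0 ≤ ζ.re) :
    ‖∑ k ∈ K, ∑ l ∈ K, (starRingEnd ℂ) (x k) * x l * cexp (-(ζ / (y k * y l)))‖ ≤
      2 * ((1 + ‖ζ‖) ^ 2 * Real.exp (-(ζ.re / 4))) *
        (‖Xt K y x 2‖ ^ 2 + ∫ t in (1:ℝ)..2, ‖Xt K y x t‖ ^ 2) := by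
  set E := Real.exp (-(ζ.re / 4)) with hE
  set M := (1 + ‖ζ‖) ^ 2 * E with hM
  have hE0 : 0 < E := Real.exp_pos _
  set V := ‖Xt K y x 2‖ + ∫ t in (1:ℝ)..2, ‖Xt K y x t‖ with hV
  have hI0 : 0 ≤ ∫ t in (1:ℝ)..2, ‖Xt K y x t‖ :=
    intervalIntegral.integral_nonneg (by norm_num) fun t _ => norm_nonneg _
  have hV0 : 0 ≤ V := add_nonneg (norm_nonneg _) hI0
  have hn0 := norm_nonneg ζ
  -- sums against `conj x`
  have hXc : ∀ t, ‖Xt K y (fun k => (starRingEnd ℂ) (x k)) t‖ = ‖Xt K y x t‖ := by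
    intro t
    have : Xt K y (fun k => (starRingEnd ℂ) (x k)) t = (starRingEnd ℂ) (Xt K y x t) := by
      unfold Xt
      rw [map_sum]
      refine Finset.sum_congr rfl fun k _ => ?_
      split_ifs <;> simp
    rw [this, RCLike.norm_conj]
  -- first: bound `∑ conj x k * F(y k, t)` and the derivative in `t`
  have b1 : ∀ t ∈ Set.Icc (1:ℝ) 2,
      ‖∑ k ∈ K, (starRingEnd ℂ) (x k) * cexp (-(ζ / (y k * t)))‖ ≤ M * V := by
    intro t ht
    have ht0 : t ≠ 0 := by have := ht.1; positivity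
    have h := abel1_le K hy (fun k => (starRingEnd ℂ) (x k))
      (g := fun y : ℝ => cexp (-(ζ / (y * t))))
      (g' := fun y : ℝ => ζ / (y ^ 2 * t) * cexp (-(ζ / (y * t)))) (M := M)
      (fun u hu => hasDerivAt_kernel ζ ht0 (by have := hu.1; positivity)) ?_ ?_ ?_
    · simpa only [hXc] using h
    · intro u hu
      have hu0 : (u : ℂ) ≠ 0 := by
        have : u ≠ 0 := by have := hu.1; positivity
        exact_mod_cast this
      have ht0C : (t : ℂ) ≠ 0 := by exact_mod_cast ht0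
      apply ContinuousAt.continuousWithinAt
      have c1 : ContinuousAt (fun y : ℝ => (y : ℂ)) u := Complex.continuous_ofReal.continuousAt
      refine ContinuousAt.mul (ContinuousAt.div continuousAt_const
        ((c1.pow 2).mul continuousAt_const) (mul_ne_zero (pow_ne_zero 2 hu0) ht0C)) ?_
      exact (ContinuousAt.div continuousAt_const (c1.mul continuousAt_const)
        (mul_ne_zero hu0 ht0C)).neg.cexp
    · have := norm_kernel_le hζ ht.1 ht.2 (y := 2) (by norm_num) le_rfl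
      refine this.trans ?_
      rw [hM]
      nlinarith [mul_nonneg hn0 hE0.le, mul_nonneg (mul_nonneg hn0 hn0) hE0.le]
    · intro u hu
      rw [norm_mul]
      have k1 := norm_kernel_le hζ ht.1 ht.2 hu.1 hu.2
      have k2 : ‖ζ / ((u : ℂ) ^ 2 * t)‖ ≤ ‖ζ‖ := by
        rw [norm_div]
        apply div_le_self hn0
        rw [norm_mul, norm_pow, Complex.norm_real, Complex.norm_real,
          Real.norm_of_nonneg (by linarith [hu.1]), Real.norm_of_nonneg (by linarith [ht.1])]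
        nlinarith [hu.1, ht.1, mul_nonneg (sub_nonneg.mpr hu.1) (sub_nonneg.mpr hu.1)]
      calc ‖ζ / ((u : ℂ) ^ 2 * t)‖ * ‖cexp (-(ζ / (u * t)))‖ ≤ ‖ζ‖ * E :=
            mul_le_mul k2 k1 (norm_nonneg _) hn0
        _ ≤ M := by
            rw [hM]
            nlinarith [mul_nonneg hn0 hE0.le, mul_nonneg (mul_nonneg hn0 hn0) hE0.le]
  have b2 : ∀ t ∈ Set.Icc (1:ℝ) 2,
      ‖∑ k ∈ K, (starRingEnd ℂ) (x k) * (ζ / (y k * t ^ 2) * cexp (-(ζ / (y k * t))))‖ ≤ M * V := by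
    intro t ht
    have ht0 : t ≠ 0 := by have := ht.1; positivity
    have h := abel1_le K hy (fun k => (starRingEnd ℂ) (x k))
      (g := fun y : ℝ => ζ / (y * t ^ 2) * cexp (-(ζ / (y * t))))
      (g' := fun y : ℝ => (-(ζ / (y ^ 2 * t ^ 2)) + ζ ^ 2 / (y ^ 3 * t ^ 3)) *
        cexp (-(ζ / (y * t)))) (M := M)
      (fun u hu => hasDerivAt_kernel2 ζ ht0 (by have := hu.1; positivity)) ?_ ?_ ?_
    · simpa only [hXc] using h
    · intro u hu
      have hu0 : (u : ℂ) ≠ 0 := by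
        have : u ≠ 0 := by have := hu.1; positivity
        exact_mod_cast this
      have ht0C : (t : ℂ) ≠ 0 := by exact_mod_cast ht0
      apply ContinuousAt.continuousWithinAt
      have c1 : ContinuousAt (fun y : ℝ => (y : ℂ)) u := Complex.continuous_ofReal.continuousAt
      refine ContinuousAt.mul (ContinuousAt.add (ContinuousAt.div continuousAt_const
        ((c1.pow 2).mul continuousAt_const) (mul_ne_zero (pow_ne_zero 2 hu0)
          (pow_ne_zero 2 ht0C))).neg (ContinuousAt.div continuousAt_const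
        ((c1.pow 3).mul continuousAt_const) (mul_ne_zero (pow_ne_zero 3 hu0)
          (pow_ne_zero 3 ht0C)))) ?_
      exact (ContinuousAt.div continuousAt_const (c1.mul continuousAt_const)
        (mul_ne_zero hu0 ht0C)).neg.cexp
    · rw [norm_mul]
      have k1 := norm_kernel_le hζ ht.1 ht.2 (y := 2) (by norm_num) le_rfl
      have k2 : ‖ζ / (((2:ℝ) : ℂ) * (t:ℂ) ^ 2)‖ ≤ ‖ζ‖ := by
        rw [norm_div]
        apply div_le_self hn0
        rw [norm_mul, norm_pow, Complex.norm_real, Complex.norm_real,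
          Real.norm_of_nonneg (by norm_num), Real.norm_of_nonneg (by linarith [ht.1])]
        nlinarith [ht.1, mul_nonneg (sub_nonneg.mpr ht.1) (sub_nonneg.mpr ht.1)]
      calc ‖ζ / (((2:ℝ) : ℂ) * (t:ℂ) ^ 2)‖ * ‖cexp (-(ζ / (((2:ℝ) : ℂ) * t)))‖ ≤ ‖ζ‖ * E :=
            mul_le_mul k2 k1 (norm_nonneg _) hn0
        _ ≤ M := by
            rw [hM]
            nlinarith [mul_nonneg hn0 hE0.le, mul_nonneg (mul_nonneg hn0 hn0) hE0.le]
    · intro u hu
      rw [norm_mul]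
      have k1 := norm_kernel_le hζ ht.1 ht.2 hu.1 hu.2
      have k2 : ‖-(ζ / ((u:ℂ) ^ 2 * (t:ℂ) ^ 2)) + ζ ^ 2 / ((u:ℂ) ^ 3 * (t:ℂ) ^ 3)‖ ≤
          ‖ζ‖ + ‖ζ‖ ^ 2 := by
        refine (norm_add_le _ _).trans (add_le_add ?_ ?_)
        · rw [norm_neg, norm_div]
          apply div_le_self hn0
          rw [norm_mul, norm_pow, norm_pow, Complex.norm_real, Complex.norm_real,
            Real.norm_of_nonneg (by linarith [hu.1]), Real.norm_of_nonneg (by linarith [ht.1])]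
          exact one_le_mul_of_one_le_of_one_le (one_le_pow₀ hu.1) (one_le_pow₀ ht.1)
        · rw [norm_div, norm_pow]
          apply div_le_self (by positivity)
          rw [norm_mul, norm_pow, norm_pow, Complex.norm_real, Complex.norm_real,
            Real.norm_of_nonneg (by linarith [hu.1]), Real.norm_of_nonneg (by linarith [ht.1])]
          exact one_le_mul_of_one_le_of_one_le (one_le_pow₀ hu.1) (one_le_pow₀ ht.1)
      calc _ ≤ (‖ζ‖ + ‖ζ‖ ^ 2) * E := mul_le_mul k2 k1 (norm_nonneg _) (by positivity)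
        _ ≤ M := by
            rw [hM]
            nlinarith [mul_nonneg hn0 hE0.le, mul_nonneg (mul_nonneg hn0 hn0) hE0.le]
  -- the double sum
  have key : ∑ k ∈ K, ∑ l ∈ K, (starRingEnd ℂ) (x k) * x l * cexp (-(ζ / (y k * y l))) =
      ∑ l ∈ K, x l * (fun t : ℝ => ∑ k ∈ K, (starRingEnd ℂ) (x k) * cexp (-(ζ / (y k * t)))) (y l) := by
    rw [Finset.sum_comm]
    refine Finset.sum_congr rfl fun l _ => ?_
    rw [Finset.mul_sum]
    refine Finset.sum_congr rfl fun k _ => ?_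
    ring
  rw [key]
  have h2 := abel1_le K hy x
    (g := fun t : ℝ => ∑ k ∈ K, (starRingEnd ℂ) (x k) * cexp (-(ζ / (y k * t))))
    (g' := fun t : ℝ => ∑ k ∈ K, (starRingEnd ℂ) (x k) *
      (ζ / (y k * t ^ 2) * cexp (-(ζ / (y k * t))))) (M := M * V) ?_ ?_
    (b1 2 ⟨by norm_num, le_rfl⟩) b2
  · refine h2.trans ?_
    rw [← hV]
    have h3 : V ^ 2 ≤ 2 * (‖Xt K y x 2‖ ^ 2 + ∫ t in (1:ℝ)..2, ‖Xt K y x t‖ ^ 2) := by
      have h4 := sq_integral_le K y x
      have : V ^ 2 ≤ 2 * (‖Xt K y x 2‖ ^ 2 + (∫ t in (1:ℝ)..2, ‖Xt K y x t‖) ^ 2) := by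
        rw [hV]
        nlinarith [sq_nonneg (‖Xt K y x 2‖ - ∫ t in (1:ℝ)..2, ‖Xt K y x t‖)]
      linarith
    have hM0 : 0 ≤ M := by positivity
    calc M * V * V = M * V ^ 2 := by ring
      _ ≤ M * (2 * (‖Xt K y x 2‖ ^ 2 + ∫ t in (1:ℝ)..2, ‖Xt K y x t‖ ^ 2)) :=
          mul_le_mul_of_nonneg_left h3 hM0
      _ = _ := by ring
  · intro t ht
    have ht0 : t ≠ 0 := by have := ht.1; positivity
    refine HasDerivAt.fun_sum fun k hk => ?_
    have hyk : y k ≠ 0 := by have := (hy k hk).1; positivity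
    have h := (hasDerivAt_kernel ζ hyk ht0).const_mul ((starRingEnd ℂ) (x k))
    have e1 : (fun t : ℝ => (starRingEnd ℂ) (x k) * cexp (-(ζ / (y k * t)))) =
        fun u : ℝ => (starRingEnd ℂ) (x k) * cexp (-(ζ / (u * y k))) := by
      funext u
      rw [mul_comm ((y k : ℝ) : ℂ) (u : ℂ)]
    rw [e1]
    refine h.congr_deriv ?_
    rw [mul_comm ((y k : ℝ) : ℂ) (t : ℂ), mul_comm ((y k : ℝ) : ℂ) ((t : ℂ) ^ 2)]
  · refine continuousOn_finsetSum _ fun k hk => ?_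
    intro t ht
    have ht0 : (t : ℂ) ≠ 0 := by
      have : t ≠ 0 := by have := ht.1; positivity
      exact_mod_cast this
    have hyk : ((y k : ℝ) : ℂ) ≠ 0 := by
      have : y k ≠ 0 := by have := (hy k hk).1; positivity
      exact_mod_cast this
    apply ContinuousAt.continuousWithinAt
    have c1 : ContinuousAt (fun y : ℝ => (y : ℂ)) t := Complex.continuous_ofReal.continuousAt
    refine continuousAt_const.mul ((ContinuousAt.div continuousAt_const
      (continuousAt_const.mul (c1.pow 2)) (mul_ne_zero hyk (pow_ne_zero 2 ht0))).mul ?_)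
    exact (ContinuousAt.div continuousAt_const (continuousAt_const.mul c1)
      (mul_ne_zero hyk ht0)).neg.cexp

end kernel

end Crest.Agent.R012.T8
end
end

-- ▼ part R012/T8M1_810
section

/-!
# Row 12 (T8): the exact dual form of the smoothed second moment, complex Gaussian weight

`PS s S β = ∑_{a primary} |∑_{b ∈ S} β_b G(b) conj (a/b)|² exp(-s N(a))`.
-/

set_option autoImplicit false
set_option linter.unusedSimpArgs false
set_option linter.unusedVariables false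

noncomputable section

open Finset Complex

namespace Crest.Agent.R012.T8

open Eis Tau671
open Gauss880 (syG)
open Po581 (fC dl)
open Mob705 (mu pdiv mem_pdiv sum_mu_coprime PE PE_eq_sum PE_pos PE_le_one)

open Classical in
/-- the smoothed second moment -/
def PS (s : ℂ) (S : Finset Eis) (β : Eis → ℂ) : ℂ :=
  ∑' a : Eis, (if IsPrim a then (∑ b ∈ S, β b * (G b * (starRingEnd ℂ) (sy a b))) *
        (starRingEnd ℂ) (∑ b ∈ S, β b * (G b * (starRingEnd ℂ) (sy a b))) else 0) * cg s (toC a)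

/-- the archimedean kernel -/
def Wk (s : ℂ) (d h k : Eis) : ℂ :=
  cexp (-(4 * Real.pi ^ 2 * nm h / (27 * s * nm d) / nm k))


/-- summand of the dual series -/
def dF (s : ℂ) (e d k1 k2 h : Eis) : ℂ :=
  ph h * ((((Real.sqrt (nm k1 * nm k2))⁻¹ : ℝ) : ℂ) *
    (psi h (d * e) k1 * (starRingEnd ℂ) (psi h (d * e) k2)) * Wk s d h (k1 * k2))

lemma fC_cg_kernel {s : ℂ} (hs : 0 < s.re) (h k1 k2 d : Eis) :
    fC (cg s) (toC h / (3 * toC sq3 * (toC k1 * toC k2) * toC d)) =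
      (Real.pi / s) * Wk s d h (k1 * k2) := by
  rw [fC_cg hs]
  unfold Wk
  congr 3
  have hnorm : (‖toC h / (3 * toC sq3 * (toC k1 * toC k2) * toC d)‖ : ℂ) ^ 2 =
      (nm h : ℂ) / (27 * (nm k1 * nm k2) * nm d) := by
    rw [← Complex.ofReal_pow, norm_div, norm_mul, norm_mul, norm_mul, norm_mul, div_pow, mul_pow,
      mul_pow, mul_pow, mul_pow, norm_toC_sq, norm_toC_sq, norm_toC_sq, norm_toC_sq, norm_toC_sq]
    have : nm sq3 = 3 := by decide
    rw [this]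
    norm_num
  rw [hnorm, nm_mul]
  push_cast
  simp only [div_eq_mul_inv, mul_inv]
  ring

lemma summable_dF {s : ℂ} (hs : 0 < s.re) {e d k1 k2 : Eis} (h1 : IsPrim k1)
    (h2 : IsPrim k2) (hd : d ≠ 0) : Summable (dF s e d k1 k2) := by
  have h := summable_dualPair (r := d * e) (pf_cg hs) h1 h2 hd
  have hs0 : s ≠ 0 := by rintro rfl; simp at hs
  have hpi : (Real.pi : ℂ) ≠ 0 := by exact_mod_cast Real.pi_ne_zero
  have h' := h.mul_left ((((Real.sqrt (nm k1 * nm k2))⁻¹ : ℝ) : ℂ) * (Real.pi / s)⁻¹)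
  refine h'.congr fun x => ?_
  rw [fC_cg_kernel hs]
  unfold dF
  have : (Real.pi / s : ℂ) ≠ 0 := div_ne_zero hpi hs0
  field_simp

lemma dualPair_cg {s : ℂ} (hs : 0 < s.re) {e k1 k2 : Eis} :
    dualPair (cg s) e k1 k2 = (2 * Real.pi / (9 * Real.sqrt 3 * s)) *
      ∑ d ∈ pdiv e, (mu d : ℂ) * (nm d : ℂ)⁻¹ * ∑' h : Eis, dF s e d k1 k2 h := by
  unfold dualPair
  rw [Finset.mul_sum, Finset.mul_sum]
  refine Finset.sum_congr rfl fun d _ => ?_
  have e1 : ∀ h : Eis, ph h * (psi h (d * e) k1 * (starRingEnd ℂ) (psi h (d * e) k2)) *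
        fC (cg s) (toC h / (3 * toC sq3 * (toC k1 * toC k2) * toC d)) =
      (Real.pi / s) * (ph h * (psi h (d * e) k1 * (starRingEnd ℂ) (psi h (d * e) k2)) *
        Wk s d h (k1 * k2)) := by
    intro h
    rw [fC_cg_kernel hs]; ring
  have e2 : ∀ h : Eis, dF s e d k1 k2 h = (((Real.sqrt (nm k1 * nm k2))⁻¹ : ℝ) : ℂ) *
      (ph h * (psi h (d * e) k1 * (starRingEnd ℂ) (psi h (d * e) k2)) *
        Wk s d h (k1 * k2)) := by
    intro h; unfold dF; ring
  rw [tsum_congr e1, tsum_congr e2, tsum_mul_left, tsum_mul_left]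
  push_cast
  have hs0 : s ≠ 0 := by rintro rfl; simp at hs
  field_simp

open Classical in
/-- the bilinear form of one frequency -/
def Qe (s : ℂ) (S D : Finset Eis) (β : Eis → ℂ) (e d h : Eis) : ℂ :=
  ∑ k1 ∈ D, ∑ k2 ∈ D, (if e * k1 ∈ S ∧ e * k2 ∈ S ∧ IsCoprime k1 k2 then
        β (e * k1) * (starRingEnd ℂ) (β (e * k2)) *
          (((Real.sqrt (nm k1 * nm k2))⁻¹ : ℝ) : ℂ) *
          (psi h (d * e) k1 * (starRingEnd ℂ) (psi h (d * e) k2)) * Wk s d h (k1 * k2) else 0)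

lemma psi_zero {r k : Eis} (hk : IsPrim k) (h1 : k ≠ 1) : psi 0 r k = 0 := by
  apply psi_eq_zero hk
  intro h
  have hu : IsUnit k := isCoprime_zero_left.mp h
  exact h1 (hk.eq_of_associated isPrim_one ((associated_one_iff_isUnit).mpr hu))

open Classical in
lemma Qe_zero {s : ℂ} {S D : Finset Eis} (hD : ∀ d ∈ D, IsPrim d)
    (hSD : ∀ b ∈ S, ∀ d : Eis, IsPrim d → d ∣ b → d ∈ D) (β : Eis → ℂ) (e d : Eis) :
    Qe s S D β e d 0 = if e ∈ S then β e * (starRingEnd ℂ) (β e) else 0 := by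
  unfold Qe
  have hz : ∀ k1 ∈ D, ∀ k2 ∈ D, k1 ≠ 1 ∨ k2 ≠ 1 →
      (if e * k1 ∈ S ∧ e * k2 ∈ S ∧ IsCoprime k1 k2 then
        β (e * k1) * (starRingEnd ℂ) (β (e * k2)) *
          (((Real.sqrt (nm k1 * nm k2))⁻¹ : ℝ) : ℂ) *
          (psi 0 (d * e) k1 * (starRingEnd ℂ) (psi 0 (d * e) k2)) * Wk s d 0 (k1 * k2) else 0)
        = 0 := by
    intro k1 hk1 k2 hk2 h
    have : psi 0 (d * e) k1 * (starRingEnd ℂ) (psi 0 (d * e) k2) = 0 := by
      rcases h with h | h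
      · rw [psi_zero (hD _ hk1) h, zero_mul]
      · rw [psi_zero (hD _ hk2) h, map_zero, mul_zero]
    rw [this]
    split_ifs <;> simp
  by_cases he : e ∈ S
  · rw [if_pos he]
    have h1 : (1 : Eis) ∈ D := hSD _ he _ isPrim_one (one_dvd _)
    rw [Finset.sum_eq_single_of_mem (1 : Eis) h1, Finset.sum_eq_single_of_mem (1 : Eis) h1]
    · rw [mul_one, if_pos ⟨he, he, isCoprime_one_left⟩]
      have h2 : nm (1 : Eis) = 1 := by decide
      have h3 : nm (0 : Eis) = 0 := by decide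
      have h4 : ∀ x : Eis, sy x 1 = 1 := fun x => by
        simp [Sym645.sy_one_right x]
      unfold psi Wk
      rw [h4, h4, h2, h3]
      simp
    · intro k2 hk2 h
      exact hz _ h1 _ hk2 (Or.inr h)
    · intro k1 hk1 h
      exact Finset.sum_eq_zero fun k2 hk2 => hz _ hk1 _ hk2 (Or.inl h)
  · rw [if_neg he]
    refine Finset.sum_eq_zero fun k1 hk1 => Finset.sum_eq_zero fun k2 hk2 => ?_
    by_cases h : k1 ≠ 1 ∨ k2 ≠ 1
    · exact hz _ hk1 _ hk2 h
    · push Not at h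
      rw [h.1, h.2, mul_one, if_neg (fun h' => he h'.1)]

open Classical in
lemma sum_dualPair {s : ℂ} (hs : 0 < s.re) {S D : Finset Eis} (hD : ∀ d ∈ D, IsPrim d)
    (β : Eis → ℂ) {e : Eis} (he : IsPrim e) :
    (∑ k1 ∈ D, ∑ k2 ∈ D, if e * k1 ∈ S ∧ e * k2 ∈ S ∧ IsCoprime k1 k2 then
        β (e * k1) * (starRingEnd ℂ) (β (e * k2)) * dualPair (cg s) e k1 k2 else 0) =
      (2 * Real.pi / (9 * Real.sqrt 3 * s)) * ∑ d ∈ pdiv e, (mu d : ℂ) * (nm d : ℂ)⁻¹ *
        ∑' h : Eis, ph h * Qe s S D β e d h := by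
  have e1 : ∀ k1 k2 : Eis, (if e * k1 ∈ S ∧ e * k2 ∈ S ∧ IsCoprime k1 k2 then
        β (e * k1) * (starRingEnd ℂ) (β (e * k2)) * dualPair (cg s) e k1 k2 else 0) =
      (2 * Real.pi / (9 * Real.sqrt 3 * s)) * ∑ d ∈ pdiv e, (mu d : ℂ) * (nm d : ℂ)⁻¹ *
        ∑' h : Eis, (if e * k1 ∈ S ∧ e * k2 ∈ S ∧ IsCoprime k1 k2 then
          β (e * k1) * (starRingEnd ℂ) (β (e * k2)) else 0) * dF s e d k1 k2 h := by
    intro k1 k2
    simp_rw [tsum_mul_left]
    by_cases hc : e * k1 ∈ S ∧ e * k2 ∈ S ∧ IsCoprime k1 k2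
    · simp only [if_pos hc]
      rw [dualPair_cg hs, Finset.mul_sum, Finset.mul_sum, Finset.mul_sum]
      exact Finset.sum_congr rfl fun d _ => by ring
    · simp only [if_neg hc, zero_mul, mul_zero, Finset.sum_const_zero]
  simp_rw [e1]
  simp_rw [← Finset.mul_sum]
  congr 1
  have e2 : ∀ k1 : Eis, ∑ k2 ∈ D, ∑ d ∈ pdiv e, (mu d : ℂ) * (nm d : ℂ)⁻¹ *
        ∑' h : Eis, (if e * k1 ∈ S ∧ e * k2 ∈ S ∧ IsCoprime k1 k2 then
          β (e * k1) * (starRingEnd ℂ) (β (e * k2)) else 0) * dF s e d k1 k2 h =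
      ∑ d ∈ pdiv e, ∑ k2 ∈ D, (mu d : ℂ) * (nm d : ℂ)⁻¹ *
        ∑' h : Eis, (if e * k1 ∈ S ∧ e * k2 ∈ S ∧ IsCoprime k1 k2 then
          β (e * k1) * (starRingEnd ℂ) (β (e * k2)) else 0) * dF s e d k1 k2 h :=
    fun k1 => Finset.sum_comm
  simp_rw [e2]
  rw [Finset.sum_comm]
  refine Finset.sum_congr rfl fun d hd => ?_
  have hd0 : d ≠ 0 := ((mem_pdiv he.ne_zero).mp hd).1.ne_zero
  simp_rw [← Finset.mul_sum]
  congr 1
  have hsm : ∀ k1 ∈ D, ∀ k2 ∈ D, Summable (fun h : Eis =>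
      (if e * k1 ∈ S ∧ e * k2 ∈ S ∧ IsCoprime k1 k2 then
          β (e * k1) * (starRingEnd ℂ) (β (e * k2)) else 0) * dF s e d k1 k2 h) :=
    fun k1 hk1 k2 hk2 => (summable_dF hs (hD _ hk1) (hD _ hk2) hd0).mul_left _
  have e3 : ∀ k1 ∈ D, ∑ k2 ∈ D, ∑' h : Eis,
      (if e * k1 ∈ S ∧ e * k2 ∈ S ∧ IsCoprime k1 k2 then
          β (e * k1) * (starRingEnd ℂ) (β (e * k2)) else 0) * dF s e d k1 k2 h =
      ∑' h : Eis, ∑ k2 ∈ D, (if e * k1 ∈ S ∧ e * k2 ∈ S ∧ IsCoprime k1 k2 then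
          β (e * k1) * (starRingEnd ℂ) (β (e * k2)) else 0) * dF s e d k1 k2 h :=
    fun k1 hk1 => (Summable.tsum_finsetSum (fun k2 hk2 => hsm k1 hk1 k2 hk2)).symm
  rw [Finset.sum_congr rfl e3,
    ← Summable.tsum_finsetSum (fun k1 hk1 => summable_sum fun k2 hk2 => hsm k1 hk1 k2 hk2)]
  refine tsum_congr fun h => ?_
  unfold Qe
  rw [Finset.mul_sum]
  refine Finset.sum_congr rfl fun k1 _ => ?_
  rw [Finset.mul_sum]
  refine Finset.sum_congr rfl fun k2 _ => ?_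
  unfold dF
  split_ifs
  · ring
  · simp

open Classical in
lemma summable_Qe {s : ℂ} (hs : 0 < s.re) {S D : Finset Eis} (hD : ∀ d ∈ D, IsPrim d)
    (β : Eis → ℂ) {e d : Eis} (hd0 : d ≠ 0) :
    Summable (fun h : Eis => ph h * Qe s S D β e d h) := by
  have hsm : ∀ k1 ∈ D, ∀ k2 ∈ D, Summable (fun h : Eis =>
      (if e * k1 ∈ S ∧ e * k2 ∈ S ∧ IsCoprime k1 k2 then
          β (e * k1) * (starRingEnd ℂ) (β (e * k2)) else 0) * dF s e d k1 k2 h) :=
    fun k1 hk1 k2 hk2 => (summable_dF hs (hD _ hk1) (hD _ hk2) hd0).mul_left _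
  have h := summable_sum fun k1 hk1 => summable_sum fun k2 hk2 => hsm k1 hk1 k2 hk2
  refine h.congr fun x => ?_
  unfold Qe
  rw [Finset.mul_sum]
  refine Finset.sum_congr rfl fun k1 _ => ?_
  rw [Finset.mul_sum]
  refine Finset.sum_congr rfl fun k2 _ => ?_
  unfold dF
  split_ifs
  · ring
  · simp

open Classical in
/-- **The dual bound of the smoothed second moment.** -/
theorem norm_PS_le {s : ℂ} (hs : 0 < s.re) {S D : Finset Eis}
    (hS : ∀ b ∈ S, IsPrim b ∧ Squarefree b) (hD : ∀ d ∈ D, IsPrim d)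
    (hSD : ∀ b ∈ S, ∀ d : Eis, IsPrim d → d ∣ b → d ∈ D) (β : Eis → ℂ) :
    ‖PS s S β‖ ≤ 2 * Real.pi / (9 * Real.sqrt 3 * ‖s‖) * (∑ b ∈ S, ‖β b‖ ^ 2 +
      ∑ e ∈ D, ∑ d ∈ pdiv e, (nm d : ℝ)⁻¹ *
        ‖∑' h : Eis, if h = 0 then 0 else ph h * Qe s S D β e d h‖) := by
  unfold PS
  rw [dual_sum (pf_cg hs) hS hD hSD β, Finset.sum_congr rfl fun e he =>
    sum_dualPair hs hD β (hD e he), ← Finset.mul_sum, norm_mul]
  have hc : ‖(2 * Real.pi / (9 * Real.sqrt 3 * s) : ℂ)‖ =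
      2 * Real.pi / (9 * Real.sqrt 3 * ‖s‖) := by
    rw [norm_div, norm_mul, norm_mul, norm_mul, Complex.norm_real, Complex.norm_real,
      Real.norm_of_nonneg Real.pi_pos.le, Real.norm_of_nonneg (Real.sqrt_nonneg _)]
    norm_num
  rw [hc]
  apply mul_le_mul_of_nonneg_left _ (by positivity)
  have e1 : ∀ e ∈ D, ∑ d ∈ pdiv e, (mu d : ℂ) * (nm d : ℂ)⁻¹ *
        ∑' h : Eis, ph h * Qe s S D β e d h =
      ph 0 * (if e ∈ S then β e * (starRingEnd ℂ) (β e) else 0) * (PE e : ℂ) +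
      ∑ d ∈ pdiv e, (mu d : ℂ) * (nm d : ℂ)⁻¹ *
        ∑' h : Eis, if h = 0 then 0 else ph h * Qe s S D β e d h := by
    intro e he
    have h1 := PE_eq_sum (hD _ he).ne_zero
    have h2 : (PE e : ℂ) = ∑ d ∈ pdiv e, (mu d : ℂ) * (nm d : ℂ)⁻¹ := by
      rw [h1]; push_cast
      exact Finset.sum_congr rfl fun d _ => by rw [one_div]
    rw [h2, Finset.mul_sum, ← Finset.sum_add_distrib]
    refine Finset.sum_congr rfl fun d hd => ?_
    have hd0 : d ≠ 0 := ((mem_pdiv (hD _ he).ne_zero).mp hd).1.ne_zero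
    rw [(summable_Qe hs hD β hd0).tsum_eq_add_tsum_ite 0, Qe_zero hD hSD]
    ring
  rw [Finset.sum_congr rfl e1, Finset.sum_add_distrib]
  refine (norm_add_le _ _).trans (add_le_add ?_ ?_)
  · refine (norm_sum_le _ _).trans ?_
    have e2 : ∀ e ∈ D, ‖ph 0 * (if e ∈ S then β e * (starRingEnd ℂ) (β e) else 0) *
        (PE e : ℂ)‖ ≤ if e ∈ S then ‖β e‖ ^ 2 else 0 := by
      intro e _
      rw [norm_mul, norm_mul, norm_ph, one_mul, Complex.norm_real,
        Real.norm_of_nonneg (PE_pos e).le]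
      split_ifs
      · rw [norm_mul, RCLike.norm_conj, ← pow_two]
        exact mul_le_of_le_one_right (by positivity) (PE_le_one e)
      · simp
    refine (Finset.sum_le_sum e2).trans ?_
    rw [← Finset.sum_filter]
    apply Finset.sum_le_sum_of_subset_of_nonneg
    · intro x hx
      exact (Finset.mem_filter.mp hx).2
    · intro x _ _; positivity
  · refine (norm_sum_le _ _).trans (Finset.sum_le_sum fun e _ => ?_)
    refine (norm_sum_le _ _).trans (Finset.sum_le_sum fun d _ => ?_)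
    rw [norm_mul, norm_mul]
    apply mul_le_mul_of_nonneg_right _ (norm_nonneg _)
    rw [norm_inv, Complex.norm_natCast]
    have h1 : ‖((mu d : ℤ) : ℂ)‖ ≤ 1 := by
      rw [Complex.norm_intCast]
      exact_mod_cast Mob705.abs_mu_le_one d
    exact mul_le_of_le_one_left (by positivity) h1

end Crest.Agent.R012.T8
end
end

-- ▼ part R012/T8Master_810

/-!
# Row 12 (T8): the master inequality

`LSH C` is the large sieve input (helper879's `T8LS_879`).  `master`: for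
`s = (1 - iτ)/A` the smoothed second moment `PS s S β` is bounded by the diagonal plus a sum over
`(e, d, g)` of large sieve bounds.
-/

set_option autoImplicit false
set_option linter.unusedSimpArgs false
set_option linter.unusedVariables false

noncomputable section

open Finset Complex MeasureTheory

namespace Crest.Agent.R012.T8

open Eis Tau671
open Gauss880 (syG)
open Mob705 (mu pdiv mem_pdiv)

/-- the large sieve input (all nonzero frequencies) -/
def LSH (C : ℝ) : Prop := ∀ (K N ν : ℝ) (T H : Finset Eis) (c : Eis → ℂ), 0 < K → 1 ≤ N →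
  1 ≤ ν → (∀ k ∈ T, IsPrim k ∧ Squarefree k ∧ (nm k : ℝ) ≤ 2 * N) → (T.card : ℝ) ≤ ν →
  (∀ h ∈ H, h ≠ 0) →
  ∑ h ∈ H, ((1 + nm h / K) ^ 4)⁻¹ * ‖∑ k ∈ T, c k * sy h k‖ ^ 2 ≤
    C * (1 + Real.log (1 + K)) *
      (K ^ ((1:ℝ)/3) * N ^ ((2:ℝ)/3) * ν ^ ((1:ℝ)/3) + K + K ^ 2) * ∑ k ∈ T, ‖c k‖ ^ 2

open Classical in
/-- the set of `m` with `e g m ∈ S` -/
def Kg (S D : Finset Eis) (e g : Eis) : Finset Eis := D.filter (fun m => e * (g * m) ∈ S)

/-- the coefficients after separation -/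
def xg (β : Eis → ℂ) (e d g h m : Eis) : ℂ :=
  (starRingEnd ℂ) (β (e * (g * m)) * psi h (d * e) m) * (((Real.sqrt (nm m))⁻¹ : ℝ) : ℂ)

/-- the normalized variable -/
def yg (B : ℝ) (e g m : Eis) : ℝ := nm e * nm g * nm m / B

open Classical in
/-- Moebius inversion for a single frequency. -/
lemma norm_Qe_le {s : ℂ} (hs0 : s ≠ 0) {S D : Finset Eis} (hS : ∀ b ∈ S, IsPrim b ∧ Squarefree b)
    (hD : ∀ d ∈ D, IsPrim d) (hSD : ∀ b ∈ S, ∀ d : Eis, IsPrim d → d ∣ b → d ∈ D) (β : Eis → ℂ)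
    {B : ℝ} (hB : 0 < B) {e d : Eis} (he : IsPrim e) (hde : d ∣ e) (h : Eis) :
    ‖Qe s S D β e d h‖ ≤ ∑ g ∈ D, (nm g : ℝ)⁻¹ *
      ‖∑ m1 ∈ Kg S D e g, ∑ m2 ∈ Kg S D e g, (starRingEnd ℂ) (xg β e d g h m1) *
        xg β e d g h m2 * cexp (-((4 * Real.pi ^ 2 * nm h * (nm e) ^ 2 / (27 * nm d * B ^ 2) / s) /
          (yg B e g m1 * yg B e g m2)))‖ := by
  have hp := pairs_moebius hS hD hSD he hde h β (Wk s d h)
  have hQ : Qe s S D β e d h = _ := hp
  rw [hQ]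
  refine (norm_sum_le _ _).trans (Finset.sum_le_sum fun g hg => ?_)
  have hgp := hD _ hg
  have hg0 : (0 : ℝ) < nm g := by exact_mod_cast nm_pos.mpr hgp.ne_zero
  have he0 : (0 : ℝ) < nm e := by exact_mod_cast nm_pos.mpr he.ne_zero
  have hd0 : (0 : ℝ) < nm d := by
    have : d ≠ 0 := fun h => he.ne_zero (zero_dvd_iff.mp (h ▸ hde))
    exact_mod_cast nm_pos.mpr this
  have hin : ∑ m1 ∈ D, ∑ m2 ∈ D, (if e * (g * m1) ∈ S ∧ e * (g * m2) ∈ S then
          β (e * (g * m1)) * (starRingEnd ℂ) (β (e * (g * m2))) *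
            (((Real.sqrt (nm m1 * nm m2))⁻¹ : ℝ) : ℂ) *
            (psi h (d * e) m1 * (starRingEnd ℂ) (psi h (d * e) m2)) *
            Wk s d h (g * g * (m1 * m2)) else 0) =
      ∑ m1 ∈ Kg S D e g, ∑ m2 ∈ Kg S D e g, (starRingEnd ℂ) (xg β e d g h m1) *
        xg β e d g h m2 * cexp (-((4 * Real.pi ^ 2 * nm h * (nm e) ^ 2 / (27 * nm d * B ^ 2) / s) /
          (yg B e g m1 * yg B e g m2))) := by
    unfold Kg
    rw [Finset.sum_filter]
    refine Finset.sum_congr rfl fun m1 hm1 => ?_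
    by_cases c1 : e * (g * m1) ∈ S
    · rw [if_pos c1, Finset.sum_filter]
      refine Finset.sum_congr rfl fun m2 hm2 => ?_
      by_cases c2 : e * (g * m2) ∈ S
      · rw [if_pos ⟨c1, c2⟩, if_pos c2]
        have h1 : (0 : ℝ) < nm m1 := by exact_mod_cast nm_pos.mpr (hD _ hm1).ne_zero
        have h2 : (0 : ℝ) < nm m2 := by exact_mod_cast nm_pos.mpr (hD _ hm2).ne_zero
        have eW : Wk s d h (g * g * (m1 * m2)) =
            cexp (-((4 * Real.pi ^ 2 * nm h * (nm e) ^ 2 / (27 * nm d * B ^ 2) / s) /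
              (yg B e g m1 * yg B e g m2))) := by
          unfold Wk yg
          congr 2
          rw [nm_mul, nm_mul, nm_mul]
          push_cast
          have a1 : (nm m1 : ℂ) ≠ 0 := by exact_mod_cast h1.ne'
          have a2 : (nm m2 : ℂ) ≠ 0 := by exact_mod_cast h2.ne'
          have a3 : (nm g : ℂ) ≠ 0 := by exact_mod_cast hg0.ne'
          have a4 : (nm e : ℂ) ≠ 0 := by exact_mod_cast he0.ne'
          have a5 : (nm d : ℂ) ≠ 0 := by exact_mod_cast hd0.ne'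
          have a6 : (B : ℂ) ≠ 0 := by exact_mod_cast hB.ne'
          field_simp
        rw [eW]
        have er : (((Real.sqrt (nm m1 * nm m2))⁻¹ : ℝ) : ℂ) =
            (((Real.sqrt (nm m1))⁻¹ : ℝ) : ℂ) * (((Real.sqrt (nm m2))⁻¹ : ℝ) : ℂ) := by
          rw [← Complex.ofReal_mul, Real.sqrt_mul (Nat.cast_nonneg _), mul_inv]
        rw [er]
        unfold xg
        simp only [map_mul, Complex.conj_conj, Complex.conj_ofReal]
        ring
      · rw [if_neg (fun h => c2 h.2), if_neg c2]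
    · rw [if_neg c1]
      exact Finset.sum_eq_zero fun m2 _ => if_neg (fun h => c1 h.1)
  by_cases hhg : IsCoprime h g
  · rw [if_pos hhg, hin, norm_mul, norm_mul]
    apply mul_le_mul_of_nonneg_right _ (norm_nonneg _)
    rw [norm_inv, Complex.norm_natCast]
    have h1 : ‖((mu g : ℤ) : ℂ)‖ ≤ 1 := by
      rw [Complex.norm_intCast]
      exact_mod_cast Mob705.abs_mu_le_one g
    exact mul_le_of_le_one_left (by positivity) h1
  · rw [if_neg hhg, norm_zero]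
    positivity

/-- elementary bound of the weight -/
lemma weight_le {Z : ℝ} (hZ : 0 ≤ Z) (τ : ℝ) {n : ℝ} (hn0 : 0 ≤ n) (hn : n ≤ Z * (1 + τ ^ 2)) :
    (1 + n) ^ 2 * Real.exp (-(Z / 4)) ≤ 24 ^ 6 * (1 + τ ^ 2) ^ 2 * ((1 + Z) ^ 4)⁻¹ := by
  have hq : 1 ≤ 1 + τ ^ 2 := by nlinarith [sq_nonneg τ]
  have h1 : 1 + n ≤ (1 + τ ^ 2) * (1 + Z) := by nlinarith
  have h2 : (1 + n) ^ 2 ≤ ((1 + τ ^ 2) * (1 + Z)) ^ 2 := by gcongr
  have h3 : (1 + Z) ^ 6 ≤ 24 ^ 6 * Real.exp (Z / 4) := by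
    have h4 : 1 + Z ≤ 24 * Real.exp (Z / 24) := by
      have := Real.add_one_le_exp (Z / 24)
      linarith
    calc (1 + Z) ^ 6 ≤ (24 * Real.exp (Z / 24)) ^ 6 := by gcongr
      _ = 24 ^ 6 * Real.exp (Z / 4) := by
          rw [mul_pow, ← Real.exp_nat_mul]; congr 2; push_cast; ring
  have h5 : (1 + Z) ^ 2 * Real.exp (-(Z / 4)) ≤ 24 ^ 6 * ((1 + Z) ^ 4)⁻¹ := by
    rw [Real.exp_neg, ← div_eq_mul_inv, ← div_eq_mul_inv, div_le_div_iff₀ (Real.exp_pos _)
      (by positivity)]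
    calc (1 + Z) ^ 2 * (1 + Z) ^ 4 = (1 + Z) ^ 6 := by ring
      _ ≤ _ := h3
  calc (1 + n) ^ 2 * Real.exp (-(Z / 4)) ≤ ((1 + τ ^ 2) * (1 + Z)) ^ 2 * Real.exp (-(Z / 4)) := by
        gcongr
    _ = (1 + τ ^ 2) ^ 2 * ((1 + Z) ^ 2 * Real.exp (-(Z / 4))) := by ring
    _ ≤ (1 + τ ^ 2) ^ 2 * (24 ^ 6 * ((1 + Z) ^ 4)⁻¹) := by gcongr
    _ = _ := by ring

/-- effective length of the dual sum -/
def Keff (A B τ : ℝ) (e d : Eis) : ℝ :=
  27 * (1 + τ ^ 2) * nm d * B ^ 2 / (4 * Real.pi ^ 2 * A * (nm e) ^ 2)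

/-- the large sieve factor -/
def Phi (K N ν : ℝ) : ℝ :=
  (1 + Real.log (1 + K)) * (K ^ ((1:ℝ)/3) * N ^ ((2:ℝ)/3) * ν ^ ((1:ℝ)/3) + K + K ^ 2)

lemma Phi_nonneg {K N ν : ℝ} (hK : 0 ≤ K) (hN : 0 ≤ N) (hν : 0 ≤ ν) : 0 ≤ Phi K N ν := by
  unfold Phi
  have := Real.log_nonneg (show 1 ≤ 1 + K by linarith)
  positivity

/-- The large sieve bound for one triple `(e, d, g)`. -/
lemma sum_freq {C : ℝ} (hC : 0 < C) (hL : LSH C) {S D : Finset Eis} {A B τ : ℝ} (hA : 0 < A)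
    (hB : 0 < B)
    (hS : ∀ b ∈ S, IsPrim b ∧ Squarefree b ∧ B ≤ nm b ∧ (nm b : ℝ) ≤ 2 * B)
    (hD : ∀ d ∈ D, IsPrim d) (β : Eis → ℂ) {e d g : Eis} (he : IsPrim e) (hd : d ≠ 0)
    (hg : IsPrim g) {H : Finset Eis} (hH : ∀ h ∈ H, h ≠ 0) :
    ∑ h ∈ H, ‖∑ m1 ∈ Kg S D e g, ∑ m2 ∈ Kg S D e g, (starRingEnd ℂ) (xg β e d g h m1) *
        xg β e d g h m2 * cexp (-((4 * Real.pi ^ 2 * nm h * (nm e) ^ 2 / (27 * nm d * B ^ 2) /
          ((1 - τ * I) / A)) / (yg B e g m1 * yg B e g m2)))‖ ≤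
      4 * 24 ^ 6 * C * (1 + τ ^ 2) ^ 2 *
        Phi (Keff A B τ e d) (max 1 (B / (nm e * nm g))) (1 + (Kg S D e g).card) *
          ∑ m ∈ Kg S D e g, ‖β (e * (g * m))‖ ^ 2 / nm m := by
  have he0 : (0 : ℝ) < nm e := by exact_mod_cast nm_pos.mpr he.ne_zero
  have hg0 : (0 : ℝ) < nm g := by exact_mod_cast nm_pos.mpr hg.ne_zero
  have hd0 : (0 : ℝ) < nm d := by exact_mod_cast nm_pos.mpr hd
  have hq : (0 : ℝ) < 1 + τ ^ 2 := by positivity
  set K := Kg S D e g with hKdef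
  have hmem : ∀ m ∈ K, IsPrim m ∧ Squarefree m ∧ 1 ≤ yg B e g m ∧ yg B e g m ≤ 2 := by
    intro m hm
    rw [hKdef, Kg, Finset.mem_filter] at hm
    obtain ⟨-, h2, h3, h4⟩ := hS _ hm.2
    refine ⟨hD _ hm.1, ?_, ?_, ?_⟩
    · exact (squarefree_mul_iff.mp (squarefree_mul_iff.mp h2).2.2).2.2
    · unfold yg
      rw [le_div_iff₀ hB, one_mul]
      rw [nm_mul, nm_mul] at h3
      push_cast at h3
      linarith
    · unfold yg
      rw [div_le_iff₀ hB]
      rw [nm_mul, nm_mul] at h4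
      push_cast at h4
      linarith
  have hy : ∀ m ∈ K, 1 ≤ yg B e g m ∧ yg B e g m ≤ 2 := fun m hm => (hmem m hm).2.2
  set K0 := Keff A B τ e d with hK0
  have hK0pos : 0 < K0 := by
    rw [hK0]; unfold Keff; positivity
  -- the parameter
  have hζ : ∀ h : Eis, (4 * Real.pi ^ 2 * nm h * (nm e) ^ 2 / (27 * nm d * B ^ 2) /
      ((1 - τ * I) / A) : ℂ) = ((nm h / K0 : ℝ) : ℂ) * (1 + τ * I) := by
    intro h
    have h1 : (1 - τ * I : ℂ) ≠ 0 := by
      intro h0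
      have := congrArg Complex.re h0
      simp at this
    have h2 : (1 + τ * I) * (1 - τ * I) = ((1 + τ ^ 2 : ℝ) : ℂ) := by
      push_cast
      ring_nf
      rw [Complex.I_sq]; ring
    have h3 : ((1 + τ ^ 2 : ℝ) : ℂ) ≠ 0 := by exact_mod_cast hq.ne'
    have a4 : (nm e : ℂ) ≠ 0 := by exact_mod_cast he0.ne'
    have a5 : (nm d : ℂ) ≠ 0 := by exact_mod_cast hd0.ne'
    have a6 : (B : ℂ) ≠ 0 := by exact_mod_cast hB.ne'
    have a7 : (A : ℂ) ≠ 0 := by exact_mod_cast hA.ne'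
    have a8 : (Real.pi : ℂ) ≠ 0 := by exact_mod_cast Real.pi_ne_zero
    rw [hK0]; unfold Keff
    rw [div_div_eq_mul_div, div_eq_iff h1, mul_assoc (_ : ℂ) (1 + τ * I) (1 - τ * I), h2]
    push_cast at h3 ⊢
    field_simp
  have hζre : ∀ h : Eis, (((nm h / K0 : ℝ) : ℂ) * (1 + τ * I)).re = nm h / K0 := by
    intro h
    rw [re_ofReal_mul]; simp
  have hζn : ∀ h : Eis, ‖((nm h / K0 : ℝ) : ℂ) * (1 + τ * I)‖ ≤ nm h / K0 * (1 + τ ^ 2) := by
    intro h
    rw [norm_mul, Complex.norm_real, Real.norm_of_nonneg (by positivity)]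
    apply mul_le_mul_of_nonneg_left _ (by positivity)
    have h1 : ‖(1 + τ * I : ℂ)‖ ^ 2 = 1 + τ ^ 2 := by
      rw [← Complex.normSq_eq_norm_sq, Complex.normSq_apply]; simp; ring
    have h2 : (1 : ℝ) ≤ 1 + τ ^ 2 := by nlinarith [sq_nonneg τ]
    nlinarith [norm_nonneg (1 + τ * I : ℂ)]
  -- per frequency
  have hper : ∀ h ∈ H, ‖∑ m1 ∈ K, ∑ m2 ∈ K, (starRingEnd ℂ) (xg β e d g h m1) *
        xg β e d g h m2 * cexp (-((4 * Real.pi ^ 2 * nm h * (nm e) ^ 2 / (27 * nm d * B ^ 2) /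
          ((1 - τ * I) / A)) / (yg B e g m1 * yg B e g m2)))‖ ≤
      2 * (24 ^ 6 * (1 + τ ^ 2) ^ 2) * (((1 + nm h / K0) ^ 4)⁻¹ *
        ‖Xt K (yg B e g) (xg β e d g h) 2‖ ^ 2 + ∫ t in (1:ℝ)..2, ((1 + nm h / K0) ^ 4)⁻¹ *
          ‖Xt K (yg B e g) (xg β e d g h) t‖ ^ 2) := by
    intro h hh
    rw [hζ h]
    have h1 := sep (ζ := ((nm h / K0 : ℝ) : ℂ) * (1 + τ * I)) K hy (xg β e d g h)
      (by rw [hζre]; positivity)
    refine h1.trans ?_
    have h2 := weight_le (Z := nm h / K0) (by positivity) τ (norm_nonneg _) (hζn h)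
    rw [hζre, intervalIntegral.integral_const_mul]
    have h3 : 0 ≤ ‖Xt K (yg B e g) (xg β e d g h) 2‖ ^ 2 +
        ∫ t in (1:ℝ)..2, ‖Xt K (yg B e g) (xg β e d g h) t‖ ^ 2 := by
      have : 0 ≤ ∫ t in (1:ℝ)..2, ‖Xt K (yg B e g) (xg β e d g h) t‖ ^ 2 :=
        intervalIntegral.integral_nonneg (by norm_num) fun t _ => by positivity
      positivity
    calc _ ≤ 2 * (24 ^ 6 * (1 + τ ^ 2) ^ 2 * ((1 + nm h / K0) ^ 4)⁻¹) *
        (‖Xt K (yg B e g) (xg β e d g h) 2‖ ^ 2 +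
        ∫ t in (1:ℝ)..2, ‖Xt K (yg B e g) (xg β e d g h) t‖ ^ 2) := by
          apply mul_le_mul_of_nonneg_right _ h3
          exact mul_le_mul_of_nonneg_left h2 (by norm_num)
      _ = _ := by ring
  -- large sieve for each `t`
  have hPhi : 0 ≤ Phi K0 (max 1 (B / (nm e * nm g))) (1 + (K.card : ℝ)) :=
    Phi_nonneg hK0pos.le (by positivity) (by positivity)
  set R := C * Phi K0 (max 1 (B / (nm e * nm g))) (1 + (K.card : ℝ)) *
    ∑ m ∈ K, ‖β (e * (g * m))‖ ^ 2 / nm m with hR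
  have hls : ∀ t : ℝ, ∑ h ∈ H, ((1 + nm h / K0) ^ 4)⁻¹ *
      ‖Xt K (yg B e g) (xg β e d g h) t‖ ^ 2 ≤ R := by
    intro t
    set c : Eis → ℂ := fun m => if yg B e g m ≤ t then β (e * (g * m)) *
      (starRingEnd ℂ) (sy (d * e) m) * (((Real.sqrt (nm m))⁻¹ : ℝ) : ℂ) else 0 with hc
    have e1 : ∀ h : Eis, ‖Xt K (yg B e g) (xg β e d g h) t‖ = ‖∑ m ∈ K, c m * sy h m‖ := by
      intro h
      rw [← RCLike.norm_conj]
      congr 1
      unfold Xt
      rw [map_sum]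
      refine Finset.sum_congr rfl fun m _ => ?_
      rw [hc]
      beta_reduce
      split_ifs
      · unfold xg psi
        simp only [map_mul, Complex.conj_conj, Complex.conj_ofReal]
        ring
      · rw [map_zero, zero_mul]
    simp_rw [e1]
    have hlog : 0 ≤ Real.log (1 + K0) := Real.log_nonneg (by linarith)
    refine (hL K0 (max 1 (B / (nm e * nm g))) (1 + K.card) K H c hK0pos (le_max_left _ _)
      (by have : (0 : ℝ) ≤ K.card := Nat.cast_nonneg _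
          linarith) ?_ (by linarith) hH).trans ?_
    · intro m hm
      obtain ⟨h1, h2, h3, h4⟩ := hmem m hm
      refine ⟨h1, h2, ?_⟩
      unfold yg at h4
      rw [div_le_iff₀ hB] at h4
      have : (nm m : ℝ) ≤ 2 * (B / (nm e * nm g)) := by
        rw [mul_div_assoc', le_div_iff₀ (by positivity)]
        linarith
      exact this.trans (by gcongr; exact le_max_right _ _)
    · rw [hR, mul_assoc C (1 + Real.log (1 + K0))]
      change C * Phi K0 (max 1 (B / (nm e * nm g))) (1 + (K.card : ℝ)) * _ ≤ _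
      apply mul_le_mul_of_nonneg_left _ (mul_nonneg hC.le hPhi)
      refine Finset.sum_le_sum fun m hm => ?_
      obtain ⟨h1, -, -, -⟩ := hmem m hm
      have hm0 : (0 : ℝ) < nm m := by exact_mod_cast nm_pos.mpr h1.ne_zero
      rw [hc]
      beta_reduce
      split_ifs
      · rw [norm_mul, norm_mul, RCLike.norm_conj, mul_pow, mul_pow, Complex.norm_real,
          Real.norm_of_nonneg (by positivity), inv_pow, Real.sq_sqrt hm0.le, ← div_eq_mul_inv]
        apply div_le_div_of_nonneg_right _ hm0.le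
        have h5 := norm_sy_le (x := d * e) h1
        have h6 := norm_nonneg (sy (d * e) m)
        have h7 : ‖sy (d * e) m‖ ^ 2 ≤ 1 := by nlinarith
        exact mul_le_of_le_one_right (by positivity) h7
      · rw [norm_zero, zero_pow two_ne_zero]; positivity
  have hR0 : 0 ≤ R := by
    rw [hR]
    exact mul_nonneg (mul_nonneg hC.le hPhi) (Finset.sum_nonneg fun m _ => by positivity)
  refine (Finset.sum_le_sum hper).trans ?_
  rw [← Finset.mul_sum, Finset.sum_add_distrib, ← intervalIntegral.integral_finsetSum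
    (fun h _ => (sq_Xt_integrable K (yg B e g) (xg β e d g h) 1 2).const_mul _)]
  have h4 : ∫ t in (1:ℝ)..2, ∑ h ∈ H, ((1 + nm h / K0) ^ 4)⁻¹ *
      ‖Xt K (yg B e g) (xg β e d g h) t‖ ^ 2 ≤ R := by
    have h5 : ∫ t in (1:ℝ)..2, ∑ h ∈ H, ((1 + nm h / K0) ^ 4)⁻¹ *
      ‖Xt K (yg B e g) (xg β e d g h) t‖ ^ 2 ≤ ∫ t in (1:ℝ)..2, R := by
      apply intervalIntegral.integral_mono_on (by norm_num) _ (by simp) (fun t _ => hls t)
      have h6 := IntervalIntegrable.sum H (f := fun h t => ((1 + nm h / K0) ^ 4)⁻¹ *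
        ‖Xt K (yg B e g) (xg β e d g h) t‖ ^ 2) (μ := volume) (a := 1) (b := 2)
        (fun h _ => (sq_Xt_integrable K (yg B e g) (xg β e d g h) 1 2).const_mul _)
      have h7 : (fun t => ∑ h ∈ H, ((1 + nm h / K0) ^ 4)⁻¹ *
          ‖Xt K (yg B e g) (xg β e d g h) t‖ ^ 2) = ∑ h ∈ H, (fun t => ((1 + nm h / K0) ^ 4)⁻¹ *
          ‖Xt K (yg B e g) (xg β e d g h) t‖ ^ 2) := by
        funext t; rw [Finset.sum_apply]
      rw [h7]; exact h6
    refine h5.trans (le_of_eq ?_)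
    rw [intervalIntegral.integral_const]
    norm_num
  calc 2 * (24 ^ 6 * (1 + τ ^ 2) ^ 2) * _ ≤ 2 * (24 ^ 6 * (1 + τ ^ 2) ^ 2) * (R + R) := by
        apply mul_le_mul_of_nonneg_left _ (by positivity)
        exact add_le_add (hls 2) h4
    _ = _ := by
        rw [hR]; ring

lemma norm_s {A : ℝ} (hA : 0 < A) (τ : ℝ) : ‖((1 - τ * I) / A : ℂ)‖ = Real.sqrt (1 + τ ^ 2) / A := by
  rw [norm_div, Complex.norm_real, Real.norm_of_nonneg hA.le]
  congr 1
  have h1 : ‖(1 - τ * I : ℂ)‖ ^ 2 = 1 + τ ^ 2 := by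
    rw [← Complex.normSq_eq_norm_sq, Complex.normSq_apply]; simp; ring
  rw [← h1, Real.sqrt_sq (norm_nonneg _)]

lemma re_s {A : ℝ} (hA : 0 < A) (τ : ℝ) : 0 < ((1 - τ * I) / A : ℂ).re := by
  rw [Complex.div_ofReal_re]
  simp [hA]

lemma const_le {A : ℝ} (hA : 0 < A) (τ : ℝ) :
    2 * Real.pi / (9 * Real.sqrt 3 * ‖((1 - τ * I) / A : ℂ)‖) ≤ A / Real.sqrt (1 + τ ^ 2) := by
  rw [norm_s hA]
  have h1 : 0 < Real.sqrt (1 + τ ^ 2) := Real.sqrt_pos.mpr (by positivity)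
  have h2 : 1 ≤ Real.sqrt 3 := by
    rw [Real.one_le_sqrt]; norm_num
  have h3 : 2 * Real.pi / (9 * Real.sqrt 3 * (Real.sqrt (1 + τ ^ 2) / A)) =
      (2 * Real.pi / (9 * Real.sqrt 3)) * (A / Real.sqrt (1 + τ ^ 2)) := by
    field_simp
  rw [h3]
  apply mul_le_of_le_one_left (by positivity)
  rw [div_le_one (by positivity)]
  have := Real.pi_le_four
  linarith

/-- the sum over the triples `(e, d, g)` -/
def Sig (S D : Finset Eis) (β : Eis → ℂ) (A B τ : ℝ) : ℝ :=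
  ∑ e ∈ D, ∑ d ∈ pdiv e, ∑ g ∈ D, (nm d : ℝ)⁻¹ * (nm g : ℝ)⁻¹ *
    (Phi (Keff A B τ e d) (max 1 (B / (nm e * nm g))) (1 + (Kg S D e g).card) *
      ∑ m ∈ Kg S D e g, ‖β (e * (g * m))‖ ^ 2 / nm m)

/-- **Master inequality.** -/
theorem master {C : ℝ} (hC : 0 < C) (hL : LSH C) {S D : Finset Eis} {A B τ : ℝ} (hA : 0 < A)
    (hB : 0 < B)
    (hS : ∀ b ∈ S, IsPrim b ∧ Squarefree b ∧ B ≤ nm b ∧ (nm b : ℝ) ≤ 2 * B)
    (hD : ∀ d ∈ D, IsPrim d) (hSD : ∀ b ∈ S, ∀ d : Eis, IsPrim d → d ∣ b → d ∈ D)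
    (β : Eis → ℂ) :
    ‖PS ((1 - τ * I) / A) S β‖ ≤ A / Real.sqrt (1 + τ ^ 2) * (∑ b ∈ S, ‖β b‖ ^ 2 +
      4 * 24 ^ 6 * C * (1 + τ ^ 2) ^ 2 * Sig S D β A B τ) := by
  have hs := re_s hA τ
  have hs0 : ((1 - τ * I) / A : ℂ) ≠ 0 := by
    intro h; rw [h] at hs; simp at hs
  have hS' : ∀ b ∈ S, IsPrim b ∧ Squarefree b := fun b hb => ⟨(hS b hb).1, (hS b hb).2.1⟩
  have h0 := norm_PS_le hs hS' hD hSD β
  have hin : ∑ e ∈ D, ∑ d ∈ pdiv e, (nm d : ℝ)⁻¹ *
        ‖∑' h : Eis, if h = 0 then 0 else ph h * Qe ((1 - τ * I) / A) S D β e d h‖ ≤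
      4 * 24 ^ 6 * C * (1 + τ ^ 2) ^ 2 * Sig S D β A B τ := by
    unfold Sig
    rw [Finset.mul_sum]
    refine Finset.sum_le_sum fun e he => ?_
    rw [Finset.mul_sum]
    refine Finset.sum_le_sum fun d hd => ?_
    have hep := hD _ he
    have hdd := (mem_pdiv hep.ne_zero).mp hd
    set R := ∑ g ∈ D, (nm g : ℝ)⁻¹ * (4 * 24 ^ 6 * C * (1 + τ ^ 2) ^ 2 *
        Phi (Keff A B τ e d) (max 1 (B / (nm e * nm g))) (1 + (Kg S D e g).card) *
          ∑ m ∈ Kg S D e g, ‖β (e * (g * m))‖ ^ 2 / nm m) with hR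
    have hKe : 0 ≤ Keff A B τ e d := by unfold Keff; positivity
    have hR0 : 0 ≤ R := by
      rw [hR]
      refine Finset.sum_nonneg fun g _ => mul_nonneg (by positivity) (mul_nonneg (mul_nonneg
        (by positivity) (Phi_nonneg hKe (by positivity) (by positivity)))
          (Finset.sum_nonneg fun m _ => by positivity))
    have hfin : ∀ H : Finset Eis, ∑ h ∈ H, ‖(if h = 0 then 0 else
        ph h * Qe ((1 - τ * I) / A) S D β e d h : ℂ)‖ ≤ R := by
      intro H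
      have e1 : ∑ h ∈ H, ‖(if h = 0 then 0 else
          ph h * Qe ((1 - τ * I) / A) S D β e d h : ℂ)‖ =
          ∑ h ∈ H.filter (fun h => h ≠ 0), ‖Qe ((1 - τ * I) / A) S D β e d h‖ := by
        rw [Finset.sum_filter]
        refine Finset.sum_congr rfl fun h _ => ?_
        by_cases hh : h = 0
        · simp [hh]
        · rw [if_neg hh, if_pos hh, norm_mul, norm_ph, one_mul]
      rw [e1]
      refine (Finset.sum_le_sum fun h _ => norm_Qe_le hs0 hS' hD hSD β hB hep hdd.2 h).trans ?_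
      rw [Finset.sum_comm, hR]
      refine Finset.sum_le_sum fun g hg => ?_
      rw [← Finset.mul_sum]
      apply mul_le_mul_of_nonneg_left _ (by positivity)
      exact sum_freq hC hL hA hB hS hD β hep hdd.1.ne_zero (hD _ hg)
        (fun h hh => (Finset.mem_filter.mp hh).2)
    have hsum : Summable (fun h : Eis => ‖(if h = 0 then 0 else
        ph h * Qe ((1 - τ * I) / A) S D β e d h : ℂ)‖) :=
      summable_of_sum_le (fun _ => norm_nonneg _) hfin
    have h1 : ‖∑' h : Eis, (if h = 0 then 0 else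
        ph h * Qe ((1 - τ * I) / A) S D β e d h : ℂ)‖ ≤ R :=
      (norm_tsum_le_tsum_norm hsum).trans (Summable.tsum_le_of_sum_le hsum hfin)
    calc (nm d : ℝ)⁻¹ * _ ≤ (nm d : ℝ)⁻¹ * R := by gcongr
      _ = _ := by
        rw [hR, Finset.mul_sum, Finset.mul_sum]
        exact Finset.sum_congr rfl fun g _ => by ring
  refine h0.trans ?_
  have h2 : 0 ≤ ∑ b ∈ S, ‖β b‖ ^ 2 +
      ∑ e ∈ D, ∑ d ∈ pdiv e, (nm d : ℝ)⁻¹ *
        ‖∑' h : Eis, if h = 0 then 0 else ph h * Qe ((1 - τ * I) / A) S D β e d h‖ := by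
    positivity
  refine (mul_le_mul_of_nonneg_right (const_le hA τ) h2).trans ?_
  apply mul_le_mul_of_nonneg_left _ (by positivity)
  linarith

end Crest.Agent.R012.T8
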