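import Crest.Agent.R012.Weight_600
import Crest.Agent.R012.Defs

-- ▼ part R012/EdgeCut_968
section

/-!
# Row 12, item TIII/T7b (edge triples), sharp cutoff (helper968)

Abstract passage from `∑_{n i ≤ X} f i` to the sums `∑ f i (n i)^{it}`:

* `|t| ≤ T` : only costs `1 + log((log X + 1)/κ)` (i.e. `log log X` for `κ` = power of `log X`),
* `|t| > T` : the arbitrary-coefficient bound `M`, with the saving `(κT)^{-k}`,
* the error of the smoothing : `κ`-cells, with the bound `M3` for every cell.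
-/

set_option autoImplicit false

noncomputable section

open MeasureTheory Complex Set Filter Real
open Crest.Agent.R012.Weight600

namespace Crest.Agent.R012.EdgeCut968

variable {ι : Type*}

/-- The smooth majorant used below: `1` on `1 ≤ x ≤ X e^{-2κ}`, `0` for `x ≥ X`. -/
def cutX (X : ℕ) (κ : ℝ) (u : ℝ) : ℝ := cutL (-1) (Real.log X - κ) κ u

lemma cutX_eq_one {X : ℕ} {κ u : ℝ} (hκ : 0 < κ) (hκ1 : κ ≤ 1 / 2) (hu : 0 ≤ u)
    (h : u ≤ Real.log X - 2 * κ) : cutX X κ u = 1 := by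
  unfold cutX
  exact cutL_eq_one hκ (by linarith) (by linarith)

lemma cutX_eq_zero {X : ℕ} {κ u : ℝ} (hκ : 0 < κ) (hκ1 : κ ≤ 1 / 2) (hX : 1 ≤ X)
    (h : Real.log X ≤ u) : cutX X κ u = 0 := by
  have : 0 ≤ Real.log X := Real.log_nonneg (by exact_mod_cast hX)
  unfold cutX
  exact cutL_eq_zero_right hκ (by linarith) (by linarith)

/-- The set of indices in the `j`-th cell, close to the boundary. -/
def cellSet (s : Finset ι) (v : ι → ℝ) (n : ι → ℕ) (X : ℕ) (κ z : ℝ) (j : ℕ) : Finset ι := by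
  classical
  exact s.filter (fun i => (z + j * κ ≤ v i ∧ v i < z + (j + 1) * κ) ∧
    (Real.log X - 2 * κ - (z + (j + 1) * κ) ≤ Real.log (n i) - v i ∧
      Real.log (n i) - v i ≤ Real.log X - (z + j * κ)))

lemma mem_cellSet {s : Finset ι} {v : ι → ℝ} {n : ι → ℕ} {X : ℕ} {κ z : ℝ} {j : ℕ} {i : ι} :
    i ∈ cellSet s v n X κ z j ↔ i ∈ s ∧ (z + j * κ ≤ v i ∧ v i < z + (j + 1) * κ) ∧
    (Real.log X - 2 * κ - (z + (j + 1) * κ) ≤ Real.log (n i) - v i ∧
      Real.log (n i) - v i ≤ Real.log X - (z + j * κ)) := by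
  simp [cellSet]

/-- Every `v` in `[z, z + Jκ)` lies in exactly one cell. -/
lemma exists_cell {κ z : ℝ} (hκ : 0 < κ) {J : ℕ} {v : ℝ} (h1 : z ≤ v) (h2 : v < z + J * κ) :
    ∃ j ∈ Finset.range J, z + j * κ ≤ v ∧ v < z + (j + 1) * κ := by
  refine ⟨⌊(v - z) / κ⌋₊, ?_, ?_, ?_⟩
  · rw [Finset.mem_range, Nat.floor_lt (div_nonneg (by linarith) hκ.le), div_lt_iff₀ hκ]
    linarith
  · have := Nat.floor_le (a := (v - z) / κ) (div_nonneg (by linarith) hκ.le)
    rw [le_div_iff₀ hκ] at this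
    linarith
  · have := Nat.lt_floor_add_one ((v - z) / κ)
    rw [div_lt_iff₀ hκ] at this
    linarith

lemma cell_unique {κ z : ℝ} (hκ : 0 < κ) {j j' : ℕ} {v : ℝ} (h1 : z + j * κ ≤ v)
    (h2 : v < z + (j + 1) * κ) (h1' : z + j' * κ ≤ v) (h2' : v < z + (j' + 1) * κ) : j = j' := by
  have a : (j : ℝ) < j' + 1 := by
    by_contra hh; push Not at hh; nlinarith
  have b : (j' : ℝ) < j + 1 := by
    by_contra hh; push Not at hh; nlinarith
  have a' : j < j' + 1 := by exact_mod_cast a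
  have b' : j' < j + 1 := by exact_mod_cast b
  omega

/-- Bound for one cell. -/
lemma norm_cell_le (s : Finset ι) (f : ι → ℂ) (n : ι → ℕ) (hn : ∀ i ∈ s, 1 ≤ n i) {X : ℕ}
    (hX : 1 ≤ X) {κ : ℝ} (hκ : 0 < κ) (hκ1 : κ ≤ 1 / 2) {M3 : ℝ}
    (h3 : ∀ t : ℝ, ‖∑ i ∈ s, f i * pw t (n i)‖ ≤ M3) :
    ‖∑ i ∈ s, f i * ((if n i ≤ X then 1 else 0) - (cutX X κ (Real.log (n i)) : ℂ))‖ ≤
      (4 * Cint * (1 + Real.log (X + 1)) + Cint * (1 + Real.log ((Real.log X + 1) / κ))) * M3 := by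
  classical
  have hM : 0 ≤ M3 := (norm_nonneg _).trans (h3 0)
  have hlogX : 0 ≤ Real.log X := Real.log_nonneg (by exact_mod_cast hX)
  have e : ∑ i ∈ s, f i * ((if n i ≤ X then 1 else 0) - (cutX X κ (Real.log (n i)) : ℂ)) =
      ∑ i ∈ s.filter (fun i => n i ≤ X), f i -
        ∑ i ∈ s, f i * (cutL (-1) (Real.log X - κ) κ (Real.log (n i)) : ℂ) := by
    rw [Finset.sum_filter, ← Finset.sum_sub_distrib]
    apply Finset.sum_congr rfl
    intro i _
    unfold cutX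
    split_ifs <;> ring
  rw [e]
  refine (norm_sub_le _ _).trans ?_
  have b1 := norm_sum_filter_le s f n hn X h3
  have hL : κ ≤ (Real.log X - κ) - (-1) := by linarith
  have b2 : ‖∑ i ∈ s, f i * (cutL (-1) (Real.log X - κ) κ (Real.log (n i)) : ℂ)‖ ≤
      Cint * (1 + Real.log ((Real.log X + 1) / κ)) * M3 := by
    rw [sum_cutL_eq s f (fun i => Real.log (n i)) hκ (by linarith)]
    refine (norm_integral_mul_le' (integrable_kerC hκ (by linarith)) (B := M3) h3).trans ?_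
    have h4 := integral_norm_kerC_le (a := -1) (b := Real.log X - κ) hκ hL
    have h5 : Real.log ((Real.log X - κ - -1) / κ) ≤ Real.log ((Real.log X + 1) / κ) := by
      apply Real.log_le_log
      · apply div_pos (by linarith) hκ
      · apply div_le_div_of_nonneg_right _ hκ.le; linarith
    have hC := Cint_pos
    have h6 : ∫ t, ‖kerC (-1) (Real.log X - κ) κ t‖ ≤
        Cint * (1 + Real.log ((Real.log X + 1) / κ)) := h4.trans (by gcongr)
    gcongr
  rw [add_mul]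
  exact add_le_add b1 b2

/-- **Sharp cutoff, abstract form.** -/
theorem sharp_cut (s : Finset ι) (f : ι → ℂ) (v : ι → ℝ) (n : ι → ℕ)
    (hn : ∀ i ∈ s, 1 ≤ n i) {X : ℕ} (hX : 1 ≤ X) {κ : ℝ} (hκ : 0 < κ) (hκ1 : κ ≤ 1 / 2)
    (z : ℝ) (J : ℕ) (hv : ∀ i ∈ s, z ≤ v i ∧ v i < z + J * κ)
    {B M M3 T : ℝ} (hT : 0 < T) {k : ℕ} (hk : 0 < k)
    (h1 : ∀ t : ℝ, |t| ≤ T → ‖∑ i ∈ s, f i * pw t (n i)‖ ≤ B)
    (h2 : ∀ t : ℝ, ‖∑ i ∈ s, f i * pw t (n i)‖ ≤ M)
    (h3 : ∀ j < J, ∀ t : ℝ, ‖∑ i ∈ cellSet s v n X κ z j, f i * pw t (n i)‖ ≤ M3) :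
    ‖∑ i ∈ s.filter (fun i => n i ≤ X), f i‖ ≤
      Cint * (1 + Real.log ((Real.log X + 1) / κ)) * B + 4 * Ck k / (κ * T) ^ k * M +
      J * ((4 * Cint * (1 + Real.log (X + 1)) +
        Cint * (1 + Real.log ((Real.log X + 1) / κ))) * M3) := by
  classical
  have hlogX : 0 ≤ Real.log X := Real.log_nonneg (by exact_mod_cast hX)
  have hX0 : (0 : ℝ) < X := by exact_mod_cast hX
  have hL : κ ≤ (Real.log X - κ) - (-1) := by linarith
  have hM0 : 0 ≤ M := (norm_nonneg _).trans (h2 0)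
  have hB0 : 0 ≤ B := (norm_nonneg _).trans (h1 0 (by simpa using hT.le))
  have hC := Cint_pos
  -- smooth part
  have hsm : ‖∑ i ∈ s, f i * (cutX X κ (Real.log (n i)) : ℂ)‖ ≤
      Cint * (1 + Real.log ((Real.log X + 1) / κ)) * B + 4 * Ck k / (κ * T) ^ k * M := by
    unfold cutX
    rw [sum_cutL_eq s f (fun i => Real.log (n i)) hκ (by linarith)]
    refine (norm_integral_mul_le (integrable_kerC hκ (by linarith))
      (continuous_sum_osc s f _) hB0 h1 h2).trans ?_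
    have h4 := integral_norm_kerC_le (a := -1) (b := Real.log X - κ) hκ hL
    have h5 : Real.log ((Real.log X - κ - -1) / κ) ≤ Real.log ((Real.log X + 1) / κ) := by
      apply Real.log_le_log
      · apply div_pos (by linarith) hκ
      · apply div_le_div_of_nonneg_right _ hκ.le; linarith
    have h6 : ∫ t, ‖kerC (-1) (Real.log X - κ) κ t‖ ≤
        Cint * (1 + Real.log ((Real.log X + 1) / κ)) := h4.trans (by gcongr)
    have h7 := tail_norm_kerC_le (a := -1) (b := Real.log X - κ) hκ (by linarith) hT hk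
    gcongr
  -- error part
  set g : ι → ℂ := fun i => f i * ((if n i ≤ X then 1 else 0) - (cutX X κ (Real.log (n i)) : ℂ))
    with hg
  have e1 : ∑ i ∈ s.filter (fun i => n i ≤ X), f i =
      ∑ i ∈ s, f i * (cutX X κ (Real.log (n i)) : ℂ) + ∑ i ∈ s, g i := by
    rw [Finset.sum_filter, ← Finset.sum_add_distrib]
    apply Finset.sum_congr rfl
    intro i _
    simp only [hg]
    split_ifs <;> ring
  have hg0 : ∀ i ∈ s, g i ≠ 0 → Real.log X - 2 * κ ≤ Real.log (n i) ∧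
      Real.log (n i) ≤ Real.log X := by
    intro i hi hne
    have hn1 : (1 : ℝ) ≤ n i := by exact_mod_cast hn i hi
    have hln : 0 ≤ Real.log (n i) := Real.log_nonneg hn1
    constructor
    · by_contra hh
      push Not at hh
      apply hne
      have hle : n i ≤ X := by
        have : Real.log (n i) ≤ Real.log X := by linarith
        have := (Real.log_le_log_iff (by linarith) hX0).mp this
        exact_mod_cast this
      simp only [hg]
      rw [if_pos hle, cutX_eq_one hκ hκ1 hln hh.le]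
      simp
    · by_contra hh
      push Not at hh
      apply hne
      have hle : ¬ n i ≤ X := by
        intro hle
        have : (n i : ℝ) ≤ X := by exact_mod_cast hle
        have := Real.log_le_log (by linarith) this
        linarith
      simp only [hg]
      rw [if_neg hle, cutX_eq_zero hκ hκ1 hX hh.le]
      simp
  have e2 : ∑ i ∈ s, g i = ∑ j ∈ Finset.range J, ∑ i ∈ cellSet s v n X κ z j, g i := by
    have step : ∀ j ∈ Finset.range J, ∑ i ∈ cellSet s v n X κ z j, g i =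
        ∑ i ∈ s, if (z + j * κ ≤ v i ∧ v i < z + (j + 1) * κ) then g i else 0 := by
      intro j _
      rw [← Finset.sum_filter]
      apply Finset.sum_subset
      · intro i hi
        rw [mem_cellSet] at hi
        rw [Finset.mem_filter]
        exact ⟨hi.1, hi.2.1⟩
      · intro i hi hni
        rw [Finset.mem_filter] at hi
        by_contra hne
        have h := hg0 i hi.1 hne
        apply hni
        rw [mem_cellSet]
        refine ⟨hi.1, hi.2, ?_, ?_⟩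
        · linarith [hi.2.2]
        · linarith [hi.2.1]
    rw [Finset.sum_congr rfl step, Finset.sum_comm]
    apply Finset.sum_congr rfl
    intro i hi
    obtain ⟨j, hj, hj1, hj2⟩ := exists_cell hκ (hv i hi).1 (hv i hi).2
    rw [Finset.sum_eq_single_of_mem j hj]
    · rw [if_pos ⟨hj1, hj2⟩]
    · intro j' _ hne
      rw [if_neg]
      rintro ⟨h1', h2'⟩
      exact hne (cell_unique hκ h1' h2' hj1 hj2)
  have e3 : ‖∑ i ∈ s, g i‖ ≤ J * ((4 * Cint * (1 + Real.log (X + 1)) +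
        Cint * (1 + Real.log ((Real.log X + 1) / κ))) * M3) := by
    rw [e2]
    refine (norm_sum_le _ _).trans ?_
    have : ∀ j ∈ Finset.range J, ‖∑ i ∈ cellSet s v n X κ z j, g i‖ ≤
        (4 * Cint * (1 + Real.log (X + 1)) +
          Cint * (1 + Real.log ((Real.log X + 1) / κ))) * M3 := by
      intro j hj
      exact norm_cell_le _ f n (fun i hi => hn i (mem_cellSet.mp hi).1) hX hκ hκ1
        (h3 j (Finset.mem_range.mp hj))
    refine (Finset.sum_le_sum this).trans (le_of_eq ?_)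
    rw [Finset.sum_const, Finset.card_range, nsmul_eq_mul]
  rw [e1]
  refine (norm_add_le _ _).trans ?_
  exact add_le_add hsm e3

end Crest.Agent.R012.EdgeCut968
end
end

-- ▼ part R012/EdgeSharp_968

/-!
# Row 12, items TIII / T7a: the sharp cutoff costs only `log log X` (helper968)

`CellB g P c c0 C` is the bilinear bound with arbitrary coefficients on `κ`-cells
(helper810's (T8b) is `CellB (fun a b => G (a * b)) (fun a => IsPrim a ∧ Squarefree a)`).

`edge_sharp`: from `CellB`, for dyadic boxes, the sharp cut-off sum over `N(ab) ≤ X` is bounded by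
`C (1 + log (1 + log X)) Q + C (log X)^{-K} ((AB)^{5/6} + A B^{1/2})`, where `Q` bounds the sums
twisted by `N(ab)^{it}` for `|t| ≤ (log X)^{K1}` only.
-/

set_option autoImplicit false

noncomputable section

open MeasureTheory Complex Set Filter Real Topology
open Crest.Agent.R012.Weight600 Crest.Agent.R012.EdgeCut968
open Crest.Agent.R012.Eis

namespace Crest.Agent.R012.EdgeSharp968

variable (g : Eis → Eis → ℂ) (P : Eis → Prop)

/-- Bilinear bound on `κ`-cells, arbitrary coefficients of modulus `≤ 1`. -/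
def CellB (c c0 C : ℝ) : Prop :=
  ∀ (A B κ : ℝ), 2 ≤ A → 2 ≤ B → (A * B) ^ (-(1 / 1000) : ℝ) ≤ κ → κ ≤ 1 →
  B ≤ A ^ (7 / 10 : ℝ) → (A * B) ^ (1 / 10 : ℝ) ≤ B →
  ∀ (SA SB : Finset Eis) (α β : Eis → ℂ),
    (∀ a ∈ SA, P a ∧ A ≤ nm a ∧ (nm a : ℝ) ≤ A * (1 + κ)) →
    (∀ b ∈ SB, P b ∧ B ≤ nm b ∧ (nm b : ℝ) ≤ B * (1 + κ)) →
    (∀ a ∈ SA, ‖α a‖ ≤ 1) → (∀ b ∈ SB, ‖β b‖ ≤ 1) →
    ‖∑ a ∈ SA, ∑ b ∈ SB, α a * β b * g a b‖ ≤
      C * (1 + Real.log (A * B)) ^ c * κ ^ (1 + c0) *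
        ((A * B) ^ (5 / 6 : ℝ) + A * B ^ (1 / 2 : ℝ))

/-- (T8b) of helper810, #2155. -/
def T8b : Prop :=
  ∃ c c0 C : ℝ, 0 ≤ c ∧ 0 < c0 ∧ 0 ≤ C ∧
    CellB (fun a b => G (a * b)) (fun a => IsPrim a ∧ Squarefree a) c c0 C

section aux

/-- the main quantity -/
def E0 (A B : ℝ) : ℝ := (A * B) ^ (5 / 6 : ℝ) + A * B ^ (1 / 2 : ℝ)

lemma E0_nonneg {A B : ℝ} (hA : 0 ≤ A) (hB : 0 ≤ B) : 0 ≤ E0 A B := by
  unfold E0; positivity

lemma E0_mono {A B A' B' : ℝ} (hA' : 0 ≤ A') (hB' : 0 ≤ B') (h1 : A' ≤ 2 * A)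
    (h2 : B' ≤ 2 * B) : E0 A' B' ≤ 4 * E0 A B := by
  have hA : 0 ≤ A := by linarith
  have hB : 0 ≤ B := by linarith
  unfold E0
  have e1 : (A' * B') ^ (5 / 6 : ℝ) ≤ 4 * (A * B) ^ (5 / 6 : ℝ) := by
    calc (A' * B') ^ (5 / 6 : ℝ) ≤ (4 * (A * B)) ^ (5 / 6 : ℝ) := by
          apply Real.rpow_le_rpow (by positivity) _ (by norm_num)
          calc A' * B' ≤ (2 * A) * (2 * B) := by gcongr
            _ = 4 * (A * B) := by ring
      _ = 4 ^ (5 / 6 : ℝ) * (A * B) ^ (5 / 6 : ℝ) := by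
          rw [Real.mul_rpow (by norm_num) (by positivity)]
      _ ≤ 4 * (A * B) ^ (5 / 6 : ℝ) := by
          gcongr
          calc (4 : ℝ) ^ (5 / 6 : ℝ) ≤ 4 ^ (1 : ℝ) :=
                Real.rpow_le_rpow_of_exponent_le (by norm_num) (by norm_num)
            _ = 4 := Real.rpow_one _
  have e2 : A' * B' ^ (1 / 2 : ℝ) ≤ 4 * (A * B ^ (1 / 2 : ℝ)) := by
    have : B' ^ (1 / 2 : ℝ) ≤ 2 * B ^ (1 / 2 : ℝ) := by
      calc B' ^ (1 / 2 : ℝ) ≤ (2 * B) ^ (1 / 2 : ℝ) :=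
            Real.rpow_le_rpow hB' h2 (by norm_num)
        _ = 2 ^ (1 / 2 : ℝ) * B ^ (1 / 2 : ℝ) := by
            rw [Real.mul_rpow (by norm_num) hB]
        _ ≤ 2 * B ^ (1 / 2 : ℝ) := by
            gcongr
            calc (2 : ℝ) ^ (1 / 2 : ℝ) ≤ 2 ^ (1 : ℝ) :=
                  Real.rpow_le_rpow_of_exponent_le (by norm_num) (by norm_num)
              _ = 2 := Real.rpow_one _
    calc A' * B' ^ (1 / 2 : ℝ) ≤ (2 * A) * (2 * B ^ (1 / 2 : ℝ)) := by gcongr
      _ = _ := by ring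
  linarith

lemma exp_le_one_add_two_mul {x : ℝ} (h0 : 0 ≤ x) (h1 : x ≤ 1) : Real.exp x ≤ 1 + 2 * x := by
  have h := Real.abs_exp_sub_one_le (x := x) (by rw [abs_of_nonneg h0]; exact h1)
  rw [abs_of_nonneg h0] at h
  have := (abs_le.mp h).2
  linarith

lemma log_six_le : Real.log 6 ≤ 2 := by
  rw [Real.log_le_iff_le_exp (by norm_num)]
  have h1 := Real.exp_one_gt_d9
  have h2 : Real.exp 2 = Real.exp 1 * Real.exp 1 := by
    rw [← Real.exp_add]; norm_num
  rw [h2]; nlinarith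

lemma log_four_le : Real.log 4 ≤ 2 := by
  have : (4 : ℝ) = 2 ^ 2 := by norm_num
  rw [this, Real.log_pow]
  have := Real.log_two_lt_d9
  push_cast; linarith

lemma one_le_log {X : ℕ} (hX : 3 ≤ X) : 1 ≤ Real.log X := by
  have hX3 : (3 : ℝ) ≤ X := by exact_mod_cast hX
  have h3 : 1 ≤ Real.log 3 := by
    rw [Real.le_log_iff_exp_le (by norm_num)]
    have := Real.exp_one_lt_d9
    linarith
  exact h3.trans (Real.log_le_log (by norm_num) hX3)

lemma log_add_one_le {X : ℕ} (hX : 3 ≤ X) : Real.log ((X : ℝ) + 1) ≤ 2 * Real.log X := by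
  have hX3 : (3 : ℝ) ≤ X := by exact_mod_cast hX
  have : Real.log ((X : ℝ) + 1) ≤ Real.log ((X : ℝ) ^ 2) := by
    apply Real.log_le_log (by linarith); nlinarith
  rw [Real.log_pow] at this
  push_cast at this
  exact this

lemma log_kappa_le {L K0 κ : ℝ} (hL1 : 1 ≤ L) (hK0 : 0 < K0) (hκ : κ = L ^ (-K0) / 6) :
    1 + Real.log ((L + 1) / κ) ≤ (3 + K0) * (1 + Real.log (1 + L)) := by
  have hLpos : 0 < L := by linarith
  have hll : 0 ≤ Real.log (1 + L) := Real.log_nonneg (by linarith)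
  have e1 : (L + 1) / κ = 6 * ((1 + L) * L ^ K0) := by
    rw [hκ, Real.rpow_neg hLpos.le]
    field_simp
    ring
  have hp : 0 < L ^ K0 := Real.rpow_pos_of_pos hLpos _
  rw [e1, Real.log_mul (by norm_num) (mul_pos (by linarith) hp).ne',
    Real.log_mul (by linarith : (1 : ℝ) + L ≠ 0) hp.ne', Real.log_rpow hLpos]
  have h6 := log_six_le
  have h7 : Real.log L ≤ Real.log (1 + L) := Real.log_le_log hLpos (by linarith)
  have h8 := mul_le_mul_of_nonneg_left h7 hK0.le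
  have h9 : (3 + K0) * (1 + Real.log (1 + L)) =
    3 + K0 + 3 * Real.log (1 + L) + K0 * Real.log (1 + L) := by ring
  rw [h9]
  linarith

end aux

variable {g P}

/-- the bilinear form over a box. -/
lemma sum_prod_eq (SA SB : Finset Eis) (α β : Eis → ℂ) (t : ℝ)
    (hA : ∀ a ∈ SA, 1 ≤ nm a) (hB : ∀ b ∈ SB, 1 ≤ nm b) :
    ∑ p ∈ SA ×ˢ SB, (α p.1 * β p.2 * g p.1 p.2) * pw t (nm (p.1 * p.2)) =
      ∑ a ∈ SA, ∑ b ∈ SB, (α a * pw t (nm a)) * (β b * pw t (nm b)) * g a b := by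
  rw [Finset.sum_product]
  apply Finset.sum_congr rfl
  intro a ha
  apply Finset.sum_congr rfl
  intro b hb
  have h1 : ((nm a : ℕ) : ℝ) ≠ 0 := by
    have := hA a ha
    exact_mod_cast (by omega : nm a ≠ 0)
  have h2 : ((nm b : ℕ) : ℝ) ≠ 0 := by
    have := hB b hb
    exact_mod_cast (by omega : nm b ≠ 0)
  simp only [nm_mul]
  push_cast
  rw [pw_mul h1 h2]
  ring

lemma cellSet_prod (SA SB : Finset Eis) (X : ℕ) (κ z : ℝ) (j : ℕ)
    (hA : ∀ a ∈ SA, 1 ≤ nm a) (hB : ∀ b ∈ SB, 1 ≤ nm b) :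
    cellSet (SA ×ˢ SB) (fun p => Real.log (nm p.2)) (fun p => nm (p.1 * p.2)) X κ z j =
      (by classical exact SA.filter (fun a =>
        Real.log X - 2 * κ - (z + (j + 1) * κ) ≤ Real.log (nm a) ∧
          Real.log (nm a) ≤ Real.log X - (z + j * κ))) ×ˢ
      (by classical exact SB.filter (fun b =>
        z + j * κ ≤ Real.log (nm b) ∧ Real.log (nm b) < z + (j + 1) * κ)) := by
  classical
  ext p
  rw [mem_cellSet, Finset.mem_product, Finset.mem_product, Finset.mem_filter, Finset.mem_filter]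
  constructor
  · rintro ⟨⟨h1, h2⟩, h3, h4⟩
    have e1 : ((nm p.1 : ℕ) : ℝ) ≠ 0 := by
      have := hA _ h1
      exact_mod_cast (by omega : nm p.1 ≠ 0)
    have e2 : ((nm p.2 : ℕ) : ℝ) ≠ 0 := by
      have := hB _ h2
      exact_mod_cast (by omega : nm p.2 ≠ 0)
    rw [nm_mul] at h4
    push_cast at h4
    rw [Real.log_mul e1 e2] at h4
    simp only [add_sub_cancel_right] at h4
    exact ⟨⟨h1, h4⟩, h2, h3⟩
  · rintro ⟨⟨h1, h4⟩, h2, h3⟩
    have e1 : ((nm p.1 : ℕ) : ℝ) ≠ 0 := by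
      have := hA _ h1
      exact_mod_cast (by omega : nm p.1 ≠ 0)
    have e2 : ((nm p.2 : ℕ) : ℝ) ≠ 0 := by
      have := hB _ h2
      exact_mod_cast (by omega : nm p.2 ≠ 0)
    refine ⟨⟨h1, h2⟩, h3, ?_⟩
    rw [nm_mul]
    push_cast
    rw [Real.log_mul e1 e2]
    simpa only [add_sub_cancel_right] using h4

/-- Bound for one cell, from `CellB`. -/
lemma cell_bound {c c0 C8 : ℝ} (hc : 0 ≤ c) (hC8 : 0 ≤ C8) (h : CellB g P c c0 C8)
    {X : ℕ} (hX : 3 ≤ X) {A B κ' : ℝ} (hA : 2 ≤ A) (hB : 2 ≤ B) (hBA : 2 * B ≤ A ^ (7 / 10 : ℝ))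
    (h10 : (4 * (A * B)) ^ (1 / 10 : ℝ) ≤ B)
    (hAB2 : A * B ≤ (X : ℝ) ^ 2) (hκ0 : 0 < κ') (hκ1 : κ' ≤ 1)
    (hκ : (A * B) ^ (-(1 / 1000) : ℝ) ≤ κ')
    (SA SB : Finset Eis) (α β : Eis → ℂ)
    (hSA : ∀ a ∈ SA, P a ∧ A ≤ nm a ∧ (nm a : ℝ) ≤ 2 * A)
    (hSB : ∀ b ∈ SB, P b ∧ B ≤ nm b ∧ (nm b : ℝ) ≤ 2 * B)
    (hα : ∀ a ∈ SA, ‖α a‖ ≤ 1) (hβ : ∀ b ∈ SB, ‖β b‖ ≤ 1) (j : ℕ) (t : ℝ) :
    ‖∑ p ∈ cellSet (SA ×ˢ SB) (fun p => Real.log (nm p.2)) (fun p => nm (p.1 * p.2)) X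
        (κ' / 6) (Real.log B) j, (α p.1 * β p.2 * g p.1 p.2) * pw t (nm (p.1 * p.2))‖ ≤
      C8 * (5 * Real.log X) ^ c * κ' ^ (1 + c0) * (4 * E0 A B) := by
  classical
  have hX3 : (3 : ℝ) ≤ X := by exact_mod_cast hX
  have hX0 : (0 : ℝ) < X := by linarith
  have hL1 : 1 ≤ Real.log X := one_le_log hX
  have hA0 : 0 < A := by linarith
  have hB0 : 0 < B := by linarith
  have hEnn : 0 ≤ E0 A B := E0_nonneg hA0.le hB0.le
  have h1A : ∀ a ∈ SA, 1 ≤ nm a := by
    intro a ha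
    have := (hSA a ha).2.1
    have : (1 : ℝ) ≤ nm a := by linarith
    exact_mod_cast this
  have h1B : ∀ b ∈ SB, 1 ≤ nm b := by
    intro b hb
    have := (hSB b hb).2.1
    have : (1 : ℝ) ≤ nm b := by linarith
    exact_mod_cast this
  have hrhs : 0 ≤ C8 * (5 * Real.log X) ^ c * κ' ^ (1 + c0) * (4 * E0 A B) := by positivity
  rw [cellSet_prod SA SB X (κ' / 6) (Real.log B) j h1A h1B]
  set SA' := SA.filter (fun a =>
        Real.log X - 2 * (κ' / 6) - (Real.log B + (j + 1) * (κ' / 6)) ≤ Real.log (nm a) ∧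
          Real.log (nm a) ≤ Real.log X - (Real.log B + j * (κ' / 6))) with hSA'
  set SB' := SB.filter (fun b =>
        Real.log B + j * (κ' / 6) ≤ Real.log (nm b) ∧
          Real.log (nm b) < Real.log B + (j + 1) * (κ' / 6)) with hSB'
  rw [sum_prod_eq SA' SB' α β t (fun a ha => h1A a (Finset.mem_filter.mp ha).1)
    (fun b hb => h1B b (Finset.mem_filter.mp hb).1)]
  rcases SA'.eq_empty_or_nonempty with he | ⟨a₀, ha₀⟩
  · rw [he]; simpa using hrhs
  rcases SB'.eq_empty_or_nonempty with he | ⟨b₀, hb₀⟩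
  · rw [he]; simpa using hrhs
  set lo : ℝ := Real.log X - 2 * (κ' / 6) - (Real.log B + (j + 1) * (κ' / 6)) with hlo
  set A' : ℝ := max A (Real.exp lo) with hA'
  set B' : ℝ := B * Real.exp (j * (κ' / 6)) with hB'
  have hBlog : Real.log B' = Real.log B + j * (κ' / 6) := by
    rw [hB', Real.log_mul hB0.ne' (Real.exp_ne_zero _), Real.log_exp]
  have hB'0 : 0 < B' := by positivity
  have hA'0 : 0 < A' := lt_of_lt_of_le hA0 (le_max_left _ _)
  have hBB' : B ≤ B' := by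
    rw [hB']
    have : 1 ≤ Real.exp (j * (κ' / 6)) := Real.one_le_exp (by positivity)
    nlinarith
  have hAA' : A ≤ A' := le_max_left _ _
  -- upper bounds for A', B'
  have ha₀' := Finset.mem_filter.mp ha₀
  have hb₀' := Finset.mem_filter.mp hb₀
  have ha1 : (1 : ℝ) ≤ nm a₀ := by exact_mod_cast h1A a₀ ha₀'.1
  have hb1 : (1 : ℝ) ≤ nm b₀ := by exact_mod_cast h1B b₀ hb₀'.1
  have hA'2 : A' ≤ 2 * A := by
    apply max_le (by linarith)
    have h1 : Real.exp lo ≤ nm a₀ := by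
      have := Real.exp_le_exp.mpr ha₀'.2.1
      rwa [Real.exp_log (by linarith)] at this
    exact h1.trans (hSA a₀ ha₀'.1).2.2
  have hB'2 : B' ≤ 2 * B := by
    have h1 : B' ≤ nm b₀ := by
      have := hb₀'.2.1
      rw [← hBlog] at this
      exact (Real.log_le_log_iff hB'0 (by linarith)).mp this
    exact h1.trans (hSB b₀ hb₀'.1).2.2
  have hexp3 : Real.exp (3 * (κ' / 6)) ≤ 1 + κ' := by
    have := exp_le_one_add_two_mul (x := 3 * (κ' / 6)) (by positivity) (by linarith)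
    linarith
  have hexp1 : Real.exp (κ' / 6) ≤ 1 + κ' := by
    have := exp_le_one_add_two_mul (x := κ' / 6) (by positivity) (by linarith)
    linarith
  have key := h A' B' κ' (by linarith) (by linarith) ?_ hκ1 ?_ ?_ SA' SB'
    (fun a => α a * pw t (nm a)) (fun b => β b * pw t (nm b)) ?_ ?_ ?_ ?_
  · refine key.trans ?_
    have hAB' : A' * B' ≤ 4 * (A * B) := by
      calc A' * B' ≤ (2 * A) * (2 * B) := by gcongr
        _ = _ := by ring
    have hlog : 1 + Real.log (A' * B') ≤ 5 * Real.log X := by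
      have h1 : Real.log (A' * B') ≤ Real.log (4 * (X : ℝ) ^ 2) := by
        apply Real.log_le_log (by positivity)
        linarith
      rw [Real.log_mul (show (4 : ℝ) ≠ 0 by norm_num) (show (X : ℝ) ^ 2 ≠ 0 by positivity),
        Real.log_pow] at h1
      have h4 := log_four_le
      push_cast at h1
      linarith
    have hlog0 : 0 ≤ 1 + Real.log (A' * B') := by
      have : 0 ≤ Real.log (A' * B') := Real.log_nonneg (by nlinarith)
      linarith
    have hE := E0_mono (A := A) (B := B) hA'0.le hB'0.le hA'2 hB'2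
    have hE0 : 0 ≤ E0 A' B' := E0_nonneg hA'0.le hB'0.le
    have : (A' * B') ^ (5 / 6 : ℝ) + A' * B' ^ (1 / 2 : ℝ) = E0 A' B' := rfl
    rw [this]
    gcongr
  · refine le_trans ?_ hκ
    apply Real.rpow_le_rpow_of_nonpos (by positivity) _ (by norm_num)
    gcongr
  · calc B' ≤ 2 * B := hB'2
      _ ≤ A ^ (7 / 10 : ℝ) := hBA
      _ ≤ A' ^ (7 / 10 : ℝ) := Real.rpow_le_rpow hA0.le hAA' (by norm_num)
  · have hAB' : A' * B' ≤ 4 * (A * B) := by
      calc A' * B' ≤ (2 * A) * (2 * B) := by gcongr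
        _ = _ := by ring
    calc (A' * B') ^ (1 / 10 : ℝ) ≤ (4 * (A * B)) ^ (1 / 10 : ℝ) :=
          Real.rpow_le_rpow (by positivity) hAB' (by norm_num)
      _ ≤ B := h10
      _ ≤ B' := hBB'
  · intro a ha
    have ha' := Finset.mem_filter.mp ha
    have h0 := hSA a ha'.1
    have hpos : (0 : ℝ) < nm a := by linarith [h0.2.1]
    refine ⟨h0.1, ?_, ?_⟩
    · apply max_le h0.2.1
      have := Real.exp_le_exp.mpr ha'.2.1
      rwa [Real.exp_log hpos] at this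
    · have h1 : (nm a : ℝ) ≤ Real.exp (Real.log X - (Real.log B + j * (κ' / 6))) := by
        have := Real.exp_le_exp.mpr ha'.2.2
        rwa [Real.exp_log hpos] at this
      have h2 : Real.exp (Real.log X - (Real.log B + j * (κ' / 6))) =
          Real.exp lo * Real.exp (3 * (κ' / 6)) := by
        rw [← Real.exp_add, hlo]
        congr 1
        ring
      rw [h2] at h1
      refine h1.trans ?_
      have : Real.exp lo ≤ A' := le_max_right _ _
      gcongr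
  · intro b hb
    have hb' := Finset.mem_filter.mp hb
    have h0 := hSB b hb'.1
    have hpos : (0 : ℝ) < nm b := by linarith [h0.2.1]
    refine ⟨h0.1, ?_, ?_⟩
    · have := hb'.2.1
      rw [← hBlog] at this
      exact (Real.log_le_log_iff hB'0 hpos).mp this
    · have h1 : Real.log (nm b) ≤ Real.log (B' * Real.exp (κ' / 6)) := by
        rw [Real.log_mul hB'0.ne' (Real.exp_ne_zero _), Real.log_exp, hBlog]
        have := hb'.2.2.le
        linarith
      have h2 := (Real.log_le_log_iff hpos (by positivity)).mp h1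
      refine h2.trans ?_
      gcongr
  · intro a ha
    rw [norm_mul, norm_pw, mul_one]
    exact hα a (Finset.mem_filter.mp ha).1
  · intro b hb
    rw [norm_mul, norm_pw, mul_one]
    exact hβ b (Finset.mem_filter.mp hb).1

/-- Bound for the whole box, all `t`. -/
lemma box_bound {c c0 C8 : ℝ} (hc : 0 ≤ c) (hC8 : 0 ≤ C8) (h : CellB g P c c0 C8)
    {X : ℕ} (hX : 3 ≤ X) {A B : ℝ} (hA : 2 ≤ A) (hB : 2 ≤ B) (hBA : 2 * B ≤ A ^ (7 / 10 : ℝ))
    (h10 : (4 * (A * B)) ^ (1 / 10 : ℝ) ≤ B)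
    (hAB2 : A * B ≤ (X : ℝ) ^ 2)
    (SA SB : Finset Eis) (α β : Eis → ℂ)
    (hSA : ∀ a ∈ SA, P a ∧ A ≤ nm a ∧ (nm a : ℝ) ≤ 2 * A)
    (hSB : ∀ b ∈ SB, P b ∧ B ≤ nm b ∧ (nm b : ℝ) ≤ 2 * B)
    (hα : ∀ a ∈ SA, ‖α a‖ ≤ 1) (hβ : ∀ b ∈ SB, ‖β b‖ ≤ 1) (t : ℝ) :
    ‖∑ p ∈ SA ×ˢ SB, (α p.1 * β p.2 * g p.1 p.2) * pw t (nm (p.1 * p.2))‖ ≤
      C8 * (5 * Real.log X) ^ c * E0 A B := by
  classical
  have hX3 : (3 : ℝ) ≤ X := by exact_mod_cast hX
  have hX0 : (0 : ℝ) < X := by linarith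
  have hL1 : 1 ≤ Real.log X := one_le_log hX
  have hA0 : 0 < A := by linarith
  have hB0 : 0 < B := by linarith
  have h1A : ∀ a ∈ SA, 1 ≤ nm a := by
    intro a ha
    have := (hSA a ha).2.1
    have : (1 : ℝ) ≤ nm a := by linarith
    exact_mod_cast this
  have h1B : ∀ b ∈ SB, 1 ≤ nm b := by
    intro b hb
    have := (hSB b hb).2.1
    have : (1 : ℝ) ≤ nm b := by linarith
    exact_mod_cast this
  rw [sum_prod_eq SA SB α β t h1A h1B]
  have key := h A B 1 hA hB ?_ le_rfl (by linarith)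
    ((Real.rpow_le_rpow (by positivity) (by nlinarith [mul_pos hA0 hB0]) (by norm_num)).trans h10)
    SA SB
    (fun a => α a * pw t (nm a)) (fun b => β b * pw t (nm b)) ?_ ?_ ?_ ?_
  · refine key.trans ?_
    have hlog : 1 + Real.log (A * B) ≤ 5 * Real.log X := by
      have h1 : Real.log (A * B) ≤ Real.log ((X : ℝ) ^ 2) :=
        Real.log_le_log (by positivity) hAB2
      rw [Real.log_pow] at h1
      push_cast at h1
      linarith
    have hlog0 : 0 ≤ 1 + Real.log (A * B) := by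
      have : 0 ≤ Real.log (A * B) := Real.log_nonneg (by nlinarith)
      linarith
    have hE0 : 0 ≤ E0 A B := E0_nonneg hA0.le hB0.le
    have : (A * B) ^ (5 / 6 : ℝ) + A * B ^ (1 / 2 : ℝ) = E0 A B := rfl
    rw [this, Real.one_rpow, mul_one]
    gcongr
  · apply Real.rpow_le_one_of_one_le_of_nonpos (by nlinarith) (by norm_num)
  · intro a ha
    exact ⟨(hSA a ha).1, (hSA a ha).2.1, by linarith [(hSA a ha).2.2]⟩
  · intro b hb
    exact ⟨(hSB b hb).1, (hSB b hb).2.1, by linarith [(hSB b hb).2.2]⟩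
  · intro a ha
    rw [norm_mul, norm_pw, mul_one]
    exact hα a ha
  · intro b hb
    rw [norm_mul, norm_pw, mul_one]
    exact hβ b hb

/-- `(log x)^{K0} ≤ x^{1/2000}` for large `x`. -/
lemma exists_large (K0 : ℝ) : ∃ X0 : ℝ, 3 ≤ X0 ∧ ∀ x : ℝ, X0 ≤ x →
    (Real.log x) ^ K0 ≤ x ^ (1 / 2000 : ℝ) := by
  have h := (isLittleO_log_rpow_rpow_atTop K0 (s := (1 / 2000 : ℝ)) (by norm_num)).bound
    (c := 1) (by norm_num)
  obtain ⟨X1, hX1⟩ := Filter.eventually_atTop.mp h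
  refine ⟨max 3 X1, le_max_left _ _, fun x hx => ?_⟩
  have h1 := hX1 x ((le_max_right _ _).trans hx)
  have hx3 : (3 : ℝ) ≤ x := (le_max_left _ _).trans hx
  have hl : 0 ≤ Real.log x := Real.log_nonneg (by linarith)
  rw [Real.norm_of_nonneg (by positivity), Real.norm_of_nonneg (by positivity), one_mul] at h1
  exact h1

set_option maxHeartbeats 1000000 in
/-- **Main theorem.**  Sharp cut-off at the cost of `log log`. -/
theorem edge_sharp {c c0 C8 : ℝ} (hc : 0 ≤ c) (hc0 : 0 < c0) (hC8 : 0 ≤ C8)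
    (h : CellB g P c c0 C8) (K : ℝ) (hK : 0 ≤ K) :
    ∃ C K1 : ℝ, 0 < C ∧ 0 < K1 ∧ ∀ (X : ℕ) (A B : ℝ) (SA SB : Finset Eis) (α β : Eis → ℂ)
      (Q : ℝ), 3 ≤ X → 2 ≤ A → 2 ≤ B → 2 * B ≤ A ^ (7 / 10 : ℝ) →
      (4 * (A * B)) ^ (1 / 10 : ℝ) ≤ B → (X : ℝ) ≤ (A * B) ^ 2 →
      A * B ≤ (X : ℝ) ^ 2 →
      (∀ a ∈ SA, P a ∧ A ≤ nm a ∧ (nm a : ℝ) ≤ 2 * A) →
      (∀ b ∈ SB, P b ∧ B ≤ nm b ∧ (nm b : ℝ) ≤ 2 * B) →
      (∀ a ∈ SA, ‖α a‖ ≤ 1) → (∀ b ∈ SB, ‖β b‖ ≤ 1) →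
      (∀ t : ℝ, |t| ≤ (Real.log X) ^ K1 →
        ‖∑ a ∈ SA, ∑ b ∈ SB, α a * β b * g a b * pw t (nm (a * b))‖ ≤ Q) →
      ‖∑ a ∈ SA, ∑ b ∈ SB, (if nm (a * b) ≤ X then α a * β b * g a b else 0)‖ ≤
        C * (1 + Real.log (1 + Real.log X)) * Q +
          C * (Real.log X) ^ (-K) * ((A * B) ^ (5 / 6 : ℝ) + A * B ^ (1 / 2 : ℝ)) := by
  classical
  set K0 : ℝ := (1 + c + K) / c0 with hK0
  have hK0pos : 0 < K0 := by positivity
  set K1 : ℝ := K0 + c + K + 1 with hK1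
  have hK1pos : 0 < K1 := by positivity
  obtain ⟨X0, hX03, hX0⟩ := exists_large K0
  have hCi := Cint_pos
  have hCk := Ck_pos 1
  set L0 : ℝ := Real.log X0 with hL0
  have hL0nn : 0 ≤ L0 := Real.log_nonneg (by linarith)
  -- the constant
  set C : ℝ := Cint * (3 + K0) + 24 * Ck 1 * (C8 * 5 ^ c) +
    12 * (Cint * (18 + 2 * K0)) * (C8 * 5 ^ c) * 4 +
    4 * Cint * (1 + 2 * L0) * (C8 * (5 * L0) ^ c) * L0 ^ K + 1 with hC
  have hCpos : 0 < C := by positivity
  refine ⟨C, K1, hCpos, hK1pos, ?_⟩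
  intro X A B SA SB α β Q hX hA hB hBA h10 hXAB hAB2 hSA hSB hα hβ hQ
  have hX3 : (3 : ℝ) ≤ X := by exact_mod_cast hX
  have hXpos : (0 : ℝ) < X := by linarith
  have hX1 : 1 ≤ X := by omega
  set L : ℝ := Real.log X with hL
  have hL1 : 1 ≤ L := one_le_log hX
  have hLpos : 0 < L := by linarith
  have hA0 : 0 < A := by linarith
  have hB0 : 0 < B := by linarith
  have hEnn : 0 ≤ E0 A B := E0_nonneg hA0.le hB0.le
  have h1A : ∀ a ∈ SA, 1 ≤ nm a := by
    intro a ha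
    have := (hSA a ha).2.1
    have : (1 : ℝ) ≤ nm a := by linarith
    exact_mod_cast this
  have h1B : ∀ b ∈ SB, 1 ≤ nm b := by
    intro b hb
    have := (hSB b hb).2.1
    have : (1 : ℝ) ≤ nm b := by linarith
    exact_mod_cast this
  have hn : ∀ p ∈ SA ×ˢ SB, 1 ≤ nm (p.1 * p.2) := by
    intro p hp
    rw [Finset.mem_product] at hp
    rw [nm_mul]
    exact Nat.one_le_iff_ne_zero.mpr
      (Nat.mul_ne_zero (by have := h1A _ hp.1; omega) (by have := h1B _ hp.2; omega))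
  have hall : ∀ t : ℝ, ‖∑ p ∈ SA ×ˢ SB, (α p.1 * β p.2 * g p.1 p.2) * pw t (nm (p.1 * p.2))‖ ≤
      C8 * (5 * L) ^ c * E0 A B := fun t =>
    box_bound hc hC8 h hX hA hB hBA h10 hAB2 SA SB α β hSA hSB hα hβ t
  have hQ' : ∀ t : ℝ, |t| ≤ L ^ K1 →
      ‖∑ p ∈ SA ×ˢ SB, (α p.1 * β p.2 * g p.1 p.2) * pw t (nm (p.1 * p.2))‖ ≤ Q := by
    intro t ht
    rw [Finset.sum_product]
    exact hQ t ht
  have hQ0 : 0 ≤ Q := (norm_nonneg _).trans (hQ' 0 (by rw [abs_zero]; positivity))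
  have hlhs : ∑ a ∈ SA, ∑ b ∈ SB, (if nm (a * b) ≤ X then α a * β b * g a b else 0) =
      ∑ p ∈ (SA ×ˢ SB).filter (fun p => nm (p.1 * p.2) ≤ X), α p.1 * β p.2 * g p.1 p.2 := by
    rw [Finset.sum_filter, Finset.sum_product]
  rw [hlhs]
  have hE : (A * B) ^ (5 / 6 : ℝ) + A * B ^ (1 / 2 : ℝ) = E0 A B := rfl
  rw [hE]
  have hll : 0 ≤ Real.log (1 + L) := Real.log_nonneg (by linarith)
  rcases lt_or_ge (X : ℝ) X0 with hsmall | hlarge
  · -- small X
    have h1 := norm_sum_filter_le (SA ×ˢ SB) (fun p => α p.1 * β p.2 * g p.1 p.2)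
      (fun p => nm (p.1 * p.2)) hn X hall
    refine h1.trans ?_
    have hLL0 : L ≤ L0 := Real.log_le_log hXpos hsmall.le
    have hlogX1 : Real.log ((X : ℝ) + 1) ≤ 2 * L := log_add_one_le hX
    have hLK : 1 ≤ L0 ^ K * L ^ (-K) := by
      have : L ^ K ≤ L0 ^ K := Real.rpow_le_rpow hLpos.le hLL0 hK
      calc (1 : ℝ) = L ^ K * L ^ (-K) := by
            rw [← Real.rpow_add hLpos]; simp
        _ ≤ L0 ^ K * L ^ (-K) := by gcongr
    have hlog0 : 0 ≤ Real.log ((X : ℝ) + 1) := Real.log_nonneg (by linarith)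
    have h2 : 4 * Cint * (1 + Real.log (X + 1)) * (C8 * (5 * L) ^ c * E0 A B) ≤
        (4 * Cint * (1 + 2 * L0) * (C8 * (5 * L0) ^ c) * L0 ^ K) * L ^ (-K) * E0 A B := by
      calc 4 * Cint * (1 + Real.log (X + 1)) * (C8 * (5 * L) ^ c * E0 A B)
          ≤ 4 * Cint * (1 + 2 * L0) * (C8 * (5 * L0) ^ c * E0 A B) := by
            gcongr
            linarith
        _ = (4 * Cint * (1 + 2 * L0) * (C8 * (5 * L0) ^ c)) * E0 A B * 1 := by ring
        _ ≤ (4 * Cint * (1 + 2 * L0) * (C8 * (5 * L0) ^ c)) * E0 A B * (L0 ^ K * L ^ (-K)) := by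
            gcongr
        _ = _ := by ring
    refine h2.trans ?_
    have h3 : (4 * Cint * (1 + 2 * L0) * (C8 * (5 * L0) ^ c) * L0 ^ K) ≤ C := by
      rw [hC]
      have : 0 ≤ Cint * (3 + K0) + 24 * Ck 1 * (C8 * 5 ^ c) +
        12 * (Cint * (18 + 2 * K0)) * (C8 * 5 ^ c) * 4 := by positivity
      linarith
    have h4 : 0 ≤ C * (1 + Real.log (1 + L)) * Q := by positivity
    have h5 : (4 * Cint * (1 + 2 * L0) * (C8 * (5 * L0) ^ c) * L0 ^ K) * L ^ (-K) * E0 A B ≤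
        C * L ^ (-K) * E0 A B := by gcongr
    linarith
  · -- large X
    set κ' : ℝ := L ^ (-K0) with hκ'
    have hκ'0 : 0 < κ' := by positivity
    have hκ'1 : κ' ≤ 1 := Real.rpow_le_one_of_one_le_of_nonpos hL1 (by linarith)
    have hκlow : (A * B) ^ (-(1 / 1000) : ℝ) ≤ κ' := by
      have h1 : (X : ℝ) ^ (1 / 2 : ℝ) ≤ A * B := by
        rw [← Real.sqrt_eq_rpow]
        exact Real.sqrt_le_iff.mpr ⟨by positivity, hXAB⟩
      have h2 : L ^ K0 ≤ (X : ℝ) ^ (1 / 2000 : ℝ) := hX0 X hlarge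
      calc (A * B) ^ (-(1 / 1000) : ℝ) ≤ ((X : ℝ) ^ (1 / 2 : ℝ)) ^ (-(1 / 1000) : ℝ) :=
            Real.rpow_le_rpow_of_nonpos (by positivity) h1 (by norm_num)
        _ = ((X : ℝ) ^ (1 / 2000 : ℝ))⁻¹ := by
            rw [← Real.rpow_mul hXpos.le, ← Real.rpow_neg hXpos.le]
            norm_num
        _ ≤ (L ^ K0)⁻¹ := by gcongr
        _ = κ' := by rw [hκ', Real.rpow_neg hLpos.le]
    set κ : ℝ := κ' / 6 with hκ
    have hκ0 : 0 < κ := by positivity
    have hκhalf : κ ≤ 1 / 2 := by rw [hκ]; linarith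
    set J : ℕ := ⌊1 / κ⌋₊ + 1 with hJ
    have hJ1 : 1 < J * κ := by
      have := Nat.lt_floor_add_one (1 / κ)
      rw [div_lt_iff₀ hκ0] at this
      rw [hJ]; push_cast; exact this
    have hJ2 : (J : ℝ) ≤ 2 / κ := by
      have h1 : ((⌊1 / κ⌋₊ : ℕ) : ℝ) ≤ 1 / κ := Nat.floor_le (by positivity)
      have h2 : (1 : ℝ) ≤ 1 / κ := by
        rw [le_div_iff₀ hκ0]; linarith
      rw [hJ]; push_cast
      calc ((⌊1 / κ⌋₊ : ℕ) : ℝ) + 1 ≤ 1 / κ + 1 / κ := by linarith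
        _ = 2 / κ := by ring
    have hlog2 : Real.log 2 < 1 := by
      have := Real.log_two_lt_d9; linarith
    have hv : ∀ p ∈ SA ×ˢ SB, Real.log B ≤ Real.log (nm p.2) ∧
        Real.log (nm p.2) < Real.log B + J * κ := by
      intro p hp
      rw [Finset.mem_product] at hp
      have h0 := hSB _ hp.2
      have hpos : (0 : ℝ) < nm p.2 := by linarith [h0.2.1]
      refine ⟨Real.log_le_log hB0 h0.2.1, ?_⟩
      have : Real.log (nm p.2) ≤ Real.log (2 * B) := Real.log_le_log hpos h0.2.2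
      rw [Real.log_mul (by norm_num) hB0.ne'] at this
      linarith
    have hmain := sharp_cut (SA ×ˢ SB) (fun p => α p.1 * β p.2 * g p.1 p.2)
      (fun p => Real.log (nm p.2)) (fun p => nm (p.1 * p.2)) hn hX1 hκ0 hκhalf
      (Real.log B) J hv (T := L ^ K1) (by positivity) (k := 1) (by norm_num) hQ' hall
      (fun j _ t => cell_bound hc hC8 h hX hA hB hBA h10 hAB2 hκ'0 hκ'1 hκlow SA SB α β hSA hSB
        hα hβ j t)
    refine hmain.trans ?_
    -- log estimates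
    have hlogκ : 1 + Real.log ((L + 1) / κ) ≤ (3 + K0) * (1 + Real.log (1 + L)) :=
      log_kappa_le hL1 hK0pos rfl
    have hll2 : Real.log (1 + L) ≤ L := by
      have := Real.log_le_sub_one_of_pos (x := 1 + L) (by linarith)
      linarith
    have hlogκ2 : 1 + Real.log ((L + 1) / κ) ≤ 2 * (3 + K0) * L := by
      refine hlogκ.trans ?_
      have : 1 + Real.log (1 + L) ≤ 2 * L := by linarith
      calc (3 + K0) * (1 + Real.log (1 + L)) ≤ (3 + K0) * (2 * L) := by gcongr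
        _ = _ := by ring
    have hlogκ0 : 0 ≤ 1 + Real.log ((L + 1) / κ) := by
      have : 0 ≤ Real.log ((L + 1) / κ) := by
        apply Real.log_nonneg
        rw [le_div_iff₀ hκ0]; linarith
      linarith
    have hlogX1 : Real.log ((X : ℝ) + 1) ≤ 2 * L := log_add_one_le hX
    have hlog0 : 0 ≤ Real.log ((X : ℝ) + 1) := Real.log_nonneg (by linarith)
    -- first term
    have t1 : Cint * (1 + Real.log ((L + 1) / κ)) * Q ≤
        (Cint * (3 + K0)) * (1 + Real.log (1 + L)) * Q := by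
      have := mul_le_mul_of_nonneg_left hlogκ hCi.le
      calc Cint * (1 + Real.log ((L + 1) / κ)) * Q
          ≤ Cint * ((3 + K0) * (1 + Real.log (1 + L))) * Q := by gcongr
        _ = _ := by ring
    -- second term
    have t2 : 4 * Ck 1 / (κ * L ^ K1) ^ 1 * (C8 * (5 * L) ^ c * E0 A B) ≤
        (24 * Ck 1 * (C8 * 5 ^ c)) * L ^ (-K) * E0 A B := by
      have e1 : 4 * Ck 1 / (κ * L ^ K1) ^ 1 = 24 * Ck 1 * L ^ (K0 - K1) := by
        rw [pow_one, hκ, hκ', Real.rpow_sub hLpos, Real.rpow_neg hLpos.le]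
        field_simp
        ring
      rw [e1, Real.mul_rpow (by norm_num) hLpos.le]
      have e2 : L ^ (K0 - K1) * L ^ c ≤ L ^ (-K) := by
        rw [← Real.rpow_add hLpos]
        apply Real.rpow_le_rpow_of_exponent_le hL1
        rw [hK1]; linarith
      calc 24 * Ck 1 * L ^ (K0 - K1) * (C8 * (5 ^ c * L ^ c) * E0 A B)
          = (24 * Ck 1 * (C8 * 5 ^ c)) * (L ^ (K0 - K1) * L ^ c) * E0 A B := by ring
        _ ≤ (24 * Ck 1 * (C8 * 5 ^ c)) * L ^ (-K) * E0 A B := by gcongr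
    -- third term
    have t3 : J * ((4 * Cint * (1 + Real.log (X + 1)) +
        Cint * (1 + Real.log ((L + 1) / κ))) * (C8 * (5 * L) ^ c * κ' ^ (1 + c0) *
          (4 * E0 A B))) ≤
        (12 * (Cint * (18 + 2 * K0)) * (C8 * 5 ^ c) * 4) * L ^ (-K) * E0 A B := by
      have e1 : 4 * Cint * (1 + Real.log (X + 1)) + Cint * (1 + Real.log ((L + 1) / κ)) ≤
          Cint * (18 + 2 * K0) * L := by
        have a1 : 4 * Cint * (1 + Real.log (X + 1)) ≤ 4 * Cint * (3 * L) := by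
          gcongr; linarith
        have a2 : Cint * (1 + Real.log ((L + 1) / κ)) ≤ Cint * (2 * (3 + K0) * L) := by
          gcongr
        calc _ ≤ 4 * Cint * (3 * L) + Cint * (2 * (3 + K0) * L) := add_le_add a1 a2
          _ = _ := by ring
      have e2 : κ' ^ (1 + c0) = κ' * κ' ^ c0 := by
        rw [Real.rpow_add hκ'0, Real.rpow_one]
      have e3 : κ' ^ c0 = L ^ (-(1 + c + K)) := by
        rw [hκ', ← Real.rpow_mul hLpos.le]
        congr 1
        rw [hK0]; field_simp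
      have e4 : L * L ^ c * L ^ (-(1 + c + K)) = L ^ (-K) := by
        nth_rewrite 1 [← Real.rpow_one L]
        rw [← Real.rpow_add hLpos, ← Real.rpow_add hLpos]
        congr 1; ring
      have hJκ : (J : ℝ) * κ' ≤ 12 := by
        calc (J : ℝ) * κ' ≤ 2 / κ * κ' := by gcongr
          _ = 12 := by rw [hκ]; field_simp; norm_num
      calc J * ((4 * Cint * (1 + Real.log (X + 1)) +
        Cint * (1 + Real.log ((L + 1) / κ))) * (C8 * (5 * L) ^ c * κ' ^ (1 + c0) *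
          (4 * E0 A B)))
          ≤ J * ((Cint * (18 + 2 * K0) * L) * (C8 * (5 * L) ^ c * κ' ^ (1 + c0) *
          (4 * E0 A B))) := by gcongr
        _ = (J * κ') * ((Cint * (18 + 2 * K0)) * (C8 * 5 ^ c) * 4 *
            (L * L ^ c * κ' ^ c0) * E0 A B) := by
            rw [e2, Real.mul_rpow (by norm_num) hLpos.le]; ring
        _ ≤ 12 * ((Cint * (18 + 2 * K0)) * (C8 * 5 ^ c) * 4 *
            (L * L ^ c * κ' ^ c0) * E0 A B) := by gcongr
        _ = _ := by rw [e3, e4]; ring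
    have hsum : Cint * (1 + Real.log ((L + 1) / κ)) * Q +
        4 * Ck 1 / (κ * L ^ K1) ^ 1 * (C8 * (5 * L) ^ c * E0 A B) +
        J * ((4 * Cint * (1 + Real.log (X + 1)) +
        Cint * (1 + Real.log ((L + 1) / κ))) * (C8 * (5 * L) ^ c * κ' ^ (1 + c0) *
          (4 * E0 A B))) ≤
        (Cint * (3 + K0)) * (1 + Real.log (1 + L)) * Q +
        (24 * Ck 1 * (C8 * 5 ^ c) + 12 * (Cint * (18 + 2 * K0)) * (C8 * 5 ^ c) * 4) *
          L ^ (-K) * E0 A B := by
      calc _ ≤ _ := add_le_add (add_le_add t1 t2) t3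
        _ = _ := by ring
    refine hsum.trans ?_
    have c1 : Cint * (3 + K0) ≤ C := by
      rw [hC]
      have : 0 ≤ 24 * Ck 1 * (C8 * 5 ^ c) +
        12 * (Cint * (18 + 2 * K0)) * (C8 * 5 ^ c) * 4 +
        4 * Cint * (1 + 2 * L0) * (C8 * (5 * L0) ^ c) * L0 ^ K := by positivity
      linarith
    have c2 : 24 * Ck 1 * (C8 * 5 ^ c) + 12 * (Cint * (18 + 2 * K0)) * (C8 * 5 ^ c) * 4 ≤ C := by
      rw [hC]
      have : 0 ≤ Cint * (3 + K0) +
        4 * Cint * (1 + 2 * L0) * (C8 * (5 * L0) ^ c) * L0 ^ K := by positivity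
      linarith
    gcongr

end Crest.Agent.R012.EdgeSharp968
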