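import Crest.Agent.R012.Lat_277
import Crest.Agent.R012.EdgeSharp_968
import Crest.Agent.R012.T8Master_810
import Crest.Agent.R012.T8LS_879

-- ▼ part R012/FejGauss_968
section

/-!
# Row 12, T8b: the Fejér–Gauss majorant of a short norm interval (helper968)

`PS q s = ∑'_a q a exp(-s N(a))`.  For `S ⊆ {A ≤ N(a) ≤ A (1+κ)}`, `κ J ≤ 1`:
`∑_{a ∈ S} q a ≤ (4 e²/J²) ∑_{j,k<J} ‖PS q ((1 - i(j-k))/A)‖`.
-/

set_option autoImplicit false

noncomputable section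

open Complex Finset

namespace Crest.Agent.R012.FejGauss968

open Eis Lat277

/-- `∑'_a q a exp(-s N(a))`. -/
def PS (q : Eis → ℝ) (s : ℂ) : ℂ := ∑' a : Eis, (q a : ℂ) * cexp (-s * (nm a : ℂ))

/-- the parameters. -/
def sp (A : ℝ) (τ : ℤ) : ℂ := (1 - (τ : ℂ) * I) / (A : ℂ)

lemma sp_re {A : ℝ} (τ : ℤ) : (sp A τ).re = 1 / A := by
  unfold sp
  rw [Complex.div_ofReal_re]
  simp

lemma norm_cexp_sp {A : ℝ} (τ : ℤ) (x : ℝ) :
    ‖cexp (-sp A τ * (x : ℂ))‖ = Real.exp (-(x / A)) := by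
  rw [Complex.norm_exp]
  congr 1
  rw [neg_mul, neg_re, re_mul_ofReal, sp_re]
  ring

/-- Fejér–Gauss weight. -/
def FW (A : ℝ) (J : ℕ) (x : ℝ) : ℝ :=
  Complex.normSq (∑ j ∈ range J, cexp ((j : ℂ) * ((x - A) / A : ℝ) * I)) * Real.exp (-(x / A))

lemma FW_nonneg (A : ℝ) (J : ℕ) (x : ℝ) : 0 ≤ FW A J x :=
  mul_nonneg (Complex.normSq_nonneg _) (Real.exp_pos _).le

/-- Lower bound on the short interval. -/
lemma FW_ge {A κ x : ℝ} {J : ℕ} (hA : 0 < A) (hκ1 : κ ≤ 1) (hJ : κ * J ≤ 1)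
    (h1 : A ≤ x) (h2 : x ≤ A * (1 + κ)) :
    (J : ℝ) ^ 2 / 4 * Real.exp (-2) ≤ FW A J x := by
  have hφ0 : 0 ≤ (x - A) / A := div_nonneg (by linarith) hA.le
  have hφ : (x - A) / A ≤ κ := by rw [div_le_iff₀ hA]; linarith
  have hJ0 : (0 : ℝ) ≤ J := Nat.cast_nonneg J
  have hre : (J : ℝ) / 2 ≤ (∑ j ∈ range J, cexp ((j : ℂ) * ((x - A) / A : ℝ) * I)).re := by
    rw [Complex.re_sum]
    have : ∀ j ∈ range J, (1 / 2 : ℝ) ≤ (cexp ((j : ℂ) * ((x - A) / A : ℝ) * I)).re := by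
      intro j hj
      have hj' : (j : ℝ) ≤ J := by exact_mod_cast (mem_range.mp hj).le
      have e : ((j : ℂ) * ((x - A) / A : ℝ) * I) = (((j : ℝ) * ((x - A) / A) : ℝ) : ℂ) * I := by
        push_cast; ring
      rw [e, Complex.exp_ofReal_mul_I_re]
      have hj0 : (0 : ℝ) ≤ j := Nat.cast_nonneg j
      have hb : (j : ℝ) * ((x - A) / A) ≤ 1 := by
        calc (j : ℝ) * ((x - A) / A) ≤ J * κ := by gcongr
          _ = κ * J := mul_comm _ _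
          _ ≤ 1 := hJ
      have hb0 : 0 ≤ (j : ℝ) * ((x - A) / A) := by positivity
      have hc := Real.one_sub_sq_div_two_le_cos (x := (j : ℝ) * ((x - A) / A))
      have : ((j : ℝ) * ((x - A) / A)) ^ 2 ≤ 1 := by
        apply pow_le_one₀ hb0 hb
      linarith
    calc (J : ℝ) / 2 = ∑ j ∈ range J, (1 / 2 : ℝ) := by
          rw [sum_const, card_range, nsmul_eq_mul]; ring
      _ ≤ _ := sum_le_sum this
  have hsq : (J : ℝ) ^ 2 / 4 ≤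
      Complex.normSq (∑ j ∈ range J, cexp ((j : ℂ) * ((x - A) / A : ℝ) * I)) := by
    rw [Complex.normSq_apply]
    have h0 : 0 ≤ (J : ℝ) / 2 := by positivity
    nlinarith [mul_self_nonneg
      (∑ j ∈ range J, cexp ((j : ℂ) * ((x - A) / A : ℝ) * I)).im,
      mul_self_le_mul_self h0 hre]
  have hexp : Real.exp (-2) ≤ Real.exp (-(x / A)) := by
    apply Real.exp_le_exp.mpr
    have : x / A ≤ 2 := by
      rw [div_le_iff₀ hA]
      nlinarith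
    linarith
  unfold FW
  exact mul_le_mul hsq hexp (Real.exp_pos _).le (Complex.normSq_nonneg _)

/-- Expansion of the weight. -/
lemma FW_eq {A : ℝ} (hA : 0 < A) (J : ℕ) (x : ℝ) :
    (FW A J x : ℂ) = ∑ j ∈ range J, ∑ k ∈ range J,
      cexp (-(((j : ℤ) - (k : ℤ) : ℤ) : ℂ) * I) * cexp (-sp A ((j : ℤ) - k) * (x : ℂ)) := by
  have hA' : (A : ℂ) ≠ 0 := by exact_mod_cast hA.ne'
  unfold FW
  push_cast
  rw [Complex.normSq_eq_conj_mul_self, map_sum, sum_mul_sum]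
  rw [sum_comm]
  rw [sum_mul]
  refine sum_congr rfl fun j _ => ?_
  rw [sum_mul]
  refine sum_congr rfl fun k _ => ?_
  rw [← Complex.exp_conj, ← Complex.exp_add, ← Complex.exp_add, ← Complex.exp_add]
  congr 1
  unfold sp
  simp only [map_mul, map_div₀, map_sub, Complex.conj_I, Complex.conj_ofReal, Complex.conj_natCast]
  push_cast
  field_simp
  ring

lemma summable_term {q : Eis → ℝ} {A : ℝ} (h0 : ∀ a, 0 ≤ q a)
    (hq : Summable fun a : Eis => q a * Real.exp (-((nm a : ℝ) / A))) (τ : ℤ) :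
    Summable fun a : Eis => (q a : ℂ) * cexp (-sp A τ * (nm a : ℂ)) := by
  refine Summable.of_norm ?_
  refine hq.congr fun a => ?_
  rw [norm_mul, Complex.norm_real, Real.norm_of_nonneg (h0 a)]
  congr 1
  have := norm_cexp_sp (A := A) τ (nm a : ℝ)
  push_cast at this
  exact this.symm

/-- **The majorant inequality.** -/
theorem sum_le_PS {q : Eis → ℝ} {A κ : ℝ} {J : ℕ} (hA : 0 < A) (hκ1 : κ ≤ 1)
    (hJ1 : 1 ≤ J) (hJ : κ * J ≤ 1) (h0 : ∀ a, 0 ≤ q a)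
    (hq : Summable fun a : Eis => q a * Real.exp (-((nm a : ℝ) / A)))
    (S : Finset Eis) (hS : ∀ a ∈ S, A ≤ nm a ∧ (nm a : ℝ) ≤ A * (1 + κ)) :
    ∑ a ∈ S, q a ≤ 4 * Real.exp 2 / (J : ℝ) ^ 2 *
      ∑ j ∈ range J, ∑ k ∈ range J, ‖PS q (sp A ((j : ℤ) - k))‖ := by
  have hJ0 : (0 : ℝ) < J := by exact_mod_cast hJ1
  have hterm := fun τ => summable_term h0 hq τ
  -- total sum
  have hsumC : HasSum (fun a : Eis => (q a : ℂ) * (FW A J (nm a) : ℂ))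
      (∑ j ∈ range J, ∑ k ∈ range J,
        cexp (-(((j : ℤ) - (k : ℤ) : ℤ) : ℂ) * I) * PS q (sp A ((j : ℤ) - k))) := by
    have h1 : HasSum (fun a : Eis => ∑ j ∈ range J, ∑ k ∈ range J,
        cexp (-(((j : ℤ) - (k : ℤ) : ℤ) : ℂ) * I) *
          ((q a : ℂ) * cexp (-sp A ((j : ℤ) - k) * (nm a : ℂ))))
        (∑ j ∈ range J, ∑ k ∈ range J,
        cexp (-(((j : ℤ) - (k : ℤ) : ℤ) : ℂ) * I) * PS q (sp A ((j : ℤ) - k))) := by
      refine hasSum_sum fun j _ => hasSum_sum fun k _ => ?_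
      exact (hterm _).hasSum.mul_left _
    convert h1 using 2 with a
    have := FW_eq hA J (nm a : ℝ)
    rw [this, mul_sum]
    refine sum_congr rfl fun j _ => ?_
    rw [mul_sum]
    refine sum_congr rfl fun k _ => ?_
    push_cast
    ring
  have hsumR : HasSum (fun a : Eis => q a * FW A J (nm a))
      (∑ j ∈ range J, ∑ k ∈ range J,
        cexp (-(((j : ℤ) - (k : ℤ) : ℤ) : ℂ) * I) * PS q (sp A ((j : ℤ) - k))).re := by
    have := Complex.hasSum_re hsumC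
    convert this using 2 with a
    rw [← Complex.ofReal_mul, Complex.ofReal_re]
  have hle1 : ∑ a ∈ S, q a * ((J : ℝ) ^ 2 / 4 * Real.exp (-2)) ≤
      ∑' a : Eis, q a * FW A J (nm a) := by
    calc ∑ a ∈ S, q a * ((J : ℝ) ^ 2 / 4 * Real.exp (-2))
        ≤ ∑ a ∈ S, q a * FW A J (nm a) := by
          refine sum_le_sum fun a ha => ?_
          exact mul_le_mul_of_nonneg_left
            (FW_ge hA hκ1 hJ (hS a ha).1 (hS a ha).2) (h0 a)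
      _ ≤ _ := hsumR.summable.sum_le_tsum S
          (fun a _ => mul_nonneg (h0 a) (FW_nonneg _ _ _))
  rw [hsumR.tsum_eq] at hle1
  have hle2 : (∑ j ∈ range J, ∑ k ∈ range J,
        cexp (-(((j : ℤ) - (k : ℤ) : ℤ) : ℂ) * I) * PS q (sp A ((j : ℤ) - k))).re ≤
      ∑ j ∈ range J, ∑ k ∈ range J, ‖PS q (sp A ((j : ℤ) - k))‖ := by
    refine (Complex.re_le_norm _).trans ?_
    refine (norm_sum_le _ _).trans (sum_le_sum fun j _ => ?_)
    refine (norm_sum_le _ _).trans (sum_le_sum fun k _ => le_of_eq ?_)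
    rw [norm_mul]
    have : ‖cexp (-(((j : ℤ) - (k : ℤ) : ℤ) : ℂ) * I)‖ = 1 := by
      have e : (-(((j : ℤ) - (k : ℤ) : ℤ) : ℂ) * I) =
          ((-(((j : ℤ) - (k : ℤ) : ℤ) : ℝ) : ℝ) : ℂ) * I := by push_cast; ring
      rw [e, Complex.norm_exp_ofReal_mul_I]
    rw [this, one_mul]
  have h3 := hle1.trans hle2
  rw [← sum_mul] at h3
  have e2 : Real.exp (-2) = (Real.exp 2)⁻¹ := Real.exp_neg 2
  rw [e2] at h3
  have hE : 0 < Real.exp 2 := Real.exp_pos 2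
  set M := ∑ j ∈ range J, ∑ k ∈ range J, ‖PS q (sp A ((j : ℤ) - k))‖ with hM
  calc ∑ a ∈ S, q a = (∑ a ∈ S, q a * ((J : ℝ) ^ 2 / 4 * (Real.exp 2)⁻¹)) *
        (4 * Real.exp 2 / (J : ℝ) ^ 2) := by
        rw [← sum_mul]
        field_simp
    _ ≤ M * (4 * Real.exp 2 / (J : ℝ) ^ 2) := by
        rw [← sum_mul]
        gcongr
    _ = _ := mul_comm _ _

/-- reduction of the double sum over `j, k` to the difference. -/
lemma sum_diff_le {f : ℕ → ℝ} (hf : ∀ n, 0 ≤ f n) (J : ℕ) :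
    ∑ j ∈ range J, ∑ k ∈ range J, f ((j : ℤ) - k).natAbs ≤ 2 * J * ∑ m ∈ range J, f m := by
  have hj : ∀ j ∈ range J, ∑ k ∈ range J, f ((j : ℤ) - k).natAbs ≤ 2 * ∑ m ∈ range J, f m := by
    intro j hj
    have hjJ := mem_range.mp hj
    rw [← sum_filter_add_sum_filter_not (range J) (fun k => k ≤ j)]
    have h1 : ∑ k ∈ (range J).filter (fun k => k ≤ j), f ((j : ℤ) - k).natAbs ≤
        ∑ m ∈ range J, f m := by
      have : ∑ k ∈ (range J).filter (fun k => k ≤ j), f ((j : ℤ) - k).natAbs =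
          ∑ m ∈ ((range J).filter (fun k => k ≤ j)).image (fun k : ℕ => ((j : ℤ) - (k : ℤ)).natAbs), f m := by
        rw [sum_image]
        intro k hk k' hk' h
        simp only [coe_filter, mem_range, Set.mem_ofPred_eq] at hk hk'
        dsimp only at h
        omega
      rw [this]
      apply sum_le_sum_of_subset_of_nonneg _ (fun i _ _ => hf i)
      intro m hm
      rw [mem_image] at hm
      obtain ⟨k, hk, rfl⟩ := hm
      rw [mem_filter, mem_range] at hk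
      rw [mem_range]
      omega
    have h2 : ∑ k ∈ (range J).filter (fun k => ¬ k ≤ j), f ((j : ℤ) - k).natAbs ≤
        ∑ m ∈ range J, f m := by
      have : ∑ k ∈ (range J).filter (fun k => ¬ k ≤ j), f ((j : ℤ) - k).natAbs =
          ∑ m ∈ ((range J).filter (fun k => ¬ k ≤ j)).image (fun k : ℕ => ((j : ℤ) - (k : ℤ)).natAbs),
            f m := by
        rw [sum_image]
        intro k hk k' hk' h
        simp only [coe_filter, mem_range, Set.mem_ofPred_eq] at hk hk'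
        dsimp only at h
        omega
      rw [this]
      apply sum_le_sum_of_subset_of_nonneg _ (fun i _ _ => hf i)
      intro m hm
      rw [mem_image] at hm
      obtain ⟨k, hk, rfl⟩ := hm
      rw [mem_filter, mem_range] at hk
      rw [mem_range]
      omega
    linarith
  calc _ ≤ ∑ _j ∈ range J, 2 * ∑ m ∈ range J, f m := sum_le_sum hj
    _ = _ := by rw [sum_const, card_range, nsmul_eq_mul]; ring

/-- `∑_{m<J} 1/√(1+m²) ≤ 2 + log J`. -/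
lemma sum_inv_sqrt_le (J : ℕ) : ∑ m ∈ range J, 1 / Real.sqrt (1 + (m : ℝ) ^ 2) ≤
    2 + Real.log J := by
  rcases Nat.eq_zero_or_pos J with rfl | hJ
  · simp
  obtain ⟨n, rfl⟩ : ∃ n, J = n + 1 := ⟨J - 1, by omega⟩
  rw [sum_range_succ']
  have h1 : ∑ m ∈ range n, 1 / Real.sqrt (1 + ((m + 1 : ℕ) : ℝ) ^ 2) ≤
      ∑ m ∈ range n, 1 / ((m + 1 : ℕ) : ℝ) := by
    refine sum_le_sum fun m _ => ?_
    have hm : (0 : ℝ) < ((m + 1 : ℕ) : ℝ) := by positivity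
    apply one_div_le_one_div_of_le hm
    apply Real.le_sqrt_of_sq_le
    linarith
  have h2 : ∑ m ∈ range n, 1 / ((m + 1 : ℕ) : ℝ) ≤ 1 + Real.log n := by
    have h := harmonic_le_one_add_log n
    unfold harmonic at h
    push_cast at h
    simpa [one_div] using h
  have h3 : Real.log n ≤ Real.log ((n + 1 : ℕ) : ℝ) := by
    rcases Nat.eq_zero_or_pos n with rfl | hn
    · simp
    · apply Real.log_le_log (by exact_mod_cast hn)
      push_cast; linarith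
  have h4 : (1 : ℝ) / Real.sqrt (1 + ((0 : ℕ) : ℝ) ^ 2) = 1 := by simp
  rw [h4]
  linarith

/-! ### Counting -/

/-- number of lattice points in a thin annulus. -/
theorem card_annulus_le {lo hi : ℝ} (h0 : 0 ≤ lo) (h1 : lo ≤ hi) (S : Finset Eis)
    (hS : ∀ a ∈ S, lo ≤ nm a ∧ (nm a : ℝ) ≤ hi) :
    (S.card : ℝ) ≤ 4 * (hi - lo) + 60 * (Real.sqrt hi + 1) + 4 := by
  classical
  set Y : ℕ := ⌊hi⌋₊ with hY
  set Z : ℕ := ⌈lo⌉₊ - 1 with hZ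
  have hhi : 0 ≤ hi := h0.trans h1
  have hYle : (Y : ℝ) ≤ hi := Nat.floor_le hhi
  have hπ : 2 * Real.pi / Real.sqrt 3 ≤ 4 := by
    rw [div_le_iff₀ (Real.sqrt_pos.mpr (by norm_num))]
    have h3 : (1.7 : ℝ) ≤ Real.sqrt 3 := Real.le_sqrt_of_sq_le (by norm_num)
    have := Real.pi_lt_d2
    nlinarith
  have hπ0 : 0 ≤ 2 * Real.pi / Real.sqrt 3 := by positivity
  have hcY := (abs_le.mp (card_ball Y)).2
  have hsY : Real.sqrt Y ≤ Real.sqrt hi := Real.sqrt_le_sqrt hYle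
  rcases Nat.eq_zero_or_pos ⌈lo⌉₊ with hc | hc
  · -- lo ≤ 0
    have hlo : lo = 0 := by
      have := Nat.ceil_eq_zero.mp hc
      linarith
    have hsub : S ⊆ ball Y := by
      intro a ha
      rw [mem_ball]
      exact Nat.le_floor (hS a ha).2
    have : (S.card : ℝ) ≤ (ball Y).card := by exact_mod_cast card_le_card hsub
    rw [hlo]
    have h5 : 2 * Real.pi / Real.sqrt 3 * (Y : ℝ) ≤ 4 * hi :=
      mul_le_mul hπ hYle (Nat.cast_nonneg Y) (by norm_num)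
    have hs0 : 0 ≤ Real.sqrt hi := Real.sqrt_nonneg _
    linarith
  · have hZ1 : Z + 1 = ⌈lo⌉₊ := by omega
    have hZlt : (Z : ℝ) < lo := by
      have : Z < ⌈lo⌉₊ := by omega
      exact Nat.lt_ceil.mp this
    have hZge : lo - 1 ≤ Z := by
      have := Nat.le_ceil lo
      rw [← hZ1] at this
      push_cast at this
      linarith
    have hZY : Z ≤ Y := by
      apply Nat.le_floor
      linarith
    have hsub : S ⊆ ball Y \ ball Z := by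
      intro a ha
      rw [mem_sdiff, mem_ball, mem_ball]
      refine ⟨Nat.le_floor (hS a ha).2, ?_⟩
      intro hle
      have : (nm a : ℝ) ≤ Z := by exact_mod_cast hle
      linarith [(hS a ha).1]
    have hsubset : ball Z ⊆ ball Y := by
      intro a ha
      rw [mem_ball] at ha ⊢
      omega
    have hcard : (S.card : ℝ) ≤ (ball Y).card - (ball Z).card := by
      have h1 := card_le_card hsub
      rw [card_sdiff_of_subset hsubset] at h1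
      have h2 := card_le_card hsubset
      have h3 : (((ball Y).card - (ball Z).card : ℕ) : ℝ) = (ball Y).card - (ball Z).card := by
        rw [Nat.cast_sub h2]
      rw [← h3]
      exact_mod_cast h1
    have hcZ := (abs_le.mp (card_ball Z)).1
    have hsZ : Real.sqrt Z ≤ Real.sqrt hi := Real.sqrt_le_sqrt (by linarith)
    have hdiff : 2 * Real.pi / Real.sqrt 3 * (Y - Z : ℝ) ≤ 4 * (hi - lo + 1) := by
      have h1 : (Y : ℝ) - Z ≤ hi - lo + 1 := by linarith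
      have h2 : (0 : ℝ) ≤ hi - lo + 1 := by linarith
      calc 2 * Real.pi / Real.sqrt 3 * (Y - Z : ℝ)
          ≤ 2 * Real.pi / Real.sqrt 3 * (hi - lo + 1) := by gcongr
        _ ≤ 4 * (hi - lo + 1) := by gcongr
    have hs0 : 0 ≤ Real.sqrt hi := Real.sqrt_nonneg _
    rw [mul_sub] at hdiff
    linarith

end Crest.Agent.R012.FejGauss968
end
end

-- ▼ part R012/T8bA_968
section

/-!
# Row 12, T8b, part A: the second moment over a short norm interval (helper968)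

`S_bound`: for `SA` in a `κ`-interval,
`∑_{a ∈ SA} |∑_b β b G(b) conj (a/b)|² ≪ (log J / J) A #SB + A J³ Sb`.
-/

set_option autoImplicit false

noncomputable section

open Complex Finset

namespace Crest.Agent.R012.T8b968

open Eis
open Gauss880 (syG)
open Mob705 (pdiv mem_pdiv)
open FejGauss968 (sp sum_le_PS sum_diff_le sum_inv_sqrt_le)

/-- the value of the bound of `Sig` on a cell, `t = 1 + τ²`, `L = 1 + log (A B)`. -/
def Mb (A B κ : ℝ) : ℝ :=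
  κ ^ (4 / 3 : ℝ) * B ^ (5 / 3 : ℝ) * A ^ (-(1 / 3) : ℝ) +
    B ^ (7 / 6 : ℝ) * A ^ (-(1 / 3) : ℝ) + B ^ 2 / A +
    B ^ 4 / A ^ 2

/-- the bound of `Sig` on cells. -/
def SigCell (C c : ℝ) : Prop := ∀ (A B κ τ : ℝ) (S : Finset Eis) (β : Eis → ℂ), 2 ≤ A → 2 ≤ B →
  0 ≤ κ → κ ≤ 1 →
  (∀ b ∈ S, IsPrim b ∧ Squarefree b ∧ B ≤ nm b ∧ (nm b : ℝ) ≤ B * (1 + κ)) →
  (∀ b, ‖β b‖ ≤ 1) →
  T8.Sig S (S.biUnion pdiv) β A B τ ≤ C * (1 + Real.log (A * B)) ^ c * (1 + τ ^ 2) ^ 3 * Mb A B κ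

lemma Mb_nonneg {A B κ : ℝ} (hA : 0 < A) (hB : 0 < B) (hκ : 0 ≤ κ) : 0 ≤ Mb A B κ := by
  unfold Mb
  positivity

/-- the linear form. -/
def Fs (SB : Finset Eis) (β : Eis → ℂ) (a : Eis) : ℂ :=
  ∑ b ∈ SB, β b * (G b * (starRingEnd ℂ) (sy a b))

/-- the nonnegative function on all of `Eis`. -/
def qf (SB : Finset Eis) (β : Eis → ℂ) (a : Eis) : ℝ := by
  classical
  exact if IsPrim a then ‖Fs SB β a‖ ^ 2 else 0

lemma qf_nonneg (SB : Finset Eis) (β : Eis → ℂ) (a : Eis) : 0 ≤ qf SB β a := by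
  unfold qf
  split_ifs <;> positivity

lemma qf_eq {SB : Finset Eis} {β : Eis → ℂ} {a : Eis} (ha : IsPrim a) :
    qf SB β a = ‖Fs SB β a‖ ^ 2 := by
  unfold qf
  rw [if_pos ha]

lemma norm_Fs_le {SB : Finset Eis} {β : Eis → ℂ} (hSB : ∀ b ∈ SB, IsPrim b)
    (hβ : ∀ b ∈ SB, ‖β b‖ ≤ 1) (a : Eis) : ‖Fs SB β a‖ ≤ SB.card := by
  unfold Fs
  refine (norm_sum_le _ _).trans ?_
  calc ∑ b ∈ SB, ‖β b * (G b * (starRingEnd ℂ) (sy a b))‖ ≤ ∑ _b ∈ SB, (1 : ℝ) := by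
        refine sum_le_sum fun b hb => ?_
        rw [norm_mul, norm_mul, RCLike.norm_conj]
        have h1 := Gauss880.norm_G_le syG (hSB b hb)
        have h2 := Tau671.norm_sy_le (x := a) (hSB b hb)
        exact mul_le_one₀ (hβ b hb) (by positivity) (mul_le_one₀ h1 (norm_nonneg _) h2)
    _ = SB.card := by simp

lemma PS_eq (SB : Finset Eis) (β : Eis → ℂ) (s : ℂ) :
    FejGauss968.PS (qf SB β) s = T8.PS s SB β := by
  unfold FejGauss968.PS T8.PS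
  refine tsum_congr fun a => ?_
  rw [T8.cg_toC]
  congr 1
  by_cases ha : IsPrim a
  · rw [if_pos ha, qf_eq ha]
    have : ∀ z : ℂ, ((‖z‖ ^ 2 : ℝ) : ℂ) = z * (starRingEnd ℂ) z := by
      intro z
      rw [Complex.mul_conj, Complex.normSq_eq_norm_sq]
    rw [this]
    rfl
  · rw [if_neg ha]
    unfold qf
    rw [if_neg ha]
    simp

lemma summable_qf {SB : Finset Eis} {β : Eis → ℂ} (hSB : ∀ b ∈ SB, IsPrim b)
    (hβ : ∀ b ∈ SB, ‖β b‖ ≤ 1) {A : ℝ} (hA : 0 < A) :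
    Summable fun a : Eis => qf SB β a * Real.exp (-((nm a : ℝ) / A)) := by
  have h1 : (0:ℝ) < (1 / (A : ℂ)).re := by
    rw [← Complex.ofReal_one, ← Complex.ofReal_div, Complex.ofReal_re]; positivity
  have h := (T8.summable_cg h1).norm
  have h2 : Summable fun a : Eis => (SB.card : ℝ) ^ 2 * Real.exp (-((nm a : ℝ) / A)) := by
    refine (h.mul_left ((SB.card : ℝ) ^ 2)).congr fun a => ?_
    congr 1
    rw [Complex.norm_exp]
    congr 1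
    have : (-(1 / (A : ℂ)) * (nm a : ℂ)) = ((-((nm a : ℝ) / A) : ℝ) : ℂ) := by
      push_cast; ring
    rw [this, Complex.ofReal_re]
  refine Summable.of_nonneg_of_le (fun a => mul_nonneg (qf_nonneg _ _ _) (Real.exp_pos _).le)
    (fun a => ?_) h2
  apply mul_le_mul_of_nonneg_right _ (Real.exp_pos _).le
  unfold qf
  split_ifs
  · exact pow_le_pow_left₀ (norm_nonneg _) (norm_Fs_le hSB hβ a) 2
  · positivity

/-- bound of the smoothed moment at `(1 - i n)/A`. -/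
lemma PS_bound {C Cs c : ℝ} (hC : 0 < C) (hL : T8.LSH C) (hSig : SigCell Cs c)
    {A B κ : ℝ} (hA : 2 ≤ A) (hB : 2 ≤ B) (hκ0 : 0 ≤ κ) (hκ1 : κ ≤ 1) {SB : Finset Eis}
    {β : Eis → ℂ}
    (hSB : ∀ b ∈ SB, IsPrim b ∧ Squarefree b ∧ B ≤ nm b ∧ (nm b : ℝ) ≤ B * (1 + κ))
    (hβ : ∀ b, ‖β b‖ ≤ 1) (n : ℤ) :
    ‖T8.PS (sp A n) SB β‖ ≤ A / Real.sqrt (1 + (n.natAbs : ℝ) ^ 2) * (SB.card +
      4 * 24 ^ 6 * C * (1 + (n.natAbs : ℝ) ^ 2) ^ 2 * (Cs * (1 + Real.log (A * B)) ^ c *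
        (1 + (n.natAbs : ℝ) ^ 2) ^ 3 * Mb A B κ)) := by
  classical
  have hA0 : 0 < A := by linarith
  set D : Finset Eis := SB.biUnion pdiv with hD
  have hDp : ∀ d ∈ D, IsPrim d := by
    intro d hd
    rw [hD, mem_biUnion] at hd
    obtain ⟨b, hb, hd⟩ := hd
    exact ((mem_pdiv (hSB b hb).1.ne_zero).mp hd).1
  have hDS : ∀ b ∈ SB, ∀ d : Eis, IsPrim d → d ∣ b → d ∈ D := by
    intro b hb d hd hdb
    rw [hD, mem_biUnion]
    exact ⟨b, hb, (mem_pdiv (hSB b hb).1.ne_zero).mpr ⟨hd, hdb⟩⟩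
  have hB0 : 0 < B := by linarith
  have hm := T8.master hC hL (τ := (n : ℝ)) hA0 hB0 (S := SB) (D := D)
    (fun b hb => ⟨(hSB b hb).1, (hSB b hb).2.1, (hSB b hb).2.2.1, by
      have := (hSB b hb).2.2.2
      nlinarith⟩) hDp hDS β
  have hn : (n : ℝ) ^ 2 = (n.natAbs : ℝ) ^ 2 := by
    have : ((n.natAbs : ℤ) : ℝ) ^ 2 = (n : ℝ) ^ 2 := by
      have h := Int.natAbs_sq n
      exact_mod_cast h
    rw [← this, Int.cast_natCast]
  have hsp : ((1 - ((n : ℝ) : ℂ) * I) / (A : ℂ)) = sp A n := by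
    unfold FejGauss968.sp
    push_cast
    rfl
  rw [hsp, hn] at hm
  refine hm.trans ?_
  have hs := hSig A B κ (n : ℝ) SB β hA hB hκ0 hκ1 hSB hβ
  rw [hn] at hs
  have h1 : ∑ b ∈ SB, ‖β b‖ ^ 2 ≤ SB.card := by
    calc ∑ b ∈ SB, ‖β b‖ ^ 2 ≤ ∑ _b ∈ SB, (1 : ℝ) :=
          sum_le_sum fun b hb => pow_le_one₀ (norm_nonneg _) (hβ b)
      _ = SB.card := by simp
  gcongr

/-- **Second moment over the cell.** -/
theorem S_bound {C Cs c : ℝ} (hC : 0 < C) (hL : T8.LSH C) (hCs : 0 < Cs) (hSig : SigCell Cs c)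
    {A B κ : ℝ} (hA : 2 ≤ A) (hB : 2 ≤ B) (hκ0 : 0 ≤ κ) (hκ1 : κ ≤ 1) {J : ℕ} (hJ1 : 1 ≤ J)
    (hJ : κ * J ≤ 1) {SA SB : Finset Eis} {β : Eis → ℂ}
    (hSA : ∀ a ∈ SA, IsPrim a ∧ A ≤ nm a ∧ (nm a : ℝ) ≤ A * (1 + κ))
    (hSB : ∀ b ∈ SB, IsPrim b ∧ Squarefree b ∧ B ≤ nm b ∧ (nm b : ℝ) ≤ B * (1 + κ))
    (hβ : ∀ b, ‖β b‖ ≤ 1) :
    ∑ a ∈ SA, ‖Fs SB β a‖ ^ 2 ≤ 8 * Real.exp 2 * ((2 + Real.log J) / J * A * SB.card +
      A * J ^ 9 * (4 * 24 ^ 6 * C * (Cs * (1 + Real.log (A * B)) ^ c * Mb A B κ))) := by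
  classical
  have hA0 : 0 < A := by linarith
  have hM := Mb_nonneg (A := A) (B := B) (κ := κ) hA0 (by linarith) hκ0
  have hlog : 0 ≤ Real.log (A * B) := Real.log_nonneg (by nlinarith)
  have hLc : 0 ≤ (1 + Real.log (A * B)) ^ c := by positivity
  have hJ0 : (0 : ℝ) < J := by exact_mod_cast hJ1
  have hJ1' : (1 : ℝ) ≤ J := by exact_mod_cast hJ1
  have hSBp : ∀ b ∈ SB, IsPrim b := fun b hb => (hSB b hb).1
  have h1 := sum_le_PS hA0 hκ1 hJ1 hJ (qf_nonneg SB β) (summable_qf hSBp (fun b _ => hβ b) hA0) SA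
    (fun a ha => ⟨(hSA a ha).2.1, (hSA a ha).2.2⟩)
  have h2 : ∑ a ∈ SA, ‖Fs SB β a‖ ^ 2 = ∑ a ∈ SA, qf SB β a :=
    sum_congr rfl fun a ha => (qf_eq (hSA a ha).1).symm
  rw [h2]
  refine h1.trans ?_
  set f : ℕ → ℝ := fun m => A / Real.sqrt (1 + (m : ℝ) ^ 2) * (SB.card +
      4 * 24 ^ 6 * C * (1 + (m : ℝ) ^ 2) ^ 2 * (Cs * (1 + Real.log (A * B)) ^ c *
        (1 + (m : ℝ) ^ 2) ^ 3 * Mb A B κ)) with hf
  have hf0 : ∀ m, 0 ≤ f m := by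
    intro m
    simp only [hf]
    positivity
  have h3 : ∑ j ∈ range J, ∑ k ∈ range J, ‖FejGauss968.PS (qf SB β) (sp A ((j : ℤ) - k))‖ ≤
      ∑ j ∈ range J, ∑ k ∈ range J, f ((j : ℤ) - k).natAbs := by
    refine sum_le_sum fun j _ => sum_le_sum fun k _ => ?_
    rw [PS_eq]
    exact PS_bound hC hL hSig hA hB hκ0 hκ1 hSB hβ _
  have h4 := sum_diff_le hf0 J
  have h5 : ∑ m ∈ range J, f m ≤ A * SB.card * (2 + Real.log J) +
      J * (A * J ^ 9 * (4 * 24 ^ 6 * C * (Cs * (1 + Real.log (A * B)) ^ c * Mb A B κ))) := by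
    have e1 : ∀ m ∈ range J, f m ≤ A * SB.card * (1 / Real.sqrt (1 + (m : ℝ) ^ 2)) +
        A * J ^ 9 * (4 * 24 ^ 6 * C * (Cs * (1 + Real.log (A * B)) ^ c * Mb A B κ)) := by
      intro m hm
      have hmJ : (m : ℝ) + 1 ≤ J := by exact_mod_cast mem_range.mp hm
      have hm0 : (0 : ℝ) ≤ m := Nat.cast_nonneg m
      have hT : 1 + (m : ℝ) ^ 2 ≤ (J : ℝ) ^ 2 := by nlinarith
      have hT1 : 1 ≤ 1 + (m : ℝ) ^ 2 := by nlinarith [sq_nonneg (m : ℝ)]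
      have hsq1 : 1 ≤ Real.sqrt (1 + (m : ℝ) ^ 2) := Real.one_le_sqrt.mpr hT1
      have hsq2 : Real.sqrt (1 + (m : ℝ) ^ 2) ≤ J := by
        rw [Real.sqrt_le_left hJ0.le]; exact hT
      have hss : Real.sqrt (1 + (m : ℝ) ^ 2) * Real.sqrt (1 + (m : ℝ) ^ 2) = 1 + (m : ℝ) ^ 2 :=
        Real.mul_self_sqrt (by positivity)
      set r := Real.sqrt (1 + (m : ℝ) ^ 2) with hr
      have hr0 : 0 < r := by linarith
      have e2 : A / r * (1 + (m : ℝ) ^ 2) ^ 5 ≤ A * J ^ 9 := by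
        have : A / r * (1 + (m : ℝ) ^ 2) ^ 5 = A * r ^ 9 := by
          rw [← hss]; field_simp
        rw [this]
        gcongr
      calc f m = A * SB.card * (1 / r) + (A / r * (1 + (m : ℝ) ^ 2) ^ 5) *
            (4 * 24 ^ 6 * C * (Cs * (1 + Real.log (A * B)) ^ c * Mb A B κ)) := by
            simp only [hf]; ring
        _ ≤ A * SB.card * (1 / r) + (A * J ^ 9) *
            (4 * 24 ^ 6 * C * (Cs * (1 + Real.log (A * B)) ^ c * Mb A B κ)) := by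
            gcongr
    refine (sum_le_sum e1).trans ?_
    rw [sum_add_distrib, ← mul_sum, sum_const, card_range, nsmul_eq_mul]
    have := sum_inv_sqrt_le J
    gcongr
  have hE : 0 < Real.exp 2 := Real.exp_pos 2
  calc 4 * Real.exp 2 / (J : ℝ) ^ 2 * ∑ j ∈ range J, ∑ k ∈ range J,
        ‖FejGauss968.PS (qf SB β) (sp A ((j : ℤ) - k))‖
      ≤ 4 * Real.exp 2 / (J : ℝ) ^ 2 * (2 * J * (A * SB.card * (2 + Real.log J) +
      J * (A * J ^ 9 * (4 * 24 ^ 6 * C * (Cs * (1 + Real.log (A * B)) ^ c * Mb A B κ))))) := by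
        apply mul_le_mul_of_nonneg_left _ (by positivity)
        refine h3.trans (h4.trans ?_)
        exact mul_le_mul_of_nonneg_left h5 (by positivity)
    _ = _ := by
        field_simp
        ring

end Crest.Agent.R012.T8b968
end
end

-- ▼ part R012/T8Sig_671

/-!
# Row 12 (T8b): the sum `Sig` for a short cell `B ≤ N(b) ≤ B(1+κ)`
-/

set_option autoImplicit false

noncomputable section

open Finset Complex

namespace Crest.Agent.R012.T8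

open Eis Tau671
open Mob705 (mu pdiv mem_pdiv)
open Div277 (dvs tau nz mem_nz)

/-! ### elementary inequalities -/

lemma rpow_third_cube {x : ℝ} (hx : 0 ≤ x) : (x ^ 3) ^ ((1 : ℝ) / 3) = x := by
  rw [← Real.rpow_natCast, ← Real.rpow_mul hx]; norm_num

/-- `N^(2/3) ν^(1/3) ≤ 9 y r^(1/3)` -/
lemma NnuBound {N ν y r : ℝ} (hN0 : 0 ≤ N) (hν0 : 0 ≤ ν) (hy : 0 ≤ y) (hr : 0 ≤ r)
    (hN : N ≤ 2 * y) (hν : ν ≤ 178 * (y * r)) :
    N ^ ((2 : ℝ) / 3) * ν ^ ((1 : ℝ) / 3) ≤ 9 * y * r ^ ((1 : ℝ) / 3) := by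
  have e1 : N ^ ((2 : ℝ) / 3) = (N ^ 2) ^ ((1 : ℝ) / 3) := by
    rw [← Real.rpow_natCast, ← Real.rpow_mul hN0]; norm_num
  rw [e1, ← Real.mul_rpow (by positivity) hν0]
  have e2 : 9 * y * r ^ ((1 : ℝ) / 3) = ((9 * y) ^ 3 * r) ^ ((1 : ℝ) / 3) := by
    rw [Real.mul_rpow (by positivity) hr, rpow_third_cube (by positivity)]
  rw [e2]
  apply Real.rpow_le_rpow (by positivity) _ (by norm_num)
  calc N ^ 2 * ν ≤ (2 * y) ^ 2 * (178 * (y * r)) := by gcongr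
    _ ≤ (9 * y) ^ 3 * r := by
      have : 0 ≤ y ^ 3 * r := by positivity
      nlinarith

/-- `(κ + y^(-1/2))^(4/3) ≤ 3 (κ^(4/3) + y^(-2/3))` -/
lemma r43 {κ y : ℝ} (hκ : 0 ≤ κ) (hy : 0 < y) :
    (κ + y ^ (-(1 : ℝ) / 2)) ^ ((4 : ℝ) / 3) ≤ 3 * (κ ^ ((4 : ℝ) / 3) + y ^ (-(2 : ℝ) / 3)) := by
  set t := y ^ (-(1 : ℝ) / 2) with ht
  have ht0 : 0 ≤ t := by positivity
  have e1 : y ^ (-(2 : ℝ) / 3) = t ^ ((4 : ℝ) / 3) := by
    rw [ht, ← Real.rpow_mul hy.le]; norm_num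
  rw [e1]
  have h2 : (2 : ℝ) ^ ((4 : ℝ) / 3) ≤ 3 := by
    have e2 : (3 : ℝ) = (3 ^ 3) ^ ((1 : ℝ) / 3) := (rpow_third_cube (by norm_num)).symm
    have e3 : (2 : ℝ) ^ ((4 : ℝ) / 3) = (2 ^ 4) ^ ((1 : ℝ) / 3) := by
      rw [← Real.rpow_natCast, ← Real.rpow_mul (by norm_num)]; norm_num
    rw [e3]
    nth_rw 2 [e2]
    apply Real.rpow_le_rpow (by norm_num) (by norm_num) (by norm_num)
  have hmax : κ + t ≤ 2 * max κ t := by
    have := le_max_left κ t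
    have := le_max_right κ t
    linarith
  calc (κ + t) ^ ((4 : ℝ) / 3) ≤ (2 * max κ t) ^ ((4 : ℝ) / 3) := by
        apply Real.rpow_le_rpow (by positivity) hmax (by norm_num)
    _ = 2 ^ ((4 : ℝ) / 3) * (max κ t) ^ ((4 : ℝ) / 3) :=
        Real.mul_rpow (by norm_num) (le_max_of_le_left hκ)
    _ ≤ 3 * (κ ^ ((4 : ℝ) / 3) + t ^ ((4 : ℝ) / 3)) := by
        have h3 : (max κ t) ^ ((4 : ℝ) / 3) ≤ κ ^ ((4 : ℝ) / 3) + t ^ ((4 : ℝ) / 3) := by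
          have a1 : 0 ≤ κ ^ ((4 : ℝ) / 3) := by positivity
          have a2 : 0 ≤ t ^ ((4 : ℝ) / 3) := by positivity
          rcases max_cases κ t with ⟨h, _⟩ | ⟨h, _⟩
          · rw [h]; linarith
          · rw [h]; linarith
        gcongr

/-- the main real inequality; `a = N(d)`, `b = a u = N(e)`, `g = N(g)`, `P = (1+τ²)B²/A` -/
lemma term_real {B κ P a u g : ℝ} (hB : 2 ≤ B) (hκ : 0 ≤ κ) (hκ1 : κ ≤ 1)
    (hP : 0 ≤ P) (ha : 1 ≤ a) (hu : 1 ≤ u) (hg : 1 ≤ g) (hy : 1 / 2 ≤ B / (a * u * g))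
    {K : ℝ} (hK0 : 0 ≤ K) (hK : K ≤ P / (a * u ^ 2)) :
    a⁻¹ * g⁻¹ * ((K ^ ((1 : ℝ) / 3) * (9 * (B / (a * u * g)) *
        (κ + (B / (a * u * g)) ^ (-(1 : ℝ) / 2)) ^ ((1 : ℝ) / 3)) + K + K ^ 2) *
        (176 * (κ + (B / (a * u * g)) ^ (-(1 : ℝ) / 2)))) ≤
      4752 * (P ^ ((1 : ℝ) / 3) * (κ ^ ((4 : ℝ) / 3) * B + B ^ ((1 : ℝ) / 3)) *
        (a ^ (-(4 : ℝ) / 3) * u⁻¹ * g ^ (-(4 : ℝ) / 3)) +
        (P + P ^ 2) * (a ^ (-(4 : ℝ) / 3) * u ^ (-(4 : ℝ) / 3) * g⁻¹)) := by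
  have hB0 : 0 < B := by linarith
  have ha0 : 0 < a := by linarith
  have hu0 : 0 < u := by linarith
  have hg0 : 0 < g := by linarith
  set y := B / (a * u * g) with hydef
  have hy0 : 0 < y := by positivity
  set r := κ + y ^ (-(1 : ℝ) / 2) with hr
  have hr0 : 0 ≤ r := by positivity
  have hr3 : r ≤ 3 := by
    have : y ^ (-(1 : ℝ) / 2) ≤ (1 / 2 : ℝ) ^ (-(1 : ℝ) / 2) :=
      Real.rpow_le_rpow_of_nonpos (by norm_num) hy (by norm_num)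
    have h2 : (1 / 2 : ℝ) ^ (-(1 : ℝ) / 2) ≤ 2 := by
      have : (1 / 2 : ℝ) ^ (-(1 : ℝ) / 2) = (2 : ℝ) ^ ((1 : ℝ) / 2) := by
        rw [one_div, Real.inv_rpow (by norm_num), ← Real.rpow_neg (by norm_num)]; norm_num
      rw [this]
      calc (2 : ℝ) ^ ((1 : ℝ) / 2) ≤ 2 ^ (1 : ℝ) :=
            Real.rpow_le_rpow_of_exponent_le (by norm_num) (by norm_num)
        _ = 2 := Real.rpow_one 2
    linarith
  -- cube roots
  obtain ⟨α, hα1, hα⟩ : ∃ α : ℝ, 1 ≤ α ∧ α ^ 3 = a := by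
    refine ⟨a ^ ((1 : ℝ) / 3), Real.one_le_rpow ha (by norm_num), ?_⟩
    rw [← Real.rpow_natCast, ← Real.rpow_mul ha0.le]; norm_num
  obtain ⟨μ, hμ1, hμ⟩ : ∃ μ : ℝ, 1 ≤ μ ∧ μ ^ 3 = u := by
    refine ⟨u ^ ((1 : ℝ) / 3), Real.one_le_rpow hu (by norm_num), ?_⟩
    rw [← Real.rpow_natCast, ← Real.rpow_mul hu0.le]; norm_num
  obtain ⟨γ, hγ1, hγ⟩ : ∃ γ : ℝ, 1 ≤ γ ∧ γ ^ 3 = g := by
    refine ⟨g ^ ((1 : ℝ) / 3), Real.one_le_rpow hg (by norm_num), ?_⟩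
    rw [← Real.rpow_natCast, ← Real.rpow_mul hg0.le]; norm_num
  have hα0 : 0 < α := by linarith
  have hμ0 : 0 < μ := by linarith
  have hγ0 : 0 < γ := by linarith
  have h43 : ∀ x t : ℝ, 0 < t → t ^ 3 = x → x ^ (-(4 : ℝ) / 3) = (t⁻¹) ^ 4 := by
    intro x t ht hx
    rw [← hx, ← Real.rpow_natCast, ← Real.rpow_mul ht.le, inv_pow, ← Real.rpow_natCast,
      ← Real.rpow_neg ht.le]
    norm_num
  rw [h43 a α hα0 hα, h43 u μ hμ0 hμ, h43 g γ hγ0 hγ]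
  set p := P ^ ((1 : ℝ) / 3) with hp
  have hp0 : 0 ≤ p := by positivity
  set β := B ^ ((1 : ℝ) / 3) with hβ
  have hβ0 : 0 < β := by positivity
  have hβ3 : β ^ 3 = B := by
    rw [hβ, ← Real.rpow_natCast, ← Real.rpow_mul hB0.le]; norm_num
  set k4 := κ ^ ((4 : ℝ) / 3) with hk4
  have hk40 : 0 ≤ k4 := by positivity
  have iα : α⁻¹ ≤ 1 := inv_le_one_of_one_le₀ hα1
  have iμ : μ⁻¹ ≤ 1 := inv_le_one_of_one_le₀ hμ1
  have iγ : γ⁻¹ ≤ 1 := inv_le_one_of_one_le₀ hγ1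
  have jα : 0 < α⁻¹ := by positivity
  have jμ : 0 < μ⁻¹ := by positivity
  have jγ : 0 < γ⁻¹ := by positivity
  -- `K^(1/3)`
  have hK3 : K ^ ((1 : ℝ) / 3) ≤ p * (α⁻¹ * (μ⁻¹) ^ 2) := by
    have e1 : p * (α⁻¹ * (μ⁻¹) ^ 2) = (P * (α⁻¹ * (μ⁻¹) ^ 2) ^ 3) ^ ((1 : ℝ) / 3) := by
      rw [Real.mul_rpow hP (by positivity), rpow_third_cube (by positivity)]
    rw [e1]
    apply Real.rpow_le_rpow hK0 _ (by norm_num)
    refine hK.trans (le_of_eq ?_)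
    rw [← hα, ← hμ]
    field_simp
  have hy1 : y = β ^ 3 * ((α⁻¹) ^ 3 * (μ⁻¹) ^ 3 * (γ⁻¹) ^ 3) := by
    rw [hydef, ← hα, ← hμ, ← hγ, hβ3]; field_simp
  have hy13 : y * y ^ (-(2 : ℝ) / 3) = β * (α⁻¹ * μ⁻¹ * γ⁻¹) := by
    have e1 : y * y ^ (-(2 : ℝ) / 3) = y ^ ((1 : ℝ) / 3) := by
      have : (1 : ℝ) / 3 = 1 + -(2 : ℝ) / 3 := by norm_num
      rw [this, Real.rpow_add hy0, Real.rpow_one]
    rw [e1]
    have e2 : y = (β * (α⁻¹ * μ⁻¹ * γ⁻¹)) ^ 3 := by rw [hy1]; ring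
    rw [e2, rpow_third_cube (by positivity)]
  have hr43 := r43 hκ hy0
  rw [← hr, ← hk4] at hr43
  have hrr : r ^ ((1 : ℝ) / 3) * r = r ^ ((4 : ℝ) / 3) := by
    rcases eq_or_lt_of_le hr0 with h | h
    · rw [← h, Real.zero_rpow (by norm_num), Real.zero_rpow (by norm_num), zero_mul]
    · have : (4 : ℝ) / 3 = 1 / 3 + 1 := by norm_num
      rw [this, Real.rpow_add h, Real.rpow_one]
  -- first part
  have p1 : a⁻¹ * g⁻¹ * (K ^ ((1 : ℝ) / 3) * (9 * y * r ^ ((1 : ℝ) / 3)) * (176 * r)) ≤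
      4752 * (p * (k4 * B + β) * ((α⁻¹) ^ 4 * u⁻¹ * (γ⁻¹) ^ 4)) := by
    calc a⁻¹ * g⁻¹ * (K ^ ((1 : ℝ) / 3) * (9 * y * r ^ ((1 : ℝ) / 3)) * (176 * r))
        = 1584 * (a⁻¹ * g⁻¹) * K ^ ((1 : ℝ) / 3) * y * (r ^ ((1 : ℝ) / 3) * r) := by ring
      _ ≤ 1584 * (a⁻¹ * g⁻¹) * (p * (α⁻¹ * (μ⁻¹) ^ 2)) * y *
            (3 * (k4 + y ^ (-(2 : ℝ) / 3))) := by
          rw [hrr]; gcongr
      _ = 4752 * (a⁻¹ * g⁻¹) * (p * (α⁻¹ * (μ⁻¹) ^ 2)) *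
            (k4 * y + y * y ^ (-(2 : ℝ) / 3)) := by ring
      _ = 4752 * ((α⁻¹) ^ 3 * (γ⁻¹) ^ 3) * (p * (α⁻¹ * (μ⁻¹) ^ 2)) *
            (k4 * (β ^ 3 * ((α⁻¹) ^ 3 * (μ⁻¹) ^ 3 * (γ⁻¹) ^ 3)) + β * (α⁻¹ * μ⁻¹ * γ⁻¹)) := by
          rw [hy13, hy1, ← hα, ← hγ]; simp only [inv_pow]
      _ = 4752 * (p * ((α⁻¹) ^ 4 * (μ⁻¹) ^ 3 * (γ⁻¹) ^ 4) *
            (k4 * β ^ 3 * ((α⁻¹) ^ 3 * (μ⁻¹) ^ 2 * (γ⁻¹) ^ 2) + β * α⁻¹)) := by ring
      _ ≤ 4752 * (p * ((α⁻¹) ^ 4 * (μ⁻¹) ^ 3 * (γ⁻¹) ^ 4) *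
            (k4 * β ^ 3 * 1 + β * 1)) := by
          have h1 : (α⁻¹) ^ 3 * (μ⁻¹) ^ 2 * (γ⁻¹) ^ 2 ≤ 1 := by
            have a1 : (α⁻¹) ^ 3 ≤ 1 := pow_le_one₀ jα.le iα
            have a2 : (μ⁻¹) ^ 2 ≤ 1 := pow_le_one₀ jμ.le iμ
            have a3 : (γ⁻¹) ^ 2 ≤ 1 := pow_le_one₀ jγ.le iγ
            calc (α⁻¹) ^ 3 * (μ⁻¹) ^ 2 * (γ⁻¹) ^ 2 ≤ 1 * 1 * 1 := by gcongr
              _ = 1 := by norm_num
          gcongr
      _ = _ := by rw [hβ3, ← hμ, ← inv_pow]; ring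
  -- second part
  have hKle : K ≤ P * ((α⁻¹) ^ 3 * (μ⁻¹) ^ 6) := by
    refine hK.trans (le_of_eq ?_)
    rw [← hα, ← hμ]; field_simp
  have p2 : a⁻¹ * g⁻¹ * (K * (176 * r)) ≤ 528 * (P * ((α⁻¹) ^ 4 * (μ⁻¹) ^ 4 * g⁻¹)) := by
    calc a⁻¹ * g⁻¹ * (K * (176 * r)) ≤
          a⁻¹ * g⁻¹ * (P * ((α⁻¹) ^ 3 * (μ⁻¹) ^ 6) * (176 * 3)) := by gcongr
      _ = 528 * (P * ((α⁻¹) ^ 4 * (μ⁻¹) ^ 4 * g⁻¹ * ((α⁻¹) ^ 2 * (μ⁻¹) ^ 2))) := by
          rw [← hα, ← inv_pow]; ring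
      _ ≤ 528 * (P * ((α⁻¹) ^ 4 * (μ⁻¹) ^ 4 * g⁻¹ * 1)) := by
          have h1 : (α⁻¹) ^ 2 * (μ⁻¹) ^ 2 ≤ 1 := by
            have a1 : (α⁻¹) ^ 2 ≤ 1 := pow_le_one₀ jα.le iα
            have a2 : (μ⁻¹) ^ 2 ≤ 1 := pow_le_one₀ jμ.le iμ
            calc (α⁻¹) ^ 2 * (μ⁻¹) ^ 2 ≤ 1 * 1 := by gcongr
              _ = 1 := by norm_num
          gcongr
      _ = _ := by ring
  have p3 : a⁻¹ * g⁻¹ * (K ^ 2 * (176 * r)) ≤ 528 * (P ^ 2 * ((α⁻¹) ^ 4 * (μ⁻¹) ^ 4 * g⁻¹)) := by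
    calc a⁻¹ * g⁻¹ * (K ^ 2 * (176 * r)) ≤
          a⁻¹ * g⁻¹ * ((P * ((α⁻¹) ^ 3 * (μ⁻¹) ^ 6)) ^ 2 * (176 * 3)) := by gcongr
      _ = 528 * (P ^ 2 * ((α⁻¹) ^ 4 * (μ⁻¹) ^ 4 * g⁻¹ * ((α⁻¹) ^ 5 * (μ⁻¹) ^ 8))) := by
          rw [← hα, ← inv_pow]; ring
      _ ≤ 528 * (P ^ 2 * ((α⁻¹) ^ 4 * (μ⁻¹) ^ 4 * g⁻¹ * 1)) := by
          have h1 : (α⁻¹) ^ 5 * (μ⁻¹) ^ 8 ≤ 1 := by
            have a1 : (α⁻¹) ^ 5 ≤ 1 := pow_le_one₀ jα.le iα
            have a2 : (μ⁻¹) ^ 8 ≤ 1 := pow_le_one₀ jμ.le iμ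
            calc (α⁻¹) ^ 5 * (μ⁻¹) ^ 8 ≤ 1 * 1 := by gcongr
              _ = 1 := by norm_num
          gcongr
      _ = _ := by ring
  have q1 : 0 ≤ P * ((α⁻¹) ^ 4 * (μ⁻¹) ^ 4 * g⁻¹) := by positivity
  have q2 : 0 ≤ P ^ 2 * ((α⁻¹) ^ 4 * (μ⁻¹) ^ 4 * g⁻¹) := by positivity
  calc a⁻¹ * g⁻¹ * ((K ^ ((1 : ℝ) / 3) * (9 * y * r ^ ((1 : ℝ) / 3)) + K + K ^ 2) * (176 * r))
      = a⁻¹ * g⁻¹ * (K ^ ((1 : ℝ) / 3) * (9 * y * r ^ ((1 : ℝ) / 3)) * (176 * r)) +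
        a⁻¹ * g⁻¹ * (K * (176 * r)) + a⁻¹ * g⁻¹ * (K ^ 2 * (176 * r)) := by ring
    _ ≤ 4752 * (p * (k4 * B + β) * ((α⁻¹) ^ 4 * u⁻¹ * (γ⁻¹) ^ 4)) +
        528 * (P * ((α⁻¹) ^ 4 * (μ⁻¹) ^ 4 * g⁻¹)) +
        528 * (P ^ 2 * ((α⁻¹) ^ 4 * (μ⁻¹) ^ 4 * g⁻¹)) := add_le_add (add_le_add p1 p2) p3
    _ ≤ _ := by nlinarith

/-! ### The sum `Sig` -/

/-- `P = (1+τ²) B² / A` -/
def PP (A B τ : ℝ) : ℝ := (1 + τ ^ 2) * B ^ 2 / A

lemma Keff_le {A B τ : ℝ} (hA : 0 < A) {e d : Eis} {u : ℝ} (hd : IsPrim d)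
    (hu : 0 < u) (heu : (nm e : ℝ) = nm d * u) :
    Keff A B τ e d ≤ PP A B τ / (nm d * u ^ 2) := by
  have nd : (0 : ℝ) < nm d := by exact_mod_cast nm_pos.mpr hd.ne_zero
  unfold Keff PP
  have h1 : 27 / (4 * Real.pi ^ 2) ≤ 1 := by
    rw [div_le_one (by positivity)]
    nlinarith [Real.pi_gt_three]
  rw [heu]
  have e1 : 27 * (1 + τ ^ 2) * nm d * B ^ 2 / (4 * Real.pi ^ 2 * A * (nm d * u) ^ 2) =
      27 / (4 * Real.pi ^ 2) * ((1 + τ ^ 2) * B ^ 2 / A / (nm d * u ^ 2)) := by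
    field_simp
  rw [e1]
  exact mul_le_of_le_one_left (by positivity) h1

lemma Keff_nonneg {A B τ : ℝ} (hA : 0 < A) (e d : Eis) : 0 ≤ Keff A B τ e d := by
  unfold Keff; positivity

/-- the bound for the card of `Kg` -/
lemma card_real {κ y c : ℝ} (hκ : 0 ≤ κ) (hκ1 : κ ≤ 1) (hy : 1 / 2 ≤ y)
    (hc : c ≤ 4 * (y * (1 + κ) - y) + 60 * (Real.sqrt (y * (1 + κ)) + 1) + 4) :
    c ≤ 176 * (y * (κ + y ^ (-(1 : ℝ) / 2))) ∧ 1 + c ≤ 178 * (y * (κ + y ^ (-(1 : ℝ) / 2))) := by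
  have hy0 : 0 < y := by linarith
  set t := Real.sqrt y with ht
  have ht0 : 0 < t := Real.sqrt_pos.mpr hy0
  have htt : t * t = y := Real.mul_self_sqrt hy0.le
  have e1 : y * y ^ (-(1 : ℝ) / 2) = t := by
    rw [ht, Real.sqrt_eq_rpow]
    have : (1 : ℝ) / 2 = 1 + -(1 : ℝ) / 2 := by norm_num
    rw [this, Real.rpow_add hy0, Real.rpow_one]
  have e2 : y * (κ + y ^ (-(1 : ℝ) / 2)) = κ * y + t := by rw [mul_add, e1]; ring
  rw [e2]
  have h2 : Real.sqrt 2 ≤ 1.4143 := by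
    rw [Real.sqrt_le_left (by norm_num)]; norm_num
  have h20 : 0 < Real.sqrt 2 := Real.sqrt_pos.mpr (by norm_num)
  have h22 : Real.sqrt 2 * Real.sqrt 2 = 2 := Real.mul_self_sqrt (by norm_num)
  have h3 : Real.sqrt (y * (1 + κ)) ≤ t * Real.sqrt 2 := by
    rw [Real.sqrt_mul hy0.le]
    gcongr
    linarith
  have h4 : 1 ≤ Real.sqrt 2 * t := by
    rw [ht, ← Real.sqrt_mul (by norm_num)]
    rw [Real.one_le_sqrt]; linarith
  have h5 : 1 ≤ 1.4143 * t := h4.trans (by gcongr)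
  have h6 : Real.sqrt (y * (1 + κ)) ≤ t * 1.4143 := h3.trans (by gcongr)
  have h7 : 0 ≤ κ * y := by positivity
  constructor
  · nlinarith
  · nlinarith

/-- the bound for a single triple. -/
lemma term_cell {A B κ τ : ℝ} {S D : Finset Eis} {β : Eis → ℂ} (hA : 0 < A) (hB : 2 ≤ B)
    (hκ : 0 ≤ κ) (hκ1 : κ ≤ 1)
    (hS : ∀ b ∈ S, IsPrim b ∧ Squarefree b ∧ B ≤ nm b ∧ (nm b : ℝ) ≤ B * (1 + κ))
    (hβ : ∀ b ∈ S, ‖β b‖ ≤ 1) (hD : ∀ d ∈ D, IsPrim d) {e d g : Eis} (he : IsPrim e)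
    (hg : IsPrim g) (hd : d ∈ pdiv e) (hne : (Kg S D e g).Nonempty) :
    (nm e : ℝ) ≤ 2 * B ∧ (nm g : ℝ) ≤ 2 * B ∧
    (nm d : ℝ)⁻¹ * (nm g : ℝ)⁻¹ *
    (Phi (Keff A B τ e d) (max 1 (B / (nm e * nm g))) (1 + (Kg S D e g).card) *
      ∑ m ∈ Kg S D e g, ‖β (e * (g * m))‖ ^ 2 / nm m) ≤
    (1 + Real.log (1 + PP A B τ)) * (4752 *
      (PP A B τ ^ ((1 : ℝ) / 3) * (κ ^ ((4 : ℝ) / 3) * B + B ^ ((1 : ℝ) / 3)) *
        ((nm d : ℝ) ^ (-(4 : ℝ) / 3) * ((nm e : ℝ) / nm d)⁻¹ * (nm g : ℝ) ^ (-(4 : ℝ) / 3)) +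
        (PP A B τ + PP A B τ ^ 2) *
        ((nm d : ℝ) ^ (-(4 : ℝ) / 3) * ((nm e : ℝ) / nm d) ^ (-(4 : ℝ) / 3) * (nm g : ℝ)⁻¹))) := by
  have hB0 : 0 < B := by linarith
  obtain ⟨hdp, hde⟩ := (mem_pdiv he.ne_zero).mp hd
  obtain ⟨f, hf⟩ := hde
  have hf0 : f ≠ 0 := by
    intro h; apply he.ne_zero; rw [hf, h, mul_zero]
  have ne1 : (1 : ℝ) ≤ nm e := by exact_mod_cast nm_pos.mpr he.ne_zero
  have ng1 : (1 : ℝ) ≤ nm g := by exact_mod_cast nm_pos.mpr hg.ne_zero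
  have nd1 : (1 : ℝ) ≤ nm d := by exact_mod_cast nm_pos.mpr hdp.ne_zero
  have nf1 : (1 : ℝ) ≤ nm f := by exact_mod_cast nm_pos.mpr hf0
  have ne0 : (0 : ℝ) < nm e := by linarith
  have ng0 : (0 : ℝ) < nm g := by linarith
  have nd0 : (0 : ℝ) < nm d := by linarith
  have nf0 : (0 : ℝ) < nm f := by linarith
  have hnef : (nm e : ℝ) = nm d * nm f := by rw [hf, nm_mul]; push_cast; ring
  have hu : (nm e : ℝ) / nm d = nm f := by rw [hnef]; field_simp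
  set y := B / (nm e * nm g) with hy
  have hy0 : 0 < y := by positivity
  -- norms in `Kg`
  have hK : ∀ m ∈ Kg S D e g, (1 : ℝ) ≤ nm m ∧ y ≤ nm m ∧ (nm m : ℝ) ≤ y * (1 + κ) ∧
      e * (g * m) ∈ S := by
    intro m hm
    unfold Kg at hm
    rw [Finset.mem_filter] at hm
    have h1 := hS _ hm.2
    have e1 : (nm (e * (g * m)) : ℝ) = nm e * nm g * nm m := by
      rw [nm_mul, nm_mul]; push_cast; ring
    rw [e1] at h1
    refine ⟨by exact_mod_cast nm_pos.mpr (hD _ hm.1).ne_zero, ?_, ?_, hm.2⟩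
    · rw [hy, div_le_iff₀ (by positivity)]; linarith [h1.2.2.1]
    · rw [hy, div_mul_eq_mul_div, le_div_iff₀ (by positivity)]; linarith [h1.2.2.2]
  obtain ⟨m0, hm0⟩ := hne
  obtain ⟨k1, k2, k3, k4⟩ := hK m0 hm0
  have hyh : 1 / 2 ≤ y := by
    have : y * (1 + κ) ≤ y * 2 := by gcongr; linarith
    linarith
  have hprod : (nm e : ℝ) * nm g ≤ 2 * B := by
    rw [hy, le_div_iff₀ (by positivity)] at hyh
    linarith
  refine ⟨?_, ?_, ?_⟩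
  · nlinarith
  · nlinarith
  rw [hu]
  set K := Keff A B τ e d with hKdef
  have hK0 : 0 ≤ K := Keff_nonneg hA e d
  have hKle : K ≤ PP A B τ / (nm d * (nm f : ℝ) ^ 2) := Keff_le hA hdp nf0 hnef
  have hP0 : 0 ≤ PP A B τ := by unfold PP; positivity
  have hKP : K ≤ PP A B τ := by
    refine hKle.trans (div_le_self hP0 ?_)
    have : (1 : ℝ) ≤ (nm f : ℝ) ^ 2 := one_le_pow₀ nf1
    nlinarith
  set r := κ + y ^ (-(1 : ℝ) / 2) with hr
  have hr0 : 0 ≤ r := by positivity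
  have hcard := FejGauss968.card_annulus_le hy0.le (show y ≤ y * (1 + κ) by nlinarith)
    (Kg S D e g) (fun m hm => ⟨(hK m hm).2.1, (hK m hm).2.2.1⟩)
  obtain ⟨c1, c2⟩ := card_real hκ hκ1 hyh hcard
  have hsum : ∑ m ∈ Kg S D e g, ‖β (e * (g * m))‖ ^ 2 / nm m ≤ 176 * r := by
    calc ∑ m ∈ Kg S D e g, ‖β (e * (g * m))‖ ^ 2 / nm m ≤ ∑ m ∈ Kg S D e g, 1 / y := by
          refine Finset.sum_le_sum fun m hm => ?_
          obtain ⟨a1, a2, a3, a4⟩ := hK m hm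
          have : ‖β (e * (g * m))‖ ^ 2 ≤ 1 := pow_le_one₀ (norm_nonneg _) (hβ _ a4)
          gcongr
      _ = (Kg S D e g).card * (1 / y) := by rw [Finset.sum_const, nsmul_eq_mul]
      _ ≤ (176 * (y * r)) * (1 / y) := by gcongr
      _ = 176 * r := by field_simp
  have hPhi : Phi K (max 1 y) (1 + (Kg S D e g).card) ≤ (1 + Real.log (1 + PP A B τ)) *
      (K ^ ((1 : ℝ) / 3) * (9 * y * r ^ ((1 : ℝ) / 3)) + K + K ^ 2) := by
    unfold Phi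
    have hN := NnuBound (N := max 1 y) (ν := 1 + (Kg S D e g).card) (y := y) (r := r)
      (by positivity) (by positivity) hy0.le hr0 (max_le (by linarith) (by linarith)) c2
    have hlog : Real.log (1 + K) ≤ Real.log (1 + PP A B τ) :=
      Real.log_le_log (by linarith) (by linarith)
    have hlog0 : 0 ≤ Real.log (1 + K) := Real.log_nonneg (by linarith)
    have hlog1 : 0 ≤ Real.log (1 + PP A B τ) := Real.log_nonneg (by linarith)
    rw [mul_assoc (K ^ ((1 : ℝ) / 3))]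
    gcongr
  have hlog1 : 0 ≤ Real.log (1 + PP A B τ) := Real.log_nonneg (by linarith)
  have hyy : B / (nm d * nm f * nm g) = y := by rw [hy, hnef]
  have hmain := term_real (B := B) (κ := κ) (P := PP A B τ) (a := nm d) (u := nm f) (g := nm g)
    hB hκ hκ1 hP0 nd1 nf1 ng1 (by rw [hyy]; exact hyh) hK0 hKle
  rw [hyy, ← hr] at hmain
  have hsum0 : 0 ≤ ∑ m ∈ Kg S D e g, ‖β (e * (g * m))‖ ^ 2 / nm m :=
    Finset.sum_nonneg fun m _ => by positivity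
  calc (nm d : ℝ)⁻¹ * (nm g : ℝ)⁻¹ * (Phi K (max 1 y) (1 + (Kg S D e g).card) *
        ∑ m ∈ Kg S D e g, ‖β (e * (g * m))‖ ^ 2 / nm m)
      ≤ (nm d : ℝ)⁻¹ * (nm g : ℝ)⁻¹ * (((1 + Real.log (1 + PP A B τ)) *
      (K ^ ((1 : ℝ) / 3) * (9 * y * r ^ ((1 : ℝ) / 3)) + K + K ^ 2)) * (176 * r)) := by
        gcongr
    _ = (1 + Real.log (1 + PP A B τ)) * ((nm d : ℝ)⁻¹ * (nm g : ℝ)⁻¹ *
      ((K ^ ((1 : ℝ) / 3) * (9 * y * r ^ ((1 : ℝ) / 3)) + K + K ^ 2) * (176 * r))) := by ring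
    _ ≤ _ := by gcongr

/-- the constant `100 Σ m^(-4/3)` -/
def c43 : ℝ := 100 * ∑' m : ℕ, (m : ℝ) ^ (-(4 : ℝ) / 3)

lemma summable_43 : Summable fun m : ℕ => (m : ℝ) ^ (-(4 : ℝ) / 3) :=
  Real.summable_nat_rpow.mpr (by norm_num)

lemma sum_43_le (X : ℕ) : ∑ x ∈ primBall X, (nm x : ℝ) ^ (-(4 : ℝ) / 3) ≤ c43 := by
  refine (Finset.sum_le_sum_of_subset_of_nonneg (Div277.primBall_subset_nz X)
    (fun _ _ _ => by positivity)).trans ?_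
  refine (Div277.sum_antitone_le (fun m => (m : ℝ) ^ (-(4 : ℝ) / 3)) ?_ ?_ X).trans ?_
  · intro m hm
    have : (0 : ℝ) < m := by exact_mod_cast hm
    exact Real.rpow_le_rpow_of_nonpos this (by push_cast; linarith) (by norm_num)
  · intro m; positivity
  · unfold c43
    refine mul_le_mul_of_nonneg_left ?_ (by norm_num)
    exact summable_43.sum_le_tsum _ (fun m _ => by positivity)

lemma one_le_c43 : 1 ≤ c43 := by
  have h := summable_43.sum_le_tsum {1} (fun m _ => by positivity)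
  simp only [Finset.sum_singleton, Nat.cast_one, Real.one_rpow] at h
  unfold c43
  linarith

lemma sum_inv_le (X : ℕ) : ∑ x ∈ primBall X, (nm x : ℝ)⁻¹ ≤ 100 * (1 + Real.log X) := by
  have := Div277.sum_inv_primBall_le X
  simpa [one_div] using this

/-- sum over `e` and `d ∣ e`. -/
lemma sum_ed_le (X : ℕ) (G : ℝ → ℝ) (hG : ∀ x, 0 ≤ x → 0 ≤ G x) :
    ∑ e ∈ primBall X, ∑ d ∈ pdiv e, (nm d : ℝ) ^ (-(4 : ℝ) / 3) * G ((nm e : ℝ) / nm d) ≤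
      c43 * ∑ x ∈ primBall X, G (nm x) := by
  have h := Div277.sum_primBall_dvs X
    (fun d n => (nm d : ℝ) ^ (-(4 : ℝ) / 3) * G ((nm n : ℝ) / nm d))
  have e0 : ∑ e ∈ primBall X, ∑ d ∈ pdiv e, (nm d : ℝ) ^ (-(4 : ℝ) / 3) *
      G ((nm e : ℝ) / nm d) = _ := h
  rw [e0]
  have hs0 : 0 ≤ ∑ x ∈ primBall X, G (nm x) :=
    Finset.sum_nonneg fun x _ => hG _ (by positivity)
  calc ∑ d ∈ primBall X, ∑ m ∈ primBall (X / nm d), (nm d : ℝ) ^ (-(4 : ℝ) / 3) *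
        G ((nm (d * m) : ℝ) / nm d)
      ≤ ∑ d ∈ primBall X, (nm d : ℝ) ^ (-(4 : ℝ) / 3) * ∑ x ∈ primBall X, G (nm x) := by
        refine Finset.sum_le_sum fun d hd => ?_
        have hd0 : (0 : ℝ) < nm d := by
          exact_mod_cast nm_pos.mpr (mem_primBall.mp hd).2.ne_zero
        rw [Finset.mul_sum]
        calc ∑ m ∈ primBall (X / nm d), (nm d : ℝ) ^ (-(4 : ℝ) / 3) *
              G ((nm (d * m) : ℝ) / nm d)
            = ∑ m ∈ primBall (X / nm d), (nm d : ℝ) ^ (-(4 : ℝ) / 3) * G (nm m) := by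
              refine Finset.sum_congr rfl fun m _ => ?_
              rw [nm_mul]; push_cast
              rw [mul_div_cancel_left₀ _ hd0.ne']
          _ ≤ _ := Finset.sum_le_sum_of_subset_of_nonneg
              (Div277.primBall_mono (Nat.div_le_self _ _))
              (fun m _ _ => mul_nonneg (by positivity) (hG _ (by positivity)))
    _ = (∑ d ∈ primBall X, (nm d : ℝ) ^ (-(4 : ℝ) / 3)) * ∑ x ∈ primBall X, G (nm x) := by
        rw [Finset.sum_mul]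
    _ ≤ _ := mul_le_mul_of_nonneg_right (sum_43_le X) hs0

open Classical in
/-- **The sum `Sig` for a short cell**, strong form (`B ^ (1/3)`). -/
theorem sig_cell_strong : ∃ C : ℝ, 0 < C ∧ ∀ (A B κ τ : ℝ) (S D : Finset Eis) (β : Eis → ℂ), 0 < A →
    2 ≤ B → 0 ≤ κ → κ ≤ 1 →
    (∀ b ∈ S, IsPrim b ∧ Squarefree b ∧ B ≤ nm b ∧ (nm b : ℝ) ≤ B * (1 + κ)) →
    (∀ b ∈ S, ‖β b‖ ≤ 1) → (∀ d ∈ D, IsPrim d) →
    T8.Sig S D β A B τ ≤ C * (1 + Real.log (1 + (1 + τ ^ 2) * B ^ 2 / A)) * (1 + Real.log B) *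
      (((1 + τ ^ 2) * B ^ 2 / A) ^ ((1:ℝ)/3) * (κ ^ ((4:ℝ)/3) * B + B ^ ((1:ℝ)/3)) +
        (1 + τ ^ 2) * B ^ 2 / A + ((1 + τ ^ 2) * B ^ 2 / A) ^ 2) := by
  have hc1 := one_le_c43
  refine ⟨4752 * (c43 * c43 * 200), by positivity, ?_⟩
  intro A B κ τ S D β hA hB hκ hκ1 hS hβ hD
  have hB0 : 0 < B := by linarith
  rw [show (1 + τ ^ 2) * B ^ 2 / A = PP A B τ from rfl]
  have hP0 : 0 ≤ PP A B τ := by unfold PP; positivity
  set P := PP A B τ with hP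
  have hlog1 : 0 ≤ Real.log (1 + P) := Real.log_nonneg (by linarith)
  set X := ⌊2 * B⌋₊ with hX
  set M1 := P ^ ((1 : ℝ) / 3) * (κ ^ ((4 : ℝ) / 3) * B + B ^ ((1 : ℝ) / 3)) with hM1
  set M2 := P + P ^ 2 with hM2
  have hM10 : 0 ≤ M1 := by positivity
  have hM20 : 0 ≤ M2 := by positivity
  set L := 1 + Real.log (1 + P) with hL
  have hL0 : 0 < L := by positivity
  -- the bounding function
  set Ft : Eis → Eis → Eis → ℝ := fun e d g => L * (4752 *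
      (M1 * ((nm d : ℝ) ^ (-(4 : ℝ) / 3) * ((nm e : ℝ) / nm d)⁻¹ * (nm g : ℝ) ^ (-(4 : ℝ) / 3)) +
        M2 * ((nm d : ℝ) ^ (-(4 : ℝ) / 3) * ((nm e : ℝ) / nm d) ^ (-(4 : ℝ) / 3) *
          (nm g : ℝ)⁻¹))) with hFt
  have hFt0 : ∀ e d g, 0 ≤ Ft e d g := by
    intro e d g; simp only [hFt]; positivity
  set tm : Eis → Eis → Eis → ℝ := fun e d g => (nm d : ℝ)⁻¹ * (nm g : ℝ)⁻¹ *
    (Phi (Keff A B τ e d) (max 1 (B / (nm e * nm g))) (1 + (Kg S D e g).card) *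
      ∑ m ∈ Kg S D e g, ‖β (e * (g * m))‖ ^ 2 / nm m) with htm
  have hkey : ∀ e ∈ D, ∀ d ∈ pdiv e, ∀ g ∈ D, tm e d g ≠ 0 →
      e ∈ primBall X ∧ g ∈ primBall X ∧ tm e d g ≤ Ft e d g := by
    intro e he d hd g hg hne
    have hKne : (Kg S D e g).Nonempty := by
      rw [Finset.nonempty_iff_ne_empty]
      intro h0
      apply hne
      simp [htm, h0]
    obtain ⟨h1, h2, h3⟩ := term_cell (τ := τ) hA hB hκ hκ1 hS hβ hD (hD e he) (hD g hg) hd hKne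
    refine ⟨mem_primBall.mpr ⟨Nat.le_floor h1, hD e he⟩,
      mem_primBall.mpr ⟨Nat.le_floor h2, hD g hg⟩, h3⟩
  have hnonneg : ∀ e d g, d ∈ pdiv e → 0 ≤ tm e d g := by
    intro e d g _
    simp only [htm]
    have hKn := Keff_nonneg (B := B) (τ := τ) hA e d
    exact mul_nonneg (by positivity) (mul_nonneg (Phi_nonneg hKn (by positivity) (by positivity))
      (Finset.sum_nonneg fun m _ => by positivity))
  have step1 : Sig S D β A B τ ≤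
      ∑ e ∈ primBall X, ∑ d ∈ pdiv e, ∑ g ∈ primBall X, Ft e d g := by
    have e1 : Sig S D β A B τ = ∑ e ∈ D, ∑ d ∈ pdiv e, ∑ g ∈ D, tm e d g := rfl
    rw [e1]
    have inner : ∀ e ∈ D, ∀ d ∈ pdiv e, ∑ g ∈ D, tm e d g ≤ ∑ g ∈ primBall X, Ft e d g := by
      intro e he d hd
      calc ∑ g ∈ D, tm e d g = ∑ g ∈ D.filter (fun g => g ∈ primBall X), tm e d g := by
            symm
            apply Finset.sum_filter_of_ne
            intro g hg hne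
            exact (hkey e he d hd g hg hne).2.1
        _ ≤ ∑ g ∈ D.filter (fun g => g ∈ primBall X), Ft e d g := by
            refine Finset.sum_le_sum fun g hg => ?_
            rw [Finset.mem_filter] at hg
            by_cases h0 : tm e d g = 0
            · rw [h0]; exact hFt0 _ _ _
            · exact (hkey e he d hd g hg.1 h0).2.2
        _ ≤ _ := by
            apply Finset.sum_le_sum_of_subset_of_nonneg
            · intro g hg; exact (Finset.mem_filter.mp hg).2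
            · intro g _ _; exact hFt0 _ _ _
    calc ∑ e ∈ D, ∑ d ∈ pdiv e, ∑ g ∈ D, tm e d g
        = ∑ e ∈ D.filter (fun e => e ∈ primBall X), ∑ d ∈ pdiv e, ∑ g ∈ D, tm e d g := by
          symm
          apply Finset.sum_filter_of_ne
          intro e he hne
          obtain ⟨d, hd, hne1⟩ := Finset.exists_ne_zero_of_sum_ne_zero hne
          obtain ⟨g, hg, hne2⟩ := Finset.exists_ne_zero_of_sum_ne_zero hne1
          exact (hkey e he d hd g hg hne2).1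
      _ ≤ ∑ e ∈ D.filter (fun e => e ∈ primBall X), ∑ d ∈ pdiv e,
            ∑ g ∈ primBall X, Ft e d g := by
          refine Finset.sum_le_sum fun e he => Finset.sum_le_sum fun d hd => ?_
          exact inner e (Finset.mem_filter.mp he).1 d hd
      _ ≤ _ := by
          apply Finset.sum_le_sum_of_subset_of_nonneg
          · intro e he; exact (Finset.mem_filter.mp he).2
          · intro e _ _
            exact Finset.sum_nonneg fun d _ => Finset.sum_nonneg fun g _ => hFt0 _ _ _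
  -- evaluation
  have z1 := sum_ed_le X (fun x => x⁻¹) (fun x hx => by positivity)
  have z2 := sum_ed_le X (fun x => x ^ (-(4 : ℝ) / 3)) (fun x hx => by positivity)
  have i1 := sum_inv_le X
  have i2 := sum_43_le X
  have i10 : 0 ≤ ∑ x ∈ primBall X, (nm x : ℝ)⁻¹ := Finset.sum_nonneg fun x _ => by positivity
  have i20 : 0 ≤ ∑ x ∈ primBall X, (nm x : ℝ) ^ (-(4 : ℝ) / 3) :=
    Finset.sum_nonneg fun x _ => by positivity
  have hX1 : 1 + Real.log X ≤ 2 * (1 + Real.log B) := by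
    have hXle : (X : ℝ) ≤ 2 * B := Nat.floor_le (by linarith)
    have hX1' : 1 ≤ X := Nat.le_floor (by push_cast; linarith)
    have hXpos : (0 : ℝ) < X := by exact_mod_cast hX1'
    have h1 : Real.log X ≤ Real.log (2 * B) := Real.log_le_log hXpos hXle
    rw [Real.log_mul (by norm_num) hB0.ne'] at h1
    have h2 : Real.log 2 ≤ 1 := by linarith [Real.log_two_lt_d9]
    have h3 : 0 ≤ Real.log B := Real.log_nonneg (by linarith)
    linarith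
  have hlB : 0 ≤ Real.log B := Real.log_nonneg (by linarith)
  set U := 200 * (1 + Real.log B) with hU
  have hU0 : 0 ≤ U := by positivity
  have i1' : ∑ x ∈ primBall X, (nm x : ℝ)⁻¹ ≤ U := by
    rw [hU]; linarith
  have hc0 : 0 ≤ c43 := by linarith
  have step2 : ∑ e ∈ primBall X, ∑ d ∈ pdiv e, ∑ g ∈ primBall X, Ft e d g =
      L * (4752 * (M1 * ((∑ e ∈ primBall X, ∑ d ∈ pdiv e,
        (nm d : ℝ) ^ (-(4 : ℝ) / 3) * ((nm e : ℝ) / nm d)⁻¹) *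
          ∑ g ∈ primBall X, (nm g : ℝ) ^ (-(4 : ℝ) / 3)) +
        M2 * ((∑ e ∈ primBall X, ∑ d ∈ pdiv e,
        (nm d : ℝ) ^ (-(4 : ℝ) / 3) * ((nm e : ℝ) / nm d) ^ (-(4 : ℝ) / 3)) *
          ∑ g ∈ primBall X, (nm g : ℝ)⁻¹))) := by
    have s0 : ∀ e d : Eis, ∑ g ∈ primBall X, Ft e d g =
        L * (4752 * (M1 * (((nm d : ℝ) ^ (-(4 : ℝ) / 3) * ((nm e : ℝ) / nm d)⁻¹) *
          ∑ g ∈ primBall X, (nm g : ℝ) ^ (-(4 : ℝ) / 3)) +
        M2 * (((nm d : ℝ) ^ (-(4 : ℝ) / 3) * ((nm e : ℝ) / nm d) ^ (-(4 : ℝ) / 3)) *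
          ∑ g ∈ primBall X, (nm g : ℝ)⁻¹))) := by
      intro e d
      rw [Finset.mul_sum, Finset.mul_sum, Finset.mul_sum, Finset.mul_sum,
        ← Finset.sum_add_distrib, Finset.mul_sum, Finset.mul_sum]
    simp only [s0, ← Finset.mul_sum, Finset.sum_add_distrib, ← Finset.sum_mul]
  have w1 : (∑ e ∈ primBall X, ∑ d ∈ pdiv e,
        (nm d : ℝ) ^ (-(4 : ℝ) / 3) * ((nm e : ℝ) / nm d)⁻¹) *
          ∑ g ∈ primBall X, (nm g : ℝ) ^ (-(4 : ℝ) / 3) ≤ (c43 * U) * c43 := by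
    apply mul_le_mul (z1.trans (by gcongr)) i2 i20 (by positivity)
  have w2 : (∑ e ∈ primBall X, ∑ d ∈ pdiv e,
        (nm d : ℝ) ^ (-(4 : ℝ) / 3) * ((nm e : ℝ) / nm d) ^ (-(4 : ℝ) / 3)) *
          ∑ g ∈ primBall X, (nm g : ℝ)⁻¹ ≤ (c43 * c43) * U := by
    apply mul_le_mul (z2.trans (by gcongr)) i1' i10 (by positivity)
  calc Sig S D β A B τ ≤ _ := step1
    _ = _ := step2
    _ ≤ L * (4752 * (M1 * ((c43 * U) * c43) + M2 * ((c43 * c43) * U))) := by gcongr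
    _ = 4752 * (c43 * c43 * 200) * L * (1 + Real.log B) * (M1 + M2) := by rw [hU]; ring
    _ = _ := by rw [hM1, hM2]; ring

open Classical in
/-- **The sum `Sig` for a short cell.** -/
theorem sig_cell : ∃ C : ℝ, 0 < C ∧ ∀ (A B κ τ : ℝ) (S D : Finset Eis) (β : Eis → ℂ), 0 < A →
    2 ≤ B → 0 ≤ κ → κ ≤ 1 →
    (∀ b ∈ S, IsPrim b ∧ Squarefree b ∧ B ≤ nm b ∧ (nm b : ℝ) ≤ B * (1 + κ)) →
    (∀ b ∈ S, ‖β b‖ ≤ 1) → (∀ d ∈ D, IsPrim d) →
    T8.Sig S D β A B τ ≤ C * (1 + Real.log (1 + (1 + τ ^ 2) * B ^ 2 / A)) * (1 + Real.log B) *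
      (((1 + τ ^ 2) * B ^ 2 / A) ^ ((1:ℝ)/3) * (κ ^ ((4:ℝ)/3) * B + B ^ ((1:ℝ)/2)) +
        (1 + τ ^ 2) * B ^ 2 / A + ((1 + τ ^ 2) * B ^ 2 / A) ^ 2) := by
  obtain ⟨C, hC, h⟩ := sig_cell_strong
  refine ⟨C, hC, fun A B κ τ S D β hA hB hκ hκ1 hS hβ hD =>
    (h A B κ τ S D β hA hB hκ hκ1 hS hβ hD).trans ?_⟩
  have hBB : B ^ ((1 : ℝ) / 3) ≤ B ^ ((1 : ℝ) / 2) :=
    Real.rpow_le_rpow_of_exponent_le (by linarith) (by norm_num)
  have hlB : 0 ≤ Real.log B := Real.log_nonneg (by linarith)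
  have hP0 : 0 ≤ (1 + τ ^ 2) * B ^ 2 / A := by positivity
  have hlog1 : 0 ≤ Real.log (1 + (1 + τ ^ 2) * B ^ 2 / A) := Real.log_nonneg (by linarith)
  gcongr

end Crest.Agent.R012.T8
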