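import Crest.Agent.R012.TIIend_54_Mg
import Crest.Agent.R012.SNH_828_Mg
import Crest.Agent.R012.IxOf_106
import Crest.Agent.R012.T8Sig_671_Mg
import Crest.Agent.R012.T8Master_810
import Crest.Agent.R012.Div_277
import Crest.Agent.R012.T8LS_879
import Crest.Agent.R012.SpecMain_48
import Crest.Agent.R012.TIIsharp_54
import Crest.Agent.R012.PC_355
import Crest.Agent.R012.Spec_T_411
import Crest.Agent.R012.NonCubeW_52
import Crest.Agent.R012.Sym6_645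
import Crest.Agent.R012.LatW_413
import Crest.Agent.R012.TNXa_52
import Crest.Agent.R012.Rough_298
import Crest.Agent.R012.TMain_411

-- ▼ part R012/TIImain_54
section

/-!
# Row 12, item TIIS: the final theorems (helper54)

* `tiix`  : `TMainN → TIIx_Prop`
* `tiicx` : `TMainC → CRProd → TIIcx_Prop`
-/

set_option autoImplicit false

namespace Crest.Agent.R012.TII54

theorem tiix (hN : T411.TMainN) : Main48.TIIx_Prop := tiix_of hN SWx355.SWx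


theorem tiicx (hC : T411.TMainC) (hCR : CR290.CRProd) : Main48.TIIcx_Prop :=
  tiicx_of hC SWx355.SWx (CRbeta852.crx_of hCR)

end Crest.Agent.R012.TII54
end

-- ▼ part R012/SNHof_828
section

/-! # Row 12 (helper828): `Main48.SNH_of` -/

set_option autoImplicit false

namespace Crest.Agent.R012.NearHalf828

open Main48

/-- **Primes near `X^(1/2)`** -/
theorem snh_of : Main48.SNH_of := fun hI hII hIIc h0 =>
  snh_assembly (SNH766.tiPart hI) (SNHL50.lPart_of h0) (crPart_of hII)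
    (compPart_of (IxOf106.TIIc_of hIIc))

end Crest.Agent.R012.NearHalf828
end

-- ▼ part R012/T8b_968
section

/-!
# Row 12, T8b: the bilinear bound on `κ`-cells (helper968)

`t8b_of : SigCell Cs c → EdgeSharp968.T8b` : Cauchy-Schwarz and exponents
(`J = κ^(-1/36)`, saving `κ^(1/72)`).
-/

set_option autoImplicit false

noncomputable section

open Complex Finset

namespace Crest.Agent.R012.T8b968

open Eis
open Gauss880 (syG)
open Mob705 (pdiv mem_pdiv)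

/-- Number of elements of a cell. -/
lemma card_cell {B κ : ℝ} (hB : 1 ≤ B) (hκ0 : 0 ≤ κ) (hκ1 : κ ≤ 1)
    (h1 : Real.sqrt B ≤ κ * B) {S : Finset Eis}
    (hS : ∀ b ∈ S, B ≤ nm b ∧ (nm b : ℝ) ≤ B * (1 + κ)) : (S.card : ℝ) ≤ 158 * (κ * B) := by
  have h := FejGauss968.card_annulus_le (lo := B) (hi := B * (1 + κ)) (by linarith)
    (by nlinarith) S hS
  have h2 : Real.sqrt (B * (1 + κ)) ≤ 1.5 * Real.sqrt B := by
    rw [Real.sqrt_mul (by linarith)]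
    have : Real.sqrt (1 + κ) ≤ 1.5 := by
      rw [Real.sqrt_le_left (by norm_num)]
      nlinarith
    have h0 := Real.sqrt_nonneg B
    nlinarith
  have h3 : 1 ≤ Real.sqrt B := Real.one_le_sqrt.mpr hB
  nlinarith

/-- `G(ab)` sums are bounded by `Fs`. -/
lemma norm_sum_G_le {SB : Finset Eis} {β : Eis → ℂ} (hSB : ∀ b ∈ SB, IsPrim b) {a : Eis}
    (ha : IsPrim a) : ‖∑ b ∈ SB, β b * G (a * b)‖ ≤ ‖Fs SB β a‖ := by
  have e : ∑ b ∈ SB, β b * G (a * b) = G a * Fs SB β a := by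
    unfold Fs
    rw [mul_sum]
    refine sum_congr rfl fun b hb => ?_
    rw [Gauss880.G_mul_all syG ha (hSB b hb)]
    ring
  rw [e, norm_mul]
  have := Gauss880.norm_G_le syG ha
  have h0 := norm_nonneg (Fs SB β a)
  nlinarith

/-- Cauchy-Schwarz over `a`. -/
lemma cauchy {SA SB : Finset Eis} {α β : Eis → ℂ} (hSA : ∀ a ∈ SA, IsPrim a)
    (hSB : ∀ b ∈ SB, IsPrim b) (hα : ∀ a ∈ SA, ‖α a‖ ≤ 1) :
    ‖∑ a ∈ SA, ∑ b ∈ SB, α a * β b * G (a * b)‖ ^ 2 ≤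
      SA.card * ∑ a ∈ SA, ‖Fs SB β a‖ ^ 2 := by
  have h1 : ‖∑ a ∈ SA, ∑ b ∈ SB, α a * β b * G (a * b)‖ ≤ ∑ a ∈ SA, ‖Fs SB β a‖ := by
    refine (norm_sum_le _ _).trans (sum_le_sum fun a ha => ?_)
    have e : ∑ b ∈ SB, α a * β b * G (a * b) = α a * ∑ b ∈ SB, β b * G (a * b) := by
      rw [mul_sum]
      exact sum_congr rfl fun b _ => by ring
    rw [e, norm_mul]
    have h2 := norm_sum_G_le (β := β) hSB (hSA a ha)
    have h3 := hα a ha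
    have h4 := norm_nonneg (∑ b ∈ SB, β b * G (a * b))
    nlinarith
  calc ‖∑ a ∈ SA, ∑ b ∈ SB, α a * β b * G (a * b)‖ ^ 2 ≤ (∑ a ∈ SA, ‖Fs SB β a‖) ^ 2 :=
        pow_le_pow_left₀ (norm_nonneg _) h1 2
    _ ≤ SA.card * ∑ a ∈ SA, ‖Fs SB β a‖ ^ 2 := sq_sum_le_card_mul_sum_sq

/-- the numerical core: the four error terms. -/
lemma four_terms {a b k : ℝ} (hb0 : 0 < b) (hk0 : 0 ≤ k)
    (hk1 : k ≤ (a + b) / 1000) (hb1 : (a + b) / 10 ≤ b) (hb2 : b ≤ 7 / 10 * a) :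
    Real.exp (-k) * Real.exp a * (Real.exp a * Real.exp (k / 4) *
      Mb (Real.exp a) (Real.exp b) (Real.exp (-k))) ≤
      4 * Real.exp (5 * (a + b) / 3 - (2 + 1 / 36) * k) := by
  set T1 : ℝ := Real.exp (5 * (a + b) / 3 - (2 + 1 / 36) * k) with hT1
  have e : Mb (Real.exp a) (Real.exp b) (Real.exp (-k)) =
      Real.exp (-k * (4 / 3) + b * (5 / 3) + a * (-(1 / 3))) +
      Real.exp (b * (7 / 6) + a * (-(1 / 3))) + Real.exp (2 * b - a) +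
        Real.exp (4 * b - 2 * a) := by
    unfold Mb
    rw [← Real.exp_mul, ← Real.exp_mul, ← Real.exp_mul, ← Real.exp_mul, ← Real.exp_nat_mul,
      ← Real.exp_nat_mul, ← Real.exp_nat_mul, ← Real.exp_add, ← Real.exp_add, ← Real.exp_add,
      ← Real.exp_sub, ← Real.exp_sub]
    push_cast
    rfl
  rw [e]
  have m1 : Real.exp (-k) * Real.exp a * (Real.exp a * Real.exp (k / 4) *
      Real.exp (-k * (4 / 3) + b * (5 / 3) + a * (-(1 / 3)))) ≤ T1 := by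
    rw [hT1]
    simp only [← Real.exp_add]
    apply Real.exp_le_exp.mpr; linarith
  have m2 : Real.exp (-k) * Real.exp a * (Real.exp a * Real.exp (k / 4) *
      Real.exp (b * (7 / 6) + a * (-(1 / 3)))) ≤ T1 := by
    rw [hT1]
    simp only [← Real.exp_add]
    apply Real.exp_le_exp.mpr; linarith
  have m3 : Real.exp (-k) * Real.exp a * (Real.exp a * Real.exp (k / 4) *
      Real.exp (2 * b - a)) ≤ T1 := by
    rw [hT1]
    simp only [← Real.exp_add]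
    apply Real.exp_le_exp.mpr; linarith
  have m4 : Real.exp (-k) * Real.exp a * (Real.exp a * Real.exp (k / 4) *
      Real.exp (4 * b - 2 * a)) ≤ T1 := by
    rw [hT1]
    simp only [← Real.exp_add]
    apply Real.exp_le_exp.mpr; linarith
  rw [mul_add, mul_add, mul_add, mul_add, mul_add, mul_add]
  linarith [m1, m2, m3, m4]

/-- the square of the target. -/
lemma target_sq (a b k : ℝ) :
    Real.exp (5 * (a + b) / 3 - (2 + 1 / 36) * k) + Real.exp (2 * a + b - (2 + 1 / 36) * k) ≤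
      (Real.exp (-k) ^ (1 + 1 / 72 : ℝ) * ((Real.exp a * Real.exp b) ^ (5 / 6 : ℝ) +
        Real.exp a * Real.exp b ^ (1 / 2 : ℝ))) ^ 2 := by
  have hkap : Real.exp (-k) ^ (1 + 1 / 72 : ℝ) = Real.exp (-(k * (1 + 1 / 72))) := by
    rw [← Real.exp_mul]; congr 1; ring
  rw [hkap]
  have e1 : (Real.exp a * Real.exp b) ^ (5 / 6 : ℝ) = Real.exp ((a + b) * (5 / 6)) := by
    rw [← Real.exp_add, ← Real.exp_mul]
  have e2 : Real.exp a * Real.exp b ^ (1 / 2 : ℝ) = Real.exp (a + b * (1 / 2)) := by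
    rw [← Real.exp_mul, ← Real.exp_add]
  rw [e1, e2]
  have e3 : Real.exp (5 * (a + b) / 3 - (2 + 1 / 36) * k) =
      (Real.exp (-(k * (1 + 1 / 72))) * Real.exp ((a + b) * (5 / 6))) ^ 2 := by
    rw [← Real.exp_add, ← Real.exp_nat_mul]
    congr 1; push_cast; ring
  have e4 : Real.exp (2 * a + b - (2 + 1 / 36) * k) =
      (Real.exp (-(k * (1 + 1 / 72))) * Real.exp (a + b * (1 / 2))) ^ 2 := by
    rw [← Real.exp_add, ← Real.exp_nat_mul]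
    congr 1; push_cast; ring
  rw [e3, e4]
  have p1 : 0 < Real.exp (-(k * (1 + 1 / 72))) * Real.exp ((a + b) * (5 / 6)) := by positivity
  have p2 : 0 < Real.exp (-(k * (1 + 1 / 72))) * Real.exp (a + b * (1 / 2)) := by positivity
  rw [mul_add]
  nlinarith [mul_pos p1 p2]

/-- combination of the two parts. -/
lemma combine {cA S K1 LL X Y Z T1 T2 E : ℝ} (hcA : cA ≤ 158 * X) (hX : 0 ≤ X) (hS0 : 0 ≤ S)
    (hE : 0 < E) (hLL : 0 ≤ LL) (hK1 : 0 ≤ K1)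
    (hS : S ≤ 8 * E * (LL * (632 * Y + K1 * Z)))
    (h1 : X * Y = T2) (h2 : X * Z ≤ 4 * T1) (hT1 : 0 ≤ T1) (hT2 : 0 ≤ T2) :
    cA * S ≤ 158 * (8 * E) * (632 + 4 * K1) * LL * (T1 + T2) := by
  calc cA * S ≤ (158 * X) * (8 * E * (LL * (632 * Y + K1 * Z))) := by gcongr
    _ = 158 * (8 * E) * LL * (632 * (X * Y) + K1 * (X * Z)) := by ring
    _ ≤ 158 * (8 * E) * LL * (632 * T2 + K1 * (4 * T1)) := by
        rw [h1]; gcongr
    _ ≤ 158 * (8 * E) * LL * ((632 + 4 * K1) * (T1 + T2)) := by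
        have : 632 * T2 + K1 * (4 * T1) ≤ (632 + 4 * K1) * (T1 + T2) := by
          have := mul_nonneg hK1 hT2
          nlinarith
        gcongr
    _ = _ := by ring

set_option maxHeartbeats 2000000 in
/-- **T8b from the bound of `Sig` on cells.** -/
theorem t8b_of {Cs c : ℝ} (hCs : 0 < Cs) (hc : 0 ≤ c) (hSig : SigCell Cs c) :
    EdgeSharp968.T8b := by
  classical
  obtain ⟨C, hC, hL⟩ := LS879.LSH
  have hL' : T8.LSH C := fun K N ν T H c hK hN hν hT hcard hH =>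
    hL K N ν T H c hK hN hν hT hcard hH
  set K1 : ℝ := 4 * 24 ^ 6 * C * Cs with hK1
  have hK1' : 0 < K1 := by positivity
  have he2 : 0 < Real.exp 2 := Real.exp_pos 2
  set K2 : ℝ := 158 * (8 * Real.exp 2) * (632 + 4 * K1) with hK2
  have hK2' : 0 < K2 := by positivity
  refine ⟨1 + c, 1 / 72, 1 + K2, by linarith, by norm_num, by positivity, ?_⟩
  intro A B κ hA hB hκlow hκ1 hBA h10 SA SB α β hSA hSB hα hβ
  have hA0 : 0 < A := by linarith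
  have hB0 : 0 < B := by linarith
  have hAB0 : 0 < A * B := by positivity
  have hκ0 : 0 < κ := lt_of_lt_of_le (Real.rpow_pos_of_pos hAB0 _) hκlow
  -- logarithmic coordinates
  obtain ⟨a, rfl⟩ : ∃ a, A = Real.exp a := ⟨Real.log A, (Real.exp_log hA0).symm⟩
  obtain ⟨b, rfl⟩ : ∃ b, B = Real.exp b := ⟨Real.log B, (Real.exp_log hB0).symm⟩
  obtain ⟨k, rfl⟩ : ∃ k, κ = Real.exp (-k) := ⟨-Real.log κ, by rw [neg_neg, Real.exp_log hκ0]⟩
  have ha0 : 0 < a := by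
    by_contra h
    have : Real.exp a ≤ 1 := by rw [Real.exp_le_one_iff]; linarith
    linarith
  have hb0 : 0 < b := by
    by_contra h
    have : Real.exp b ≤ 1 := by rw [Real.exp_le_one_iff]; linarith
    linarith
  have hk0 : 0 ≤ k := by
    rw [Real.exp_le_one_iff] at hκ1; linarith
  rw [← Real.exp_add, ← Real.exp_mul, Real.exp_le_exp] at hκlow
  rw [← Real.exp_mul, Real.exp_le_exp] at hBA
  rw [← Real.exp_add, ← Real.exp_mul, Real.exp_le_exp] at h10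
  have hk1 : k ≤ (a + b) / 1000 := by linarith
  have hb1 : (a + b) / 10 ≤ b := by linarith
  have hb2 : b ≤ 7 / 10 * a := by linarith
  -- the parameter `J`
  set J : ℕ := ⌊Real.exp (k / 36)⌋₊ with hJdef
  have hJ1e : (1 : ℝ) ≤ Real.exp (k / 36) := Real.one_le_exp (by linarith)
  have hJ1 : 1 ≤ J := Nat.le_floor (by exact_mod_cast hJ1e)
  have hJle : (J : ℝ) ≤ Real.exp (k / 36) := Nat.floor_le (Real.exp_pos _).le
  have hJ0 : (0 : ℝ) < J := by exact_mod_cast hJ1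
  have hJ1' : (1 : ℝ) ≤ J := by exact_mod_cast hJ1
  have hJge : Real.exp (k / 36) ≤ 2 * J := by
    have := (Nat.lt_floor_add_one (Real.exp (k / 36))).le
    rw [← hJdef] at this
    linarith
  have hJκ : Real.exp (-k) * J ≤ 1 := by
    calc Real.exp (-k) * J ≤ Real.exp (-k) * Real.exp (k / 36) := by gcongr
      _ = Real.exp (-k + k / 36) := (Real.exp_add _ _).symm
      _ ≤ 1 := by rw [Real.exp_le_one_iff]; linarith
  set L : ℝ := 1 + Real.log (Real.exp a * Real.exp b) with hLdef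
  have hLeq : L = 1 + (a + b) := by
    rw [hLdef, ← Real.exp_add, Real.log_exp]
  have hL1 : 1 ≤ L := by rw [hLeq]; linarith
  have hL0 : 0 < L := by linarith
  -- cardinalities
  have hcA : (SA.card : ℝ) ≤ 158 * (Real.exp (-k) * Real.exp a) := by
    refine card_cell (by linarith) (Real.exp_pos _).le hκ1 ?_ (fun x hx => ⟨(hSA x hx).2.1,
      (hSA x hx).2.2⟩)
    rw [Real.sqrt_le_left (by positivity), ← Real.exp_add, ← Real.exp_nat_mul, Real.exp_le_exp]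
    push_cast; linarith
  have hcB : (SB.card : ℝ) ≤ 158 * (Real.exp (-k) * Real.exp b) := by
    refine card_cell (by linarith) (Real.exp_pos _).le hκ1 ?_ (fun x hx => ⟨(hSB x hx).2.1,
      (hSB x hx).2.2⟩)
    rw [Real.sqrt_le_left (by positivity), ← Real.exp_add, ← Real.exp_nat_mul, Real.exp_le_exp]
    push_cast; linarith
  -- cut `β`
  set β' : Eis → ℂ := fun x => if x ∈ SB then β x else 0 with hβ'
  have hβ'1 : ∀ x, ‖β' x‖ ≤ 1 := by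
    intro x
    simp only [hβ']
    split_ifs with h
    · exact hβ x h
    · simp
  have hsum : ∑ x ∈ SA, ∑ y ∈ SB, α x * β y * G (x * y) =
      ∑ x ∈ SA, ∑ y ∈ SB, α x * β' y * G (x * y) := by
    refine sum_congr rfl fun x _ => sum_congr rfl fun y hy => ?_
    simp only [hβ', if_pos hy]
  have hSAp : ∀ x ∈ SA, IsPrim x := fun x hx => (hSA x hx).1.1
  have hSBp : ∀ x ∈ SB, IsPrim x := fun x hx => (hSB x hx).1.1
  have hcs := cauchy (β := β') hSAp hSBp hα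
  have hS := S_bound hC hL' hCs hSig hA hB (Real.exp_pos (-k)).le hκ1 hJ1 hJκ (SA := SA)
    (SB := SB) (β := β') (fun x hx => ⟨hSAp x hx, (hSA x hx).2.1, (hSA x hx).2.2⟩)
    (fun x hx => ⟨hSBp x hx, (hSB x hx).1.2, (hSB x hx).2.1, (hSB x hx).2.2⟩) hβ'1
  rw [← hLdef] at hS
  -- logarithms
  have hlogJ : 2 + Real.log J ≤ 2 * L := by
    have h1 : Real.log J ≤ k / 36 := by
      rw [Real.log_le_iff_le_exp hJ0]; exact hJle
    rw [hLeq]; linarith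
  have hLc1 : 1 ≤ L ^ c := Real.one_le_rpow hL1 hc
  have hLc : L * L ^ c = L ^ (1 + c) := by
    rw [Real.rpow_add hL0, Real.rpow_one]
  have hL1c : L ≤ L ^ (1 + c) := by rw [← hLc]; exact le_mul_of_one_le_right hL0.le hLc1
  have hLcc : L ^ c ≤ L ^ (1 + c) := by
    rw [← hLc]; exact le_mul_of_one_le_left (by linarith) hL1
  set LL : ℝ := L ^ (1 + c) with hLL
  have hLL1 : 1 ≤ LL := by linarith
  have hinvJ : (1 : ℝ) / J ≤ 2 * Real.exp (-(k / 36)) := by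
    rw [Real.exp_neg, div_le_iff₀ hJ0, mul_assoc, ← div_eq_inv_mul]
    rw [← mul_div_assoc, le_div_iff₀ (Real.exp_pos _)]
    linarith
  have hJ9 : (J : ℝ) ^ 9 ≤ Real.exp (k / 4) := by
    calc (J : ℝ) ^ 9 ≤ (Real.exp (k / 36)) ^ 9 := by gcongr
      _ = Real.exp (k / 4) := by rw [← Real.exp_nat_mul]; congr 1; push_cast; ring
  -- the four terms of `Mb`
  set M := Mb (Real.exp a) (Real.exp b) (Real.exp (-k)) with hM
  have hM0 : 0 ≤ M := Mb_nonneg (Real.exp_pos _) (Real.exp_pos _) (Real.exp_pos _).le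
  set T1 : ℝ := Real.exp (5 * (a + b) / 3 - (2 + 1 / 36) * k) with hT1
  set T2 : ℝ := Real.exp (2 * a + b - (2 + 1 / 36) * k) with hT2
  have hMle : Real.exp (-k) * Real.exp a * (Real.exp a * Real.exp (k / 4) * M) ≤ 4 * T1 :=
    four_terms hb0 hk0 hk1 hb1 hb2
  have hT1' : 0 < T1 := Real.exp_pos _
  have hT2' : 0 < T2 := Real.exp_pos _
  -- total
  have hS0 : 0 ≤ ∑ x ∈ SA, ‖Fs SB β' x‖ ^ 2 := sum_nonneg fun _ _ => by positivity
  have hbig : (SA.card : ℝ) * ∑ x ∈ SA, ‖Fs SB β' x‖ ^ 2 ≤ K2 * LL * (T1 + T2) := by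
    have hS1 : ∑ x ∈ SA, ‖Fs SB β' x‖ ^ 2 ≤ 8 * Real.exp 2 * (LL * (632 *
        (Real.exp (-(k / 36)) * Real.exp a * (Real.exp (-k) * Real.exp b)) +
        K1 * (Real.exp a * Real.exp (k / 4) * M))) := by
      refine hS.trans ?_
      apply mul_le_mul_of_nonneg_left _ (by positivity)
      rw [mul_add LL]
      apply add_le_add
      · calc (2 + Real.log J) / J * Real.exp a * (SB.card : ℝ)
            = (2 + Real.log J) * (1 / J) * Real.exp a * (SB.card : ℝ) := by ring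
          _ ≤ (2 * L) * (2 * Real.exp (-(k / 36))) * Real.exp a *
              (158 * (Real.exp (-k) * Real.exp b)) := by
              have : 0 ≤ Real.log J := Real.log_nonneg hJ1'
              gcongr
          _ = L * (632 * (Real.exp (-(k / 36)) * Real.exp a * (Real.exp (-k) * Real.exp b))) := by
              ring
          _ ≤ _ := by gcongr
      · calc Real.exp a * (J : ℝ) ^ 9 * (4 * 24 ^ 6 * C * (Cs * L ^ c * M))
            = L ^ c * (K1 * (Real.exp a * (J : ℝ) ^ 9 * M)) := by rw [hK1]; ring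
          _ ≤ LL * (K1 * (Real.exp a * Real.exp (k / 4) * M)) := by gcongr
    have e0 : Real.exp (-k) * Real.exp a *
        (Real.exp (-(k / 36)) * Real.exp a * (Real.exp (-k) * Real.exp b)) = T2 := by
      rw [hT2]
      simp only [← Real.exp_add]
      congr 1; ring
    exact combine hcA (by positivity) hS0 he2 (by linarith) hK1'.le hS1 e0 hMle hT1'.le hT2'.le
  -- square root
  set Q : ℝ := (Real.exp a * Real.exp b) ^ (5 / 6 : ℝ) + Real.exp a * Real.exp b ^ (1 / 2 : ℝ)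
    with hQ
  have hQ0 : 0 ≤ Q := by positivity
  have hfin : T1 + T2 ≤ (Real.exp (-k) ^ (1 + 1 / 72 : ℝ) * Q) ^ 2 := target_sq a b k
  rw [hsum]
  have hR0 : 0 ≤ (1 + K2) * LL * Real.exp (-k) ^ (1 + 1 / 72 : ℝ) * Q := by positivity
  refine abs_le_of_sq_le_sq' ?_ hR0 |>.2
  calc ‖∑ x ∈ SA, ∑ y ∈ SB, α x * β' y * G (x * y)‖ ^ 2
      ≤ SA.card * ∑ x ∈ SA, ‖Fs SB β' x‖ ^ 2 := hcs
    _ ≤ K2 * LL * (T1 + T2) := hbig
    _ ≤ K2 * LL * (Real.exp (-k) ^ (1 + 1 / 72 : ℝ) * Q) ^ 2 := by gcongr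
    _ ≤ ((1 + K2) ^ 2 * LL ^ 2) * (Real.exp (-k) ^ (1 + 1 / 72 : ℝ) * Q) ^ 2 := by
        apply mul_le_mul_of_nonneg_right _ (by positivity)
        have h1 : K2 ≤ (1 + K2) ^ 2 := by
          have e : (1 + K2) ^ 2 = 1 + 2 * K2 + K2 ^ 2 := by ring
          rw [e]; linarith [sq_nonneg K2]
        have h2 : LL ≤ LL ^ 2 := le_self_pow₀ hLL1 two_ne_zero
        exact mul_le_mul h1 h2 (by linarith) (by positivity)
    _ = ((1 + K2) * LL * Real.exp (-k) ^ (1 + 1 / 72 : ℝ) * Q) ^ 2 := by ring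

/-- helper671's bound in the form of `SigCell`. -/
theorem sigCell : ∃ Cs c : ℝ, 0 < Cs ∧ 0 ≤ c ∧ SigCell Cs c := by
  obtain ⟨C, hC, h⟩ := T8.sig_cell
  refine ⟨3 * C, 2, by positivity, by norm_num, ?_⟩
  intro A B κ τ S β hA hB hκ0 hκ1 hS hβ
  have hA0 : 0 < A := by linarith
  have hB0 : 0 < B := by linarith
  refine (h A B κ τ S (S.biUnion pdiv) β hA0 hB hκ0 hκ1 hS (fun b _ => hβ b) ?_).trans ?_
  · intro d hd
    rw [mem_biUnion] at hd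
    obtain ⟨b, hb, hd⟩ := hd
    exact ((mem_pdiv (hS b hb).1.ne_zero).mp hd).1
  set t : ℝ := 1 + τ ^ 2 with ht
  have ht1 : 1 ≤ t := by rw [ht]; nlinarith [sq_nonneg τ]
  set L : ℝ := 1 + Real.log (A * B) with hL
  have hAB : 4 ≤ A * B := by nlinarith
  have hlog0 : 0 ≤ Real.log (A * B) := Real.log_nonneg (by linarith)
  have hL1 : 1 ≤ L := by linarith
  set X : ℝ := B ^ 2 / A with hX
  have hX0 : 0 ≤ X := by positivity
  have htX : t * B ^ 2 / A = t * X := by rw [hX]; ring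
  have hXle : 1 + X ≤ 2 * (A * B) ^ 2 := by
    have h1 : X ≤ B ^ 2 := by
      rw [hX]; exact div_le_self (by positivity) (by linarith)
    have h2 : B ^ 2 ≤ (A * B) ^ 2 := by
      apply pow_le_pow_left₀ hB0.le
      nlinarith
    have h3 : 1 ≤ (A * B) ^ 2 := one_le_pow₀ (by linarith)
    linarith
  have hlogX : Real.log (1 + X) ≤ 1 + 2 * Real.log (A * B) := by
    have h1 : Real.log (1 + X) ≤ Real.log (2 * (A * B) ^ 2) :=
      Real.log_le_log (by linarith) hXle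
    rw [Real.log_mul (by norm_num) (by positivity), Real.log_pow] at h1
    have h2 := Real.log_two_lt_d9
    push_cast at h1
    linarith
  have hlogX0 : 0 ≤ Real.log (1 + X) := Real.log_nonneg (by linarith)
  have hlog1 : 1 + Real.log (1 + t * X) ≤ t * (3 * L) := by
    have h1 : Real.log (1 + t * X) ≤ Real.log (t * (1 + X)) := by
      apply Real.log_le_log (by positivity)
      nlinarith
    rw [Real.log_mul (by positivity) (by positivity)] at h1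
    have h2 : Real.log t ≤ t - 1 := Real.log_le_sub_one_of_pos (by linarith)
    have h3 : 1 + Real.log (1 + X) ≤ 3 * L := by rw [hL]; linarith
    nlinarith
  have hlog2 : 1 + Real.log B ≤ L := by
    rw [hL]
    have : Real.log B ≤ Real.log (A * B) := by
      apply Real.log_le_log hB0
      nlinarith
    linarith
  have hlogB0 : 0 ≤ Real.log B := Real.log_nonneg (by linarith)
  have hlogtX0 : 0 ≤ Real.log (1 + t * X) := Real.log_nonneg (by nlinarith)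
  have hM : (t * X) ^ ((1:ℝ) / 3) * (κ ^ ((4:ℝ) / 3) * B + B ^ ((1:ℝ) / 2)) + t * X +
      (t * X) ^ 2 ≤ t ^ 2 * Mb A B κ := by
    have h1 : (t * X) ^ ((1:ℝ) / 3) ≤ t ^ 2 * (B ^ ((2:ℝ) / 3) * A ^ (-(1 / 3) : ℝ)) := by
      rw [Real.mul_rpow (by linarith) hX0]
      have e1 : t ^ ((1:ℝ) / 3) ≤ t ^ 2 := by
        rw [← Real.rpow_natCast]
        apply Real.rpow_le_rpow_of_exponent_le ht1
        norm_num
      have e2 : X ^ ((1:ℝ) / 3) = B ^ ((2:ℝ) / 3) * A ^ (-(1 / 3) : ℝ) := by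
        rw [hX, Real.div_rpow (by positivity) hA0.le, ← Real.rpow_natCast, ← Real.rpow_mul hB0.le,
          Real.rpow_neg hA0.le, div_eq_mul_inv]
        norm_num
      rw [e2]
      gcongr
    have h2 : B ^ ((2:ℝ) / 3) * A ^ (-(1 / 3) : ℝ) * (κ ^ ((4:ℝ) / 3) * B + B ^ ((1:ℝ) / 2)) =
        κ ^ (4 / 3 : ℝ) * B ^ (5 / 3 : ℝ) * A ^ (-(1 / 3) : ℝ) +
          B ^ (7 / 6 : ℝ) * A ^ (-(1 / 3) : ℝ) := by
      have e1 : B ^ (5 / 3 : ℝ) = B ^ ((2:ℝ) / 3) * B := by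
        rw [show (5 / 3 : ℝ) = 2 / 3 + 1 by norm_num, Real.rpow_add hB0, Real.rpow_one]
      have e2 : B ^ (7 / 6 : ℝ) = B ^ ((2:ℝ) / 3) * B ^ ((1:ℝ) / 2) := by
        rw [← Real.rpow_add hB0]; norm_num
      rw [e1, e2]; ring
    have h3 : t * X ≤ t ^ 2 * X := by nlinarith [mul_nonneg (by linarith : 0 ≤ t) hX0]
    have h4 : (t * X) ^ 2 = t ^ 2 * (B ^ 4 / A ^ 2) := by
      rw [hX]; field_simp
    calc _ ≤ t ^ 2 * (B ^ ((2:ℝ) / 3) * A ^ (-(1 / 3) : ℝ)) *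
          (κ ^ ((4:ℝ) / 3) * B + B ^ ((1:ℝ) / 2)) + t ^ 2 * X + t ^ 2 * (B ^ 4 / A ^ 2) := by
          rw [h4]
          gcongr
      _ = t ^ 2 * Mb A B κ := by
          unfold Mb
          rw [mul_assoc (t ^ 2), h2]
          ring
  have hMb0 : 0 ≤ Mb A B κ := Mb_nonneg hA0 hB0 hκ0
  rw [htX]
  calc C * (1 + Real.log (1 + t * X)) * (1 + Real.log B) *
        ((t * X) ^ ((1:ℝ) / 3) * (κ ^ ((4:ℝ) / 3) * B + B ^ ((1:ℝ) / 2)) + t * X +
      (t * X) ^ 2) ≤ C * (t * (3 * L)) * L * (t ^ 2 * Mb A B κ) := by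
        gcongr
    _ = 3 * C * L ^ (2 : ℝ) * t ^ 3 * Mb A B κ := by
        rw [Real.rpow_two]; ring

/-- **T8b** (the bilinear bound on `κ`-cells), unconditional. -/
theorem t8b : EdgeSharp968.T8b := by
  obtain ⟨Cs, c, hCs, hc, h⟩ := sigCell
  exact t8b_of hCs hc h

end Crest.Agent.R012.T8b968
end
end

-- ▼ part R012/T8a_810
section

/-!
# Row 12 (T8a): upper bound for arbitrary coefficients, Gaussian (real) weight

`T8a`: `∑_{a primary} exp(-N(a)/A) |∑_{b ∈ S} β_b G(b) conj (a/b)|² ≤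
 C (A ∑|β|² + (1 + log B)(A^(2/3) B^(2/3) + B + B³/A) ∑ τ(b)³ |β_b|²)`.
-/

set_option autoImplicit false
set_option linter.unusedSimpArgs false
set_option linter.unusedVariables false

noncomputable section

open Finset Complex MeasureTheory

namespace Crest.Agent.R012.T8

open Eis Tau671
open Gauss880 (syG)
open Mob705 (mu pdiv mem_pdiv)
open Div277 (tau)

lemma card_le_of_nm_le {T : Finset Eis} {Y : ℝ} (hY : 0 ≤ Y)
    (hT : ∀ m ∈ T, IsPrim m ∧ (nm m : ℝ) ≤ Y) : (T.card : ℝ) ≤ 100 * Y := by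
  have h1 : T ⊆ primBall ⌊Y⌋₊ := by
    intro m hm
    rw [mem_primBall]
    exact ⟨Nat.le_floor (hT m hm).2, (hT m hm).1⟩
  have h2 : (T.card : ℝ) ≤ (primBall ⌊Y⌋₊).card := by exact_mod_cast Finset.card_le_card h1
  refine h2.trans ((Lat277.card_primBall_le _).trans ?_)
  have := Nat.floor_le hY
  linarith

lemma Phi_mono {K K' N N' ν ν' : ℝ} (hK : 0 ≤ K) (hN : 0 ≤ N) (hν : 0 ≤ ν) (h1 : K ≤ K')
    (h2 : N ≤ N') (h3 : ν ≤ ν') : Phi K N ν ≤ Phi K' N' ν' := by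
  unfold Phi
  have hl : Real.log (1 + K) ≤ Real.log (1 + K') := Real.log_le_log (by linarith) (by linarith)
  have hl0 : 0 ≤ Real.log (1 + K) := Real.log_nonneg (by linarith)
  have hK' : 0 ≤ K' := hK.trans h1
  have hN' : 0 ≤ N' := hN.trans h2
  have hν' : 0 ≤ ν' := hν.trans h3
  have h4 : 0 ≤ 1 + Real.log (1 + K') := by linarith
  apply mul_le_mul (by linarith) _ (by positivity) h4
  gcongr

open Classical in
/-- Counting the factorizations. -/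
lemma sum_fact_le {S D : Finset Eis} (hS : ∀ b ∈ S, IsPrim b) (hD : ∀ d ∈ D, IsPrim d)
    (f : Eis → ℝ) (hf : ∀ b, 0 ≤ f b) :
    ∑ e ∈ D, ∑ d ∈ pdiv e, ∑ g ∈ D, ∑ m ∈ Kg S D e g, f (e * (g * m)) ≤
      ∑ b ∈ S, (tau b : ℝ) ^ 3 * f b := by
  -- rewrite as a sum over quadruples
  have e1 : ∑ e ∈ D, ∑ d ∈ pdiv e, ∑ g ∈ D, ∑ m ∈ Kg S D e g, f (e * (g * m)) =
      ∑ q ∈ D.sigma (fun e => (pdiv e) ×ˢ (D.sigma (fun g => Kg S D e g))),
        f (q.1 * (q.2.2.1 * q.2.2.2)) := by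
    rw [Finset.sum_sigma]
    refine Finset.sum_congr rfl fun e _ => ?_
    rw [Finset.sum_product]
    refine Finset.sum_congr rfl fun d _ => ?_
    rw [Finset.sum_sigma]
  have e2 : ∑ b ∈ S, (tau b : ℝ) ^ 3 * f b =
      ∑ b ∈ S, ∑ t ∈ (pdiv b) ×ˢ (pdiv b) ×ˢ (pdiv b), f b := by
    refine Finset.sum_congr rfl fun b _ => ?_
    rw [Finset.sum_const, nsmul_eq_mul, Finset.card_product, Finset.card_product]
    have : ((pdiv b).card : ℝ) = tau b := rfl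
    push_cast
    rw [this]; ring
  rw [e1, e2, Finset.sum_sigma' S (fun b => (pdiv b) ×ˢ (pdiv b) ×ˢ (pdiv b)) (fun b _ => f b)]
  set Q := D.sigma (fun e => (pdiv e) ×ˢ (D.sigma (fun g => Kg S D e g))) with hQ
  set φ : (Σ _ : Eis, Eis × (Σ _ : Eis, Eis)) → (Σ _ : Eis, Eis × Eis × Eis) :=
    fun q => ⟨q.1 * (q.2.2.1 * q.2.2.2), (q.1, q.2.1, q.2.2.1)⟩ with hφ
  have hmap : ∀ q ∈ Q, φ q ∈ S.sigma (fun b => (pdiv b) ×ˢ (pdiv b) ×ˢ (pdiv b)) := by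
    rintro ⟨e, d, g, m⟩ hq
    rw [hQ] at hq
    simp only [Finset.mem_sigma, Finset.mem_product] at hq
    obtain ⟨he, hd, hg, hm⟩ := hq
    rw [Kg, Finset.mem_filter] at hm
    have hb := (hS _ hm.2).ne_zero
    have hep := hD _ he
    have hdd := (mem_pdiv hep.ne_zero).mp hd
    rw [hφ]
    simp only [Finset.mem_sigma, Finset.mem_product]
    refine ⟨hm.2, (mem_pdiv hb).mpr ⟨hep, dvd_mul_right _ _⟩,
      (mem_pdiv hb).mpr ⟨hdd.1, hdd.2.trans (dvd_mul_right _ _)⟩,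
      (mem_pdiv hb).mpr ⟨hD _ hg, (dvd_mul_right _ _).trans (dvd_mul_left _ _)⟩⟩
  have hinj : Set.InjOn φ (Q : Set _) := by
    rintro ⟨e, d, g, m⟩ hq ⟨e', d', g', m'⟩ hq' h
    rw [hφ] at h
    simp only [Sigma.mk.injEq, heq_eq_eq, Prod.mk.injEq] at h
    obtain ⟨h1, rfl, rfl, rfl⟩ := h
    rw [Finset.mem_coe, hQ] at hq
    simp only [Finset.mem_sigma, Finset.mem_product] at hq
    have he0 := (hD _ hq.1).ne_zero
    have hg0 := (hD _ hq.2.2.1).ne_zero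
    have := mul_left_cancel₀ hg0 (mul_left_cancel₀ he0 h1)
    rw [this]
  calc ∑ q ∈ Q, f (q.1 * (q.2.2.1 * q.2.2.2)) = ∑ t ∈ Q.image φ, f t.1 := by
        rw [Finset.sum_image hinj]
    _ ≤ _ := by
        apply Finset.sum_le_sum_of_subset_of_nonneg
        · intro t ht
          obtain ⟨q, hq, rfl⟩ := Finset.mem_image.mp ht
          exact hmap q hq
        · intro t _ _
          exact hf _

lemma log_bound {B K : ℝ} (hB : 1 ≤ B) (hK0 : 0 ≤ K) (hK : K ≤ B ^ 2) :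
    1 + Real.log (1 + K) ≤ 2 * (1 + Real.log B) := by
  have h1 : Real.log (1 + K) ≤ Real.log (2 * B ^ 2) := by
    apply Real.log_le_log (by linarith)
    nlinarith
  have h2 : Real.log (2 * B ^ 2) = Real.log 2 + 2 * Real.log B := by
    rw [Real.log_mul (by norm_num) (by positivity), Real.log_pow]; norm_num
  have h3 : Real.log 2 ≤ 1 := by
    have := Real.log_le_sub_one_of_pos (show (0:ℝ) < 2 by norm_num)
    linarith
  linarith

/-- the target factor -/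
def Tgt (A B : ℝ) : ℝ := (1 + Real.log B) * (A ^ ((2:ℝ)/3) * B ^ ((2:ℝ)/3) + B + B ^ 3 / A)

/-- Bound of one term of `Sig` for `τ = 0`. -/
lemma term_le {S D : Finset Eis} {A B : ℝ} (hA : 1 ≤ A) (hB : 1 ≤ B)
    (hS : ∀ b ∈ S, IsPrim b ∧ Squarefree b ∧ B ≤ nm b ∧ (nm b : ℝ) ≤ 2 * B)
    (hD : ∀ d ∈ D, IsPrim d) (β : Eis → ℂ) {e d g : Eis} (he : IsPrim e) (hd : IsPrim d)
    (hde : d ∣ e) (hg : IsPrim g) :
    A * ((nm d : ℝ)⁻¹ * (nm g : ℝ)⁻¹ *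
      (Phi (Keff A B 0 e d) (max 1 (B / (nm e * nm g))) (1 + (Kg S D e g).card) *
        ∑ m ∈ Kg S D e g, ‖β (e * (g * m))‖ ^ 2 / nm m)) ≤
      404 * Tgt A B * ∑ m ∈ Kg S D e g, ‖β (e * (g * m))‖ ^ 2 := by
  rcases Finset.eq_empty_or_nonempty (Kg S D e g) with hE | ⟨m0, hm0⟩
  · rw [hE]; simp
  have he1 : (1 : ℝ) ≤ nm e := by exact_mod_cast nm_pos.mpr he.ne_zero
  have hg1 : (1 : ℝ) ≤ nm g := by exact_mod_cast nm_pos.mpr hg.ne_zero
  have hd1 : (1 : ℝ) ≤ nm d := by exact_mod_cast nm_pos.mpr hd.ne_zero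
  have hde1 : (nm d : ℝ) ≤ nm e := by exact_mod_cast Div277.nm_le_of_dvd he.ne_zero hde
  have hA0 : 0 < A := by linarith
  have hB0 : 0 < B := by linarith
  have hmem : ∀ m ∈ Kg S D e g, IsPrim m ∧ B ≤ nm e * nm g * nm m ∧
      (nm e * nm g * nm m : ℝ) ≤ 2 * B := by
    intro m hm
    rw [Kg, Finset.mem_filter] at hm
    obtain ⟨-, -, h3, h4⟩ := hS _ hm.2
    rw [nm_mul, nm_mul] at h3 h4
    push_cast at h3 h4
    exact ⟨hD _ hm.1, by linarith, by linarith⟩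
  -- `N_g ≥ 1/2`
  set Ng := B / (nm e * nm g) with hNg
  have hNg0 : 0 < Ng := by rw [hNg]; positivity
  have hNg1 : 1 ≤ 2 * Ng := by
    obtain ⟨h1, h2, h3⟩ := hmem m0 hm0
    have hm1 : (1 : ℝ) ≤ nm m0 := by exact_mod_cast nm_pos.mpr h1.ne_zero
    rw [hNg, mul_div_assoc', le_div_iff₀ (by positivity), one_mul]
    have : (nm e * nm g : ℝ) ≤ nm e * nm g * nm m0 := le_mul_of_one_le_right (by positivity) hm1
    linarith
  have hcard : ((Kg S D e g).card : ℝ) ≤ 200 * Ng := by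
    have h1 := card_le_of_nm_le (T := Kg S D e g) (Y := 2 * Ng) (by positivity) (fun m hm => by
      obtain ⟨h1, h2, h3⟩ := hmem m hm
      refine ⟨h1, ?_⟩
      rw [hNg, mul_div_assoc', le_div_iff₀ (by positivity)]
      linarith)
    linarith
  -- the effective length
  set K := Keff A B 0 e d with hK
  set K1 := nm d * B ^ 2 / (A * (nm e) ^ 2) with hK1
  have hK0 : 0 ≤ K := by rw [hK]; unfold Keff; positivity
  have hKK1 : K ≤ K1 := by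
    rw [hK, hK1]
    unfold Keff
    have h1 : 27 * (1 + (0:ℝ) ^ 2) * nm d * B ^ 2 / (4 * Real.pi ^ 2 * A * (nm e) ^ 2) =
        (27 / (4 * Real.pi ^ 2)) * (nm d * B ^ 2 / (A * (nm e) ^ 2)) := by
      have := Real.pi_pos
      field_simp
      ring
    rw [h1]
    apply mul_le_of_le_one_left (by positivity)
    rw [div_le_one (by positivity)]
    nlinarith [Real.pi_gt_three]
  have hK10 : 0 < K1 := by rw [hK1]; positivity
  have hK1B : K1 ≤ B ^ 2 := by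
    rw [hK1, div_le_iff₀ (by positivity)]
    have h1 : (nm d : ℝ) ≤ A * (nm e) ^ 2 := by nlinarith
    nlinarith [mul_nonneg (sq_nonneg B) (sub_nonneg.mpr h1)]
  have hPhi : Phi K (max 1 Ng) (1 + (Kg S D e g).card) ≤ Phi K1 (202 * Ng) (202 * Ng) := by
    apply Phi_mono hK0 (by positivity) (by positivity) hKK1
    · exact max_le (by linarith) (by linarith)
    · linarith
  have hN13 : (202 * Ng) ^ ((2:ℝ)/3) * (202 * Ng) ^ ((1:ℝ)/3) = 202 * Ng := by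
    rw [← Real.rpow_add (by positivity)]; norm_num
  have hPhi2 : Phi K1 (202 * Ng) (202 * Ng) ≤ 2 * (1 + Real.log B) *
      (202 * (K1 ^ ((1:ℝ)/3) * Ng) + K1 + K1 ^ 2) := by
    unfold Phi
    rw [mul_assoc (K1 ^ ((1:ℝ)/3)), hN13]
    have h1 := log_bound hB hK10.le hK1B
    have h2 : K1 ^ ((1:ℝ)/3) * (202 * Ng) + K1 + K1 ^ 2 =
      202 * (K1 ^ ((1:ℝ)/3) * Ng) + K1 + K1 ^ 2 := by ring
    rw [h2]
    apply mul_le_mul_of_nonneg_right h1 (by positivity)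
  -- the sum over `m`
  have hsum : (nm g : ℝ)⁻¹ * ∑ m ∈ Kg S D e g, ‖β (e * (g * m))‖ ^ 2 / nm m ≤
      nm e / B * ∑ m ∈ Kg S D e g, ‖β (e * (g * m))‖ ^ 2 := by
    rw [Finset.mul_sum, Finset.mul_sum]
    refine Finset.sum_le_sum fun m hm => ?_
    obtain ⟨h1, h2, h3⟩ := hmem m hm
    have hm1 : (1 : ℝ) ≤ nm m := by exact_mod_cast nm_pos.mpr h1.ne_zero
    have h4 : (nm g : ℝ)⁻¹ * (‖β (e * (g * m))‖ ^ 2 / nm m) =
        (nm g * nm m : ℝ)⁻¹ * ‖β (e * (g * m))‖ ^ 2 := by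
      field_simp
    rw [h4]
    apply mul_le_mul_of_nonneg_right _ (by positivity)
    rw [inv_le_comm₀ (by positivity) (by positivity), inv_div, div_le_iff₀ (by positivity)]
    linarith
  set W0 := ∑ m ∈ Kg S D e g, ‖β (e * (g * m))‖ ^ 2 with hW
  have hW0 : 0 ≤ W0 := Finset.sum_nonneg fun m _ => by positivity
  have hlog : 0 ≤ 1 + Real.log B := by have := Real.log_nonneg hB; linarith
  -- the three terms
  have t1 : A * (nm d : ℝ)⁻¹ * (nm e / B) * (K1 ^ ((1:ℝ)/3) * Ng) ≤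
      A ^ ((2:ℝ)/3) * B ^ ((2:ℝ)/3) := by
    have h1 : K1 ≤ nm d * (B ^ 2 / A) := by
      rw [hK1, mul_div_assoc]
      apply mul_le_mul_of_nonneg_left _ (by positivity)
      apply div_le_div_of_nonneg_left (by positivity) hA0
      exact le_mul_of_one_le_right hA0.le (one_le_pow₀ he1)
    have h2 : K1 ^ ((1:ℝ)/3) ≤ nm d * (B ^ ((2:ℝ)/3) * A ^ (-(1:ℝ)/3)) := by
      calc K1 ^ ((1:ℝ)/3) ≤ (nm d * (B ^ 2 / A)) ^ ((1:ℝ)/3) := by gcongr
        _ = (nm d : ℝ) ^ ((1:ℝ)/3) * (B ^ ((2:ℝ)/3) * A ^ (-(1:ℝ)/3)) := by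
            rw [Real.mul_rpow (by positivity) (by positivity), Real.div_rpow (by positivity)
              hA0.le, ← Real.rpow_natCast B 2, ← Real.rpow_mul hB0.le, neg_div,
              Real.rpow_neg hA0.le]
            norm_num
            left
            rw [div_eq_mul_inv]
        _ ≤ nm d * (B ^ ((2:ℝ)/3) * A ^ (-(1:ℝ)/3)) := by
            apply mul_le_mul_of_nonneg_right _ (by positivity)
            calc (nm d : ℝ) ^ ((1:ℝ)/3) ≤ (nm d : ℝ) ^ (1:ℝ) :=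
                  Real.rpow_le_rpow_of_exponent_le hd1 (by norm_num)
              _ = nm d := Real.rpow_one _
    have h3 : Ng ≤ B / nm e := by
      rw [hNg]
      apply div_le_div_of_nonneg_left (by positivity) (by positivity)
      exact le_mul_of_one_le_right (by positivity) hg1
    calc A * (nm d : ℝ)⁻¹ * (nm e / B) * (K1 ^ ((1:ℝ)/3) * Ng) ≤
        A * (nm d : ℝ)⁻¹ * (nm e / B) * ((nm d * (B ^ ((2:ℝ)/3) * A ^ (-(1:ℝ)/3))) *
          (B / nm e)) := by gcongr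
      _ = (A * A ^ (-(1:ℝ)/3)) * B ^ ((2:ℝ)/3) := by field_simp
      _ = _ := by
          congr 1
          nth_rewrite 1 [← Real.rpow_one A]
          rw [← Real.rpow_add hA0]; norm_num
  have t2 : A * (nm d : ℝ)⁻¹ * (nm e / B) * K1 ≤ B := by
    have : A * (nm d : ℝ)⁻¹ * (nm e / B) * K1 = B / nm e := by
      rw [hK1]; field_simp
    rw [this]
    exact div_le_self hB0.le he1
  have t3 : A * (nm d : ℝ)⁻¹ * (nm e / B) * K1 ^ 2 ≤ B ^ 3 / A := by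
    have h1 : A * (nm d : ℝ)⁻¹ * (nm e / B) * K1 ^ 2 = (B ^ 3 / A) * (nm d / (nm e) ^ 3) := by
      rw [hK1]; field_simp
    rw [h1]
    apply mul_le_of_le_one_right (by positivity)
    rw [div_le_one (by positivity)]
    calc (nm d : ℝ) ≤ nm e := hde1
      _ = (nm e : ℝ) ^ 1 := (pow_one _).symm
      _ ≤ (nm e : ℝ) ^ 3 := pow_le_pow_right₀ he1 (by norm_num)
  calc A * ((nm d : ℝ)⁻¹ * (nm g : ℝ)⁻¹ *
      (Phi K (max 1 Ng) (1 + (Kg S D e g).card) *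
        ∑ m ∈ Kg S D e g, ‖β (e * (g * m))‖ ^ 2 / nm m)) =
      A * (nm d : ℝ)⁻¹ * Phi K (max 1 Ng) (1 + (Kg S D e g).card) * ((nm g : ℝ)⁻¹ *
        ∑ m ∈ Kg S D e g, ‖β (e * (g * m))‖ ^ 2 / nm m) := by ring
    _ ≤ A * (nm d : ℝ)⁻¹ * (2 * (1 + Real.log B) *
      (202 * (K1 ^ ((1:ℝ)/3) * Ng) + K1 + K1 ^ 2)) * (nm e / B * W0) := by
        apply mul_le_mul _ hsum _ (by positivity)
        · apply mul_le_mul_of_nonneg_left (hPhi.trans hPhi2) (by positivity)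
        · exact mul_nonneg (by positivity) (Finset.sum_nonneg fun m _ => by positivity)
    _ = 2 * (1 + Real.log B) * (202 * (A * (nm d : ℝ)⁻¹ * (nm e / B) * (K1 ^ ((1:ℝ)/3) * Ng)) +
        A * (nm d : ℝ)⁻¹ * (nm e / B) * K1 + A * (nm d : ℝ)⁻¹ * (nm e / B) * K1 ^ 2) * W0 := by
        ring
    _ ≤ 2 * (1 + Real.log B) * (202 * (A ^ ((2:ℝ)/3) * B ^ ((2:ℝ)/3)) +
        B + B ^ 3 / A) * W0 := by gcongr
    _ ≤ 2 * (1 + Real.log B) * (202 * (A ^ ((2:ℝ)/3) * B ^ ((2:ℝ)/3) +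
        B + B ^ 3 / A)) * W0 := by
        have : 0 ≤ B ^ 3 / A := by positivity
        gcongr
        linarith
    _ = _ := by unfold Tgt; ring

/-- **T8a** -/
theorem T8a_norm {C : ℝ} (hC : 0 < C) (hL : LSH C) {S : Finset Eis} {A B : ℝ} (hA : 1 ≤ A)
    (hB : 1 ≤ B)
    (hS : ∀ b ∈ S, IsPrim b ∧ Squarefree b ∧ B ≤ nm b ∧ (nm b : ℝ) ≤ 2 * B) (β : Eis → ℂ) :
    ‖PS (1 / A) S β‖ ≤ A * ∑ b ∈ S, ‖β b‖ ^ 2 +
      4 * 24 ^ 6 * 404 * C * Tgt A B * ∑ b ∈ S, (tau b : ℝ) ^ 3 * ‖β b‖ ^ 2 := by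
  have hA0 : 0 < A := by linarith
  have hB0 : 0 < B := by linarith
  classical
  set D := S.biUnion pdiv with hD
  have hDp : ∀ d ∈ D, IsPrim d := by
    intro d hd
    rw [hD, Finset.mem_biUnion] at hd
    obtain ⟨b, hb, hd⟩ := hd
    exact ((mem_pdiv (hS b hb).1.ne_zero).mp hd).1
  have hSD : ∀ b ∈ S, ∀ d : Eis, IsPrim d → d ∣ b → d ∈ D := by
    intro b hb d hd hdb
    rw [hD, Finset.mem_biUnion]
    exact ⟨b, hb, (mem_pdiv (hS b hb).1.ne_zero).mpr ⟨hd, hdb⟩⟩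
  have h := master (τ := 0) hC hL hA0 hB0 hS hDp hSD β
  have e1 : ((1 - ((0:ℝ) : ℂ) * I) / A : ℂ) = 1 / A := by simp
  rw [e1] at h
  refine h.trans ?_
  have e2 : A / Real.sqrt (1 + (0:ℝ) ^ 2) = A := by simp
  rw [e2, mul_add]
  apply add_le_add le_rfl
  have e3 : A * (4 * 24 ^ 6 * C * (1 + (0:ℝ) ^ 2) ^ 2 * Sig S D β A B 0) =
      4 * 24 ^ 6 * C * (A * Sig S D β A B 0) := by ring
  rw [e3]
  have e4 : A * Sig S D β A B 0 ≤ 404 * Tgt A B * ∑ b ∈ S, (tau b : ℝ) ^ 3 * ‖β b‖ ^ 2 := by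
    unfold Sig
    have hT : 0 ≤ Tgt A B := by
      unfold Tgt
      have := Real.log_nonneg hB
      positivity
    calc _ ≤ 404 * Tgt A B * ∑ e ∈ D, ∑ d ∈ pdiv e, ∑ g ∈ D, ∑ m ∈ Kg S D e g,
          ‖β (e * (g * m))‖ ^ 2 := by
          rw [Finset.mul_sum, Finset.mul_sum]
          refine Finset.sum_le_sum fun e he => ?_
          rw [Finset.mul_sum, Finset.mul_sum]
          refine Finset.sum_le_sum fun d hd => ?_
          rw [Finset.mul_sum, Finset.mul_sum]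
          refine Finset.sum_le_sum fun g hg => ?_
          have hdd := (mem_pdiv (hDp _ he).ne_zero).mp hd
          exact term_le hA hB hS hDp β (hDp _ he) hdd.1 hdd.2 (hDp _ hg)
      _ ≤ _ := by
          apply mul_le_mul_of_nonneg_left _ (by positivity)
          exact sum_fact_le (fun b hb => (hS b hb).1) hDp (fun b => ‖β b‖ ^ 2)
            (fun b => by positivity)
  calc 4 * 24 ^ 6 * C * (A * Sig S D β A B 0) ≤ 4 * 24 ^ 6 * C *
      (404 * Tgt A B * ∑ b ∈ S, (tau b : ℝ) ^ 3 * ‖β b‖ ^ 2) := by gcongr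
    _ = _ := by ring

open Classical in
lemma PS_real {S : Finset Eis} {A : ℝ} (hA : 0 < A) (hS : ∀ b ∈ S, IsPrim b) (β : Eis → ℂ) :
    PS (1 / A) S β = ((∑' a : Eis, (if IsPrim a then Real.exp (-(nm a : ℝ) / A) *
      ‖∑ b ∈ S, β b * (G b * (starRingEnd ℂ) (sy a b))‖ ^ 2 else 0) : ℝ) : ℂ) := by
  unfold PS
  rw [Complex.ofReal_tsum]
  refine tsum_congr fun a => ?_
  by_cases ha : IsPrim a
  · rw [if_pos ha, if_pos ha, Complex.mul_conj, cg_toC]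
    push_cast
    rw [Complex.normSq_eq_norm_sq, mul_comm]
    have e1 : (-(1 / (A : ℂ)) * (nm a : ℂ)) = (-(nm a : ℂ) / (A : ℂ)) := by ring
    rw [e1]
    push_cast
    rfl
  · rw [if_neg ha, if_neg ha]; simp

lemma norm_D_le {S : Finset Eis} (hS : ∀ b ∈ S, IsPrim b) (β : Eis → ℂ) (a : Eis) :
    ‖∑ b ∈ S, β b * (G b * (starRingEnd ℂ) (sy a b))‖ ≤ ∑ b ∈ S, ‖β b‖ := by
  refine (norm_sum_le _ _).trans (Finset.sum_le_sum fun b hb => ?_)
  rw [norm_mul, norm_mul, RCLike.norm_conj]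
  apply mul_le_of_le_one_right (norm_nonneg _)
  exact mul_le_one₀ (Gauss880.norm_G_le syG (hS b hb)) (norm_nonneg _) (norm_sy_le (hS b hb))

open Classical in
lemma summable_real {S : Finset Eis} {A : ℝ} (hA : 0 < A) (hS : ∀ b ∈ S, IsPrim b)
    (β : Eis → ℂ) : Summable (fun a : Eis => if IsPrim a then Real.exp (-(nm a : ℝ) / A) *
      ‖∑ b ∈ S, β b * (G b * (starRingEnd ℂ) (sy a b))‖ ^ 2 else 0) := by
  have h1 := (summable_cg (s := 1 / A) (by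
    rw [show (1 / A : ℂ) = ((1 / A : ℝ) : ℂ) by push_cast; rfl, Complex.ofReal_re]
    positivity)).norm
  refine Summable.of_nonneg_of_le (fun a => ?_) (fun a => ?_)
    (h1.mul_left ((∑ b ∈ S, ‖β b‖) ^ 2))
  · split_ifs <;> positivity
  · have h2 : ‖cexp (-(1 / A : ℂ) * (nm a : ℂ))‖ = Real.exp (-(nm a : ℝ) / A) := by
      rw [Complex.norm_exp]
      congr 1
      rw [show (-(1 / A : ℂ) * (nm a : ℂ)) = ((-(nm a : ℝ) / A : ℝ) : ℂ) by push_cast; ring,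
        Complex.ofReal_re]
    rw [h2]
    split_ifs
    · rw [mul_comm]
      gcongr
      exact norm_D_le hS β a
    · positivity

open Classical in
/-- **T8a, real form** -/
theorem T8a_real {C : ℝ} (hC : 0 < C) (hL : LSH C) {S : Finset Eis} {A B : ℝ} (hA : 1 ≤ A)
    (hB : 1 ≤ B)
    (hS : ∀ b ∈ S, IsPrim b ∧ Squarefree b ∧ B ≤ nm b ∧ (nm b : ℝ) ≤ 2 * B) (β : Eis → ℂ) :
    ∑' a : Eis, (if IsPrim a then Real.exp (-(nm a : ℝ) / A) *
      ‖∑ b ∈ S, β b * (G b * (starRingEnd ℂ) (sy a b))‖ ^ 2 else 0) ≤ A * ∑ b ∈ S, ‖β b‖ ^ 2 +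
      4 * 24 ^ 6 * 404 * C * Tgt A B * ∑ b ∈ S, (tau b : ℝ) ^ 3 * ‖β b‖ ^ 2 := by
  have h := T8a_norm hC hL hA hB hS β
  rw [PS_real (by linarith) (fun b hb => (hS b hb).1) β, Complex.norm_real] at h
  exact (le_abs_self _).trans h

/-- **T8a, finite form**: `𝓐` any finite set of primary elements of norm `≤ A`. -/
theorem T8a_fin {C : ℝ} (hC : 0 < C) (hL : LSH C) {S 𝓐 : Finset Eis} {A B : ℝ} (hA : 1 ≤ A)
    (hB : 1 ≤ B)
    (hS : ∀ b ∈ S, IsPrim b ∧ Squarefree b ∧ B ≤ nm b ∧ (nm b : ℝ) ≤ 2 * B)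
    (h𝓐 : ∀ a ∈ 𝓐, IsPrim a ∧ (nm a : ℝ) ≤ A) (β : Eis → ℂ) :
    ∑ a ∈ 𝓐, ‖∑ b ∈ S, β b * (G b * (starRingEnd ℂ) (sy a b))‖ ^ 2 ≤
      3 * (A * ∑ b ∈ S, ‖β b‖ ^ 2 +
      4 * 24 ^ 6 * 404 * C * Tgt A B * ∑ b ∈ S, (tau b : ℝ) ^ 3 * ‖β b‖ ^ 2) := by
  classical
  have hA0 : 0 < A := by linarith
  have h := T8a_real hC hL hA hB hS β
  have hsm := summable_real hA0 (fun b hb => (hS b hb).1) β
  have h1 := hsm.sum_le_tsum 𝓐 (fun a _ => by split_ifs <;> positivity)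
  have h2 : ∑ a ∈ 𝓐, ‖∑ b ∈ S, β b * (G b * (starRingEnd ℂ) (sy a b))‖ ^ 2 ≤
      3 * ∑ a ∈ 𝓐, (if IsPrim a then Real.exp (-(nm a : ℝ) / A) *
      ‖∑ b ∈ S, β b * (G b * (starRingEnd ℂ) (sy a b))‖ ^ 2 else 0) := by
    rw [Finset.mul_sum]
    refine Finset.sum_le_sum fun a ha => ?_
    obtain ⟨h3, h4⟩ := h𝓐 a ha
    rw [if_pos h3, ← mul_assoc]
    apply le_mul_of_one_le_left (by positivity)
    have h5 : Real.exp (-1) ≤ Real.exp (-(nm a : ℝ) / A) := by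
      apply Real.exp_le_exp.mpr
      rw [neg_div, neg_le_neg_iff, div_le_one hA0]
      exact h4
    have h6 : 1 ≤ 3 * Real.exp (-1) := by
      rw [Real.exp_neg, ← div_eq_mul_inv, le_div_iff₀ (Real.exp_pos _), one_mul]
      have := Real.exp_one_lt_d9
      linarith
    linarith
  linarith

end Crest.Agent.R012.T8
end
end

-- ▼ part R012/T0x_810
section

/-!
# Row 12: `T0x_Prop` (arbitrary coefficients, index form)
-/

set_option autoImplicit false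
set_option linter.unusedSimpArgs false
set_option linter.unusedVariables false

noncomputable section

open Finset Complex MeasureTheory

namespace Crest.Agent.R012.T0x810

open Eis Buch420 Main48
open Gauss880 (syG)
open Div277 (tau dvs mem_dvs)
open T8 (LSH Tgt T8a_fin)

lemma tau_prd_le (T : Finset PrP) : tau (prd T) ≤ 2 ^ T.card := by
  classical
  have h : dvs (prd T) ⊆ T.powerset.image prd := by
    intro d hd
    rw [mem_dvs (prd_ne_zero T)] at hd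
    have hsf : Squarefree d := (squarefree_prd T).squarefree_of_dvd hd.2
    rw [Finset.mem_image]
    refine ⟨pset d, ?_, prd_pset hd.1 hsf⟩
    rw [Finset.mem_powerset, ← prd_dvd_prd_iff, prd_pset hd.1 hsf]
    exact hd.2
  calc tau (prd T) ≤ (T.powerset.image prd).card := Finset.card_le_card h
    _ ≤ T.powerset.card := Finset.card_image_le
    _ = 2 ^ T.card := Finset.card_powerset T

/-- Cauchy-Schwarz after grouping. -/
lemma group_cauchy {ι κ : Type*} [DecidableEq κ] (I : Finset ι) (a : ι → κ) (α : ι → ℝ) (F : κ → ℝ) :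
    ∑ i ∈ I, α i * F (a i) ≤
      Real.sqrt (∑ i ∈ I, ∑ j ∈ I, if a i = a j then α i * α j else 0) *
        Real.sqrt (∑ z ∈ I.image a, F z ^ 2) := by
  have h1 : ∑ i ∈ I, α i * F (a i) =
      ∑ z ∈ I.image a, (∑ i ∈ I.filter (fun i => a i = z), α i) * F z := by
    rw [← Finset.sum_fiberwise_of_maps_to (s := I) (t := I.image a) (g := a)
      (fun i hi => Finset.mem_image_of_mem a hi)]
    refine Finset.sum_congr rfl fun z _ => ?_
    rw [Finset.sum_mul]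
    refine Finset.sum_congr rfl fun i hi => ?_
    rw [(Finset.mem_filter.mp hi).2]
  have h2 : ∑ z ∈ I.image a, (∑ i ∈ I.filter (fun i => a i = z), α i) ^ 2 =
      ∑ i ∈ I, ∑ j ∈ I, if a i = a j then α i * α j else 0 := by
    rw [← Finset.sum_fiberwise_of_maps_to (s := I) (t := I.image a) (g := a)
      (fun i hi => Finset.mem_image_of_mem a hi) (fun i => ∑ j ∈ I, if a i = a j then α i * α j
        else 0)]
    refine Finset.sum_congr rfl fun z _ => ?_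
    rw [pow_two, Finset.sum_mul_sum]
    refine Finset.sum_congr rfl fun i hi => ?_
    rw [Finset.sum_filter]
    refine Finset.sum_congr rfl fun j _ => ?_
    rw [(Finset.mem_filter.mp hi).2]
    by_cases h : a j = z
    · rw [if_pos h, if_pos h.symm]
    · rw [if_neg h, if_neg (fun h' => h h'.symm)]
  rw [h1, ← h2]
  exact Real.sum_mul_le_sqrt_mul_sqrt _ _ _

/-- the Gauss sum form -/
def DD (l : ℤ) (S : Finset Eis) (γ : Eis → ℂ) (a : Eis) : ℂ :=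
  ∑ b ∈ S, (γ b * ang l b) * (G b * (starRingEnd ℂ) (sy a b))

lemma norm_Fl_sum_le (l : ℤ) {S : Finset Eis} {B : ℝ} (hB : 1 ≤ B)
    (hS : ∀ b ∈ S, IsPrim b ∧ Squarefree b ∧ B ≤ nm b ∧ (nm b : ℝ) ≤ 2 * B) (γ : Eis → ℂ)
    {a : Eis} (ha : IsPrim a) :
    ‖∑ b ∈ S, γ b * Fl l (a * b)‖ ≤ ‖DD l S γ a‖ +
      |pC| * ((nm a : ℝ) ^ (-(1:ℝ)/6) * (B ^ (-(1:ℝ)/6) * ∑ b ∈ S, ‖γ b‖)) := by
  classical
  have hB0 : 0 < B := by linarith
  have ha0 : (0 : ℝ) < nm a := by exact_mod_cast nm_pos.mpr ha.ne_zero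
  have e1 : ∀ b ∈ S, γ b * Fl l (a * b) =
      ang l a * G a * ((γ b * ang l b) * (G b * (starRingEnd ℂ) (sy a b))) -
      (if Squarefree (a * b) then γ b * (ang l (a * b) *
        ((pC * (nm (a * b) : ℝ) ^ (-(1 : ℝ) / 6) : ℝ) : ℂ)) else 0) := by
    intro b hb
    obtain ⟨hbp, hbs, -, -⟩ := hS b hb
    unfold Fl
    split_ifs with hsf
    · rw [Gauss880.G_mul_all syG ha hbp, P355.ang_mul]; ring
    · have h0 : G (a * b) = 0 := Gauss880.G_eq_zero syG (ha.mul hbp) hsf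
      rw [Gauss880.G_mul_all syG ha hbp] at h0
      linear_combination (-(ang l a * γ b * ang l b)) * h0
  rw [Finset.sum_congr rfl e1, Finset.sum_sub_distrib, ← Finset.mul_sum]
  refine (norm_sub_le _ _).trans (add_le_add ?_ ?_)
  · rw [norm_mul, norm_mul]
    have h1 : ‖ang l a‖ * ‖G a‖ ≤ 1 := mul_le_one₀ (P355.norm_ang_le l a) (norm_nonneg _)
      (Gauss880.norm_G_le syG ha)
    exact mul_le_of_le_one_left (norm_nonneg _) h1
  · refine (norm_sum_le _ _).trans ?_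
    rw [Finset.mul_sum, Finset.mul_sum, Finset.mul_sum]
    refine Finset.sum_le_sum fun b hb => ?_
    obtain ⟨hbp, hbs, hb1, -⟩ := hS b hb
    have hb0 : (0 : ℝ) < nm b := by linarith
    split_ifs
    · rw [norm_mul, norm_mul, Complex.norm_real, Real.norm_eq_abs, abs_mul,
        abs_of_nonneg (Real.rpow_nonneg (Nat.cast_nonneg _) _), nm_mul]
      push_cast
      rw [Real.mul_rpow ha0.le hb0.le]
      have h1 : (nm b : ℝ) ^ (-(1:ℝ)/6) ≤ B ^ (-(1:ℝ)/6) :=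
        Real.rpow_le_rpow_of_nonpos hB0 hb1 (by norm_num)
      have h2 := P355.norm_ang_le l (a * b)
      calc ‖γ b‖ * (‖ang l (a * b)‖ * (|pC| * ((nm a : ℝ) ^ (-(1:ℝ)/6) *
            (nm b : ℝ) ^ (-(1:ℝ)/6)))) ≤ ‖γ b‖ * (1 * (|pC| * ((nm a : ℝ) ^ (-(1:ℝ)/6) *
            B ^ (-(1:ℝ)/6)))) := by gcongr
        _ = _ := by ring
    · rw [norm_zero]; positivity

/-- Sum of `nm^{-1/3}`. -/
lemma sum_nm_third_le {T : Finset Eis} {Y : ℝ} (hY : 1 ≤ Y)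
    (hT : ∀ a ∈ T, IsPrim a ∧ (nm a : ℝ) ≤ Y) :
    ∑ a ∈ T, ((nm a : ℝ) ^ (-(1:ℝ)/6)) ^ 2 ≤ 100 * (1 + Real.log Y) * Y ^ ((2:ℝ)/3) := by
  have h1 : T ⊆ primBall ⌊Y⌋₊ := by
    intro m hm
    rw [mem_primBall]
    exact ⟨Nat.le_floor (hT m hm).2, (hT m hm).1⟩
  have h2 : ∀ a ∈ T, ((nm a : ℝ) ^ (-(1:ℝ)/6)) ^ 2 ≤ Y ^ ((2:ℝ)/3) * (1 / (nm a : ℝ)) := by
    intro a ha
    obtain ⟨h3, h4⟩ := hT a ha
    have ha0 : (0 : ℝ) < nm a := by exact_mod_cast nm_pos.mpr h3.ne_zero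
    have e1 : ((nm a : ℝ) ^ (-(1:ℝ)/6)) ^ 2 = (nm a : ℝ) ^ ((2:ℝ)/3) * (1 / (nm a : ℝ)) := by
      rw [← Real.rpow_natCast, ← Real.rpow_mul ha0.le, one_div, ← Real.rpow_neg_one,
        ← Real.rpow_add ha0]
      norm_num
    rw [e1]
    gcongr
  refine (Finset.sum_le_sum h2).trans ?_
  rw [← Finset.mul_sum]
  have h3 : ∑ a ∈ T, 1 / (nm a : ℝ) ≤ 100 * (1 + Real.log Y) := by
    calc ∑ a ∈ T, 1 / (nm a : ℝ) ≤ ∑ a ∈ primBall ⌊Y⌋₊, 1 / (nm a : ℝ) :=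
          Finset.sum_le_sum_of_subset_of_nonneg h1 (fun _ _ _ => by positivity)
      _ ≤ 100 * (1 + Real.log (⌊Y⌋₊ : ℝ)) := Div277.sum_inv_primBall_le _
      _ ≤ _ := by
          have h5 : (1 : ℝ) ≤ (⌊Y⌋₊ : ℝ) := by
            exact_mod_cast (Nat.one_le_floor_iff Y).mpr hY
          have h6 : Real.log (⌊Y⌋₊ : ℝ) ≤ Real.log Y :=
            Real.log_le_log (by linarith) (Nat.floor_le (by linarith))
          linarith
  calc Y ^ ((2:ℝ)/3) * ∑ a ∈ T, 1 / (nm a : ℝ) ≤ Y ^ ((2:ℝ)/3) * (100 * (1 + Real.log Y)) := by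
        gcongr
    _ = _ := by ring

lemma one_le_tau_pow {b : Eis} (hb : b ≠ 0) : (1 : ℝ) ≤ (tau b : ℝ) ^ 3 := by
  have : (1 : ℝ) ≤ tau b := by exact_mod_cast Div277.one_le_tau hb
  exact one_le_pow₀ this

lemma sqrt_rpow_third {X : ℝ} (hX : 0 ≤ X) : Real.sqrt (X ^ ((2:ℝ)/3)) = X ^ ((1:ℝ)/3) := by
  rw [Real.sqrt_eq_rpow, ← Real.rpow_mul hX]; norm_num

/-- The bound for a fixed `t`. -/
theorem Zbound {C : ℝ} (hC : 0 < C) (hL : LSH C) : ∃ Cz : ℝ, 0 < Cz ∧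
    ∀ (l : ℤ) (X B : ℝ), 2 ≤ X → 1 ≤ B → 1 ≤ X / B → X / B ≤ X ^ ((2:ℝ)/3) →
      B ≤ X ^ ((2:ℝ)/3) → B ^ 3 / (X / B) ≤ X ^ ((2:ℝ)/3) → B ≤ X →
    ∀ (S : Finset Eis), (∀ b ∈ S, IsPrim b ∧ Squarefree b ∧ B ≤ nm b ∧ (nm b : ℝ) ≤ 2 * B) →
    ∀ (γ : Eis → ℂ) (ι : Type) (I : Finset ι) (a : ι → Finset PrP) (α : ι → ℂ),
      (∀ i ∈ I, (nm (prd (a i)) : ℝ) ≤ X / B) →
      ‖∑ i ∈ I, α i * ∑ b ∈ S, γ b * Fl l (prd (a i) * b)‖ ≤
        Cz * Real.sqrt (1 + Real.log X) * X ^ ((1:ℝ)/3) *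
          Real.sqrt (∑ b ∈ S, (tau b : ℝ) ^ 3 * ‖γ b‖ ^ 2) * Real.sqrt (Mu I a α) := by
  classical
  set C0 : ℝ := 4 * 24 ^ 6 * 404 * C with hC0
  have hC0p : 0 < C0 := by rw [hC0]; positivity
  set c1 : ℝ := 3 * (1 + 3 * C0) with hc1
  set c2 : ℝ := 20000 * pC ^ 2 with hc2
  refine ⟨Real.sqrt c1 + Real.sqrt c2, add_pos_of_pos_of_nonneg (Real.sqrt_pos.mpr
    (by positivity)) (Real.sqrt_nonneg _), ?_⟩
  intro l X B hX hB hA1 hA hB2 hB3 hBX S hS γ ι I a α ha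
  have hX0 : 0 < X := by linarith
  have hB0 : 0 < B := by linarith
  set A := X / B with hAdef
  have hA0 : 0 < A := by linarith
  have hAB : A * B = X := by rw [hAdef]; field_simp
  have hlogX : 0 ≤ Real.log X := Real.log_nonneg (by linarith)
  set W0 := ∑ b ∈ S, ‖γ b‖ ^ 2 with hW0
  set W := ∑ b ∈ S, (tau b : ℝ) ^ 3 * ‖γ b‖ ^ 2 with hW
  have hW00 : 0 ≤ W0 := Finset.sum_nonneg fun b _ => by positivity
  have hW0W : W0 ≤ W := by
    refine Finset.sum_le_sum fun b hb => ?_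
    exact le_mul_of_one_le_left (by positivity) (one_le_tau_pow (hS b hb).1.ne_zero)
  have hWnn : 0 ≤ W := hW00.trans hW0W
  -- first sum
  set F1 : Finset PrP → ℝ := fun z => ‖DD l S γ (prd z)‖ with hF1
  set F2 : Finset PrP → ℝ := fun z => |pC| * ((nm (prd z) : ℝ) ^ (-(1:ℝ)/6) *
    (B ^ (-(1:ℝ)/6) * ∑ b ∈ S, ‖γ b‖)) with hF2
  have hAB23 : A ^ ((2:ℝ)/3) * B ^ ((2:ℝ)/3) = X ^ ((2:ℝ)/3) := by
    rw [← Real.mul_rpow hA0.le hB0.le, hAB]
  have hX23 : 0 < X ^ ((2:ℝ)/3) := Real.rpow_pos_of_pos hX0 _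
  have s1 : ∑ z ∈ I.image a, F1 z ^ 2 ≤ c1 * ((1 + Real.log X) * X ^ ((2:ℝ)/3) * W) := by
    have h1 : ∑ z ∈ I.image a, F1 z ^ 2 = ∑ x ∈ (I.image a).image prd, ‖DD l S γ x‖ ^ 2 := by
      rw [Finset.sum_image (fun x _ y _ h => prd_injective h)]
    rw [h1]
    have h2 := T8a_fin hC hL (S := S) (𝓐 := (I.image a).image prd) hA1 hB hS (by
      intro x hx
      rw [Finset.mem_image] at hx
      obtain ⟨z, hz, rfl⟩ := hx
      rw [Finset.mem_image] at hz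
      obtain ⟨i, hi, rfl⟩ := hz
      exact ⟨isPrim_prd _, ha i hi⟩) (fun b => γ b * ang l b)
    have hn : ∀ b, ‖γ b * ang l b‖ ^ 2 ≤ ‖γ b‖ ^ 2 := by
      intro b
      rw [norm_mul]
      have := P355.norm_ang_le l b
      gcongr
      exact mul_le_of_le_one_right (norm_nonneg _) this
    have h3 : ∑ b ∈ S, ‖γ b * ang l b‖ ^ 2 ≤ W :=
      (Finset.sum_le_sum fun b _ => hn b).trans hW0W
    have h4 : ∑ b ∈ S, (tau b : ℝ) ^ 3 * ‖γ b * ang l b‖ ^ 2 ≤ W :=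
      Finset.sum_le_sum fun b _ => mul_le_mul_of_nonneg_left (hn b) (by positivity)
    have hT : Tgt A B ≤ 3 * ((1 + Real.log X) * X ^ ((2:ℝ)/3)) := by
      unfold Tgt
      rw [hAB23]
      have h5 : 1 + Real.log B ≤ 1 + Real.log X := by
        have := Real.log_le_log hB0 hBX
        linarith
      have h6 : 0 ≤ 1 + Real.log B := by have := Real.log_nonneg hB; linarith
      calc (1 + Real.log B) * (X ^ ((2:ℝ)/3) + B + B ^ 3 / A) ≤
          (1 + Real.log X) * (X ^ ((2:ℝ)/3) + X ^ ((2:ℝ)/3) + X ^ ((2:ℝ)/3)) := by gcongr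
        _ = _ := by ring
    refine h2.trans ?_
    have hT0 : 0 ≤ Tgt A B := by
      unfold Tgt
      have := Real.log_nonneg hB
      positivity
    calc 3 * (A * ∑ b ∈ S, ‖γ b * ang l b‖ ^ 2 + 4 * 24 ^ 6 * 404 * C * Tgt A B *
        ∑ b ∈ S, (tau b : ℝ) ^ 3 * ‖γ b * ang l b‖ ^ 2) ≤
        3 * (X ^ ((2:ℝ)/3) * W + C0 * (3 * ((1 + Real.log X) * X ^ ((2:ℝ)/3))) * W) := by
          rw [← hC0]
          gcongr
      _ ≤ 3 * (((1 + Real.log X) * X ^ ((2:ℝ)/3)) * W +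
          C0 * (3 * ((1 + Real.log X) * X ^ ((2:ℝ)/3))) * W) := by
          have : X ^ ((2:ℝ)/3) ≤ (1 + Real.log X) * X ^ ((2:ℝ)/3) :=
            le_mul_of_one_le_left hX23.le (by linarith)
          gcongr
      _ = _ := by rw [hc1]; ring
  -- second sum
  have s2 : ∑ z ∈ I.image a, F2 z ^ 2 ≤ c2 * ((1 + Real.log X) * X ^ ((2:ℝ)/3) * W) := by
    have h1 : ∑ z ∈ I.image a, F2 z ^ 2 = (|pC| * (B ^ (-(1:ℝ)/6) * ∑ b ∈ S, ‖γ b‖)) ^ 2 *
        ∑ x ∈ (I.image a).image prd, ((nm x : ℝ) ^ (-(1:ℝ)/6)) ^ 2 := by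
      rw [Finset.sum_image (fun x _ y _ h => prd_injective h), Finset.mul_sum]
      refine Finset.sum_congr rfl fun z _ => ?_
      rw [hF2]; ring
    have h2 : ∑ x ∈ (I.image a).image prd, ((nm x : ℝ) ^ (-(1:ℝ)/6)) ^ 2 ≤
        100 * (1 + Real.log A) * A ^ ((2:ℝ)/3) := by
      apply sum_nm_third_le hA1
      intro x hx
      rw [Finset.mem_image] at hx
      obtain ⟨z, hz, rfl⟩ := hx
      rw [Finset.mem_image] at hz
      obtain ⟨i, hi, rfl⟩ := hz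
      exact ⟨isPrim_prd _, ha i hi⟩
    have h3 : (∑ b ∈ S, ‖γ b‖) ^ 2 ≤ 200 * B * W0 := by
      have h4 := sq_sum_le_card_mul_sum_sq (s := S) (f := fun b => ‖γ b‖)
      have h5 : (S.card : ℝ) ≤ 100 * (2 * B) :=
        T8.card_le_of_nm_le (by positivity) (fun b hb => ⟨(hS b hb).1, (hS b hb).2.2.2⟩)
      calc (∑ b ∈ S, ‖γ b‖) ^ 2 ≤ S.card * W0 := h4
        _ ≤ (100 * (2 * B)) * W0 := by gcongr
        _ = _ := by ring
    have h6 : (B ^ (-(1:ℝ)/6)) ^ 2 * B = B ^ ((2:ℝ)/3) := by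
      rw [← Real.rpow_natCast, ← Real.rpow_mul hB0.le]
      nth_rewrite 2 [← Real.rpow_one B]
      rw [← Real.rpow_add hB0]; norm_num
    have hlogA : Real.log A ≤ Real.log X := by
      apply Real.log_le_log hA0
      rw [hAdef]; exact div_le_self hX0.le hB
    have hlogA0 : 0 ≤ Real.log A := Real.log_nonneg hA1
    rw [h1]
    calc (|pC| * (B ^ (-(1:ℝ)/6) * ∑ b ∈ S, ‖γ b‖)) ^ 2 *
        ∑ x ∈ (I.image a).image prd, ((nm x : ℝ) ^ (-(1:ℝ)/6)) ^ 2 =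
        |pC| ^ 2 * ((B ^ (-(1:ℝ)/6)) ^ 2 * (∑ b ∈ S, ‖γ b‖) ^ 2) *
        ∑ x ∈ (I.image a).image prd, ((nm x : ℝ) ^ (-(1:ℝ)/6)) ^ 2 := by ring
      _ ≤ |pC| ^ 2 * ((B ^ (-(1:ℝ)/6)) ^ 2 * (200 * B * W)) *
          (100 * (1 + Real.log X) * A ^ ((2:ℝ)/3)) := by
          apply mul_le_mul _ _ (Finset.sum_nonneg fun _ _ => by positivity) (by positivity)
          · gcongr
            exact h3.trans (by gcongr)
          · exact h2.trans (by gcongr)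
      _ = 20000 * |pC| ^ 2 * ((1 + Real.log X) * (A ^ ((2:ℝ)/3) *
          ((B ^ (-(1:ℝ)/6)) ^ 2 * B)) * W) := by ring
      _ = _ := by rw [h6, hAB23, sq_abs, hc2]
  -- combination
  have hL0 : 0 ≤ (1 + Real.log X) * X ^ ((2:ℝ)/3) * W := by positivity
  have g1 := group_cauchy I a (fun i => ‖α i‖) F1
  have g2 := group_cauchy I a (fun i => ‖α i‖) F2
  have hpt : ‖∑ i ∈ I, α i * ∑ b ∈ S, γ b * Fl l (prd (a i) * b)‖ ≤
      ∑ i ∈ I, ‖α i‖ * F1 (a i) + ∑ i ∈ I, ‖α i‖ * F2 (a i) := by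
    refine (norm_sum_le _ _).trans ?_
    rw [← Finset.sum_add_distrib]
    refine Finset.sum_le_sum fun i hi => ?_
    rw [norm_mul, ← mul_add]
    exact mul_le_mul_of_nonneg_left (norm_Fl_sum_le l hB hS γ (isPrim_prd _)) (norm_nonneg _)
  have hMu : Mu I a α = ∑ i ∈ I, ∑ j ∈ I, if a i = a j then ‖α i‖ * ‖α j‖ else 0 := rfl
  have e3 : Real.sqrt ((1 + Real.log X) * X ^ ((2:ℝ)/3) * W) =
      Real.sqrt (1 + Real.log X) * X ^ ((1:ℝ)/3) * Real.sqrt W := by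
    rw [Real.sqrt_mul (by positivity), Real.sqrt_mul (by positivity), sqrt_rpow_third hX0.le]
  calc ‖∑ i ∈ I, α i * ∑ b ∈ S, γ b * Fl l (prd (a i) * b)‖ ≤
      Real.sqrt (Mu I a α) * Real.sqrt (∑ z ∈ I.image a, F1 z ^ 2) +
      Real.sqrt (Mu I a α) * Real.sqrt (∑ z ∈ I.image a, F2 z ^ 2) := by
        refine hpt.trans ?_
        rw [hMu]
        convert! add_le_add g1 g2
    _ ≤ Real.sqrt (Mu I a α) * Real.sqrt (c1 * ((1 + Real.log X) * X ^ ((2:ℝ)/3) * W)) +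
      Real.sqrt (Mu I a α) * Real.sqrt (c2 * ((1 + Real.log X) * X ^ ((2:ℝ)/3) * W)) := by
        gcongr
    _ = (Real.sqrt c1 + Real.sqrt c2) * (Real.sqrt ((1 + Real.log X) * X ^ ((2:ℝ)/3) * W)) *
        Real.sqrt (Mu I a α) := by
        rw [Real.sqrt_mul (by positivity : 0 ≤ c1), Real.sqrt_mul (by positivity : 0 ≤ c2)]
        ring
    _ = _ := by rw [e3]; ring

open Classical in
/-- the index form as a sum over a set of elements -/
lemma Ix_eq (l : ℤ) (X : ℕ) {ι : Type} (I : Finset ι) (a : ι → Finset PrP) (g : ι → ℝ)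
    (α : ι → ℂ) (β : Finset PrP → ℂ) :
    Ix l X I a g α β = ∑ i ∈ I, ∑ b ∈ (((UX X).powerset.filter (fun T => β T ≠ 0)).image
      prd).filter (fun b => (nm b : ℝ) ≤ g i), α i * (β (pset b) * Fl l (prd (a i) * b)) := by
  unfold Ix
  refine Finset.sum_congr rfl fun i _ => ?_
  rw [Finset.sum_filter, Finset.sum_image (fun x _ y _ h => prd_injective h), Finset.sum_filter,
    Finset.mul_sum]
  refine Finset.sum_congr rfl fun T _ => ?_
  rw [pset_prd]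
  by_cases h0 : β T = 0
  · rw [h0]; simp
  · rw [if_pos h0]
    split_ifs <;> simp

lemma log_absorb {C L : ℝ} (hC : 0 ≤ C) (h5 : 5 ≤ L) (h4 : 4 * C ≤ L) :
    C * ((5 + L) * (1 + L)) ≤ L ^ 3 := by
  have h1 : (5 + L) * (1 + L) ≤ (2 * L) * (2 * L) := by gcongr <;> linarith
  calc C * ((5 + L) * (1 + L)) ≤ C * ((2 * L) * (2 * L)) := by gcongr
    _ = 4 * C * L ^ 2 := by ring
    _ ≤ L * L ^ 2 := by gcongr
    _ = L ^ 3 := by ring

lemma int_le {k Φ : ℝ → ℝ} (hk : Integrable k) (hk0 : ∀ t, 0 ≤ k t) (hΦ0 : ∀ t, 0 ≤ Φ t) {Z : ℝ}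
    (h : ∀ t, Φ t ≤ Z) : ∫ t, k t * Φ t ≤ (∫ t, k t) * Z := by
  rw [← integral_mul_const]
  apply integral_mono_of_nonneg
  · exact Filter.Eventually.of_forall fun t => mul_nonneg (hk0 t) (hΦ0 t)
  · exact hk.mul_const _
  · exact Filter.Eventually.of_forall fun t => mul_le_mul_of_nonneg_left (h t) (hk0 t)

lemma integrable_norm_kB {B : ℝ} (hB : 1 ≤ B) : Integrable (fun t => ‖TII54.kB B t‖) :=
  (TII54.integrable_kB hB).norm

open Classical in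
lemma W_le (X : ℕ) (β : Finset PrP → ℂ) :
    ∑ b ∈ ((UX X).powerset.filter (fun T => β T ≠ 0)).image prd,
      (tau b : ℝ) ^ 3 * ‖β (pset b)‖ ^ 2 ≤
      ∑ T ∈ (UX X).powerset, (8 : ℝ) ^ T.card * ‖β T‖ ^ 2 := by
  rw [Finset.sum_image (fun x _ y _ h => prd_injective h)]
  calc ∑ T ∈ (UX X).powerset.filter (fun T => β T ≠ 0),
        (tau (prd T) : ℝ) ^ 3 * ‖β (pset (prd T))‖ ^ 2 ≤
      ∑ T ∈ (UX X).powerset.filter (fun T => β T ≠ 0), (8 : ℝ) ^ T.card * ‖β T‖ ^ 2 := by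
        refine Finset.sum_le_sum fun T _ => ?_
        rw [pset_prd]
        apply mul_le_mul_of_nonneg_right _ (by positivity)
        have h8 : (tau (prd T) : ℝ) ≤ 2 ^ T.card := by exact_mod_cast tau_prd_le T
        calc (tau (prd T) : ℝ) ^ 3 ≤ ((2 : ℝ) ^ T.card) ^ 3 := by gcongr
          _ = 8 ^ T.card := by rw [← pow_mul, mul_comm, pow_mul]; norm_num
    _ ≤ _ := Finset.sum_le_sum_of_subset_of_nonneg (Finset.filter_subset _ _)
        (fun T _ _ => by positivity)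

lemma final_ineq {Ci Cz L P W W' M k B : ℝ} (hCi : 0 ≤ Ci) (hCz : 0 ≤ Cz) (hL5 : 5 ≤ L)
    (hL4 : 4 * (Ci * Cz) ≤ L) (hW : W ≤ W') (h2 : k ≤ Ci * (1 + Real.log (32 * B)))
    (h3 : 1 + Real.log (32 * B) ≤ 5 + L) (hP : 0 ≤ P) :
    k * (Cz * Real.sqrt (1 + L) * P * Real.sqrt W * Real.sqrt M) ≤
      L ^ (3 : ℝ) * P * Real.sqrt W' * Real.sqrt M := by
  have hsq : Real.sqrt (1 + L) ≤ 1 + L := by
    rw [Real.sqrt_le_left (by linarith)]
    nlinarith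
  have hZ0 : 0 ≤ Cz * Real.sqrt (1 + L) * P * Real.sqrt W * Real.sqrt M := by positivity
  calc k * (Cz * Real.sqrt (1 + L) * P * Real.sqrt W * Real.sqrt M) ≤ (Ci * (5 + L)) *
      (Cz * (1 + L) * P * Real.sqrt W' * Real.sqrt M) := by
        apply mul_le_mul _ _ hZ0 (by positivity)
        · exact h2.trans (by gcongr)
        · gcongr
    _ = ((Ci * Cz) * ((5 + L) * (1 + L))) * P * Real.sqrt W' * Real.sqrt M := by ring
    _ ≤ L ^ (3 : ℝ) * P * Real.sqrt W' * Real.sqrt M := by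
        have h9 := log_absorb (by positivity : 0 ≤ Ci * Cz) hL5 hL4
        have h10 : L ^ (3 : ℝ) = L ^ 3 := by
          rw [show (3 : ℝ) = ((3 : ℕ) : ℝ) by norm_num, Real.rpow_natCast]
        rw [h10]
        gcongr

/-- **T0x_Prop** -/
theorem t0x : T0x_Prop := by
  classical
  intro l
  obtain ⟨C, hC, hL0⟩ := LS879.LSH
  have hL : LSH C := hL0
  obtain ⟨Cz, hCz, hZ⟩ := Zbound hC hL
  have hCi := Weight600.Cint_pos
  set L0 := max 5 (4 * (Weight600.Cint * Cz)) with hL0def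
  refine ⟨8, 3, ⌈Real.exp L0⌉₊, by norm_num, ?_⟩
  intro X hX B β hB1 hB2 hβ ι I a g α ha
  have hXexp : Real.exp L0 ≤ X := (Nat.le_ceil _).trans (by exact_mod_cast hX)
  have hX0 : (0 : ℝ) < X := (Real.exp_pos _).trans_le hXexp
  have hlog : L0 ≤ Real.log X := by
    rw [Real.le_log_iff_exp_le hX0]; exact hXexp
  have hL5 : 5 ≤ Real.log X := (le_max_left _ _).trans hlog
  have hL4 : 4 * (Weight600.Cint * Cz) ≤ Real.log X := (le_max_right _ _).trans hlog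
  have hX1 : (1 : ℝ) ≤ X := by
    have := Real.add_one_le_exp L0
    have h5 : 5 ≤ L0 := le_max_left _ _
    linarith
  have hX2 : (2 : ℝ) ≤ X := by
    have := Real.add_one_le_exp L0
    have h5 : 5 ≤ L0 := le_max_left _ _
    linarith
  have hBge : (1 : ℝ) ≤ B := (Real.one_le_rpow hX1 (by norm_num)).trans hB1
  have hB0 : 0 < B := by linarith
  have hmono : ∀ {x y : ℝ}, x ≤ y → (X : ℝ) ^ x ≤ (X : ℝ) ^ y := fun h =>
    Real.rpow_le_rpow_of_exponent_le hX1 h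
  have hBX : B ≤ X := by
    calc B ≤ (X : ℝ) ^ (0.41 : ℝ) := hB2
      _ ≤ (X : ℝ) ^ (1 : ℝ) := hmono (by norm_num)
      _ = X := Real.rpow_one _
  have hA1 : 1 ≤ X / B := by rw [one_le_div hB0]; exact hBX
  have hA2 : X / B ≤ (X : ℝ) ^ ((2:ℝ)/3) := by
    rw [div_le_iff₀ hB0]
    calc (X : ℝ) = (X : ℝ) ^ (0.66 : ℝ) * (X : ℝ) ^ (0.34 : ℝ) := by
          rw [← Real.rpow_add hX0]; norm_num
      _ ≤ (X : ℝ) ^ ((2:ℝ)/3) * B := by
          apply mul_le_mul (hmono (by norm_num)) hB1 (by positivity) (by positivity)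
  have hBX2 : B ≤ (X : ℝ) ^ ((2:ℝ)/3) := hB2.trans (hmono (by norm_num))
  have hB3 : B ^ 3 / (X / B) ≤ (X : ℝ) ^ ((2:ℝ)/3) := by
    rw [div_div_eq_mul_div, div_le_iff₀ hX0]
    calc B ^ 3 * B = B ^ 4 := by ring
      _ ≤ ((X : ℝ) ^ (0.41 : ℝ)) ^ 4 := by gcongr
      _ = (X : ℝ) ^ (1.64 : ℝ) := by
          rw [← Real.rpow_natCast, ← Real.rpow_mul hX0.le]; norm_num
      _ ≤ (X : ℝ) ^ ((2:ℝ)/3 + 1) := hmono (by norm_num)
      _ = (X : ℝ) ^ ((2:ℝ)/3) * X := by rw [Real.rpow_add hX0, Real.rpow_one]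
  set Ts := (UX X).powerset.filter (fun T => β T ≠ 0) with hTs
  set S := Ts.image prd with hSdef
  have hS : ∀ b ∈ S, IsPrim b ∧ Squarefree b ∧ B < nm b ∧ (nm b : ℝ) ≤ 2 * B := by
    intro b hb
    rw [hSdef, Finset.mem_image] at hb
    obtain ⟨T, hT, rfl⟩ := hb
    rw [hTs, Finset.mem_filter] at hT
    exact ⟨isPrim_prd T, squarefree_prd T, hβ T hT.2⟩
  have hS' : ∀ b ∈ S, IsPrim b ∧ Squarefree b ∧ B ≤ nm b ∧ (nm b : ℝ) ≤ 2 * B :=
    fun b hb => ⟨(hS b hb).1, (hS b hb).2.1, (hS b hb).2.2.1.le, (hS b hb).2.2.2⟩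
  have hP0 : (0 : ℝ) ≤ (X : ℝ) ^ ((1:ℝ)/3) := Real.rpow_nonneg hX0.le _
  rw [Ix_eq]
  have hp := TII54.perron I S hBge (fun b hb => ⟨(hS b hb).2.2.1, (hS b hb).2.2.2⟩)
    (fun i b => α i * (β (pset b) * Fl l (prd (a i) * b))) g
  refine hp.trans ?_
  set W := ∑ b ∈ S, (tau b : ℝ) ^ 3 * ‖β (pset b)‖ ^ 2 with hW
  set Z := Cz * Real.sqrt (1 + Real.log X) * (X : ℝ) ^ ((1:ℝ)/3) * Real.sqrt W *
    Real.sqrt (Mu I a α) with hZdef
  have hpt : ∀ t : ℝ, ‖∑ i ∈ I, ∑ b ∈ S, α i * (β (pset b) * Fl l (prd (a i) * b)) *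
      (Weight600.osc t (-TII54.cph B (g i)) * Weight600.pw t (nm b))‖ ≤ Z := by
    intro t
    have e1 : ∑ i ∈ I, ∑ b ∈ S, α i * (β (pset b) * Fl l (prd (a i) * b)) *
      (Weight600.osc t (-TII54.cph B (g i)) * Weight600.pw t (nm b)) =
      ∑ i ∈ I, (α i * Weight600.osc t (-TII54.cph B (g i))) * ∑ b ∈ S,
        (β (pset b) * Weight600.pw t (nm b)) * Fl l (prd (a i) * b) := by
      refine Finset.sum_congr rfl fun i _ => ?_
      rw [Finset.mul_sum]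
      exact Finset.sum_congr rfl fun b _ => by ring
    rw [e1]
    have h1 := hZ l X B hX2 hBge hA1 hA2 hBX2 hB3 hBX S hS'
      (fun b => β (pset b) * Weight600.pw t (nm b)) ι I a
      (fun i => α i * Weight600.osc t (-TII54.cph B (g i))) ha
    refine h1.trans (le_of_eq ?_)
    have e2 : ∀ b, ‖β (pset b) * Weight600.pw t (nm b)‖ = ‖β (pset b)‖ := by
      intro b; rw [norm_mul, Weight600.norm_pw, mul_one]
    have e3 : Mu I a (fun i => α i * Weight600.osc t (-TII54.cph B (g i))) = Mu I a α := by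
      unfold Mu
      simp only [norm_mul, Weight600.norm_osc, mul_one]
    simp only [e2, e3]
    rw [hZdef, hW]
  refine (int_le (integrable_norm_kB hBge) (fun t => norm_nonneg _) (fun t => norm_nonneg _)
    hpt).trans ?_
  have h2 := TII54.integral_norm_kB_le hBge
  have h3 : 1 + Real.log (32 * B) ≤ 5 + Real.log X := by
    have h4 : Real.log (32 * B) = Real.log 32 + Real.log B :=
      Real.log_mul (by norm_num) hB0.ne'
    have h5 : Real.log 32 ≤ 4 := by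
      have h6 : Real.log 32 = 5 * Real.log 2 := by
        rw [show (32 : ℝ) = 2 ^ 5 by norm_num, Real.log_pow]; norm_num
      have := Real.log_two_lt_d9
      rw [h6]; linarith
    have h7 : Real.log B ≤ Real.log X := Real.log_le_log hB0 hBX
    linarith
  have hWle : W ≤ ∑ T ∈ (UX X).powerset, (8 : ℝ) ^ T.card * ‖β T‖ ^ 2 := W_le X β
  exact final_ineq hCi.le hCz.le hL5 hL4 hWle h2 h3 hP0

end Crest.Agent.R012.T0x810
end
end

-- ▼ part R012/TNXC2_298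
section

/-!
# Row 12: the terms `(e, g) ≠ (1, 1)` of the critical range of (TNX) (helper298, for helper411)

* `sum_om_le`  : `∑_h om K h |∑_n a(n) (h/n)|² ≤ C B^(1+ε) (K^(1+2ε) + B K^(1/3+2ε) + K^(2/3+2ε) B^(2/3))`
* `int_om_le`  : the same inside `∫ (1+u²)⁻¹ ∑'_h`
* `eg_crit`    : the terms `(e, g) ≠ (1, 1)` of `RHSd`, all primes of `b` at least `X^d1`.
-/

set_option autoImplicit false

noncomputable section

open Finset

namespace Crest.Agent.R012.TNXC2298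

open Crest.Agent.R012 Crest.Agent.R012.Eis Crest.Agent.R012.Div277 Crest.Agent.R012.Mob705
open Crest.Agent.R012.T411 Crest.Agent.R012.CharSum852

/-- `∑ nm z ^ (-s)` over finite sets is bounded, `s > 1`. -/
lemma sum_rpow_le {s : ℝ} (hs : 1 < s) :
    ∃ C : ℝ, 0 < C ∧ ∀ S : Finset Eis, ∑ z ∈ S, (nm z : ℝ) ^ (-s) ≤ C := by
  have h := LatSum413.summable_nm_rpow hs
  refine ⟨1 + ∑' z : Eis, (nm z : ℝ) ^ (-s), ?_, fun S => ?_⟩
  · have : 0 ≤ ∑' z : Eis, (nm z : ℝ) ^ (-s) := tsum_nonneg fun z => by positivity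
    linarith
  · have := h.sum_le_tsum S (fun z _ => by positivity)
    linarith

lemma om_nonneg {K : ℝ} (hK : 0 ≤ K) (h : Eis) : 0 ≤ om K h := by
  unfold om
  positivity

lemma om_le_rpow {K : ℝ} (hK : 0 < K) {h : Eis} {m : ℝ} (hm : 0 < m) (hmh : m ≤ nm h)
    {a : ℝ} (ha1 : 1 / 4 ≤ a) (ha2 : a ≤ 2) : om K h ≤ (K / m) ^ a := by
  have hh : (0 : ℝ) < nm h := hm.trans_le hmh
  have h1 : om K h ≤ (K / nm h) ^ a := by
    unfold om
    have ht : 0 < K / nm h := by positivity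
    rcases le_total 1 (K / nm h) with h | h
    · exact (min_le_left _ _).trans (Real.rpow_le_rpow_of_exponent_le h (by linarith))
    · exact (min_le_right _ _).trans (Real.rpow_le_rpow_of_exponent_ge ht h ha2)
  refine h1.trans (Real.rpow_le_rpow (by positivity) ?_ (by linarith))
  exact div_le_div_of_nonneg_left hK.le hm hmh

/-- the weighted dual sum, all `h ≠ 0`, `ε`-loss, arbitrary `K > 0`. -/
theorem sum_om_le (hHB : NonCube52.HBProp) {ε : ℝ} (hε : 0 < ε) (hε2 : ε ≤ 1 / 2) :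
    ∃ C : ℝ, 0 < C ∧ ∀ B K : ℝ, 1 ≤ B → 0 < K →
      ∀ T : Finset Eis, (∀ n ∈ T, IsPrim n ∧ Squarefree n ∧ (nm n : ℝ) ≤ B) → ∀ a : Eis → ℂ,
      (∀ n ∈ T, ‖a n‖ ≤ 1) → ∀ S : Finset Eis, (∀ h ∈ S, h ≠ 0) →
      ∑ h ∈ S, om K h * ‖∑ n ∈ T, a n * sy h n‖ ^ 2 ≤
        C * B ^ (1 + ε) * (K ^ (1 + 2 * ε) + B * K ^ (1 / 3 + 2 * ε) +
          B ^ ((2 : ℝ) / 3) * K ^ (2 / 3 + 2 * ε)) := by
  classical
  obtain ⟨C0, hC0, hall⟩ := NonCube52.all_bound Sym645.syFacts NonCube52.L1Prop_holds hHB hε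
  set q : ℝ := (2 : ℝ) ^ (-ε) with hq
  have hq0 : 0 < q := Real.rpow_pos_of_pos (by norm_num) _
  have hq1 : q < 1 := Real.rpow_lt_one_of_one_lt_of_neg (by norm_num) (by linarith)
  have hq2 : 0 < 1 - q := by linarith
  refine ⟨C0 * 2 ^ ε * 32 * (1 - q)⁻¹, by positivity, ?_⟩
  intro B K hB hK T hT a ha S hS
  have hB0 : (0 : ℝ) < B := by linarith
  set D : ℝ := K ^ (1 + 2 * ε) + B * K ^ (1 / 3 + 2 * ε) +
          B ^ ((2 : ℝ) / 3) * K ^ (2 / 3 + 2 * ε) with hD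
  have hD0 : 0 < D := by positivity
  -- energy
  have hE : ∑ n ∈ T, ‖a n‖ ^ 2 ≤ 16 * B := by
    have h1 : ∑ n ∈ T, ‖a n‖ ^ 2 ≤ ∑ n ∈ T, (1 : ℝ) :=
      sum_le_sum fun n hn => pow_le_one₀ (norm_nonneg _) (ha n hn)
    have h2 : T ⊆ LS448.nz B := fun n hn => by
      rw [LS448.mem_nz]; exact ⟨(hT n hn).1.ne_zero, (hT n hn).2.2⟩
    have h3 := NonCube52.card_nz_le16 hB0.le
    have h4 : (T.card : ℝ) ≤ (LS448.nz B).card := by exact_mod_cast card_le_card h2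
    rw [sum_const, nsmul_eq_mul, mul_one] at h1
    linarith
  have hE0 : 0 ≤ ∑ n ∈ T, ‖a n‖ ^ 2 := sum_nonneg fun _ _ => by positivity
  have hone : ∀ j : ℕ, ∑ h ∈ S with Nat.log 2 (nm h) = j,
      om K h * ‖∑ n ∈ T, a n * sy h n‖ ^ 2 ≤ C0 * 2 ^ ε * 32 * B ^ (1 + ε) * D * q ^ j := by
    intro j
    set p : ℝ := (2 : ℝ) ^ j with hp
    have hp0 : 0 < p := by positivity
    have hp1 : 1 ≤ p := one_le_pow₀ (by norm_num)
    set V : ℝ := min ((K / p) ^ (1 + 2 * ε))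
      (min ((K / p) ^ (1 / 3 + 2 * ε)) ((K / p) ^ (2 / 3 + 2 * ε))) with hV
    have hV0 : 0 ≤ V := by positivity
    set Sj := S.filter (fun h => Nat.log 2 (nm h) = j) with hSj
    have hlow : ∀ h ∈ Sj, p ≤ (nm h : ℝ) ∧ (nm h : ℝ) ≤ 2 * p ∧ h ≠ 0 := by
      intro h hh
      rw [hSj, mem_filter] at hh
      have h0 := hS h hh.1
      have h2 : 2 ^ Nat.log 2 (nm h) ≤ nm h := Nat.pow_log_le_self 2 (nm_pos.mpr h0).ne'
      have h3 := Nat.lt_pow_succ_log_self (b := 2) (by norm_num) (nm h)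
      rw [hh.2] at h2 h3
      refine ⟨by rw [hp]; exact_mod_cast h2, ?_, h0⟩
      have h4 : (nm h : ℝ) ≤ (2 : ℝ) ^ (j + 1) := by exact_mod_cast h3.le
      rw [pow_succ] at h4
      rw [hp]; linarith
    have hom : ∀ h ∈ Sj, om K h ≤ V := by
      intro h hh
      obtain ⟨h1, -, -⟩ := hlow h hh
      rw [hV]
      refine le_min ?_ (le_min ?_ ?_)
      · exact om_le_rpow hK hp0 h1 (by linarith) (by linarith)
      · exact om_le_rpow hK hp0 h1 (by linarith) (by linarith)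
      · exact om_le_rpow hK hp0 h1 (by linarith) (by linarith)
    have hb := hall B (2 * p) hB (by linarith) T hT a Sj (fun h hh =>
      ⟨(hlow h hh).2.2, (hlow h hh).2.1⟩)
    have h1 : ∑ h ∈ Sj, om K h * ‖∑ n ∈ T, a n * sy h n‖ ^ 2 ≤
        V * ∑ h ∈ Sj, ‖∑ n ∈ T, a n * sy h n‖ ^ 2 := by
      rw [mul_sum]
      exact sum_le_sum fun h hh => mul_le_mul_of_nonneg_right (hom h hh) (by positivity)
    refine h1.trans ?_
    have h2 : V * ∑ h ∈ Sj, ‖∑ n ∈ T, a n * sy h n‖ ^ 2 ≤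
        V * (C0 * (2 * p * B) ^ ε * (2 * p + B * (2 * p) ^ ((1 : ℝ) / 3) +
          (2 * p * B) ^ ((2 : ℝ) / 3)) * (16 * B)) := by
      refine mul_le_mul_of_nonneg_left (hb.trans ?_) hV0
      exact mul_le_mul_of_nonneg_left hE (by positivity)
    refine h2.trans ?_
    have e1 : (2 * p * B) ^ ε = 2 ^ ε * p ^ ε * B ^ ε := by
      rw [Real.mul_rpow (by positivity) hB0.le, Real.mul_rpow (by norm_num) hp0.le]
    have e2 : (2 * p) ^ ((1 : ℝ) / 3) ≤ 2 * p ^ ((1 : ℝ) / 3) := by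
      rw [Real.mul_rpow (by norm_num) hp0.le]
      gcongr
      calc (2 : ℝ) ^ ((1 : ℝ) / 3) ≤ 2 ^ (1 : ℝ) :=
            Real.rpow_le_rpow_of_exponent_le (by norm_num) (by norm_num)
        _ = 2 := Real.rpow_one _
    have e3 : (2 * p * B) ^ ((2 : ℝ) / 3) ≤ 2 * (p ^ ((2 : ℝ) / 3) * B ^ ((2 : ℝ) / 3)) := by
      rw [Real.mul_rpow (by positivity) hB0.le, Real.mul_rpow (by norm_num) hp0.le, mul_assoc]
      gcongr
      calc (2 : ℝ) ^ ((2 : ℝ) / 3) ≤ 2 ^ (1 : ℝ) :=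
            Real.rpow_le_rpow_of_exponent_le (by norm_num) (by norm_num)
        _ = 2 := Real.rpow_one _
    have hqp : q ^ j = p ^ (-ε) := by
      rw [hq, hp, ← Real.rpow_natCast, ← Real.rpow_natCast, ← Real.rpow_mul (by norm_num),
        ← Real.rpow_mul (by norm_num), mul_comm]
    have key : ∀ s : ℝ, (K / p) ^ (s + 2 * ε) * (p ^ ε * p ^ s) = K ^ (s + 2 * ε) * p ^ (-ε) := by
      intro s
      rw [Real.div_rpow hK.le hp0.le, div_mul_eq_mul_div, ← Real.rpow_add hp0, mul_div_assoc,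
        ← Real.rpow_sub hp0]
      congr 2; ring
    have k1 : V * (p ^ ε * p) ≤ K ^ (1 + 2 * ε) * p ^ (-ε) := by
      have := key 1
      rw [Real.rpow_one] at this
      rw [← this]
      exact mul_le_mul_of_nonneg_right (min_le_left _ _) (by positivity)
    have k2 : V * (p ^ ε * p ^ ((1 : ℝ) / 3)) ≤ K ^ (1 / 3 + 2 * ε) * p ^ (-ε) := by
      rw [← key (1 / 3)]
      exact mul_le_mul_of_nonneg_right ((min_le_right _ _).trans (min_le_left _ _))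
        (by positivity)
    have k3 : V * (p ^ ε * p ^ ((2 : ℝ) / 3)) ≤ K ^ (2 / 3 + 2 * ε) * p ^ (-ε) := by
      rw [← key (2 / 3)]
      exact mul_le_mul_of_nonneg_right ((min_le_right _ _).trans (min_le_right _ _))
        (by positivity)
    have hBB : B ^ (1 + ε) = B * B ^ ε := by rw [Real.rpow_add hB0, Real.rpow_one]
    calc V * (C0 * (2 * p * B) ^ ε * (2 * p + B * (2 * p) ^ ((1 : ℝ) / 3) +
          (2 * p * B) ^ ((2 : ℝ) / 3)) * (16 * B))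
        ≤ V * (C0 * (2 ^ ε * p ^ ε * B ^ ε) * (2 * p + B * (2 * p ^ ((1 : ℝ) / 3)) +
          2 * (p ^ ((2 : ℝ) / 3) * B ^ ((2 : ℝ) / 3))) * (16 * B)) := by
          rw [e1]
          gcongr
      _ = C0 * 2 ^ ε * 32 * (B * B ^ ε) * (V * (p ^ ε * p) + B * (V * (p ^ ε * p ^ ((1 : ℝ) / 3))) +
          B ^ ((2 : ℝ) / 3) * (V * (p ^ ε * p ^ ((2 : ℝ) / 3)))) := by ring
      _ ≤ C0 * 2 ^ ε * 32 * (B * B ^ ε) * (K ^ (1 + 2 * ε) * p ^ (-ε) +
          B * (K ^ (1 / 3 + 2 * ε) * p ^ (-ε)) +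
          B ^ ((2 : ℝ) / 3) * (K ^ (2 / 3 + 2 * ε) * p ^ (-ε))) := by gcongr
      _ = C0 * 2 ^ ε * 32 * B ^ (1 + ε) * D * q ^ j := by
          rw [hqp, hBB, hD]; ring
  rw [← sum_fiberwise_of_maps_to (g := fun h => Nat.log 2 (nm h))
    (t := S.image (fun h => Nat.log 2 (nm h))) (fun h hh => mem_image_of_mem _ hh)]
  calc ∑ j ∈ S.image (fun h => Nat.log 2 (nm h)), ∑ h ∈ S with Nat.log 2 (nm h) = j,
        om K h * ‖∑ n ∈ T, a n * sy h n‖ ^ 2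
      ≤ ∑ j ∈ S.image (fun h => Nat.log 2 (nm h)), C0 * 2 ^ ε * 32 * B ^ (1 + ε) * D * q ^ j :=
        sum_le_sum fun j _ => hone j
    _ = C0 * 2 ^ ε * 32 * B ^ (1 + ε) * D *
        ∑ j ∈ S.image (fun h => Nat.log 2 (nm h)), q ^ j := by rw [mul_sum]
    _ ≤ C0 * 2 ^ ε * 32 * B ^ (1 + ε) * D * (1 - q)⁻¹ := by
        gcongr
        exact (Summable.sum_le_tsum _ (fun _ _ => by positivity)
          (summable_geometric_of_lt_one hq0.le hq1)).trans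
          (tsum_geometric_of_lt_one hq0.le hq1).le
    _ = _ := by ring

section logs
variable {a b c t x y z e0 d : ℝ}

lemma log_facts (hc : 0 < c) (hct : c ≤ t) (hb : t * (1 / 4) ≤ b) (hba : b * (1 - e0 / 2) ≤ a)
    (hat : a ≤ t) (_he0 : 0 < e0) (he1 : e0 ≤ 1 / 10) :
    0 < b ∧ 0 < a ∧ 19 / 20 * b ≤ t ∧ 19 / 20 * b ≤ a ∧ e0 * b ≤ b / 10 := by
  have hb0 : 0 < b := by linarith
  have h1 : e0 * b ≤ b / 10 := by nlinarith
  have h2 : 19 / 20 * b ≤ a := by nlinarith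
  exact ⟨hb0, by linarith, by linarith, h2, h1⟩

lemma log_T1 (hc : 0 < c) (hct : c ≤ t) (hb : t * (1 / 4) ≤ b) (hba : b * (1 - e0 / 2) ≤ a)
    (hat : a ≤ t) (hz : 0 ≤ z) (hzx : z ≤ x) (hy : 0 ≤ y) (hxy : x + y ≤ c + b)
    (he0 : 0 < e0) (he1 : e0 ≤ 1 / 10) (hed : e0 ≤ d) (hd1 : d ≤ 1) :
    a + x - b - z + (1 + d / 200) * (c + b - x - y) + (1 + 2 * (d / 200)) * (z + 2 * b - 2 * x - a)
      ≤ 3 * c + 2 / 3 * a + 5 / 3 * b - d / 100 * t - 17 / 12 * x - 13 / 12 * y := by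
  obtain ⟨hb0, ha0, h1, h2, h3⟩ := log_facts hc hct hb hba hat he0 he1
  have hd0 : 0 < d := by linarith
  have p1 : 0 ≤ d * (4 * b - t) := mul_nonneg hd0.le (by linarith)
  have p2 : 0 ≤ d * (x + y) := mul_nonneg hd0.le (by linarith)
  have p3 : 0 ≤ (1 - d) * (c + b) := mul_nonneg (by linarith) (by linarith)
  have p4 : 0 ≤ d * (2 * x + a - z) := mul_nonneg hd0.le (by linarith)
  have p5 : 0 ≤ (1 - d) * b := mul_nonneg (by linarith) hb0.le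
  nlinarith

lemma log_T2 (hc : 0 < c) (hct : c ≤ t) (hb : t * (1 / 4) ≤ b) (hba : b * (1 - e0 / 2) ≤ a)
    (hat : a ≤ t) (hz : 0 ≤ z) (hzx : z ≤ x) (hy : 0 ≤ y)
    (htd : t * d ≤ x + y)
    (he0 : 0 < e0) (he1 : e0 ≤ 1 / 10) (hed : e0 ≤ d) (hd1 : d ≤ 1) :
    a + x - b - z + (1 + d / 200) * (c + b - x - y) + (c + b - x - y) +
      (1 / 3 + 2 * (d / 200)) * (z + 2 * b - 2 * x - a)
      ≤ 3 * c + 2 / 3 * a + 5 / 3 * b - d / 100 * t - 17 / 12 * x - 13 / 12 * y := by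
  obtain ⟨hb0, ha0, h1, h2, h3⟩ := log_facts hc hct hb hba hat he0 he1
  have hd0 : 0 < d := by linarith
  have p1 : 0 ≤ d * (t - 19 / 20 * b) := mul_nonneg hd0.le (by linarith)
  have p2 : 0 ≤ d * (x + y) := mul_nonneg hd0.le (by linarith)
  have p3 : 0 ≤ (1 - d) * c := mul_nonneg (by linarith) (by linarith)
  have p4 : 0 ≤ d * (2 * x + a - z) := mul_nonneg hd0.le (by linarith)
  have p5 : 0 ≤ d * t := mul_nonneg hd0.le (by linarith)
  nlinarith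

lemma log_T3 (hc : 0 < c) (hct : c ≤ t) (hb : t * (1 / 4) ≤ b) (hba : b * (1 - e0 / 2) ≤ a)
    (hat : a ≤ t) (hz : 0 ≤ z) (hzx : z ≤ x) (hy : 0 ≤ y)
    (htd : t * d ≤ x + y)
    (he0 : 0 < e0) (he1 : e0 ≤ 1 / 10) (hed : e0 ≤ d) (hd1 : d ≤ 1) :
    a + x - b - z + (1 + d / 200) * (c + b - x - y) + 2 / 3 * (c + b - x - y) +
      (2 / 3 + 2 * (d / 200)) * (z + 2 * b - 2 * x - a)
      ≤ 3 * c + 2 / 3 * a + 5 / 3 * b - d / 100 * t - 17 / 12 * x - 13 / 12 * y := by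
  obtain ⟨hb0, ha0, h1, h2, h3⟩ := log_facts hc hct hb hba hat he0 he1
  have hd0 : 0 < d := by linarith
  have p1 : 0 ≤ d * (t - 19 / 20 * b) := mul_nonneg hd0.le (by linarith)
  have p2 : 0 ≤ d * (x + y) := mul_nonneg hd0.le (by linarith)
  have p3 : 0 ≤ (1 - d) * c := mul_nonneg (by linarith) (by linarith)
  have p4 : 0 ≤ d * (2 * x + a - z) := mul_nonneg hd0.le (by linarith)
  have p5 : 0 ≤ d * t := mul_nonneg hd0.le (by linarith)
  have p6 : 0 ≤ (d - e0) * b := mul_nonneg (by linarith) hb0.le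
  nlinarith

end logs

lemma real_terms {A B E F G X e0 d : ℝ} (hX : 2 ≤ X) (hA : 0 < A) (hXB : X ^ ((1 : ℝ) / 4) ≤ B)
    (hBA : B ^ (1 - e0 / 2) ≤ A) (hAX : A ≤ X) (hF : 1 ≤ F) (hFE : F ≤ E)
    (hG : 1 ≤ G) (hEG : E * G ≤ 2 * B) (hd : X ^ d ≤ E * G) (he0 : 0 < e0) (he1 : e0 ≤ 1 / 10)
    (hed : e0 ≤ d) (hd1 : d ≤ 1) :
    A * E / (B * F) * ((2 * B / (E * G)) ^ (1 + d / 200) *
      ((F * B ^ 2 / (E ^ 2 * A)) ^ (1 + 2 * (d / 200)) +
        (2 * B / (E * G)) * (F * B ^ 2 / (E ^ 2 * A)) ^ (1 / 3 + 2 * (d / 200)) +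
        (2 * B / (E * G)) ^ ((2 : ℝ) / 3) *
          (F * B ^ 2 / (E ^ 2 * A)) ^ (2 / 3 + 2 * (d / 200)))) ≤
    24 * (A ^ ((2 : ℝ) / 3) * B ^ ((5 : ℝ) / 3) * X ^ (-(d / 100)) *
      (E ^ (-(17 / 12 : ℝ)) * G ^ (-(13 / 12 : ℝ)))) := by
  have hX0 : 0 < X := by linarith
  have hB0 : 0 < B := lt_of_lt_of_le (Real.rpow_pos_of_pos hX0 _) hXB
  have hF0 : 0 < F := by linarith
  have hE0 : 0 < E := by linarith
  have hG0 : 0 < G := by linarith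
  obtain ⟨a, rfl⟩ : ∃ a, A = Real.exp a := ⟨Real.log A, (Real.exp_log hA).symm⟩
  obtain ⟨b, rfl⟩ : ∃ b, B = Real.exp b := ⟨Real.log B, (Real.exp_log hB0).symm⟩
  obtain ⟨x, rfl⟩ : ∃ x, E = Real.exp x := ⟨Real.log E, (Real.exp_log hE0).symm⟩
  obtain ⟨z, rfl⟩ : ∃ z, F = Real.exp z := ⟨Real.log F, (Real.exp_log hF0).symm⟩
  obtain ⟨y, rfl⟩ : ∃ y, G = Real.exp y := ⟨Real.log G, (Real.exp_log hG0).symm⟩
  obtain ⟨t, rfl⟩ : ∃ t, X = Real.exp t := ⟨Real.log X, (Real.exp_log hX0).symm⟩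
  obtain ⟨c, hc⟩ : ∃ c, (2 : ℝ) = Real.exp c := ⟨Real.log 2, (Real.exp_log (by norm_num)).symm⟩
  have h8 : (24 : ℝ) = 3 * Real.exp (3 * c) := by
    have : Real.exp (3 * c) = Real.exp c ^ 3 := by rw [← Real.exp_nat_mul]; norm_num
    rw [this, ← hc]; norm_num
  have hc0 : 0 < c := by
    by_contra h
    have := Real.exp_le_one_iff.mpr (not_lt.mp h)
    rw [← hc] at this; norm_num at this
  have hct : c ≤ t := by rw [hc] at hX; exact Real.exp_le_exp.mp hX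
  have hb : t * (1 / 4) ≤ b := by
    rw [← Real.exp_mul] at hXB; exact Real.exp_le_exp.mp hXB
  have hba : b * (1 - e0 / 2) ≤ a := by
    rw [← Real.exp_mul] at hBA; exact Real.exp_le_exp.mp hBA
  have hat : a ≤ t := Real.exp_le_exp.mp hAX
  have hz : 0 ≤ z := by rw [← Real.exp_zero] at hF; exact Real.exp_le_exp.mp hF
  have hzx : z ≤ x := Real.exp_le_exp.mp hFE
  have hy : 0 ≤ y := by rw [← Real.exp_zero] at hG; exact Real.exp_le_exp.mp hG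
  have hxy : x + y ≤ c + b := by
    rw [hc, ← Real.exp_add, ← Real.exp_add] at hEG; exact Real.exp_le_exp.mp hEG
  have htd : t * d ≤ x + y := by
    rw [← Real.exp_mul, ← Real.exp_add] at hd; exact Real.exp_le_exp.mp hd
  have hW : 2 * Real.exp b / (Real.exp x * Real.exp y) = Real.exp (c + b - x - y) := by
    rw [hc, ← Real.exp_add, ← Real.exp_add, ← Real.exp_sub]; congr 1; ring
  have hK : Real.exp z * Real.exp b ^ 2 / (Real.exp x ^ 2 * Real.exp a) =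
      Real.exp (z + 2 * b - 2 * x - a) := by
    rw [← Real.exp_nat_mul, ← Real.exp_nat_mul, ← Real.exp_add, ← Real.exp_add, ← Real.exp_sub]
    congr 1; push_cast; ring
  have hP : Real.exp a * Real.exp x / (Real.exp b * Real.exp z) = Real.exp (a + x - b - z) := by
    rw [← Real.exp_add, ← Real.exp_add, ← Real.exp_sub]; congr 1; ring
  have hR : Real.exp a ^ ((2 : ℝ) / 3) * Real.exp b ^ ((5 : ℝ) / 3) * Real.exp t ^ (-(d / 100)) *
      (Real.exp x ^ (-(17 / 12 : ℝ)) * Real.exp y ^ (-(13 / 12 : ℝ))) =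
      Real.exp (2 / 3 * a + 5 / 3 * b - d / 100 * t - 17 / 12 * x - 13 / 12 * y) := by
    rw [← Real.exp_mul, ← Real.exp_mul, ← Real.exp_mul, ← Real.exp_mul, ← Real.exp_mul,
      ← Real.exp_add, ← Real.exp_add, ← Real.exp_add, ← Real.exp_add]
    congr 1; ring
  rw [hW, hK, hP, hR, h8]
  have e1 : Real.exp (a + x - b - z) * (Real.exp (c + b - x - y) ^ (1 + d / 200) *
      Real.exp (z + 2 * b - 2 * x - a) ^ (1 + 2 * (d / 200))) ≤
      Real.exp (3 * c) * Real.exp (2 / 3 * a + 5 / 3 * b - d / 100 * t - 17 / 12 * x -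
        13 / 12 * y) := by
    rw [← Real.exp_mul, ← Real.exp_mul, ← Real.exp_add, ← Real.exp_add, ← Real.exp_add]
    apply Real.exp_le_exp.mpr
    have := log_T1 hc0 hct hb hba hat hz hzx hy hxy he0 he1 hed hd1
    linarith
  have e2 : Real.exp (a + x - b - z) * (Real.exp (c + b - x - y) ^ (1 + d / 200) *
      (Real.exp (c + b - x - y) * Real.exp (z + 2 * b - 2 * x - a) ^ (1 / 3 + 2 * (d / 200)))) ≤
      Real.exp (3 * c) * Real.exp (2 / 3 * a + 5 / 3 * b - d / 100 * t - 17 / 12 * x -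
        13 / 12 * y) := by
    rw [← Real.exp_mul, ← Real.exp_mul, ← Real.exp_add, ← Real.exp_add, ← Real.exp_add,
      ← Real.exp_add]
    apply Real.exp_le_exp.mpr
    have := log_T2 hc0 hct hb hba hat hz hzx hy htd he0 he1 hed hd1
    linarith
  have e3 : Real.exp (a + x - b - z) * (Real.exp (c + b - x - y) ^ (1 + d / 200) *
      (Real.exp (c + b - x - y) ^ ((2 : ℝ) / 3) *
        Real.exp (z + 2 * b - 2 * x - a) ^ (2 / 3 + 2 * (d / 200)))) ≤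
      Real.exp (3 * c) * Real.exp (2 / 3 * a + 5 / 3 * b - d / 100 * t - 17 / 12 * x -
        13 / 12 * y) := by
    rw [← Real.exp_mul, ← Real.exp_mul, ← Real.exp_mul, ← Real.exp_add, ← Real.exp_add,
      ← Real.exp_add, ← Real.exp_add]
    apply Real.exp_le_exp.mpr
    have := log_T3 hc0 hct hb hba hat hz hzx hy htd he0 he1 hed hd1
    linarith
  calc _ = Real.exp (a + x - b - z) * (Real.exp (c + b - x - y) ^ (1 + d / 200) *
      Real.exp (z + 2 * b - 2 * x - a) ^ (1 + 2 * (d / 200))) +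
      Real.exp (a + x - b - z) * (Real.exp (c + b - x - y) ^ (1 + d / 200) *
      (Real.exp (c + b - x - y) * Real.exp (z + 2 * b - 2 * x - a) ^ (1 / 3 + 2 * (d / 200)))) +
      Real.exp (a + x - b - z) * (Real.exp (c + b - x - y) ^ (1 + d / 200) *
      (Real.exp (c + b - x - y) ^ ((2 : ℝ) / 3) *
        Real.exp (z + 2 * b - 2 * x - a) ^ (2 / 3 + 2 * (d / 200)))) := by ring
    _ ≤ _ := by linarith


/-- the weighted dual sum inside the integral. -/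
theorem int_om_le (hHB : NonCube52.HBProp) {ε : ℝ} (hε : 0 < ε) (hε2 : ε ≤ 1 / 2) :
    ∃ C : ℝ, 0 < C ∧ ∀ B K : ℝ, 1 ≤ B → 0 < K →
      ∀ T : Finset Eis, (∀ n ∈ T, IsPrim n ∧ Squarefree n ∧ (nm n : ℝ) ≤ B) → ∀ a : ℝ → Eis → ℂ,
      (∀ u, ∀ n ∈ T, ‖a u n‖ ≤ 1) → ∀ (P : Eis → Prop) [DecidablePred P], (∀ h, P h → h ≠ 0) →
      ∫ u : ℝ, (1 + u ^ 2)⁻¹ * ∑' h : Eis, (if P h then
        om K h * ‖∑ n ∈ T, a u n * sy h n‖ ^ 2 else 0) ≤
        C * (B ^ (1 + ε) * (K ^ (1 + 2 * ε) + B * K ^ (1 / 3 + 2 * ε) +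
          B ^ ((2 : ℝ) / 3) * K ^ (2 / 3 + 2 * ε))) := by
  classical
  obtain ⟨C, hC, hom⟩ := sum_om_le hHB hε hε2
  refine ⟨Real.pi * C, by positivity, fun B K hB hK T hT a ha P _ hP => ?_⟩
  set M : ℝ := C * (B ^ (1 + ε) * (K ^ (1 + 2 * ε) + B * K ^ (1 / 3 + 2 * ε) +
          B ^ ((2 : ℝ) / 3) * K ^ (2 / 3 + 2 * ε))) with hM
  have hB0 : (0 : ℝ) < B := by linarith
  have hM0 : 0 ≤ M := by positivity
  have hts : ∀ u : ℝ, ∑' h : Eis, (if P h then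
        om K h * ‖∑ n ∈ T, a u n * sy h n‖ ^ 2 else 0) ≤ M := by
    intro u
    refine tsum_le_of_sum_le' hM0 fun S => ?_
    rw [← sum_filter]
    have h1 := hom B K hB hK T hT (a u) (ha u) (S.filter P)
      (fun h hh => hP h (mem_filter.mp hh).2)
    rw [mul_assoc] at h1
    exact h1
  have hts0 : ∀ u : ℝ, 0 ≤ ∑' h : Eis, (if P h then
        om K h * ‖∑ n ∈ T, a u n * sy h n‖ ^ 2 else 0) := by
    intro u
    refine tsum_nonneg fun h => ?_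
    split_ifs
    · exact mul_nonneg (om_nonneg hK.le h) (by positivity)
    · exact le_rfl
  calc ∫ u : ℝ, (1 + u ^ 2)⁻¹ * ∑' h : Eis, (if P h then
        om K h * ‖∑ n ∈ T, a u n * sy h n‖ ^ 2 else 0)
      ≤ ∫ u : ℝ, (1 + u ^ 2)⁻¹ * M := by
        refine MeasureTheory.integral_mono_of_nonneg (Filter.Eventually.of_forall fun u =>
          mul_nonneg (by positivity) (hts0 u)) (integrable_inv_one_add_sq.mul_const M)
          (Filter.Eventually.of_forall fun u => mul_le_mul_of_nonneg_left (hts u) (by positivity))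
    _ = Real.pi * M := by
        rw [MeasureTheory.integral_mul_const, integral_univ_inv_one_add_sq]
    _ = _ := by rw [hM]; ring

/-- divisors of the elements of `𝓑` -/
lemma mem_D {w B : ℝ} {𝓑 : Finset Eis} {β : Eis → ℂ} (h : Cls w B 𝓑 β) {n : Eis}
    (hn : n ∈ 𝓑.biUnion dvs) : IsPrim n ∧ Squarefree n ∧ ∃ b ∈ 𝓑, n ∣ b := by
  rw [mem_biUnion] at hn
  obtain ⟨b, hb, hn⟩ := hn
  have h1 := (mem_dvs (h.sq b hb).1.ne_zero).mp hn
  exact ⟨h1.1, (h.sq b hb).2.squarefree_of_dvd h1.2, b, hb, h1.2⟩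

lemma one_le_nmD {w B : ℝ} {𝓑 : Finset Eis} {β : Eis → ℂ} (h : Cls w B 𝓑 β) {n : Eis}
    (hn : n ∈ 𝓑.biUnion dvs) : (1 : ℝ) ≤ nm n := by
  have := nm_pos.mpr (mem_D h hn).1.ne_zero
  exact_mod_cast this

lemma rough_D {w B : ℝ} {𝓑 : Finset Eis} {β : Eis → ℂ} (h : Cls w B 𝓑 β) {n : Eis}
    (hn : n ∈ 𝓑.biUnion dvs) (h1 : n ≠ 1) : w ≤ nm n := by
  obtain ⟨hp, -, b, hb, hd⟩ := mem_D h hn
  obtain ⟨p, hp1, hp2⟩ := exists_pp_dvd_of_isPrim hp h1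
  have h2 := h.rough b hb p hp1 (hp2.trans hd)
  have h3 : (nm p : ℝ) ≤ nm n := by exact_mod_cast nm_le_of_dvd hp.ne_zero hp2
  exact h2.trans h3

/-- the inner coefficients -/
def cf (β : Eis → ℂ) (e f g : Eis) (u : ℝ) (n : Eis) : ℂ :=
  β (e * g * n) * (starRingEnd ℂ) (sy (f * e) n) * (nm n : ℂ) ^ ((u : ℂ) * Complex.I)

lemma norm_cf_le {w B : ℝ} {𝓑 : Finset Eis} {β : Eis → ℂ} (h : Cls w B 𝓑 β) (e f g : Eis) (u : ℝ)
    {n : Eis} (hn : IsPrim n) : ‖cf β e f g u n‖ ≤ 1 := by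
  unfold cf
  have hpos : 0 < nm n := nm_pos.mpr hn.ne_zero
  rw [norm_mul, norm_mul, Complex.norm_natCast_cpow_of_pos hpos]
  have h1 : ((u : ℂ) * Complex.I).re = 0 := by simp
  rw [h1, Real.rpow_zero, mul_one, RCLike.norm_conj]
  have h2 := h.le (e * g * n)
  have h3 := NonCube52.norm_sy_le Sym645.syFacts (f * e) n hn
  exact mul_le_one₀ h2 (norm_nonneg _) h3

open Classical in
/-- one term `(e, f, g)` of `RHSd` -/
def trm (A B : ℝ) (𝓑 : Finset Eis) (β : Eis → ℂ) (e f g : Eis) : ℝ :=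
  A * nm e / (B * nm f) * ∫ u : ℝ, (1 + u ^ 2)⁻¹ *
      ∑' h : Eis, if isNonCubeE e f h then
        om (nm f * B ^ 2 / ((nm e : ℝ) ^ 2 * A)) h *
        ‖∑ n ∈ (𝓑.biUnion dvs).filter (fun n => e * g * n ∈ 𝓑),
          β (e * g * n) * (starRingEnd ℂ) (sy (f * e) n) * sy h n *
            (nm n : ℂ) ^ ((u : ℂ) * Complex.I)‖ ^ 2 else 0

/-- bound of one term by the large sieve, `ε`-loss; no use of roughness. -/
theorem trm_le (hHB : NonCube52.HBProp) {ε : ℝ} (hε : 0 < ε) (hε2 : ε ≤ 1 / 2) :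
    ∃ C : ℝ, 0 < C ∧ ∀ w A B : ℝ, 0 < A → 0 < B → ∀ (𝓑 : Finset Eis) (β : Eis → ℂ), Cls w B 𝓑 β →
      ∀ e ∈ 𝓑.biUnion dvs, ∀ f ∈ dvs e, ∀ g ∈ 𝓑.biUnion dvs,
      trm A B 𝓑 β e f g ≤ 0 ∨ ((nm e : ℝ) * nm g ≤ 2 * B ∧ trm A B 𝓑 β e f g ≤
        C * (A * nm e / (B * nm f) * ((2 * B / (nm e * nm g)) ^ (1 + ε) *
          ((nm f * B ^ 2 / ((nm e : ℝ) ^ 2 * A)) ^ (1 + 2 * ε) +
          (2 * B / (nm e * nm g)) * (nm f * B ^ 2 / ((nm e : ℝ) ^ 2 * A)) ^ (1 / 3 + 2 * ε) +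
          (2 * B / (nm e * nm g)) ^ ((2 : ℝ) / 3) *
            (nm f * B ^ 2 / ((nm e : ℝ) ^ 2 * A)) ^ (2 / 3 + 2 * ε))))) := by
  classical
  obtain ⟨C, hC, hint⟩ := int_om_le hHB hε hε2
  refine ⟨C, hC, ?_⟩
  intro w A B hA hB 𝓑 β hcls e he f hf g hg
  have he1 := one_le_nmD hcls he
  have hg1 := one_le_nmD hcls hg
  have hfp : IsPrim f := isPrim_of_mem_dvs hf
  have hf1 : (1 : ℝ) ≤ nm f := by
    have := nm_pos.mpr hfp.ne_zero
    exact_mod_cast this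
  set T := (𝓑.biUnion dvs).filter (fun n => e * g * n ∈ 𝓑) with hT
  rcases T.eq_empty_or_nonempty with hem | ⟨n0, hn0⟩
  · left
    unfold trm
    rw [← hT, hem]
    simp
  right
  have hTn : ∀ n ∈ T, (nm e : ℝ) * nm g * nm n ≤ 2 * B := by
    intro n hn
    have h1 := hcls.hi _ (mem_filter.mp hn).2
    rw [nm_mul, nm_mul] at h1
    push_cast at h1
    exact h1
  have hn01 := one_le_nmD hcls (mem_filter.mp hn0).1
  have hEG : (nm e : ℝ) * nm g ≤ 2 * B := by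
    have h1 := hTn n0 hn0
    have h2 : 0 ≤ (nm e : ℝ) * nm g := by positivity
    nlinarith
  refine ⟨hEG, ?_⟩
  have hEG0 : 0 < (nm e : ℝ) * nm g := by positivity
  have hB' : 1 ≤ 2 * B / ((nm e : ℝ) * nm g) := by rw [le_div_iff₀ hEG0]; linarith
  have h1 := hint (2 * B / ((nm e : ℝ) * nm g)) (nm f * B ^ 2 / ((nm e : ℝ) ^ 2 * A)) hB'
    (by positivity) T (fun n hn => by
      obtain ⟨h2, h3, -⟩ := mem_D hcls (mem_filter.mp hn).1
      refine ⟨h2, h3, ?_⟩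
      rw [le_div_iff₀ hEG0]
      have := hTn n hn
      linarith) (fun u n => cf β e f g u n)
    (fun u n hn => norm_cf_le hcls e f g u (mem_D hcls (mem_filter.mp hn).1).1)
    (fun h => isNonCubeE e f h) (fun h hh => hh.1)
  unfold trm
  rw [mul_left_comm C]
  refine mul_le_mul_of_nonneg_left ?_ (by positivity)
  refine le_trans (le_of_eq ?_) h1
  congr 1
  funext u
  congr 1
  refine tsum_congr fun h => ?_
  split_ifs
  · congr 3
    refine sum_congr rfl fun n _ => ?_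
    unfold cf
    ring
  · rfl

open Classical in
/-- **(TNX), critical range, the terms `(e, g) ≠ (1, 1)`.** -/
theorem eg_crit (hHB : NonCube52.HBProp) : ∀ e0 d1 : ℝ, 0 < e0 → e0 ≤ 1/10 → 0 < d1 → e0 ≤ d1 →
    ∃ C δ : ℝ, 0 < C ∧ 0 < δ ∧ ∀ X A B : ℝ, 2 ≤ X → X ^ ((1:ℝ)/4) ≤ B → A ≤ B ^ (1 + e0) →
    B ^ (1 - e0/2) ≤ A → A ≤ X → ∀ (𝓑 : Finset Eis) (β : Eis → ℂ), Cls (X ^ d1) B 𝓑 β →
    ∑ e ∈ 𝓑.biUnion dvs, ∑ f ∈ dvs e, ∑ g ∈ (𝓑.biUnion dvs).filter (IsCoprime · e),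
      (if e = 1 ∧ g = 1 then 0 else A * nm e / (B * nm f) * ∫ u : ℝ, (1 + u ^ 2)⁻¹ *
      ∑' h : Eis, if isNonCubeE e f h then om (nm f * B ^ 2 / ((nm e : ℝ) ^ 2 * A)) h *
        ‖∑ n ∈ (𝓑.biUnion dvs).filter (fun n => e * g * n ∈ 𝓑), β (e * g * n) *
          (starRingEnd ℂ) (sy (f * e) n) * sy h n * (nm n : ℂ) ^ ((u : ℂ) * Complex.I)‖ ^ 2
        else 0) ≤ C * A^((2:ℝ)/3) * B^((5:ℝ)/3) * X^(-δ) := by
  intro e0 d1 he0 he1 hd1 hed
  set d : ℝ := min d1 1 with hd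
  have hd0 : 0 < d := lt_min hd1 one_pos
  have hdle : d ≤ 1 := min_le_right _ _
  have hed' : e0 ≤ d := le_min hed (by linarith)
  obtain ⟨C1, hC1, htrm⟩ := trm_le hHB (ε := d / 200) (by positivity) (by linarith)
  obtain ⟨C2, hC2, htau⟩ := tau_le_rpow (ε := 1 / 4) (by norm_num)
  obtain ⟨C3, hC3, hsE⟩ := sum_rpow_le (s := 7 / 6) (by norm_num)
  obtain ⟨C4, hC4, hsG⟩ := sum_rpow_le (s := 13 / 12) (by norm_num)
  have hC2' : 0 < C2 := by linarith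
  refine ⟨C1 * 24 * C2 * C3 * C4, d / 100, by positivity, by positivity, ?_⟩
  intro X A B hX hXB _hAB hBA hAX 𝓑 β hcls
  have hX0 : 0 < X := by linarith
  have hB0 : 0 < B := lt_of_lt_of_le (Real.rpow_pos_of_pos hX0 _) hXB
  have hA0 : 0 < A := lt_of_lt_of_le (Real.rpow_pos_of_pos hB0 _) hBA
  set M : ℝ := A ^ ((2 : ℝ) / 3) * B ^ ((5 : ℝ) / 3) * X ^ (-(d / 100)) with hM
  have hM0 : 0 < M := by positivity
  -- one term
  have hone : ∀ e ∈ 𝓑.biUnion dvs, ∀ f ∈ dvs e, ∀ g ∈ (𝓑.biUnion dvs).filter (IsCoprime · e),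
      (if e = 1 ∧ g = 1 then 0 else A * nm e / (B * nm f) * ∫ u : ℝ, (1 + u ^ 2)⁻¹ *
      ∑' h : Eis, if isNonCubeE e f h then om (nm f * B ^ 2 / ((nm e : ℝ) ^ 2 * A)) h *
        ‖∑ n ∈ (𝓑.biUnion dvs).filter (fun n => e * g * n ∈ 𝓑), β (e * g * n) *
          (starRingEnd ℂ) (sy (f * e) n) * sy h n * (nm n : ℂ) ^ ((u : ℂ) * Complex.I)‖ ^ 2
        else 0) ≤ (C1 * 24 * M * (nm e : ℝ) ^ (-(17 / 12 : ℝ))) *
          (nm g : ℝ) ^ (-(13 / 12 : ℝ)) := by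
    intro e he f hf g hg
    have hg' := (mem_filter.mp hg).1
    have he1' := one_le_nmD hcls he
    have hg1' := one_le_nmD hcls hg'
    have hrhs : 0 ≤ (C1 * 24 * M * (nm e : ℝ) ^ (-(17 / 12 : ℝ))) *
          (nm g : ℝ) ^ (-(13 / 12 : ℝ)) := by positivity
    split_ifs with h1
    · exact hrhs
    have hXd : X ^ d ≤ (nm e : ℝ) * nm g := by
      have h2 : X ^ d ≤ X ^ d1 :=
        Real.rpow_le_rpow_of_exponent_le (by linarith) (min_le_left _ _)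
      refine h2.trans ?_
      by_cases he1 : e = 1
      · have hg1 : g ≠ 1 := fun h => h1 ⟨he1, h⟩
        have h3 := rough_D hcls hg' hg1
        have h4 : (0 : ℝ) ≤ nm g := by positivity
        nlinarith
      · have h3 := rough_D hcls he he1
        have h4 : (0 : ℝ) ≤ nm e := by positivity
        nlinarith
    have hfe : (nm f : ℝ) ≤ nm e := by
      exact_mod_cast nm_le_of_dvd (mem_D hcls he).1.ne_zero (dvd_of_mem_dvs hf)
    have hf1 : (1 : ℝ) ≤ nm f := by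
      have := nm_pos.mpr (isPrim_of_mem_dvs hf).ne_zero
      exact_mod_cast this
    rcases htrm (X ^ d1) A B hA0 hB0 𝓑 β hcls e he f hf g hg' with h2 | ⟨h2, h3⟩
    · exact h2.trans hrhs
    · refine h3.trans ?_
      have h4 := real_terms hX hA0 hXB hBA hAX hf1 hfe hg1' h2 hXd he0 he1 hed' hdle
      calc _ ≤ C1 * (24 * (A ^ ((2 : ℝ) / 3) * B ^ ((5 : ℝ) / 3) * X ^ (-(d / 100)) *
            ((nm e : ℝ) ^ (-(17 / 12 : ℝ)) * (nm g : ℝ) ^ (-(13 / 12 : ℝ))))) :=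
            mul_le_mul_of_nonneg_left h4 hC1.le
        _ = _ := by rw [hM]; ring
  calc _ ≤ ∑ e ∈ 𝓑.biUnion dvs, ∑ f ∈ dvs e, ∑ g ∈ (𝓑.biUnion dvs).filter (IsCoprime · e),
        (C1 * 24 * M * (nm e : ℝ) ^ (-(17 / 12 : ℝ))) * (nm g : ℝ) ^ (-(13 / 12 : ℝ)) :=
        sum_le_sum fun e he => sum_le_sum fun f hf => sum_le_sum fun g hg => hone e he f hf g hg
    _ ≤ ∑ e ∈ 𝓑.biUnion dvs, ∑ f ∈ dvs e,
        (C1 * 24 * M * (nm e : ℝ) ^ (-(17 / 12 : ℝ))) * C4 := by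
        refine sum_le_sum fun e _ => sum_le_sum fun f _ => ?_
        rw [← mul_sum]
        exact mul_le_mul_of_nonneg_left (hsG _) (by positivity)
    _ = ∑ e ∈ 𝓑.biUnion dvs, (tau e : ℝ) *
        ((C1 * 24 * M * (nm e : ℝ) ^ (-(17 / 12 : ℝ))) * C4) := by
        refine sum_congr rfl fun e _ => ?_
        rw [sum_const, nsmul_eq_mul]; rfl
    _ ≤ ∑ e ∈ 𝓑.biUnion dvs, (C1 * 24 * M * C4 * C2) * (nm e : ℝ) ^ (-(7 / 6 : ℝ)) := by
        refine sum_le_sum fun e he => ?_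
        have h1 := htau e (mem_D hcls he).1.ne_zero
        have h2 : (0 : ℝ) < nm e := by linarith [one_le_nmD hcls he]
        have h3 : (nm e : ℝ) ^ (1 / 4 : ℝ) * (nm e : ℝ) ^ (-(17 / 12 : ℝ)) =
            (nm e : ℝ) ^ (-(7 / 6 : ℝ)) := by
          rw [← Real.rpow_add h2]; norm_num
        calc (tau e : ℝ) * ((C1 * 24 * M * (nm e : ℝ) ^ (-(17 / 12 : ℝ))) * C4)
            ≤ (C2 * (nm e : ℝ) ^ (1 / 4 : ℝ)) *
              ((C1 * 24 * M * (nm e : ℝ) ^ (-(17 / 12 : ℝ))) * C4) :=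
              mul_le_mul_of_nonneg_right h1 (by positivity)
          _ = (C1 * 24 * M * C4 * C2) *
              ((nm e : ℝ) ^ (1 / 4 : ℝ) * (nm e : ℝ) ^ (-(17 / 12 : ℝ))) := by ring
          _ = _ := by rw [h3]
    _ ≤ (C1 * 24 * M * C4 * C2) * C3 := by
        rw [← mul_sum]
        exact mul_le_mul_of_nonneg_left (hsE _) (by positivity)
    _ = _ := by rw [hM]; ring

end Crest.Agent.R012.TNXC2298
end
end

-- ▼ part R012/TNXC_411

/-!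
# Row 12, item TNXC: the non-cube terms in the critical range (helper411)

From helper52's `noncube_omC` (the `(e,f,g) = (1,1,1)` term) and the bound of the terms with
`nm e nm g ≥ Z` (`Z = X^d1`).
-/

set_option autoImplicit false
set_option linter.unusedVariables false

noncomputable section

namespace Crest.Agent.R012.TNX411

open Finset Eis LS448 CharSum852 Char766 NonCube52 Div277
open T411 (om NC tws Cls SqP RHSd isNonCubeE NCube)



lemma ncs_eq {L : ℝ} (hL : 0 ≤ L) : ncs L = NC L := by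
  ext h
  unfold ncs NC
  simp only [mem_filter, LS448.mem_nz, LS2.mem_bl hL, NCube, not_exists]
  tauto

/-- conversion of kernels -/
def toK (q : ℕ × ℕ × Eis × Eis) : NonCube52.Ker := ((q.1, q.2.1), (q.2.2.1, q.2.2.2))


open Classical in
lemma mem_kers {H : ℝ} (hH : 0 ≤ H) {κ : NonCube52.Ker} (hg : Good κ) (hκ : (nm (NonCube52.kv κ) : ℝ) ≤ H) :
    κ ∈ (T411.Ker H).image toK := by
  rw [mem_image]
  refine ⟨(κ.1.1, κ.1.2, κ.2.1, κ.2.2), ?_, rfl⟩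
  unfold T411.Ker
  have h1 := one_le_nm1 hg
  have h2 := one_le_nm2 hg
  have h3 := nm_kv_ge κ
  have h6 : (1 : ℝ) ≤ (nm κ.2.2 : ℝ) ^ 2 := one_le_pow₀ h2
  have h4 : (nm κ.2.1 : ℝ) ≤ (nm κ.2.1 : ℝ) * nm κ.2.2 ^ 2 := by nlinarith
  have h5 : (nm κ.2.2 : ℝ) ≤ (nm κ.2.1 : ℝ) * nm κ.2.2 ^ 2 := by nlinarith
  rw [mem_filter]
  simp only [mem_product, mem_range, LS2.mem_S hH]
  exact ⟨⟨hg.hi, hg.hj, ⟨by linarith, hg.prim1, hg.sqf1⟩, by linarith, hg.prim2, hg.sqf2⟩,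
    hg.cop, hκ⟩

open Classical in
lemma sum_kers_le (H : ℝ) (f : Eis → ℝ) (hf : ∀ x, 0 ≤ f x) :
    ∑ κ ∈ (T411.Ker H).image toK, f (NonCube52.kv κ) ≤ ∑ q ∈ T411.Ker H, f (T411.kv q) := by
  rw [sum_image]
  · rfl
  · intro a _ b _ hab
    unfold toK at hab
    simp only [Prod.mk.injEq] at hab
    ext <;> simp [hab]

lemma norm_nit {b : Eis} (hb : b ≠ 0) (u : ℝ) : ‖(nm b : ℂ) ^ ((u : ℂ) * Complex.I)‖ = 1 := by
  have h : (0 : ℝ) < nm b := by exact_mod_cast nm_pos.2 hb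
  have := Complex.norm_cpow_eq_rpow_re_of_pos h ((u : ℂ) * Complex.I)
  rw [Complex.ofReal_natCast] at this
  rw [this]
  simp

/-! ### integrability -/

lemma continuous_tws {𝓑 : Finset Eis} (h𝓑 : ∀ b ∈ 𝓑, b ≠ 0) (β : Eis → ℂ) (h : Eis) :
    Continuous (fun u : ℝ => tws 𝓑 β h u) := by
  unfold tws
  refine continuous_finsetSum _ fun b hb => ?_
  refine Continuous.mul (Continuous.mul continuous_const ?_) continuous_const
  refine Continuous.const_cpow (by fun_prop) (Or.inl ?_)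
  exact_mod_cast (nm_pos.2 (h𝓑 b hb)).ne'

lemma norm_tws_le (H : SyFacts) {𝓑 : Finset Eis} (h𝓑 : ∀ b ∈ 𝓑, IsPrim b) {β : Eis → ℂ}
    (hβ : ∀ b, ‖β b‖ ≤ 1) (h : Eis) (u : ℝ) : ‖tws 𝓑 β h u‖ ≤ #𝓑 := by
  unfold tws
  refine (norm_sum_le _ _).trans ?_
  calc ∑ b ∈ 𝓑, ‖β b * (nm b : ℂ) ^ ((u : ℂ) * Complex.I) * sy h b‖ ≤ ∑ _b ∈ 𝓑, (1 : ℝ) := by
        refine sum_le_sum fun b hb => ?_
        rw [norm_mul, norm_mul, norm_nit (h𝓑 b hb).ne_zero, mul_one]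
        have h1 := norm_sy_le H h b (h𝓑 b hb)
        have h2 := hβ b
        nlinarith [norm_nonneg (β b), norm_nonneg (sy h b)]
    _ = #𝓑 := by simp

lemma integrable_tws (H : SyFacts) {𝓑 : Finset Eis} (h𝓑 : ∀ b ∈ 𝓑, IsPrim b) {β : Eis → ℂ}
    (hβ : ∀ b, ‖β b‖ ≤ 1) (h : Eis) :
    MeasureTheory.Integrable (fun u : ℝ => (1 + u ^ 2)⁻¹ * ‖tws 𝓑 β h u‖ ^ 2) := by
  refine integrable_inv_one_add_sq.mul_bdd (c := (#𝓑 : ℝ) ^ 2) ?_ ?_
  · exact ((continuous_tws (fun b hb => (h𝓑 b hb).ne_zero) β h).norm.pow 2).aestronglyMeasurable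
  · refine Filter.Eventually.of_forall fun u => ?_
    rw [norm_pow, norm_norm]
    exact pow_le_pow_left₀ (norm_nonneg _) (norm_tws_le H h𝓑 hβ h u) 2

/-! ### the hypotheses `R`, `R2` -/

lemma card_le_of_cls {w B : ℝ} {𝓑 : Finset Eis} {β : Eis → ℂ} (hB : 0 ≤ B) (h : Cls w B 𝓑 β) :
    (#𝓑 : ℝ) ≤ 32 * B := by
  have h1 : 𝓑 ⊆ LS448.nz (2 * B) := fun b hb =>
    LS448.mem_nz.2 ⟨(h.sq b hb).1.ne_zero, h.hi b hb⟩
  calc (#𝓑 : ℝ) ≤ #(LS448.nz (2 * B)) := by exact_mod_cast card_le_card h1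
    _ ≤ 16 * (2 * B) := card_nz_le16 (by positivity)
    _ = _ := by ring

lemma card_nc {X B d1 : ℝ} (hX : 2 ≤ X) (hd : 0 < d1) (hB : 0 ≤ B) (hBX : B ≤ X ^ 2)
    {𝓑 : Finset Eis} {β : Eis → ℂ} (h : Cls (X ^ d1) B 𝓑 β) {m : Eis} (hm : m ≠ 0)
    (hmX : (nm m : ℝ) ≤ (2 * B) ^ 4) :
    (open Classical in ((𝓑.filter (fun b => ¬ IsCoprime m b)).card : ℝ)) ≤
      2400 / d1 * (B * X ^ (-d1)) := by
  classical
  have hX0 : 0 < X := by linarith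
  have hz : 1 < X ^ d1 := Real.one_lt_rpow (by linarith) hd
  have h1 := Rough298.card_not_coprime_le hz hB h hm
  have hmX' : (nm m : ℝ) ≤ X ^ 12 := by
    refine hmX.trans ?_
    have h3 : 2 * B ≤ X ^ 3 := by nlinarith
    calc (2 * B) ^ 4 ≤ (X ^ 3) ^ 4 := by gcongr
      _ = X ^ 12 := by ring
  have hL : 0 < Real.log X := Real.log_pos (by linarith)
  have h2 := (Rough298.pow_card_bigP_le (by positivity : (0 : ℝ) ≤ X ^ d1) hm).trans hmX'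
  have h3 := Real.log_le_log (by positivity) h2
  rw [Real.log_pow, Real.log_pow, Real.log_rpow hX0] at h3
  have h4 : ((Rough298.bigP (X ^ d1) m).card : ℝ) ≤ 12 / d1 := by
    rw [le_div_iff₀ hd]
    have h5 : (((Rough298.bigP (X ^ d1) m).card : ℝ) * d1) * Real.log X ≤ 12 * Real.log X := by
      push_cast at h3
      linarith
    exact le_of_mul_le_mul_right h5 hL
  calc _ ≤ _ := h1
    _ ≤ 12 / d1 * (200 * B / X ^ d1) := by gcongr
    _ = _ := by rw [Real.rpow_neg hX0.le]; field_simp; ring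

lemma sum_cop_le {𝓑 : Finset Eis} {γ : Eis → ℂ} (hγ : ∀ b ∈ 𝓑, ‖γ b‖ ≤ 1) (m : Eis) (k : ℕ)
    (hk : k ≠ 0) :
    ∑ b ∈ 𝓑, ‖γ b * (1 - cop m b)‖ ^ k ≤
      (open Classical in ((𝓑.filter (fun b => ¬ IsCoprime m b)).card : ℝ)) := by
  classical
  rw [card_filter]
  push_cast
  refine sum_le_sum fun b hb => ?_
  unfold cop
  by_cases hc : IsCoprime m b
  · simp [hc, hk]
  · simp only [hc, if_false, not_false_iff, if_true, sub_zero, mul_one]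
    exact pow_le_one₀ (norm_nonneg _) (hγ b hb)


/-! ### the `(1,1,1)` term -/

lemma Tn_one {𝓑 : Finset Eis} (hsq : ∀ b ∈ 𝓑, SqP b) : Tn 𝓑 1 1 = 𝓑 := by
  classical
  unfold Tn
  ext n
  simp only [mem_filter, one_mul, mem_biUnion]
  constructor
  · exact fun h => h.2
  · exact fun h => ⟨⟨n, h, self_mem_dvs (hsq n h).1⟩, h⟩

lemma bet_one (H : SyFacts) {β : Eis → ℂ} {n : Eis} (hn : IsPrim n) (u : ℝ) :
    bet β 1 1 1 u n = β n * (nm n : ℂ) ^ ((u : ℂ) * Complex.I) := by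
  unfold bet
  rw [one_mul, one_mul, sy_one_left H n hn, map_one, mul_one]

lemma sum_bet_one (H : SyFacts) {𝓑 : Finset Eis} (hsq : ∀ b ∈ 𝓑, SqP b) (β : Eis → ℂ) (h : Eis)
    (u : ℝ) : ∑ n ∈ Tn 𝓑 1 1, bet β 1 1 1 u n * sy h n = tws 𝓑 β h u := by
  rw [Tn_one hsq]
  unfold tws
  exact sum_congr rfl fun n hn => by rw [bet_one H (hsq n hn).1]

/-- **the `(1,1,1)` term, critical range** -/
theorem trm_one (H : SyFacts) (hL1 : L1Prop) (hHB : HBProp) {e0 d1 : ℝ} (he0 : 0 < e0)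
    (he1 : e0 ≤ 1 / 10) (hd1 : 0 < d1) :
    ∃ C : ℝ, 0 < C ∧ ∀ X A B Λ : ℝ, 2 ≤ X → 1 ≤ B → B ≤ X ^ 2 → 0 < A →
      B ^ 2 / A ≤ (2 * B) ^ (1 + 3 * (9 * e0 / 10) / 5) →
      (2 * B) ^ (1 + 9 * e0 / 10) ≤ B ^ (1 + e0) → 1 ≤ Λ → ∀ (𝓑 : Finset Eis) (β : Eis → ℂ),
      Cls (X ^ d1) B 𝓑 β →
      trm A B 𝓑 β 1 1 1 ≤ C * (A / B * (B ^ 2 / A) ^ ((1 : ℝ) / 3)) *
        ((∑ v ∈ NC Λ, ∫ u : ℝ, (1 + u ^ 2)⁻¹ * ‖tws 𝓑 β v u‖ ^ 2) +
          Λ * (B * X ^ (-d1)) ^ 2 + (Λ ^ (-(1 : ℝ) / 3) + (2 * B) ^ (-(9 * e0 / 10 / 12))) * B ^ 2 +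
          (2 * B) ^ (-(1 - 9 * e0 / 10) / 3) *
            (∑ q ∈ T411.Ker (B ^ (1 + e0)), ∫ u : ℝ, (1 + u ^ 2)⁻¹ * ‖tws 𝓑 β (T411.kv q) u‖ ^ 2) +
          (2 * B) ^ (1 + 9 * e0 / 10 / 2) * (B * X ^ (-d1))) := by
  classical
  set η : ℝ := 9 * e0 / 10 with hη
  obtain ⟨C, hC, hmain⟩ := noncube_omC H hL1 hHB (η := η) (by positivity) (by rw [hη]; linarith)
  set r : ℝ := 2400 / d1 with hr
  have hr0 : 0 < r := by positivity
  refine ⟨C * (1 + Real.pi * (r ^ 2 + 64 + r) ), by positivity, ?_⟩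
  intro X A B Λ hX hB hBX hA hK1 hK2 hΛ 𝓑 β hcls
  have hB0 : (0 : ℝ) < B := by linarith
  have hX0 : (0 : ℝ) < X := by linarith
  have hA0 : (0 : ℝ) < A := hA
  have hpr : ∀ b ∈ 𝓑, IsPrim b := fun b hb => (hcls.sq b hb).1
  have h0 : ∀ b ∈ 𝓑, b ≠ 0 := fun b hb => (hpr b hb).ne_zero
  set K : ℝ := B ^ 2 / A with hK
  have hKpos : 0 < K := by positivity
  set δ : ℝ := B * X ^ (-d1) with hδ
  have hδ0 : 0 < δ := by positivity
  set N : ℝ → ℝ := fun u => ∑ v ∈ NC Λ, ‖tws 𝓑 β v u‖ ^ 2 with hN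
  set M : ℝ → ℝ := fun u => ∑ q ∈ T411.Ker (B ^ (1 + e0)), ‖tws 𝓑 β (T411.kv q) u‖ ^ 2 with hM
  set b3 : ℝ := (2 * B) ^ (-(1 - η) / 3) with hb3
  set b5 : ℝ := (2 * B) ^ (1 + η / 2) with hb5
  set L3 : ℝ := Λ ^ (-(1 : ℝ) / 3) + (2 * B) ^ (-(η / 12)) with hL3
  have hL30 : 0 ≤ L3 := by positivity
  set c : ℝ → ℝ := fun u => C * K ^ ((1 : ℝ) / 3) * (N u + Λ * (r * δ) ^ 2 +
      L3 * (2 * B) * (32 * B) + (b3 * M u + b5 * (r * δ))) with hc
  have hNi : MeasureTheory.Integrable (fun u : ℝ => (1 + u ^ 2)⁻¹ * N u) := by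
    simp only [hN, mul_sum]
    exact MeasureTheory.integrable_finsetSum _ fun v _ => integrable_tws H hpr hcls.le v
  have hMi : MeasureTheory.Integrable (fun u : ℝ => (1 + u ^ 2)⁻¹ * M u) := by
    simp only [hM, mul_sum]
    exact MeasureTheory.integrable_finsetSum _ fun v _ => integrable_tws H hpr hcls.le _
  have hce : (fun u : ℝ => (1 + u ^ 2)⁻¹ * c u) = fun u : ℝ => C * K ^ ((1 : ℝ) / 3) *
      ((1 + u ^ 2)⁻¹ * N u + b3 * ((1 + u ^ 2)⁻¹ * M u) +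
        (1 + u ^ 2)⁻¹ * (Λ * (r * δ) ^ 2 + L3 * (2 * B) * (32 * B) + b5 * (r * δ))) := by
    ext u
    simp only [hc]
    ring
  have hi1 : MeasureTheory.Integrable (fun u : ℝ => (1 + u ^ 2)⁻¹ * N u +
      b3 * ((1 + u ^ 2)⁻¹ * M u)) := hNi.add (hMi.const_mul _)
  have hi2 : MeasureTheory.Integrable (fun u : ℝ => (1 + u ^ 2)⁻¹ *
      (Λ * (r * δ) ^ 2 + L3 * (2 * B) * (32 * B) + b5 * (r * δ))) :=
    integrable_inv_one_add_sq.mul_const _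
  have hci : MeasureTheory.Integrable (fun u : ℝ => (1 + u ^ 2)⁻¹ * c u) := by
    rw [hce]
    exact (hi1.add hi2).const_mul _
  have hkey : trm A B 𝓑 β 1 1 1 ≤ A * nm 1 / (B * nm 1) * ∫ u : ℝ, (1 + u ^ 2)⁻¹ * c u := by
    refine trm_le' hA0 hB0 𝓑 β 1 1 1 c hci ?_
    intro u S hS
    have hmain' := hmain (2 * B) K Λ (r * δ) (r * δ) (by linarith) hKpos hK1 hΛ (by positivity)
      (by positivity) 𝓑 (fun b hb => ⟨hpr b hb, (hcls.sq b hb).2, hcls.hi b hb⟩)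
      (fun b => β b * (nm b : ℂ) ^ ((u : ℂ) * Complex.I)) ?_ ?_ ((T411.Ker (B ^ (1 + e0))).image toK)
      ?_ S ?_
    · have e1 : (nm (1 : Eis) : ℝ) * B ^ 2 / ((nm (1 : Eis) : ℝ) ^ 2 * A) = K := by
        rw [nm_one]; simp [hK]
      rw [e1]
      have e2 : ∀ h, ∑ n ∈ Tn 𝓑 1 1, bet β 1 1 1 u n * sy h n
          = ∑ b ∈ 𝓑, β b * (nm b : ℂ) ^ ((u : ℂ) * Complex.I) * sy h b := fun h =>
        sum_bet_one H hcls.sq β h u
      simp only [e2]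
      refine hmain'.trans ?_
      rw [hc]
      simp only
      have e3 : ∑ v ∈ ncs Λ, ‖∑ b ∈ 𝓑, β b * (nm b : ℂ) ^ ((u : ℂ) * Complex.I) * sy v b‖ ^ 2
          = N u := by
        rw [ncs_eq (by linarith)]; rfl
      have e4 : ∑ κ ∈ (T411.Ker (B ^ (1 + e0))).image toK,
          ‖∑ b ∈ 𝓑, β b * (nm b : ℂ) ^ ((u : ℂ) * Complex.I) * sy (NonCube52.kv κ) b‖ ^ 2
          ≤ M u :=
        sum_kers_le (B ^ (1 + e0)) (fun x => ‖tws 𝓑 β x u‖ ^ 2) (fun x => by positivity)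
      have e5 : ∑ b ∈ 𝓑, ‖β b * (nm b : ℂ) ^ ((u : ℂ) * Complex.I)‖ ^ 2 ≤ 32 * B := by
        calc _ ≤ ∑ _b ∈ 𝓑, (1 : ℝ) := by
              refine sum_le_sum fun b hb => ?_
              rw [norm_mul, norm_nit (h0 b hb), mul_one]
              exact pow_le_one₀ (norm_nonneg _) (hcls.le b)
          _ = #𝓑 := by simp
          _ ≤ 32 * B := card_le_of_cls hB0.le hcls
      rw [e3]
      gcongr
    · intro m hm hmB
      have h1 := sum_cop_le (𝓑 := 𝓑) (γ := fun b => β b * (nm b : ℂ) ^ ((u : ℂ) * Complex.I))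
        (fun b hb => by
          show ‖β b * (nm b : ℂ) ^ ((u : ℂ) * Complex.I)‖ ≤ 1
          rw [norm_mul, norm_nit (h0 b hb), mul_one]; exact hcls.le b) m 1 one_ne_zero
      simp only [pow_one] at h1
      exact h1.trans (card_nc hX hd1 hB0.le hBX hcls hm hmB)
    · intro m hm hmB
      have h1 := sum_cop_le (𝓑 := 𝓑) (γ := fun b => β b * (nm b : ℂ) ^ ((u : ℂ) * Complex.I))
        (fun b hb => by
          show ‖β b * (nm b : ℂ) ^ ((u : ℂ) * Complex.I)‖ ≤ 1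
          rw [norm_mul, norm_nit (h0 b hb), mul_one]; exact hcls.le b) m 2 two_ne_zero
      exact h1.trans (card_nc hX hd1 hB0.le hBX hcls hm hmB)
    · intro κ hκ hκn
      exact mem_kers (by positivity) hκ (hκn.trans hK2)
    · intro h hh
      obtain ⟨h1, h2⟩ := hS h hh
      refine ⟨h1, ?_⟩
      rintro ⟨t, ht⟩
      apply h2
      refine ⟨t, ?_, by rw [ht]; ring⟩
      rintro rfl
      apply h1
      rw [ht]; ring
  refine hkey.trans ?_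
  rw [hce, MeasureTheory.integral_const_mul, MeasureTheory.integral_add hi1 hi2,
    MeasureTheory.integral_add hNi (hMi.const_mul _), MeasureTheory.integral_const_mul,
    MeasureTheory.integral_mul_const, integral_univ_inv_one_add_sq]
  have e6 : ∫ u : ℝ, (1 + u ^ 2)⁻¹ * N u
      = ∑ v ∈ NC Λ, ∫ u : ℝ, (1 + u ^ 2)⁻¹ * ‖tws 𝓑 β v u‖ ^ 2 := by
    simp only [hN, mul_sum]
    exact MeasureTheory.integral_finsetSum _ fun v _ => integrable_tws H hpr hcls.le v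
  have e7 : ∫ u : ℝ, (1 + u ^ 2)⁻¹ * M u
      = ∑ q ∈ T411.Ker (B ^ (1 + e0)), ∫ u : ℝ, (1 + u ^ 2)⁻¹ * ‖tws 𝓑 β (T411.kv q) u‖ ^ 2 := by
    simp only [hM, mul_sum]
    exact MeasureTheory.integral_finsetSum _ fun v _ => integrable_tws H hpr hcls.le _
  rw [e6, e7]
  set S1 : ℝ := ∑ v ∈ NC Λ, ∫ u : ℝ, (1 + u ^ 2)⁻¹ * ‖tws 𝓑 β v u‖ ^ 2 with hS1
  set S2 : ℝ := ∑ q ∈ T411.Ker (B ^ (1 + e0)),
    ∫ u : ℝ, (1 + u ^ 2)⁻¹ * ‖tws 𝓑 β (T411.kv q) u‖ ^ 2 with hS2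
  have hS10 : 0 ≤ S1 := sum_nonneg fun v _ => T411.integral_nonneg' 𝓑 β v
  have hS20 : 0 ≤ S2 := sum_nonneg fun v _ => T411.integral_nonneg' 𝓑 β _
  have hpi := Real.pi_pos
  have e8 : A * (nm (1 : Eis) : ℝ) / (B * nm (1 : Eis)) = A / B := by rw [nm_one]; simp
  rw [e8]
  have hW : S1 + b3 * S2 + Real.pi * (Λ * (r * δ) ^ 2 + L3 * (2 * B) * (32 * B) + b5 * (r * δ)) ≤
      (1 + Real.pi * (r ^ 2 + 64 + r)) * (S1 + Λ * δ ^ 2 + L3 * B ^ 2 + b3 * S2 + b5 * δ) := by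
    have x1 : 0 ≤ Λ * δ ^ 2 := by positivity
    have x2 : 0 ≤ L3 * B ^ 2 := by positivity
    have x3 : 0 ≤ b5 * δ := by positivity
    have x4 : 0 ≤ b3 * S2 := by positivity
    have x5 : 0 ≤ Real.pi * (r ^ 2 + 64 + r) := by positivity
    have y1 : Real.pi * (Λ * (r * δ) ^ 2) ≤ Real.pi * (r ^ 2 + 64 + r) * (Λ * δ ^ 2) := by
      have : Real.pi * (Λ * (r * δ) ^ 2) = Real.pi * r ^ 2 * (Λ * δ ^ 2) := by ring
      rw [this]
      gcongr
      linarith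
    have y2 : Real.pi * (L3 * (2 * B) * (32 * B)) ≤ Real.pi * (r ^ 2 + 64 + r) * (L3 * B ^ 2) := by
      have : Real.pi * (L3 * (2 * B) * (32 * B)) = Real.pi * 64 * (L3 * B ^ 2) := by ring
      rw [this]
      gcongr
      have : 0 ≤ r ^ 2 := by positivity
      linarith
    have y3 : Real.pi * (b5 * (r * δ)) ≤ Real.pi * (r ^ 2 + 64 + r) * (b5 * δ) := by
      have : Real.pi * (b5 * (r * δ)) = Real.pi * r * (b5 * δ) := by ring
      rw [this]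
      gcongr
      have : 0 ≤ r ^ 2 := by positivity
      linarith
    have z1 := mul_nonneg x5 hS10
    have z2 := mul_nonneg x5 x4
    generalize Real.pi * (r ^ 2 + 64 + r) = P at *
    have e9 : (1 + P) * (S1 + Λ * δ ^ 2 + L3 * B ^ 2 + b3 * S2 + b5 * δ) =
        S1 + Λ * δ ^ 2 + L3 * B ^ 2 + b3 * S2 + b5 * δ +
        (P * S1 + P * (Λ * δ ^ 2) + P * (L3 * B ^ 2) + P * (b3 * S2) + P * (b5 * δ)) := by ring
    have e10 : Real.pi * (Λ * (r * δ) ^ 2 + L3 * (2 * B) * (32 * B) + b5 * (r * δ)) =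
        Real.pi * (Λ * (r * δ) ^ 2) + Real.pi * (L3 * (2 * B) * (32 * B)) +
          Real.pi * (b5 * (r * δ)) := by ring
    rw [e9, e10]
    linarith
  calc A / B * (C * K ^ ((1 : ℝ) / 3) * (S1 + b3 * S2 +
        Real.pi * (Λ * (r * δ) ^ 2 + L3 * (2 * B) * (32 * B) + b5 * (r * δ))))
      ≤ A / B * (C * K ^ ((1 : ℝ) / 3) * ((1 + Real.pi * (r ^ 2 + 64 + r)) *
        (S1 + Λ * δ ^ 2 + L3 * B ^ 2 + b3 * S2 + b5 * δ))) := by gcongr
    _ = _ := by ring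

/-! ### splitting off the `(1,1,1)` term -/

lemma dvs_one : dvs (1 : Eis) = {1} := by
  ext d
  rw [mem_dvs one_ne_zero, mem_singleton]
  constructor
  · rintro ⟨h1, h2⟩
    exact Mob705.isPrim_eq_one_of_isUnit h1 (isUnit_of_dvd_one h2)
  · rintro rfl
    exact ⟨isPrim_of_mem_dvs (one_mem_dvs one_ne_zero), dvd_refl _⟩

lemma trm_nonneg {A B : ℝ} (hA : 0 < A) (hB : 0 < B) (𝓑 : Finset Eis) (β : Eis → ℂ)
    (e f g : Eis) : 0 ≤ trm A B 𝓑 β e f g := by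
  unfold trm
  refine mul_nonneg (by positivity) (MeasureTheory.integral_nonneg fun u => ?_)
  have := hsum_nonneg hA hB 𝓑 β e f g u
  show 0 ≤ (1 + u ^ 2)⁻¹ * hsum A B 𝓑 β e f g u
  positivity

open Classical in
lemma RHSd_split {A B : ℝ} (hA : 0 < A) (hB : 0 < B) (𝓑 : Finset Eis) (β : Eis → ℂ) :
    RHSd A B 𝓑 β ≤ (if (1 : Eis) ∈ 𝓑.biUnion dvs then trm A B 𝓑 β 1 1 1 else 0) +
      ∑ e ∈ 𝓑.biUnion dvs, ∑ f ∈ dvs e, ∑ g ∈ (𝓑.biUnion dvs).filter (IsCoprime · e),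
        (if e = 1 ∧ g = 1 then 0 else trm A B 𝓑 β e f g) := by
  rw [RHSd_eq]
  have h1 : ∀ e ∈ 𝓑.biUnion dvs, ∑ f ∈ dvs e, ∑ g ∈ (𝓑.biUnion dvs).filter (IsCoprime · e),
      trm A B 𝓑 β e f g ≤ (if e = 1 then trm A B 𝓑 β 1 1 1 else 0) +
      ∑ f ∈ dvs e, ∑ g ∈ (𝓑.biUnion dvs).filter (IsCoprime · e),
        (if e = 1 ∧ g = 1 then 0 else trm A B 𝓑 β e f g) := by
    intro e he
    by_cases h : e = 1
    · subst h
      rw [if_pos rfl, dvs_one, sum_singleton, sum_singleton]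
      have h2 : ∀ g ∈ (𝓑.biUnion dvs).filter (IsCoprime · (1 : Eis)), trm A B 𝓑 β 1 1 g =
          (if g = 1 then trm A B 𝓑 β 1 1 1 else 0) +
            (if (1 : Eis) = 1 ∧ g = 1 then 0 else trm A B 𝓑 β 1 1 g) := by
        intro g _
        by_cases hg : g = 1
        · subst hg; simp
        · simp [hg]
      rw [sum_congr rfl h2, sum_add_distrib, sum_ite_eq']
      gcongr
      split_ifs
      · exact le_rfl
      · exact trm_nonneg hA hB _ _ _ _ _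
    · rw [if_neg h, zero_add]
      refine sum_le_sum fun f _ => sum_le_sum fun g _ => ?_
      rw [if_neg (fun hc => h hc.1)]
  refine (sum_le_sum h1).trans ?_
  rw [sum_add_distrib, sum_ite_eq']

/-- crude bound of the `(1,1,1)` term for bounded parameters -/
lemma trm_crude (hHB : HBProp) (P : ℝ) (hP : 2 ≤ P) : ∃ C : ℝ, 0 < C ∧ ∀ w A B : ℝ,
    1 ≤ A → A ≤ P → 1 ≤ B → B ≤ P ^ 2 → 1 ≤ B ^ 2 / A → B ^ 2 / A ≤ P ^ 4 →
    ∀ (𝓑 : Finset Eis) (β : Eis → ℂ), Cls w B 𝓑 β → (1 : Eis) ∈ (open Classical in 𝓑.biUnion dvs) →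
    trm A B 𝓑 β 1 1 1 ≤ C * (A ^ ((2 : ℝ) / 3) * B ^ ((5 : ℝ) / 3)) := by
  classical
  obtain ⟨C, hC, h⟩ := TNXC2298.trm_le hHB (ε := 1 / 2) (by norm_num) le_rfl
  refine ⟨C * (20 * P ^ 15), by positivity, ?_⟩
  intro w A B hA hAP hB hBP hK1 hKP 𝓑 β hcls h1
  have hA0 : 0 < A := by linarith
  have hB0 : 0 < B := by linarith
  have hM : 0 ≤ C * (20 * P ^ 15) * (A ^ ((2 : ℝ) / 3) * B ^ ((5 : ℝ) / 3)) := by positivity
  have h2 := h w A B hA0 hB0 𝓑 β hcls 1 h1 1 (one_mem_dvs one_ne_zero) 1 h1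
  have e0 : TNXC2298.trm A B 𝓑 β 1 1 1 = trm A B 𝓑 β 1 1 1 := rfl
  rw [e0] at h2
  rcases h2 with h2 | ⟨-, h2⟩
  · linarith
  refine h2.trans ?_
  rw [nm_one]
  simp only [Nat.cast_one, mul_one, one_mul, div_one, one_pow]
  set K : ℝ := B ^ 2 / A with hK
  have hK0 : 0 < K := by linarith
  have a1 : (2 * B) ^ ((1 : ℝ) + 1 / 2) ≤ 4 * P ^ 4 := by
    calc (2 * B) ^ ((1 : ℝ) + 1 / 2) ≤ (2 * B) ^ (2 : ℝ) :=
          Real.rpow_le_rpow_of_exponent_le (by linarith) (by norm_num)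
      _ = (2 * B) ^ 2 := by norm_num
      _ ≤ (2 * P ^ 2) ^ 2 := by gcongr
      _ = _ := by ring
  have hK2 : K ^ (2 : ℝ) ≤ P ^ 8 := by
    calc K ^ (2 : ℝ) = K ^ 2 := by norm_num
      _ ≤ (P ^ 4) ^ 2 := by gcongr
      _ = _ := by ring
  have a2 : K ^ ((1 : ℝ) + 2 * (1 / 2)) ≤ P ^ 8 :=
    (Real.rpow_le_rpow_of_exponent_le hK1 (by norm_num)).trans hK2
  have a3 : K ^ ((1 : ℝ) / 3 + 2 * (1 / 2)) ≤ P ^ 8 :=
    (Real.rpow_le_rpow_of_exponent_le hK1 (by norm_num)).trans hK2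
  have a4 : K ^ ((2 : ℝ) / 3 + 2 * (1 / 2)) ≤ P ^ 8 :=
    (Real.rpow_le_rpow_of_exponent_le hK1 (by norm_num)).trans hK2
  have a5 : (2 * B) ^ ((2 : ℝ) / 3) ≤ 2 * P ^ 2 := by
    calc (2 * B) ^ ((2 : ℝ) / 3) ≤ (2 * B) ^ (1 : ℝ) :=
          Real.rpow_le_rpow_of_exponent_le (by linarith) (by norm_num)
      _ = 2 * B := Real.rpow_one _
      _ ≤ _ := by linarith
  have hP2 : 1 ≤ P ^ 2 := by nlinarith
  have hP8 : 0 ≤ P ^ 8 := by positivity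
  have a6 : K ^ ((1 : ℝ) + 2 * (1 / 2)) + 2 * B * K ^ ((1 : ℝ) / 3 + 2 * (1 / 2)) +
      (2 * B) ^ ((2 : ℝ) / 3) * K ^ ((2 : ℝ) / 3 + 2 * (1 / 2)) ≤ 5 * P ^ 10 := by
    calc _ ≤ P ^ 8 + (2 * P ^ 2) * P ^ 8 + (2 * P ^ 2) * P ^ 8 := by gcongr
      _ = P ^ 8 + 4 * P ^ 10 := by ring
      _ ≤ P ^ 10 + 4 * P ^ 10 := by
          have : P ^ 8 * 1 ≤ P ^ 8 * P ^ 2 := by gcongr
          nlinarith
      _ = _ := by ring
  have a7 : A / B ≤ P * (A ^ ((2 : ℝ) / 3) * B ^ ((5 : ℝ) / 3)) := by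
    have b1 : A / B ≤ A := div_le_self hA0.le hB
    have b2 : A = A ^ ((1 : ℝ) / 3) * A ^ ((2 : ℝ) / 3) := by
      rw [← Real.rpow_add hA0]; norm_num
    have b3 : A ^ ((1 : ℝ) / 3) ≤ P := by
      calc A ^ ((1 : ℝ) / 3) ≤ A ^ (1 : ℝ) := Real.rpow_le_rpow_of_exponent_le hA (by norm_num)
        _ = A := Real.rpow_one _
        _ ≤ P := hAP
    have b4 : 1 ≤ B ^ ((5 : ℝ) / 3) := Real.one_le_rpow hB (by norm_num)
    calc A / B ≤ A := b1
      _ = A ^ ((1 : ℝ) / 3) * A ^ ((2 : ℝ) / 3) := b2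
      _ ≤ P * A ^ ((2 : ℝ) / 3) := by gcongr
      _ = P * (A ^ ((2 : ℝ) / 3) * 1) := by ring
      _ ≤ _ := by gcongr
  calc C * (A / B * ((2 * B) ^ ((1 : ℝ) + 1 / 2) * (K ^ ((1 : ℝ) + 2 * (1 / 2)) +
        2 * B * K ^ ((1 : ℝ) / 3 + 2 * (1 / 2)) +
      (2 * B) ^ ((2 : ℝ) / 3) * K ^ ((2 : ℝ) / 3 + 2 * (1 / 2)))))
      ≤ C * (P * (A ^ ((2 : ℝ) / 3) * B ^ ((5 : ℝ) / 3)) * ((4 * P ^ 4) * (5 * P ^ 10))) := by
        gcongr
    _ = _ := by ring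

lemma prefactor {A B : ℝ} (hA : 0 < A) (hB : 0 < B) :
    A / B * (B ^ 2 / A) ^ ((1 : ℝ) / 3) = A ^ ((2 : ℝ) / 3) * B ^ (-(1 : ℝ) / 3) := by
  have e1 : (B ^ 2 / A) ^ ((1 : ℝ) / 3) = B ^ ((2 : ℝ) / 3) * A ^ (-(1 : ℝ) / 3) := by
    rw [Real.div_rpow (by positivity) hA.le, ← Real.rpow_natCast B 2, ← Real.rpow_mul hB.le,
      div_eq_mul_inv, ← Real.rpow_neg hA.le]
    norm_num
  have e2 : A / B = A ^ (1 : ℝ) * B ^ (-1 : ℝ) := by
    rw [Real.rpow_one, Real.rpow_neg_one, div_eq_mul_inv]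
  rw [e1, e2]
  calc A ^ (1 : ℝ) * B ^ (-1 : ℝ) * (B ^ ((2 : ℝ) / 3) * A ^ (-(1 : ℝ) / 3))
      = (A ^ (1 : ℝ) * A ^ (-(1 : ℝ) / 3)) * (B ^ (-1 : ℝ) * B ^ ((2 : ℝ) / 3)) := by ring
    _ = _ := by
        rw [← Real.rpow_add hA, ← Real.rpow_add hB]
        norm_num

lemma T_mul {A B : ℝ} (hB : 0 < B) :
    A ^ ((2 : ℝ) / 3) * B ^ (-(1 : ℝ) / 3) * B ^ 2 = A ^ ((2 : ℝ) / 3) * B ^ ((5 : ℝ) / 3) := by
  rw [mul_assoc, ← Real.rpow_natCast B 2, ← Real.rpow_add hB]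
  norm_num

/-! ### numerical lemmas -/

section num
variable {X B e0 d1 s : ℝ}

lemma num1 (hX : 1 ≤ X) (hd1 : 0 < d1) (hs : s ≤ d1) : (X ^ (-d1)) ^ 2 ≤ X ^ (-s) := by
  have hX0 : 0 < X := by linarith
  have e2 : X ^ (-d1) ≤ 1 := Real.rpow_le_one_of_one_le_of_nonpos hX (by linarith)
  have e3 : 0 < X ^ (-d1) := Real.rpow_pos_of_pos hX0 _
  have e4 : X ^ (-d1) ≤ X ^ (-s) := Real.rpow_le_rpow_of_exponent_le hX (by linarith)
  nlinarith

lemma num2 (hX : 1 ≤ X) (hXB : X ^ ((1 : ℝ) / 4) ≤ B) (he0 : 0 < e0) (hs : s ≤ 3 * e0 / 160) :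
    (2 * B) ^ (-(9 * e0 / 10 / 12)) ≤ X ^ (-s) := by
  have hX0 : 0 < X := by linarith
  have hx : 0 < X ^ ((1 : ℝ) / 4) := Real.rpow_pos_of_pos hX0 _
  calc (2 * B) ^ (-(9 * e0 / 10 / 12)) ≤ (X ^ ((1 : ℝ) / 4)) ^ (-(9 * e0 / 10 / 12)) :=
        Real.rpow_le_rpow_of_nonpos hx (by linarith) (by linarith)
    _ = X ^ (-(3 * e0 / 160)) := by rw [← Real.rpow_mul hX0.le]; congr 1; ring
    _ ≤ X ^ (-s) := Real.rpow_le_rpow_of_exponent_le hX (by linarith)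

lemma num3 (hB : 1 ≤ B) (he0 : 0 < e0) (he1 : e0 ≤ 1 / 10) :
    (2 * B) ^ (-(1 - 9 * e0 / 10) / 3) ≤ B ^ (-(1 - 2 * e0) / 3) := by
  calc (2 * B) ^ (-(1 - 9 * e0 / 10) / 3) ≤ B ^ (-(1 - 9 * e0 / 10) / 3) :=
        Real.rpow_le_rpow_of_nonpos (by linarith) (by linarith) (by linarith)
    _ ≤ B ^ (-(1 - 2 * e0) / 3) := Real.rpow_le_rpow_of_exponent_le hB (by linarith)

lemma two_pow {a : ℝ} (ha : a ≤ 1) : (2 : ℝ) ^ (1 + a) ≤ 4 := by
  calc (2 : ℝ) ^ (1 + a) ≤ (2 : ℝ) ^ (2 : ℝ) :=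
        Real.rpow_le_rpow_of_exponent_le (by norm_num) (by linarith)
    _ = 4 := by norm_num

lemma num4 (hX : 1 ≤ X) (hB : 1 ≤ B) (hBX : B ≤ X ^ 2) (he0 : 0 < e0) (he1 : e0 ≤ 1 / 10)
    (hed : e0 ≤ d1) (hs : s ≤ d1 / 10) :
    (2 * B) ^ (1 + 9 * e0 / 10 / 2) * (B * X ^ (-d1)) ≤ 4 * B ^ 2 * X ^ (-s) := by
  have hX0 : 0 < X := by linarith
  have hB0 : 0 < B := by linarith
  have e2 : B ^ (9 * e0 / 10 / 2) ≤ X ^ (9 * d1 / 10) := by
    calc B ^ (9 * e0 / 10 / 2) ≤ (X ^ 2) ^ (9 * e0 / 10 / 2) :=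
          Real.rpow_le_rpow hB0.le hBX (by positivity)
      _ = X ^ (9 * e0 / 10) := by
          rw [← Real.rpow_natCast X 2, ← Real.rpow_mul hX0.le]; congr 1; push_cast; ring
      _ ≤ X ^ (9 * d1 / 10) := Real.rpow_le_rpow_of_exponent_le hX (by linarith)
  have e3 := two_pow (a := 9 * e0 / 10 / 2) (by linarith)
  have e4 : X ^ (9 * d1 / 10) * X ^ (-d1) ≤ X ^ (-s) := by
    rw [← Real.rpow_add hX0]
    exact Real.rpow_le_rpow_of_exponent_le hX (by linarith)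
  rw [Real.mul_rpow (by norm_num) hB0.le]
  calc (2 : ℝ) ^ (1 + 9 * e0 / 10 / 2) * B ^ (1 + 9 * e0 / 10 / 2) * (B * X ^ (-d1))
      = (2 : ℝ) ^ (1 + 9 * e0 / 10 / 2) * (B * B ^ (9 * e0 / 10 / 2)) * (B * X ^ (-d1)) := by
        rw [Real.rpow_add hB0 1, Real.rpow_one]
    _ ≤ 4 * (B * X ^ (9 * d1 / 10)) * (B * X ^ (-d1)) := by gcongr
    _ = 4 * B ^ 2 * (X ^ (9 * d1 / 10) * X ^ (-d1)) := by ring
    _ ≤ _ := by gcongr

lemma num5 (hX : 1 ≤ X) (hXB : X ^ ((1 : ℝ) / 4) ≤ B) (hB : 1 ≤ B) (he0 : 0 < e0)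
    (he1 : e0 ≤ 1 / 10) (h4 : (4 : ℝ) ^ (40 / e0) ≤ X) :
    (2 * B) ^ (1 + 9 * e0 / 10) ≤ B ^ (1 + e0) := by
  have hX0 : 0 < X := by linarith
  have hB0 : 0 < B := by linarith
  have h4B : (4 : ℝ) ≤ B ^ (e0 / 10) := by
    have e0' : 40 / e0 * (e0 / 40) = 1 := by field_simp
    have e1 : (4 : ℝ) = ((4 : ℝ) ^ (40 / e0)) ^ (e0 / 40) := by
      rw [← Real.rpow_mul (by norm_num), e0', Real.rpow_one]
    calc (4 : ℝ) = ((4 : ℝ) ^ (40 / e0)) ^ (e0 / 40) := e1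
      _ ≤ X ^ (e0 / 40) := Real.rpow_le_rpow (by positivity) h4 (by positivity)
      _ = (X ^ ((1 : ℝ) / 4)) ^ (e0 / 10) := by
          rw [← Real.rpow_mul hX0.le]; congr 1; ring
      _ ≤ B ^ (e0 / 10) := Real.rpow_le_rpow (by positivity) hXB (by positivity)
  rw [Real.mul_rpow (by norm_num) hB0.le]
  calc (2 : ℝ) ^ (1 + 9 * e0 / 10) * B ^ (1 + 9 * e0 / 10)
      ≤ B ^ (e0 / 10) * B ^ (1 + 9 * e0 / 10) := by
        gcongr
        exact (two_pow (by linarith)).trans h4B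
    _ = B ^ (1 + e0) := by rw [← Real.rpow_add hB0]; congr 1; ring

lemma num6 {A : ℝ} (hB : 1 ≤ B) (hA : 0 < A) (he0 : 0 < e0) (hBA : B ^ (1 - e0 / 2) ≤ A) :
    B ^ 2 / A ≤ B ^ (1 + e0 / 2) := by
  have hB0 : 0 < B := by linarith
  rw [div_le_iff₀ hA]
  calc B ^ 2 = B ^ (1 + e0 / 2) * B ^ (1 - e0 / 2) := by
        rw [← Real.rpow_add hB0, ← Real.rpow_natCast]; congr 1; push_cast; ring
    _ ≤ B ^ (1 + e0 / 2) * A := by gcongr

lemma num7 (hB : 1 ≤ B) (he0 : 0 < e0) :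
    B ^ (1 + e0 / 2) ≤ (2 * B) ^ (1 + 3 * (9 * e0 / 10) / 5) := by
  calc B ^ (1 + e0 / 2) ≤ B ^ (1 + 3 * (9 * e0 / 10) / 5) :=
        Real.rpow_le_rpow_of_exponent_le hB (by linarith)
    _ ≤ (2 * B) ^ (1 + 3 * (9 * e0 / 10) / 5) :=
        Real.rpow_le_rpow (by linarith) (by linarith) (by positivity)

lemma num8 {K C4 L : ℝ} (hX : 1 ≤ X) (hL1 : 1 ≤ L) (hK : 0 < K)
    (h4 : L ^ (4 * K) ≤ C4 * X ^ s) :
    X ^ (-s) * L ^ (3 * K) ≤ C4 * L ^ (-K) ∧ X ^ (-s) ≤ C4 * L ^ (-K) := by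
  have hX0 : 0 < X := by linarith
  have hLp : 0 < L := by linarith
  have hxs : 0 < X ^ (-s) := Real.rpow_pos_of_pos hX0 _
  have h1 : X ^ (-s) * L ^ (3 * K) ≤ C4 * L ^ (-K) := by
    have e1 : L ^ (3 * K) = L ^ (4 * K) * L ^ (-K) := by
      rw [← Real.rpow_add hLp]; congr 1; ring
    have e2 : X ^ (-s) * X ^ s = 1 := by rw [← Real.rpow_add hX0]; simp
    calc X ^ (-s) * L ^ (3 * K) = X ^ (-s) * L ^ (4 * K) * L ^ (-K) := by rw [e1]; ring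
      _ ≤ X ^ (-s) * (C4 * X ^ s) * L ^ (-K) := by gcongr
      _ = C4 * L ^ (-K) * (X ^ (-s) * X ^ s) := by ring
      _ = _ := by rw [e2, mul_one]
  refine ⟨h1, le_trans ?_ h1⟩
  have hL3K : 1 ≤ L ^ (3 * K) := Real.one_le_rpow hL1 (by positivity)
  nlinarith

end num

/-- bound of the `(1,1,1)` term for large `X` -/
theorem one_large (H : SyFacts) (hL1 : L1Prop) (hHB : HBProp) {e0 d1 s K C4 : ℝ} (he0 : 0 < e0)
    (he1 : e0 ≤ 1 / 10) (hd1 : 0 < d1) (hed : e0 ≤ d1) (hsd : s ≤ d1 / 10)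
    (hse : s ≤ 3 * e0 / 160) (hK : 0 < K) (hC4 : 0 < C4) :
    ∃ C1 : ℝ, 0 < C1 ∧ ∀ X A B : ℝ, 3 ≤ X → (4 : ℝ) ^ (40 / e0) ≤ X → 1 ≤ Real.log X →
      Real.log X ^ (4 * K) ≤ C4 * X ^ s → 1 ≤ B → B ≤ X ^ 2 → 0 < A → X ^ ((1 : ℝ) / 4) ≤ B →
      B ^ (1 - e0 / 2) ≤ A → ∀ (𝓑 : Finset Eis) (β : Eis → ℂ), Cls (X ^ d1) B 𝓑 β →
      trm A B 𝓑 β 1 1 1 ≤ C1 * (A ^ ((2 : ℝ) / 3) * B ^ (-(1 : ℝ) / 3) *
          (∑ v ∈ NC (Real.log X ^ (3 * K)), ∫ u : ℝ, (1 + u ^ 2)⁻¹ * ‖tws 𝓑 β v u‖ ^ 2) +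
        A ^ ((2 : ℝ) / 3) * B ^ (-(1 : ℝ) / 3) * B ^ (-(1 - 2 * e0) / 3) *
          (∑ q ∈ T411.Ker (B ^ (1 + e0)),
            ∫ u : ℝ, (1 + u ^ 2)⁻¹ * ‖tws 𝓑 β (T411.kv q) u‖ ^ 2) +
        (1 + 6 * C4) * (A ^ ((2 : ℝ) / 3) * B ^ ((5 : ℝ) / 3) * Real.log X ^ (-K))) := by
  obtain ⟨C1, hC1, h1⟩ := trm_one H hL1 hHB he0 he1 hd1
  refine ⟨C1, hC1, ?_⟩
  intro X A B hX3 hX4 hL1 hXL hB1 hBX hA0 hXB hBA 𝓑 β hcls
  have hX1 : 1 ≤ X := by linarith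
  have hB0 : 0 < B := by linarith
  have h5 := h1 X A B (Real.log X ^ (3 * K)) (by linarith) hB1 hBX hA0
    ((num6 hB1 hA0 he0 hBA).trans (num7 hB1 he0)) (num5 hX1 hXB hB1 he0 he1 hX4)
    (Real.one_le_rpow hL1 (by positivity)) 𝓑 β hcls
  rw [prefactor hA0 hB0] at h5
  obtain ⟨n1, n2⟩ := num8 hX1 hL1 hK hXL
  have n3 := num1 hX1 hd1 (s := s) (by linarith)
  have n4 := num2 hX1 hXB he0 hse
  have n5 := num3 hB1 he0 he1
  have n6 := num4 hX1 hB1 hBX he0 he1 hed hsd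
  have hTB := T_mul (A := A) hB0
  have n7 : (Real.log X ^ (3 * K)) ^ (-(1 : ℝ) / 3) = Real.log X ^ (-K) := by
    rw [← Real.rpow_mul (by linarith)]; congr 1; ring
  rw [n7] at h5
  have hS1 : 0 ≤ ∑ v ∈ NC (Real.log X ^ (3 * K)), ∫ u : ℝ, (1 + u ^ 2)⁻¹ * ‖tws 𝓑 β v u‖ ^ 2 :=
    sum_nonneg fun h _ => T411.integral_nonneg' _ _ _
  have hS2 : 0 ≤ ∑ q ∈ T411.Ker (B ^ (1 + e0)),
      ∫ u : ℝ, (1 + u ^ 2)⁻¹ * ‖tws 𝓑 β (T411.kv q) u‖ ^ 2 :=
    sum_nonneg fun h _ => T411.integral_nonneg' _ _ _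
  have hT0 : 0 < A ^ ((2 : ℝ) / 3) * B ^ (-(1 : ℝ) / 3) := by positivity
  generalize (∑ v ∈ NC (Real.log X ^ (3 * K)), ∫ u : ℝ, (1 + u ^ 2)⁻¹ * ‖tws 𝓑 β v u‖ ^ 2) = S1
    at *
  generalize (∑ q ∈ T411.Ker (B ^ (1 + e0)),
      ∫ u : ℝ, (1 + u ^ 2)⁻¹ * ‖tws 𝓑 β (T411.kv q) u‖ ^ 2) = S2 at *
  have hLK : 0 < Real.log X ^ (-K) := Real.rpow_pos_of_pos (by linarith) _
  have hL3 : 0 < Real.log X ^ (3 * K) := Real.rpow_pos_of_pos (by linarith) _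
  rw [← hTB]
  generalize A ^ ((2 : ℝ) / 3) * B ^ (-(1 : ℝ) / 3) = T at *
  generalize Real.log X ^ (-K) = l at *
  generalize Real.log X ^ (3 * K) = l3 at *
  generalize (2 * B) ^ (-(9 * e0 / 10 / 12)) = a2 at *
  generalize (2 * B) ^ (-(1 - 9 * e0 / 10) / 3) = a3 at *
  generalize B ^ (-(1 - 2 * e0) / 3) = a3' at *
  generalize (2 * B) ^ (1 + 9 * e0 / 10 / 2) * (B * X ^ (-d1)) = a4 at *
  have hxs : 0 < X ^ (-s) := Real.rpow_pos_of_pos (by linarith) _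
  generalize X ^ (-s) = xs at *
  have hB2 : 0 ≤ B ^ 2 := by positivity
  have m1 : l3 * (B * X ^ (-d1)) ^ 2 ≤ B ^ 2 * (C4 * l) := by
    calc l3 * (B * X ^ (-d1)) ^ 2 = B ^ 2 * (l3 * (X ^ (-d1)) ^ 2) := by ring
      _ ≤ B ^ 2 * (l3 * xs) := by gcongr
      _ = B ^ 2 * (xs * l3) := by ring
      _ ≤ _ := by gcongr
  have m2 : (l + a2) * B ^ 2 ≤ (l + C4 * l) * B ^ 2 := by
    have := n4.trans n2
    gcongr
  have m3 : a3 * S2 ≤ a3' * S2 := by gcongr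
  have m4 : a4 ≤ 4 * B ^ 2 * (C4 * l) := n6.trans (by gcongr)
  refine h5.trans ?_
  rw [mul_assoc]
  refine mul_le_mul_of_nonneg_left ?_ hC1.le
  calc T * (S1 + l3 * (B * X ^ (-d1)) ^ 2 + (l + a2) * B ^ 2 + a3 * S2 + a4)
      ≤ T * (S1 + B ^ 2 * (C4 * l) + (l + C4 * l) * B ^ 2 + a3' * S2 + 4 * B ^ 2 * (C4 * l)) := by
        gcongr
    _ = T * S1 + T * a3' * S2 + (1 + 6 * C4) * (T * B ^ 2 * l) := by ring

set_option maxHeartbeats 1000000 in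
/-- **(TNX), critical range** -/
theorem tnxC_of (H : SyFacts) (hL1 : L1Prop) (hHB : HBProp) : T411.TNXC := by
  classical
  intro e0 d1 K he0 he1 hd1 hed hK
  obtain ⟨C2, δ, hC2, hδ, h2⟩ := TNXC2298.eg_crit hHB e0 d1 he0 he1 hd1 hed
  obtain ⟨P, hP3, hP4⟩ : ∃ P : ℝ, 3 ≤ P ∧ (4 : ℝ) ^ (40 / e0) ≤ P :=
    ⟨max 3 ((4 : ℝ) ^ (40 / e0)), le_max_left _ _, le_max_right _ _⟩
  obtain ⟨C3, hC3, h3⟩ := trm_crude hHB P (by linarith)
  obtain ⟨s, hs0, hsδ, hsd, hse⟩ : ∃ s : ℝ, 0 < s ∧ s ≤ δ ∧ s ≤ d1 / 10 ∧ s ≤ 3 * e0 / 160 :=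
    ⟨min δ (min (d1 / 10) (3 * e0 / 160)), lt_min hδ (lt_min (by positivity) (by positivity)),
      min_le_left _ _, (min_le_right _ _).trans (min_le_left _ _),
      (min_le_right _ _).trans (min_le_right _ _)⟩
  obtain ⟨C4, hC4, h4⟩ := T411.log_pow_le (4 * K) s hs0
  obtain ⟨C1, hC1, h1⟩ := one_large H hL1 hHB he0 he1 hd1 hed hsd hse hK hC4
  have hlogP : 0 < Real.log P := Real.log_pos (by linarith)
  obtain ⟨C5, hC5⟩ : ∃ C5 : ℝ, C5 = Real.log P ^ K := ⟨_, rfl⟩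
  have hC50 : 0 < C5 := by rw [hC5]; exact Real.rpow_pos_of_pos hlogP _
  obtain ⟨C, hC⟩ : ∃ C : ℝ, C = 3 * K + C1 * (2 + 6 * C4) + C2 * C4 + (C2 + C3) * C5 := ⟨_, rfl⟩
  have q0 : 0 < 3 * K := by positivity
  have q1 : 0 < C1 * (2 + 6 * C4) := by positivity
  have q2 : 0 < C2 * C4 := by positivity
  have q3 : 0 < (C2 + C3) * C5 := by positivity
  have hCpos : 0 < C := by rw [hC]; linarith
  refine ⟨C, hCpos, ?_⟩
  intro X A B hX hXB hAB hBA hAX 𝓑 β hcls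
  have hX0 : 0 < X := by linarith
  have hB1 : 1 ≤ B := le_trans (Real.one_le_rpow (by linarith) (by norm_num)) hXB
  have hB0 : 0 < B := by linarith
  have hA1 : 1 ≤ A := le_trans (Real.one_le_rpow hB1 (by linarith)) hBA
  have hA0 : 0 < A := by linarith
  have hLp : 0 < Real.log X := Real.log_pos (by linarith)
  have hBX : B ≤ X ^ 2 := by
    have hh : B ^ ((1 : ℝ) / 2) ≤ X :=
      ((Real.rpow_le_rpow_of_exponent_le hB1 (by linarith)).trans hBA).trans hAX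
    calc B = (B ^ ((1 : ℝ) / 2)) ^ 2 := by
          rw [← Real.rpow_natCast, ← Real.rpow_mul hB0.le]; norm_num
      _ ≤ X ^ 2 := by gcongr
  have hS2 : 0 ≤ ∑ q ∈ T411.Ker (B ^ (1 + e0)),
      ∫ u : ℝ, (1 + u ^ 2)⁻¹ * ‖tws 𝓑 β (T411.kv q) u‖ ^ 2 :=
    sum_nonneg fun h _ => T411.integral_nonneg' _ _ _
  have hS1 : 0 ≤ ∑ v ∈ NC (Real.log X ^ C), ∫ u : ℝ, (1 + u ^ 2)⁻¹ * ‖tws 𝓑 β v u‖ ^ 2 :=
    sum_nonneg fun h _ => T411.integral_nonneg' _ _ _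
  have hegle := h2 X A B hX hXB hAB hBA hAX 𝓑 β hcls
  have hsplit := RHSd_split hA0 hB0 𝓑 β
  refine hsplit.trans ((add_le_add le_rfl hegle).trans ?_)
  have hABL : 0 ≤ A * B * Real.log X ^ C := by positivity
  rcases lt_or_ge X P with hXP | hXP
  · -- bounded X
    have hK1 : 1 ≤ B ^ 2 / A := by
      rw [one_le_div hA0]
      refine hAB.trans ?_
      calc B ^ (1 + e0) ≤ B ^ (2 : ℝ) := Real.rpow_le_rpow_of_exponent_le hB1 (by linarith)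
        _ = B ^ 2 := by norm_num
    have hBP : B ≤ P ^ 2 := hBX.trans (by gcongr)
    have hKP : B ^ 2 / A ≤ P ^ 4 := by
      refine (num6 hB1 hA0 he0 hBA).trans ?_
      calc B ^ (1 + e0 / 2) ≤ B ^ (2 : ℝ) := Real.rpow_le_rpow_of_exponent_le hB1 (by linarith)
        _ = B ^ 2 := by norm_num
        _ ≤ (P ^ 2) ^ 2 := by gcongr
        _ = _ := by ring
    have ht1le : (if (1 : Eis) ∈ 𝓑.biUnion dvs then trm A B 𝓑 β 1 1 1 else 0) ≤
        C3 * (A ^ ((2 : ℝ) / 3) * B ^ ((5 : ℝ) / 3)) := by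
      split_ifs with hmem
      · exact h3 _ A B hA1 (by linarith) hB1 hBP hK1 hKP 𝓑 β hcls hmem
      · positivity
    have hXδ : X ^ (-δ) ≤ 1 := Real.rpow_le_one_of_one_le_of_nonpos (by linarith) (by linarith)
    have hLK : 1 ≤ C5 * Real.log X ^ (-K) := by
      rw [Real.rpow_neg hLp.le, hC5, ← div_eq_mul_inv, one_le_div (by positivity)]
      exact Real.rpow_le_rpow hLp.le (Real.log_le_log hX0 hXP.le) hK.le
    refine (add_le_add ht1le le_rfl).trans ?_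
    have p1 : 0 ≤ A ^ ((2 : ℝ) / 3) * B ^ (-(1 : ℝ) / 3) * Real.log X ^ C *
      (∑ v ∈ NC (Real.log X ^ C), ∫ u : ℝ, (1 + u ^ 2)⁻¹ * ‖tws 𝓑 β v u‖ ^ 2) := by positivity
    have p2 : 0 ≤ A ^ ((2 : ℝ) / 3) * B ^ (-(1 : ℝ) / 3) * B ^ (-(1 - 2 * e0) / 3) *
      Real.log X ^ C * (∑ q ∈ T411.Ker (B ^ (1 + e0)),
      ∫ u : ℝ, (1 + u ^ 2)⁻¹ * ‖tws 𝓑 β (T411.kv q) u‖ ^ 2) := by positivity
    have hM0 : 0 < A ^ ((2 : ℝ) / 3) * B ^ ((5 : ℝ) / 3) := by positivity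
    have hCC : (C2 + C3) * C5 ≤ C := by rw [hC]; linarith
    have hLKp : 0 < Real.log X ^ (-K) := Real.rpow_pos_of_pos hLp _
    calc C3 * (A ^ ((2 : ℝ) / 3) * B ^ ((5 : ℝ) / 3)) +
          C2 * A ^ ((2 : ℝ) / 3) * B ^ ((5 : ℝ) / 3) * X ^ (-δ)
        ≤ C3 * (A ^ ((2 : ℝ) / 3) * B ^ ((5 : ℝ) / 3)) +
          C2 * A ^ ((2 : ℝ) / 3) * B ^ ((5 : ℝ) / 3) * 1 := by gcongr
      _ = (C2 + C3) * (A ^ ((2 : ℝ) / 3) * B ^ ((5 : ℝ) / 3)) * 1 := by ring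
      _ ≤ (C2 + C3) * (A ^ ((2 : ℝ) / 3) * B ^ ((5 : ℝ) / 3)) * (C5 * Real.log X ^ (-K)) := by
          gcongr
      _ = (C2 + C3) * C5 * (A ^ ((2 : ℝ) / 3) * B ^ ((5 : ℝ) / 3) * Real.log X ^ (-K)) := by ring
      _ ≤ C * (A ^ ((2 : ℝ) / 3) * B ^ ((5 : ℝ) / 3) * Real.log X ^ (-K)) := by gcongr
      _ ≤ _ := by
          refine mul_le_mul_of_nonneg_left ?_ hCpos.le
          linarith
  · -- large X
    have hX3 : 3 ≤ X := hP3.trans hXP
    have hL1 : 1 ≤ Real.log X := by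
      by_contra hcon
      rw [not_le] at hcon
      have := T411.lt_three_of_log hX0 hcon
      linarith
    have hXL := h4 X (by linarith) hL1
    have hXs1 := (num8 (by linarith) hL1 hK hXL).2
    have hXδ : X ^ (-δ) ≤ C4 * Real.log X ^ (-K) :=
      (Real.rpow_le_rpow_of_exponent_le (by linarith) (by linarith)).trans hXs1
    have hl : Real.log X ^ (3 * K) ≤ Real.log X ^ C :=
      Real.rpow_le_rpow_of_exponent_le hL1 (by rw [hC]; linarith)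
    have hsub : ∑ v ∈ NC (Real.log X ^ (3 * K)), ∫ u : ℝ, (1 + u ^ 2)⁻¹ * ‖tws 𝓑 β v u‖ ^ 2 ≤
        ∑ v ∈ NC (Real.log X ^ C), ∫ u : ℝ, (1 + u ^ 2)⁻¹ * ‖tws 𝓑 β v u‖ ^ 2 :=
      sum_le_sum_of_subset_of_nonneg (T411.NC_mono hl) (fun h _ _ => T411.integral_nonneg' _ _ _)
    have hLC : 1 ≤ Real.log X ^ C := Real.one_le_rpow hL1 hCpos.le
    have hLK : 0 < Real.log X ^ (-K) := Real.rpow_pos_of_pos hLp _
    have h5 := h1 X A B hX3 (hP4.trans hXP) hL1 hXL hB1 hBX hA0 hXB hBA 𝓑 β hcls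
    have hS3 : 0 ≤ ∑ v ∈ NC (Real.log X ^ (3 * K)), ∫ u : ℝ, (1 + u ^ 2)⁻¹ * ‖tws 𝓑 β v u‖ ^ 2 :=
      sum_nonneg fun h _ => T411.integral_nonneg' _ _ _
    generalize (∑ v ∈ NC (Real.log X ^ (3 * K)), ∫ u : ℝ, (1 + u ^ 2)⁻¹ * ‖tws 𝓑 β v u‖ ^ 2) = S3
      at *
    generalize (∑ v ∈ NC (Real.log X ^ C), ∫ u : ℝ, (1 + u ^ 2)⁻¹ * ‖tws 𝓑 β v u‖ ^ 2) = S1
      at *
    generalize (∑ q ∈ T411.Ker (B ^ (1 + e0)),
      ∫ u : ℝ, (1 + u ^ 2)⁻¹ * ‖tws 𝓑 β (T411.kv q) u‖ ^ 2) = S2 at *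
    have ht1le : (if (1 : Eis) ∈ 𝓑.biUnion dvs then trm A B 𝓑 β 1 1 1 else 0) ≤
        C1 * (A ^ ((2 : ℝ) / 3) * B ^ (-(1 : ℝ) / 3) * S3 +
        A ^ ((2 : ℝ) / 3) * B ^ (-(1 : ℝ) / 3) * B ^ (-(1 - 2 * e0) / 3) * S2 +
        (1 + 6 * C4) * (A ^ ((2 : ℝ) / 3) * B ^ ((5 : ℝ) / 3) * Real.log X ^ (-K))) := by
      split_ifs with hmem
      · exact h5
      · positivity
    refine (add_le_add ht1le le_rfl).trans ?_
    have hT0 : 0 < A ^ ((2 : ℝ) / 3) * B ^ (-(1 : ℝ) / 3) := by positivity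
    have ha3 : 0 < B ^ (-(1 - 2 * e0) / 3) := by positivity
    have hM0 : 0 < A ^ ((2 : ℝ) / 3) * B ^ ((5 : ℝ) / 3) := by positivity
    have c1 : C1 ≤ C := by
      have : C1 * 1 ≤ C1 * (2 + 6 * C4) := by gcongr; linarith
      rw [hC]; linarith
    have c2 : C1 * (1 + 6 * C4) + C2 * C4 ≤ C := by
      have : C1 * (1 + 6 * C4) ≤ C1 * (2 + 6 * C4) := by gcongr; linarith
      rw [hC]; linarith
    rw [mul_assoc C2]
    generalize A ^ ((2 : ℝ) / 3) * B ^ (-(1 : ℝ) / 3) = T at *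
    generalize A ^ ((2 : ℝ) / 3) * B ^ ((5 : ℝ) / 3) = M0 at *
    generalize B ^ (-(1 - 2 * e0) / 3) = a3 at *
    generalize Real.log X ^ (-K) = l at *
    generalize Real.log X ^ C = lC at *
    generalize X ^ (-δ) = xd at *
    calc C1 * (T * S3 + T * a3 * S2 + (1 + 6 * C4) * (M0 * l)) + C2 * M0 * xd
        ≤ C1 * (T * S1 + T * a3 * S2 + (1 + 6 * C4) * (M0 * l)) + C2 * M0 * (C4 * l) := by gcongr
      _ = C1 * (T * 1 * S1 + T * a3 * 1 * S2) + (C1 * (1 + 6 * C4) + C2 * C4) * (M0 * l) := by ring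
      _ ≤ C * (T * lC * S1 + T * a3 * lC * S2) + C * (M0 * l) := by gcongr
      _ = C * (M0 * l + T * lC * S1 + T * a3 * lC * S2) := by ring
      _ ≤ C * (A * B * lC + M0 * l + T * lC * S1 + T * a3 * lC * S2) := by
          refine mul_le_mul_of_nonneg_left ?_ hCpos.le
          linarith

end Crest.Agent.R012.TNX411
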