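import Crest.Agent.R012.Tau_671
import Crest.Agent.R012.PoissonS_581

/-!
# Row 12 (R4b): Poisson summation twisted by one or two cubic characters

`PF f` : `f` is continuous, `O((1+|z|)^{-3})`, with summable dual values.  For such `f`

* `poisson_pf` : Poisson summation with a periodic weight
* `dual1_prim`, `dual1_all` : one character `(a/b)`
* `dual2_prim`, `dual2_all` : `(a/k₁) conj (a/k₂)`, `k₁, k₂` primary and coprime
-/

set_option autoImplicit false
set_option linter.unusedSimpArgs false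
set_option linter.unusedVariables false

noncomputable section

open scoped SchwartzMap

namespace Crest.Agent.R012.Tau671

open Eis
open Gauss880 (syG)
open Po581 (fC dl iS3)

/-- Functions for which Poisson summation over all lattices `q·Eis + t` is available. -/
structure PF (f : ℂ → ℂ) : Prop where
  cont : Continuous f
  dec : ∃ C : ℝ, ∀ z, ‖f z‖ ≤ C / (1 + ‖z‖) ^ 3
  sumd : ∀ q : ℂ, q ≠ 0 → Summable (fun k : Eis => fC f (dl k / q))

lemma toC_sq3_eq : toC sq3 = iS3 := Po581.toC_sq3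

lemma dl_eq (k : Eis) : dl k = toC k / toC sq3 := by rw [toC_sq3_eq]; rfl


/-- It suffices that `f` and its transform both decay like `(1+|z|)^{-3}`. -/
lemma PF.of_decay {f : ℂ → ℂ} (hc : Continuous f) {C C' : ℝ}
    (h : ∀ z, ‖f z‖ ≤ C / (1 + ‖z‖) ^ 3) (h' : ∀ z, ‖fC f z‖ ≤ C' / (1 + ‖z‖) ^ 3) : PF f where
  cont := hc
  dec := ⟨C, h⟩
  sumd := fun q hq => by
    have h2 := Po581.summable_affine h' (q := (iS3 * q)⁻¹)
      (inv_ne_zero (mul_ne_zero Po581.iS3_ne_zero hq)) 0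
    convert! h2 using 1
    funext k
    congr 1
    unfold dl
    have := Po581.iS3_ne_zero
    field_simp
    ring

lemma fC_dilate (f : ℂ → ℂ) {q : ℂ} (hq : q ≠ 0) (ξ : ℂ) :
    fC (fun z => f (q * z)) ξ = (((‖q‖ ^ 2)⁻¹ : ℝ) : ℂ) * fC f (ξ / q) := by
  have h := Po581.fC_affine f hq 0 ξ
  simp only [add_zero, mul_zero, Po581.eC_zero', one_mul] at h
  exact h

/-- Dilation by a non-zero complex number. -/
lemma PF.dilate {f : ℂ → ℂ} (hf : PF f) {q : ℂ} (hq : q ≠ 0) : PF (fun z => f (q * z)) where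
  cont := hf.cont.comp (continuous_const.mul continuous_id)
  dec := by
    obtain ⟨C, hC⟩ := hf.dec
    have hC0 : 0 ≤ C := by
      have := (norm_nonneg _).trans (hC 0)
      simpa using this
    have hq' : 0 < ‖q‖ := norm_pos_iff.mpr hq
    refine ⟨C * (1 + ‖q‖⁻¹) ^ 3, fun z => (hC _).trans ?_⟩
    rw [div_le_div_iff₀ (by positivity) (by positivity), norm_mul]
    have h1 : 1 + ‖z‖ ≤ (1 + ‖q‖⁻¹) * (1 + ‖q‖ * ‖z‖) := by
      have e : (1 + ‖q‖⁻¹) * (1 + ‖q‖ * ‖z‖) = 1 + ‖z‖ + (‖q‖⁻¹ + ‖q‖ * ‖z‖) := by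
        field_simp; ring
      rw [e]
      have : 0 ≤ ‖q‖⁻¹ + ‖q‖ * ‖z‖ := by positivity
      linarith
    calc C * (1 + ‖z‖) ^ 3 ≤ C * ((1 + ‖q‖⁻¹) * (1 + ‖q‖ * ‖z‖)) ^ 3 := by gcongr
      _ = _ := by ring
  sumd := fun p hp => by
    have h := (hf.sumd (p * q) (mul_ne_zero hp hq)).mul_left (((‖q‖ ^ 2)⁻¹ : ℝ) : ℂ)
    convert! h using 1
    funext k
    rw [fC_dilate f hq, div_div]

/-- Multiplication by a constant. -/
lemma PF.const_mul {f : ℂ → ℂ} (hf : PF f) (a : ℂ) : PF (fun z => a * f z) where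
  cont := continuous_const.mul hf.cont
  dec := by
    obtain ⟨C, hC⟩ := hf.dec
    refine ⟨‖a‖ * C, fun z => ?_⟩
    rw [norm_mul, mul_div_assoc]
    exact mul_le_mul_of_nonneg_left (hC z) (norm_nonneg _)
  sumd := fun p hp => by
    have h := (hf.sumd p hp).mul_left a
    convert! h using 1
    funext k
    unfold fC
    rw [← MeasureTheory.integral_const_mul]
    congr 1
    funext z
    ring

lemma summable_pf {f : ℂ → ℂ} (hf : PF f) {q : ℂ} (hq : q ≠ 0) (t : ℂ) :
    Summable (fun x : Eis => f (q * toC x + t)) := by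
  obtain ⟨C, hC⟩ := hf.dec
  exact Po581.summable_affine hC hq t

lemma summable_pf_one {f : ℂ → ℂ} (hf : PF f) : Summable (fun x : Eis => f (toC x)) := by
  simpa using summable_pf hf one_ne_zero 0

lemma poisson_class_pf {f : ℂ → ℂ} (hf : PF f) {c : Eis} (hc : c ≠ 0) (a : Eis) :
    ∑' y : Eis, f (toC (a + c * y)) =
      ((2 / (Real.sqrt 3 * nm c) : ℝ) : ℂ) *
        ∑' k : Eis, fC f (dl k / toC c) * eC (dl k / toC c * toC a) := by
  obtain ⟨C, hC⟩ := hf.dec
  have h := Po581.poisson_eis hf.cont hC (toC_ne_zero hc) (hf.sumd _ (toC_ne_zero hc)) (toC a)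
  rw [norm_toC_sq] at h
  rw [← h]
  refine tsum_congr fun y => ?_
  rw [map_add, map_mul, add_comm]

/-- A periodic function is bounded. -/
lemma pmod_bdd {c : Eis} (hc : c ≠ 0) {χ : Eis → ℂ} (hχ : PMod c χ) :
    ∃ B : ℝ, 0 ≤ B ∧ ∀ x, ‖χ x‖ ≤ B := Po581.perMod_bdd hc hχ


lemma summable_mul_bdd {χ : Eis → ℂ} {B : ℝ} (hB : ∀ x, ‖χ x‖ ≤ B) {F : Eis → ℂ}
    (hF : Summable F) : Summable (fun x => χ x * F x) := Po581.summable_mul_bdd hB hF


/-- **Poisson summation with a periodic weight** (general `f`). -/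
theorem poisson_pf {f : ℂ → ℂ} (hf : PF f) {c : Eis} (hc : c ≠ 0) {χ : Eis → ℂ}
    (hχ : PMod c χ) :
    ∑' x : Eis, χ x * f (toC x) =
      ((2 / (Real.sqrt 3 * nm c) : ℝ) : ℂ) *
        ∑' k : Eis, sumMod c (fun a => χ a * eC (toC k * toC a / (toC sq3 * toC c))) *
          fC f (toC k / (toC sq3 * toC c)) := by
  obtain ⟨B, hB0, hB⟩ := pmod_bdd hc hχ
  have hs : Summable (fun x : Eis => χ x * f (toC x)) := summable_mul_bdd hB (summable_pf_one hf)
  have h0 := toC_ne_zero hc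
  have h3 := toC_ne_zero sq3_ne_zero
  rw [tsum_eq_sum_crs hc (isCRS_crs hc) hs]
  have h1 : ∀ s ∈ crs c, ∑' t : Eis, χ (s + c * t) * f (toC (s + c * t)) =
      ((2 / (Real.sqrt 3 * nm c) : ℝ) : ℂ) * ∑' k : Eis, χ s *
        eC (toC k * toC s / (toC sq3 * toC c)) * fC f (toC k / (toC sq3 * toC c)) := by
    intro s _
    have h2 : ∀ y, χ (s + c * y) = χ s := fun y => hχ _ _
    simp_rw [h2]
    rw [tsum_mul_left, poisson_class_pf hf hc, mul_left_comm, ← tsum_mul_left]
    congr 1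
    refine tsum_congr fun k => ?_
    have e1 : dl k / toC c = toC k / (toC sq3 * toC c) := by rw [dl_eq, div_div]
    rw [e1]
    have e2 : toC k / (toC sq3 * toC c) * toC s = toC k * toC s / (toC sq3 * toC c) := by ring
    rw [e2]; ring
  rw [Finset.sum_congr rfl h1, ← Finset.mul_sum]
  congr 1
  rw [← Summable.tsum_finsetSum]
  · refine tsum_congr fun k => ?_
    rw [sumMod_eq_sum (isCRS_crs hc) (hχ.mul (pmod_eC_sq3 k c hc)), Finset.sum_mul]
  · intro s _
    have hsum : Summable (fun k : Eis => fC f (toC k / (toC sq3 * toC c))) := by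
      have := hf.sumd _ (toC_ne_zero hc)
      simpa only [dl_eq, div_div] using this
    exact summable_mul_bdd (χ := fun k => χ s * eC (toC k * toC s / (toC sq3 * toC c)))
      (B := ‖χ s‖) (fun k => by rw [norm_mul, norm_eC, mul_one]) hsum

lemma nm_three_mul (c : Eis) : ((nm (3 * c) : ℕ) : ℝ) = 9 * nm c := by
  rw [nm_mul, nm_three]; push_cast; ring

open Classical in
/-- Poisson summation over primary elements with a weight periodic modulo a primary `c`. -/
theorem poisson_prim {f : ℂ → ℂ} (hf : PF f) {c : Eis} (hc : IsPrim c) {χ : Eis → ℂ}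
    (hχ : PMod c χ) :
    ∑' x : Eis, (if IsPrim x then χ x else 0) * f (toC x) =
      ((2 / (9 * Real.sqrt 3 * nm c) : ℝ) : ℂ) *
        ∑' k : Eis, ph k * sumMod c (fun a => χ (3 * sq3 * a) * eC (toC k * toC a / toC c)) *
          fC f (toC k / (3 * toC sq3 * toC c)) := by
  have h30 : (3 : Eis) ≠ 0 := three_ne_zero'
  have hprim : PMod (3 : Eis) (fun a => if IsPrim a then (1 : ℂ) else 0) := by
    intro x t
    have : IsPrim (x + 3 * t) ↔ IsPrim x := by
      unfold IsPrim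
      have e : x + 3 * t - 1 = (x - 1) + 3 * t := by ring
      rw [e]
      exact ⟨fun h => (dvd_add_left (dvd_mul_right _ _)).mp h,
        fun h => dvd_add h (dvd_mul_right _ _)⟩
    simp only [this]
  have hF : PMod (3 * c) (fun a => (if IsPrim a then χ a else 0)) := by
    have : (fun a => if IsPrim a then χ a else 0) =
        fun a => (if IsPrim a then (1 : ℂ) else 0) * χ a := by
      funext a; split_ifs <;> simp
    rw [this]
    exact (hprim.mono (dvd_mul_right _ _)).mul (hχ.mono (dvd_mul_left _ _))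
  rw [poisson_pf hf (mul_ne_zero h30 hc.ne_zero) hF]
  congr 1
  · rw [nm_three_mul]; congr 2; ring
  · refine tsum_congr fun k => ?_
    have e := sumMod_prim hc hχ k
    have e2 : (toC sq3 * toC (3 * c) : ℂ) = 3 * toC sq3 * toC c := by
      rw [map_mul, map_ofNat]; ring
    rw [e, e2]



lemma pmod_pair {k1 k2 : Eis} (h1 : IsPrim k1) (h2 : IsPrim k2) :
    PMod (k1 * k2) (fun a => sy a k1 * (starRingEnd ℂ) (sy a k2)) :=
  ((pmod_sy h1).mono (dvd_mul_right _ _)).mul
    (((pmod_sy h2).comp (starRingEnd ℂ)).mono (dvd_mul_left _ _))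

open Classical in
/-- **Two characters, primary elements.** -/
theorem dual2_prim {f : ℂ → ℂ} (hf : PF f) {k1 k2 : Eis} (h1 : IsPrim k1) (h2 : IsPrim k2)
    (hcop : IsCoprime k1 k2) :
    ∑' a : Eis, (if IsPrim a then sy a k1 * (starRingEnd ℂ) (sy a k2) else 0) * f (toC a) =
      ((2 / (9 * Real.sqrt 3 * (nm k1 * nm k2)) : ℝ) : ℂ) *
        ∑' h : Eis, ph h * (gs h k1 * (starRingEnd ℂ) (gs h k2)) *
          fC f (toC h / (3 * toC sq3 * (toC k1 * toC k2))) := by
  rw [poisson_prim hf (h1.mul h2) (pmod_pair h1 h2)]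
  congr 1
  · rw [nm_mul]; push_cast; rfl
  · refine tsum_congr fun h => ?_
    rw [map_mul, ← tau2 h1 h2 hcop h]
    congr 2
    refine sumMod_congr fun a => ?_
    rw [syG.mul_left _ _ _ h1, syG.mul_left _ _ _ h2, sy_three_sq3 h1, sy_three_sq3 h2, one_mul,
      one_mul]



end Crest.Agent.R012.Tau671
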