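import Crest.Agent.R012.EdgeA_79
import Crest.Agent.R012.Dual_671
import Crest.Agent.R012.GaussInst_880
import Crest.Agent.R012.CharSum_852
import Crest.Agent.R012.Cheb_420
import Crest.Agent.R012.PT_255_Mg
import Crest.Agent.R012.Weight_600

-- ▼ part R012/EdgeB_79
section

/-!
# Row 12 (TIII): the dispersion sum `S1` for prime-supported coefficients, upper bound

For a finite set `B` of primary primes with `B0 < N(b) ≤ 2 B0`, `|c_b| ≤ 1`:

`∑_{a primary} exp(-π t N(a)) |∑_{b ∈ B} c_b G(b) conj (a/b)|^2` is bounded by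
the diagonal, the cubes and the non-cubes (for which a bound `M` for the character sums is given).
-/

set_option autoImplicit false

noncomputable section

namespace Crest.Agent.R012.Edge79

open Eis CharSum852 Tau671
open Po581 (fC)

/-- the Gaussian -/
def gau (t : ℝ) (z : ℂ) : ℂ := (Real.exp (-(Real.pi * t * ‖z‖ ^ 2)) : ℂ)

lemma norm_gau (t : ℝ) (z : ℂ) : ‖gau t z‖ = Real.exp (-(Real.pi * t * ‖z‖ ^ 2)) := by
  unfold gau
  rw [Complex.norm_real, Real.norm_eq_abs, abs_of_pos (Real.exp_pos _)]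

lemma exp_decay {a x : ℝ} (ha : 0 < a) (hx : 0 ≤ x) :
    Real.exp (-(a * x ^ 2)) ≤ (8 * (1 + (a⁻¹) ^ 2)) / (1 + x) ^ 3 := by
  rw [Real.exp_neg, le_div_iff₀ (by positivity), inv_mul_le_iff₀ (Real.exp_pos _)]
  have h1 : (a * x ^ 2) ^ 2 / 2 + a * x ^ 2 + 1 ≤ Real.exp (a * x ^ 2) := by
    have := Real.quadratic_le_exp_of_nonneg (x := a * x ^ 2) (by positivity)
    linarith
  have h2 : (1 + x) ^ 3 ≤ 4 * (1 + x ^ 3) := by
    nlinarith [mul_nonneg hx (sq_nonneg (x - 1)), sq_nonneg (x - 1)]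
  have h3 : x ^ 3 ≤ 1 + x ^ 4 := by nlinarith [sq_nonneg (x ^ 2 - x), sq_nonneg (x ^ 2 - 1), sq_nonneg (x - 1), sq_nonneg x]
  have h4 : x ^ 4 ≤ (a⁻¹) ^ 2 * (a * x ^ 2) ^ 2 := by
    have : (a⁻¹) ^ 2 * (a * x ^ 2) ^ 2 = x ^ 4 := by field_simp
    rw [this]
  have h5 : 0 ≤ a * x ^ 2 := by positivity
  have h6 : (1 : ℝ) ≤ Real.exp (a * x ^ 2) := Real.one_le_exp h5
  have h7 : (a * x ^ 2) ^ 2 ≤ 2 * Real.exp (a * x ^ 2) := by nlinarith
  have h8 : 0 ≤ (a⁻¹) ^ 2 := by positivity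
  calc (1 + x) ^ 3 ≤ 4 * (1 + (1 + (a⁻¹) ^ 2 * (2 * Real.exp (a * x ^ 2)))) := by
        refine h2.trans ?_
        gcongr
        refine h3.trans ?_
        gcongr
        refine h4.trans ?_
        gcongr
    _ ≤ _ := by nlinarith

lemma pf_gau {t : ℝ} (ht : 0 < t) : PF (gau t) := by
  have hpt : 0 < Real.pi * t := mul_pos Real.pi_pos ht
  refine PF.of_decay (C := 8 * (1 + ((Real.pi * t)⁻¹) ^ 2))
    (C' := t⁻¹ * (8 * (1 + ((4 * Real.pi / t)⁻¹) ^ 2))) ?_ ?_ ?_
  · unfold gau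
    exact Complex.continuous_ofReal.comp (by fun_prop)
  · intro z
    rw [norm_gau]
    exact exp_decay hpt (norm_nonneg z)
  · intro z
    have e := Po581.fC_gauss ht z
    have e' : fC (gau t) z = ((t⁻¹ * Real.exp (-(4 * Real.pi * ‖z‖ ^ 2 / t)) : ℝ) : ℂ) := e
    rw [e', Complex.norm_real, Real.norm_eq_abs, abs_of_pos (by positivity)]
    have h4 : 0 < 4 * Real.pi / t := by positivity
    have h5 := exp_decay h4 (norm_nonneg z)
    have h6 : 4 * Real.pi * ‖z‖ ^ 2 / t = 4 * Real.pi / t * ‖z‖ ^ 2 := by ring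
    rw [h6]
    calc _ ≤ t⁻¹ * ((8 * (1 + ((4 * Real.pi / t)⁻¹) ^ 2)) / (1 + ‖z‖) ^ 3) :=
          mul_le_mul_of_nonneg_left h5 (by positivity)
      _ = _ := by ring

/-- the Gaussian transform at the dual points -/
lemma fC_gau_dual {t : ℝ} (ht : 0 < t) {k1 k2 : Eis} (h1 : k1 ≠ 0) (h2 : k2 ≠ 0) (h : Eis) :
    fC (gau t) (toC h / (3 * toC sq3 * (toC k1 * toC k2))) =
      ((t⁻¹ * Real.exp (-(4 * Real.pi / (27 * t) * (nm h / (nm k1 * nm k2)))) : ℝ) : ℂ) := by
  have e := Po581.fC_gauss ht (toC h / (3 * toC sq3 * (toC k1 * toC k2)))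
  have e' : fC (gau t) (toC h / (3 * toC sq3 * (toC k1 * toC k2))) = _ := e
  rw [e']
  congr 3
  rw [norm_div, div_pow, norm_mul, norm_mul, norm_mul, mul_pow, mul_pow, mul_pow, norm_toC_sq,
    norm_toC_sq, norm_toC_sq, norm_toC_sq]
  have h3 : nm sq3 = 3 := by decide
  rw [h3]
  have n1 : (0 : ℝ) < nm k1 := by exact_mod_cast nm_pos.mpr h1
  have n2 : (0 : ℝ) < nm k2 := by exact_mod_cast nm_pos.mpr h2
  have : ‖(3 : ℂ)‖ = 3 := by simp
  rw [this]
  congr 1
  push_cast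
  field_simp
  ring



/-- the exponential factor in the dual sum -/
def EE (t : ℝ) (h k1 k2 : Eis) : ℝ :=
  Real.exp (-(4 * Real.pi / (27 * t) * (nm h / (nm k1 * nm k2))))

lemma EE_pos (t : ℝ) (h k1 k2 : Eis) : 0 < EE t h k1 k2 := Real.exp_pos _

open Classical in
/-- the dual form of a pair of distinct primes -/
theorem pair_dual {t : ℝ} (ht : 0 < t) {k1 k2 : Eis} (h1 : IsPrim k1)
    (h2 : IsPrim k2) (hs1 : Squarefree k1) (hs2 : Squarefree k2)
    (hcop : IsCoprime k1 k2) :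
    G k1 * (starRingEnd ℂ) (G k2) *
      ∑' a : Eis, (if IsPrim a then (starRingEnd ℂ) (sy a k1) * sy a k2 else 0) * gau t (toC a) =
      ((2 / (9 * Real.sqrt 3 * t) : ℝ) : ℂ) *
        ∑' h : Eis, ph h * (((Real.sqrt (nm k1) * Real.sqrt (nm k2))⁻¹ * EE t h k1 k2 : ℝ) : ℂ) *
          (sy h k1 * (starRingEnd ℂ) (sy h k2)) := by
  have hG1 := Gauss880.G_mul_conj Gauss880.syG h1 hs1
  have hG2 := Gauss880.G_mul_conj Gauss880.syG h2 hs2
  have hd := dual2_prim (pf_gau ht) h2 h1 hcop.symm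
  have e1 : ∑' a : Eis, (if IsPrim a then (starRingEnd ℂ) (sy a k1) * sy a k2 else 0) *
      gau t (toC a) = ∑' a : Eis, (if IsPrim a then sy a k2 * (starRingEnd ℂ) (sy a k1) else 0) *
      gau t (toC a) := tsum_congr fun a => by rw [mul_comm (sy a k2)]
  rw [e1, hd, ← tsum_mul_left, ← tsum_mul_left, ← tsum_mul_left]
  refine tsum_congr fun h => ?_
  rw [fC_gau_dual ht h2.ne_zero h1.ne_zero, Gauss880.gs_eq_G Gauss880.syG h2 hs2,
    Gauss880.gs_eq_G Gauss880.syG h1 hs1]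
  simp only [map_mul, Complex.conj_conj, Complex.conj_ofReal]
  have n1 : (0 : ℝ) < nm k1 := by exact_mod_cast nm_pos.mpr h1.ne_zero
  have n2 : (0 : ℝ) < nm k2 := by exact_mod_cast nm_pos.mpr h2.ne_zero
  have s1 : (Real.sqrt (nm k1) : ℂ) * Real.sqrt (nm k1) = nm k1 := by
    rw [← Complex.ofReal_mul, Real.mul_self_sqrt n1.le]; simp
  have s2 : (Real.sqrt (nm k2) : ℂ) * Real.sqrt (nm k2) = nm k2 := by
    rw [← Complex.ofReal_mul, Real.mul_self_sqrt n2.le]; simp
  have r1 : (Real.sqrt (nm k1) : ℂ) ≠ 0 := by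
    rw [Ne, Complex.ofReal_eq_zero]; positivity
  have r2 : (Real.sqrt (nm k2) : ℂ) ≠ 0 := by
    rw [Ne, Complex.ofReal_eq_zero]; positivity
  have r3 : (Real.sqrt 3 : ℂ) ≠ 0 := by
    rw [Ne, Complex.ofReal_eq_zero]; positivity
  have rt : (t : ℂ) ≠ 0 := by exact_mod_cast ht.ne'
  have hE : EE t h k1 k2 = Real.exp (-(4 * Real.pi / (27 * t) * (nm h / (nm k2 * nm k1)))) := by
    unfold EE; rw [mul_comm ((nm k1 : ℕ) : ℝ)]
  rw [hE]
  set X := Real.exp (-(4 * Real.pi / (27 * t) * (nm h / (nm k2 * nm k1))))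
  have c1 : ((nm k1 : ℕ) : ℂ) ≠ 0 := by exact_mod_cast n1.ne'
  have c2 : ((nm k2 : ℕ) : ℂ) ≠ 0 := by exact_mod_cast n2.ne'
  push_cast
  rw [← s1, ← s2]
  field_simp
  linear_combination (ph h * (starRingEnd ℂ) (sy h k2) * sy h k1 * X *
    (G k2 * (starRingEnd ℂ) (G k2))) * hG1 + (ph h * (starRingEnd ℂ) (sy h k2) * sy h k1 * X) * hG2

end Crest.Agent.R012.Edge79
end
end

-- ▼ part R012/EdgeC_79
section

/-!
# Row 12 (TIII): upper bound for the dispersion sum `S1`, prime-supported coefficients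
-/

set_option autoImplicit false

noncomputable section

namespace Crest.Agent.R012.Edge79

open Eis CharSum852 Tau671
open Po581 (fC)

/-- the inner sum -/
def Sb (B : Finset Eis) (c : Eis → ℂ) (a : Eis) : ℂ :=
  ∑ b ∈ B, c b * G b * (starRingEnd ℂ) (sy a b)

open Classical in
/-- the dispersion sum -/
def S1 (t : ℝ) (B : Finset Eis) (c : Eis → ℂ) : ℝ :=
  ∑' a : Eis, if IsPrim a then Real.exp (-(Real.pi * t * nm a)) * ‖Sb B c a‖ ^ 2 else 0

open Classical in
/-- the contribution of a pair -/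
def Pr (t : ℝ) (b1 b2 : Eis) : ℂ :=
  G b1 * (starRingEnd ℂ) (G b2) *
    ∑' a : Eis, (if IsPrim a then (starRingEnd ℂ) (sy a b1) * sy a b2 else 0) * gau t (toC a)

lemma gau_toC (t : ℝ) (a : Eis) : gau t (toC a) = (Real.exp (-(Real.pi * t * nm a)) : ℂ) := by
  unfold gau; rw [norm_toC_sq]

lemma summable_gau {t : ℝ} (ht : 0 < t) : Summable fun a : Eis => ‖gau t (toC a)‖ := by
  have h := summable_exp (c := Real.pi * t) (by positivity)
  refine h.congr fun a => ?_
  rw [norm_gau, norm_toC_sq]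

lemma tsum_gau_le {t : ℝ} (ht : 0 < t) :
    ∑' a : Eis, ‖gau t (toC a)‖ ≤ 1 + 100 / (Real.pi * t) := by
  have h := tsum_exp_le (c := Real.pi * t) (by positivity)
  refine le_trans (le_of_eq ?_) h
  refine tsum_congr fun a => ?_
  rw [norm_gau, norm_toC_sq]

section


lemma norm_pairch_le {b1 b2 : Eis} (h1 : IsPrim b1) (h2 : IsPrim b2) (a : Eis) :
    ‖(starRingEnd ℂ) (sy a b1) * sy a b2‖ ≤ 1 := by
  rw [norm_mul, RCLike.norm_conj]
  exact mul_le_one₀ (norm_sy_le h1) (norm_nonneg _) (norm_sy_le h2)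

open Classical in
lemma summable_pairch {t : ℝ} (ht : 0 < t) {b1 b2 : Eis} (h1 : IsPrim b1) (h2 : IsPrim b2) :
    Summable fun a : Eis =>
      (if IsPrim a then (starRingEnd ℂ) (sy a b1) * sy a b2 else 0) * gau t (toC a) := by
  apply Summable.of_norm_bounded (summable_gau ht)
  intro a
  rw [norm_mul]
  split_ifs
  · have := norm_pairch_le h1 h2 a
    have h0 := norm_nonneg (gau t (toC a))
    nlinarith
  · simp

lemma norm_Pr_diag_le {t : ℝ} (ht : 0 < t) {b : Eis} (hb : IsPrim b) :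
    ‖Pr t b b‖ ≤ 1 + 100 / (Real.pi * t) := by
  classical
  unfold Pr
  have hG := Gauss880.norm_G_le Gauss880.syG hb
  have h1 : ‖G b * (starRingEnd ℂ) (G b)‖ ≤ 1 := by
    rw [norm_mul, RCLike.norm_conj]
    exact mul_le_one₀ hG (norm_nonneg _) hG
  have h2 : ‖∑' a : Eis, (if IsPrim a then (starRingEnd ℂ) (sy a b) * sy a b else 0) *
      gau t (toC a)‖ ≤ 1 + 100 / (Real.pi * t) := by
    refine le_trans ?_ (tsum_gau_le ht)
    apply (tsum_of_norm_bounded (summable_gau ht).hasSum)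
    intro a
    rw [norm_mul]
    split_ifs
    · have := norm_pairch_le hb hb a
      have h0 := norm_nonneg (gau t (toC a))
      nlinarith
    · simp
  rw [norm_mul]
  have h3 := norm_nonneg (G b * (starRingEnd ℂ) (G b))
  have h4 : 0 ≤ 1 + 100 / (Real.pi * t) := by positivity
  calc _ ≤ 1 * (1 + 100 / (Real.pi * t)) := mul_le_mul h1 h2 (norm_nonneg _) zero_le_one
    _ = _ := one_mul _

/-- expansion of the square -/
lemma S1_expand {t : ℝ} (ht : 0 < t) {B : Finset Eis} (hB : ∀ b ∈ B, IsPrim b) (c : Eis → ℂ) :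
    ((S1 t B c : ℝ) : ℂ) =
      ∑ p ∈ B ×ˢ B, c p.1 * (starRingEnd ℂ) (c p.2) * Pr t p.1 p.2 := by
  classical
  unfold S1 Pr
  rw [Complex.ofReal_tsum]
  have h1 : ∀ p ∈ B ×ˢ B, c p.1 * (starRingEnd ℂ) (c p.2) * (G p.1 * (starRingEnd ℂ) (G p.2) *
      ∑' a : Eis, (if IsPrim a then (starRingEnd ℂ) (sy a p.1) * sy a p.2 else 0) *
        gau t (toC a)) = ∑' a : Eis, c p.1 * (starRingEnd ℂ) (c p.2) *
        (G p.1 * (starRingEnd ℂ) (G p.2)) *
        ((if IsPrim a then (starRingEnd ℂ) (sy a p.1) * sy a p.2 else 0) * gau t (toC a)) := by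
    intro p _
    rw [← mul_assoc, ← tsum_mul_left]
  rw [Finset.sum_congr rfl h1, ← Summable.tsum_finsetSum]
  · refine tsum_congr fun a => ?_
    split_ifs with ha
    · rw [gau_toC]
      unfold Sb
      push_cast
      rw [← Complex.conj_mul', mul_comm ((starRingEnd ℂ) _), map_sum, Finset.sum_mul_sum,
        Finset.sum_product, Finset.mul_sum]
      apply Finset.sum_congr rfl
      intro b1 _
      rw [Finset.mul_sum]
      apply Finset.sum_congr rfl
      intro b2 _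
      simp only [map_mul, Complex.conj_conj]
      ring
    · simp
  · intro p hp
    rw [Finset.mem_product] at hp
    exact (summable_pairch ht (hB _ hp.1) (hB _ hp.2)).mul_left _

/-- the dual sum for one `h` -/
def Th (t : ℝ) (B : Finset Eis) (c : Eis → ℂ) (h : Eis) : ℂ :=
  ∑ p ∈ B.offDiag, c p.1 * (starRingEnd ℂ) (c p.2) *
    ((((Real.sqrt (nm p.1) * Real.sqrt (nm p.2))⁻¹ * EE t h p.1 p.2 : ℝ) : ℂ) *
      (sy h p.1 * (starRingEnd ℂ) (sy h p.2)))

end

end Crest.Agent.R012.Edge79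
end
end

-- ▼ part R012/EdgeD_79
section

/-!
# Row 12 (TIII): bounds for the dual sums `Th`, and the final bound for `S1`
-/

set_option autoImplicit false

noncomputable section

namespace Crest.Agent.R012.Edge79

open Eis CharSum852 Tau671

/-- the set-up: primary primes in `(B0, 2 B0]` -/
structure Box (B0 : ℝ) (B : Finset Eis) : Prop where
  one_le : 1 ≤ B0
  prim : ∀ b ∈ B, IsPrim b
  prime : ∀ b ∈ B, Prime b
  lt : ∀ b ∈ B, B0 < nm b
  le : ∀ b ∈ B, (nm b : ℝ) ≤ 2 * B0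

variable {B0 : ℝ} {B : Finset Eis}

/-- the exponent -/
def kap (t B0 : ℝ) : ℝ := Real.pi / (27 * t * B0 ^ 2)

lemma kap_pos {t : ℝ} (ht : 0 < t) (hB0 : 1 ≤ B0) : 0 < kap t B0 := by
  unfold kap; have := Real.pi_pos; positivity

lemma Box.pos (hB : Box B0 B) : 0 < B0 := lt_of_lt_of_le one_pos hB.one_le

lemma Box.nm_pos (hB : Box B0 B) {b : Eis} (hb : b ∈ B) : (0 : ℝ) < nm b :=
  hB.pos.trans (hB.lt b hb)

lemma Box.isCoprime (hB : Box B0 B) {b1 b2 : Eis} (h1 : b1 ∈ B) (h2 : b2 ∈ B) (hne : b1 ≠ b2) :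
    IsCoprime b1 b2 := by
  rw [(hB.prime _ h1).irreducible.coprime_iff_not_dvd]
  intro hd
  apply hne
  exact Cheb420.isPrim_assoc (hB.prim _ h1) (hB.prim _ h2)
    ((hB.prime _ h1).irreducible.associated_of_dvd (hB.prime _ h2).irreducible hd)

lemma EE_le {t : ℝ} (ht : 0 < t) (hB : Box B0 B) {b1 b2 : Eis} (h1 : b1 ∈ B) (h2 : b2 ∈ B)
    (h : Eis) : EE t h b1 b2 ≤ Real.exp (-(kap t B0 * nm h)) := by
  unfold EE kap
  apply Real.exp_le_exp.mpr
  apply neg_le_neg
  have n1 := hB.nm_pos h1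
  have n2 := hB.nm_pos h2
  have hp : (nm b1 : ℝ) * nm b2 ≤ 4 * B0 ^ 2 := by
    have := hB.le b1 h1; have := hB.le b2 h2; have := hB.pos
    nlinarith
  have hpi := Real.pi_pos
  have h0 : (0 : ℝ) ≤ nm h := Nat.cast_nonneg _
  have hb := hB.pos
  calc Real.pi / (27 * t * B0 ^ 2) * nm h
      = 4 * Real.pi / (27 * t) * (nm h / (4 * B0 ^ 2)) := by field_simp
    _ ≤ 4 * Real.pi / (27 * t) * (nm h / (nm b1 * nm b2)) := by gcongr

lemma inv_sqrt_le (hB : Box B0 B) {b : Eis} (hb : b ∈ B) :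
    (Real.sqrt (nm b))⁻¹ ≤ (Real.sqrt B0)⁻¹ := by
  have := hB.pos
  apply inv_anti₀ (by positivity)
  exact Real.sqrt_le_sqrt (hB.lt b hb).le

section


lemma norm_Th_le {t : ℝ} (ht : 0 < t) (hB : Box B0 B) {c : Eis → ℂ} (hc : ∀ b, ‖c b‖ ≤ 1)
    (h : Eis) : ‖Th t B c h‖ ≤ (B.card : ℝ) ^ 2 / B0 * Real.exp (-(kap t B0 * nm h)) := by
  have hp := hB.pos
  unfold Th
  have hterm : ∀ p ∈ B.offDiag, ‖c p.1 * (starRingEnd ℂ) (c p.2) *
    ((((Real.sqrt (nm p.1) * Real.sqrt (nm p.2))⁻¹ * EE t h p.1 p.2 : ℝ) : ℂ) *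
      (sy h p.1 * (starRingEnd ℂ) (sy h p.2)))‖ ≤ B0⁻¹ * Real.exp (-(kap t B0 * nm h)) := by
    intro p hp'
    rw [Finset.mem_offDiag] at hp'
    obtain ⟨h1, h2, -⟩ := hp'
    rw [norm_mul, norm_mul, norm_mul, norm_mul, RCLike.norm_conj, RCLike.norm_conj,
      Complex.norm_real, Real.norm_eq_abs, abs_of_nonneg (by
        have := (EE_pos t h p.1 p.2).le
        positivity)]
    have e1 : (Real.sqrt (nm p.1) * Real.sqrt (nm p.2))⁻¹ ≤ B0⁻¹ := by
      rw [mul_inv]
      have h3 := inv_sqrt_le hB h1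
      have h4 := inv_sqrt_le hB h2
      have h5 : (Real.sqrt B0)⁻¹ * (Real.sqrt B0)⁻¹ = B0⁻¹ := by
        rw [← mul_inv, Real.mul_self_sqrt hp.le]
      rw [← h5]
      exact mul_le_mul h3 h4 (by positivity) (by positivity)
    have e2 := EE_le ht hB h1 h2 h
    have e3 := norm_sy_le (x := h) (hB.prim _ h1)
    have e4 := norm_sy_le (x := h) (hB.prim _ h2)
    have e5 : ‖sy h p.1‖ * ‖sy h p.2‖ ≤ 1 := mul_le_one₀ e3 (norm_nonneg _) e4
    have e6 : ‖c p.1‖ * ‖c p.2‖ ≤ 1 := mul_le_one₀ (hc _) (norm_nonneg _) (hc _)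
    have e7 : (Real.sqrt (nm p.1) * Real.sqrt (nm p.2))⁻¹ * EE t h p.1 p.2 ≤
        B0⁻¹ * Real.exp (-(kap t B0 * nm h)) :=
      mul_le_mul e1 e2 (EE_pos _ _ _ _).le (by positivity)
    have e8 : 0 ≤ (Real.sqrt (nm p.1) * Real.sqrt (nm p.2))⁻¹ * EE t h p.1 p.2 := by
      have := (EE_pos t h p.1 p.2).le
      positivity
    calc ‖c p.1‖ * ‖c p.2‖ * ((Real.sqrt (nm p.1) * Real.sqrt (nm p.2))⁻¹ * EE t h p.1 p.2 *
          (‖sy h p.1‖ * ‖sy h p.2‖))
        ≤ 1 * ((B0⁻¹ * Real.exp (-(kap t B0 * nm h))) * 1) := by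
          apply mul_le_mul e6 _ (by positivity) zero_le_one
          exact mul_le_mul e7 e5 (by positivity) (by positivity)
      _ = _ := by ring
  calc ‖_‖ ≤ ∑ p ∈ B.offDiag, B0⁻¹ * Real.exp (-(kap t B0 * nm h)) :=
        (norm_sum_le _ _).trans (Finset.sum_le_sum hterm)
    _ = B.offDiag.card * (B0⁻¹ * Real.exp (-(kap t B0 * nm h))) := by
        rw [Finset.sum_const, nsmul_eq_mul]
    _ ≤ (B.card : ℝ) ^ 2 * (B0⁻¹ * Real.exp (-(kap t B0 * nm h))) := by
        gcongr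
        rw [Finset.offDiag_card]
        have : ((B.card * B.card - B.card : ℕ) : ℝ) ≤ ((B.card * B.card : ℕ) : ℝ) := by
          exact_mod_cast Nat.sub_le _ _
        refine this.trans (le_of_eq ?_)
        push_cast; ring
    _ = _ := by ring

lemma Th_zero (t : ℝ) (hB : Box B0 B) (c : Eis → ℂ) : Th t B c 0 = 0 := by
  unfold Th
  apply Finset.sum_eq_zero
  intro p hp
  rw [Finset.mem_offDiag] at hp
  have : sy 0 p.1 = 0 := by
    apply sy_eq_zero (hB.prim _ hp.1)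
    rw [isCoprime_zero_left]
    exact (hB.prime _ hp.1).not_isUnit
  rw [this]; simp

/-- the non-cube case -/
lemma norm_Th_noncube {t : ℝ} (ht : 0 < t) (hB : Box B0 B) {c : Eis → ℂ} (hc : ∀ b, ‖c b‖ ≤ 1)
    (h : Eis) {M : ℝ}
    (hM : ∀ y : ℕ, ‖∑ b ∈ B.filter (fun b => nm b ≤ y), c b * sy h b‖ ≤ M) :
    ‖Th t B c h‖ ≤ B.card * ((2 * M + 1) / B0) := by
  classical
  have hp := hB.pos
  have hM0 : 0 ≤ M := (norm_nonneg _).trans (hM 0)
  have hinner : ∀ b2 ∈ B, ‖∑ b1 ∈ B, if b1 ≠ b2 then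
      (((Real.sqrt (nm b1))⁻¹ * EE t h b1 b2 : ℝ) : ℂ) * (c b1 * sy h b1) else 0‖ ≤
      (2 * M + 1) * (Real.sqrt B0)⁻¹ := by
    intro b2 hb2
    set K : ℝ := 4 * Real.pi / (27 * t) * nm h / nm b2 with hK
    have hn2 := hB.nm_pos hb2
    have hK0 : 0 ≤ K := by rw [hK]; have := Real.pi_pos; positivity
    set φ2 : ℕ → ℝ := fun k => if k = 0 then 0 else Real.exp (-(K / k)) with hφ2
    set φ1 : ℕ → ℝ := fun k => (Real.sqrt k)⁻¹ with hφ1
    have hE : ∀ b1 ∈ B, EE t h b1 b2 = φ2 (nm b1) := by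
      intro b1 hb1
      have hn1 := hB.nm_pos hb1
      have : nm b1 ≠ 0 := by exact_mod_cast hn1.ne'
      rw [hφ2]; simp only [this, if_false]
      unfold EE
      congr 2
      rw [hK]; field_simp
    have hmono : ∀ k, φ2 k ≤ φ2 (k + 1) := by
      intro k
      simp only [hφ2]
      rcases Nat.eq_zero_or_pos k with hk | hk
      · rw [if_pos hk, if_neg (by omega)]; exact (Real.exp_pos _).le
      · rw [if_neg (by omega), if_neg (by omega)]
        apply Real.exp_le_exp.mpr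
        apply neg_le_neg
        have : (0 : ℝ) < k := by exact_mod_cast hk
        push_cast
        gcongr
        linarith
    have hφ20 : ∀ k, 0 ≤ φ2 k := by
      intro k; simp only [hφ2]; split_ifs
      · exact le_rfl
      · exact (Real.exp_pos _).le
    have hφ21 : ∀ k, φ2 k ≤ 1 := by
      intro k; simp only [hφ2]; split_ifs
      · exact zero_le_one
      · rw [Real.exp_le_one_iff]
        have : 0 ≤ K / k := by positivity
        linarith
    have hfull : ‖∑ b1 ∈ B, (φ1 (nm b1) : ℂ) * ((φ2 (nm b1) : ℂ) * (c b1 * sy h b1))‖ ≤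
        (Real.sqrt B0)⁻¹ * (2 * M) := by
      have hlo : ∀ b ∈ B, ⌊B0⌋₊ + 1 ≤ nm b := by
        intro b hb
        have h1 := hB.lt b hb
        have h2 : (⌊B0⌋₊ : ℝ) ≤ B0 := Nat.floor_le hp.le
        have h3 : (⌊B0⌋₊ : ℝ) < nm b := lt_of_le_of_lt h2 h1
        have : ⌊B0⌋₊ < nm b := by exact_mod_cast h3
        omega
      have h1 := abel_antitone B (fun b => nm b) (fun b => (φ2 (nm b) : ℂ) * (c b * sy h b)) φ1
        (⌊B0⌋₊ + 1) hlo ?_ ?_ (M := 2 * M) ?_
      · refine h1.trans ?_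
        apply mul_le_mul_of_nonneg_right _ (by positivity)
        simp only [hφ1]
        apply inv_anti₀ (by positivity)
        apply Real.sqrt_le_sqrt
        push_cast
        exact (Nat.lt_floor_add_one B0).le
      · intro k hk
        simp only [hφ1]
        have : (0 : ℝ) < k := by
          have : 0 < k := by omega
          exact_mod_cast this
        apply inv_anti₀ (by positivity)
        apply Real.sqrt_le_sqrt
        push_cast; linarith
      · intro k _; simp only [hφ1]; positivity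
      · intro y
        have h2 := abel_monotone (B.filter (fun b => nm b ≤ y)) (fun b => nm b)
          (fun b => c b * sy h b) φ2 hmono hφ20 hφ21 (M := M) ?_
        · rw [mul_one] at h2
          exact h2
        · intro y'
          rw [Finset.filter_filter]
          have := hM (min y y')
          simpa only [le_min_iff] using this
    have hsplit : (∑ b1 ∈ B, if b1 ≠ b2 then
        (((Real.sqrt (nm b1))⁻¹ * EE t h b1 b2 : ℝ) : ℂ) * (c b1 * sy h b1) else 0) =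
        ∑ b1 ∈ B, (φ1 (nm b1) : ℂ) * ((φ2 (nm b1) : ℂ) * (c b1 * sy h b1)) -
          (φ1 (nm b2) : ℂ) * ((φ2 (nm b2) : ℂ) * (c b2 * sy h b2)) := by
      rw [eq_sub_iff_add_eq]
      have e1 : ∑ b1 ∈ B, (φ1 (nm b1) : ℂ) * ((φ2 (nm b1) : ℂ) * (c b1 * sy h b1)) =
          ∑ b1 ∈ B, ((if b1 ≠ b2 then
        (((Real.sqrt (nm b1))⁻¹ * EE t h b1 b2 : ℝ) : ℂ) * (c b1 * sy h b1) else 0) +
          (if b1 = b2 then (φ1 (nm b1) : ℂ) * ((φ2 (nm b1) : ℂ) * (c b1 * sy h b1)) else 0)) := by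
        apply Finset.sum_congr rfl
        intro b1 hb1
        by_cases hne : b1 = b2
        · simp [hne]
        · rw [if_pos hne, if_neg hne, add_zero, hE b1 hb1]
          simp only [hφ1]
          push_cast; ring
      rw [e1, Finset.sum_add_distrib, Finset.sum_ite_eq' B b2, if_pos hb2]
    rw [hsplit]
    refine (norm_sub_le _ _).trans ?_
    have hlast : ‖(φ1 (nm b2) : ℂ) * ((φ2 (nm b2) : ℂ) * (c b2 * sy h b2))‖ ≤
        (Real.sqrt B0)⁻¹ := by
      rw [norm_mul, norm_mul, norm_mul, Complex.norm_real, Complex.norm_real, Real.norm_eq_abs,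
        Real.norm_eq_abs, abs_of_nonneg (hφ20 _), abs_of_nonneg (by simp only [hφ1]; positivity)]
      have e1 : φ1 (nm b2) ≤ (Real.sqrt B0)⁻¹ := inv_sqrt_le hB hb2
      have e2 : ‖c b2‖ * ‖sy h b2‖ ≤ 1 :=
        mul_le_one₀ (hc _) (norm_nonneg _) (norm_sy_le (hB.prim _ hb2))
      have e3 : φ2 (nm b2) * (‖c b2‖ * ‖sy h b2‖) ≤ 1 :=
        mul_le_one₀ (hφ21 _) (by positivity) e2
      calc _ ≤ (Real.sqrt B0)⁻¹ * 1 := by
            apply mul_le_mul e1 e3 _ (by positivity)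
            have := hφ20 (nm b2)
            positivity
        _ = _ := mul_one _
    calc _ ≤ (Real.sqrt B0)⁻¹ * (2 * M) + (Real.sqrt B0)⁻¹ := add_le_add hfull hlast
      _ = _ := by ring
  have hTh : Th t B c h = ∑ b2 ∈ B, (((Real.sqrt (nm b2))⁻¹ : ℝ) : ℂ) *
      ((starRingEnd ℂ) (c b2) * (starRingEnd ℂ) (sy h b2)) *
      ∑ b1 ∈ B, if b1 ≠ b2 then
        (((Real.sqrt (nm b1))⁻¹ * EE t h b1 b2 : ℝ) : ℂ) * (c b1 * sy h b1) else 0 := by
    unfold Th
    have e : B.offDiag = (B ×ˢ B).filter (fun p => p.1 ≠ p.2) := by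
      ext p
      simp only [Finset.mem_offDiag, Finset.mem_filter, Finset.mem_product, and_assoc]
    rw [e, Finset.sum_filter, Finset.sum_product_right]
    apply Finset.sum_congr rfl
    intro b2 _
    rw [Finset.mul_sum]
    apply Finset.sum_congr rfl
    intro b1 _
    by_cases hne : b1 = b2
    · simp [hne]
    · rw [if_pos hne, if_pos hne]
      rw [mul_inv]
      push_cast
      ring
  rw [hTh]
  calc ‖_‖ ≤ ∑ b2 ∈ B, (Real.sqrt B0)⁻¹ * ((2 * M + 1) * (Real.sqrt B0)⁻¹) := by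
        refine (norm_sum_le _ _).trans (Finset.sum_le_sum fun b2 hb2 => ?_)
        rw [norm_mul, norm_mul, norm_mul, RCLike.norm_conj, RCLike.norm_conj, Complex.norm_real,
          Real.norm_eq_abs, abs_of_nonneg (by positivity)]
        have e1 := inv_sqrt_le hB hb2
        have e2 : ‖c b2‖ * ‖sy h b2‖ ≤ 1 :=
          mul_le_one₀ (hc _) (norm_nonneg _) (norm_sy_le (hB.prim _ hb2))
        have e3 := hinner b2 hb2
        calc (Real.sqrt (nm b2))⁻¹ * (‖c b2‖ * ‖sy h b2‖) * _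
            ≤ ((Real.sqrt B0)⁻¹ * 1) * ((2 * M + 1) * (Real.sqrt B0)⁻¹) := by
              apply mul_le_mul _ e3 (norm_nonneg _) (by positivity)
              exact mul_le_mul e1 e2 (by positivity) (by positivity)
          _ = _ := by ring
    _ = B.card * ((Real.sqrt B0)⁻¹ * ((2 * M + 1) * (Real.sqrt B0)⁻¹)) := by
        rw [Finset.sum_const, nsmul_eq_mul]
    _ = _ := by
        have h5 : (Real.sqrt B0)⁻¹ * (Real.sqrt B0)⁻¹ = B0⁻¹ := by
          rw [← mul_inv, Real.mul_self_sqrt hp.le]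
        rw [div_eq_mul_inv, ← h5]; ring

end

end Crest.Agent.R012.Edge79
end
end

-- ▼ part R012/EdgeE_79
section

/-!
# Row 12 (TIII): `S1_le`, the final upper bound for the dispersion sum over primes
-/

set_option autoImplicit false

noncomputable section

namespace Crest.Agent.R012.Edge79

open Eis CharSum852 Tau671

variable {B0 : ℝ} {B : Finset Eis}

/-- the bound for the dual sum -/
def dualBd (B0 n κ M : ℝ) (Y0 : ℕ) : ℝ :=
  n ^ 2 / B0 * (400 / κ ^ ((1 : ℝ) / 3)) + 100 * Y0 * (n * ((2 * M + 1) / B0)) +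
    n ^ 2 / B0 * (Real.exp (-(κ * Y0 / 2)) * (200 / κ))

section


lemma sum_Th_le {t : ℝ} (ht : 0 < t) (hB : Box B0 B) {c : Eis → ℂ} (hc : ∀ b, ‖c b‖ ≤ 1)
    {M : ℝ} (hM0 : 0 ≤ M) {Y0 : ℕ}
    (hM : ∀ h : Eis, h ≠ 0 → (¬ ∃ m, h = m ^ 3) → nm h ≤ Y0 →
      ∀ y : ℕ, ‖∑ b ∈ B.filter (fun b => nm b ≤ y), c b * sy h b‖ ≤ M) (S : Finset Eis) :
    ∑ h ∈ S, ‖Th t B c h‖ ≤ dualBd B0 B.card (kap t B0) M Y0 := by
  classical
  set κ := kap t B0 with hκ
  have hκ0 : 0 < κ := kap_pos ht hB.one_le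
  have hp := hB.pos
  set n : ℝ := (B.card : ℝ) with hn
  have hn0 : 0 ≤ n := Nat.cast_nonneg _
  have hnB : 0 ≤ n ^ 2 / B0 := by positivity
  -- split
  set S1 := (S.erase 0).filter (fun h => ∃ m, h = m ^ 3) with hS1
  set S2 := (S.erase 0).filter (fun h => ¬ ∃ m, h = m ^ 3) with hS2
  have h0 : ∑ h ∈ S, ‖Th t B c h‖ ≤ ∑ h ∈ S.erase 0, ‖Th t B c h‖ := by
    by_cases hz : (0 : Eis) ∈ S
    · rw [← Finset.add_sum_erase _ _ hz, Th_zero t hB c]; simp
    · rw [Finset.erase_eq_of_notMem hz]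
  have h12 : ∑ h ∈ S.erase 0, ‖Th t B c h‖ = ∑ h ∈ S1, ‖Th t B c h‖ + ∑ h ∈ S2, ‖Th t B c h‖ :=
    (Finset.sum_filter_add_sum_filter_not _ _ _).symm
  -- cubes
  have hcube : ∑ h ∈ S1, ‖Th t B c h‖ ≤ n ^ 2 / B0 * (400 / κ ^ ((1 : ℝ) / 3)) := by
    have hex : ∀ h ∈ S1, ∃ m, h = m ^ 3 := fun h hh => (Finset.mem_filter.mp hh).2
    choose! r hr using hex
    have hinj : Set.InjOn r S1 := by
      intro x hx y hy hxy
      rw [hr x hx, hr y hy, hxy]
    calc ∑ h ∈ S1, ‖Th t B c h‖ ≤ ∑ h ∈ S1, n ^ 2 / B0 * Real.exp (-(κ * (nm (r h) : ℝ) ^ 3)) := by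
          apply Finset.sum_le_sum
          intro h hh
          have e := norm_Th_le ht hB hc h
          have e2 : (nm h : ℝ) = (nm (r h) : ℝ) ^ 3 := by
            conv_lhs => rw [hr h hh]
            rw [nm_pow]; push_cast; rfl
          rw [e2] at e
          exact e
      _ = n ^ 2 / B0 * ∑ m ∈ S1.image r, Real.exp (-(κ * (nm m : ℝ) ^ 3)) := by
          rw [Finset.sum_image hinj, Finset.mul_sum]
      _ ≤ n ^ 2 / B0 * (400 / κ ^ ((1 : ℝ) / 3)) := by
          apply mul_le_mul_of_nonneg_left _ hnB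
          apply sum_cube_exp_le hκ0
          intro m hm
          rw [Finset.mem_image] at hm
          obtain ⟨h, hh, rfl⟩ := hm
          intro hz
          have := hr h hh
          rw [hz] at this
          simp only [hS1, Finset.mem_filter, Finset.mem_erase] at hh
          apply hh.1.1
          rw [this]; ring
  -- noncubes
  set S3 := S2.filter (fun h => nm h ≤ Y0) with hS3
  set S4 := S2.filter (fun h => ¬ nm h ≤ Y0) with hS4
  have h34 : ∑ h ∈ S2, ‖Th t B c h‖ = ∑ h ∈ S3, ‖Th t B c h‖ + ∑ h ∈ S4, ‖Th t B c h‖ :=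
    (Finset.sum_filter_add_sum_filter_not _ _ _).symm
  have hsmall : ∑ h ∈ S3, ‖Th t B c h‖ ≤ 100 * Y0 * (n * ((2 * M + 1) / B0)) := by
    have hcard : (S3.card : ℝ) ≤ 100 * Y0 := by
      refine le_trans ?_ (Lat277.card_ball_erase_le Y0)
      have : S3 ⊆ (ball Y0).erase 0 := by
        intro h hh
        simp only [hS3, hS2, Finset.mem_filter, Finset.mem_erase] at hh
        exact Finset.mem_erase.mpr ⟨hh.1.1.1, mem_ball.mpr hh.2⟩
      exact_mod_cast Finset.card_le_card this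
    calc ∑ h ∈ S3, ‖Th t B c h‖ ≤ ∑ h ∈ S3, n * ((2 * M + 1) / B0) := by
          apply Finset.sum_le_sum
          intro h hh
          simp only [hS3, hS2, Finset.mem_filter, Finset.mem_erase] at hh
          exact norm_Th_noncube ht hB hc h (hM h hh.1.1.1 hh.1.2 hh.2)
      _ = S3.card * (n * ((2 * M + 1) / B0)) := by rw [Finset.sum_const, nsmul_eq_mul]
      _ ≤ _ := by
          apply mul_le_mul_of_nonneg_right hcard
          positivity
  have hlarge : ∑ h ∈ S4, ‖Th t B c h‖ ≤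
      n ^ 2 / B0 * (Real.exp (-(κ * Y0 / 2)) * (200 / κ)) := by
    calc ∑ h ∈ S4, ‖Th t B c h‖
        ≤ ∑ h ∈ S4, n ^ 2 / B0 * (Real.exp (-(κ * Y0 / 2)) * Real.exp (-(κ / 2 * nm h))) := by
          apply Finset.sum_le_sum
          intro h hh
          simp only [hS4, hS2, Finset.mem_filter, Finset.mem_erase, not_le] at hh
          have e := norm_Th_le ht hB hc h
          refine e.trans ?_
          apply mul_le_mul_of_nonneg_left _ hnB
          rw [← Real.exp_add]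
          apply Real.exp_le_exp.mpr
          have h1 : (Y0 : ℝ) ≤ nm h := by exact_mod_cast hh.2.le
          nlinarith
      _ = n ^ 2 / B0 * (Real.exp (-(κ * Y0 / 2)) * ∑ h ∈ S4, Real.exp (-(κ / 2 * nm h))) := by
          rw [Finset.mul_sum, Finset.mul_sum]
      _ ≤ _ := by
          apply mul_le_mul_of_nonneg_left _ hnB
          apply mul_le_mul_of_nonneg_left _ (Real.exp_pos _).le
          have := sum_exp_le (c := κ / 2) (by positivity) S4 (by
            intro h hh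
            simp only [hS4, hS2, Finset.mem_filter, Finset.mem_erase] at hh
            exact hh.1.1.1)
          refine this.trans (le_of_eq ?_)
          field_simp; norm_num
  unfold dualBd
  linarith

lemma summable_Th {t : ℝ} (ht : 0 < t) (hB : Box B0 B) {c : Eis → ℂ} (hc : ∀ b, ‖c b‖ ≤ 1) :
    Summable fun h => ‖Th t B c h‖ := by
  have h := (summable_exp (kap_pos ht hB.one_le)).mul_left ((B.card : ℝ) ^ 2 / B0)
  exact Summable.of_nonneg_of_le (fun _ => norm_nonneg _) (norm_Th_le ht hB hc) h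

open Classical in
lemma summable_dualterm {t : ℝ} (ht : 0 < t) (hB : Box B0 B) {b1 b2 : Eis} (h1 : b1 ∈ B)
    (h2 : b2 ∈ B) :
    Summable fun h : Eis => ph h * (((Real.sqrt (nm b1) * Real.sqrt (nm b2))⁻¹ *
      EE t h b1 b2 : ℝ) : ℂ) * (sy h b1 * (starRingEnd ℂ) (sy h b2)) := by
  have h := (summable_exp (kap_pos ht hB.one_le)).mul_left
    ((Real.sqrt (nm b1) * Real.sqrt (nm b2))⁻¹)
  apply Summable.of_norm_bounded h
  intro x
  rw [norm_mul, norm_mul, norm_ph, one_mul, Complex.norm_real, Real.norm_eq_abs,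
    abs_of_nonneg (by have := (EE_pos t x b1 b2).le; positivity), norm_mul, RCLike.norm_conj]
  have e2 := EE_le ht hB h1 h2 x
  have e3 := norm_sy_le (x := x) (hB.prim _ h1)
  have e4 := norm_sy_le (x := x) (hB.prim _ h2)
  have e5 : ‖sy x b1‖ * ‖sy x b2‖ ≤ 1 := mul_le_one₀ e3 (norm_nonneg _) e4
  have e6 := (EE_pos t x b1 b2).le
  calc _ ≤ ((Real.sqrt (nm b1) * Real.sqrt (nm b2))⁻¹ * Real.exp (-(kap t B0 * nm x))) * 1 := by
        apply mul_le_mul _ e5 (by positivity) (by positivity)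
        gcongr
    _ = _ := mul_one _

lemma offdiag_eq {t : ℝ} (ht : 0 < t) (hB : Box B0 B) (c : Eis → ℂ) :
    ∑ p ∈ B.offDiag, c p.1 * (starRingEnd ℂ) (c p.2) * Pr t p.1 p.2 =
      ((2 / (9 * Real.sqrt 3 * t) : ℝ) : ℂ) * ∑' h : Eis, ph h * Th t B c h := by
  classical
  have h1 : ∀ p ∈ B.offDiag, c p.1 * (starRingEnd ℂ) (c p.2) * Pr t p.1 p.2 =
      ((2 / (9 * Real.sqrt 3 * t) : ℝ) : ℂ) * ∑' h : Eis, c p.1 * (starRingEnd ℂ) (c p.2) *
        (ph h * (((Real.sqrt (nm p.1) * Real.sqrt (nm p.2))⁻¹ *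
      EE t h p.1 p.2 : ℝ) : ℂ) * (sy h p.1 * (starRingEnd ℂ) (sy h p.2))) := by
    intro p hp
    rw [Finset.mem_offDiag] at hp
    obtain ⟨h1, h2, hne⟩ := hp
    unfold Pr
    rw [pair_dual ht (hB.prim _ h1) (hB.prim _ h2) (hB.prime _ h1).irreducible.squarefree
      (hB.prime _ h2).irreducible.squarefree (hB.isCoprime h1 h2 hne), tsum_mul_left]
    ring
  rw [Finset.sum_congr rfl h1, ← Finset.mul_sum]
  congr 1
  rw [← Summable.tsum_finsetSum]
  · refine tsum_congr fun h => ?_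
    unfold Th
    rw [Finset.mul_sum]
    apply Finset.sum_congr rfl
    intro p _
    ring
  · intro p hp
    rw [Finset.mem_offDiag] at hp
    exact (summable_dualterm ht hB hp.1 hp.2.1).mul_left _

/-- **Upper bound for the dispersion sum over primes.** -/
theorem S1_le {t : ℝ} (ht : 0 < t) (hB : Box B0 B) {c : Eis → ℂ} (hc : ∀ b, ‖c b‖ ≤ 1)
    {M : ℝ} (hM0 : 0 ≤ M) {Y0 : ℕ}
    (hM : ∀ h : Eis, h ≠ 0 → (¬ ∃ m, h = m ^ 3) → nm h ≤ Y0 →
      ∀ y : ℕ, ‖∑ b ∈ B.filter (fun b => nm b ≤ y), c b * sy h b‖ ≤ M) :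
    S1 t B c ≤ B.card * (1 + 100 / (Real.pi * t)) +
      2 / (9 * Real.sqrt 3 * t) * dualBd B0 B.card (kap t B0) M Y0 := by
  classical
  have hnn : 0 ≤ S1 t B c := by
    unfold S1
    apply tsum_nonneg
    intro a
    split_ifs
    · positivity
    · exact le_rfl
  have e : S1 t B c = ‖((S1 t B c : ℝ) : ℂ)‖ := by
    rw [Complex.norm_real, Real.norm_eq_abs, abs_of_nonneg hnn]
  rw [e, S1_expand ht hB.prim c]
  have hsplit : ∑ p ∈ B ×ˢ B, c p.1 * (starRingEnd ℂ) (c p.2) * Pr t p.1 p.2 =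
      ∑ p ∈ B.diag, c p.1 * (starRingEnd ℂ) (c p.2) * Pr t p.1 p.2 +
      ∑ p ∈ B.offDiag, c p.1 * (starRingEnd ℂ) (c p.2) * Pr t p.1 p.2 := by
    rw [← Finset.sum_union (Finset.disjoint_diag_offDiag B), Finset.diag_union_offDiag]
  rw [hsplit]
  refine (norm_add_le _ _).trans (add_le_add ?_ ?_)
  · calc ‖∑ p ∈ B.diag, c p.1 * (starRingEnd ℂ) (c p.2) * Pr t p.1 p.2‖
        ≤ ∑ p ∈ B.diag, (1 + 100 / (Real.pi * t)) := by
          refine (norm_sum_le _ _).trans (Finset.sum_le_sum fun p hp => ?_)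
          rw [Finset.mem_diag] at hp
          obtain ⟨h1, h2⟩ := hp
          rw [← h2]
          rw [norm_mul, norm_mul, RCLike.norm_conj]
          have e1 := norm_Pr_diag_le ht (hB.prim _ h1)
          have e2 : ‖c p.1‖ * ‖c p.1‖ ≤ 1 := mul_le_one₀ (hc _) (norm_nonneg _) (hc _)
          have e3 : 0 ≤ 1 + 100 / (Real.pi * t) := by positivity
          calc _ ≤ 1 * (1 + 100 / (Real.pi * t)) := mul_le_mul e2 e1 (norm_nonneg _) zero_le_one
            _ = _ := one_mul _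
      _ = _ := by rw [Finset.sum_const, Finset.diag_card, nsmul_eq_mul]
  · rw [offdiag_eq ht hB c, norm_mul, Complex.norm_real, Real.norm_eq_abs,
      abs_of_nonneg (by positivity)]
    apply mul_le_mul_of_nonneg_left _ (by positivity)
    have h2 : ∑' h : Eis, ‖Th t B c h‖ ≤ dualBd B0 B.card (kap t B0) M Y0 :=
      (summable_Th ht hB hc).tsum_le_of_sum_le (sum_Th_le ht hB hc hM0 hM)
    refine le_trans ?_ h2
    apply tsum_of_norm_bounded (summable_Th ht hB hc).hasSum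
    intro h
    rw [norm_mul, norm_ph, one_mul]

end

end Crest.Agent.R012.Edge79
end
end

-- ▼ part R012/EdgeF_79
section

/-!
# Row 12 (TIII): bilinear form bounded by the dispersion sum `S1`
-/

set_option autoImplicit false

noncomputable section

namespace Crest.Agent.R012.Edge79

open Eis CharSum852 Tau671

section


lemma norm_Sb_le {B : Finset Eis} (hB : ∀ b ∈ B, IsPrim b) {c : Eis → ℂ} (hc : ∀ b, ‖c b‖ ≤ 1)
    (a : Eis) : ‖Sb B c a‖ ≤ B.card := by
  unfold Sb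
  refine (norm_sum_le _ _).trans ?_
  calc ∑ b ∈ B, ‖c b * G b * (starRingEnd ℂ) (sy a b)‖ ≤ ∑ b ∈ B, (1 : ℝ) := by
        apply Finset.sum_le_sum
        intro b hb
        rw [norm_mul, norm_mul, RCLike.norm_conj]
        have h1 := hc b
        have h2 := Gauss880.norm_G_le Gauss880.syG (hB b hb)
        have h3 := norm_sy_le (x := a) (hB b hb)
        exact mul_le_one₀ (mul_le_one₀ h1 (norm_nonneg _) h2) (norm_nonneg _) h3
    _ = _ := by simp

open Classical in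
lemma summable_S1 {t : ℝ} (ht : 0 < t) {B : Finset Eis} (hB : ∀ b ∈ B, IsPrim b) {c : Eis → ℂ}
    (hc : ∀ b, ‖c b‖ ≤ 1) :
    Summable fun a : Eis =>
      if IsPrim a then Real.exp (-(Real.pi * t * nm a)) * ‖Sb B c a‖ ^ 2 else 0 := by
  have h := (summable_exp (c := Real.pi * t) (by positivity)).mul_left ((B.card : ℝ) ^ 2)
  refine Summable.of_nonneg_of_le ?_ ?_ h
  · intro a; split_ifs
    · positivity
    · exact le_rfl
  · intro a
    have h1 := norm_Sb_le hB hc a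
    have h2 : ‖Sb B c a‖ ^ 2 ≤ (B.card : ℝ) ^ 2 := pow_le_pow_left₀ (norm_nonneg _) h1 2
    split_ifs
    · rw [mul_comm]
      exact mul_le_mul_of_nonneg_right h2 (Real.exp_pos _).le
    · positivity

/-- Cauchy-Schwarz: a bilinear form in `G (a b)` is bounded by the dispersion sum. -/
theorem bilinear_sq_le {A : ℝ} (hA : 0 < A) {S B : Finset Eis} (hS : ∀ a ∈ S, IsPrim a)
    (hSA : ∀ a ∈ S, (nm a : ℝ) ≤ A) (hB : ∀ b ∈ B, IsPrim b) {α c : Eis → ℂ}
    (hα : ∀ a ∈ S, ‖α a‖ ≤ 1) (hc : ∀ b, ‖c b‖ ≤ 1) :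
    ‖∑ a ∈ S, ∑ b ∈ B, α a * c b * G (a * b)‖ ^ 2 ≤
      S.card * (Real.exp 1 * S1 (1 / (Real.pi * A)) B c) := by
  classical
  have hpi := Real.pi_pos
  have ht : 0 < 1 / (Real.pi * A) := by positivity
  have e : ∑ a ∈ S, ∑ b ∈ B, α a * c b * G (a * b) = ∑ a ∈ S, (α a * G a) * Sb B c a := by
    apply Finset.sum_congr rfl
    intro a ha
    unfold Sb
    rw [Finset.mul_sum]
    apply Finset.sum_congr rfl
    intro b hb
    rw [Gauss880.G_mul_all Gauss880.syG (hS a ha) (hB b hb)]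
    ring
  rw [e]
  have h1 : ‖∑ a ∈ S, (α a * G a) * Sb B c a‖ ≤ ∑ a ∈ S, 1 * ‖Sb B c a‖ := by
    refine (norm_sum_le _ _).trans (Finset.sum_le_sum fun a ha => ?_)
    rw [norm_mul, norm_mul]
    apply mul_le_mul_of_nonneg_right _ (norm_nonneg _)
    exact mul_le_one₀ (hα a ha) (norm_nonneg _) (Gauss880.norm_G_le Gauss880.syG (hS a ha))
  have h2 : (∑ a ∈ S, 1 * ‖Sb B c a‖) ^ 2 ≤ (∑ a ∈ S, (1 : ℝ) ^ 2) * ∑ a ∈ S, ‖Sb B c a‖ ^ 2 :=
    Finset.sum_mul_sq_le_sq_mul_sq _ _ _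
  have h3 : ∑ a ∈ S, ‖Sb B c a‖ ^ 2 ≤ Real.exp 1 * S1 (1 / (Real.pi * A)) B c := by
    have h4 : ∑ a ∈ S, ‖Sb B c a‖ ^ 2 ≤ Real.exp 1 * ∑ a ∈ S,
        (if IsPrim a then Real.exp (-(Real.pi * (1 / (Real.pi * A)) * nm a)) * ‖Sb B c a‖ ^ 2
          else 0) := by
      rw [Finset.mul_sum]
      apply Finset.sum_le_sum
      intro a ha
      rw [if_pos (hS a ha), ← mul_assoc, ← Real.exp_add]
      have h5 : 0 ≤ 1 + -(Real.pi * (1 / (Real.pi * A)) * nm a) := by
        have : Real.pi * (1 / (Real.pi * A)) * nm a = nm a / A := by field_simp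
        rw [this]
        have := (div_le_one hA).mpr (hSA a ha)
        linarith
      have h6 := Real.one_le_exp h5
      have h7 : 0 ≤ ‖Sb B c a‖ ^ 2 := by positivity
      nlinarith
    refine h4.trans ?_
    apply mul_le_mul_of_nonneg_left _ (Real.exp_pos _).le
    unfold S1
    apply (summable_S1 ht hB hc).sum_le_tsum
    intro a _
    split_ifs
    · positivity
    · exact le_rfl
  calc ‖∑ a ∈ S, (α a * G a) * Sb B c a‖ ^ 2 ≤ (∑ a ∈ S, 1 * ‖Sb B c a‖) ^ 2 :=
        pow_le_pow_left₀ (norm_nonneg _) h1 2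
    _ ≤ _ := h2
    _ = S.card * ∑ a ∈ S, ‖Sb B c a‖ ^ 2 := by simp
    _ ≤ _ := mul_le_mul_of_nonneg_left h3 (Nat.cast_nonneg _)

end

end Crest.Agent.R012.Edge79
end
end

-- ▼ part R012/SWsy_355
section

/-!
# Row 12, part (P), final statement: Siegel–Walfisz for `(h/·) (·/|·|)^l N(·)^{it}` (helper355)
-/

set_option autoImplicit false

noncomputable section

open Complex

namespace Crest.Agent.R012.P355

open Crest.Agent.R012 Eis

open Classical in
/-- **Siegel–Walfisz for `(h/·) ang^l N^{it}`** : `h ≠ 0`, and `h` not a cube or `l ≠ 0`. -/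
theorem SW_sy (l : ℤ) (A C : ℕ) : ∃ K : ℝ, 0 < K ∧ ∀ (h : Eis),
    h ≠ 0 → (l = 0 → ¬ ∃ e, h = e ^ 3) →
    ∀ x t : ℝ, 2 ≤ x → ((nm h : ℕ) : ℝ) ≤ Real.log x ^ C → |t| ≤ Real.log x ^ C →
      ‖∑ p ∈ (primBall ⌊x⌋₊).filter (fun p => Prime p),
        sy h p * ang l p * (nm p : ℂ) ^ ((t : ℂ) * I)‖ ≤ K * x / Real.log x ^ A :=
  SW_sy_of_PT PT255.PT l A C


end Crest.Agent.R012.P355
end
end

-- ▼ part R012/EdgeG_79
section

/-!
# Row 12 (TIII): Siegel–Walfisz on dyadic boxes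
-/

set_option autoImplicit false

noncomputable section

namespace Crest.Agent.R012.Edge79

open Eis CharSum852 Tau671

open Classical in
/-- the primary primes `p` with `m < nm p ≤ min N (2m)` -/
def PB (N m : ℕ) : Finset Eis := (primBall (min N (2 * m))).filter (fun p => Prime p ∧ m < nm p)

lemma mem_PB {N m : ℕ} {p : Eis} :
    p ∈ PB N m ↔ IsPrim p ∧ Prime p ∧ m < nm p ∧ nm p ≤ N ∧ nm p ≤ 2 * m := by
  simp only [PB, Finset.mem_filter, mem_primBall, le_min_iff]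
  tauto

lemma box_PB {N m : ℕ} (hm : 1 ≤ m) : Box (m : ℝ) (PB N m) where
  one_le := by exact_mod_cast hm
  prim b hb := (mem_PB.mp hb).1
  prime b hb := (mem_PB.mp hb).2.1
  lt b hb := by exact_mod_cast (mem_PB.mp hb).2.2.1
  le b hb := by exact_mod_cast (mem_PB.mp hb).2.2.2.2

/-- the coefficients of the primes -/
def cf (l : ℤ) (t : ℝ) (b : Eis) : ℂ := ang l b * Weight600.pw t (nm b)

lemma norm_cf_le (l : ℤ) (t : ℝ) (b : Eis) : ‖cf l t b‖ ≤ 1 := by
  unfold cf
  rw [norm_mul, Weight600.norm_pw, mul_one]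
  exact P355.norm_ang_le l b

lemma card_PB_le {N m : ℕ} (hm : 2 ≤ m) : ((PB N m).card : ℝ) ≤ 100 * (m / Real.log m) := by
  have hm' : (2 : ℝ) ≤ m := by exact_mod_cast hm
  have hB := box_PB (N := N) (m := m) (by omega)
  have h := Cheb420.card_le (X := 2 * (m : ℝ)) (by linarith) (PB N m)
    (fun z hz => ⟨hB.prim z hz, hB.prime z hz⟩) hB.le
  refine h.trans ?_
  have h1 : 0 < Real.log m := Real.log_pos (by linarith)
  have h2 : Real.log m ≤ Real.log (2 * m) := Real.log_le_log (by linarith) (by linarith)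
  have h3 : 2 * (m : ℝ) / Real.log (2 * m) ≤ 2 * (m : ℝ) / Real.log m := by gcongr
  calc 50 * (2 * (m : ℝ) / Real.log (2 * m)) ≤ 50 * (2 * (m : ℝ) / Real.log m) := by gcongr
    _ = _ := by ring

open Classical in
/-- Siegel–Walfisz on a box. -/
theorem SW_box (l : ℤ) (A C : ℕ) : ∃ K : ℝ, 0 < K ∧ ∀ (N m : ℕ) (h : Eis)
    (t : ℝ), 2 ≤ m → h ≠ 0 → (¬ ∃ e, h = e ^ 3) → ((nm h : ℕ) : ℝ) ≤ Real.log m ^ C →
    |t| ≤ Real.log m ^ C → ∀ y : ℕ,
      ‖∑ b ∈ (PB N m).filter (fun b => nm b ≤ y), cf l t b * sy h b‖ ≤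
        K * (m / Real.log m ^ A) := by
  obtain ⟨K, hK, hsw⟩ := P355.SW_sy l A C
  refine ⟨3 * K, by positivity, ?_⟩
  intro N m h t hm hh hnc hnh ht y
  have hm' : (2 : ℝ) ≤ m := by exact_mod_cast hm
  have hlm : 0 < Real.log m := Real.log_pos (by linarith)
  set z : ℕ := min (min N (2 * m)) y with hz
  set g : Eis → ℂ := fun p => sy h p * ang l p * (nm p : ℂ) ^ ((t : ℂ) * Complex.I) with hg
  rcases le_or_gt z m with hzm | hzm
  · have : (PB N m).filter (fun b => nm b ≤ y) = ∅ := by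
      rw [Finset.eq_empty_iff_forall_notMem]
      intro b hb
      rw [Finset.mem_filter, mem_PB] at hb
      have : nm b ≤ z := by
        rw [hz]; simp only [le_min_iff]; tauto
      omega
    rw [this]; simp only [Finset.sum_empty, norm_zero]
    positivity
  · have e : ∑ b ∈ (PB N m).filter (fun b => nm b ≤ y), cf l t b * sy h b =
        ∑ p ∈ (primBall z).filter (fun p => Prime p), g p -
        ∑ p ∈ (primBall m).filter (fun p => Prime p), g p := by
      have hsub : (primBall m).filter (fun p => Prime p) ⊆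
          (primBall z).filter (fun p => Prime p) := by
        intro p hp
        simp only [Finset.mem_filter, mem_primBall] at hp ⊢
        exact ⟨⟨by omega, hp.1.2⟩, hp.2⟩
      rw [← Finset.sum_sdiff hsub, add_sub_cancel_right]
      apply Finset.sum_congr_of_eq_on_inter
      · intro b hb hnb
        exfalso
        apply hnb
        rw [Finset.mem_filter, mem_PB] at hb
        simp only [Finset.mem_sdiff, Finset.mem_filter, mem_primBall]
        refine ⟨⟨⟨?_, hb.1.1⟩, hb.1.2.1⟩, ?_⟩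
        · rw [hz]; simp only [le_min_iff]; tauto
        · intro hc; omega
      · intro b hb hnb
        exfalso
        apply hnb
        simp only [Finset.mem_sdiff, Finset.mem_filter, mem_primBall] at hb
        rw [Finset.mem_filter, mem_PB]
        have h1 : nm b ≤ z := hb.1.1.1
        rw [hz] at h1
        simp only [le_min_iff] at h1
        refine ⟨⟨hb.1.1.2, hb.1.2, ?_, h1.1.1, h1.1.2⟩, h1.2⟩
        by_contra hc
        exact hb.2 ⟨⟨by omega, hb.1.1.2⟩, hb.1.2⟩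
      · intro b hb _
        rw [Finset.mem_filter] at hb
        have hb0 : (0 : ℝ) < nm b := by
          exact_mod_cast nm_pos.mpr ((mem_PB.mp hb.1).1.ne_zero)
        simp only [hg, cf]
        rw [Weight600.pw_eq_cpow hb0]
        push_cast
        ring
    rw [e]
    have hpoint : ∀ x : ℕ, m ≤ x → x ≤ 2 * m →
        ‖∑ p ∈ (primBall x).filter (fun p => Prime p), g p‖ ≤ K * x / Real.log m ^ A := by
      intro x hx1 hx2
      have hx1' : (m : ℝ) ≤ x := by exact_mod_cast hx1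
      have hll : Real.log m ≤ Real.log x := Real.log_le_log (by linarith) hx1'
      have hpow : Real.log m ^ C ≤ Real.log x ^ C := pow_le_pow_left₀ hlm.le hll C
      have h1 := hsw h hh (fun _ => hnc) x t (by linarith) (hnh.trans hpow) (ht.trans hpow)
      rw [Nat.floor_natCast] at h1
      refine h1.trans ?_
      have hpow' : Real.log m ^ A ≤ Real.log x ^ A := pow_le_pow_left₀ hlm.le hll A
      have : 0 < Real.log m ^ A := by positivity
      gcongr
    have hz2 : z ≤ 2 * m := by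
      rw [hz]; exact (min_le_left _ _).trans (min_le_right _ _)
    have b1 := hpoint z hzm.le hz2
    have b2 := hpoint m le_rfl (by omega)
    have hz2' : (z : ℝ) ≤ 2 * m := by exact_mod_cast hz2
    refine (norm_sub_le _ _).trans ?_
    have hpos : 0 < Real.log m ^ A := by positivity
    calc _ ≤ K * z / Real.log m ^ A + K * m / Real.log m ^ A := add_le_add b1 b2
      _ ≤ K * (2 * m) / Real.log m ^ A + K * m / Real.log m ^ A := by gcongr
      _ = _ := by ring

end Crest.Agent.R012.Edge79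
end
end

-- ▼ part R012/EdgeH_79
section

/-!
# Row 12 (TIII): numerical form of the dispersion bound on a box
-/

set_option autoImplicit false

noncomputable section

namespace Crest.Agent.R012.Edge79

open Eis CharSum852 Tau671

lemma exists_log_pow_le (k : ℕ) (c : ℝ) : ∃ X0 : ℕ, ∀ X : ℕ, X0 ≤ X → c * Real.log X ^ k ≤ X := by
  have h := Real.isLittleO_pow_log_id_atTop (n := k)
  have h1 : (0 : ℝ) < 1 / (|c| + 1) := by positivity
  have h2 := (h.def h1)
  have h3 := (tendsto_natCast_atTop_atTop (R := ℝ)).eventually h2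
  obtain ⟨X0, hX0⟩ := Filter.eventually_atTop.mp h3
  refine ⟨max X0 1, fun X hX => ?_⟩
  have h4 := hX0 X ((le_max_left _ _).trans hX)
  have hX1 : (1 : ℝ) ≤ X := by exact_mod_cast (le_max_right _ _).trans hX
  have hlog : 0 ≤ Real.log X := Real.log_nonneg hX1
  simp only [id, Real.norm_eq_abs] at h4
  rw [abs_of_nonneg (show 0 ≤ Real.log X ^ k by positivity),
    abs_of_nonneg (show (0 : ℝ) ≤ X by linarith)] at h4
  have h5 : c * Real.log X ^ k ≤ (|c| + 1) * Real.log X ^ k := by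
    apply mul_le_mul_of_nonneg_right _ (by positivity)
    linarith [le_abs_self c]
  refine h5.trans ?_
  have h6 : (|c| + 1) * Real.log X ^ k ≤ (|c| + 1) * (1 / (|c| + 1) * X) := by
    apply mul_le_mul_of_nonneg_left h4 (by positivity)
  refine h6.trans (le_of_eq ?_)
  field_simp

lemma exists_le_log (c : ℝ) : ∃ X0 : ℕ, ∀ X : ℕ, X0 ≤ X → c ≤ Real.log X := by
  have h := (Real.tendsto_log_atTop.comp (tendsto_natCast_atTop_atTop (R := ℝ))).eventually
    (Filter.eventually_ge_atTop c)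
  obtain ⟨X0, hX0⟩ := Filter.eventually_atTop.mp h
  exact ⟨X0, fun X hX => hX0 X hX⟩

/-- numerics for the dual sum -/
lemma num_dual {X L A m n M κ u P K2 : ℝ} {Y0 : ℕ} (hL : 1 ≤ L) (hA : 0 < A)
    (hm : 0 < m) (hX : 0 < X) (hu : 0 < u) (hu3 : u ^ 3 = X) (hP : 1 ≤ P)
    (hm3 : m ^ 3 ≤ X * P) (hn0 : 0 ≤ n) (hn : n ≤ 400 * (m / L))
    (hκ : X / (48 * m ^ 3) ≤ κ) (hY1 : (2 * L) / κ ≤ Y0) (hY2 : (Y0 : ℝ) ≤ 2 * L / κ + 1)
    (hK2 : 0 ≤ K2) (hM0 : 0 ≤ M) (hM : P * M ≤ K2 * (m / L)) (hPm : P ≤ m / L)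
    (hexp : Real.exp (-L) ≤ 1 / X) (hPX : P ≤ X) :
    dualBd m n κ M Y0 ≤ (4e6 * (2 * K2 + 1) + 1.6e9) * (m / L) + 2.6e8 * (m ^ 2 / (u * L ^ 2)) := by
  have hm3' : 0 < m ^ 3 := by positivity
  have hκ0 : 0 < κ := lt_of_lt_of_le (by positivity) hκ
  have hκinv : 1 / κ ≤ 48 * P := by
    rw [div_le_iff₀ hκ0]
    have h1 : 48 * P * (X / (48 * m ^ 3)) ≤ 48 * P * κ := by gcongr
    refine le_trans ?_ h1
    have : 48 * P * (X / (48 * m ^ 3)) = X * P / m ^ 3 := by field_simp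
    rw [this, le_div_iff₀ hm3', one_mul]
    exact hm3
  have hn2 : n ^ 2 / m ≤ 160000 * (m / L ^ 2) := by
    have : n ^ 2 ≤ (400 * (m / L)) ^ 2 := pow_le_pow_left₀ hn0 hn 2
    calc n ^ 2 / m ≤ (400 * (m / L)) ^ 2 / m := by gcongr
      _ = _ := by field_simp; ring
  have hn2' : 0 ≤ n ^ 2 / m := by positivity
  -- cubes
  have hc : n ^ 2 / m * (400 / κ ^ ((1 : ℝ) / 3)) ≤ 2.6e8 * (m ^ 2 / (u * L ^ 2)) := by
    have h1 : u / (4 * m) ≤ κ ^ ((1 : ℝ) / 3) := by
      have h2 : (u / (4 * m)) ^ 3 ≤ κ := by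
        refine le_trans ?_ hκ
        rw [div_pow, hu3, mul_pow]
        apply div_le_div_of_nonneg_left hX.le (by positivity)
        nlinarith
      have h3 : ((u / (4 * m)) ^ 3) ^ ((1 : ℝ) / 3) ≤ κ ^ ((1 : ℝ) / 3) :=
        Real.rpow_le_rpow (by positivity) h2 (by norm_num)
      rwa [← Real.rpow_natCast, ← Real.rpow_mul (by positivity),
        show ((3 : ℕ) : ℝ) * (1 / 3) = 1 by norm_num, Real.rpow_one] at h3
    have h4 : 400 / κ ^ ((1 : ℝ) / 3) ≤ 400 / (u / (4 * m)) := by gcongr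
    calc n ^ 2 / m * (400 / κ ^ ((1 : ℝ) / 3)) ≤ (160000 * (m / L ^ 2)) * (400 / (u / (4 * m))) := by
          apply mul_le_mul hn2 h4 (by positivity) (by positivity)
      _ = 2.56e8 * (m ^ 2 / (u * L ^ 2)) := by field_simp; norm_num
      _ ≤ _ := by gcongr; norm_num
  -- noncubes
  have hY : (Y0 : ℝ) ≤ 97 * (L * P) := by
    have h1 : 2 * L / κ ≤ 2 * L * (48 * P) := by
      rw [div_eq_mul_one_div]; gcongr
    have h2 : 1 ≤ L * P := by nlinarith
    linarith
  have hnc : 100 * Y0 * (n * ((2 * M + 1) / m)) ≤ 4e6 * (2 * K2 + 1) * (m / L) := by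
    have h1 : n * ((2 * M + 1) / m) ≤ 400 * (m / L) * ((2 * M + 1) / m) := by gcongr
    have h2 : 400 * (m / L) * ((2 * M + 1) / m) = 400 / L * (2 * M + 1) := by field_simp
    rw [h2] at h1
    calc 100 * Y0 * (n * ((2 * M + 1) / m)) ≤ 100 * (97 * (L * P)) * (400 / L * (2 * M + 1)) := by
          apply mul_le_mul _ h1 (by positivity) (by positivity)
          gcongr
      _ = 3.88e6 * (2 * (P * M) + P) := by field_simp; ring
      _ ≤ 3.88e6 * (2 * (K2 * (m / L)) + m / L) := by gcongr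
      _ = 3.88e6 * ((2 * K2 + 1) * (m / L)) := by ring
      _ ≤ 4e6 * ((2 * K2 + 1) * (m / L)) := by
          apply mul_le_mul_of_nonneg_right (by norm_num) (by positivity)
      _ = _ := by ring
  -- tail
  have ht : n ^ 2 / m * (Real.exp (-(κ * Y0 / 2)) * (200 / κ)) ≤ 1.6e9 * (m / L) := by
    have h1 : Real.exp (-(κ * Y0 / 2)) ≤ 1 / X := by
      refine le_trans (Real.exp_le_exp.mpr ?_) hexp
      rw [div_le_iff₀ hκ0] at hY1
      linarith
    have h2 : 200 / κ ≤ 200 * (48 * P) := by rw [div_eq_mul_one_div]; gcongr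
    calc n ^ 2 / m * (Real.exp (-(κ * Y0 / 2)) * (200 / κ))
        ≤ (160000 * (m / L ^ 2)) * (1 / X * (200 * (48 * P))) := by
          apply mul_le_mul hn2 _ (by positivity) (by positivity)
          apply mul_le_mul h1 h2 (by positivity) (by positivity)
      _ = 1.536e9 * (m / L ^ 2) * (P / X) := by field_simp; norm_num
      _ ≤ 1.536e9 * (m / L ^ 2) * 1 := by
          gcongr
          exact (div_le_one hX).mpr hPX
      _ ≤ 1.536e9 * (m / L) * 1 := by
          gcongr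
          nlinarith
      _ ≤ 1.6e9 * (m / L) := by
          rw [mul_one]
          apply mul_le_mul_of_nonneg_right (by norm_num) (by positivity)
  unfold dualBd
  linarith

/-- **The dispersion sum on a box.** -/
theorem S1_box (l : ℤ) (C1 K1 : ℕ) : ∃ K : ℝ, 0 < K ∧ ∃ X0 : ℕ,
    ∀ X : ℕ, X0 ≤ X → ∀ (N m : ℕ) (A t : ℝ), (X : ℝ) ≤ 16 * (m : ℝ) ^ 3 →
    (m : ℝ) ^ 3 ≤ X * Real.log X ^ C1 → (X : ℝ) ≤ 16 * (A * m) → |t| ≤ Real.log X ^ K1 →
    S1 (1 / (Real.pi * A)) (PB N m) (cf l t) ≤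
      K * (A * m / Real.log X + A * m ^ 2 / ((X : ℝ) ^ ((1 : ℝ) / 3) * Real.log X ^ 2)) := by
  obtain ⟨Ks, hKs, hsw⟩ := SW_box l (C1 + 1) (C1 + K1 + 2)
  set K2 : ℝ := Ks * 4 ^ (C1 + 1) with hK2
  have hK2p : 0 < K2 := by positivity
  obtain ⟨X1, hX1⟩ := exists_le_log (97 * 4 ^ (C1 + K1 + 2))
  obtain ⟨X2, hX2⟩ := exists_log_pow_le (3 * (C1 + 1)) 16
  obtain ⟨X3, hX3⟩ := exists_log_pow_le C1 4096
  refine ⟨40400 + 2.6e8 + (4e6 * (2 * K2 + 1) + 1.6e9), by positivity, max (max X1 X2) (max X3 2),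
    ?_⟩
  intro X hX N m A t hm1 hm2 hA ht
  have hX2' : (2 : ℝ) ≤ X := by
    exact_mod_cast (le_max_right X3 2).trans ((le_max_right _ _).trans hX)
  have hXp : (0 : ℝ) < X := by linarith
  set L := Real.log X with hL
  have c1 : 97 * 4 ^ (C1 + K1 + 2) ≤ L :=
    hX1 X ((le_max_left _ _).trans ((le_max_left _ _).trans hX))
  have c2 : 16 * L ^ (3 * (C1 + 1)) ≤ X :=
    hX2 X ((le_max_right _ _).trans ((le_max_left _ _).trans hX))
  have c3 : 4096 * L ^ C1 ≤ X :=
    hX3 X ((le_max_left _ _).trans ((le_max_right _ _).trans hX))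
  have hpow4 : (1 : ℝ) ≤ 4 ^ (C1 + K1 + 2) := one_le_pow₀ (by norm_num)
  have hL97 : 97 ≤ L := by linarith
  have hL1 : 1 ≤ L := by linarith
  have hL0 : 0 < L := by linarith
  set P := L ^ C1 with hP
  have hP1 : 1 ≤ P := one_le_pow₀ hL1
  set u := (X : ℝ) ^ ((1 : ℝ) / 3) with hu
  have hu0 : 0 < u := by positivity
  have hu3 : u ^ 3 = X := by
    rw [hu, ← Real.rpow_natCast, ← Real.rpow_mul hXp.le]; norm_num
  -- `m` is large
  have hPLm : P * L ≤ m := by
    have h1 : 16 * (P * L) ^ 3 ≤ 16 * (m : ℝ) ^ 3 := by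
      refine le_trans (le_of_eq ?_) (c2.trans hm1)
      rw [hP, ← pow_succ, ← pow_mul, mul_comm 3 (C1 + 1)]
    have h2 : (P * L) ^ 3 ≤ (m : ℝ) ^ 3 := by linarith
    exact le_of_pow_le_pow_left₀ (by norm_num) (Nat.cast_nonneg _) h2
  have hm97 : (97 : ℝ) ≤ m := by nlinarith
  have hm0 : (0 : ℝ) < m := by linarith
  have hmn : 2 ≤ m := by
    have : (2 : ℝ) ≤ m := by linarith
    exact_mod_cast this
  have hlogm : L / 4 ≤ Real.log m := by
    have h1 : Real.log X ≤ Real.log (16 * (m : ℝ) ^ 3) := Real.log_le_log hXp hm1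
    rw [Real.log_mul (by norm_num) (by positivity), Real.log_pow] at h1
    have h2 : Real.log 16 ≤ 4 := by
      have : (16 : ℝ) = 2 ^ 4 := by norm_num
      rw [this, Real.log_pow]
      have := Real.log_two_lt_d9
      push_cast; linarith
    push_cast at h1
    rw [← hL] at h1
    linarith
  have hlogm0 : 0 < Real.log m := by linarith
  -- `A ≥ 1`
  have hA0 : 0 < A := by
    by_contra hc
    push Not at hc
    have : A * m ≤ 0 := mul_nonpos_of_nonpos_of_nonneg hc hm0.le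
    linarith
  have hmX : (m : ℝ) ≤ X / 16 := by
    have h1 : (m : ℝ) ^ 3 ≤ (X / 16) ^ 3 := by
      have h2 : (X : ℝ) * P ≤ (X / 16) ^ 3 := by
        have : P ≤ X ^ 2 / 4096 := by
          have h5 : P ≤ X / 4096 := by linarith
          have h6 : (X : ℝ) / 4096 ≤ X ^ 2 / 4096 := by
            gcongr; nlinarith
          linarith
        calc (X : ℝ) * P ≤ X * (X ^ 2 / 4096) := by gcongr
          _ = _ := by ring
      exact hm2.trans h2
    exact le_of_pow_le_pow_left₀ (by norm_num) (by positivity) h1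
  have hA1 : 1 ≤ A := by
    by_contra hc
    push Not at hc
    have : A * m < 1 * m := by gcongr
    linarith
  -- the parameters
  have hpi := Real.pi_pos
  have hpi3 := Real.pi_gt_three
  set t' := 1 / (Real.pi * A) with ht'
  have ht'0 : 0 < t' := by positivity
  set κ := kap t' m with hκ
  have hκe : κ = Real.pi ^ 2 * A / (27 * (m : ℝ) ^ 2) := by
    rw [hκ, ht']; unfold kap; field_simp
  have hκ1 : (X : ℝ) / (48 * (m : ℝ) ^ 3) ≤ κ := by
    rw [hκe, div_le_div_iff₀ (by positivity) (by positivity)]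
    have h1 : (X : ℝ) * (27 * (m : ℝ) ^ 2) ≤ 16 * (A * m) * (27 * (m : ℝ) ^ 2) := by gcongr
    refine h1.trans ?_
    have h2 : (9 : ℝ) ≤ Real.pi ^ 2 := by nlinarith
    have h3 : 0 ≤ A * (m : ℝ) ^ 3 := by positivity
    nlinarith
  have hκ0 : 0 < κ := lt_of_lt_of_le (by positivity) hκ1
  set Y0 : ℕ := ⌈2 * L / κ⌉₊ with hY0
  have hY1 : 2 * L / κ ≤ Y0 := Nat.le_ceil _
  have hY2 : (Y0 : ℝ) ≤ 2 * L / κ + 1 := (Nat.ceil_lt_add_one (by positivity)).le
  have hY3 : (Y0 : ℝ) ≤ 97 * (L * P) := by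
    have hκinv : 1 / κ ≤ 48 * P := by
      rw [div_le_iff₀ hκ0]
      have h1 : 48 * P * (X / (48 * (m : ℝ) ^ 3)) ≤ 48 * P * κ := by gcongr
      refine le_trans ?_ h1
      have : 48 * P * (X / (48 * (m : ℝ) ^ 3)) = X * P / (m : ℝ) ^ 3 := by field_simp
      rw [this, le_div_iff₀ (by positivity), one_mul]
      exact hm2
    have h1 : 2 * L / κ ≤ 2 * L * (48 * P) := by
      rw [div_eq_mul_one_div]; gcongr
    have h2 : 1 ≤ L * P := by nlinarith
    linarith
  set M : ℝ := Ks * (m / Real.log m ^ (C1 + 1)) with hM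
  have hM0 : 0 ≤ M := by positivity
  have hPM : P * M ≤ K2 * (m / L) := by
    have h1 : (L / 4) ^ (C1 + 1) ≤ Real.log m ^ (C1 + 1) :=
      pow_le_pow_left₀ (by positivity) hlogm _
    have h2 : M ≤ Ks * (m / (L / 4) ^ (C1 + 1)) := by rw [hM]; gcongr
    calc P * M ≤ P * (Ks * (m / (L / 4) ^ (C1 + 1))) := by gcongr
      _ = K2 * (m / L) := by
          rw [hK2, hP, div_pow, pow_succ L C1]
          field_simp
  have hn := card_PB_le (N := N) hmn
  have hn' : ((PB N m).card : ℝ) ≤ 400 * (m / L) := by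
    refine hn.trans ?_
    calc 100 * ((m : ℝ) / Real.log m) ≤ 100 * (m / (L / 4)) := by gcongr
      _ = _ := by field_simp; norm_num
  have hexp : Real.exp (-L) ≤ 1 / X := by
    rw [Real.exp_neg, hL, Real.exp_log hXp, one_div]
  have hPX : P ≤ X := by linarith [hP1]
  have hPm : P ≤ m / L := by rw [le_div_iff₀ hL0]; exact hPLm
  -- Siegel–Walfisz
  have hCpow : 97 * (L * P) ≤ Real.log m ^ (C1 + K1 + 2) := by
    have h1 : (L / 4) ^ (C1 + K1 + 2) ≤ Real.log m ^ (C1 + K1 + 2) :=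
      pow_le_pow_left₀ (by positivity) hlogm _
    refine le_trans ?_ h1
    rw [div_pow, le_div_iff₀ (by positivity)]
    have h2 : L ^ (C1 + K1 + 2) = L * P * (L ^ K1 * L) := by rw [hP]; ring
    rw [h2]
    have h3 : (1 : ℝ) ≤ L ^ K1 := one_le_pow₀ hL1
    have h4 : L ≤ L ^ K1 * L := by nlinarith
    have h5 : 0 < L * P := by positivity
    calc 97 * (L * P) * 4 ^ (C1 + K1 + 2) = L * P * (97 * 4 ^ (C1 + K1 + 2)) := by ring
      _ ≤ L * P * L := by gcongr
      _ ≤ _ := by gcongr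
  have htpow : |t| ≤ Real.log m ^ (C1 + K1 + 2) := by
    have h1 : (L / 4) ^ (C1 + K1 + 2) ≤ Real.log m ^ (C1 + K1 + 2) :=
      pow_le_pow_left₀ (by positivity) hlogm _
    refine ht.trans (le_trans ?_ h1)
    rw [div_pow, le_div_iff₀ (by positivity)]
    have h2 : L ^ (C1 + K1 + 2) = L ^ K1 * (L * P * L) := by rw [hP]; ring
    rw [h2]
    have h5 : 1 ≤ L * P := by nlinarith
    have h6 : L ≤ L * P * L := by nlinarith
    gcongr
    linarith
  have hS1 := S1_le ht'0 (box_PB (N := N) (m := m) (by omega)) (norm_cf_le l t) hM0 (Y0 := Y0)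
    (by
      intro h hh0 hnc hnh y
      apply hsw N m h t hmn hh0 hnc _ htpow y
      refine le_trans ?_ (hY3.trans hCpow)
      exact_mod_cast hnh)
  have hd := num_dual (X := X) (L := L) (A := A) (m := m) (n := ((PB N m).card : ℝ)) (M := M)
    (κ := κ) (u := u) (P := P) (K2 := K2) (Y0 := Y0) hL1 hA0 hm0 hXp hu0 hu3 hP1 hm2
    (Nat.cast_nonneg _) hn' hκ1 hY1 hY2 hK2p.le hM0 hPM hPm hexp hPX
  have hdiag : ((PB N m).card : ℝ) * (1 + 100 / (Real.pi * t')) ≤ 40400 * (A * m / L) := by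
    have h1 : 100 / (Real.pi * t') = 100 * A := by rw [ht']; field_simp
    rw [h1]
    calc ((PB N m).card : ℝ) * (1 + 100 * A) ≤ 400 * (m / L) * (101 * A) := by
          gcongr
          linarith
      _ = _ := by ring
  have hcoef : 2 / (9 * Real.sqrt 3 * t') ≤ A := by
    have h3 : (1.7 : ℝ) ≤ Real.sqrt 3 := Real.le_sqrt_of_sq_le (by norm_num)
    have h4 : 2 / (9 * Real.sqrt 3 * t') = 2 * Real.pi / (9 * Real.sqrt 3) * A := by
      rw [ht']; field_simp
    rw [h4]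
    have h5 : 2 * Real.pi / (9 * Real.sqrt 3) ≤ 1 := by
      rw [div_le_one (by positivity)]
      have := Real.pi_lt_four
      linarith
    calc _ ≤ 1 * A := by gcongr
      _ = A := one_mul _
  have hd0 : 0 ≤ dualBd m ((PB N m).card : ℝ) κ M Y0 := by unfold dualBd; positivity
  set R1 : ℝ := A * m / L with hR1
  set R2 : ℝ := A * (m : ℝ) ^ 2 / (u * L ^ 2) with hR2
  have hR1p : 0 ≤ R1 := by positivity
  have hR2p : 0 ≤ R2 := by positivity
  calc S1 t' (PB N m) (cf l t) ≤ _ := hS1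
    _ ≤ 40400 * R1 + A * ((4e6 * (2 * K2 + 1) + 1.6e9) * (m / L) +
        2.6e8 * ((m : ℝ) ^ 2 / (u * L ^ 2))) := by
        apply add_le_add hdiag
        exact mul_le_mul hcoef hd hd0 hA0.le
    _ = 40400 * R1 + ((4e6 * (2 * K2 + 1) + 1.6e9) * R1 + 2.6e8 * R2) := by
        rw [hR1, hR2]; ring
    _ ≤ _ := by
        have : 0 ≤ (4e6 * (2 * K2 + 1) + 1.6e9) * R2 := by positivity
        nlinarith

end Crest.Agent.R012.Edge79
end
end

-- ▼ part R012/EdgeI_79

/-!
# Row 12 (TIII): the bilinear form on a box, for every fixed `t`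
-/

set_option autoImplicit false

noncomputable section

namespace Crest.Agent.R012.Edge79

open Eis CharSum852 Tau671

/-- **The bilinear form on a box for a fixed `t`.** -/
theorem Q_box (l : ℤ) (C1 K1 : ℕ) {Kc : ℝ} (hKc : 0 ≤ Kc) : ∃ K : ℝ, 0 < K ∧ ∃ X0 : ℕ,
    ∀ X : ℕ, X0 ≤ X → ∀ (N m : ℕ) (A t : ℝ) (S : Finset Eis) (α : Eis → ℂ),
    (X : ℝ) ≤ 16 * (m : ℝ) ^ 3 → (m : ℝ) ^ 3 ≤ X * Real.log X ^ C1 → (X : ℝ) ≤ 16 * (A * m) →
    A * m ≤ 16 * X → |t| ≤ Real.log X ^ K1 → (∀ a ∈ S, IsPrim a) →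
    (∀ a ∈ S, (nm a : ℝ) ≤ A) → (S.card : ℝ) ≤ Kc * (A / Real.log X ^ 2) →
    (∀ a ∈ S, ‖α a‖ ≤ 1) →
    ‖∑ a ∈ S, ∑ b ∈ PB N m, α a * cf l t b * G (a * b)‖ ≤
      K * ((X : ℝ) ^ ((5 : ℝ) / 6) / Real.log X ^ ((3 : ℝ) / 2)) := by
  obtain ⟨K, hK, X0, h0⟩ := S1_box l C1 K1
  obtain ⟨X1, hX1⟩ := exists_le_log 1
  set R : ℝ := Kc * (Real.exp 1 * (K * (256 * 4))) with hR
  have hR0 : 0 ≤ R := by positivity
  refine ⟨Real.sqrt R + 1, by positivity, max (max X0 X1) 2, ?_⟩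
  intro X hX N m A t S α hm1 hm2 hA hA2 ht hS hSA hcard hα
  have hX2' : (2 : ℝ) ≤ X := by exact_mod_cast (le_max_right _ _).trans hX
  have hXp : (0 : ℝ) < X := by linarith
  set L := Real.log X with hL
  have hL1 : 1 ≤ L := hX1 X ((le_max_right _ _).trans ((le_max_left _ _).trans hX))
  have hL0 : 0 < L := by linarith
  have hS1 := h0 X ((le_max_left _ _).trans ((le_max_left _ _).trans hX)) N m A t hm1 hm2 hA ht
  set u := (X : ℝ) ^ ((1 : ℝ) / 3) with hu
  have hu0 : 0 < u := by positivity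
  have hu3 : u ^ 3 = X := by
    rw [hu, ← Real.rpow_natCast, ← Real.rpow_mul hXp.le]; norm_num
  have hm0 : (0 : ℝ) < m := by
    rcases Nat.eq_zero_or_pos m with h | h
    · rw [h] at hm1
      have h16 : (16 : ℝ) * ((0 : ℕ) : ℝ) ^ 3 = 0 := by norm_num
      linarith
    · exact_mod_cast h
  have hA0 : 0 < A := by
    by_contra hc
    push Not at hc
    have : A * m ≤ 0 := mul_nonpos_of_nonpos_of_nonneg hc hm0.le
    linarith
  have hum : u ≤ 3 * m := by
    have : u ^ 3 ≤ (3 * (m : ℝ)) ^ 3 := by rw [hu3]; nlinarith [pow_pos hm0 3]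
    exact le_of_pow_le_pow_left₀ (by norm_num) (by positivity) this
  have hbil := bilinear_sq_le (A := A) hA0 (S := S) (B := PB N m) hS hSA
    (fun b hb => (mem_PB.mp hb).1) hα (norm_cf_le l t)
  have hS1n : 0 ≤ K * (A * m / L + A * (m : ℝ) ^ 2 / (u * L ^ 2)) := by positivity
  have hmain : ‖∑ a ∈ S, ∑ b ∈ PB N m, α a * cf l t b * G (a * b)‖ ^ 2 ≤
      R * (u ^ 5 / L ^ 3) := by
    refine hbil.trans ?_
    calc (S.card : ℝ) * (Real.exp 1 * S1 (1 / (Real.pi * A)) (PB N m) (cf l t))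
        ≤ (Kc * (A / L ^ 2)) * (Real.exp 1 * (K * (A * m / L + A * (m : ℝ) ^ 2 / (u * L ^ 2)))) := by
          apply mul_le_mul hcard _ _ (by positivity)
          · exact mul_le_mul_of_nonneg_left hS1 (Real.exp_pos _).le
          · apply mul_nonneg (Real.exp_pos _).le
            unfold S1
            apply tsum_nonneg
            intro a
            split_ifs
            · positivity
            · exact le_rfl
      _ = Kc * (Real.exp 1 * (K * ((A * m) ^ 2 * (1 / (m * L ^ 3) + 1 / (u * L ^ 4))))) := by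
          field_simp
      _ ≤ Kc * (Real.exp 1 * (K * ((16 * X) ^ 2 * (3 / (u * L ^ 3) + 1 / (u * L ^ 3))))) := by
          have e1 : 1 / ((m : ℝ) * L ^ 3) ≤ 3 / (u * L ^ 3) := by
            rw [div_le_div_iff₀ (by positivity) (by positivity)]
            have : 0 < L ^ 3 := by positivity
            nlinarith
          have e2 : 1 / (u * L ^ 4) ≤ 1 / (u * L ^ 3) := by
            apply one_div_le_one_div_of_le (by positivity)
            gcongr
            norm_num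
          have e3 : (A * m) ^ 2 ≤ (16 * (X : ℝ)) ^ 2 := pow_le_pow_left₀ (by positivity) hA2 2
          gcongr
      _ = R * (u ^ 5 / L ^ 3) := by
          rw [hR, ← hu3]; field_simp; ring
  have hfin : ((X : ℝ) ^ ((5 : ℝ) / 6) / L ^ ((3 : ℝ) / 2)) ^ 2 = u ^ 5 / L ^ 3 := by
    rw [div_pow, ← Real.rpow_natCast, ← Real.rpow_mul hXp.le, ← Real.rpow_natCast,
      ← Real.rpow_mul hL0.le, hu, ← Real.rpow_natCast, ← Real.rpow_mul hXp.le]
    norm_num
  have hpos : 0 ≤ (X : ℝ) ^ ((5 : ℝ) / 6) / L ^ ((3 : ℝ) / 2) := by positivity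
  apply le_of_sq_le_sq _ (by positivity)
  refine hmain.trans ?_
  rw [mul_pow, hfin]
  apply mul_le_mul_of_nonneg_right _ (by positivity)
  have := Real.sq_sqrt hR0
  nlinarith [Real.sqrt_nonneg R]

end Crest.Agent.R012.Edge79
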