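import Crest.Agent.R012.Div_277
import Crest.Agent.R012.Quot_666

/-!
# Row 12 (helper277): sums of periodic functions of mean zero over disks, Abel summation by norm,
power sums.
-/

set_option autoImplicit false

noncomputable section

namespace Crest.Agent.R012.Per277

open Crest.Agent.R012 Crest.Agent.R012.Eis Crest.Agent.R012.Lat277 Crest.Agent.R012.Div277
open Finset MeasureTheory

/-! ### Periodic functions of mean zero -/





/-! ### Abel summation by norm -/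




/-! ### Power sums -/

/-- `Σ_{m ≤ X} m^{-s} ≤ X^{1-s}/(1-s)` for `0 ≤ s < 1`. -/
lemma sum_rpow_neg_le {s : ℝ} (h0 : 0 ≤ s) (h1 : s < 1) (X : ℕ) :
    ∑ m ∈ Icc 1 X, (m : ℝ) ^ (-s) ≤ (X : ℝ) ^ (1 - s) / (1 - s) := by
  have h1s : 0 < 1 - s := by linarith
  induction X with
  | zero =>
    simp [Real.zero_rpow h1s.ne']
  | succ X ih =>
    rw [Finset.sum_Icc_succ_top (by omega)]
    have hstep : ((X + 1 : ℕ) : ℝ) ^ (-s) * (1 - s) ≤
        ((X + 1 : ℕ) : ℝ) ^ (1 - s) - (X : ℝ) ^ (1 - s) := by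
      -- X^{1-s} ≤ (X+1)^{1-s} (1 - 1/(X+1))^{1-s} ≤ (X+1)^{1-s}(1 - (1-s)/(X+1))
      have hX1 : (0 : ℝ) < ((X + 1 : ℕ) : ℝ) := by positivity
      have hb := rpow_one_add_le_one_add_mul_self (s := -1 / ((X + 1 : ℕ) : ℝ)) (p := 1 - s)
        (by rw [le_div_iff₀ hX1]; push_cast; nlinarith [Nat.cast_nonneg (α := ℝ) X]) h1s.le
        (by linarith)
      have e : (X : ℝ) = ((X + 1 : ℕ) : ℝ) * (1 + -1 / ((X + 1 : ℕ) : ℝ)) := by
        field_simp; push_cast; ring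
      have h2 : (0 : ℝ) ≤ 1 + -1 / ((X + 1 : ℕ) : ℝ) := by
        have : 1 / ((X + 1 : ℕ) : ℝ) ≤ 1 := by
          rw [div_le_one hX1]; push_cast; linarith [Nat.cast_nonneg (α := ℝ) X]
        have h' : -1 / ((X + 1 : ℕ) : ℝ) = - (1 / ((X + 1 : ℕ) : ℝ)) := by ring
        rw [h']; linarith
      have h3 : (X : ℝ) ^ (1 - s) = ((X + 1 : ℕ) : ℝ) ^ (1 - s) *
          (1 + -1 / ((X + 1 : ℕ) : ℝ)) ^ (1 - s) := by
        conv_lhs => rw [e]
        rw [Real.mul_rpow hX1.le h2]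
      have h4 : ((X + 1 : ℕ) : ℝ) ^ (-s) = ((X + 1 : ℕ) : ℝ) ^ (1 - s) / ((X + 1 : ℕ) : ℝ) := by
        rw [show -s = (1 - s) - 1 by ring, Real.rpow_sub_one hX1.ne']
      rw [h3, h4]
      have h5 : 0 ≤ ((X + 1 : ℕ) : ℝ) ^ (1 - s) := by positivity
      have h6 := mul_le_mul_of_nonneg_left hb h5
      have h7 : ((X + 1 : ℕ) : ℝ) ^ (1 - s) * (1 + (1 - s) * (-1 / ((X + 1 : ℕ) : ℝ))) =
          ((X + 1 : ℕ) : ℝ) ^ (1 - s) -
            ((X + 1 : ℕ) : ℝ) ^ (1 - s) / ((X + 1 : ℕ) : ℝ) * (1 - s) := by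
        field_simp
        ring
      linarith
    have : ((X + 1 : ℕ) : ℝ) ^ (-s) ≤
        (((X + 1 : ℕ) : ℝ) ^ (1 - s) - (X : ℝ) ^ (1 - s)) / (1 - s) := by
      rw [le_div_iff₀ h1s]; exact hstep
    calc ∑ m ∈ Icc 1 X, (m : ℝ) ^ (-s) + ((X + 1 : ℕ) : ℝ) ^ (-s)
        ≤ (X : ℝ) ^ (1 - s) / (1 - s) +
          (((X + 1 : ℕ) : ℝ) ^ (1 - s) - (X : ℝ) ^ (1 - s)) / (1 - s) := add_le_add ih this
      _ = _ := by ring

/-- `Σ_{0<N(x)≤X} N(x)^{-s} ≤ 100 X^{1-s}/(1-s)` for `0 ≤ s < 1`. -/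
theorem sum_nz_rpow_neg_le {s : ℝ} (h0 : 0 ≤ s) (h1 : s < 1) (X : ℕ) :
    ∑ x ∈ nz X, (nm x : ℝ) ^ (-s) ≤ 100 * ((X : ℝ) ^ (1 - s) / (1 - s)) := by
  refine (sum_antitone_le (fun m => (m : ℝ) ^ (-s)) ?_ (fun m => by positivity) X).trans
    (mul_le_mul_of_nonneg_left (sum_rpow_neg_le h0 h1 X) (by norm_num))
  intro m hm
  apply Real.rpow_le_rpow_of_nonpos
  · exact_mod_cast hm
  · push_cast; linarith
  · linarith

/-- finite sums of `m^{-s}`, `s > 1`. -/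
lemma sum_Icc_rpow_neg_le {s : ℝ} (h1 : 1 < s) {M : ℕ} (hM : 1 ≤ M) (Y : ℕ) :
    ∑ m ∈ Ioc M Y, (m : ℝ) ^ (-s) ≤ (M : ℝ) ^ (1 - s) / (s - 1) := by
  have hs1 : 0 < s - 1 := by linarith
  have hM0 : (0 : ℝ) < M := by exact_mod_cast hM
  -- telescoping bound: (m)^{-s} (s-1) ≤ (m-1)^{1-s} - m^{1-s}
  have hstep : ∀ m : ℕ, 1 ≤ m → (((m + 1 : ℕ) : ℝ) ^ (-s)) ≤
      ((m : ℝ) ^ (1 - s) - ((m + 1 : ℕ) : ℝ) ^ (1 - s)) / (s - 1) := by
    intro m hm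
    have hm0 : (0 : ℝ) < m := by exact_mod_cast hm
    have hm1 : (0 : ℝ) < ((m + 1 : ℕ) : ℝ) := by positivity
    rw [le_div_iff₀ hs1]
    have hb := one_add_mul_self_le_rpow_one_add (s := -1 / ((m + 1 : ℕ) : ℝ))
      (by rw [le_div_iff₀ hm1]; push_cast; linarith) (p := 1) le_rfl
    -- use Bernoulli for negative exponents through convexity
    have key : 1 + (s - 1) / ((m + 1 : ℕ) : ℝ) ≤ ((m : ℝ) / ((m + 1 : ℕ) : ℝ)) ^ (1 - s) := by
      have hr : (0 : ℝ) < (m : ℝ) / ((m + 1 : ℕ) : ℝ) := by positivity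
      have e : ((m : ℝ) / ((m + 1 : ℕ) : ℝ)) ^ (1 - s) =
          Real.exp ((s - 1) * (-Real.log ((m : ℝ) / ((m + 1 : ℕ) : ℝ)))) := by
        rw [Real.rpow_def_of_pos hr]; congr 1; ring
      rw [e]
      have hl : 1 / ((m + 1 : ℕ) : ℝ) ≤ -Real.log ((m : ℝ) / ((m + 1 : ℕ) : ℝ)) := by
        have := Real.log_le_sub_one_of_pos hr
        have e3 : (m : ℝ) / ((m + 1 : ℕ) : ℝ) - 1 = -(1 / ((m + 1 : ℕ) : ℝ)) := by
          field_simp; push_cast; ring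
        rw [e3] at this
        linarith
      have h2 : (s - 1) * (1 / ((m + 1 : ℕ) : ℝ)) ≤
          (s - 1) * (-Real.log ((m : ℝ) / ((m + 1 : ℕ) : ℝ))) :=
        mul_le_mul_of_nonneg_left hl hs1.le
      have h3 := Real.add_one_le_exp ((s - 1) * (-Real.log ((m : ℝ) / ((m + 1 : ℕ) : ℝ))))
      calc 1 + (s - 1) / ((m + 1 : ℕ) : ℝ) = (s - 1) * (1 / ((m + 1 : ℕ) : ℝ)) + 1 := by ring
        _ ≤ _ := by linarith
    rw [Real.div_rpow hm0.le hm1.le, le_div_iff₀ (by positivity)] at key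
    have e2 : ((m + 1 : ℕ) : ℝ) ^ (-s) = ((m + 1 : ℕ) : ℝ) ^ (1 - s) / ((m + 1 : ℕ) : ℝ) := by
      rw [show -s = (1 - s) - 1 by ring, Real.rpow_sub_one hm1.ne']
    rw [e2]
    have e3 : (1 + (s - 1) / ((m + 1 : ℕ) : ℝ)) * ((m + 1 : ℕ) : ℝ) ^ (1 - s) =
      ((m + 1 : ℕ) : ℝ) ^ (1 - s) + ((m + 1 : ℕ) : ℝ) ^ (1 - s) / ((m + 1 : ℕ) : ℝ) * (s - 1) := by
      field_simp
    linarith
  have main : ∀ Y : ℕ, M ≤ Y → ∑ m ∈ Ioc M Y, (m : ℝ) ^ (-s) ≤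
      ((M : ℝ) ^ (1 - s) - (Y : ℝ) ^ (1 - s)) / (s - 1) := by
    intro Y hY
    induction Y, hY using Nat.le_induction with
    | base => simp
    | succ Y hY ih =>
      have e : Ioc M (Y + 1) = insert (Y + 1) (Ioc M Y) := by
        ext m; simp only [mem_Ioc, mem_insert]; omega
      rw [e, Finset.sum_insert (by simp)]
      have := hstep Y (hM.trans hY)
      calc ((Y + 1 : ℕ) : ℝ) ^ (-s) + ∑ m ∈ Ioc M Y, (m : ℝ) ^ (-s)
          ≤ ((Y : ℝ) ^ (1 - s) - ((Y + 1 : ℕ) : ℝ) ^ (1 - s)) / (s - 1) +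
            ((M : ℝ) ^ (1 - s) - (Y : ℝ) ^ (1 - s)) / (s - 1) := add_le_add this ih
        _ = _ := by ring
  rcases le_or_gt M Y with h | h
  · refine (main Y h).trans ?_
    gcongr
    have : 0 ≤ (Y : ℝ) ^ (1 - s) := by positivity
    linarith
  · rw [Finset.Ioc_eq_empty (by omega)]
    simp only [sum_empty]; positivity

/-- tails: `Σ_{M < N(x) ≤ Y} N(x)^{-s} ≤ 100 (s/(s-1)) M^{1-s}` for `s > 1`, `M ≥ 1`. -/
theorem sum_nz_tail_le {s : ℝ} (h1 : 1 < s) {M : ℕ} (hM : 1 ≤ M) (Y : ℕ) :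
    ∑ x ∈ nz Y \ nz M, (nm x : ℝ) ^ (-s) ≤ 100 * (s / (s - 1) * (M : ℝ) ^ (1 - s)) := by
  have hs1 : 0 < s - 1 := by linarith
  have hM0 : (0 : ℝ) < M := by exact_mod_cast hM
  set f : ℕ → ℝ := fun m => if m ≤ M then (M : ℝ) ^ (-s) else (m : ℝ) ^ (-s) with hf
  have hf0 : ∀ m, 0 ≤ f m := by intro m; simp only [hf]; split_ifs <;> positivity
  have hanti : ∀ m, 1 ≤ m → f (m + 1) ≤ f m := by
    intro m hm
    simp only [hf]
    by_cases h2 : m + 1 ≤ M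
    · rw [if_pos h2, if_pos (by omega)]
    · rw [if_neg h2]
      by_cases h3 : m ≤ M
      · rw [if_pos h3]
        apply Real.rpow_le_rpow_of_nonpos hM0 (by exact_mod_cast (by omega : M ≤ m + 1))
        linarith
      · rw [if_neg h3]
        apply Real.rpow_le_rpow_of_nonpos (by exact_mod_cast hm) (by push_cast; linarith)
        linarith
  have h := sum_antitone_le f hanti hf0 Y
  have h2 : ∑ x ∈ nz Y \ nz M, (nm x : ℝ) ^ (-s) ≤ ∑ x ∈ nz Y, f (nm x) := by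
    calc ∑ x ∈ nz Y \ nz M, (nm x : ℝ) ^ (-s) = ∑ x ∈ nz Y \ nz M, f (nm x) := by
          refine Finset.sum_congr rfl (fun x hx => ?_)
          rw [mem_sdiff, mem_nz, mem_nz] at hx
          simp only [hf]
          rw [if_neg (fun h => hx.2 ⟨hx.1.1, h⟩)]
      _ ≤ _ := Finset.sum_le_sum_of_subset_of_nonneg sdiff_subset (fun _ _ _ => hf0 _)
  refine h2.trans (h.trans (mul_le_mul_of_nonneg_left ?_ (by norm_num)))
  have h3 : ∑ m ∈ Icc 1 Y, f m ≤ ∑ m ∈ Icc 1 M, f m + ∑ m ∈ Ioc M Y, f m := by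
    rw [← Finset.sum_union]
    · apply Finset.sum_le_sum_of_subset_of_nonneg
      · intro m hm
        rw [mem_Icc] at hm
        rw [mem_union, mem_Icc, mem_Ioc]
        omega
      · intro _ _ _; exact hf0 _
    · rw [Finset.disjoint_left]
      intro m hm hm'
      rw [mem_Icc] at hm
      rw [mem_Ioc] at hm'
      omega
  have h4 : ∑ m ∈ Icc 1 M, f m = (M : ℝ) ^ (1 - s) := by
    rw [Finset.sum_congr rfl (fun m hm => by
      simp only [hf]; rw [if_pos (mem_Icc.mp hm).2]), Finset.sum_const, Nat.card_Icc,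
      nsmul_eq_mul, Nat.add_sub_cancel]
    rw [show (1 - s) = 1 + -s by ring, Real.rpow_add hM0, Real.rpow_one]
  have h5 : ∑ m ∈ Ioc M Y, f m = ∑ m ∈ Ioc M Y, (m : ℝ) ^ (-s) := by
    refine Finset.sum_congr rfl (fun m hm => ?_)
    simp only [hf]
    rw [if_neg (by rw [mem_Ioc] at hm; omega)]
  rw [h4, h5] at h3
  have h6 := sum_Icc_rpow_neg_le h1 hM Y
  calc ∑ m ∈ Icc 1 Y, f m ≤ (M : ℝ) ^ (1 - s) + (M : ℝ) ^ (1 - s) / (s - 1) := by linarith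
    _ = s / (s - 1) * (M : ℝ) ^ (1 - s) := by field_simp; ring

end Crest.Agent.R012.Per277
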