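import Crest.Agent.R012.SparseT0_420
import Crest.Agent.R012.SieveUse_50
import Crest.Agent.R012.EdgeI_79
import Crest.Agent.R012.EdgeSharp_968
import Crest.Agent.R012.SpecMain_48
import Crest.Agent.R012.Base_666
import Mathlib
import Crest.Agent.Lib.PNT
import Crest.Agent.R012.Per_277
import Crest.Agent.R012.PFinal_355
import Crest.Agent.R012.Bridge2_666
import Crest.Agent.R012.GaussInst_880

-- ▼ part R012/SieveOf_420
section

/-!
# Row 12: the sieve theorem `Main48.Sieve_of`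
-/

set_option autoImplicit false

namespace Crest.Agent.R012.SieveOf420

open Crest.Agent.R012 Main48

/-- The sieve theorem (812, 50, 420). -/
theorem sieve_of : Main48.Sieve_of := fun hI hII hIIc h0 hSNH hE =>
  Sieve812.sieve_core hI (fun l => SieveUse50.adapters hII hIIc hSNH hE l 3)
    (fun l C0 => SparseT0420.legPart h0 l 3 C0)

end Crest.Agent.R012.SieveOf420
end

-- ▼ part R012/EdgeJ_79
section

/-!
# Row 12 (TIII): boxes of triples of primes, sharp cutoff
-/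

set_option autoImplicit false

noncomputable section

namespace Crest.Agent.R012.Edge79

open Eis CharSum852 Tau671

open Classical in
/-- number of representations `a = q r` -/
def mult (N m1 m2 : ℕ) (a : Eis) : ℕ :=
  ((PB N m1 ×ˢ PB N m2).filter (fun x => x.1 * x.2 = a)).card

lemma mult_le (N m1 m2 : ℕ) (a : Eis) : mult N m1 m2 a ≤ 2 := by
  classical
  unfold mult
  rcases Finset.eq_empty_or_nonempty ((PB N m1 ×ˢ PB N m2).filter (fun x => x.1 * x.2 = a)) with
    h | ⟨x, hx⟩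
  · rw [h]; simp
  · refine (Finset.card_le_card (t := {x, (x.2, x.1)}) ?_).trans Finset.card_le_two
    intro y hy
    simp only [Finset.mem_filter, Finset.mem_product, mem_PB] at hx hy
    obtain ⟨⟨⟨q1, q2, -⟩, ⟨r1, r2, -⟩⟩, hxa⟩ := hx
    obtain ⟨⟨⟨q1', q2', -⟩, ⟨r1', r2', -⟩⟩, hya⟩ := hy
    have hd : y.1 ∣ x.1 * x.2 := by rw [hxa, ← hya]; exact dvd_mul_right _ _
    rw [Finset.mem_insert, Finset.mem_singleton]
    rcases q2'.dvd_or_dvd hd with h | h
    · left
      have e : y.1 = x.1 := Cheb420.isPrim_assoc q1' q1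
        (q2'.irreducible.associated_of_dvd q2.irreducible h)
      have e2 : y.2 = x.2 := by
        have : x.1 * y.2 = x.1 * x.2 := by rw [← e, hya, e, hxa]
        exact mul_left_cancel₀ q2.ne_zero this
      exact Prod.ext e e2
    · right
      have e : y.1 = x.2 := Cheb420.isPrim_assoc q1' r1
        (q2'.irreducible.associated_of_dvd r2.irreducible h)
      have e2 : y.2 = x.1 := by
        have : x.2 * y.2 = x.2 * x.1 := by rw [← e, hya, e, mul_comm x.2, hxa]
        exact mul_left_cancel₀ r2.ne_zero this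
      exact Prod.ext e e2

open Classical in
/-- all products `q r` -/
def PA (N m1 m2 : ℕ) : Finset Eis := (PB N m1 ×ˢ PB N m2).image (fun x => x.1 * x.2)

lemma mem_PA {N m1 m2 : ℕ} {a : Eis} (h : a ∈ PA N m1 m2) :
    IsPrim a ∧ m1 * m2 ≤ nm a ∧ nm a ≤ 4 * (m1 * m2) := by
  classical
  unfold PA at h
  rw [Finset.mem_image] at h
  obtain ⟨x, hx, rfl⟩ := h
  rw [Finset.mem_product, mem_PB, mem_PB] at hx
  obtain ⟨⟨q1, q2, q3, q4, q5⟩, ⟨r1, r2, r3, r4, r5⟩⟩ := hx
  refine ⟨q1.mul r1, ?_, ?_⟩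
  · rw [nm_mul]; exact Nat.mul_le_mul q3.le r3.le
  · rw [nm_mul]
    calc nm x.1 * nm x.2 ≤ (2 * m1) * (2 * m2) := Nat.mul_le_mul q5 r5
      _ = _ := by ring

lemma card_PA_le (N m1 m2 : ℕ) : (PA N m1 m2).card ≤ (PB N m1).card * (PB N m2).card := by
  classical
  unfold PA
  refine Finset.card_image_le.trans ?_
  rw [Finset.card_product]

lemma sum_box_eq (N m m1 m2 : ℕ) (Φ : Eis → Eis → ℂ) :
    ∑ p ∈ PB N m, ∑ q ∈ PB N m1, ∑ r ∈ PB N m2, Φ (q * r) p =
      ∑ a ∈ PA N m1 m2, ∑ p ∈ PB N m, (mult N m1 m2 a : ℂ) * Φ a p := by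
  classical
  rw [Finset.sum_comm' (s := PA N m1 m2) (t := fun _ => PB N m) (s' := fun _ => PA N m1 m2)
    (t' := PB N m) (by simp [and_comm])]
  apply Finset.sum_congr rfl
  intro p _
  rw [← Finset.sum_product']
  have h := Finset.sum_comp (s := PB N m1 ×ˢ PB N m2) (fun a => Φ a p) (fun x => x.1 * x.2)
  rw [h]
  unfold PA mult
  apply Finset.sum_congr rfl
  intro a _
  rw [nsmul_eq_mul]

/-- the sum over a box of triples, cut at `Y` -/
def Tb (l : ℤ) (Y N m m1 m2 : ℕ) : ℂ :=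
  ∑ p ∈ PB N m, ∑ q ∈ PB N m1, ∑ r ∈ PB N m2,
    if nm (p * q * r) ≤ Y then ang l (p * q * r) * G (p * q * r) else 0

open Classical in
lemma Tb_eq (l : ℤ) (Y N m m1 m2 : ℕ) :
    Tb l Y N m m1 m2 = 2 * ∑ a ∈ (PA N m1 m2).filter (fun a => Squarefree a), ∑ p ∈ PB N m,
      (if nm (a * p) ≤ Y then (((mult N m1 m2 a : ℂ) / 2) * ang l a) * ang l p * G (a * p)
        else 0) := by
  have h1 : Tb l Y N m m1 m2 = ∑ p ∈ PB N m, ∑ q ∈ PB N m1, ∑ r ∈ PB N m2,
      (fun a p => if nm (a * p) ≤ Y then ang l (a * p) * G (a * p) else 0) (q * r) p := by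
    unfold Tb
    refine Finset.sum_congr rfl fun p _ => Finset.sum_congr rfl fun q _ =>
      Finset.sum_congr rfl fun r _ => ?_
    have : p * q * r = q * r * p := by ring
    rw [this]
  rw [h1, sum_box_eq N m m1 m2
    (fun a p => if nm (a * p) ≤ Y then ang l (a * p) * G (a * p) else 0), Finset.mul_sum]
  rw [← Finset.sum_filter_add_sum_filter_not (PA N m1 m2) (fun a => Squarefree a)]
  have h0 : ∑ a ∈ (PA N m1 m2).filter (fun a => ¬ Squarefree a), ∑ p ∈ PB N m,
      (mult N m1 m2 a : ℂ) * (if nm (a * p) ≤ Y then ang l (a * p) * G (a * p) else 0) = 0 := by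
    refine Finset.sum_eq_zero fun a ha => Finset.sum_eq_zero fun p hp => ?_
    rw [Finset.mem_filter] at ha
    have : G (a * p) = 0 := by
      rw [Gauss880.G_mul_all Gauss880.syG (mem_PA ha.1).1 (mem_PB.mp hp).1,
        Gauss880.G_eq_zero Gauss880.syG (mem_PA ha.1).1 ha.2]
      ring
    rw [this]; simp
  rw [h0, add_zero]
  refine Finset.sum_congr rfl fun a ha => ?_
  rw [Finset.mul_sum]
  refine Finset.sum_congr rfl fun p hp => ?_
  split_ifs
  · rw [P355.ang_mul]; ring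
  · simp

/-- **Box bound with sharp cutoff** -/
theorem Tb_le (h8 : EdgeSharp968.T8b) (l : ℤ) (C1 : ℕ) : ∃ K : ℝ, 0 < K ∧ ∃ X0 : ℕ,
    ∀ X : ℕ, X0 ≤ X → ∀ (N m m1 m2 Y : ℕ), m1 ≤ m → m2 ≤ m → X ≤ 16 * (m * (m1 * m2)) →
      m * (m1 * m2) ≤ X → (m : ℝ) ^ 3 ≤ X * Real.log X ^ C1 → Y ≤ X → X ≤ 3 * Y →
      ‖Tb l Y N m m1 m2‖ ≤ K * ((1 + Real.log (1 + Real.log X)) *
        ((X : ℝ) ^ ((5 : ℝ) / 6) / Real.log X ^ ((3 : ℝ) / 2))) := by
  classical
  obtain ⟨c, c0, C8, hc, hc0, hC8, hcell⟩ := h8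
  obtain ⟨Cs, K1, hCs, hK1, hsharp⟩ := EdgeSharp968.edge_sharp hc hc0 hC8 hcell (3 / 2) (by norm_num)
  obtain ⟨Kq, hKq, X1, hQ⟩ := Q_box l C1 ⌈K1⌉₊ (Kc := 80000) (by norm_num)
  obtain ⟨X2, hX2⟩ := exists_log_pow_le (17 * C1) (2 ^ 114)
  obtain ⟨X3, hX3⟩ := exists_log_pow_le (8 * C1) (4096 ^ 4)
  obtain ⟨X4, hX4⟩ := exists_le_log 3
  refine ⟨4 * (Cs * Kq + 24 * Cs), by positivity, max (max X1 X2) (max (max X3 X4) 100), ?_⟩
  intro X hX N m m1 m2 Y hm1 hm2 hlow hup hm3 hYX hXY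
  have hXX1 : X1 ≤ X := (le_max_left _ _).trans ((le_max_left _ _).trans hX)
  have hXX2 : X2 ≤ X := (le_max_right _ _).trans ((le_max_left _ _).trans hX)
  have hXX3 : X3 ≤ X :=
    (le_max_left _ _).trans ((le_max_left _ _).trans ((le_max_right _ _).trans hX))
  have hXX4 : X4 ≤ X :=
    (le_max_right _ _).trans ((le_max_left _ _).trans ((le_max_right _ _).trans hX))
  have hX100 : 100 ≤ X := (le_max_right _ _).trans ((le_max_right _ _).trans hX)
  have hXr : (100 : ℝ) ≤ X := by exact_mod_cast hX100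
  have hXp : (0 : ℝ) < X := by linarith
  set L := Real.log X with hL
  have hL3 : 3 ≤ L := hX4 X hXX4
  have hL0 : 0 < L := by linarith
  set P := L ^ C1 with hP
  have hP1 : 1 ≤ P := one_le_pow₀ (by linarith)
  have c2 : 2 ^ 114 * P ^ 17 ≤ (X : ℝ) := by
    have := hX2 X hXX2
    rwa [mul_comm 17 C1, pow_mul] at this
  have c3 : (4096 * P ^ 2) ^ 4 ≤ (X : ℝ) := by
    have := hX3 X hXX3
    rw [mul_pow, ← pow_mul]
    rwa [mul_comm 8 C1, pow_mul] at this
  -- real versions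
  have rlow : (X : ℝ) ≤ 16 * (m * (m1 * m2)) := by exact_mod_cast hlow
  have rup : (m : ℝ) * (m1 * m2) ≤ X := by exact_mod_cast hup
  have rm1 : (m1 : ℝ) ≤ m := by exact_mod_cast hm1
  have rm2 : (m2 : ℝ) ≤ m := by exact_mod_cast hm2
  have hmp : 0 < m := by
    rcases Nat.eq_zero_or_pos m with h | h
    · rw [h] at hlow; omega
    · exact h
  have hm1p : 0 < m1 := by
    rcases Nat.eq_zero_or_pos m1 with h | h
    · rw [h] at hlow; simp at hlow; omega
    · exact h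
  have hm2p : 0 < m2 := by
    rcases Nat.eq_zero_or_pos m2 with h | h
    · rw [h] at hlow; simp at hlow; omega
    · exact h
  have rmp : (0 : ℝ) < m := by exact_mod_cast hmp
  have rm1p : (0 : ℝ) < m1 := by exact_mod_cast hm1p
  have rm2p : (0 : ℝ) < m2 := by exact_mod_cast hm2p
  have hm16 : (X : ℝ) ≤ 16 * (m : ℝ) ^ 3 := by
    calc (X : ℝ) ≤ 16 * (m * (m1 * m2)) := rlow
      _ ≤ 16 * (m * (m * m)) := by gcongr
      _ = _ := by ring
  -- `m1 ^ 4 ≥ X`
  have key : ∀ a b : ℝ, 0 < a → 0 < b → b ≤ m → (X : ℝ) ≤ 16 * (m * (a * b)) → (X : ℝ) ≤ a ^ 4 := by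
    intro a b ha hb hbm hX16
    have e1 : (X : ℝ) ≤ 16 * ((m : ℝ) ^ 2 * a) := by
      calc (X : ℝ) ≤ 16 * (m * (a * b)) := hX16
        _ ≤ 16 * (m * (a * m)) := by gcongr
        _ = _ := by ring
    have e2 : (X : ℝ) ^ 3 ≤ 4096 * (((m : ℝ) ^ 3) ^ 2 * a ^ 3) := by
      calc (X : ℝ) ^ 3 ≤ (16 * ((m : ℝ) ^ 2 * a)) ^ 3 := pow_le_pow_left₀ hXp.le e1 3
        _ = _ := by ring
    have e3 : ((m : ℝ) ^ 3) ^ 2 ≤ (X * P) ^ 2 := pow_le_pow_left₀ (by positivity) hm3 2
    have e4 : (X : ℝ) ^ 3 ≤ 4096 * ((X * P) ^ 2 * a ^ 3) := by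
      refine e2.trans ?_
      gcongr
    have e5 : (X : ℝ) ≤ (4096 * P ^ 2) * a ^ 3 := by
      have : (X : ℝ) ^ 2 * X ≤ X ^ 2 * ((4096 * P ^ 2) * a ^ 3) := by
        calc (X : ℝ) ^ 2 * X = X ^ 3 := by ring
          _ ≤ 4096 * ((X * P) ^ 2 * a ^ 3) := e4
          _ = _ := by ring
      exact le_of_mul_le_mul_left this (by positivity)
    have e6 : (X : ℝ) ^ 4 ≤ (4096 * P ^ 2) ^ 4 * (a ^ 4) ^ 3 := by
      calc (X : ℝ) ^ 4 ≤ ((4096 * P ^ 2) * a ^ 3) ^ 4 := pow_le_pow_left₀ hXp.le e5 4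
        _ = _ := by ring
    have e7 : (X : ℝ) * X ^ 3 ≤ X * (a ^ 4) ^ 3 := by
      calc (X : ℝ) * X ^ 3 = X ^ 4 := by ring
        _ ≤ (4096 * P ^ 2) ^ 4 * (a ^ 4) ^ 3 := e6
        _ ≤ _ := by gcongr
    have e8 : (X : ℝ) ^ 3 ≤ (a ^ 4) ^ 3 := le_of_mul_le_mul_left e7 hXp
    exact le_of_pow_le_pow_left₀ (by norm_num) (by positivity) e8
  have hm1X : (X : ℝ) ≤ (m1 : ℝ) ^ 4 := key m1 m2 rm1p rm2p rm2 rlow
  have hm2X : (X : ℝ) ≤ (m2 : ℝ) ^ 4 := key m2 m1 rm2p rm1p rm1 (by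
    rw [mul_comm (m2 : ℝ)]; exact rlow)
  have hge : ∀ k : ℕ, 0 < k → (X : ℝ) ≤ (k : ℝ) ^ 4 → 2 ≤ k ∧ L / 4 ≤ Real.log k := by
    intro k hk hkX
    have hk0 : (0 : ℝ) < k := by exact_mod_cast hk
    constructor
    · by_contra hc
      have h1 : k = 1 := by omega
      rw [h1] at hkX; norm_num at hkX
      have : (1 : ℝ) < X := by linarith
      have h2 : X ≤ 1 := by exact_mod_cast hkX
      omega
    · have h1 := Real.log_le_log hXp hkX
      rw [Real.log_pow] at h1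
      push_cast at h1
      rw [← hL] at h1; linarith
  obtain ⟨hm1two, hlog1⟩ := hge m1 hm1p hm1X
  obtain ⟨hm2two, hlog2⟩ := hge m2 hm2p hm2X
  have hmtwo : 2 ≤ m := hm1two.trans hm1
  have rmtwo : (2 : ℝ) ≤ m := by exact_mod_cast hmtwo
  have rm1two : (2 : ℝ) ≤ m1 := by exact_mod_cast hm1two
  have rm2two : (2 : ℝ) ≤ m2 := by exact_mod_cast hm2two
  -- the size of the set of `a`
  set a0 : ℝ := (m1 : ℝ) * m2 with ha0
  have ha0p : 0 < a0 := by positivity
  have ha0two : 2 ≤ a0 := by nlinarith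
  have hcardPA : ((PA N m1 m2).card : ℝ) ≤ 40000 * ((4 * a0) / L ^ 2) := by
    have h1 : ((PA N m1 m2).card : ℝ) ≤ (PB N m1).card * (PB N m2).card := by
      exact_mod_cast card_PA_le N m1 m2
    have h2 : ((PB N m1).card : ℝ) ≤ 400 * (m1 / L) := by
      refine (card_PB_le hm1two).trans ?_
      calc 100 * ((m1 : ℝ) / Real.log m1) ≤ 100 * (m1 / (L / 4)) := by gcongr
        _ = _ := by field_simp; norm_num
    have h3 : ((PB N m2).card : ℝ) ≤ 400 * (m2 / L) := by
      refine (card_PB_le hm2two).trans ?_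
      calc 100 * ((m2 : ℝ) / Real.log m2) ≤ 100 * (m2 / (L / 4)) := by gcongr
        _ = _ := by field_simp; norm_num
    calc ((PA N m1 m2).card : ℝ) ≤ (PB N m1).card * (PB N m2).card := h1
      _ ≤ (400 * (m1 / L)) * (400 * (m2 / L)) := by gcongr
      _ = _ := by rw [ha0]; field_simp; norm_num
  -- the exponent condition
  have hexp : ∀ A : ℝ, a0 ≤ A → 2 * (m : ℝ) ≤ A ^ (7 / 10 : ℝ) := by
    intro A hA
    have hA0 : 0 < A := lt_of_lt_of_le ha0p hA
    have e1 : (X : ℝ) ^ 7 ≤ a0 ^ 7 * (16 * (m : ℝ)) ^ 7 := by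
      calc (X : ℝ) ^ 7 ≤ (16 * (m * (m1 * m2))) ^ 7 := pow_le_pow_left₀ hXp.le rlow 7
        _ = _ := by rw [ha0]; ring
    have e2 : (2 : ℝ) ^ 38 * (m : ℝ) ^ 17 ≤ X ^ 7 := by
      have e3 : ((2 : ℝ) ^ 38 * (m : ℝ) ^ 17) ^ 3 ≤ ((X : ℝ) ^ 7) ^ 3 := by
        calc ((2 : ℝ) ^ 38 * (m : ℝ) ^ 17) ^ 3 = 2 ^ 114 * ((m : ℝ) ^ 3) ^ 17 := by ring
          _ ≤ 2 ^ 114 * (X * P) ^ 17 := by gcongr
          _ = (2 ^ 114 * P ^ 17) * X ^ 17 := by ring
          _ ≤ X * X ^ 17 := by gcongr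
          _ = X ^ 18 := by ring
          _ ≤ X ^ 21 := pow_le_pow_right₀ (by linarith) (by norm_num)
          _ = _ := by ring
      exact le_of_pow_le_pow_left₀ (by norm_num) (by positivity) e3
    have e4 : (2 * (m : ℝ)) ^ 10 ≤ a0 ^ 7 := by
      have h1 : (2 * (m : ℝ)) ^ 10 * (16 * m) ^ 7 ≤ a0 ^ 7 * (16 * m) ^ 7 := by
        refine le_trans (le_of_eq ?_) (e2.trans e1)
        ring
      exact le_of_mul_le_mul_right h1 (by positivity)
    have e5 : (2 * (m : ℝ)) ^ 10 ≤ A ^ 7 := e4.trans (pow_le_pow_left₀ ha0p.le hA 7)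
    have e6 : (A ^ (7 / 10 : ℝ)) ^ 10 = A ^ 7 := by
      rw [← Real.rpow_natCast, ← Real.rpow_mul hA0.le, ← Real.rpow_natCast]
      norm_num
    apply le_of_pow_le_pow_left₀ (n := 10) (by norm_num) (by positivity)
    rw [e6]; exact e5
  -- logs of `Y`
  have hY33 : 33 ≤ Y := by omega
  have rXY : (X : ℝ) ≤ 3 * Y := by exact_mod_cast hXY
  have rYX : (Y : ℝ) ≤ X := by exact_mod_cast hYX
  have rY33 : (33 : ℝ) ≤ Y := by exact_mod_cast hY33
  have rYp : (0 : ℝ) < Y := by linarith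
  have hlogYX : Real.log Y ≤ L := Real.log_le_log rYp rYX
  have hlogY : L / 2 ≤ Real.log Y := by
    have h1 : Real.log X ≤ Real.log (3 * Y) := Real.log_le_log hXp rXY
    rw [Real.log_mul (by norm_num) rYp.ne', ← hL] at h1
    have h2 : Real.log 3 ≤ 1.5 := by
      have h3 : Real.log 3 ≤ Real.log 4 := Real.log_le_log (by norm_num) (by norm_num)
      have h4 : Real.log 4 = 2 * Real.log 2 := by
        rw [show (4 : ℝ) = 2 ^ 2 by norm_num, Real.log_pow]; norm_num
      have := Real.log_two_lt_d9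
      linarith
    linarith
  have hlogY1 : 1 ≤ Real.log Y := by linarith
  -- the main quantity
  set Qx : ℝ := (X : ℝ) ^ ((5 : ℝ) / 6) / L ^ ((3 : ℝ) / 2) with hQx
  have hQx0 : 0 ≤ Qx := by positivity
  have hbox : ∀ (S : Finset Eis) (A : ℝ), S ⊆ (PA N m1 m2).filter (fun a => Squarefree a) →
      a0 ≤ A → A ≤ 2 * a0 → (∀ a ∈ S, A ≤ nm a ∧ (nm a : ℝ) ≤ 2 * A) →
      ‖∑ a ∈ S, ∑ p ∈ PB N m, (if nm (a * p) ≤ Y then
        (((mult N m1 m2 a : ℂ) / 2) * ang l a) * ang l p * G (a * p) else 0)‖ ≤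
        (Cs * Kq + 24 * Cs) * ((1 + Real.log (1 + L)) * Qx) := by
    intro S A hSsub hA1 hA2 hSA
    have hA0 : 0 < A := lt_of_lt_of_le ha0p hA1
    have hAm : A * m ≤ 2 * X := by
      calc A * m ≤ (2 * a0) * m := by gcongr
        _ = 2 * (m * (m1 * m2)) := by rw [ha0]; ring
        _ ≤ _ := by gcongr
    have hAm' : (X : ℝ) ≤ 16 * (A * m) := by
      calc (X : ℝ) ≤ 16 * (m * (m1 * m2)) := rlow
        _ = 16 * (a0 * m) := by rw [ha0]; ring
        _ ≤ _ := by gcongr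
    have hprim : ∀ a ∈ S, IsPrim a := fun a ha =>
      (mem_PA (Finset.mem_filter.mp (hSsub ha)).1).1
    have hα : ∀ a : Eis, ‖((mult N m1 m2 a : ℂ) / 2) * ang l a‖ ≤ 1 := by
      intro a
      rw [norm_mul]
      have h1 : ‖((mult N m1 m2 a : ℂ) / 2)‖ ≤ 1 := by
        rw [norm_div, Complex.norm_natCast]
        have : ((mult N m1 m2 a : ℕ) : ℝ) ≤ 2 := by exact_mod_cast mult_le N m1 m2 a
        rw [Complex.norm_ofNat]
        rw [div_le_one (by norm_num)]
        exact this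
      exact mul_le_one₀ h1 (norm_nonneg _) (P355.norm_ang_le l a)
    have hs := hsharp Y A m S (PB N m) (fun a => ((mult N m1 m2 a : ℂ) / 2) * ang l a)
      (fun b => ang l b) (Kq * Qx) (by omega) (ha0two.trans hA1) rmtwo (hexp A hA1)
      (by
        have h1 : 4 * (A * m) ≤ (m : ℝ) ^ 10 := by
          have h2 : (2 : ℝ) ^ 7 ≤ (m : ℝ) ^ 7 := pow_le_pow_left₀ (by norm_num) rmtwo 7
          calc 4 * (A * m) ≤ 4 * (2 * X) := by gcongr
            _ ≤ 4 * (2 * (16 * (m : ℝ) ^ 3)) := by gcongr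
            _ = 2 ^ 7 * (m : ℝ) ^ 3 := by ring
            _ ≤ (m : ℝ) ^ 7 * (m : ℝ) ^ 3 := by gcongr
            _ = _ := by ring
        calc (4 * (A * m)) ^ (1 / 10 : ℝ) ≤ ((m : ℝ) ^ 10) ^ (1 / 10 : ℝ) :=
              Real.rpow_le_rpow (by positivity) h1 (by norm_num)
          _ = m := by
              rw [← Real.rpow_natCast, ← Real.rpow_mul rmp.le]; norm_num)
      (by
        have h1 : (X : ℝ) / 16 ≤ A * m := by linarith
        have h2 : (X : ℝ) ≤ (X / 16) ^ 2 * 3 := by nlinarith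
        have h3 : ((X : ℝ) / 16) ^ 2 ≤ (A * m) ^ 2 := pow_le_pow_left₀ (by positivity) h1 2
        by_cases h256 : (256 : ℝ) ≤ X
        · have : (X : ℝ) ≤ (X / 16) ^ 2 := by nlinarith
          linarith
        · push Not at h256
          have h4 : (16 : ℝ) ≤ A * m := by
            have : (8 : ℝ) ≤ 8 := le_rfl
            have hm1' : (100 : ℝ) ≤ (m1 : ℝ) ^ 4 := hXr.trans hm1X
            have hm1g : (3 : ℝ) ≤ m1 := by
              by_contra hc
              push Not at hc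
              have : (m1 : ℝ) = 2 := by
                have h7 : m1 < 3 := by exact_mod_cast hc
                have : m1 = 2 := by omega
                exact_mod_cast this
              rw [this] at hm1'; norm_num at hm1'
            have hm2' : (100 : ℝ) ≤ (m2 : ℝ) ^ 4 := hXr.trans hm2X
            have hm2g : (3 : ℝ) ≤ m2 := by
              by_contra hc
              push Not at hc
              have : (m2 : ℝ) = 2 := by
                have h7 : m2 < 3 := by exact_mod_cast hc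
                have : m2 = 2 := by omega
                exact_mod_cast this
              rw [this] at hm2'; norm_num at hm2'
            have : (9 : ℝ) ≤ a0 := by rw [ha0]; nlinarith
            nlinarith
          nlinarith)
      (by
        have : (33 : ℝ) * Y ≤ Y ^ 2 := by nlinarith
        nlinarith)
      (fun a ha => ⟨⟨hprim a ha, (Finset.mem_filter.mp (hSsub ha)).2⟩, hSA a ha⟩)
      (fun b hb => by
        have h := mem_PB.mp hb
        refine ⟨⟨h.1, h.2.1.irreducible.squarefree⟩, ?_, ?_⟩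
        · exact_mod_cast h.2.2.1.le
        · exact_mod_cast h.2.2.2.2)
      (fun a _ => hα a) (fun b _ => P355.norm_ang_le l b)
      (by
        intro t ht
        have ht' : |t| ≤ L ^ ⌈K1⌉₊ := by
          refine ht.trans ?_
          have h1 : Real.log Y ^ K1 ≤ L ^ K1 :=
            Real.rpow_le_rpow (by linarith) hlogYX hK1.le
          refine h1.trans ?_
          rw [← Real.rpow_natCast]
          exact Real.rpow_le_rpow_of_exponent_le (by linarith) (Nat.le_ceil _)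
        have hq := hQ X hXX1 N m (2 * A) t S
          (fun a => (((mult N m1 m2 a : ℂ) / 2) * ang l a) * Weight600.pw t (nm a)) hm16 hm3
          (by nlinarith) (by nlinarith) ht' hprim (fun a ha => (hSA a ha).2)
          (by
            have h1 : (S.card : ℝ) ≤ (PA N m1 m2).card := by
              exact_mod_cast Finset.card_le_card (hSsub.trans (Finset.filter_subset _ _))
            refine h1.trans (hcardPA.trans ?_)
            rw [← mul_div_assoc, ← mul_div_assoc]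
            apply div_le_div_of_nonneg_right _ (by positivity)
            linarith)
          (by
            intro a _
            rw [norm_mul, Weight600.norm_pw, mul_one]
            exact hα a)
        refine le_trans (le_of_eq ?_) hq
        congr 1
        refine Finset.sum_congr rfl fun a ha => Finset.sum_congr rfl fun b hb => ?_
        unfold cf
        have na : (nm a : ℝ) ≠ 0 := by
          exact_mod_cast (nm_pos.mpr (hprim a ha).ne_zero).ne'
        have nb : (nm b : ℝ) ≠ 0 := by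
          exact_mod_cast (nm_pos.mpr (mem_PB.mp hb).1.ne_zero).ne'
        rw [nm_mul]
        push_cast
        rw [Weight600.pw_mul na nb]
        ring)
    refine hs.trans ?_
    have hlog0 : 0 ≤ Real.log (1 + Real.log Y) := Real.log_nonneg (by linarith)
    have hloglog : Real.log (1 + Real.log Y) ≤ Real.log (1 + L) :=
      Real.log_le_log (by linarith) (by linarith)
    have t1 : (Real.log Y) ^ (-(3 / 2) : ℝ) ≤ 4 / L ^ ((3 : ℝ) / 2) := by
      have e1 : (Real.log Y) ^ (-(3 / 2) : ℝ) ≤ (L / 2) ^ (-(3 / 2) : ℝ) :=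
        Real.rpow_le_rpow_of_nonpos (by positivity) hlogY (by norm_num)
      refine e1.trans ?_
      rw [Real.rpow_neg (by positivity), Real.div_rpow hL0.le (by norm_num), inv_div]
      apply div_le_div_of_nonneg_right _ (by positivity)
      calc (2 : ℝ) ^ ((3 : ℝ) / 2) ≤ 2 ^ (2 : ℝ) :=
            Real.rpow_le_rpow_of_exponent_le (by norm_num) (by norm_num)
        _ = 4 := by norm_num
    have t2 : (A * m) ^ (5 / 6 : ℝ) ≤ 2 * (X : ℝ) ^ ((5 : ℝ) / 6) := by
      calc (A * m) ^ (5 / 6 : ℝ) ≤ (2 * X) ^ (5 / 6 : ℝ) :=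
            Real.rpow_le_rpow (by positivity) hAm (by norm_num)
        _ = 2 ^ (5 / 6 : ℝ) * (X : ℝ) ^ (5 / 6 : ℝ) := Real.mul_rpow (by norm_num) hXp.le
        _ ≤ 2 ^ (1 : ℝ) * (X : ℝ) ^ (5 / 6 : ℝ) := by
            apply mul_le_mul_of_nonneg_right _ (by positivity)
            exact Real.rpow_le_rpow_of_exponent_le (by norm_num) (by norm_num)
        _ = _ := by rw [Real.rpow_one]
    have t3 : A * (m : ℝ) ^ (1 / 2 : ℝ) ≤ 3.5 * (X : ℝ) ^ ((5 : ℝ) / 6) := by
      have hmh : 0 < (m : ℝ) ^ (1 / 2 : ℝ) := by positivity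
      have hmm : (m : ℝ) ^ (1 / 2 : ℝ) * (m : ℝ) ^ (1 / 2 : ℝ) = m := by
        rw [← Real.rpow_add rmp]; norm_num
      have e1 : (X : ℝ) ^ ((1 : ℝ) / 6) ≤ 1.75 * (m : ℝ) ^ (1 / 2 : ℝ) := by
        apply le_of_pow_le_pow_left₀ (n := 6) (by norm_num) (by positivity)
        have h1 : ((X : ℝ) ^ ((1 : ℝ) / 6)) ^ 6 = X := by
          rw [← Real.rpow_natCast, ← Real.rpow_mul hXp.le]; norm_num
        have h2 : ((m : ℝ) ^ (1 / 2 : ℝ)) ^ 6 = (m : ℝ) ^ 3 := by
          rw [← Real.rpow_natCast, ← Real.rpow_mul rmp.le, ← Real.rpow_natCast]; norm_num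
        rw [mul_pow, h1, h2]
        refine hm16.trans ?_
        apply mul_le_mul_of_nonneg_right (by norm_num) (by positivity)
      have e2 : (X : ℝ) ^ ((5 : ℝ) / 6) * (X : ℝ) ^ ((1 : ℝ) / 6) = X := by
        rw [← Real.rpow_add hXp]; norm_num
      have e3 : (A * (m : ℝ) ^ (1 / 2 : ℝ)) * (m : ℝ) ^ (1 / 2 : ℝ) ≤
          (3.5 * (X : ℝ) ^ ((5 : ℝ) / 6)) * (m : ℝ) ^ (1 / 2 : ℝ) := by
        calc (A * (m : ℝ) ^ (1 / 2 : ℝ)) * (m : ℝ) ^ (1 / 2 : ℝ) = A * m := by
              rw [mul_assoc, hmm]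
          _ ≤ 2 * X := hAm
          _ = 2 * ((X : ℝ) ^ ((5 : ℝ) / 6) * (X : ℝ) ^ ((1 : ℝ) / 6)) := by rw [e2]
          _ ≤ 2 * ((X : ℝ) ^ ((5 : ℝ) / 6) * (1.75 * (m : ℝ) ^ (1 / 2 : ℝ))) := by gcongr
          _ = _ := by ring
      exact le_of_mul_le_mul_right e3 hmh
    have hXX : 0 < (X : ℝ) ^ ((5 : ℝ) / 6) := by positivity
    have hLL : 0 < L ^ ((3 : ℝ) / 2) := by positivity
    have hlog1 : 0 ≤ Real.log (1 + L) := Real.log_nonneg (by linarith)
    have f1 : Cs * (1 + Real.log (1 + Real.log Y)) * (Kq * Qx) ≤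
        Cs * Kq * ((1 + Real.log (1 + L)) * Qx) := by
      calc Cs * (1 + Real.log (1 + Real.log Y)) * (Kq * Qx) =
            Cs * Kq * ((1 + Real.log (1 + Real.log Y)) * Qx) := by ring
        _ ≤ _ := by gcongr
    have f2 : Cs * (Real.log Y) ^ (-(3 / 2) : ℝ) *
        ((A * m) ^ (5 / 6 : ℝ) + A * (m : ℝ) ^ (1 / 2 : ℝ)) ≤ 24 * Cs * Qx := by
      calc Cs * (Real.log Y) ^ (-(3 / 2) : ℝ) *
            ((A * m) ^ (5 / 6 : ℝ) + A * (m : ℝ) ^ (1 / 2 : ℝ))
          ≤ Cs * (4 / L ^ ((3 : ℝ) / 2)) *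
            (2 * (X : ℝ) ^ ((5 : ℝ) / 6) + 3.5 * (X : ℝ) ^ ((5 : ℝ) / 6)) := by gcongr
        _ = 22 * Cs * Qx := by rw [hQx]; field_simp; norm_num
        _ ≤ 24 * Cs * Qx := by gcongr; norm_num
    have f3 : 24 * Cs * Qx ≤ 24 * Cs * ((1 + Real.log (1 + L)) * Qx) := by
      apply mul_le_mul_of_nonneg_left _ (by positivity)
      nlinarith
    calc _ ≤ Cs * Kq * ((1 + Real.log (1 + L)) * Qx) + 24 * Cs * Qx := add_le_add f1 f2
      _ ≤ Cs * Kq * ((1 + Real.log (1 + L)) * Qx) +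
          24 * Cs * ((1 + Real.log (1 + L)) * Qx) := by linarith
      _ = _ := by ring
  rw [Tb_eq]
  set SF := (PA N m1 m2).filter (fun a => Squarefree a) with hSF
  rw [← Finset.sum_filter_add_sum_filter_not SF (fun a => nm a ≤ 2 * (m1 * m2))]
  have b1 := hbox (SF.filter (fun a => nm a ≤ 2 * (m1 * m2))) a0 (Finset.filter_subset _ _) le_rfl
    (by linarith) (by
      intro a ha
      rw [Finset.mem_filter] at ha
      have h := mem_PA (Finset.mem_filter.mp ha.1).1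
      rw [ha0]
      exact ⟨by exact_mod_cast h.2.1, by exact_mod_cast ha.2⟩)
  have b2 := hbox (SF.filter (fun a => ¬ nm a ≤ 2 * (m1 * m2))) (2 * a0)
    (Finset.filter_subset _ _) (by linarith) le_rfl (by
      intro a ha
      rw [Finset.mem_filter] at ha
      have h := mem_PA (Finset.mem_filter.mp ha.1).1
      rw [ha0]
      have h1 : 2 * (m1 * m2) ≤ nm a := by omega
      have h2 : nm a ≤ 2 * (2 * (m1 * m2)) := by omega
      exact ⟨by exact_mod_cast h1, by exact_mod_cast h2⟩)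
  rw [norm_mul, Complex.norm_ofNat]
  calc _ ≤ 2 * ((Cs * Kq + 24 * Cs) * ((1 + Real.log (1 + L)) * Qx) +
        (Cs * Kq + 24 * Cs) * ((1 + Real.log (1 + L)) * Qx)) := by
        apply mul_le_mul_of_nonneg_left _ (by norm_num)
        exact (norm_add_le _ _).trans (add_le_add b1 b2)
    _ = _ := by ring

end Crest.Agent.R012.Edge79
end
end

-- ▼ part R012/EdgeK_79
section

/-!
# Row 12 (TIII): `Main48.Edge_Prop` from `T8b`
-/

set_option autoImplicit false

noncomputable section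

namespace Crest.Agent.R012.Edge79

open Eis CharSum852 Tau671 Buch420 Main48

/-! ### dyadic decomposition -/

open Classical in
/-- all primary primes of norm `≤ N` -/
def PN (N : ℕ) : Finset Eis := (primBall N).filter (fun p => Prime p)

lemma mem_PN {N : ℕ} {p : Eis} : p ∈ PN N ↔ nm p ≤ N ∧ IsPrim p ∧ Prime p := by
  simp only [PN, Finset.mem_filter, mem_primBall]; tauto

lemma sum_dyadic {N I : ℕ} (hI : N ≤ 2 ^ I) (g : Eis → ℂ) :
    ∑ p ∈ PN N, g p = ∑ i ∈ Finset.range I, ∑ p ∈ PB N (2 ^ i), g p := by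
  classical
  rw [← Finset.sum_fiberwise_of_maps_to (s := PN N) (t := Finset.range I)
    (g := fun p => Nat.log 2 (nm p - 1))]
  · refine Finset.sum_congr rfl fun i _ => Finset.sum_congr ?_ fun _ _ => rfl
    ext p
    rw [Finset.mem_filter, mem_PN, mem_PB]
    constructor
    · rintro ⟨⟨h1, h2, h3⟩, h4⟩
      have h5 := Cheb420.nm_two_le h3
      have h6 := (Nat.log_eq_iff (b := 2) (m := i) (n := nm p - 1) (Or.inr ⟨by norm_num, by omega⟩)).mp h4
      refine ⟨h2, h3, by omega, h1, ?_⟩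
      have := h6.2
      rw [pow_succ] at this
      omega
    · rintro ⟨h2, h3, h4, h1, h5⟩
      have h6 := Cheb420.nm_two_le h3
      refine ⟨⟨h1, h2, h3⟩, ?_⟩
      rw [Nat.log_eq_iff (Or.inr ⟨by norm_num, by omega⟩)]
      refine ⟨by omega, ?_⟩
      rw [pow_succ]; omega
  · intro p hp
    rw [mem_PN] at hp
    have h6 := Cheb420.nm_two_le hp.2.2
    rw [Finset.mem_range]
    apply Nat.log_lt_of_lt_pow (by omega)
    omega

/-- transfer from `PrP` to `Eis` -/
lemma sum_transfer (X N : ℕ) (D : ℝ) (hN : N = min X (⌈D⌉₊ - 1)) (g : Eis → ℂ) :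
    ∑ p ∈ (UX X).filter (fun p => (nm p.1 : ℝ) < D), g p.1 = ∑ p ∈ PN N, g p := by
  classical
  have hinj : Function.Injective (fun p : PrP => p.1) := Subtype.val_injective
  rw [← Finset.sum_image (f := g) (g := fun p : PrP => p.1) (fun a _ b _ h => hinj h)]
  refine Finset.sum_congr ?_ fun _ _ => rfl
  ext z
  rw [Finset.mem_image, mem_PN]
  constructor
  · rintro ⟨p, hp, rfl⟩
    rw [Finset.mem_filter, mem_UX] at hp
    refine ⟨?_, p.isPrim, p.prime⟩
    have h1 := Nat.lt_ceil.mpr hp.2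
    rw [hN]; omega
  · rintro ⟨h1, h2, h3⟩
    refine ⟨⟨z, h2, h3⟩, ?_, rfl⟩
    rw [Finset.mem_filter, mem_UX]
    have h4 := Cheb420.nm_two_le h3
    have h5 : nm z ≤ X := by rw [hN] at h1; omega
    have h6 : nm z < ⌈D⌉₊ := by rw [hN] at h1; omega
    exact ⟨h5, Nat.lt_ceil.mp h6⟩

/-! ### symmetry of `Tb` -/

lemma Tb_swap12 (l : ℤ) (Y N m m1 m2 : ℕ) : Tb l Y N m m1 m2 = Tb l Y N m1 m m2 := by
  unfold Tb
  rw [Finset.sum_comm]
  refine Finset.sum_congr rfl fun p _ => Finset.sum_congr rfl fun q _ =>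
    Finset.sum_congr rfl fun r _ => ?_
  rw [mul_comm p q]

lemma Tb_swap23 (l : ℤ) (Y N m m1 m2 : ℕ) : Tb l Y N m m1 m2 = Tb l Y N m m2 m1 := by
  unfold Tb
  refine Finset.sum_congr rfl fun p _ => ?_
  rw [Finset.sum_comm]
  refine Finset.sum_congr rfl fun q _ => Finset.sum_congr rfl fun r _ => ?_
  have : p * q * r = p * r * q := by ring
  rw [this]

/-- the box bound without the assumption that the first box is the largest -/
lemma Tb_le' (h8 : EdgeSharp968.T8b) (l : ℤ) (C1 : ℕ) : ∃ K : ℝ, 0 < K ∧ ∃ X0 : ℕ,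
    ∀ X : ℕ, X0 ≤ X → ∀ (N m m1 m2 Y : ℕ), X ≤ 16 * (m * (m1 * m2)) →
      m * (m1 * m2) ≤ X → (m : ℝ) ^ 3 ≤ X * Real.log X ^ C1 →
      (m1 : ℝ) ^ 3 ≤ X * Real.log X ^ C1 → (m2 : ℝ) ^ 3 ≤ X * Real.log X ^ C1 →
      Y ≤ X → X ≤ 3 * Y →
      ‖Tb l Y N m m1 m2‖ ≤ K * ((1 + Real.log (1 + Real.log X)) *
        ((X : ℝ) ^ ((5 : ℝ) / 6) / Real.log X ^ ((3 : ℝ) / 2))) := by
  obtain ⟨K, hK, X0, h⟩ := Tb_le h8 l C1
  refine ⟨K, hK, X0, ?_⟩
  intro X hX N m m1 m2 Y h1 h2 h3 h4 h5 h6 h7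
  by_cases ha : m1 ≤ m ∧ m2 ≤ m
  · exact h X hX N m m1 m2 Y ha.1 ha.2 h1 h2 h3 h6 h7
  · by_cases hb : m ≤ m1 ∧ m2 ≤ m1
    · rw [Tb_swap12]
      have e : m1 * (m * m2) = m * (m1 * m2) := by ring
      exact h X hX N m1 m m2 Y hb.1 hb.2 (by rw [e]; exact h1) (by rw [e]; exact h2) h4 h6 h7
    · have hc : m ≤ m2 ∧ m1 ≤ m2 := by omega
      rw [Tb_swap23, Tb_swap12]
      have e : m2 * (m * m1) = m * (m1 * m2) := by ring
      exact h X hX N m2 m m1 Y hc.1 hc.2 (by rw [e]; exact h1) (by rw [e]; exact h2) h5 h6 h7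

/-- the sum over a box of triples, with the model -/
def T3 (l : ℤ) (X N m m1 m2 : ℕ) : ℂ :=
  ∑ p ∈ PB N m, ∑ q ∈ PB N m1, ∑ r ∈ PB N m2, FX l X (p * q * r)

lemma T3_le {l : ℤ} {X N m m1 m2 : ℕ} (hX : 1 ≤ X) :
    ‖T3 l X N m m1 m2‖ ≤ ‖Tb l X N m m1 m2‖ + ‖Tb l (X / 2) N m m1 m2‖ +
      |pC| * (2 * (X : ℝ) ^ (-(1 : ℝ) / 6)) *
        ((PB N m).card * ((PB N m1).card * (PB N m2).card)) := by
  classical
  set Mo : ℂ := ∑ p ∈ PB N m, ∑ q ∈ PB N m1, ∑ r ∈ PB N m2,
    (if X < 2 * nm (p * q * r) ∧ nm (p * q * r) ≤ X ∧ Squarefree (p * q * r) then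
      ang l (p * q * r) * ((pC * (nm (p * q * r) : ℝ) ^ (-(1 : ℝ) / 6) : ℝ) : ℂ) else 0) with hMo
  have e : T3 l X N m m1 m2 = Tb l X N m m1 m2 - Tb l (X / 2) N m m1 m2 - Mo := by
    unfold T3 Tb
    rw [hMo, ← Finset.sum_sub_distrib, ← Finset.sum_sub_distrib]
    refine Finset.sum_congr rfl fun p hp => ?_
    rw [← Finset.sum_sub_distrib, ← Finset.sum_sub_distrib]
    refine Finset.sum_congr rfl fun q hq => ?_
    rw [← Finset.sum_sub_distrib, ← Finset.sum_sub_distrib]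
    refine Finset.sum_congr rfl fun r hr => ?_
    have hn : IsPrim (p * q * r) := ((mem_PB.mp hp).1.mul (mem_PB.mp hq).1).mul (mem_PB.mp hr).1
    unfold FX Fl
    by_cases hsf : Squarefree (p * q * r)
    · by_cases h1 : nm (p * q * r) ≤ X
      · by_cases h2 : X < 2 * nm (p * q * r)
        · have h3 : ¬ nm (p * q * r) ≤ X / 2 := by omega
          simp only [h1, h2, h3, hsf, and_self, if_true, if_false]
          ring
        · have h3 : nm (p * q * r) ≤ X / 2 := by omega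
          simp only [h1, h2, h3, hsf, and_self, if_true, if_false, false_and]
          ring
      · have h3 : ¬ nm (p * q * r) ≤ X / 2 := by omega
        simp only [h1, h3, hsf, and_false, if_false, false_and]
        ring
    · have hG : G (p * q * r) = 0 := Gauss880.G_eq_zero Gauss880.syG hn hsf
      simp [hsf, hG]
  rw [e]
  refine (norm_sub_le _ _).trans (add_le_add (norm_sub_le _ _) ?_)
  rw [hMo]
  have hXr : (0 : ℝ) < X := by exact_mod_cast hX
  set W : ℝ := |pC| * (2 * (X : ℝ) ^ (-(1 : ℝ) / 6)) with hW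
  have hW0 : 0 ≤ W := by positivity
  calc _ ≤ ∑ p ∈ PB N m, ∑ q ∈ PB N m1, ∑ r ∈ PB N m2, W := by
        refine (norm_sum_le _ _).trans (Finset.sum_le_sum fun p _ => ?_)
        refine (norm_sum_le _ _).trans (Finset.sum_le_sum fun q _ => ?_)
        refine (norm_sum_le _ _).trans (Finset.sum_le_sum fun r _ => ?_)
        split_ifs with h
        · obtain ⟨h1, h2, h3⟩ := h
          rw [norm_mul, Complex.norm_real, Real.norm_eq_abs, abs_mul]
          have hr1 : (X : ℝ) / 2 ≤ nm (p * q * r) := by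
            have : (X : ℝ) < 2 * nm (p * q * r) := by exact_mod_cast h1
            linarith
          have hr2 : (nm (p * q * r) : ℝ) ^ (-(1 : ℝ) / 6) ≤ 2 * (X : ℝ) ^ (-(1 : ℝ) / 6) := by
            have e1 : (nm (p * q * r) : ℝ) ^ (-(1 : ℝ) / 6) ≤ ((X : ℝ) / 2) ^ (-(1 : ℝ) / 6) :=
              Real.rpow_le_rpow_of_nonpos (by positivity) hr1 (by norm_num)
            refine e1.trans ?_
            rw [Real.div_rpow hXr.le (by norm_num), div_eq_mul_inv, mul_comm]
            apply mul_le_mul_of_nonneg_right _ (by positivity)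
            rw [← Real.rpow_neg (by norm_num)]
            calc (2 : ℝ) ^ (-(-(1 : ℝ) / 6)) ≤ 2 ^ (1 : ℝ) :=
                  Real.rpow_le_rpow_of_exponent_le (by norm_num) (by norm_num)
              _ = 2 := Real.rpow_one _
          have hr3 : 0 ≤ (nm (p * q * r) : ℝ) ^ (-(1 : ℝ) / 6) := by positivity
          rw [abs_of_nonneg hr3]
          have h4 := P355.norm_ang_le l (p * q * r)
          calc ‖ang l (p * q * r)‖ * (|pC| * (nm (p * q * r) : ℝ) ^ (-(1 : ℝ) / 6))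
              ≤ 1 * (|pC| * (2 * (X : ℝ) ^ (-(1 : ℝ) / 6))) := by gcongr
            _ = W := by rw [one_mul]
        · simpa using hW0
    _ = _ := by
        simp only [Finset.sum_const, nsmul_eq_mul]
        ring

end Crest.Agent.R012.Edge79
end
end

-- ▼ part R012/Edge_79
section

/-!
# Row 12 (TIII): `edge_prop : T8b → Main48.Edge_Prop`
-/

set_option autoImplicit false

noncomputable section

namespace Crest.Agent.R012.Edge79

open Eis CharSum852 Tau671 Buch420 Main48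

/-- `(1 + log (1 + L))^4 ≤ C L^{1/4}` -/
lemma loglog_pow_le {L : ℝ} (hL : 1 ≤ L) :
    (1 + Real.log (1 + L)) ^ 4 ≤ 66 ^ 4 * L ^ ((1 : ℝ) / 4) := by
  have h0 : 0 ≤ Real.log (1 + L) := Real.log_nonneg (by linarith)
  have h1 : Real.log (1 + L) ≤ (1 + L) ^ ((1 : ℝ) / 32) / (1 / 32) :=
    Real.log_le_rpow_div (by linarith) (by norm_num)
  have h2 : (1 + L) ^ ((1 : ℝ) / 32) ≤ 2 * L ^ ((1 : ℝ) / 32) := by
    calc (1 + L) ^ ((1 : ℝ) / 32) ≤ (2 * L) ^ ((1 : ℝ) / 32) :=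
          Real.rpow_le_rpow (by linarith) (by linarith) (by norm_num)
      _ = 2 ^ ((1 : ℝ) / 32) * L ^ ((1 : ℝ) / 32) := Real.mul_rpow (by norm_num) (by linarith)
      _ ≤ 2 ^ (1 : ℝ) * L ^ ((1 : ℝ) / 32) := by
          apply mul_le_mul_of_nonneg_right _ (by positivity)
          exact Real.rpow_le_rpow_of_exponent_le (by norm_num) (by norm_num)
      _ = _ := by rw [Real.rpow_one]
  have h3 : (1 : ℝ) ≤ L ^ ((1 : ℝ) / 32) := Real.one_le_rpow hL (by norm_num)
  have h4 : 1 + Real.log (1 + L) ≤ 66 * L ^ ((1 : ℝ) / 32) := by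
    have : (1 + L) ^ ((1 : ℝ) / 32) / (1 / 32) = 32 * (1 + L) ^ ((1 : ℝ) / 32) := by ring
    rw [this] at h1
    linarith
  calc (1 + Real.log (1 + L)) ^ 4 ≤ (66 * L ^ ((1 : ℝ) / 32)) ^ 4 :=
        pow_le_pow_left₀ (by linarith) h4 4
    _ = 66 ^ 4 * L ^ ((1 : ℝ) / 8) := by
        rw [mul_pow, ← Real.rpow_natCast (L ^ ((1 : ℝ) / 32)), ← Real.rpow_mul (by linarith)]
        norm_num
    _ ≤ _ := by
        apply mul_le_mul_of_nonneg_left _ (by norm_num)
        exact Real.rpow_le_rpow_of_exponent_le hL (by norm_num)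

/-- the relevant dyadic indices -/
def Gd (X N I : ℕ) : Finset ℕ := (Finset.range I).filter (fun i => X < 4 * 2 ^ i * N ^ 2 ∧ 2 ^ i < N)

lemma mem_Gd {X N I i : ℕ} : i ∈ Gd X N I ↔ i < I ∧ X < 4 * 2 ^ i * N ^ 2 ∧ 2 ^ i < N := by
  simp [Gd]

/-- few indices -/
lemma card_Gd_le {X N I : ℕ} {L : ℝ} {k : ℕ} (hX : 1 ≤ X) (hL : 1 ≤ L)
    (hN : (N : ℝ) ^ 3 ≤ X * L ^ k) :
    ((Gd X N I).card : ℝ) ≤ (3 + 2 * k) * (1 + Real.log (1 + L)) := by
  have hlog0 : 0 ≤ Real.log (1 + L) := Real.log_nonneg (by linarith)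
  rcases Finset.eq_empty_or_nonempty (Gd X N I) with h | hne
  · rw [h]; simp only [Finset.card_empty, Nat.cast_zero]; positivity
  · set a := (Gd X N I).min' hne with ha
    set b := (Gd X N I).max' hne with hb
    have hab : a ≤ b := Finset.min'_le_max' _ _
    have h1 := mem_Gd.mp ((Gd X N I).min'_mem hne)
    have h2 := mem_Gd.mp ((Gd X N I).max'_mem hne)
    rw [← ha] at h1
    rw [← hb] at h2
    have hcard : (Gd X N I).card ≤ b - a + 1 := by
      have : Gd X N I ⊆ Finset.Icc a b := fun i hi =>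
        Finset.mem_Icc.mpr ⟨Finset.min'_le _ _ hi, Finset.le_max' _ _ hi⟩
      refine (Finset.card_le_card this).trans ?_
      rw [Nat.card_Icc]; omega
    have hXr : (0 : ℝ) < X := by exact_mod_cast hX
    have e1 : (2 : ℝ) ^ (b - a) ≤ 4 * L ^ k := by
      have r1 : (X : ℝ) ≤ 4 * 2 ^ a * (N : ℝ) ^ 2 := by exact_mod_cast h1.2.1.le
      have r2 : (2 : ℝ) ^ b ≤ N := by exact_mod_cast h2.2.2.le
      have r3 : (2 : ℝ) ^ b = 2 ^ a * 2 ^ (b - a) := by rw [← pow_add]; congr 1; omega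
      have r4 : (X : ℝ) * 2 ^ (b - a) ≤ X * (4 * L ^ k) := by
        calc (X : ℝ) * 2 ^ (b - a) ≤ (4 * 2 ^ a * (N : ℝ) ^ 2) * 2 ^ (b - a) := by gcongr
          _ = 4 * (N : ℝ) ^ 2 * (2 : ℝ) ^ b := by rw [r3]; ring
          _ ≤ 4 * (N : ℝ) ^ 2 * N := by gcongr
          _ = 4 * (N : ℝ) ^ 3 := by ring
          _ ≤ 4 * (X * L ^ k) := by gcongr
          _ = _ := by ring
      exact le_of_mul_le_mul_left r4 hXr
    have e2 : ((b - a : ℕ) : ℝ) * Real.log 2 ≤ 2 * Real.log 2 + k * Real.log L := by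
      have := Real.log_le_log (by positivity) e1
      rw [Real.log_pow, Real.log_mul (by norm_num) (by positivity), Real.log_pow] at this
      have h4 : Real.log 4 = 2 * Real.log 2 := by
        rw [show (4 : ℝ) = 2 ^ 2 by norm_num, Real.log_pow]; norm_num
      rw [h4] at this
      exact this
    have hl2 := Real.log_two_gt_d9
    have hlL : Real.log L ≤ Real.log (1 + L) := Real.log_le_log (by linarith) (by linarith)
    have hlL0 : 0 ≤ Real.log L := Real.log_nonneg hL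
    have e3 : ((b - a : ℕ) : ℝ) ≤ 2 + 2 * k * Real.log (1 + L) := by
      have hk : (0 : ℝ) ≤ k := Nat.cast_nonneg _
      have e4 : ((b - a : ℕ) : ℝ) * Real.log 2 ≤ (2 + 2 * k * Real.log (1 + L)) * Real.log 2 := by
        have : k * Real.log L ≤ 2 * k * Real.log (1 + L) * Real.log 2 := by
          have h5 : k * Real.log L ≤ k * Real.log (1 + L) := by gcongr
          have h6 : 0 ≤ k * Real.log (1 + L) := by positivity
          nlinarith
        linarith
      exact le_of_mul_le_mul_right e4 (by linarith)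
    have hcard' : ((Gd X N I).card : ℝ) ≤ ((b - a : ℕ) : ℝ) + 1 := by exact_mod_cast hcard
    have hk : (0 : ℝ) ≤ k := Nat.cast_nonneg _
    nlinarith

/-- each relevant box is at least `X^{1/4}` -/
lemma card_PB_Gd {X N I i : ℕ} {P : ℝ} (hX : 16 ≤ X) (hP : 1 ≤ P) (hN : (N : ℝ) ^ 3 ≤ X * P)
    (hP4 : (64 * P ^ 2) ^ 4 ≤ X) (hi : i ∈ Gd X N I) :
    ((PB N (2 ^ i)).card : ℝ) ≤ 400 * (2 ^ i / Real.log X) := by
  have h := mem_Gd.mp hi
  have hXr : (16 : ℝ) ≤ X := by exact_mod_cast hX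
  have hXp : (0 : ℝ) < X := by linarith
  set a : ℝ := 2 ^ i with ha
  have ha0 : 0 < a := by positivity
  have r1 : (X : ℝ) ≤ 4 * a * (N : ℝ) ^ 2 := by rw [ha]; exact_mod_cast h.2.1.le
  have r2 : (X : ℝ) ^ 3 ≤ 64 * a ^ 3 * (X * P) ^ 2 := by
    calc (X : ℝ) ^ 3 ≤ (4 * a * (N : ℝ) ^ 2) ^ 3 := pow_le_pow_left₀ hXp.le r1 3
      _ = 64 * a ^ 3 * ((N : ℝ) ^ 3) ^ 2 := by ring
      _ ≤ _ := by gcongr
  have r3 : (X : ℝ) ≤ (64 * P ^ 2) * a ^ 3 := by
    have : (X : ℝ) ^ 2 * X ≤ X ^ 2 * ((64 * P ^ 2) * a ^ 3) := by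
      calc (X : ℝ) ^ 2 * X = X ^ 3 := by ring
        _ ≤ 64 * a ^ 3 * (X * P) ^ 2 := r2
        _ = _ := by ring
    exact le_of_mul_le_mul_left this (by positivity)
  have r4 : (X : ℝ) * X ^ 3 ≤ X * (a ^ 4) ^ 3 := by
    calc (X : ℝ) * X ^ 3 = X ^ 4 := by ring
      _ ≤ ((64 * P ^ 2) * a ^ 3) ^ 4 := pow_le_pow_left₀ hXp.le r3 4
      _ = (64 * P ^ 2) ^ 4 * (a ^ 4) ^ 3 := by ring
      _ ≤ _ := by gcongr
  have r5 : (X : ℝ) ≤ a ^ 4 :=
    le_of_pow_le_pow_left₀ (by norm_num) (by positivity) (le_of_mul_le_mul_left r4 hXp)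
  have hlogX : 0 < Real.log X := Real.log_pos (by linarith)
  have r6 : Real.log X / 4 ≤ Real.log a := by
    have h1 := Real.log_le_log hXp r5
    rw [Real.log_pow] at h1
    push_cast at h1
    linarith
  have ha2 : 2 ≤ 2 ^ i := by
    rcases Nat.eq_zero_or_pos i with h0 | h0
    · exfalso
      have : a = 1 := by rw [ha, h0]; norm_num
      rw [this] at r5; norm_num at r5
      have h6 : X ≤ 1 := by exact_mod_cast r5
      omega
    · calc 2 = 2 ^ 1 := by norm_num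
        _ ≤ 2 ^ i := Nat.pow_le_pow_right (by norm_num) h0
  have hc := card_PB_le (N := N) (m := 2 ^ i) ha2
  have hcast : ((2 ^ i : ℕ) : ℝ) = a := by rw [ha]; push_cast; rfl
  rw [hcast] at hc
  refine hc.trans ?_
  calc 100 * (a / Real.log a) ≤ 100 * (a / (Real.log X / 4)) := by gcongr
    _ = _ := by field_simp; norm_num

/-- **Edge triples.** -/
theorem edge_prop (h8 : EdgeSharp968.T8b) : Edge_Prop := by
  classical
  intro l C0
  set C1 : ℕ := ⌈C0⌉₊ with hC1
  set k : ℕ := 3 * C1 with hk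
  obtain ⟨Kt, hKt, X1, hT⟩ := Tb_le' h8 l k
  obtain ⟨X2, hX2⟩ := exists_log_pow_le (8 * k) (64 ^ 4)
  obtain ⟨X3, hX3⟩ := exists_le_log 1
  set Kb : ℝ := 2 * Kt + |pC| * (2 * 400 ^ 3) with hKb
  have hKb0 : 0 < Kb := by positivity
  refine ⟨(3 + 2 * k) ^ 3 * Kb * 66 ^ 4, max (max X1 X2) (max X3 16), ?_⟩
  intro X hX
  have hXX1 : X1 ≤ X := (le_max_left _ _).trans ((le_max_left _ _).trans hX)
  have hXX2 : X2 ≤ X := (le_max_right _ _).trans ((le_max_left _ _).trans hX)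
  have hXX3 : X3 ≤ X := (le_max_left _ _).trans ((le_max_right _ _).trans hX)
  have hX16 : 16 ≤ X := (le_max_right _ _).trans ((le_max_right _ _).trans hX)
  have hXr : (16 : ℝ) ≤ X := by exact_mod_cast hX16
  have hXp : (0 : ℝ) < X := by linarith
  show ‖∑ p ∈ (UX X).filter (fun p => (nm p.1 : ℝ) < (X : ℝ) ^ ((1 : ℝ) / 3) * LX X ^ C0),
    ∑ q ∈ (UX X).filter (fun p => (nm p.1 : ℝ) < (X : ℝ) ^ ((1 : ℝ) / 3) * LX X ^ C0),
    ∑ r ∈ (UX X).filter (fun p => (nm p.1 : ℝ) < (X : ℝ) ^ ((1 : ℝ) / 3) * LX X ^ C0),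
      FX l X (p.1 * q.1 * r.1)‖ ≤ _
  unfold LX
  set L := Real.log X with hL
  have hL1 : 1 ≤ L := hX3 X hXX3
  have hL0 : 0 < L := by linarith
  set D : ℝ := (X : ℝ) ^ ((1 : ℝ) / 3) * L ^ C0 with hD
  set P : ℝ := L ^ k with hP
  have hP1 : 1 ≤ P := one_le_pow₀ hL1
  set N : ℕ := min X (⌈D⌉₊ - 1) with hN
  have hD0 : 0 < D := by positivity
  have hND : (N : ℝ) ≤ D := by
    have h1 : N ≤ ⌈D⌉₊ - 1 := min_le_right _ _
    have h2 : 0 < ⌈D⌉₊ := Nat.ceil_pos.mpr hD0
    have h3 : N < ⌈D⌉₊ := by omega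
    exact (Nat.lt_ceil.mp h3).le
  have hN3 : (N : ℝ) ^ 3 ≤ X * P := by
    have h1 : (N : ℝ) ^ 3 ≤ D ^ 3 := pow_le_pow_left₀ (Nat.cast_nonneg _) hND 3
    refine h1.trans ?_
    have h2 : L ^ C0 ≤ L ^ (C1 : ℝ) := Real.rpow_le_rpow_of_exponent_le hL1 (Nat.le_ceil _)
    have h3 : D ≤ (X : ℝ) ^ ((1 : ℝ) / 3) * L ^ C1 := by
      rw [hD, ← Real.rpow_natCast L C1]; gcongr
    calc D ^ 3 ≤ ((X : ℝ) ^ ((1 : ℝ) / 3) * L ^ C1) ^ 3 := pow_le_pow_left₀ hD0.le h3 3
      _ = X * P := by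
          rw [mul_pow, ← Real.rpow_natCast ((X : ℝ) ^ ((1 : ℝ) / 3)), ← Real.rpow_mul hXp.le, hP,
            hk, ← pow_mul, mul_comm C1 3]
          norm_num
  have hP4 : (64 * P ^ 2) ^ 4 ≤ (X : ℝ) := by
    have := hX2 X hXX2
    rw [mul_pow, ← pow_mul]
    rwa [mul_comm 8 k, pow_mul] at this
  obtain ⟨I, hI⟩ : ∃ I : ℕ, N ≤ 2 ^ I := ⟨N, Nat.lt_two_pow_self.le⟩
  -- transfer and dyadic decomposition
  have htr : ∀ g : Eis → ℂ, ∑ p ∈ (UX X).filter (fun p => (nm p.1 : ℝ) < D), g p.1 =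
      ∑ i ∈ Finset.range I, ∑ p ∈ PB N (2 ^ i), g p := fun g => by
    rw [sum_transfer X N D hN g, sum_dyadic hI g]
  have h1 : ∑ p ∈ (UX X).filter (fun p => (nm p.1 : ℝ) < D),
      ∑ q ∈ (UX X).filter (fun p => (nm p.1 : ℝ) < D),
      ∑ r ∈ (UX X).filter (fun p => (nm p.1 : ℝ) < D), FX l X (p.1 * q.1 * r.1) =
      ∑ i ∈ Finset.range I, ∑ j ∈ Finset.range I, ∑ k ∈ Finset.range I,
        T3 l X N (2 ^ i) (2 ^ j) (2 ^ k) := by
    rw [htr (fun p => ∑ q ∈ (UX X).filter (fun p => (nm p.1 : ℝ) < D),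
      ∑ r ∈ (UX X).filter (fun p => (nm p.1 : ℝ) < D), FX l X (p * q.1 * r.1))]
    refine Finset.sum_congr rfl fun i _ => ?_
    have h2 : ∀ p ∈ PB N (2 ^ i), ∑ q ∈ (UX X).filter (fun p => (nm p.1 : ℝ) < D),
        ∑ r ∈ (UX X).filter (fun p => (nm p.1 : ℝ) < D), FX l X (p * q.1 * r.1) =
        ∑ j ∈ Finset.range I, ∑ q ∈ PB N (2 ^ j), ∑ k ∈ Finset.range I, ∑ r ∈ PB N (2 ^ k),
          FX l X (p * q * r) := by
      intro p _
      rw [htr (fun q => ∑ r ∈ (UX X).filter (fun p => (nm p.1 : ℝ) < D), FX l X (p * q * r.1))]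
      refine Finset.sum_congr rfl fun j _ => Finset.sum_congr rfl fun q _ => ?_
      rw [htr (fun r => FX l X (p * q * r))]
    rw [Finset.sum_congr rfl h2, Finset.sum_comm]
    refine Finset.sum_congr rfl fun j _ => ?_
    unfold T3
    rw [Finset.sum_comm' (s := Finset.range I) (t := fun _ => PB N (2 ^ i))
      (s' := fun _ => Finset.range I) (t' := PB N (2 ^ i)) (by simp [and_comm])]
    refine Finset.sum_congr rfl fun p _ => ?_
    rw [Finset.sum_comm]
  rw [h1]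
  -- only the good indices
  have hzero : ∀ i j k : ℕ, ¬ (X < 4 * 2 ^ i * N ^ 2 ∧ 2 ^ i < N ∧ X < 4 * 2 ^ j * N ^ 2 ∧
      2 ^ j < N ∧ X < 4 * 2 ^ k * N ^ 2 ∧ 2 ^ k < N ∧ X ≤ 16 * (2 ^ i * (2 ^ j * 2 ^ k)) ∧
      2 ^ i * (2 ^ j * 2 ^ k) ≤ X) → T3 l X N (2 ^ i) (2 ^ j) (2 ^ k) = 0 := by
    intro i j k hcon
    unfold T3
    refine Finset.sum_eq_zero fun p hp => Finset.sum_eq_zero fun q hq =>
      Finset.sum_eq_zero fun r hr => ?_
    by_contra hne
    apply hcon
    rw [mem_PB] at hp hq hr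
    obtain ⟨-, -, p1, p2, p3⟩ := hp
    obtain ⟨-, -, q1, q2, q3⟩ := hq
    obtain ⟨-, -, r1, r2, r3⟩ := hr
    have hcond : X < 2 * nm (p * q * r) ∧ nm (p * q * r) ≤ X := by
      by_contra hc
      apply hne
      unfold FX
      rw [if_neg hc]
    obtain ⟨c1, c2⟩ := hcond
    rw [nm_mul, nm_mul] at c1 c2
    have b1 : nm p * nm q * nm r ≤ (2 * 2 ^ i) * N * N :=
      Nat.mul_le_mul (Nat.mul_le_mul p3 q2) r2
    have b2 : nm p * nm q * nm r ≤ N * (2 * 2 ^ j) * N :=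
      Nat.mul_le_mul (Nat.mul_le_mul p2 q3) r2
    have b3 : nm p * nm q * nm r ≤ N * N * (2 * 2 ^ k) :=
      Nat.mul_le_mul (Nat.mul_le_mul p2 q2) r3
    have b4 : nm p * nm q * nm r ≤ (2 * 2 ^ i) * (2 * 2 ^ j) * (2 * 2 ^ k) :=
      Nat.mul_le_mul (Nat.mul_le_mul p3 q3) r3
    have b5 : 2 ^ i * 2 ^ j * 2 ^ k ≤ nm p * nm q * nm r :=
      Nat.mul_le_mul (Nat.mul_le_mul p1.le q1.le) r1.le
    refine ⟨?_, by omega, ?_, by omega, ?_, by omega, ?_, ?_⟩
    · calc X < 2 * (nm p * nm q * nm r) := c1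
        _ ≤ 2 * ((2 * 2 ^ i) * N * N) := Nat.mul_le_mul_left _ b1
        _ = _ := by ring
    · calc X < 2 * (nm p * nm q * nm r) := c1
        _ ≤ 2 * (N * (2 * 2 ^ j) * N) := Nat.mul_le_mul_left _ b2
        _ = _ := by ring
    · calc X < 2 * (nm p * nm q * nm r) := c1
        _ ≤ 2 * (N * N * (2 * 2 ^ k)) := Nat.mul_le_mul_left _ b3
        _ = _ := by ring
    · calc X ≤ 2 * (nm p * nm q * nm r) := c1.le
        _ ≤ 2 * ((2 * 2 ^ i) * (2 * 2 ^ j) * (2 * 2 ^ k)) := Nat.mul_le_mul_left _ b4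
        _ = _ := by ring
    · calc 2 ^ i * (2 ^ j * 2 ^ k) = 2 ^ i * 2 ^ j * 2 ^ k := by ring
        _ ≤ nm p * nm q * nm r := b5
        _ ≤ X := c2
  set Qx : ℝ := (X : ℝ) ^ ((5 : ℝ) / 6) / L ^ ((3 : ℝ) / 2) with hQx
  have hQx0 : 0 ≤ Qx := by positivity
  set LL : ℝ := 1 + Real.log (1 + L) with hLL
  have hLL1 : 1 ≤ LL := by
    have : 0 ≤ Real.log (1 + L) := Real.log_nonneg (by linarith)
    linarith
  have hcell : ∀ i ∈ Gd X N I, ∀ j ∈ Gd X N I, ∀ k' ∈ Gd X N I,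
      ‖T3 l X N (2 ^ i) (2 ^ j) (2 ^ k')‖ ≤ Kb * (LL * Qx) := by
    intro i hi j hj k' hk'
    by_cases hbox : X ≤ 16 * (2 ^ i * (2 ^ j * 2 ^ k')) ∧ 2 ^ i * (2 ^ j * 2 ^ k') ≤ X
    · have gi := mem_Gd.mp hi
      have gj := mem_Gd.mp hj
      have gk := mem_Gd.mp hk'
      have cube : ∀ x : ℕ, 2 ^ x < N → (((2 ^ x : ℕ) : ℝ)) ^ 3 ≤ X * L ^ k := by
        intro x hx
        refine le_trans ?_ hN3
        have : ((2 ^ x : ℕ) : ℝ) ≤ N := by exact_mod_cast hx.le
        exact pow_le_pow_left₀ (Nat.cast_nonneg _) this 3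
      have t1 := hT X hXX1 N (2 ^ i) (2 ^ j) (2 ^ k') X hbox.1 hbox.2 (cube i gi.2.2)
        (cube j gj.2.2) (cube k' gk.2.2) le_rfl (by omega)
      have t2 := hT X hXX1 N (2 ^ i) (2 ^ j) (2 ^ k') (X / 2) hbox.1 hbox.2 (cube i gi.2.2)
        (cube j gj.2.2) (cube k' gk.2.2) (by omega) (by omega)
      have t3 := T3_le (l := l) (X := X) (N := N) (m := 2 ^ i) (m1 := 2 ^ j) (m2 := 2 ^ k')
        (by omega)
      have n1 := card_PB_Gd hX16 hP1 hN3 hP4 hi
      have n2 := card_PB_Gd hX16 hP1 hN3 hP4 hj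
      have n3 := card_PB_Gd hX16 hP1 hN3 hP4 hk'
      have hbr : (2 : ℝ) ^ i * (2 ^ j * 2 ^ k') ≤ X := by exact_mod_cast hbox.2
      have t4 : |pC| * (2 * (X : ℝ) ^ (-(1 : ℝ) / 6)) *
          (((PB N (2 ^ i)).card : ℝ) * ((PB N (2 ^ j)).card * (PB N (2 ^ k')).card)) ≤
          |pC| * (2 * 400 ^ 3) * Qx := by
        calc _ ≤ |pC| * (2 * (X : ℝ) ^ (-(1 : ℝ) / 6)) *
              ((400 * (2 ^ i / L)) * ((400 * (2 ^ j / L)) * (400 * (2 ^ k' / L)))) := by gcongr
          _ = |pC| * (2 * 400 ^ 3) * ((X : ℝ) ^ (-(1 : ℝ) / 6) * (2 ^ i * (2 ^ j * 2 ^ k')) /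
                L ^ 3) := by field_simp
          _ ≤ |pC| * (2 * 400 ^ 3) * ((X : ℝ) ^ (-(1 : ℝ) / 6) * X / L ^ 3) := by gcongr
          _ ≤ |pC| * (2 * 400 ^ 3) * Qx := by
              apply mul_le_mul_of_nonneg_left _ (by positivity)
              rw [hQx]
              have e1 : (X : ℝ) ^ (-(1 : ℝ) / 6) * X = (X : ℝ) ^ ((5 : ℝ) / 6) := by
                nth_rewrite 2 [← Real.rpow_one (X : ℝ)]
                rw [← Real.rpow_add hXp]; norm_num
              rw [e1]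
              apply div_le_div_of_nonneg_left (by positivity) (by positivity)
              rw [← Real.rpow_natCast L 3]
              exact Real.rpow_le_rpow_of_exponent_le hL1 (by norm_num)
      have t5 : |pC| * (2 * 400 ^ 3) * Qx ≤ |pC| * (2 * 400 ^ 3) * (LL * Qx) := by
        apply mul_le_mul_of_nonneg_left _ (by positivity)
        nlinarith
      calc _ ≤ _ := t3
        _ ≤ Kt * (LL * Qx) + Kt * (LL * Qx) + |pC| * (2 * 400 ^ 3) * (LL * Qx) := by
            linarith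
        _ = _ := by rw [hKb]; ring
    · rw [hzero i j k' (by tauto), norm_zero]
      positivity
  have hsub : Gd X N I ⊆ Finset.range I := Finset.filter_subset _ _
  have h2 : ∑ i ∈ Finset.range I, ∑ j ∈ Finset.range I, ∑ k' ∈ Finset.range I,
      T3 l X N (2 ^ i) (2 ^ j) (2 ^ k') = ∑ i ∈ Gd X N I, ∑ j ∈ Gd X N I, ∑ k' ∈ Gd X N I,
      T3 l X N (2 ^ i) (2 ^ j) (2 ^ k') := by
    symm
    have s1 : ∀ i j, ∑ k' ∈ Gd X N I, T3 l X N (2 ^ i) (2 ^ j) (2 ^ k') =
        ∑ k' ∈ Finset.range I, T3 l X N (2 ^ i) (2 ^ j) (2 ^ k') := by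
      intro i j
      refine Finset.sum_subset hsub fun k' hk1 hk2 => hzero i j k' ?_
      intro hc
      exact hk2 (mem_Gd.mpr ⟨Finset.mem_range.mp hk1, hc.2.2.2.2.1, hc.2.2.2.2.2.1⟩)
    have s2 : ∀ i, ∑ j ∈ Gd X N I, ∑ k' ∈ Gd X N I, T3 l X N (2 ^ i) (2 ^ j) (2 ^ k') =
        ∑ j ∈ Finset.range I, ∑ k' ∈ Finset.range I, T3 l X N (2 ^ i) (2 ^ j) (2 ^ k') := by
      intro i
      rw [Finset.sum_congr rfl fun j _ => s1 i j]
      refine Finset.sum_subset hsub fun j hj1 hj2 => Finset.sum_eq_zero fun k' _ =>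
        hzero i j k' ?_
      intro hc
      exact hj2 (mem_Gd.mpr ⟨Finset.mem_range.mp hj1, hc.2.2.1, hc.2.2.2.1⟩)
    rw [Finset.sum_congr rfl fun i _ => s2 i]
    refine Finset.sum_subset hsub fun i hi1 hi2 => Finset.sum_eq_zero fun j _ =>
      Finset.sum_eq_zero fun k' _ => hzero i j k' ?_
    intro hc
    exact hi2 (mem_Gd.mpr ⟨Finset.mem_range.mp hi1, hc.1, hc.2.1⟩)
  rw [h2]
  have hcard := card_Gd_le (I := I) (by omega : 1 ≤ X) hL1 hN3
  set g : ℝ := ((Gd X N I).card : ℝ) with hg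
  have hg0 : 0 ≤ g := Nat.cast_nonneg _
  calc ‖∑ i ∈ Gd X N I, ∑ j ∈ Gd X N I, ∑ k' ∈ Gd X N I, T3 l X N (2 ^ i) (2 ^ j) (2 ^ k')‖
      ≤ ∑ i ∈ Gd X N I, ∑ j ∈ Gd X N I, ∑ k' ∈ Gd X N I, Kb * (LL * Qx) := by
        refine (norm_sum_le _ _).trans (Finset.sum_le_sum fun i hi => ?_)
        refine (norm_sum_le _ _).trans (Finset.sum_le_sum fun j hj => ?_)
        refine (norm_sum_le _ _).trans (Finset.sum_le_sum fun k' hk' => ?_)
        exact hcell i hi j hj k' hk'
    _ = g ^ 3 * (Kb * (LL * Qx)) := by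
        simp only [Finset.sum_const, nsmul_eq_mul]; ring
    _ ≤ ((3 + 2 * (k : ℝ)) * LL) ^ 3 * (Kb * (LL * Qx)) := by gcongr
    _ = (3 + 2 * (k : ℝ)) ^ 3 * Kb * (LL ^ 4 * Qx) := by ring
    _ ≤ (3 + 2 * (k : ℝ)) ^ 3 * Kb * ((66 ^ 4 * L ^ ((1 : ℝ) / 4)) * Qx) := by
        gcongr
        exact loglog_pow_le hL1
    _ = (3 + 2 * (k : ℝ)) ^ 3 * Kb * 66 ^ 4 * (X : ℝ) ^ ((5 : ℝ) / 6) / L ^ (5 / 4 : ℝ) := by
        rw [hQx]
        have e1 : L ^ ((3 : ℝ) / 2) = L ^ ((1 : ℝ) / 4) * L ^ (5 / 4 : ℝ) := by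
          rw [← Real.rpow_add hL0]; norm_num
        rw [e1]
        have hq : 0 < L ^ ((1 : ℝ) / 4) := by positivity
        field_simp

end Crest.Agent.R012.Edge79
end
end

-- ▼ part R012/FinSplit_713
section

/-!
# Row 12, part (F): Gauss sums of split primes and the classical cubic sums
-/

set_option autoImplicit false
set_option linter.unusedSimpArgs false
set_option linter.unusedVariables false

noncomputable section

open Complex

namespace Crest.Agent.R012

open Eis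

namespace Fin713

/-! ### `sy` at a prime -/

lemma sy0_congr_assoc {x p q : Eis} (h : Associated p q) : sy0 x p = sy0 x q := by
  have h1 : ∀ y, (p ∣ y) = (q ∣ y) := fun y => propext h.dvd_iff_dvd_left
  unfold sy0
  rw [Eis.nm_eq_of_associated h, h1, h1, h1]

lemma sy_prime {x p : Eis} (hp : Prime p) : sy x p = sy0 x p := by
  unfold sy
  obtain ⟨q, h, hq⟩ := UniqueFactorizationMonoid.factors_eq_singleton_of_irreducible hp.irreducible
  rw [hq]
  simp only [Multiset.map_singleton, Multiset.prod_singleton]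
  exact (sy0_congr_assoc h).symm

/-! ### rational integers modulo a split prime -/

/-- data of a primary prime of rational prime norm -/
structure Split (p : ℕ) (π : Eis) : Prop where
  pp : p.Prime
  hn : nm π = p
  prim : IsPrim π

variable {p : ℕ} {π : Eis}

lemma Split.mod (h : Split p π) : p % 3 = 1 := by rw [← h.hn]; exact h.prim.nm_mod

lemma Split.conj (h : Split p π) : Split p (Eis.conj π) :=
  ⟨h.pp, by rw [nm_conj, h.hn], h.prim.conj⟩

lemma Split.mul_conj (h : Split p π) : π * Eis.conj π = (p : Eis) := by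
  rw [Eis.mul_conj, h.hn]

lemma prime_of_nm_prime {z : Eis} (h : (nm z).Prime) : Prime z := by
  apply Irreducible.prime
  constructor
  · rw [isUnit_iff]; exact h.one_lt.ne'
  · intro a b hab
    rw [hab, nm_mul] at h
    rcases Nat.prime_mul_iff.mp h with h | h
    · exact Or.inr (isUnit_iff.mpr h.2)
    · exact Or.inl (isUnit_iff.mpr h.2)

lemma Split.prime (h : Split p π) : Prime π := prime_of_nm_prime (by rw [h.hn]; exact h.pp)

lemma Split.dvd_intCast (h : Split p π) (n : ℤ) : π ∣ (n : Eis) ↔ (p : ℤ) ∣ n := by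
  constructor
  · rintro ⟨t, ht⟩
    have h1 : (nm (n : Eis) : ℤ) = p * nm t := by rw [ht, nm_mul, h.hn]; push_cast; ring
    rw [nm_intCast] at h1
    have h2 : (p : ℤ) ∣ n ^ 2 := ⟨nm t, h1⟩
    exact Int.Prime.dvd_pow' h.pp h2
  · rintro ⟨t, rfl⟩
    push_cast
    rw [← h.mul_conj, mul_assoc]
    exact dvd_mul_right _ _

/-- there is an integer `r` with `ω ≡ r mod π` -/
lemma Split.exists_r (h : Split p π) : ∃ r : ℤ, π ∣ w - (r : Eis) := by
  -- p does not divide π.im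
  have hb : ¬ (p : ℤ) ∣ π.im := by
    intro hb
    have h1 : (nm π : ℤ) = p := by rw [h.hn]
    rw [nm_cast] at h1
    have h2 : (p : ℤ) ∣ π.re := by
      have : (p : ℤ) ∣ π.re ^ 2 := by
        have : π.re ^ 2 = p + π.re * π.im - π.im ^ 2 := by linarith
        rw [this]
        obtain ⟨t, ht⟩ := hb
        exact ⟨1 + π.re * t - π.im * t, by rw [ht]; ring⟩
      exact Int.Prime.dvd_pow' h.pp this
    obtain ⟨s, hs⟩ := hb
    obtain ⟨t, ht⟩ := h2
    rw [hs, ht] at h1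
    have h3 : (p : ℤ) * (p * (t ^ 2 - t * s + s ^ 2) - 1) = 0 := by linarith
    have hp0 : (p : ℤ) ≠ 0 := by exact_mod_cast h.pp.ne_zero
    rcases mul_eq_zero.mp h3 with h4 | h4
    · exact hp0 h4
    · have h5 : (p : ℤ) ∣ 1 := ⟨t ^ 2 - t * s + s ^ 2, by linarith⟩
      have : p ∣ 1 := by exact_mod_cast h5
      exact h.pp.one_lt.ne' (Nat.dvd_one.mp this)
  have hcop : IsCoprime (p : ℤ) π.im :=
    (Int.isCoprime_iff_gcd_eq_one.mpr (by
      have h1 := (Nat.Prime.coprime_iff_not_dvd h.pp (n := π.im.natAbs)).mpr (by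
        intro h'
        exact hb (Int.natCast_dvd.mpr h'))
      simpa [Int.gcd, Nat.Coprime] using h1))
  obtain ⟨k, b', hk⟩ := hcop
  -- k p + b' b = 1
  refine ⟨-(π.re * b'), ?_⟩
  have h1 : w - ((-(π.re * b') : ℤ) : Eis) = (b' : Eis) * π + (k : Eis) * (p : Eis) * w := by
    have h2 : (k : Eis) * (p : Eis) + (b' : Eis) * (π.im : Eis) = 1 := by
      have := congrArg (fun x : ℤ => (x : Eis)) hk
      push_cast at this
      exact this
    have h3 := eq_re_add π
    calc w - ((-(π.re * b') : ℤ) : Eis) = ((k : Eis) * (p : Eis) + (b' : Eis) * (π.im : Eis)) * w +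
          (π.re : Eis) * (b' : Eis) := by rw [h2]; push_cast; ring
      _ = (b' : Eis) * ((π.re : Eis) + (π.im : Eis) * w) + (k : Eis) * (p : Eis) * w := by ring
      _ = _ := by rw [← h3]
  rw [h1]
  refine dvd_add (dvd_mul_left _ _) ?_
  rw [← h.mul_conj]
  exact ⟨k * Eis.conj π * w, by ring⟩

/-- choice of `r` -/
def Split.r (h : Split p π) : ℤ := h.exists_r.choose

lemma Split.r_spec (h : Split p π) : π ∣ w - (h.r : Eis) := h.exists_r.choose_spec

lemma Split.r_eq (h : Split p π) : (p : ℤ) ∣ h.r ^ 2 + h.r + 1 := by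
  rw [← h.dvd_intCast]
  have h1 := h.r_spec
  obtain ⟨t, ht⟩ := h1
  have h2 : (h.r : Eis) = w - π * t := by rw [← ht]; ring
  push_cast
  rw [h2]
  have := w_sq
  refine ⟨-t * (2 * w - π * t) - t, ?_⟩
  linear_combination this

/-- reduction modulo `π` -/
def Split.red (h : Split p π) : Eis →+* ZMod p where
  toFun z := ((z.re + h.r * z.im : ℤ) : ZMod p)
  map_zero' := by simp
  map_one' := by simp
  map_add' x y := by simp; ring
  map_mul' x y := by
    simp only [re_mul', im_mul']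
    push_cast
    have h3 : ((h.r ^ 2 + h.r + 1 : ℤ) : ZMod p) = 0 :=
      (ZMod.intCast_zmod_eq_zero_iff_dvd _ _).mpr h.r_eq
    push_cast at h3
    linear_combination (-(x.im : ZMod p) * y.im) * h3

lemma Split.red_apply (h : Split p π) (z : Eis) :
    h.red z = ((z.re + h.r * z.im : ℤ) : ZMod p) := rfl

lemma Split.red_eq_zero (h : Split p π) {z : Eis} : h.red z = 0 ↔ π ∣ z := by
  rw [h.red_apply, ZMod.intCast_zmod_eq_zero_iff_dvd, ← h.dvd_intCast]
  have h1 : z = ((z.re + h.r * z.im : ℤ) : Eis) + (z.im : Eis) * (w - (h.r : Eis)) := by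
    conv_lhs => rw [eq_re_add z]
    push_cast
    ring
  have h2 : π ∣ (z.im : Eis) * (w - (h.r : Eis)) := h.r_spec.mul_left _
  constructor
  · intro h3
    rw [h1]
    exact dvd_add h3 h2
  · intro h3
    rw [h1] at h3
    exact (dvd_add_left h2).mp h3

lemma Split.red_eq_iff (h : Split p π) {x y : Eis} : h.red x = h.red y ↔ π ∣ x - y := by
  rw [← sub_eq_zero, ← map_sub, h.red_eq_zero]

lemma Split.red_intCast (h : Split p π) (n : ℤ) : h.red (n : Eis) = (n : ZMod p) := by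
  simp

lemma Split.red_natCast (h : Split p π) (n : ℕ) : h.red (n : Eis) = (n : ZMod p) := by
  simp

/-- sum over a complete residue system modulo a split prime -/
lemma Split.sumMod_eq (h : Split p π) [Fact p.Prime] (f : Eis → ℂ)
    (hf : ∀ x y, π ∣ x - y → f x = f y) :
    sumMod π f = ∑ v : ZMod p, f ((v.val : ℕ) : Eis) := by
  unfold sumMod
  have hbij : Function.Bijective (fun v : ZMod p =>
      (Ideal.Quotient.mk (Ideal.span ({π} : Set Eis)) ((v.val : ℕ) : Eis))) := by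
    constructor
    · intro a b hab
      simp only at hab
      rw [Ideal.Quotient.eq, Ideal.mem_span_singleton, ← h.red_eq_iff, h.red_natCast,
        h.red_natCast, ZMod.natCast_zmod_val, ZMod.natCast_zmod_val] at hab
      exact hab
    · intro q
      obtain ⟨x, rfl⟩ := Ideal.Quotient.mk_surjective q
      refine ⟨h.red x, ?_⟩
      simp only
      rw [Ideal.Quotient.eq, Ideal.mem_span_singleton, ← h.red_eq_iff, h.red_natCast,
        ZMod.natCast_zmod_val]
  rw [← finsum_eq_sum_of_fintype]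
  symm
  refine finsum_eq_of_bijective _ hbij fun v => ?_
  apply hf
  rw [← neg_sub, dvd_neg]
  rw [← Ideal.mem_span_singleton, ← Ideal.Quotient.eq]
  exact Quotient.out_eq _

/-! ### the cubic character of a rational integer -/

/-- the exponent `(p-1)/3` -/
lemma Split.three_m (h : Split p π) : 3 * ((p - 1) / 3) = p - 1 := by
  have := h.mod
  have := h.pp.two_le
  omega

lemma Split.sy_eq (h : Split p π) (v : ZMod p) :
    sy ((v.val : ℕ) : Eis) π = if v = 0 then 0 else if v ^ ((p - 1) / 3) = 1 then 1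
      else if v ^ ((p - 1) / 3) = (h.r : ZMod p) then wC else wC ^ 2 := by
  have : Fact p.Prime := ⟨h.pp⟩
  rw [sy_prime h.prime]
  unfold sy0
  rw [h.hn]
  have e1 : π ∣ ((v.val : ℕ) : Eis) ↔ v = 0 := by
    rw [← h.red_eq_zero, h.red_natCast, ZMod.natCast_zmod_val]
  have e2 : π ∣ ((v.val : ℕ) : Eis) ^ ((p - 1) / 3) - 1 ↔ v ^ ((p - 1) / 3) = 1 := by
    rw [← h.red_eq_iff, map_pow, h.red_natCast, ZMod.natCast_zmod_val, map_one]
  have e3 : π ∣ ((v.val : ℕ) : Eis) ^ ((p - 1) / 3) - w ↔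
      v ^ ((p - 1) / 3) = (h.r : ZMod p) := by
    rw [← h.red_eq_iff, map_pow, h.red_natCast, ZMod.natCast_zmod_val]
    have : h.red w = (h.r : ZMod p) := by simp [h.red_apply]
    rw [this]
  simp only [e1, e2, e3]

lemma Split.r_root (h : Split p π) : (h.r : ZMod p) ^ 2 + (h.r : ZMod p) + 1 = 0 := by
  have h3 : ((h.r ^ 2 + h.r + 1 : ℤ) : ZMod p) = 0 :=
    (ZMod.intCast_zmod_eq_zero_iff_dvd _ _).mpr h.r_eq
  push_cast at h3
  exact h3

lemma Split.r_cube (h : Split p π) : (h.r : ZMod p) ^ 3 = 1 := by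
  have := h.r_root
  linear_combination ((h.r : ZMod p) - 1) * this

lemma Split.r_ne_one (h : Split p π) : (h.r : ZMod p) ≠ 1 := by
  have : Fact p.Prime := ⟨h.pp⟩
  intro h1
  have h2 := h.r_root
  rw [h1] at h2
  have h3 : ((3 : ℕ) : ZMod p) = 0 := by push_cast; linear_combination h2
  rw [ZMod.natCast_eq_zero_iff] at h3
  have := (Nat.prime_dvd_prime_iff_eq h.pp Nat.prime_three).mp h3
  have := h.mod
  omega

lemma Split.pow_m_cases (h : Split p π) {v : ZMod p} (hv : v ≠ 0) :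
    v ^ ((p - 1) / 3) = 1 ∨ v ^ ((p - 1) / 3) = (h.r : ZMod p) ∨
      v ^ ((p - 1) / 3) = (h.r : ZMod p) ^ 2 := by
  have : Fact p.Prime := ⟨h.pp⟩
  have h1 : (v ^ ((p - 1) / 3)) ^ 3 = 1 := by
    rw [← pow_mul, mul_comm, h.three_m]
    exact ZMod.pow_card_sub_one_eq_one hv
  set y := v ^ ((p - 1) / 3)
  have h2 : (y - 1) * ((y - (h.r : ZMod p)) * (y - (h.r : ZMod p) ^ 2)) = 0 := by
    have h3 := h.r_root
    have h4 := h.r_cube
    linear_combination h1 + (-y ^ 2 + y) * h3 + (1 - y) * (-1) * h4 + 0 * h3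
  rcases mul_eq_zero.mp h2 with h3 | h3
  · left; exact sub_eq_zero.mp h3
  · rcases mul_eq_zero.mp h3 with h3 | h3
    · right; left; exact sub_eq_zero.mp h3
    · right; right; exact sub_eq_zero.mp h3

lemma Split.sy_congr (h : Split p π) {x y : Eis} (hxy : π ∣ x - y) : sy x π = sy y π := by
  rw [sy_prime h.prime, sy_prime h.prime]
  have e := h.red_eq_iff.mpr hxy
  have h1 : (π ∣ x) = (π ∣ y) := by rw [← h.red_eq_zero, ← h.red_eq_zero, e]
  have h2 : ∀ (k : ℕ) (c : Eis), (π ∣ x ^ k - c) = (π ∣ y ^ k - c) := fun k c => by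
    rw [← h.red_eq_iff, ← h.red_eq_iff, map_pow, map_pow, e]
  unfold sy0
  rw [h1, h2, h2]

lemma Split.conj_ne (h : Split p π) : Eis.conj π ≠ π := by
  intro h1
  have h2 := congrArg QuadraticAlgebra.im h1
  simp only [Eis.conj_im] at h2
  have h3 : π.im = 0 := by omega
  have h4 : (nm π : ℤ) = p := by rw [h.hn]
  rw [nm_cast, h3] at h4
  have h5 : (p : ℤ) = π.re ^ 2 := by linarith
  have h6 : p = π.re.natAbs ^ 2 := by
    have : ((π.re.natAbs : ℕ) : ℤ) ^ 2 = π.re ^ 2 := by simp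
    rw [← this] at h5
    exact_mod_cast h5
  have := h.pp
  rw [h6] at this
  exact Nat.Prime.not_prime_pow (le_refl 2) this

/-- the trace of `π` -/
def Split.t (_ : Split p π) : ℤ := 2 * π.re - π.im

lemma Split.t_eis (h : Split p π) : (h.t : Eis) = π + Eis.conj π := by
  unfold Split.t
  apply ext' <;> simp <;> ring

lemma Split.t_ne (h : Split p π) : (h.t : ZMod p) ≠ 0 := by
  rw [Ne, ZMod.intCast_zmod_eq_zero_iff_dvd, ← h.dvd_intCast, h.t_eis]
  intro h1
  have h2 : π ∣ Eis.conj π := (dvd_add_right (dvd_refl π)).mp h1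
  have h3 : Associated π (Eis.conj π) :=
    (h.prime.irreducible.associated_of_dvd h.conj.prime.irreducible h2)
  exact h.conj_ne (h.prim.eq_of_associated h.conj.prim h3).symm

lemma eC_toC (y : Eis) : eC (toC y) = 1 := by
  unfold eC
  have : toC y + (starRingEnd ℂ) (toC y) = ((2 * y.re - y.im : ℤ) : ℂ) := by
    apply Complex.ext
    · simp only [add_re, Complex.conj_re, toC_re, Complex.intCast_re]; push_cast; ring
    · simp only [add_im, Complex.conj_im, Complex.intCast_im]; ring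
  rw [this, Complex.exp_eq_one_iff]
  exact ⟨2 * y.re - y.im, by push_cast; ring⟩

lemma eC_add (x y : ℂ) : eC (x + y) = eC x * eC y := by
  unfold eC
  rw [← Complex.exp_add, map_add]
  congr 1
  ring

lemma eC_div_congr {π : Eis} (hπ : π ≠ 0) {x y : Eis} (hxy : π ∣ x - y) :
    eC (toC 1 * toC x / toC π) = eC (toC 1 * toC y / toC π) := by
  obtain ⟨t, ht⟩ := hxy
  have h0 : toC π ≠ 0 := by rwa [Ne, toC_eq_zero]
  have h1 : toC 1 * toC x / toC π = toC 1 * toC y / toC π + toC t := by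
    have : x = y + π * t := by rw [← ht]; ring
    rw [this, map_add, map_mul, map_one]
    field_simp
  rw [h1, eC_add, eC_toC, mul_one]

lemma Split.eC_eq (h : Split p π) [NeZero p] (v : ZMod p) :
    eC (toC 1 * toC ((v.val : ℕ) : Eis) / toC π) = ZMod.stdAddChar ((h.t : ZMod p) * v) := by
  have h0 : toC π ≠ 0 := by rw [Ne, toC_eq_zero]; exact h.prim.ne_zero
  have hv : (h.t : ZMod p) * v = ((h.t * (v.val : ℤ) : ℤ) : ZMod p) := by
    push_cast
    rw [ZMod.natCast_zmod_val]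
  rw [hv, ZMod.stdAddChar_coe]
  unfold eC
  congr 1
  have hp0 : (p : ℂ) ≠ 0 := by exact_mod_cast NeZero.ne p
  have hc : (starRingEnd ℂ) (toC π) ≠ 0 := by rwa [Ne, map_eq_zero]
  have hmul : toC π * (starRingEnd ℂ) (toC π) = (p : ℂ) := by
    rw [← toC_conj, ← map_mul, h.mul_conj, map_natCast]
  have htr : toC π + (starRingEnd ℂ) (toC π) = ((h.t : ℤ) : ℂ) := by
    rw [← toC_conj, ← map_add, ← h.t_eis, map_intCast]
  rw [map_one, one_mul, map_natCast, map_div₀, Complex.conj_natCast]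
  have e1 : ((v.val : ℕ) : ℂ) / toC π + ((v.val : ℕ) : ℂ) / (starRingEnd ℂ) (toC π) =
      ((h.t : ℤ) : ℂ) * (v.val : ℕ) / p := by
    rw [← htr, ← hmul]
    field_simp
    ring
  rw [e1]
  push_cast
  ring

lemma Split.gs_eq (h : Split p π) [Fact p.Prime] :
    gs 1 π = ∑ v : ZMod p, sy ((v.val : ℕ) : Eis) π * ZMod.stdAddChar ((h.t : ZMod p) * v) := by
  unfold gs
  rw [h.sumMod_eq]
  · apply Finset.sum_congr rfl
    intro v _
    rw [h.eC_eq]
  · intro x y hxy
    rw [h.sy_congr hxy, eC_div_congr h.prim.ne_zero hxy]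

lemma Split.r_conj (h : Split p π) : (h.conj.r : ZMod p) = (h.r : ZMod p) ^ 2 := by
  have h1 := conj_dvd_conj h.conj.r_spec
  rw [conj_conj, conj_sub, conj_w] at h1
  have h2 : Eis.conj ((h.conj.r : ℤ) : Eis) = ((h.conj.r : ℤ) : Eis) := map_intCast conjHom _
  rw [h2, ← h.red_eq_iff, h.red_intCast, map_pow] at h1
  rw [← h1]
  congr 1
  simp [h.red_apply]

lemma Split.t_conj (h : Split p π) : h.conj.t = h.t := by
  unfold Split.t
  simp
  ring

lemma wC_add_sq : wC + wC ^ 2 = -1 := by rw [wC_sq]; ring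

/-- number of cube roots -/
def ncube (p : ℕ) [NeZero p] (v : ZMod p) : ℕ := (Finset.univ.filter (fun x : ZMod p => x ^ 3 = v)).card

lemma Split.cube_of_pow (h : Split p π) {v : ZMod p} (hv : v ≠ 0)
    (h1 : v ^ ((p - 1) / 3) = 1) : ∃ s : ZMod p, s ^ 3 = v := by
  have : Fact p.Prime := ⟨h.pp⟩
  obtain ⟨g, hg⟩ := IsCyclic.exists_generator (α := (ZMod p)ˣ)
  set u : (ZMod p)ˣ := Units.mk0 v hv
  obtain ⟨k, hk⟩ := Subgroup.mem_zpowers_iff.mp (hg u)
  have hu : u ^ ((p - 1) / 3) = 1 := by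
    apply Units.ext
    simpa [u] using h1
  have ho : orderOf g = p - 1 := by
    rw [orderOf_eq_card_of_forall_mem_zpowers hg, Nat.card_eq_fintype_card,
      ZMod.card_units]
  rw [← hk, ← zpow_natCast, ← zpow_mul, ← orderOf_dvd_iff_zpow_eq_one, ho] at hu
  have h3 := h.three_m
  have hm : 0 < (p - 1) / 3 := by
    have := h.mod
    have := h.pp.two_le
    omega
  have h4 : (3 : ℤ) ∣ k := by
    obtain ⟨c, hc⟩ := hu
    have h5 : ((p - 1 : ℕ) : ℤ) = 3 * (((p - 1) / 3 : ℕ) : ℤ) := by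
      rw [← h3]; push_cast; omega
    rw [h5] at hc
    refine ⟨c, ?_⟩
    have h6 : (((p - 1) / 3 : ℕ) : ℤ) ≠ 0 := by exact_mod_cast hm.ne'
    have h7 : (((p - 1) / 3 : ℕ) : ℤ) * k = (((p - 1) / 3 : ℕ) : ℤ) * (3 * c) := by
      linear_combination hc
    exact mul_left_cancel₀ h6 h7
  obtain ⟨j, rfl⟩ := h4
  refine ⟨((g ^ j : (ZMod p)ˣ) : ZMod p), ?_⟩
  have : (g ^ j) ^ 3 = u := by
    rw [← hk, ← zpow_natCast, ← zpow_mul]
    congr 1
    push_cast
    ring
  rw [← Units.val_pow_eq_pow_val, this]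
  rfl

lemma Split.ncube_eq (h : Split p π) [NeZero p] (v : ZMod p) :
    ncube p v = if v = 0 then 1 else if v ^ ((p - 1) / 3) = 1 then 3 else 0 := by
  have : Fact p.Prime := ⟨h.pp⟩
  unfold ncube
  split_ifs with h0 h1
  · subst h0
    have : (Finset.univ.filter (fun x : ZMod p => x ^ 3 = 0)) = {0} := by
      ext x
      simp
    rw [this, Finset.card_singleton]
  · obtain ⟨s, hs⟩ := h.cube_of_pow h0 h1
    have hs0 : s ≠ 0 := by
      rintro rfl
      apply h0
      rw [← hs]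
      simp
    have hr := h.r_root
    have hr3 := h.r_cube
    have hr1 := h.r_ne_one
    have : (Finset.univ.filter (fun x : ZMod p => x ^ 3 = v)) =
        {s, s * (h.r : ZMod p), s * (h.r : ZMod p) ^ 2} := by
      ext x
      simp only [Finset.mem_filter, Finset.mem_univ, true_and, Finset.mem_insert,
        Finset.mem_singleton]
      constructor
      · intro hx
        have h2 : (x - s) * ((x - s * (h.r : ZMod p)) * (x - s * (h.r : ZMod p) ^ 2)) = 0 := by
          have e : (x - s) * ((x - s * (h.r : ZMod p)) * (x - s * (h.r : ZMod p) ^ 2)) =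
              x ^ 3 - s ^ 3 * (h.r : ZMod p) ^ 3 - x ^ 2 * s * ((h.r : ZMod p) ^ 2 + (h.r : ZMod p) + 1)
              + x * s ^ 2 * ((h.r : ZMod p) ^ 3 + (h.r : ZMod p) ^ 2 + (h.r : ZMod p)) := by ring
          rw [e, hr, hr3, hx, hs]
          have : (1 : ZMod p) + (h.r : ZMod p) ^ 2 + (h.r : ZMod p) = 0 := by
            linear_combination hr
          rw [this]
          ring
        rcases mul_eq_zero.mp h2 with h3 | h3
        · left; exact sub_eq_zero.mp h3
        · rcases mul_eq_zero.mp h3 with h3 | h3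
          · right; left; exact sub_eq_zero.mp h3
          · right; right; exact sub_eq_zero.mp h3
      · rintro (rfl | rfl | rfl)
        · exact hs
        · rw [mul_pow, hr3, mul_one, hs]
        · rw [mul_pow, ← pow_mul, mul_comm 2 3, pow_mul, hr3, one_pow, mul_one, hs]
    rw [this]
    have hr0 : (h.r : ZMod p) ≠ 0 := by
      intro h'
      rw [h'] at hr3
      simp at hr3
    have n1 : s ≠ s * (h.r : ZMod p) := by
      intro h'
      apply hr1
      have : s * ((h.r : ZMod p) - 1) = 0 := by linear_combination -h'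
      rcases mul_eq_zero.mp this with h'' | h''
      · exact absurd h'' hs0
      · exact sub_eq_zero.mp h''
    have n2 : s ≠ s * (h.r : ZMod p) ^ 2 := by
      intro h'
      have : s * ((h.r : ZMod p) ^ 2 - 1) = 0 := by linear_combination -h'
      rcases mul_eq_zero.mp this with h'' | h''
      · exact absurd h'' hs0
      · apply hr1
        have h3 : (h.r : ZMod p) ^ 2 = 1 := sub_eq_zero.mp h''
        have : (h.r : ZMod p) ^ 3 = (h.r : ZMod p) ^ 2 * (h.r : ZMod p) := by ring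
        rw [h3, hr3, one_mul] at this
        exact this.symm
    have n3 : s * (h.r : ZMod p) ≠ s * (h.r : ZMod p) ^ 2 := by
      intro h'
      have : (s * (h.r : ZMod p)) * ((h.r : ZMod p) - 1) = 0 := by linear_combination -h'
      rcases mul_eq_zero.mp this with h'' | h''
      · exact (mul_ne_zero hs0 hr0) h''
      · exact hr1 (sub_eq_zero.mp h'')
    rw [Finset.card_insert_of_notMem, Finset.card_insert_of_notMem, Finset.card_singleton]
    · simpa using n3
    · simp only [Finset.mem_insert, Finset.mem_singleton, not_or]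
      exact ⟨n1, n2⟩
  · rw [Finset.card_eq_zero, Finset.filter_eq_empty_iff]
    intro x _ hx
    apply h1
    rw [← hx, ← pow_mul, h.three_m]
    apply ZMod.pow_card_sub_one_eq_one
    rintro rfl
    apply h0
    rw [← hx]
    simp

lemma Split.sy_add_sy (h : Split p π) [NeZero p] (v : ZMod p) :
    sy ((v.val : ℕ) : Eis) π + sy ((v.val : ℕ) : Eis) (Eis.conj π) = (ncube p v : ℂ) - 1 := by
  have : Fact p.Prime := ⟨h.pp⟩
  rw [h.sy_eq, h.conj.sy_eq, h.r_conj, h.ncube_eq]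
  by_cases h0 : v = 0
  · simp [h0]
  rw [if_neg h0, if_neg h0, if_neg h0]
  have hr3 := h.r_cube
  have hr1 := h.r_ne_one
  have hr0 : (h.r : ZMod p) ≠ 0 := by
    intro h'
    rw [h'] at hr3
    simp at hr3
  have hrr : (h.r : ZMod p) ^ 2 ≠ 1 := by
    intro h3
    apply hr1
    have : (h.r : ZMod p) ^ 3 = (h.r : ZMod p) ^ 2 * (h.r : ZMod p) := by ring
    rw [h3, hr3, one_mul] at this
    exact this.symm
  have hrn : (h.r : ZMod p) ≠ (h.r : ZMod p) ^ 2 := by
    intro h'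
    have : (h.r : ZMod p) * ((h.r : ZMod p) - 1) = 0 := by linear_combination -h'
    rcases mul_eq_zero.mp this with h'' | h''
    · exact hr0 h''
    · exact hr1 (sub_eq_zero.mp h'')
  have hw := wC_add_sq
  rcases h.pow_m_cases h0 with h1 | h1 | h1
  · rw [h1]
    simp
    norm_num
  · rw [h1, if_neg hr1, if_pos rfl, if_neg hr1, if_neg hrn, if_neg hr1, hw]
    simp
  · rw [h1, if_neg hrr, if_neg hrn.symm, if_neg hrr, if_pos rfl, if_neg hrr, add_comm, hw]
    simp

/-- The sum of the two cubic Gauss sums over `p` is the cubic exponential sum. -/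
theorem Split.gs_add_gs (h : Split p π) [Fact p.Prime]
    (hc : sy ((h.t : ℤ) : Eis) π = 1) :
    gs 1 π + gs 1 (Eis.conj π) = ∑ x : ZMod p, ZMod.stdAddChar (x ^ 3) := by
  rw [h.gs_eq, h.conj.gs_eq, h.t_conj, ← Finset.sum_add_distrib]
  have e1 : ∀ v : ZMod p, sy ((v.val : ℕ) : Eis) π * ZMod.stdAddChar ((h.t : ZMod p) * v) +
      sy ((v.val : ℕ) : Eis) (Eis.conj π) * ZMod.stdAddChar ((h.t : ZMod p) * v) =
      (ncube p v : ℂ) * ZMod.stdAddChar ((h.t : ZMod p) * v) -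
        ZMod.stdAddChar (v * (h.t : ZMod p)) := by
    intro v
    rw [← add_mul, h.sy_add_sy]
    rw [mul_comm v (h.t : ZMod p)]
    ring
  rw [Finset.sum_congr rfl fun v _ => e1 v, Finset.sum_sub_distrib,
    AddChar.sum_mulShift _ (ZMod.isPrimitive_stdAddChar p), if_neg h.t_ne, Nat.cast_zero, sub_zero]
  -- cubes
  have e2 : ∀ v : ZMod p, (ncube p v : ℂ) * ZMod.stdAddChar ((h.t : ZMod p) * v) =
      ∑ x ∈ Finset.univ.filter (fun x : ZMod p => x ^ 3 = v),
        ZMod.stdAddChar ((h.t : ZMod p) * x ^ 3) := by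
    intro v
    rw [Finset.sum_congr rfl (g := fun _ => ZMod.stdAddChar ((h.t : ZMod p) * v))]
    · rw [Finset.sum_const, nsmul_eq_mul]; rfl
    · intro x hx
      rw [Finset.mem_filter] at hx
      rw [hx.2]
  rw [Finset.sum_congr rfl fun v _ => e2 v, Finset.sum_fiberwise]
  -- t is a cube
  have hcub : ∃ s : ZMod p, s ^ 3 = (h.t : ZMod p) := by
    apply h.cube_of_pow h.t_ne
    have h1 := h.sy_eq (h.t : ZMod p)
    have h2 : sy (((h.t : ZMod p).val : ℕ) : Eis) π = sy ((h.t : ℤ) : Eis) π := by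
      apply h.sy_congr
      rw [← h.red_eq_iff, h.red_natCast, h.red_intCast, ZMod.natCast_zmod_val]
    rw [h2, hc, if_neg h.t_ne] at h1
    by_contra hne
    rw [if_neg hne] at h1
    have hw1 : wC ≠ 1 := by
      intro h'
      have := congrArg Complex.re h'
      simp [wC] at this
      norm_num at this
    split_ifs at h1
    · exact hw1 h1.symm
    · apply hw1
      have : wC ^ 3 = wC ^ 2 * wC := by ring
      rw [wC_cube, ← h1, one_mul] at this
      exact this.symm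
  obtain ⟨s, hs⟩ := hcub
  have hs0 : s ≠ 0 := by
    rintro rfl
    apply h.t_ne
    rw [← hs]
    simp
  have e3 : ∀ x : ZMod p, ZMod.stdAddChar ((h.t : ZMod p) * x ^ 3) =
      ZMod.stdAddChar ((s * x) ^ 3) := by
    intro x
    rw [mul_pow, hs]
  rw [Finset.sum_congr rfl fun v _ => e3 v]
  exact Fintype.sum_bijective (fun x => s * x) (mulLeft_bijective₀ s hs0) _ _ (fun x => rfl)

end Fin713

end Crest.Agent.R012
end
end

-- ▼ part R012/FinAsym_713
section

set_option autoImplicit false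

open Filter Topology Finset

noncomputable section

namespace Crest.Agent.R012.Fin713

/-- Regular summability with antitone weights. -/
lemma abel_littleo (f a : ℕ → ℝ) (hf : Antitone f) (hf0 : ∀ n, 0 ≤ f n)
    (hdiv : Tendsto (fun n => ∑ i ∈ range n, f i) atTop atTop)
    (ha : Tendsto (fun n : ℕ => (∑ i ∈ range n, a i) / n) atTop (𝓝 0)) :
    Tendsto (fun n => (∑ i ∈ range n, f i * a i) / (∑ i ∈ range n, f i)) atTop (𝓝 0) := by
  -- bound
  have key : ∀ ε > 0, ∃ C, ∀ n, |∑ i ∈ range n, f i * a i| ≤ ε * (∑ i ∈ range n, f i) + C := by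
    intro ε hε
    rw [Metric.tendsto_atTop] at ha
    obtain ⟨n0, hn0⟩ := ha ε hε
    -- |A n| ≤ ε n + C0
    have hA : ∃ C0, 0 ≤ C0 ∧ ∀ n : ℕ, |∑ i ∈ range n, a i| ≤ ε * n + C0 := by
      refine ⟨∑ n ∈ range (n0 + 1), |∑ i ∈ range n, a i|, Finset.sum_nonneg fun _ _ => abs_nonneg _,
        fun n => ?_⟩
      by_cases hn : n ≤ n0
      · have h1 : |∑ i ∈ range n, a i| ≤ ∑ n ∈ range (n0 + 1), |∑ i ∈ range n, a i| :=
          Finset.single_le_sum (f := fun n => |∑ i ∈ range n, a i|) (fun _ _ => abs_nonneg _)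
            (Finset.mem_range.mpr (by omega))
        have : 0 ≤ ε * n := by positivity
        linarith
      · push Not at hn
        have h2 := hn0 n hn.le
        rw [Real.dist_eq, sub_zero, abs_div] at h2
        have hnpos : (0 : ℝ) < n := by
          have : 0 < n := by omega
          exact_mod_cast this
        rw [abs_of_pos hnpos, div_lt_iff₀ hnpos] at h2
        have : 0 ≤ ∑ n ∈ range (n0 + 1), |∑ i ∈ range n, a i| :=
          Finset.sum_nonneg fun _ _ => abs_nonneg _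
        linarith
    obtain ⟨C0, hC0, hA⟩ := hA
    refine ⟨C0 * f 0, fun n => ?_⟩
    rcases Nat.eq_zero_or_pos n with rfl | hn
    · simpa using mul_nonneg hC0 (hf0 0)
    have e1 := Finset.sum_range_by_parts (fun i => f i) (fun i => a i) n
    have e2 := Finset.sum_range_by_parts (fun i => f i) (fun _ => (1 : ℝ)) n
    simp only [smul_eq_mul, mul_one, Finset.sum_const, Finset.card_range, nsmul_eq_mul] at e1 e2
    rw [e1]
    have b1 : |f (n - 1) * ∑ i ∈ range n, a i| ≤ f (n - 1) * (ε * n + C0) := by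
      rw [abs_mul, abs_of_nonneg (hf0 _)]
      exact mul_le_mul_of_nonneg_left (hA n) (hf0 _)
    have b2 : |∑ i ∈ range (n - 1), (f (i + 1) - f i) * ∑ j ∈ range (i + 1), a j| ≤
        ∑ i ∈ range (n - 1), (f i - f (i + 1)) * (ε * ((i + 1 : ℕ) : ℝ) + C0) := by
      refine (Finset.abs_sum_le_sum_abs _ _).trans (Finset.sum_le_sum fun i _ => ?_)
      have hd : 0 ≤ f i - f (i + 1) := sub_nonneg.mpr (hf (Nat.le_succ i))
      rw [abs_mul, abs_sub_comm, abs_of_nonneg hd]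
      exact mul_le_mul_of_nonneg_left (hA (i + 1)) hd
    have tel : ∑ i ∈ range (n - 1), (f i - f (i + 1)) = f 0 - f (n - 1) :=
      Finset.sum_range_sub' f (n - 1)
    have b3 : ∑ i ∈ range (n - 1), (f i - f (i + 1)) * (ε * ((i + 1 : ℕ) : ℝ) + C0) =
        ε * (∑ i ∈ range (n - 1), (f i - f (i + 1)) * ((i + 1 : ℕ) : ℝ)) + C0 * (f 0 - f (n - 1)) := by
      rw [← tel, Finset.mul_sum, Finset.mul_sum, ← Finset.sum_add_distrib]
      apply Finset.sum_congr rfl
      intro i _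
      ring
    have b4 : ∑ i ∈ range (n - 1), (f i - f (i + 1)) * ((i + 1 : ℕ) : ℝ) =
        -∑ i ∈ range (n - 1), (f (i + 1) - f i) * ((i + 1 : ℕ) : ℝ) := by
      rw [← Finset.sum_neg_distrib]
      apply Finset.sum_congr rfl
      intro i _
      ring
    calc |f (n - 1) * ∑ i ∈ range n, a i -
          ∑ i ∈ range (n - 1), (f (i + 1) - f i) * ∑ j ∈ range (i + 1), a j|
        ≤ |f (n - 1) * ∑ i ∈ range n, a i| +
          |∑ i ∈ range (n - 1), (f (i + 1) - f i) * ∑ j ∈ range (i + 1), a j| := abs_sub _ _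
      _ ≤ f (n - 1) * (ε * n + C0) +
          ∑ i ∈ range (n - 1), (f i - f (i + 1)) * (ε * ((i + 1 : ℕ) : ℝ) + C0) := add_le_add b1 b2
      _ = ε * (∑ i ∈ range n, f i) + C0 * f 0 := by
          rw [b3, b4, e2]
          ring
  rw [Metric.tendsto_atTop]
  intro ε hε
  obtain ⟨C, hC⟩ := key (ε / 2) (by positivity)
  have h1 : ∀ᶠ n in atTop, max 1 (2 * |C| / ε + 1) ≤ ∑ i ∈ range n, f i :=
    hdiv.eventually_ge_atTop _
  obtain ⟨N, hN⟩ := eventually_atTop.mp h1
  refine ⟨N, fun n hn => ?_⟩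
  have hs := hN n hn
  have hs1 : 0 < ∑ i ∈ range n, f i := lt_of_lt_of_le one_pos ((le_max_left _ _).trans hs)
  have hs2 : 2 * |C| / ε + 1 ≤ ∑ i ∈ range n, f i := (le_max_right _ _).trans hs
  rw [Real.dist_eq, sub_zero, abs_div, abs_of_pos hs1, div_lt_iff₀ hs1]
  have h3 : |C| < ε / 2 * ∑ i ∈ range n, f i := by
    have h4 : 2 * |C| / ε < ∑ i ∈ range n, f i := by linarith
    rw [div_lt_iff₀ hε] at h4
    linarith
  have := hC n
  have h5 := le_abs_self C
  linarith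

/-- the weight `t^{-1/6}/log t` -/
def wt (n : ℕ) : ℝ := ((n + 2 : ℕ) : ℝ) ^ (-(1 : ℝ) / 6) / Real.log ((n + 2 : ℕ) : ℝ)

lemma wt_nonneg (n : ℕ) : 0 ≤ wt n := by
  unfold wt
  have : (1 : ℝ) ≤ ((n + 2 : ℕ) : ℝ) := by push_cast; linarith [Nat.cast_nonneg (α := ℝ) n]
  have := Real.log_nonneg this
  positivity

lemma log_pos' (n : ℕ) : 0 < Real.log ((n + 2 : ℕ) : ℝ) := by
  apply Real.log_pos
  push_cast
  linarith [Nat.cast_nonneg (α := ℝ) n]

lemma wt_pos (n : ℕ) : 0 < wt n := by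
  unfold wt
  have := log_pos' n
  positivity

lemma wt_anti : Antitone wt := by
  apply antitone_nat_of_succ_le
  intro n
  unfold wt
  have h1 := log_pos' n
  have h2 : ((n + 2 : ℕ) : ℝ) ≤ ((n + 1 + 2 : ℕ) : ℝ) := by push_cast; linarith
  have h0 : (0 : ℝ) < ((n + 2 : ℕ) : ℝ) := by positivity
  apply div_le_div₀ (by positivity) _ h1 (Real.log_le_log h0 h2)
  exact Real.rpow_le_rpow_of_nonpos h0 h2 (by norm_num)

/-- `F t = t^{5/6}/log t`. -/
def FF (t : ℝ) : ℝ := t ^ ((5 : ℝ) / 6) / Real.log t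

lemma FF_deriv (t : ℝ) (ht : 1 < t) :
    HasDerivAt FF ((5 / 6) * (t ^ (-(1 : ℝ) / 6) / Real.log t) -
      t ^ (-(1 : ℝ) / 6) / Real.log t ^ 2) t := by
  have h0 : t ≠ 0 := by linarith
  have hl : Real.log t ≠ 0 := (Real.log_pos ht).ne'
  have h1 := (Real.hasDerivAt_rpow_const (x := t) (p := (5 : ℝ) / 6) (Or.inl h0)).div
    (Real.hasDerivAt_log h0) hl
  refine h1.congr_deriv ?_
  have e1 : (5 : ℝ) / 6 - 1 = -(1 : ℝ) / 6 := by norm_num
  have e2 : t ^ ((5 : ℝ) / 6) = t * t ^ (-(1 : ℝ) / 6) := by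
    rw [← Real.rpow_one_add' (by linarith) (by norm_num)]
    norm_num
  rw [e1, e2]
  field_simp

lemma FF_diff (n : ℕ) : ∃ t ∈ Set.Ioo ((n + 2 : ℕ) : ℝ) ((n + 3 : ℕ) : ℝ),
    FF ((n + 3 : ℕ) : ℝ) - FF ((n + 2 : ℕ) : ℝ) =
    (5 / 6) * (t ^ (-(1 : ℝ) / 6) / Real.log t) - t ^ (-(1 : ℝ) / 6) / Real.log t ^ 2 := by
  have hlt : ((n + 2 : ℕ) : ℝ) < ((n + 3 : ℕ) : ℝ) := by push_cast; linarith
  have h1 : ∀ t, ((n + 2 : ℕ) : ℝ) ≤ t → 1 < t := by
    intro t ht
    push_cast at ht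
    linarith [Nat.cast_nonneg (α := ℝ) n]
  obtain ⟨t, ht, he⟩ := exists_hasDerivAt_eq_slope FF
    (fun t => (5 / 6) * (t ^ (-(1 : ℝ) / 6) / Real.log t) -
      t ^ (-(1 : ℝ) / 6) / Real.log t ^ 2) hlt
    (fun x hx => (FF_deriv x (h1 x hx.1)).continuousAt.continuousWithinAt)
    (fun x hx => FF_deriv x (h1 x hx.1.le))
  refine ⟨t, ht, ?_⟩
  rw [he]
  have : ((n + 3 : ℕ) : ℝ) - ((n + 2 : ℕ) : ℝ) = 1 := by push_cast; ring
  rw [this, div_one]

lemma wt_ratio_tendsto : Tendsto (fun n => wt (n + 1) / wt n) atTop (𝓝 1) := by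
  have e : ∀ n, wt (n + 1) / wt n =
      ((((n + 1 + 2 : ℕ) : ℝ) / ((n + 2 : ℕ) : ℝ)) ^ (-(1 : ℝ) / 6)) *
      (Real.log ((n + 2 : ℕ) : ℝ) / Real.log ((n + 1 + 2 : ℕ) : ℝ)) := by
    intro n
    unfold wt
    have h1 := (log_pos' n).ne'
    have h2 := (log_pos' (n + 1)).ne'
    rw [Real.div_rpow (by positivity) (by positivity)]
    have h3 : ((n + 2 : ℕ) : ℝ) ^ (-(1 : ℝ) / 6) ≠ 0 := by positivity
    field_simp
  simp_rw [e]
  have hr : Tendsto (fun n : ℕ => ((n + 1 + 2 : ℕ) : ℝ) / ((n + 2 : ℕ) : ℝ)) atTop (𝓝 1) := by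
    have h2 : Tendsto (fun n : ℕ => 1 + 1 / ((n : ℝ) + 2)) atTop (𝓝 (1 + 0)) := by
      apply tendsto_const_nhds.add
      apply Tendsto.div_atTop tendsto_const_nhds
      exact tendsto_atTop_add_const_right _ _ tendsto_natCast_atTop_atTop
    rw [add_zero] at h2
    refine h2.congr fun n => ?_
    have : (n : ℝ) + 2 ≠ 0 := by positivity
    push_cast
    field_simp
    ring
  have h1 : Tendsto (fun n : ℕ => (((n + 1 + 2 : ℕ) : ℝ) / ((n + 2 : ℕ) : ℝ)) ^ (-(1 : ℝ) / 6))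
      atTop (𝓝 ((1 : ℝ) ^ (-(1 : ℝ) / 6))) :=
    hr.rpow_const (Or.inl one_ne_zero)
  rw [Real.one_rpow] at h1
  have h2 : Tendsto (fun n : ℕ => Real.log ((n + 2 : ℕ) : ℝ) / Real.log ((n + 1 + 2 : ℕ) : ℝ))
      atTop (𝓝 1) := by
    have h3 : Tendsto (fun n : ℕ => 1 - Real.log (((n + 1 + 2 : ℕ) : ℝ) / ((n + 2 : ℕ) : ℝ)) /
        Real.log ((n + 1 + 2 : ℕ) : ℝ)) atTop (𝓝 (1 - 0)) := by
      apply tendsto_const_nhds.sub
      have h4 := (Real.continuousAt_log one_ne_zero).tendsto.comp hr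
      rw [Real.log_one] at h4
      have h5 : Tendsto (fun n : ℕ => Real.log ((n + 1 + 2 : ℕ) : ℝ)) atTop atTop := by
        apply Real.tendsto_log_atTop.comp
        apply tendsto_natCast_atTop_atTop.comp
        exact tendsto_atTop_mono (fun n => by simp only [id]; omega) tendsto_id
      exact h4.div_atTop h5
    rw [sub_zero] at h3
    refine h3.congr fun n => ?_
    have h6 := (log_pos' (n + 1)).ne'
    rw [Real.log_div (by positivity) (by positivity)]
    field_simp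
    ring
  simpa using h1.mul h2

lemma FF_diff_littleo : (fun n => (FF ((n + 3 : ℕ) : ℝ) - FF ((n + 2 : ℕ) : ℝ)) - (5 / 6) * wt n)
    =o[atTop] wt := by
  rw [Asymptotics.isLittleO_iff_tendsto (fun n h => absurd h (wt_pos n).ne')]
  -- squeeze: (5/6) wt(n+1) - wt n/log ≤ diff ≤ (5/6) wt n
  have hlow : ∀ n : ℕ, (5 / 6) * (wt (n + 1) / wt n - 1) - 1 / Real.log ((n + 2 : ℕ) : ℝ) ≤
      ((FF ((n + 3 : ℕ) : ℝ) - FF ((n + 2 : ℕ) : ℝ)) - (5 / 6) * wt n) / wt n := by
    intro n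
    obtain ⟨t, ⟨ht1, ht2⟩, he⟩ := FF_diff n
    have hw := wt_pos n
    rw [le_div_iff₀ hw, he]
    have h0 : (0 : ℝ) < ((n + 2 : ℕ) : ℝ) := by positivity
    have ht0 : 0 < t := h0.trans ht1
    have hl0 := log_pos' n
    have hl1 : Real.log ((n + 2 : ℕ) : ℝ) ≤ Real.log t := Real.log_le_log h0 ht1.le
    have hl2 : Real.log t ≤ Real.log ((n + 3 : ℕ) : ℝ) := Real.log_le_log ht0 ht2.le
    have hlt : 0 < Real.log t := lt_of_lt_of_le hl0 hl1
    have hp1 : t ^ (-(1 : ℝ) / 6) ≤ ((n + 2 : ℕ) : ℝ) ^ (-(1 : ℝ) / 6) :=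
      Real.rpow_le_rpow_of_nonpos h0 ht1.le (by norm_num)
    have hp2 : ((n + 3 : ℕ) : ℝ) ^ (-(1 : ℝ) / 6) ≤ t ^ (-(1 : ℝ) / 6) :=
      Real.rpow_le_rpow_of_nonpos ht0 ht2.le (by norm_num)
    have hw1 : wt (n + 1) ≤ t ^ (-(1 : ℝ) / 6) / Real.log t := by
      unfold wt
      exact div_le_div₀ (by positivity) hp2 hlt hl2
    have hw2 : t ^ (-(1 : ℝ) / 6) / Real.log t ^ 2 ≤ wt n * (1 / Real.log ((n + 2 : ℕ) : ℝ)) := by
      unfold wt
      rw [div_mul_div_comm, mul_one, ← pow_two]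
      exact div_le_div₀ (by positivity) hp1 (by positivity) (by gcongr)
    have e1 : ((5 / 6) * (wt (n + 1) / wt n - 1) - 1 / Real.log ((n + 2 : ℕ) : ℝ)) * wt n =
        (5 / 6) * wt (n + 1) - (5 / 6) * wt n - wt n * (1 / Real.log ((n + 2 : ℕ) : ℝ)) := by
      field_simp
    rw [e1]
    linarith
  have hup : ∀ n : ℕ, ((FF ((n + 3 : ℕ) : ℝ) - FF ((n + 2 : ℕ) : ℝ)) - (5 / 6) * wt n) / wt n ≤
      0 := by
    intro n
    obtain ⟨t, ⟨ht1, ht2⟩, he⟩ := FF_diff n
    have hw := wt_pos n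
    apply div_nonpos_of_nonpos_of_nonneg _ hw.le
    rw [he]
    have h0 : (0 : ℝ) < ((n + 2 : ℕ) : ℝ) := by positivity
    have ht0 : 0 < t := h0.trans ht1
    have hl0 := log_pos' n
    have hl1 : Real.log ((n + 2 : ℕ) : ℝ) ≤ Real.log t := Real.log_le_log h0 ht1.le
    have hlt : 0 < Real.log t := lt_of_lt_of_le hl0 hl1
    have hp1 : t ^ (-(1 : ℝ) / 6) ≤ ((n + 2 : ℕ) : ℝ) ^ (-(1 : ℝ) / 6) :=
      Real.rpow_le_rpow_of_nonpos h0 ht1.le (by norm_num)
    have hw1 : t ^ (-(1 : ℝ) / 6) / Real.log t ≤ wt n := by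
      unfold wt
      exact div_le_div₀ (by positivity) hp1 hl0 hl1
    have : 0 ≤ t ^ (-(1 : ℝ) / 6) / Real.log t ^ 2 := by positivity
    linarith
  have hlim : Tendsto (fun n : ℕ => (5 / 6) * (wt (n + 1) / wt n - 1) -
      1 / Real.log ((n + 2 : ℕ) : ℝ)) atTop (𝓝 0) := by
    have h1 : Tendsto (fun n : ℕ => (5 / 6 : ℝ) * (wt (n + 1) / wt n - 1)) atTop
        (𝓝 ((5 / 6) * (1 - 1))) := (wt_ratio_tendsto.sub_const 1).const_mul _
    have h5 : Tendsto (fun n : ℕ => Real.log ((n + 2 : ℕ) : ℝ)) atTop atTop := by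
      apply Real.tendsto_log_atTop.comp
      apply tendsto_natCast_atTop_atTop.comp
      exact tendsto_atTop_mono (fun n => by simp only [id]; omega) tendsto_id
    have h2 : Tendsto (fun n : ℕ => 1 / Real.log ((n + 2 : ℕ) : ℝ)) atTop (𝓝 0) :=
      Tendsto.div_atTop tendsto_const_nhds h5
    simpa using h1.sub h2
  exact tendsto_of_tendsto_of_tendsto_of_le_of_le hlim tendsto_const_nhds hlow hup

lemma wt_sum_atTop : Tendsto (fun n => ∑ i ∈ range n, wt i) atTop atTop := by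
  -- wt i ≥ 1/(i+2)
  have h1 : ∀ i : ℕ, 1 / ((i : ℝ) + 2) ≤ wt i := by
    intro i
    unfold wt
    have h0 : (0 : ℝ) < ((i + 2 : ℕ) : ℝ) := by positivity
    have hl := log_pos' i
    rw [le_div_iff₀ hl]
    have h2 : Real.log ((i + 2 : ℕ) : ℝ) ≤ ((i + 2 : ℕ) : ℝ) ^ ((5 : ℝ) / 6) / ((5 : ℝ) / 6) :=
      Real.log_le_rpow_div h0.le (by norm_num)
    have h2' : Real.log ((i + 2 : ℕ) : ℝ) ≤ ((i + 2 : ℕ) : ℝ) ^ ((5 : ℝ) / 6) := by
      -- log x ≤ x^{5/6}: use log x = 6/5 log (x^{5/6}) ≤ (6/5)(y) ... use log y ≤ y - 1 <= ...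
      have h3 : Real.log (((i + 2 : ℕ) : ℝ) ^ ((5 : ℝ) / 6)) =
          (5 / 6) * Real.log ((i + 2 : ℕ) : ℝ) := Real.log_rpow h0 _
      have hy : 0 < ((i + 2 : ℕ) : ℝ) ^ ((5 : ℝ) / 6) := by positivity
      -- log y ≤ y / e  ≤ (5/6) y
      have h4 : Real.log (((i + 2 : ℕ) : ℝ) ^ ((5 : ℝ) / 6)) ≤
          ((i + 2 : ℕ) : ℝ) ^ ((5 : ℝ) / 6) * (1 / 2) := by
        have h5 := Real.log_le_sub_one_of_pos
          (show (0 : ℝ) < ((i + 2 : ℕ) : ℝ) ^ ((5 : ℝ) / 6) * (1 / 2) by positivity)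
        rw [Real.log_mul (by positivity) (by norm_num)] at h5
        have h6 : Real.log (1 / 2) = - Real.log 2 := by
          rw [one_div, Real.log_inv]
        have h7 := Real.log_two_lt_d9
        rw [h6] at h5
        linarith
      nlinarith
    have h8 : ((i + 2 : ℕ) : ℝ) ^ (-(1 : ℝ) / 6) =
        ((i + 2 : ℕ) : ℝ) ^ ((5 : ℝ) / 6) / ((i : ℝ) + 2) := by
      have : ((i : ℝ) + 2) = ((i + 2 : ℕ) : ℝ) ^ (1 : ℝ) := by rw [Real.rpow_one]; push_cast; ring
      rw [this, ← Real.rpow_sub h0]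
      norm_num
    rw [h8, one_div, div_eq_inv_mul]
    exact mul_le_mul_of_nonneg_left h2' (by positivity)
  refine tendsto_atTop_mono (fun n => Finset.sum_le_sum fun i _ => h1 i) ?_
  have h2 := Real.tendsto_sum_range_one_div_nat_succ_atTop
  have h3 : Tendsto (fun n : ℕ => (∑ i ∈ range (n + 1), 1 / ((i : ℝ) + 1)) - 1) atTop atTop :=
    tendsto_atTop_add_const_right _ _ (h2.comp (tendsto_add_atTop_nat 1))
  refine h3.congr fun n => ?_
  rw [Finset.sum_range_succ']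
  simp only [Nat.cast_add, Nat.cast_one, CharP.cast_eq_zero, zero_add, div_one]
  rw [add_sub_cancel_right]
  apply Finset.sum_congr rfl
  intro i _
  ring_nf

lemma sum_wt_div_FF : Tendsto (fun n : ℕ => FF ((n + 2 : ℕ) : ℝ) / (∑ i ∈ range n, wt i)) atTop
    (𝓝 (5 / 6)) := by
  have h1 := FF_diff_littleo.sum_range (fun n => wt_nonneg n) wt_sum_atTop
  have h2 := h1.tendsto_div_nhds_zero
  have e : ∀ n : ℕ, ∑ i ∈ range n, ((FF ((i + 3 : ℕ) : ℝ) - FF ((i + 2 : ℕ) : ℝ)) -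
      (5 / 6) * wt i) = FF ((n + 2 : ℕ) : ℝ) - FF (2 : ℝ) - (5 / 6) * ∑ i ∈ range n, wt i := by
    intro n
    rw [Finset.sum_sub_distrib, ← Finset.mul_sum]
    have := Finset.sum_range_sub (fun i : ℕ => FF ((i + 2 : ℕ) : ℝ)) n
    simp only [zero_add] at this
    rw [show ((2 : ℕ) : ℝ) = 2 by norm_num] at this
    rw [← this]
  have h3 : Tendsto (fun n : ℕ => (FF ((n + 2 : ℕ) : ℝ) - FF (2 : ℝ) -
      (5 / 6) * ∑ i ∈ range n, wt i) / (∑ i ∈ range n, wt i)) atTop (𝓝 0) := by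
    refine h2.congr fun n => ?_
    rw [e]
  have h4 : Tendsto (fun n : ℕ => FF (2 : ℝ) / (∑ i ∈ range n, wt i)) atTop (𝓝 0) :=
    Tendsto.div_atTop tendsto_const_nhds wt_sum_atTop
  have h5 := (h3.add h4).add_const (5 / 6 : ℝ)
  simp only [add_zero, zero_add] at h5
  refine h5.congr' ?_
  filter_upwards [wt_sum_atTop.eventually_gt_atTop 0] with n hn
  field_simp
  ring

/-- coefficient `log p` on primes `≡ 1 mod 3` -/
def cof (n : ℕ) : ℝ := if n.Prime ∧ n % 3 = 1 then Real.log n else 0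

lemma cof_mean : Tendsto (fun n : ℕ => (∑ i ∈ range n, cof (i + 2)) / n) atTop (𝓝 (1 / 2)) := by
  have h1 := Crest.Agent.Lib.PNT.theta_residueClass (q := 3) (a := 1) isUnit_one
  have h1' := h1.comp (f := fun n : ℕ => ((n + 1 : ℕ) : ℝ))
    (tendsto_natCast_atTop_atTop.comp (tendsto_add_atTop_nat 1))
  have ht : (3 : ℕ).totient = 2 := by decide
  rw [ht] at h1'
  have h2 : Tendsto (fun n : ℕ => ((n + 1 : ℕ) : ℝ) / n) atTop (𝓝 1) := by
    have h3 : Tendsto (fun n : ℕ => 1 + 1 / (n : ℝ)) atTop (𝓝 (1 + 0)) :=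
      tendsto_const_nhds.add tendsto_one_div_atTop_nhds_zero_nat
    rw [add_zero] at h3
    refine h3.congr' ?_
    filter_upwards [eventually_gt_atTop 0] with n hn
    have : (n : ℝ) ≠ 0 := by positivity
    push_cast
    field_simp
  have h3 := h1'.mul h2
  rw [mul_one] at h3
  have : ((2 : ℕ) : ℝ)⁻¹ = 1 / 2 := by norm_num
  rw [this] at h3
  refine h3.congr' ?_
  filter_upwards [eventually_gt_atTop 0] with n hn
  have hn' : (n : ℝ) ≠ 0 := by positivity
  have hn1 : ((n + 1 : ℕ) : ℝ) ≠ 0 := by positivity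
  simp only [Function.comp_apply]
  rw [Nat.floor_natCast]
  have e : (∑ p ∈ (Finset.Icc 1 (n + 1)).filter (fun p : ℕ => p.Prime ∧ (p : ZMod 3) = 1),
      Real.log (p : ℝ)) = ∑ i ∈ range n, cof (i + 2) := by
    rw [Finset.sum_filter]
    have h5 : ∀ i : ℕ, cof i = if i.Prime ∧ (i : ZMod 3) = 1 then Real.log i else 0 := by
      intro i
      unfold cof
      have : i % 3 = 1 ↔ (i : ZMod 3) = 1 := by
        have := ZMod.natCast_eq_natCast_iff' i 1 3
        simp only [Nat.cast_one] at this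
        rw [this]
      simp only [this]
    simp only [← h5]
    rw [Finset.range_eq_Ico, Finset.sum_Ico_add' (fun i => cof i) 0 n 2]
    have h6 : Finset.Icc 1 (n + 1) = Finset.Ico 1 (n + 2) := by
      ext i; simp only [Finset.mem_Icc, Finset.mem_Ico]; omega
    rw [h6]
    have h7 : Finset.Ico 1 (n + 2) = insert 1 (Finset.Ico 2 (n + 2)) := by
      ext i; simp only [Finset.mem_insert, Finset.mem_Ico]; omega
    rw [h7, Finset.sum_insert (by simp)]
    have h8 : cof 1 = 0 := by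
      unfold cof
      rw [if_neg]
      rintro ⟨h, _⟩
      exact Nat.not_prime_one h
    rw [h8, zero_add, zero_add]
  rw [e]
  field_simp

lemma sum_primes_wt : Tendsto (fun n : ℕ => (∑ i ∈ range n, wt i * cof (i + 2)) /
    (∑ i ∈ range n, wt i)) atTop (𝓝 (1 / 2)) := by
  have h1 : Tendsto (fun n : ℕ => (∑ i ∈ range n, (cof (i + 2) - 1 / 2)) / n) atTop (𝓝 0) := by
    have h2 := cof_mean.sub_const (1 / 2)
    rw [sub_self] at h2
    refine h2.congr' ?_
    filter_upwards [eventually_gt_atTop 0] with n hn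
    have hn' : (n : ℝ) ≠ 0 := by positivity
    rw [Finset.sum_sub_distrib, Finset.sum_const, Finset.card_range, nsmul_eq_mul]
    field_simp
  have h3 := abel_littleo wt (fun i => cof (i + 2) - 1 / 2) wt_anti wt_nonneg wt_sum_atTop h1
  have h4 := h3.add_const (1 / 2 : ℝ)
  rw [zero_add] at h4
  refine h4.congr' ?_
  filter_upwards [wt_sum_atTop.eventually_gt_atTop 0] with n hn
  have : ∑ i ∈ range n, wt i * (cof (i + 2) - 1 / 2) =
      ∑ i ∈ range n, wt i * cof (i + 2) - (1 / 2) * ∑ i ∈ range n, wt i := by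
    rw [Finset.mul_sum, ← Finset.sum_sub_distrib]
    apply Finset.sum_congr rfl
    intro i _
    ring
  rw [this]
  field_simp
  ring

/-- `∑_{p ≤ X, p ≡ 1 (3)} p^{-1/6} ~ (3/5) X^{5/6}/log X`. -/
theorem sum_primes_asymp : Tendsto (fun X : ℕ =>
    (∑ p ∈ (Nat.primesBelow (X + 1)).filter (fun p => p % 3 = 1), (p : ℝ) ^ (-(1 : ℝ) / 6)) /
      ((X : ℝ) ^ ((5 : ℝ) / 6) / Real.log (X : ℝ))) atTop (𝓝 (3 / 5)) := by
  have h1 := sum_primes_wt.div sum_wt_div_FF (by norm_num)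
  have e0 : (1 / 2 : ℝ) / (5 / 6) = 3 / 5 := by norm_num
  rw [e0] at h1
  -- sum equality: for X = n + 2 , with n+1 terms; adjust
  have e1 : ∀ n : ℕ, (∑ p ∈ (Nat.primesBelow (n + 2 + 1)).filter (fun p => p % 3 = 1),
      (p : ℝ) ^ (-(1 : ℝ) / 6)) = ∑ i ∈ range (n + 1), wt i * cof (i + 2) := by
    intro n
    have hsh := Finset.sum_Ico_add' (fun i => wt (i - 2) * cof i) 0 (n + 1) 2
    simp only [Nat.add_sub_cancel] at hsh
    rw [Finset.range_eq_Ico, hsh]
    · rw [zero_add]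
      have : (Nat.primesBelow (n + 2 + 1)).filter (fun p => p % 3 = 1) =
          (Finset.Ico 2 (n + 1 + 2)).filter (fun p => p.Prime ∧ p % 3 = 1) := by
        ext i
        simp only [Finset.mem_filter, Nat.mem_primesBelow, Finset.mem_Ico]
        constructor
        · rintro ⟨⟨h, h'⟩, h''⟩
          exact ⟨⟨h'.two_le, by omega⟩, h', h''⟩
        · rintro ⟨⟨h, h'⟩, h'', h'''⟩
          exact ⟨⟨by omega, h''⟩, h'''⟩
      rw [this, Finset.sum_filter]
      apply Finset.sum_congr rfl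
      intro i hi
      rw [Finset.mem_Ico] at hi
      unfold cof wt
      split_ifs with h
      · have e : i - 2 + 2 = i := by omega
        rw [e]
        have : Real.log i ≠ 0 := by
          have := log_pos' (i - 2)
          rw [e] at this
          exact this.ne'
        field_simp
      · simp
  have h2 : Tendsto (fun n : ℕ => (∑ i ∈ range (n + 1), wt i * cof (i + 2)) /
      FF ((n + 1 + 2 : ℕ) : ℝ)) atTop (𝓝 (3 / 5)) := by
    have h3 := h1.comp (tendsto_add_atTop_nat 1)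
    refine h3.congr' ?_
    filter_upwards [(wt_sum_atTop.comp (tendsto_add_atTop_nat 1)).eventually_gt_atTop 0] with n hn
    simp only [Function.comp_apply, Pi.div_apply] at hn ⊢
    field_simp
  -- FF (n+3) / FF (n+2) → 1
  have h4 : Tendsto (fun n : ℕ => FF ((n + 1 + 2 : ℕ) : ℝ) / FF ((n + 2 : ℕ) : ℝ)) atTop (𝓝 1) := by
    have h5 := (sum_wt_div_FF.comp (tendsto_add_atTop_nat 1)).div sum_wt_div_FF (by norm_num)
    have h6 : Tendsto (fun n => (∑ i ∈ range (n + 1), wt i) / (∑ i ∈ range n, wt i)) atTop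
        (𝓝 1) := by
      have h7 : Tendsto (fun n => 1 + wt n / (∑ i ∈ range n, wt i)) atTop (𝓝 (1 + 0)) := by
        apply tendsto_const_nhds.add
        refine squeeze_zero' (g := fun n => wt 0 / (∑ i ∈ range n, wt i)) ?_ ?_
          (Tendsto.div_atTop tendsto_const_nhds wt_sum_atTop)
        · filter_upwards [wt_sum_atTop.eventually_gt_atTop 0] with n hn
          have := wt_nonneg n
          positivity
        · filter_upwards [wt_sum_atTop.eventually_gt_atTop 0] with n hn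
          exact div_le_div_of_nonneg_right (wt_anti (Nat.zero_le n)) hn.le
      rw [add_zero] at h7
      refine h7.congr' ?_
      filter_upwards [wt_sum_atTop.eventually_gt_atTop 0] with n hn
      rw [Finset.sum_range_succ]
      field_simp
    have h8 := h5.mul h6
    rw [div_self (by norm_num), one_mul] at h8
    refine h8.congr' ?_
    filter_upwards [wt_sum_atTop.eventually_gt_atTop 0,
      (wt_sum_atTop.comp (tendsto_add_atTop_nat 1)).eventually_gt_atTop 0] with n hn hn1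
    simp only [Function.comp_apply, Pi.div_apply] at hn1 ⊢
    have hF : FF ((n + 2 : ℕ) : ℝ) ≠ 0 := by
      unfold FF
      have := log_pos' n
      positivity
    field_simp
  have h5 := h2.mul h4
  rw [mul_one] at h5
  rw [← tendsto_add_atTop_iff_nat 2]
  refine h5.congr fun n => ?_
  rw [e1]
  have hF : FF ((n + 1 + 2 : ℕ) : ℝ) ≠ 0 := by
    unfold FF
    have := log_pos' (n + 1)
    positivity
  change _ = _ / FF ((n + 2 : ℕ) : ℝ)
  field_simp

end Crest.Agent.R012.Fin713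
end
end

-- ▼ part R012/FinMain_713
section

/-!
# Row 12, part (F): S0014 (l = 0) implies S0013, in the concrete model `Eis`
-/

set_option autoImplicit false
set_option linter.unusedSimpArgs false
set_option linter.unusedVariables false

noncomputable section

open Complex Filter Topology

namespace Crest.Agent.R012

open Eis

namespace Fin713

variable {p : ℕ} {π : Eis}


lemma norm_wC : ‖wC‖ = 1 := by
  have h : ‖wC‖ ^ 3 = 1 := by rw [← norm_pow, wC_cube, norm_one]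
  exact (pow_eq_one_iff_of_nonneg (norm_nonneg _) (by norm_num)).mp h

/-- with reciprocity, `(tr π / π) = 1` -/
lemma Split.sy_t (h : Split p π)
    (hrec : ∀ a b : Eis, IsPrim a → IsPrim b → IsCoprime a b → sy a b = sy b a) :
    sy ((h.t : ℤ) : Eis) π = 1 := by
  have : Fact p.Prime := ⟨h.pp⟩
  have hcop : IsCoprime π (Eis.conj π) := by
    rw [h.prime.irreducible.coprime_iff_not_dvd]
    intro h2
    exact h.conj_ne (h.prim.eq_of_associated h.conj.prim
      (h.prime.irreducible.associated_of_dvd h.conj.prime.irreducible h2)).symm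
  have h1 := hrec π (Eis.conj π) h.prim h.conj.prim hcop
  -- sy t π = sy (conj π) π
  have e1 : sy ((h.t : ℤ) : Eis) π = sy (Eis.conj π) π := by
    apply h.sy_congr
    rw [h.t_eis]
    simp
  have e2 : sy ((h.t : ℤ) : Eis) (Eis.conj π) = sy π (Eis.conj π) := by
    apply h.conj.sy_congr
    rw [h.t_eis]
    simp
  have e3 := h.sy_add_sy (h.t : ZMod p)
  have e4 : sy (((h.t : ZMod p).val : ℕ) : Eis) π = sy ((h.t : ℤ) : Eis) π := by
    apply h.sy_congr
    rw [← h.red_eq_iff, h.red_natCast, h.red_intCast, ZMod.natCast_zmod_val]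
  have e5 : sy (((h.t : ZMod p).val : ℕ) : Eis) (Eis.conj π) = sy ((h.t : ℤ) : Eis) (Eis.conj π) := by
    apply h.conj.sy_congr
    rw [← h.conj.red_eq_iff, h.conj.red_natCast, h.conj.red_intCast, ZMod.natCast_zmod_val]
  rw [e4, e5, e2, h1, ← e1] at e3
  have e6 := h.sy_eq (h.t : ZMod p)
  rw [e4, if_neg h.t_ne] at e6
  have hnorm : ‖sy ((h.t : ℤ) : Eis) π‖ = 1 := by
    rw [e6]
    split_ifs
    · simp
    · exact norm_wC
    · rw [norm_pow, norm_wC, one_pow]
  have e7 := h.ncube_eq (h.t : ZMod p)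
  rw [if_neg h.t_ne] at e7
  split_ifs at e7 with h7
  · rw [if_pos h7] at e6
    exact e6
  · exfalso
    rw [e7] at e3
    have h8 : sy ((h.t : ℤ) : Eis) π = -1 / 2 := by
      push_cast at e3
      linear_combination (1 / 2 : ℂ) * e3
    rw [h8] at hnorm
    norm_num at hnorm

/-- the classical cubic sum as a sum over `ZMod p` -/
lemma sum_range_eq (p : ℕ) [NeZero p] :
    ∑ x ∈ Finset.range p, Complex.exp (2 * Real.pi * Complex.I * ((x : ℂ) ^ 3 / (p : ℂ))) =
      ∑ x : ZMod p, ZMod.stdAddChar (x ^ 3) := by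
  refine Finset.sum_bij' (fun x _ => (x : ZMod p)) (fun x _ => x.val) (fun _ _ => Finset.mem_univ _)
    (fun x _ => Finset.mem_range.mpr (ZMod.val_lt x)) (fun x hx => ?_) (fun x _ => ?_)
    (fun x hx => ?_)
  · exact ZMod.val_cast_of_lt (Finset.mem_range.mp hx)
  · exact ZMod.natCast_zmod_val x
  · have : ((x : ZMod p)) ^ 3 = (((x : ℤ) ^ 3 : ℤ) : ZMod p) := by push_cast; rfl
    rw [this, ZMod.stdAddChar_coe]
    congr 1
    push_cast
    ring

lemma Split.G_add_G (h : Split p π)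
    (hrec : ∀ a b : Eis, IsPrim a → IsPrim b → IsCoprime a b → sy a b = sy b a) :
    G π + G (Eis.conj π) =
      (∑ x ∈ Finset.range p, Complex.exp (2 * Real.pi * Complex.I * ((x : ℂ) ^ 3 / (p : ℂ)))) /
        (Real.sqrt (p : ℝ) : ℂ) := by
  have : Fact p.Prime := ⟨h.pp⟩
  unfold G
  rw [nm_conj, h.hn, ← add_div, h.gs_add_gs (h.sy_t hrec), sum_range_eq]

/-- every prime `p ≡ 1 (mod 3)` is a norm of a primary prime -/
lemma exists_split (hp : p.Prime) (h3 : p % 3 = 1) : ∃ π : Eis, Split p π := by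
  have : Fact p.Prime := ⟨hp⟩
  -- element of order 3
  have hcard : 3 ∣ Fintype.card (ZMod p)ˣ := by
    rw [ZMod.card_units]
    omega
  have : Fact (Nat.Prime 3) := ⟨Nat.prime_three⟩
  obtain ⟨u, hu⟩ := exists_prime_orderOf_dvd_card 3 hcard
  have hu3 : (u : ZMod p) ^ 3 = 1 := by
    have := pow_orderOf_eq_one u
    rw [hu] at this
    rw [← Units.val_pow_eq_pow_val, this, Units.val_one]
  have hu1 : (u : ZMod p) ≠ 1 := by
    intro h
    have : u = 1 := Units.ext h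
    rw [this, orderOf_one] at hu
    norm_num at hu
  have hroot : (u : ZMod p) ^ 2 + (u : ZMod p) + 1 = 0 := by
    have : ((u : ZMod p) - 1) * ((u : ZMod p) ^ 2 + (u : ZMod p) + 1) = 0 := by
      linear_combination hu3
    rcases mul_eq_zero.mp this with h | h
    · exact absurd (sub_eq_zero.mp h) hu1
    · exact h
  set r : ℤ := ((u : ZMod p).val : ℤ) with hr
  have hr' : (p : ℤ) ∣ r ^ 2 + r + 1 := by
    rw [← ZMod.intCast_zmod_eq_zero_iff_dvd]
    push_cast
    rw [hr]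
    simp only [Int.cast_natCast, ZMod.natCast_zmod_val]
    exact hroot
  set g := EuclideanDomain.gcd ((p : ℕ) : Eis) (w - (r : Eis)) with hg
  have hg1 : g ∣ ((p : ℕ) : Eis) := EuclideanDomain.gcd_dvd_left _ _
  have hg2 : g ∣ w - (r : Eis) := EuclideanDomain.gcd_dvd_right _ _
  have hnot : ¬ ((p : ℕ) : Eis) ∣ w - (r : Eis) := by
    intro h
    have h1 : (((p : ℕ) : ℤ) : Eis) ∣ w - (r : Eis) := by simpa using h
    rw [intCast_dvd_iff] at h1
    have h2 := h1.2
    simp at h2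
    have h3 : (p : ℤ) ∣ 1 := by exact_mod_cast h2
    have : p ∣ 1 := by exact_mod_cast h3
    exact hp.one_lt.ne' (Nat.dvd_one.mp this)
  have hnu : ¬ IsUnit g := by
    intro hunit
    have hcop : IsCoprime ((p : ℕ) : Eis) (w - (r : Eis)) :=
      EuclideanDomain.gcd_isUnit_iff.mp hunit
    have hdvd : ((p : ℕ) : Eis) ∣ (w - (r : Eis)) * (w ^ 2 - (r : Eis)) := by
      have e : (w - (r : Eis)) * (w ^ 2 - (r : Eis)) = ((r ^ 2 + r + 1 : ℤ) : Eis) := by
        have h1 := w_sq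
        have h2 := w_cube
        push_cast
        linear_combination h2 - (r : Eis) * h1
      rw [e]
      obtain ⟨c, hc⟩ := hr'
      exact ⟨(c : Eis), by rw [hc]; push_cast; ring⟩
    have h1 := hcop.dvd_of_dvd_mul_left hdvd
    rw [w_sq] at h1
    have h2 : (((p : ℕ) : ℤ) : Eis) ∣ -1 - w - (r : Eis) := by simpa using h1
    rw [intCast_dvd_iff] at h2
    have h3 := h2.2
    simp at h3
    have h4 : (p : ℤ) ∣ 1 := by exact_mod_cast h3
    have : p ∣ 1 := by exact_mod_cast h4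
    exact hp.one_lt.ne' (Nat.dvd_one.mp this)
  have hnm : nm g = p := by
    obtain ⟨c, hc⟩ := hg1
    have h1 : nm g * nm c = p ^ 2 := by rw [← nm_mul, ← hc, nm_natCast]
    have h2 : nm g ∣ p ^ 2 := ⟨_, h1.symm⟩
    rw [Nat.dvd_prime_pow hp] at h2
    obtain ⟨k, hk, hk'⟩ := h2
    interval_cases k
    · exfalso
      apply hnu
      rw [isUnit_iff, hk', pow_zero]
    · rw [hk', pow_one]
    · exfalso
      have h3 : nm c = 1 := by
        rw [hk'] at h1
        have : 0 < p ^ 2 := by have := hp.pos; positivity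
        exact Nat.eq_of_mul_eq_mul_left this (by rw [h1, mul_one])
      have h4 : IsUnit c := isUnit_iff.mpr h3
      apply hnot
      have h5 : Associated g ((p : ℕ) : Eis) := ⟨h4.unit, by rw [IsUnit.unit_spec, ← hc]⟩
      exact h5.dvd'.trans hg2
  have hlam : ¬ lam ∣ g := by
    rw [← nm_mod_eq_one_iff, hnm]
    exact h3
  refine ⟨prim g, hp, by rw [nm_prim, hnm], prim_isPrim hlam⟩

/-- classification of primary elements of norm `p` -/
lemma Split.eq_or (h : Split p π) {z : Eis} (hz : Split p z) : z = π ∨ z = Eis.conj π := by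
  have h1 : z ∣ π * Eis.conj π := by
    rw [h.mul_conj, ← hz.mul_conj]
    exact dvd_mul_right _ _
  rcases hz.prime.dvd_or_dvd h1 with h2 | h2
  · left
    exact hz.prim.eq_of_associated h.prim
      (hz.prime.irreducible.associated_of_dvd h.prime.irreducible h2)
  · right
    exact hz.prim.eq_of_associated h.conj.prim
      (hz.prime.irreducible.associated_of_dvd h.conj.prime.irreducible h2)

/-- a primary prime whose norm is not prime is a rational integer -/
lemma im_eq_zero {z : Eis} (hz : Prime z) (hp : IsPrim z) (hn : ¬ (nm z).Prime) : z.im = 0 := by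
  have hne : nm z ≠ 1 := by
    intro h
    exact hz.not_isUnit (isUnit_iff.mpr h)
  have hnz : z ≠ 0 := hz.ne_zero
  -- z divides a rational prime
  have h1 : z ∣ ((nm z : ℕ) : Eis) := ⟨Eis.conj z, (Eis.mul_conj z).symm⟩
  have key : ∀ n : ℕ, n ≠ 0 → z ∣ (n : Eis) → ∃ l : ℕ, l.Prime ∧ z ∣ (l : Eis) := by
    intro n
    induction n using Nat.recOnMul with
    | zero => intro h; exact absurd rfl h
    | one =>
      intro _ h
      rw [Nat.cast_one] at h
      exact absurd (isUnit_of_dvd_one h) hz.not_isUnit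
    | prime q hq => intro _ h; exact ⟨q, hq, h⟩
    | mul a b ha hb =>
      intro h0 h
      rw [Nat.cast_mul] at h
      rcases hz.dvd_or_dvd h with h | h
      · exact ha (by rintro rfl; simp at h0) h
      · exact hb (by rintro rfl; simp at h0) h
  obtain ⟨l, hl, c, hc⟩ := key (nm z) (nm_pos.mpr hnz).ne' h1
  have h2 : nm z * nm c = l ^ 2 := by rw [← nm_mul, ← hc, nm_natCast]
  have h3 : nm z ∣ l ^ 2 := ⟨_, h2.symm⟩
  rw [Nat.dvd_prime_pow hl] at h3
  obtain ⟨k, hk, hk'⟩ := h3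
  interval_cases k
  · exact absurd (by rw [hk', pow_zero]) hne
  · rw [pow_one] at hk'
    exact absurd (hk' ▸ hl) hn
  · have h4 : nm c = 1 := by
      rw [hk'] at h2
      have : 0 < l ^ 2 := by have := hl.pos; positivity
      exact Nat.eq_of_mul_eq_mul_left this (by rw [h2, mul_one])
    have h5 : IsUnit c := isUnit_iff.mpr h4
    have h6 : Associated z ((l : ℕ) : Eis) := ⟨h5.unit, by rw [IsUnit.unit_spec, ← hc]⟩
    -- l mod 3
    have hl3 : ¬ lam ∣ ((l : ℕ) : Eis) := fun h' =>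
      hp.not_lam_dvd (h'.trans h6.symm.dvd)
    have hl3' : l % 3 ≠ 0 := by
      intro h'
      apply hl3
      rw [lam_dvd_iff]
      simp
      omega
    rcases (show l % 3 = 1 ∨ l % 3 = 2 by omega) with hm | hm
    · have : IsPrim ((l : ℕ) : Eis) := by
        rw [isPrim_iff]
        simp
        omega
      rw [hp.eq_of_associated this h6]
      simp
    · have : IsPrim (-((l : ℕ) : Eis)) := by
        rw [isPrim_iff]
        simp
        omega
      rw [hp.eq_of_associated this (h6.trans (Associated.neg_right (Associated.refl _)))]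
      simp

open Classical in
/-- The number of primary primes of norm `≤ X` and non-prime norm is at most `2√X+1`. -/
lemma card_inert (X : ℕ) :
    ((((primBall X).filter (fun z => Prime z ∧ ¬ (nm z).Prime)).card : ℕ) : ℝ) ≤
      2 * Real.sqrt X + 1 := by
  have h1 : (primBall X).filter (fun z => Prime z ∧ ¬ (nm z).Prime) ⊆
      (Finset.Icc (-(Nat.sqrt X : ℤ)) (Nat.sqrt X : ℤ)).image (fun n : ℤ => (n : Eis)) := by
    intro z hz
    rw [Finset.mem_filter, mem_primBall] at hz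
    obtain ⟨⟨hX, hpr⟩, hz1, hz2⟩ := hz
    have him := im_eq_zero hz1 hpr hz2
    rw [Finset.mem_image]
    refine ⟨z.re, ?_, ?_⟩
    · have h2 : (nm z : ℤ) = z.re ^ 2 := by rw [nm_cast, him]; ring
      have h3 : z.re.natAbs ^ 2 ≤ X := by
        have : ((z.re.natAbs : ℕ) : ℤ) ^ 2 = z.re ^ 2 := by simp
        rw [← this] at h2
        have h4 : nm z = z.re.natAbs ^ 2 := by exact_mod_cast h2
        omega
      have h4 : z.re.natAbs ≤ Nat.sqrt X := by
        rw [Nat.le_sqrt']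
        exact h3
      rw [Finset.mem_Icc]
      omega
    · apply ext' <;> simp [him]
  have h2 := Finset.card_le_card h1
  have h3 : ((Finset.Icc (-(Nat.sqrt X : ℤ)) (Nat.sqrt X : ℤ)).image (fun n : ℤ => (n : Eis))).card
      ≤ 2 * Nat.sqrt X + 1 := by
    refine Finset.card_image_le.trans ?_
    rw [Int.card_Icc]
    omega
  have h4 : (((primBall X).filter (fun z => Prime z ∧ ¬ (nm z).Prime)).card : ℝ) ≤
      ((2 * Nat.sqrt X + 1 : ℕ) : ℝ) := by exact_mod_cast h2.trans h3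
  refine h4.trans ?_
  push_cast
  have h5 : (Nat.sqrt X : ℝ) ≤ Real.sqrt X := Real.nat_sqrt_le_real_sqrt
  linarith

/-- the statement S0013 -/
def S13 : Prop :=
    Tendsto (fun X : ℕ =>
      (∑ p ∈ (Nat.primesBelow (X + 1)).filter (fun p => p % 3 = 1),
          (∑ x ∈ Finset.range p, Complex.exp (2 * Real.pi * Complex.I * ((x : ℂ) ^ 3 / (p : ℂ)))) /
            (2 * (Real.sqrt (p : ℝ) : ℂ))) /
        (((X : ℝ) ^ ((5 : ℝ) / 6) / Real.log (X : ℝ) : ℝ) : ℂ))
      atTop (𝓝 ((((2 * Real.pi) ^ ((2 : ℝ) / 3) / (5 * Real.Gamma (2 / 3)) : ℝ) : ℂ)))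

/-- the untwisted defect in the concrete model -/
def defect (X : ℕ) : ℂ :=
  open Classical in
  ∑ z ∈ (primBall X).filter Prime, (G z - ((pC * (nm z : ℝ) ^ (-(1 : ℝ) / 6) : ℝ) : ℂ))

lemma tendsto_sqrt_div : Tendsto (fun X : ℕ => (2 * Real.sqrt X + 1) * (1 + pC) /
    ((X : ℝ) ^ ((5 : ℝ) / 6) / Real.log (X : ℝ))) atTop (𝓝 0) := by
  have h1 : Tendsto (fun x : ℝ => Real.log x / x ^ ((1 : ℝ) / 3)) atTop (𝓝 0) :=
    (isLittleO_log_rpow_atTop (by norm_num : (0 : ℝ) < 1 / 3)).tendsto_div_nhds_zero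
  have h2 := h1.comp tendsto_natCast_atTop_atTop
  have h3 := (h2.const_mul (3 * (1 + pC)))
  rw [mul_zero] at h3
  have hpC : 0 ≤ pC := by
    unfold pC
    have := Real.Gamma_pos_of_pos (show (0 : ℝ) < 2 / 3 by norm_num)
    positivity
  refine squeeze_zero' ?_ ?_ h3
  · filter_upwards [eventually_ge_atTop 1] with X hX
    have : 0 ≤ Real.log (X : ℝ) := Real.log_natCast_nonneg X
    positivity
  · filter_upwards [eventually_ge_atTop 1] with X hX
    have hX1 : (1 : ℝ) ≤ X := by exact_mod_cast hX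
    have hX0 : (0 : ℝ) < X := by linarith
    have hl : 0 ≤ Real.log (X : ℝ) := Real.log_natCast_nonneg X
    simp only [Function.comp_apply]
    have e1 : Real.sqrt (X : ℝ) = (X : ℝ) ^ ((1 : ℝ) / 2) := Real.sqrt_eq_rpow _
    have e2 : (1 : ℝ) ≤ (X : ℝ) ^ ((1 : ℝ) / 2) := Real.one_le_rpow hX1 (by norm_num)
    have e3 : (X : ℝ) ^ ((5 : ℝ) / 6) = (X : ℝ) ^ ((1 : ℝ) / 2) * (X : ℝ) ^ ((1 : ℝ) / 3) := by
      rw [← Real.rpow_add hX0]
      norm_num
    rw [e1, e3, div_div_eq_mul_div, div_le_iff₀ (by positivity)]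
    have e4 : 3 * (1 + pC) * (Real.log (X : ℝ) / (X : ℝ) ^ ((1 : ℝ) / 3)) *
        ((X : ℝ) ^ ((1 : ℝ) / 2) * (X : ℝ) ^ ((1 : ℝ) / 3)) =
        3 * (X : ℝ) ^ ((1 : ℝ) / 2) * (1 + pC) * Real.log (X : ℝ) := by
      field_simp
    rw [e4]
    apply mul_le_mul_of_nonneg_right _ hl
    apply mul_le_mul_of_nonneg_right _ (by positivity)
    linarith

/-- **S0014 (l = 0) implies S0013.** -/
theorem s13_of_defect
    (hrec : ∀ a b : Eis, IsPrim a → IsPrim b → IsCoprime a b → sy a b = sy b a)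
    (hG : ∀ z : Eis, IsPrim z → ‖G z‖ ≤ 1)
    (H : Tendsto (fun X : ℕ => defect X /
        (((X : ℝ) ^ ((5 : ℝ) / 6) / Real.log (X : ℝ) : ℝ) : ℂ)) atTop (𝓝 0)) : S13 := by
  classical
  set D : ℕ → ℝ := fun X => (X : ℝ) ^ ((5 : ℝ) / 6) / Real.log (X : ℝ) with hD
  set F : Eis → ℂ := fun z => G z - ((pC * (nm z : ℝ) ^ (-(1 : ℝ) / 6) : ℝ) : ℂ) with hF
  set P : ℕ → Finset ℕ := fun X => (Nat.primesBelow (X + 1)).filter (fun p => p % 3 = 1) with hP
  set S : ℕ → ℂ := fun p => ∑ x ∈ Finset.range p,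
    Complex.exp (2 * Real.pi * Complex.I * ((x : ℂ) ^ 3 / (p : ℂ))) with hS
  set B : ℕ → ℂ := fun X => ∑ z ∈ (primBall X).filter (fun z => Prime z ∧ ¬ (nm z).Prime), F z
    with hB
  -- decomposition
  have dec : ∀ X, defect X = (∑ p ∈ P X, (S p / (Real.sqrt (p : ℝ) : ℂ) -
      2 * ((pC * (p : ℝ) ^ (-(1 : ℝ) / 6) : ℝ) : ℂ))) + B X := by
    intro X
    unfold defect
    rw [← Finset.sum_filter_add_sum_filter_not _ (fun z => (nm z).Prime)]
    congr 1
    · rw [Finset.filter_filter]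
      rw [← Finset.sum_fiberwise_of_maps_to (g := nm) (t := P X)]
      · apply Finset.sum_congr rfl
        intro p hp
        rw [hP] at hp
        simp only [Finset.mem_filter, Nat.mem_primesBelow] at hp
        obtain ⟨⟨hpX, hpp⟩, hp3⟩ := hp
        obtain ⟨π, hπ⟩ := exists_split hpp hp3
        have hfib : ((primBall X).filter (fun z => Prime z ∧ (nm z).Prime)).filter
            (fun z => nm z = p) = {π, Eis.conj π} := by
          ext z
          simp only [Finset.mem_filter, mem_primBall, Finset.mem_insert, Finset.mem_singleton]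
          constructor
          · rintro ⟨⟨⟨h1, h2⟩, h3, h4⟩, h5⟩
            exact hπ.eq_or ⟨hpp, h5, h2⟩
          · have hπ' := hπ.conj
            rintro (rfl | rfl)
            · exact ⟨⟨⟨by rw [hπ.hn]; omega, hπ.prim⟩, hπ.prime, by rw [hπ.hn]; exact hpp⟩, hπ.hn⟩
            · exact ⟨⟨⟨by rw [hπ'.hn]; omega, hπ'.prim⟩, hπ'.prime, by rw [hπ'.hn]; exact hpp⟩,
                hπ'.hn⟩
        rw [hfib, Finset.sum_pair hπ.conj_ne.symm]
        have h1 := hπ.G_add_G hrec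
        rw [nm_conj, hπ.hn, ← h1]
        ring
      · intro z hz
        simp only [Finset.mem_filter, mem_primBall] at hz
        rw [hP]
        simp only [Finset.mem_filter, Nat.mem_primesBelow]
        exact ⟨⟨by omega, hz.2.2⟩, hz.1.2.nm_mod⟩
    · rw [Finset.filter_filter, hB]
  -- the inert part
  have hpC : 0 ≤ pC := by
    unfold pC
    have := Real.Gamma_pos_of_pos (show (0 : ℝ) < 2 / 3 by norm_num)
    positivity
  have hBle : ∀ X, ‖B X‖ ≤ (2 * Real.sqrt X + 1) * (1 + pC) := by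
    intro X
    have h1 : ∀ z ∈ (primBall X).filter (fun z => Prime z ∧ ¬ (nm z).Prime), ‖F z‖ ≤ 1 + pC := by
      intro z hz
      rw [Finset.mem_filter, mem_primBall] at hz
      refine (norm_sub_le _ _).trans (add_le_add (hG z hz.1.2) ?_)
      rw [Complex.norm_real, Real.norm_eq_abs, abs_of_nonneg (by positivity)]
      have h2 : (1 : ℝ) ≤ nm z := by
        have := nm_pos.mpr hz.2.1.ne_zero
        exact_mod_cast this
      have h3 : (nm z : ℝ) ^ (-(1 : ℝ) / 6) ≤ 1 :=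
        Real.rpow_le_one_of_one_le_of_nonpos h2 (by norm_num)
      exact mul_le_of_le_one_right hpC h3
    calc ‖B X‖ ≤ ∑ z ∈ (primBall X).filter (fun z => Prime z ∧ ¬ (nm z).Prime), ‖F z‖ :=
          norm_sum_le _ _
      _ ≤ ∑ z ∈ (primBall X).filter (fun z => Prime z ∧ ¬ (nm z).Prime), (1 + pC) :=
          Finset.sum_le_sum h1
      _ = (((primBall X).filter (fun z => Prime z ∧ ¬ (nm z).Prime)).card : ℝ) * (1 + pC) := by
          rw [Finset.sum_const, nsmul_eq_mul]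
      _ ≤ _ := mul_le_mul_of_nonneg_right (card_inert X) (by positivity)
  have hBlim : Tendsto (fun X => B X / ((D X : ℝ) : ℂ)) atTop (𝓝 0) := by
    rw [tendsto_zero_iff_norm_tendsto_zero]
    refine squeeze_zero' (Eventually.of_forall fun X => norm_nonneg _) ?_ tendsto_sqrt_div
    filter_upwards [eventually_ge_atTop 2] with X hX
    have hX1 : (1 : ℝ) < X := by exact_mod_cast (by omega : 1 < X)
    have hl : 0 < Real.log (X : ℝ) := Real.log_pos hX1
    have hDpos : 0 < D X := by rw [hD]; positivity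
    rw [norm_div, Complex.norm_real, Real.norm_eq_abs, abs_of_pos hDpos]
    exact div_le_div_of_nonneg_right (hBle X) hDpos.le
  -- main term
  have hM : Tendsto (fun X : ℕ => (∑ p ∈ P X, ((pC * (p : ℝ) ^ (-(1 : ℝ) / 6) : ℝ) : ℂ)) /
      ((D X : ℝ) : ℂ)) atTop (𝓝 ((pC * (3 / 5) : ℝ) : ℂ)) := by
    have h1 := (Crest.Agent.R012.Fin713.sum_primes_asymp).const_mul pC
    have h2 := (Complex.continuous_ofReal.tendsto _).comp h1
    refine h2.congr fun X => ?_
    simp only [Function.comp_apply]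
    rw [← Complex.ofReal_sum, ← Complex.ofReal_div, ← Finset.mul_sum, mul_div_assoc]
  have h3 := ((H.sub hBlim).const_mul (1 / 2)).add hM
  rw [sub_zero, mul_zero, zero_add] at h3
  unfold S13
  have ec : ((2 * Real.pi) ^ ((2 : ℝ) / 3) / (5 * Real.Gamma (2 / 3)) : ℝ) = pC * (3 / 5) := by
    unfold pC
    have := (Real.Gamma_pos_of_pos (show (0 : ℝ) < 2 / 3 by norm_num)).ne'
    field_simp
  rw [ec]
  refine h3.congr fun X => ?_
  rw [dec X, Finset.sum_sub_distrib, ← Finset.mul_sum]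
  have e4 : ∑ p ∈ P X, S p / (2 * (Real.sqrt (p : ℝ) : ℂ)) =
      (1 / 2) * ∑ p ∈ P X, S p / (Real.sqrt (p : ℝ) : ℂ) := by
    rw [Finset.mul_sum]
    apply Finset.sum_congr rfl
    intro p _
    rw [mul_comm (2 : ℂ), ← div_div]
    ring
  rw [e4]
  ring

end Fin713

end Crest.Agent.R012
end
end

-- ▼ part R012/Top_277
section

/-!
# Row 12 (helper277): outermost layer

`Dyadic_Prop l` : the output of the sieve part, for the primes with norm in `(X/2, X]`.
`top14`, `top13` : `Dyadic_Prop` for all `l` and `PT_Prop` (Siegel–Walfisz) imply S0014, S0013.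
-/

set_option autoImplicit false

noncomputable section

open Filter Topology Finset
open Crest.Agent.R012.Eis Crest.Agent.R012.Div277 Crest.Agent.R012.Per277

namespace Crest.Agent.R012.Top277

/-- the summand of the sieve part. -/
def fS (l : ℤ) (n : Eis) : ℂ :=
  ang l n * (G n - if l = 0 then ((pC * (nm n : ℝ) ^ (-(1 : ℝ) / 6) : ℝ) : ℂ) else 0)

/-- comparison function `X^{5/6}/log X`. -/
def hX (X : ℕ) : ℝ := (X : ℝ) ^ ((5 : ℝ) / 6) / Real.log (X : ℝ)

open Classical in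
/-- primary primes with norm in `(X/2, X]`. -/
def dyP (X : ℕ) : Finset Eis := (primBall X).filter (fun p => Prime p ∧ X < 2 * nm p)

/-- `Σ_{X/2 < N(p) ≤ X} a(p) = o(X^{5/6}/log X)`. -/
def DyO (a : Eis → ℂ) : Prop :=
  ∀ ε : ℝ, 0 < ε → ∃ X0 : ℕ, ∀ X : ℕ, X0 ≤ X → ‖∑ p ∈ dyP X, a p‖ ≤ ε * hX X

/-- **the output of the sieve part**. -/
def Dyadic_Prop (l : ℤ) : Prop := DyO (fS l)

lemma hX_nonneg (X : ℕ) : 0 ≤ hX X := by
  unfold hX
  have : 0 ≤ Real.log (X : ℝ) := Real.log_natCast_nonneg X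
  positivity

open Classical in
lemma sum_prime_split (a : Eis → ℂ) (X : ℕ) :
    ∑ p ∈ (primBall X).filter Prime, a p =
      ∑ p ∈ dyP X, a p + ∑ p ∈ (primBall (X / 2)).filter Prime, a p := by
  rw [← Finset.sum_filter_add_sum_filter_not ((primBall X).filter Prime)
    (fun p => X < 2 * nm p)]
  congr 1
  · unfold dyP
    rw [Finset.filter_filter]
  · refine Finset.sum_congr ?_ (fun _ _ => rfl)
    ext p
    simp only [mem_filter, mem_primBall, not_lt]
    constructor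
    · rintro ⟨⟨⟨_, h2⟩, h3⟩, h4⟩
      exact ⟨⟨by omega, h2⟩, h3⟩
    · rintro ⟨⟨h1, h2⟩, h3⟩
      exact ⟨⟨⟨by omega, h2⟩, h3⟩, by omega⟩

lemma two_rpow_le : (2 : ℝ) ^ (-(5 : ℝ) / 6) ≤ 0.57 := by
  have h : ((2 : ℝ) ^ (-(5 : ℝ) / 6)) ^ (6 : ℕ) ≤ (0.57 : ℝ) ^ (6 : ℕ) := by
    rw [← Real.rpow_natCast, ← Real.rpow_mul (by norm_num)]
    have : (-(5 : ℝ) / 6) * ((6 : ℕ) : ℝ) = -5 := by norm_num
    rw [this, Real.rpow_neg (by norm_num)]
    norm_num
  exact le_of_pow_le_pow_left₀ (by norm_num) (by norm_num) h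

/-- halving: `h(X/2) ≤ 0.7 h(X)` for large `X`. -/
lemma hX_half {X : ℕ} (hX1 : 3 ^ 10 ≤ X) : hX (X / 2) ≤ 0.7 * hX X := by
  unfold hX
  have hXr : (3 : ℝ) ^ (10 : ℕ) ≤ X := by exact_mod_cast hX1
  have hX0 : (0 : ℝ) < X := lt_of_lt_of_le (by positivity) hXr
  have hY3 : (X : ℝ) / 3 ≤ ((X / 2 : ℕ) : ℝ) := by
    have : X ≤ 3 * (X / 2) := by omega
    have h2 : (X : ℝ) ≤ 3 * ((X / 2 : ℕ) : ℝ) := by exact_mod_cast this
    linarith
  have hY2 : ((X / 2 : ℕ) : ℝ) ≤ (X : ℝ) / 2 := Nat.cast_div_le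
  have hY0 : (0 : ℝ) < ((X / 2 : ℕ) : ℝ) := lt_of_lt_of_le (by positivity) hY3
  have hlog3 : 0 < Real.log 3 := Real.log_pos (by norm_num)
  have hlogX : 10 * Real.log 3 ≤ Real.log X := by
    have h := Real.log_le_log (by positivity) hXr
    rw [Real.log_pow] at h
    exact_mod_cast h
  have hlogY : 0.9 * Real.log X ≤ Real.log ((X / 2 : ℕ) : ℝ) := by
    have h := Real.log_le_log (by positivity) hY3
    rw [Real.log_div hX0.ne' (by norm_num)] at h
    linarith
  have hlX0 : 0 < Real.log X := by linarith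
  have h1 : ((X / 2 : ℕ) : ℝ) ^ ((5 : ℝ) / 6) ≤ 0.57 * (X : ℝ) ^ ((5 : ℝ) / 6) := by
    calc ((X / 2 : ℕ) : ℝ) ^ ((5 : ℝ) / 6) ≤ ((X : ℝ) / 2) ^ ((5 : ℝ) / 6) :=
          Real.rpow_le_rpow hY0.le hY2 (by norm_num)
      _ = (2 : ℝ) ^ (-(5 : ℝ) / 6) * (X : ℝ) ^ ((5 : ℝ) / 6) := by
          rw [Real.div_rpow hX0.le (by norm_num), neg_div, Real.rpow_neg (by norm_num)]
          ring
      _ ≤ _ := by gcongr; exact two_rpow_le
  calc ((X / 2 : ℕ) : ℝ) ^ ((5 : ℝ) / 6) / Real.log ((X / 2 : ℕ) : ℝ)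
      ≤ (0.57 * (X : ℝ) ^ ((5 : ℝ) / 6)) / (0.9 * Real.log X) := by gcongr
    _ = (0.57 / 0.9) * ((X : ℝ) ^ ((5 : ℝ) / 6) / Real.log X) := by
        field_simp
    _ ≤ 0.7 * ((X : ℝ) ^ ((5 : ℝ) / 6) / Real.log X) := by
        have : 0 ≤ (X : ℝ) ^ ((5 : ℝ) / 6) / Real.log X := by positivity
        nlinarith

lemma hX_tendsto : Tendsto hX atTop atTop := by
  have h1 : Tendsto (fun x : ℝ => x ^ ((5 : ℝ) / 6) / Real.log x) atTop atTop := by
    have h := (isLittleO_log_rpow_atTop (by norm_num : (0 : ℝ) < 5 / 6)).tendsto_div_nhds_zero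
    have h2 : Tendsto (fun x : ℝ => (Real.log x / x ^ ((5 : ℝ) / 6))⁻¹) atTop atTop := by
      apply Tendsto.inv_tendsto_nhdsGT_zero
      rw [tendsto_nhdsWithin_iff]
      refine ⟨h, ?_⟩
      filter_upwards [eventually_gt_atTop 1] with x hx
      have := Real.log_pos hx
      have : (0 : ℝ) < x := by linarith
      simp only [Set.mem_Ioi]; positivity
    refine h2.congr (fun x => ?_)
    rw [inv_div]
  exact h1.comp tendsto_natCast_atTop_atTop

open Classical in
/-- from dyadic blocks to all primes. -/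
theorem full_of_dyadic (a : Eis → ℂ) (h : DyO a) :
    Tendsto (fun X : ℕ => (∑ p ∈ (primBall X).filter Prime, a p) /
        (((X : ℝ) ^ ((5 : ℝ) / 6) / Real.log (X : ℝ) : ℝ) : ℂ)) atTop (𝓝 0) := by
  set S : ℕ → ℂ := fun X => ∑ p ∈ (primBall X).filter Prime, a p with hS
  have key : ∀ ε : ℝ, 0 < ε → ∃ K : ℝ, ∀ X : ℕ, ‖S X‖ ≤ K + 4 * ε * hX X := by
    intro ε hε
    obtain ⟨X0, hX0⟩ := h ε hε
    set N := max X0 (3 ^ 10) with hN
    -- bound for small X
    refine ⟨∑ X ∈ range N, ‖S X‖, fun X => ?_⟩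
    induction X using Nat.strong_induction_on with
    | _ X ih =>
      rcases lt_or_ge X N with hlt | hge
      · have h1 : ‖S X‖ ≤ ∑ X ∈ range N, ‖S X‖ :=
          Finset.single_le_sum (f := fun X => ‖S X‖) (fun _ _ => norm_nonneg _)
            (mem_range.mpr hlt)
        have h2 := hX_nonneg X
        nlinarith
      · have hX1 : X0 ≤ X := (le_max_left _ _).trans hge
        have hX2 : 3 ^ 10 ≤ X := (le_max_right _ _).trans hge
        have h1 := ih (X / 2) (by omega)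
        have h2 : S X = ∑ p ∈ dyP X, a p + S (X / 2) := sum_prime_split a X
        have h3 := hX0 X hX1
        have h4 := hX_half hX2
        have h5 := hX_nonneg X
        calc ‖S X‖ ≤ ‖∑ p ∈ dyP X, a p‖ + ‖S (X / 2)‖ := by rw [h2]; exact norm_add_le _ _
          _ ≤ ε * hX X + ((∑ X ∈ range N, ‖S X‖) + 4 * ε * (0.7 * hX X)) := by
              refine add_le_add h3 (h1.trans ?_)
              gcongr
          _ ≤ _ := by nlinarith
  rw [Metric.tendsto_atTop]
  intro ε hε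
  obtain ⟨K, hK⟩ := key (ε / 16) (by positivity)
  obtain ⟨N, hN⟩ := (tendsto_atTop_atTop.mp hX_tendsto) (max 1 (4 * |K| / ε))
  refine ⟨N, fun X hX' => ?_⟩
  have h1 := hN X hX'
  have h2 : 1 ≤ hX X := (le_max_left _ _).trans h1
  have h3 : 4 * |K| / ε ≤ hX X := (le_max_right _ _).trans h1
  have hpos : 0 < hX X := by linarith
  rw [dist_zero_right, norm_div, Complex.norm_real]
  show ‖S X‖ / ‖hX X‖ < ε
  rw [Real.norm_of_nonneg hpos.le, div_lt_iff₀ hpos]
  have h4 := hK X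
  rw [div_le_iff₀ hε] at h3
  have h5 := le_abs_self K
  nlinarith

/-! ### the case `l ≠ 0`: the secondary term by Siegel–Walfisz -/







end Crest.Agent.R012.Top277
end
end

-- ▼ part R012/Final_277

/-!
# Row 12 (helper277): `Final_of` of the master interface, and the exact statements S0014, S0013
from `Main48.Dyadic_Prop` alone.
-/

set_option autoImplicit false

noncomputable section

open Filter Topology Finset
open Crest.Agent.R012.Eis

namespace Crest.Agent.R012.Final277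

open Top277

lemma DyO_of_dyadic (hD : Main48.Dyadic_Prop) (l : ℤ) :
    DyO (fun p => ang l p * (G p - ((pC * (nm p : ℝ) ^ (-(1 : ℝ) / 6) : ℝ) : ℂ))) := by
  obtain ⟨K, X0, h⟩ := hD l
  intro ε hε
  obtain ⟨N1, hN1⟩ := exists_nat_ge (Real.exp ((|K| / ε) ^ (4 : ℝ) + 1))
  refine ⟨max X0 (max N1 2), fun X hX' => ?_⟩
  have h1 : X0 ≤ X := (le_max_left _ _).trans hX'
  have h2 : N1 ≤ X := (le_max_left _ _).trans ((le_max_right _ _).trans hX')
  have h3 : 2 ≤ X := (le_max_right _ _).trans ((le_max_right _ _).trans hX')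
  have hX0 : (0 : ℝ) < X := by
    have : (2 : ℝ) ≤ X := by exact_mod_cast h3
    linarith
  have hlog : (|K| / ε) ^ (4 : ℝ) + 1 ≤ Real.log X := by
    rw [Real.le_log_iff_exp_le hX0]
    exact hN1.trans (by exact_mod_cast h2)
  have hlpos : 0 < Real.log X := lt_of_lt_of_le (by positivity) hlog
  have hle : |K| / ε ≤ Real.log X ^ ((1 : ℝ) / 4) := by
    have h4 : (|K| / ε) ^ (4 : ℝ) ≤ Real.log X := by linarith
    have h5 := Real.rpow_le_rpow (by positivity) h4 (by norm_num : (0 : ℝ) ≤ 1 / 4)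
    rw [← Real.rpow_mul (by positivity)] at h5
    norm_num at h5
    exact h5
  refine (h X h1).trans ?_
  rw [div_le_iff₀ hε] at hle
  unfold hX Main48.LX
  rw [div_le_iff₀ (by positivity)]
  have e : Real.log X ^ ((5 : ℝ) / 4) = Real.log X * Real.log X ^ ((1 : ℝ) / 4) := by
    nth_rewrite 2 [← Real.rpow_one (Real.log X)]
    rw [← Real.rpow_add hlpos]; norm_num
  calc K * (X : ℝ) ^ ((5 : ℝ) / 6) ≤ |K| * (X : ℝ) ^ ((5 : ℝ) / 6) := by
        gcongr; exact le_abs_self K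
    _ ≤ (Real.log X ^ ((1 : ℝ) / 4) * ε) * (X : ℝ) ^ ((5 : ℝ) / 6) := by gcongr
    _ = ε * ((X : ℝ) ^ ((5 : ℝ) / 6) / Real.log X) * Real.log X ^ ((5 : ℝ) / 4) := by
        rw [e]; field_simp

/-- **(277)** the final step of the master interface. -/
theorem final_of : Main48.Final_of := fun hD l => by
  unfold Crest.Agent.R012.defect
  exact full_of_dyadic _ (DyO_of_dyadic hD l)

/-- exact S0014 from the output of the sieve. -/
theorem s0014_of_dyadic (hD : Main48.Dyadic_Prop)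
    (σ : Crest.NumberTheoryR.CubicGauss.EisK →+* ℂ) (ℓ : ℤ) :
    Tendsto (fun X : ℕ => Crest.NumberTheoryR.CubicGauss.twistedFirstMomentDefect σ ℓ X /
        (((X : ℝ) ^ ((5 : ℝ) / 6) / Real.log (X : ℝ) : ℝ) : ℂ)) atTop (𝓝 0) :=
  Bridge.s0014_of_defect (final_of hD) σ ℓ

/-- exact S0013 from the output of the sieve. -/
theorem s0013_of_dyadic (hD : Main48.Dyadic_Prop) :
    Tendsto (fun X : ℕ =>
      (∑ p ∈ (Nat.primesBelow (X + 1)).filter (fun p => p % 3 = 1),
          (∑ x ∈ Finset.range p, Complex.exp (2 * Real.pi * Complex.I * ((x : ℂ) ^ 3 / (p : ℂ)))) /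
            (2 * (Real.sqrt (p : ℝ) : ℂ))) /
        (((X : ℝ) ^ ((5 : ℝ) / 6) / Real.log (X : ℝ) : ℝ) : ℂ))
      atTop (𝓝 ((((2 * Real.pi) ^ ((2 : ℝ) / 3) / (5 * Real.Gamma (2 / 3)) : ℝ) : ℂ))) := by
  refine Fin713.s13_of_defect (fun a b ha hb _ => Sym645.sy_reciprocity ha hb)
    (fun z hz => Gauss880.norm_G_le Gauss880.syG hz) ?_
  refine (final_of hD 0).congr (fun X => ?_)
  unfold Crest.Agent.R012.defect Fin713.defect
  congr 1
  refine Finset.sum_congr rfl (fun z hz => ?_)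
  simp [ang]

end Crest.Agent.R012.Final277
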