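import Mathlib

/-! R012, block L1: the 2-dimensional additive large sieve (Fejér kernel, exact constants).

`ls2_dual`, `ls2_primal`: for points of `(ℝ/ℤ)²` that are `η`-separated in the sup norm and
frequencies in a box of half side `1/(2η)`. -/

set_option autoImplicit false

namespace Crest.Agent.R012.LS879

open Finset

/-! ### Exponentials -/

/-- `e(x) = exp(2πix)`. -/
noncomputable def e (x : ℝ) : ℂ := Complex.exp (2 * Real.pi * x * Complex.I)

theorem e_add (x y : ℝ) : e (x + y) = e x * e y := by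
  unfold e
  rw [← Complex.exp_add]
  congr 1
  push_cast
  ring

theorem e_zero : e 0 = 1 := by simp [e]

theorem norm_e (x : ℝ) : ‖e x‖ = 1 := by
  unfold e
  have h : (2 * Real.pi * x * Complex.I : ℂ) = ((2 * Real.pi * x : ℝ) : ℂ) * Complex.I := by
    push_cast
    ring
  rw [h, Complex.norm_exp_ofReal_mul_I]

theorem e_neg (x : ℝ) : e (-x) = (starRingEnd ℂ) (e x) := by
  unfold e
  rw [← Complex.exp_conj]
  congr 1
  simp only [map_mul, Complex.conj_I, Complex.conj_ofReal, map_ofNat]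
  push_cast
  ring

theorem e_int (n : ℤ) : e n = 1 := by
  unfold e
  rw [Complex.exp_eq_one_iff]
  exact ⟨n, by push_cast; ring⟩

theorem e_add_int (x : ℝ) (n : ℤ) : e (x + n) = e x := by
  rw [e_add, e_int, mul_one]

theorem e_sub_int (x : ℝ) (n : ℤ) : e (x - n) = e x := by
  have h := e_add (x - n) n
  rw [e_int, mul_one] at h
  rw [← h]
  congr 1
  ring

theorem e_sub (x y : ℝ) : e (x - y) = e x * (starRingEnd ℂ) (e y) := by
  rw [sub_eq_add_neg, e_add, e_neg]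


/-! ### The Fejér kernel -/

/-- Fourier coefficients of the tent function of width `η`. -/
noncomputable def kap (η : ℝ) (n : ℤ) : ℝ :=
  if n = 0 then η ^ 2 else (Real.sin (Real.pi * n * η) / (Real.pi * n)) ^ 2

theorem kap_nonneg (η : ℝ) (n : ℤ) : 0 ≤ kap η n := by
  unfold kap
  split_ifs <;> positivity

/-- `∑ e(nx)/n² = 2π² B₂(x)` for `x ∈ [0,1]`. -/
theorem hasSum_e_div_sq {x : ℝ} (hx : x ∈ Set.Icc (0 : ℝ) 1) :
    HasSum (fun n : ℤ => 1 / (n : ℂ) ^ 2 * e (n * x))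
      ((2 * Real.pi ^ 2 * (x ^ 2 - x + 1 / 6) : ℝ) : ℂ) := by
  have h := hasSum_one_div_pow_mul_fourier_mul_bernoulliFun (k := 2) le_rfl hx
  have h2 : ((2 * Real.pi ^ 2 * (x ^ 2 - x + 1 / 6) : ℝ) : ℂ) =
      -(2 * Real.pi * Complex.I) ^ 2 / (Nat.factorial 2 : ℂ) * bernoulliFun 2 x := by
    have hb : bernoulliFun 2 x = x ^ 2 - x + 1 / 6 := by
      unfold bernoulliFun
      simp [Polynomial.bernoulli, Finset.sum_range_succ, bernoulli_two, bernoulli_one]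
      ring
    rw [hb]
    have hf : (Nat.factorial 2 : ℂ) = 2 := by norm_num [Nat.factorial]
    rw [hf, mul_pow, Complex.I_sq]
    push_cast
    ring
  rw [h2]
  convert h using 2 with n
  rw [fourier_coe_apply]
  unfold e
  congr 2
  push_cast
  ring

theorem sin_sq_e (x : ℝ) :
    ((Real.sin (Real.pi * x) ^ 2 : ℝ) : ℂ) = (2 - e x - e (-x)) / 4 := by
  have h1 : e x + e (-x) = ((2 * Real.cos (2 * Real.pi * x) : ℝ) : ℂ) := by
    rw [e_neg, Complex.add_conj]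
    congr 1
    unfold e
    have h : (2 * Real.pi * x * Complex.I : ℂ) = ((2 * Real.pi * x : ℝ) : ℂ) * Complex.I := by
      push_cast
      ring
    rw [h, Complex.exp_ofReal_mul_I_re]
  have h2 : (2 - e x - e (-x)) / 4 = ((2 - (2 * Real.cos (2 * Real.pi * x))) / 4 : ℝ) := by
    rw [sub_sub, h1]
    push_cast
    ring
  rw [h2]
  congr 1
  have h3 : Real.cos (2 * Real.pi * x) = 1 - 2 * Real.sin (Real.pi * x) ^ 2 := by
    rw [mul_assoc, Real.cos_two_mul, Real.cos_sq']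
    ring
  rw [h3]
  ring

/-- General formula: the Fejér series in terms of `B₂`. -/
theorem hasSum_kap {η x u v : ℝ} (hx : x ∈ Set.Icc (0 : ℝ) 1) (hu : u ∈ Set.Icc (0 : ℝ) 1)
    (hv : v ∈ Set.Icc (0 : ℝ) 1) (mu mv : ℤ) (hmu : x + η = u + mu) (hmv : x - η = v + mv) :
    HasSum (fun n : ℤ => (kap η n : ℂ) * e (n * x))
      ((η ^ 2 + (x ^ 2 - x + 1 / 6) - (u ^ 2 - u + 1 / 6) / 2 - (v ^ 2 - v + 1 / 6) / 2 : ℝ) : ℂ) := by
  have h1 := (hasSum_e_div_sq hx).mul_left (1 / (2 * Real.pi ^ 2) : ℂ)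
  have h2 := (hasSum_e_div_sq hu).mul_left (1 / (4 * Real.pi ^ 2) : ℂ)
  have h3 := (hasSum_e_div_sq hv).mul_left (1 / (4 * Real.pi ^ 2) : ℂ)
  have h0 : HasSum (fun n : ℤ => if n = 0 then ((η ^ 2 : ℝ) : ℂ) else 0) ((η ^ 2 : ℝ) : ℂ) :=
    hasSum_ite_eq 0 _
  have h4 := ((h0.add h1).sub h2).sub h3
  have hpi : (Real.pi : ℂ) ≠ 0 := by exact_mod_cast Real.pi_ne_zero
  have hfun : (fun n : ℤ => (kap η n : ℂ) * e (n * x)) = fun n : ℤ =>
      (if n = 0 then ((η ^ 2 : ℝ) : ℂ) else 0) +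
        1 / (2 * Real.pi ^ 2) * (1 / (n : ℂ) ^ 2 * e (n * x)) -
        1 / (4 * Real.pi ^ 2) * (1 / (n : ℂ) ^ 2 * e (n * u)) -
        1 / (4 * Real.pi ^ 2) * (1 / (n : ℂ) ^ 2 * e (n * v)) := by
    funext n
    by_cases hn : n = 0
    · subst hn
      simp [kap, e_zero]
    · have hn' : (n : ℂ) ≠ 0 := by exact_mod_cast hn
      simp only [kap, hn, if_false]
      have e1 : e (n * u) = e (n * x) * e (n * η) := by
        rw [← e_add]
        have : (n : ℝ) * u = n * x + n * η - ((n * mu : ℤ) : ℝ) := by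
          push_cast
          linear_combination (-(n : ℝ)) * hmu
        rw [this, e_sub_int]
      have e2 : e (n * v) = e (n * x) * e (-(n * η)) := by
        rw [← e_add]
        have : (n : ℝ) * v = n * x + -(n * η) - ((n * mv : ℤ) : ℝ) := by
          push_cast
          linear_combination (-(n : ℝ)) * hmv
        rw [this, e_sub_int]
      rw [e1, e2]
      have hs := sin_sq_e (n * η)
      rw [div_pow, Complex.ofReal_div]
      have : Real.pi * n * η = Real.pi * (n * η) := by ring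
      rw [this, hs]
      push_cast
      field_simp
      ring
  have hval : ((η ^ 2 + (x ^ 2 - x + 1 / 6) - (u ^ 2 - u + 1 / 6) / 2 -
      (v ^ 2 - v + 1 / 6) / 2 : ℝ) : ℂ) = ((η ^ 2 : ℝ) : ℂ) +
        1 / (2 * Real.pi ^ 2) * ((2 * Real.pi ^ 2 * (x ^ 2 - x + 1 / 6) : ℝ) : ℂ) -
        1 / (4 * Real.pi ^ 2) * ((2 * Real.pi ^ 2 * (u ^ 2 - u + 1 / 6) : ℝ) : ℂ) -
        1 / (4 * Real.pi ^ 2) * ((2 * Real.pi ^ 2 * (v ^ 2 - v + 1 / 6) : ℝ) : ℂ) := by
    push_cast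
    field_simp
    ring
  rw [hfun, hval]
  exact h4

/-- The Fejér kernel vanishes off `(-η, η)`. -/
theorem hasSum_kap_zero {η x : ℝ} (hη : 0 ≤ η) (h1 : η ≤ x) (h2 : x ≤ 1 - η) :
    HasSum (fun n : ℤ => (kap η n : ℂ) * e (n * x)) 0 := by
  have h := hasSum_kap (η := η) (x := x) (u := x + η) (v := x - η)
    ⟨by linarith, by linarith⟩ ⟨by linarith, by linarith⟩ ⟨by linarith, by linarith⟩ 0 0
    (by simp) (by simp)
  convert h using 1
  rw [← Complex.ofReal_zero]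
  congr 1
  ring

/-- The value of the Fejér kernel at `0`. -/
theorem hasSum_kap_self {η : ℝ} (hη : 0 ≤ η) (h1 : η ≤ 1) :
    HasSum (fun n : ℤ => kap η n) η := by
  have h := hasSum_kap (η := η) (x := 0) (u := η) (v := 1 - η)
    ⟨by linarith, by linarith⟩ ⟨by linarith, by linarith⟩ ⟨by linarith, by linarith⟩ 0 (-1)
    (by simp) (by push_cast; ring)
  have h2 : ((η ^ 2 + ((0 : ℝ) ^ 2 - 0 + 1 / 6) - (η ^ 2 - η + 1 / 6) / 2 -
      ((1 - η) ^ 2 - (1 - η) + 1 / 6) / 2 : ℝ) : ℂ) = (η : ℂ) := by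
    congr 1
    ring
  rw [h2] at h
  have h3 : (fun n : ℤ => (kap η n : ℂ) * e (n * (0 : ℝ))) = fun n : ℤ => ((kap η n : ℝ) : ℂ) := by
    funext n
    simp [e_zero]
  rw [h3] at h
  exact_mod_cast h

theorem summable_kap {η : ℝ} (hη : 0 ≤ η) (h1 : η ≤ 1) (x : ℝ) :
    Summable (fun n : ℤ => ‖(kap η n : ℂ) * e (n * x)‖) := by
  have h := (hasSum_kap_self hη h1).summable
  convert h using 2 with n
  rw [norm_mul, norm_e, mul_one, Complex.norm_real, Real.norm_of_nonneg (kap_nonneg η n)]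

/-- Lower bound of the coefficients near `0`. -/
theorem kap_ge {η : ℝ} (hη : 0 ≤ η) {n : ℤ} (hn : |(n : ℝ)| * η ≤ 1 / 2) :
    4 / Real.pi ^ 2 * η ^ 2 ≤ kap η n := by
  unfold kap
  have hpi := Real.pi_pos
  have hpi2 : 2 < Real.pi := by linarith [Real.pi_gt_three]
  split_ifs with h0
  · have : 4 / Real.pi ^ 2 ≤ 1 := by
      rw [div_le_one (by positivity)]
      nlinarith
    nlinarith [sq_nonneg η]
  · have hn0 : (0 : ℝ) < |(n : ℝ)| := by
      rw [abs_pos]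
      exact_mod_cast h0
    -- reduce to |n|
    have hsin : (Real.sin (Real.pi * n * η) / (Real.pi * n)) ^ 2 =
        (Real.sin (Real.pi * (|(n : ℝ)| * η)) / (Real.pi * |(n : ℝ)|)) ^ 2 := by
      rcases le_or_gt 0 (n : ℝ) with h | h
      · rw [abs_of_nonneg h, ← mul_assoc]
      · rw [abs_of_neg h]
        have : Real.pi * (-(n : ℝ) * η) = -(Real.pi * n * η) := by ring
        rw [this, Real.sin_neg, div_pow, div_pow]
        ring
    rw [hsin]
    set m := |(n : ℝ)| with hm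
    have hs : 2 * (m * η) ≤ Real.sin (Real.pi * (m * η)) := by
      have := Real.mul_le_sin (x := Real.pi * (m * η)) (by positivity)
        (by nlinarith)
      calc 2 * (m * η) = 2 / Real.pi * (Real.pi * (m * η)) := by
            field_simp
        _ ≤ _ := this
    have h2 : 2 / Real.pi * η ≤ Real.sin (Real.pi * (m * η)) / (Real.pi * m) := by
      rw [le_div_iff₀ (by positivity)]
      calc 2 / Real.pi * η * (Real.pi * m) = 2 * (m * η) := by
            field_simp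
        _ ≤ _ := hs
    have h3 : 0 ≤ 2 / Real.pi * η := by positivity
    calc 4 / Real.pi ^ 2 * η ^ 2 = (2 / Real.pi * η) ^ 2 := by
          rw [mul_pow, div_pow]
          norm_num
      _ ≤ _ := pow_le_pow_left₀ h3 h2 2

/-! ### The two-dimensional dual large sieve -/

/-- Separation modulo one. -/
def Sep (η t : ℝ) : Prop := ∃ m : ℤ, η ≤ t - m ∧ t - m ≤ 1 - η

theorem hasSum_kap_sep {η t : ℝ} (hη : 0 ≤ η) (h : Sep η t) :
    HasSum (fun n : ℤ => (kap η n : ℂ) * e (n * t)) 0 := by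
  obtain ⟨m, h1, h2⟩ := h
  convert hasSum_kap_zero hη h1 h2 using 1
  funext n
  congr 1
  have : (n : ℝ) * (t - m) = n * t - ((n * m : ℤ) : ℝ) := by push_cast; ring
  rw [this, e_sub_int]

theorem ls2_kap {ι : Type*} [DecidableEq ι] (S : Finset ι) (x y : ι → ℝ) (γ : ι → ℂ) {η : ℝ}
    (hη : 0 ≤ η) (hη1 : η ≤ 1)
    (hsep : ∀ r ∈ S, ∀ s ∈ S, r ≠ s → Sep η (x r - x s) ∨ Sep η (y r - y s)) :
    HasSum (fun b : ℤ × ℤ => kap η b.1 * kap η b.2 *
      ‖∑ r ∈ S, γ r * e (b.1 * x r + b.2 * y r)‖ ^ 2) (η ^ 2 * ∑ r ∈ S, ‖γ r‖ ^ 2) := by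
  have key : ∀ r ∈ S, ∀ s ∈ S, HasSum (fun b : ℤ × ℤ =>
      ((kap η b.1 : ℂ) * e (b.1 * (x r - x s))) * ((kap η b.2 : ℂ) * e (b.2 * (y r - y s))))
      (if r = s then ((η ^ 2 : ℝ) : ℂ) else 0) := by
    intro r hr s hs
    have hsx := summable_kap hη hη1 (x r - x s)
    have hsy := summable_kap hη hη1 (y r - y s)
    have hprod := summable_mul_of_summable_norm hsx hsy
    have hX := hsx.of_norm.hasSum
    have hY := hsy.of_norm.hasSum
    have hXY := hX.mul hY hprod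
    have hval : (if r = s then ((η ^ 2 : ℝ) : ℂ) else 0) =
        (∑' (b : ℤ), (kap η b : ℂ) * e (b * (x r - x s))) *
          ∑' (b : ℤ), (kap η b : ℂ) * e (b * (y r - y s)) := by
     split_ifs with hrs
     · subst hrs
       have h0 := (hasSum_kap_self hη hη1)
       have h0' : HasSum (fun n : ℤ => ((kap η n : ℝ) : ℂ)) (η : ℂ) := by exact_mod_cast h0
       have h1 : ∀ z : ℝ, (∑' n : ℤ, (kap η n : ℂ) * e (n * (z - z))) = (η : ℂ) := by
         intro z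
         rw [← h0'.tsum_eq]
         congr 1
         funext n
         simp [e_zero]
       rw [h1, h1]
       push_cast
       ring
     · rcases hsep r hr s hs hrs with h | h
       · rw [(hasSum_kap_sep hη h).tsum_eq, zero_mul]
       · rw [(hasSum_kap_sep hη h).tsum_eq, mul_zero]
    rw [hval]
    exact hXY
  have h2 : HasSum (fun b : ℤ × ℤ => ∑ r ∈ S, ∑ s ∈ S, (γ r * (starRingEnd ℂ) (γ s)) *
      (((kap η b.1 : ℂ) * e (b.1 * (x r - x s))) * ((kap η b.2 : ℂ) * e (b.2 * (y r - y s)))))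
      (∑ r ∈ S, ∑ s ∈ S, (γ r * (starRingEnd ℂ) (γ s)) * (if r = s then ((η ^ 2 : ℝ) : ℂ) else 0)) :=
    hasSum_sum fun r hr => hasSum_sum fun s hs => (key r hr s hs).mul_left _
  have h3 : (∑ r ∈ S, ∑ s ∈ S, (γ r * (starRingEnd ℂ) (γ s)) *
      (if r = s then ((η ^ 2 : ℝ) : ℂ) else 0)) = ((η ^ 2 * ∑ r ∈ S, ‖γ r‖ ^ 2 : ℝ) : ℂ) := by
    push_cast
    rw [mul_sum]
    refine sum_congr rfl fun r hr => ?_
    simp only [mul_ite, mul_zero]
    rw [Finset.sum_ite_eq, if_pos hr, Complex.mul_conj']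
    ring
  rw [h3] at h2
  rw [← Complex.hasSum_ofReal]
  convert h2 using 1
  funext b
  push_cast
  rw [← Complex.mul_conj', map_sum, sum_mul_sum, mul_sum]
  refine sum_congr rfl fun r _ => ?_
  rw [mul_sum]
  refine sum_congr rfl fun s _ => ?_
  have ee : e (b.1 * (x r - x s)) * e (b.2 * (y r - y s)) =
      e (b.1 * x r + b.2 * y r) * (starRingEnd ℂ) (e (b.1 * x s + b.2 * y s)) := by
    rw [← e_add, ← e_sub]
    congr 1
    ring
  rw [map_mul]
  linear_combination (-(kap η b.1 : ℂ) * (kap η b.2 : ℂ) * γ r * (starRingEnd ℂ) (γ s)) * ee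

/-- **Dual additive large sieve in dimension 2**: sup-norm `η`-separated points, frequencies in a
box of half-side `1/(2η)` around any centre. -/
theorem ls2_dual {ι : Type*} [DecidableEq ι] (S : Finset ι) (x y : ι → ℝ) (γ : ι → ℂ) {η : ℝ}
    (hη : 0 < η) (hη1 : η ≤ 1)
    (hsep : ∀ r ∈ S, ∀ s ∈ S, r ≠ s → Sep η (x r - x s) ∨ Sep η (y r - y s))
    (c₁ c₂ : ℤ) (Bx : Finset (ℤ × ℤ))
    (hB : ∀ b ∈ Bx, |((b.1 - c₁ : ℤ) : ℝ)| * η ≤ 1 / 2 ∧ |((b.2 - c₂ : ℤ) : ℝ)| * η ≤ 1 / 2) :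
    ∑ b ∈ Bx, ‖∑ r ∈ S, γ r * e (b.1 * x r + b.2 * y r)‖ ^ 2 ≤
      (Real.pi ^ 4 / 16) * η⁻¹ ^ 2 * ∑ r ∈ S, ‖γ r‖ ^ 2 := by
  set γ' : ι → ℂ := fun r => γ r * e (c₁ * x r + c₂ * y r) with hγ'
  have hH := ls2_kap S x y γ' hη.le hη1 hsep
  have hnorm : ∑ r ∈ S, ‖γ' r‖ ^ 2 = ∑ r ∈ S, ‖γ r‖ ^ 2 := by
    refine sum_congr rfl fun r _ => ?_
    rw [hγ', norm_mul, norm_e, mul_one]
  rw [hnorm] at hH
  have hpi := Real.pi_pos
  set G : ℤ × ℤ → ℝ := fun b => kap η b.1 * kap η b.2 *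
      ‖∑ r ∈ S, γ' r * e (b.1 * x r + b.2 * y r)‖ ^ 2 with hG
  set sh : ℤ × ℤ → ℤ × ℤ := fun b => (b.1 - c₁, b.2 - c₂) with hsh
  have hinj : Function.Injective sh := by
    intro a b hab
    simp only [hsh, Prod.mk.injEq] at hab
    ext <;> [have := hab.1; have := hab.2] <;> linarith
  have hle : ∑ b ∈ Bx.image sh, G b ≤ η ^ 2 * ∑ r ∈ S, ‖γ r‖ ^ 2 := by
    refine sum_le_hasSum _ (fun b _ => ?_) hH
    have := kap_nonneg η b.1
    have := kap_nonneg η b.2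
    positivity
  rw [Finset.sum_image (fun a _ b _ h => hinj h)] at hle
  have hterm : ∀ b ∈ Bx, (4 / Real.pi ^ 2 * η ^ 2) ^ 2 *
      ‖∑ r ∈ S, γ r * e (b.1 * x r + b.2 * y r)‖ ^ 2 ≤ G (sh b) := by
    intro b hb
    obtain ⟨h1, h2⟩ := hB b hb
    have k1 := kap_ge hη.le h1
    have k2 := kap_ge hη.le h2
    have heq : ∑ r ∈ S, γ' r * e (((sh b).1 : ℤ) * x r + ((sh b).2 : ℤ) * y r) =
        ∑ r ∈ S, γ r * e (b.1 * x r + b.2 * y r) := by
      refine sum_congr rfl fun r _ => ?_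
      rw [hγ', mul_assoc, ← e_add]
      congr 2
      simp only [hsh]
      push_cast
      ring
    rw [hG]
    simp only
    rw [heq]
    refine mul_le_mul_of_nonneg_right ?_ (by positivity)
    rw [sq]
    exact mul_le_mul k1 k2 (by positivity) (kap_nonneg _ _)
  have hsum := (sum_le_sum hterm).trans hle
  rw [← mul_sum] at hsum
  have hpos : 0 < (4 / Real.pi ^ 2 * η ^ 2) ^ 2 := by positivity
  have : ∑ b ∈ Bx, ‖∑ r ∈ S, γ r * e (b.1 * x r + b.2 * y r)‖ ^ 2 ≤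
      (η ^ 2 * ∑ r ∈ S, ‖γ r‖ ^ 2) / (4 / Real.pi ^ 2 * η ^ 2) ^ 2 := by
    rw [le_div_iff₀ hpos, mul_comm]
    exact hsum
  refine this.trans (le_of_eq ?_)
  field_simp
  norm_num

/-! ### Duality -/

/-- Duality principle for finite matrices. -/
theorem duality {ι κ : Type*} (S : Finset ι) (B : Finset κ) (a : ι → κ → ℂ) {D : ℝ}
    (hD0 : 0 ≤ D)
    (hD : ∀ γ : ι → ℂ, ∑ b ∈ B, ‖∑ r ∈ S, γ r * a r b‖ ^ 2 ≤ D * ∑ r ∈ S, ‖γ r‖ ^ 2)
    (β : κ → ℂ) :
    ∑ r ∈ S, ‖∑ b ∈ B, β b * a r b‖ ^ 2 ≤ D * ∑ b ∈ B, ‖β b‖ ^ 2 := by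
  set T : ℝ := ∑ r ∈ S, ‖∑ b ∈ B, β b * a r b‖ ^ 2 with hT
  set γ : ι → ℂ := fun r => (starRingEnd ℂ) (∑ b ∈ B, β b * a r b) with hγ
  have hT0 : 0 ≤ T := sum_nonneg fun _ _ => by positivity
  have h1 : (T : ℂ) = ∑ b ∈ B, β b * ∑ r ∈ S, γ r * a r b := by
    rw [hT]
    push_cast
    have : ∀ r ∈ S, ((‖∑ b ∈ B, β b * a r b‖ : ℂ)) ^ 2 = ∑ b ∈ B, β b * (γ r * a r b) := by
      intro r _
      rw [← Complex.mul_conj', hγ]
      simp only
      rw [sum_mul]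
      refine sum_congr rfl fun b _ => ?_
      ring
    rw [sum_congr rfl this, sum_comm]
    refine sum_congr rfl fun b _ => ?_
    rw [mul_sum]
  have h2 : T ≤ ∑ b ∈ B, ‖β b‖ * ‖∑ r ∈ S, γ r * a r b‖ := by
    have : T = ‖(T : ℂ)‖ := by rw [Complex.norm_real, Real.norm_of_nonneg hT0]
    rw [this, h1]
    refine (norm_sum_le _ _).trans (le_of_eq ?_)
    refine sum_congr rfl fun b _ => ?_
    rw [norm_mul]
  have h3 : T ^ 2 ≤ (∑ b ∈ B, ‖β b‖ ^ 2) * (D * T) := by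
    have hcs := Finset.sum_mul_sq_le_sq_mul_sq B (fun b => ‖β b‖)
      (fun b => ‖∑ r ∈ S, γ r * a r b‖)
    have hγn : ∑ r ∈ S, ‖γ r‖ ^ 2 = T := by
      rw [hT]
      refine sum_congr rfl fun r _ => ?_
      rw [hγ, Complex.norm_conj]
    calc T ^ 2 ≤ (∑ b ∈ B, ‖β b‖ * ‖∑ r ∈ S, γ r * a r b‖) ^ 2 :=
          pow_le_pow_left₀ hT0 h2 2
      _ ≤ _ := hcs
      _ ≤ _ := by
          refine mul_le_mul_of_nonneg_left ?_ (sum_nonneg fun _ _ => by positivity)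
          rw [← hγn]
          exact hD γ
  rcases hT0.eq_or_lt with h0 | h0
  · rw [← h0]
    positivity
  · have : T * T ≤ T * (D * ∑ b ∈ B, ‖β b‖ ^ 2) := by nlinarith
    exact le_of_mul_le_mul_left this h0

end Crest.Agent.R012.LS879
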