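import Mathlib

/-!
# Row 12: best constants in large sieve inequalities (general finite matrices)

`Adm s t φ B` : `∑_{a∈s} |∑_{b∈t} c b φ a b|² ≤ B ∑_{b∈t} |c b|²` for all `c`.
`bc s t φ` : the smallest admissible `B ≥ 0`.

* `bc_spec`, `bc_le`, `bc_nonneg`
* `bc_dual : bc s t φ = bc t s (fun b a => φ a b)` (duality principle)
* `bc_mono`, `bc_le_card`, `bc_twist_le`, `bc_conj`
-/

set_option autoImplicit false

noncomputable section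

open Finset

namespace Crest.Agent.R012.LS448

variable {α β : Type*}

/-- Admissible constants for the matrix `φ` on `s × t`. -/
def Adm (s : Finset α) (t : Finset β) (φ : α → β → ℂ) (B : ℝ) : Prop :=
  ∀ c : β → ℂ, ∑ a ∈ s, ‖∑ b ∈ t, c b * φ a b‖ ^ 2 ≤ B * ∑ b ∈ t, ‖c b‖ ^ 2

/-- The best constant. -/
def bc (s : Finset α) (t : Finset β) (φ : α → β → ℂ) : ℝ := sInf {B : ℝ | 0 ≤ B ∧ Adm s t φ B}

lemma bddBelow_adm (s : Finset α) (t : Finset β) (φ : α → β → ℂ) :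
    BddBelow {B : ℝ | 0 ≤ B ∧ Adm s t φ B} := ⟨0, fun _ h => h.1⟩

/-- Cauchy–Schwarz for complex finite sums. -/
lemma norm_sum_mul_sq_le (t : Finset β) (x y : β → ℂ) :
    ‖∑ b ∈ t, x b * y b‖ ^ 2 ≤ (∑ b ∈ t, ‖x b‖ ^ 2) * ∑ b ∈ t, ‖y b‖ ^ 2 := by
  have h1 : ‖∑ b ∈ t, x b * y b‖ ≤ ∑ b ∈ t, ‖x b‖ * ‖y b‖ := by
    refine (norm_sum_le _ _).trans (le_of_eq ?_)
    exact sum_congr rfl fun b _ => norm_mul _ _
  calc ‖∑ b ∈ t, x b * y b‖ ^ 2 ≤ (∑ b ∈ t, ‖x b‖ * ‖y b‖) ^ 2 := by gcongr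
    _ ≤ _ := sum_mul_sq_le_sq_mul_sq _ _ _

lemma adm_nonempty (s : Finset α) (t : Finset β) (φ : α → β → ℂ) :
    (∑ a ∈ s, ∑ b ∈ t, ‖φ a b‖ ^ 2) ∈ {B : ℝ | 0 ≤ B ∧ Adm s t φ B} := by
  refine ⟨by positivity, fun c => ?_⟩
  rw [sum_mul]
  refine sum_le_sum fun a _ => ?_
  rw [mul_comm]
  exact norm_sum_mul_sq_le t c (φ a)

lemma bc_nonneg (s : Finset α) (t : Finset β) (φ : α → β → ℂ) : 0 ≤ bc s t φ :=
  Real.sInf_nonneg fun _ h => h.1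

lemma bc_le {s : Finset α} {t : Finset β} {φ : α → β → ℂ} {B : ℝ} (hB : 0 ≤ B)
    (h : Adm s t φ B) : bc s t φ ≤ B :=
  csInf_le (bddBelow_adm s t φ) ⟨hB, h⟩

lemma bc_spec (s : Finset α) (t : Finset β) (φ : α → β → ℂ) : Adm s t φ (bc s t φ) := by
  intro c
  rcases eq_or_lt_of_le (show (0 : ℝ) ≤ ∑ b ∈ t, ‖c b‖ ^ 2 by positivity) with h0 | h0
  · have h1 := (adm_nonempty s t φ).2 c
    rw [← h0, mul_zero] at h1
    rw [← h0, mul_zero]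
    exact h1
  · rw [← div_le_iff₀ h0]
    refine le_csInf ⟨_, adm_nonempty s t φ⟩ fun B hB => ?_
    rw [div_le_iff₀ h0]
    exact hB.2 c

lemma adm_of_bc_le {s : Finset α} {t : Finset β} {φ : α → β → ℂ} {B : ℝ}
    (h : bc s t φ ≤ B) : Adm s t φ B := fun c =>
  (bc_spec s t φ c).trans (by gcongr)

lemma bc_le_of_adm_imp {α' β' : Type*} {s : Finset α} {t : Finset β} {φ : α → β → ℂ}
    {s' : Finset α'} {t' : Finset β'} {φ' : α' → β' → ℂ}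
    (h : ∀ B, 0 ≤ B → Adm s' t' φ' B → Adm s t φ B) : bc s t φ ≤ bc s' t' φ' :=
  bc_le (bc_nonneg _ _ _) (h _ (bc_nonneg _ _ _) (bc_spec _ _ _))

/-- Duality principle, one direction. -/
lemma Adm.dual {s : Finset α} {t : Finset β} {φ : α → β → ℂ} {B : ℝ} (hB : 0 ≤ B)
    (h : Adm s t φ B) : Adm t s (fun b a => φ a b) B := by
  intro d
  set y : β → ℂ := fun b => ∑ a ∈ s, d a * φ a b with hy
  set X : ℝ := ∑ b ∈ t, ‖y b‖ ^ 2 with hX
  have hX0 : 0 ≤ X := by positivity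
  have h1 := h (fun b => (starRingEnd ℂ) (y b))
  have h2 : (X : ℂ) = ∑ a ∈ s, d a * ∑ b ∈ t, (starRingEnd ℂ) (y b) * φ a b := by
    rw [hX]
    push_cast
    have : ∀ b ∈ t, ((‖y b‖ : ℂ)) ^ 2 = ∑ a ∈ s, d a * ((starRingEnd ℂ) (y b) * φ a b) := by
      intro b _
      have e1 : ((‖y b‖ : ℂ)) ^ 2 = y b * (starRingEnd ℂ) (y b) := by
        rw [Complex.mul_conj, Complex.normSq_eq_norm_sq]; push_cast; ring
      rw [e1]
      conv_lhs => rw [hy]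
      simp only
      rw [sum_mul]
      refine sum_congr rfl fun a _ => ?_
      ring
    rw [sum_congr rfl this, sum_comm]
    refine sum_congr rfl fun a _ => ?_
    rw [mul_sum]
  have h3 : X ^ 2 ≤ (∑ a ∈ s, ‖d a‖ ^ 2) *
      ∑ a ∈ s, ‖∑ b ∈ t, (starRingEnd ℂ) (y b) * φ a b‖ ^ 2 := by
    have := norm_sum_mul_sq_le s d (fun a => ∑ b ∈ t, (starRingEnd ℂ) (y b) * φ a b)
    rw [← h2, Complex.norm_real, Real.norm_of_nonneg hX0] at this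
    exact this
  have h4 : ∑ b ∈ t, ‖(starRingEnd ℂ) (y b)‖ ^ 2 = X := by
    rw [hX]; exact sum_congr rfl fun b _ => by rw [Complex.norm_conj]
  rw [h4] at h1
  have h5 : X ^ 2 ≤ (∑ a ∈ s, ‖d a‖ ^ 2) * (B * X) :=
    h3.trans (mul_le_mul_of_nonneg_left h1 (by positivity))
  have hD : 0 ≤ ∑ a ∈ s, ‖d a‖ ^ 2 := by positivity
  rcases eq_or_lt_of_le hX0 with h0 | h0
  · rw [← h0]; positivity
  · have : X * X ≤ (B * ∑ a ∈ s, ‖d a‖ ^ 2) * X := by nlinarith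
    exact le_of_mul_le_mul_right this h0

/-- Duality principle. -/
lemma bc_dual (s : Finset α) (t : Finset β) (φ : α → β → ℂ) :
    bc s t φ = bc t s (fun b a => φ a b) := by
  apply le_antisymm
  · exact bc_le_of_adm_imp fun B hB h => h.dual hB
  · exact bc_le_of_adm_imp fun B hB h => h.dual hB

lemma bc_congr {s : Finset α} {t : Finset β} {φ ψ : α → β → ℂ}
    (h : ∀ a ∈ s, ∀ b ∈ t, φ a b = ψ a b) : bc s t φ = bc s t ψ := by
  have key : ∀ φ ψ : α → β → ℂ, (∀ a ∈ s, ∀ b ∈ t, φ a b = ψ a b) → bc s t φ ≤ bc s t ψ := by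
    intro φ ψ h
    refine bc_le_of_adm_imp fun B _ hA c => ?_
    have := hA c
    refine le_trans (le_of_eq ?_) this
    refine sum_congr rfl fun a ha => ?_
    congr 2
    exact sum_congr rfl fun b hb => by rw [h a ha b hb]
  exact le_antisymm (key _ _ h) (key _ _ fun a ha b hb => (h a ha b hb).symm)

lemma bc_mono_left {s s' : Finset α} (hs : s ⊆ s') (t : Finset β) (φ : α → β → ℂ) :
    bc s t φ ≤ bc s' t φ := by
  refine bc_le_of_adm_imp fun B _ h c => ?_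
  exact (sum_le_sum_of_subset_of_nonneg hs fun _ _ _ => by positivity).trans (h c)

lemma bc_mono_right (s : Finset α) {t t' : Finset β} (ht : t ⊆ t') (φ : α → β → ℂ) :
    bc s t φ ≤ bc s t' φ := by
  rw [bc_dual s t, bc_dual s t']
  exact bc_mono_left ht _ _

lemma bc_mono {s s' : Finset α} (hs : s ⊆ s') {t t' : Finset β} (ht : t ⊆ t')
    (φ : α → β → ℂ) : bc s t φ ≤ bc s' t' φ :=
  (bc_mono_left hs _ _).trans (bc_mono_right _ ht _)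

/-- Trivial bound. -/
lemma bc_le_card (s : Finset α) (t : Finset β) {φ : α → β → ℂ}
    (h : ∀ a ∈ s, ∀ b ∈ t, ‖φ a b‖ ≤ 1) : bc s t φ ≤ (#s : ℝ) * #t := by
  refine (bc_le (adm_nonempty s t φ).1 (adm_nonempty s t φ).2).trans ?_
  have : ∀ a ∈ s, ∑ b ∈ t, ‖φ a b‖ ^ 2 ≤ #t := by
    intro a ha
    have : ∑ b ∈ t, ‖φ a b‖ ^ 2 ≤ ∑ b ∈ t, (1 : ℝ) :=
      sum_le_sum fun b hb => pow_le_one₀ (norm_nonneg _) (h a ha b hb)
    simpa using this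
  have := sum_le_sum this
  simpa using this

lemma bc_empty_left (t : Finset β) (φ : α → β → ℂ) : bc (∅ : Finset α) t φ = 0 :=
  le_antisymm (bc_le le_rfl fun c => by simp) (bc_nonneg _ _ _)


/-- Using the best constant with coefficients twisted by `ψ b`, `|ψ b| ≤ 1`. -/
lemma sum_twist_le {s : Finset α} {t : Finset β} {φ : α → β → ℂ} {B : ℝ} (hB : 0 ≤ B)
    (h : Adm s t φ B) {ψ : β → ℂ} (hψ : ∀ b ∈ t, ‖ψ b‖ ≤ 1) (c : β → ℂ) :
    ∑ a ∈ s, ‖∑ b ∈ t, c b * (φ a b * ψ b)‖ ^ 2 ≤ B * ∑ b ∈ t, ‖c b‖ ^ 2 := by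
  have h1 := h (fun b => c b * ψ b)
  have h2 : ∑ b ∈ t, ‖c b * ψ b‖ ^ 2 ≤ ∑ b ∈ t, ‖c b‖ ^ 2 := by
    refine sum_le_sum fun b hb => ?_
    rw [norm_mul, mul_pow]
    exact mul_le_of_le_one_right (by positivity) (pow_le_one₀ (norm_nonneg _) (hψ b hb))
  refine le_trans (le_of_eq ?_) (h1.trans (mul_le_mul_of_nonneg_left h2 hB))
  refine sum_congr rfl fun a _ => ?_
  congr 2
  exact sum_congr rfl fun b _ => by ring


lemma Adm.conj {s : Finset α} {t : Finset β} {φ : α → β → ℂ} {B : ℝ} (h : Adm s t φ B) :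
    Adm s t (fun a b => (starRingEnd ℂ) (φ a b)) B := by
  intro c
  have h1 := h (fun b => (starRingEnd ℂ) (c b))
  have h2 : ∑ b ∈ t, ‖(starRingEnd ℂ) (c b)‖ ^ 2 = ∑ b ∈ t, ‖c b‖ ^ 2 :=
    sum_congr rfl fun b _ => by rw [Complex.norm_conj]
  rw [h2] at h1
  refine le_trans (le_of_eq ?_) h1
  refine sum_congr rfl fun a _ => ?_
  rw [← Complex.norm_conj, map_sum]
  congr 2
  exact sum_congr rfl fun b _ => by rw [map_mul, Complex.conj_conj]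


/-- Splitting the column set: `|∑_{i<L} S_i|² ≤ L ∑ |S_i|²`. -/
lemma bc_biUnion_right_le [DecidableEq β] {ι : Type*} (s : Finset α) (I : Finset ι)
    (t : ι → Finset β) (hd : (I : Set ι).PairwiseDisjoint t) (φ : α → β → ℂ) {Y : ℝ}
    (hY : 0 ≤ Y) (h : ∀ i ∈ I, bc s (t i) φ ≤ Y) : bc s (I.biUnion t) φ ≤ #I * Y := by
  refine bc_le (by positivity) fun c => ?_
  have h1 : ∀ a, ∑ b ∈ I.biUnion t, c b * φ a b = ∑ i ∈ I, ∑ b ∈ t i, c b * φ a b :=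
    fun a => sum_biUnion hd
  have h2 : ∑ b ∈ I.biUnion t, ‖c b‖ ^ 2 = ∑ i ∈ I, ∑ b ∈ t i, ‖c b‖ ^ 2 := sum_biUnion hd
  rw [h2]
  calc ∑ a ∈ s, ‖∑ b ∈ I.biUnion t, c b * φ a b‖ ^ 2
      ≤ ∑ a ∈ s, #I * ∑ i ∈ I, ‖∑ b ∈ t i, c b * φ a b‖ ^ 2 := by
        refine sum_le_sum fun a _ => ?_
        rw [h1]
        calc ‖∑ i ∈ I, ∑ b ∈ t i, c b * φ a b‖ ^ 2
            ≤ (∑ i ∈ I, ‖∑ b ∈ t i, c b * φ a b‖) ^ 2 := by
              gcongr; exact norm_sum_le _ _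
          _ ≤ _ := sq_sum_le_card_mul_sum_sq
    _ = #I * ∑ i ∈ I, ∑ a ∈ s, ‖∑ b ∈ t i, c b * φ a b‖ ^ 2 := by
        rw [← mul_sum, sum_comm]
    _ ≤ #I * ∑ i ∈ I, Y * ∑ b ∈ t i, ‖c b‖ ^ 2 := by
        gcongr with i hi
        exact adm_of_bc_le (h i hi) c
    _ = _ := by rw [← mul_sum]; ring

end Crest.Agent.R012.LS448
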