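import Crest.Agent.R012.Dec_766
import Crest.Agent.R012.LScount_448
import Crest.Agent.R012.CharSum_852

/-!
# Row 12, item TN: the non-cube dual sum

Kernels `κ = ((i, j), (k1, k2))`, value `kv κ = w^i lam^j k1 k2²`, conductor `nm k1 * nm k2`.

Inputs (as `Prop`s): `L1Prop` (multiplicative large sieve in conductor form), `HBProp` (cubic large
sieve of Heath-Brown).

* `ls_kernel`   : large sieve over kernels of norm at most `K ≤ 2 B^(1-δ)`,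
* `kernel_large`: sum over `(κ, m)` with `nm (kv κ) > L`, `nm (kv κ) * nm m ^ 3 ≤ H`,
* `noncube_bound` : sum over non-cubes `h`, given the Siegel-Walfisz type bound for small `h`.
-/

set_option autoImplicit false
set_option linter.unusedVariables false
set_option linter.unusedSectionVars false

noncomputable section

namespace Crest.Agent.R012.NonCube52

open Finset Eis LS448 CharSum852 Char766

/-- `((i, j), (k1, k2))`. -/
abbrev Ker : Type := (ℕ × ℕ) × (Eis × Eis)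

/-- The value `w^i lam^j k1 k2²` of a kernel. -/
def kv (κ : Ker) : Eis := w ^ κ.1.1 * lam ^ κ.1.2 * κ.2.1 * κ.2.2 ^ 2

structure Good (κ : Ker) : Prop where
  hi : κ.1.1 < 3
  hj : κ.1.2 < 3
  prim1 : IsPrim κ.2.1
  prim2 : IsPrim κ.2.2
  sqf1 : Squarefree κ.2.1
  sqf2 : Squarefree κ.2.2
  cop : IsCoprime κ.2.1 κ.2.2

/-- multiplicative large sieve for the cubic characters `b ↦ (w^i lam^j k1 k2² / b)`, in terms of
the conductor `nm k1 * nm k2`. -/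
def L1Prop : Prop :=
  ∃ C : ℝ, 0 < C ∧ ∀ B Q : ℝ, 1 ≤ B → 1 ≤ Q → ∀ 𝒦 : Finset Ker,
    (∀ κ ∈ 𝒦, Good κ ∧ (nm κ.2.1 : ℝ) * nm κ.2.2 ≤ Q) →
    ∀ T : Finset Eis, (∀ b ∈ T, IsPrim b ∧ (nm b : ℝ) ≤ B) → ∀ β : Eis → ℂ,
      ∑ κ ∈ 𝒦, ‖∑ b ∈ T, β b * sy (kv κ) b‖ ^ 2 ≤ C * (B + Q ^ 2) * ∑ b ∈ T, ‖β b‖ ^ 2

/-- Heath-Brown's cubic large sieve. -/
def HBProp : Prop :=
  ∀ ε : ℝ, 0 < ε → ∃ C : ℝ, 0 < C ∧ ∀ M N : ℝ, 1 ≤ M → 1 ≤ N → ∀ S T : Finset Eis,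
    (∀ m ∈ S, IsPrim m ∧ Squarefree m ∧ (nm m : ℝ) ≤ M) →
    (∀ n ∈ T, IsPrim n ∧ Squarefree n ∧ (nm n : ℝ) ≤ N) → ∀ c : Eis → ℂ,
      ∑ m ∈ S, ‖∑ n ∈ T, c n * sy m n‖ ^ 2
        ≤ C * (M * N) ^ ε * (M + N + (M * N) ^ ((2 : ℝ) / 3)) * ∑ n ∈ T, ‖c n‖ ^ 2

/-! ### elementary facts -/

lemma nm_kv (κ : Ker) : nm (kv κ) = 3 ^ κ.1.2 * nm κ.2.1 * nm κ.2.2 ^ 2 := by
  unfold kv
  simp only [nm_mul, nm_pow, nm_w, nm_lam, one_pow, one_mul]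

lemma kv_ne_zero {κ : Ker} (h : Good κ) : kv κ ≠ 0 := by
  unfold kv
  exact mul_ne_zero (mul_ne_zero (mul_ne_zero (pow_ne_zero _ isUnit_w.ne_zero)
    (pow_ne_zero _ lam_ne_zero)) h.prim1.ne_zero) (pow_ne_zero _ h.prim2.ne_zero)

lemma one_le_nm1 {κ : Ker} (h : Good κ) : (1 : ℝ) ≤ nm κ.2.1 := one_le_nm' h.prim1.ne_zero
lemma one_le_nm2 {κ : Ker} (h : Good κ) : (1 : ℝ) ≤ nm κ.2.2 := one_le_nm' h.prim2.ne_zero
lemma one_le_nmkv {κ : Ker} (h : Good κ) : (1 : ℝ) ≤ nm (kv κ) := one_le_nm' (kv_ne_zero h)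

lemma nm_kv_ge (κ : Ker) : (nm κ.2.1 : ℝ) * nm κ.2.2 ^ 2 ≤ nm (kv κ) := by
  rw [nm_kv]
  push_cast
  have h1 : (1 : ℝ) ≤ 3 ^ κ.1.2 := one_le_pow₀ (by norm_num)
  have h2 : (0 : ℝ) ≤ (nm κ.2.1 : ℝ) * nm κ.2.2 ^ 2 := by positivity
  nlinarith

lemma cond_le {κ : Ker} (h : Good κ) : (nm κ.2.1 : ℝ) * nm κ.2.2 * nm κ.2.2 ≤ nm (kv κ) := by
  have := nm_kv_ge κ
  calc _ = (nm κ.2.1 : ℝ) * nm κ.2.2 ^ 2 := by ring
    _ ≤ _ := this

lemma cond_le' {κ : Ker} (h : Good κ) : (nm κ.2.1 : ℝ) * nm κ.2.2 ≤ nm (kv κ) := by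
  have h1 := cond_le h
  have h2 := one_le_nm2 h
  have h3 : (0 : ℝ) ≤ (nm κ.2.1 : ℝ) * nm κ.2.2 := by positivity
  nlinarith

lemma norm_sy_le (H : SyFacts) (x b : Eis) (hb : IsPrim b) : ‖sy x b‖ ≤ 1 := by
  by_cases hc : IsCoprime x b
  · have h3 := H.cube x b hb hc
    have : ‖sy x b‖ ^ 3 = 1 := by rw [← norm_pow, h3, norm_one]
    exact le_of_eq (by
      rcases (pow_eq_one_iff_of_nonneg (norm_nonneg _) (by norm_num : (3 : ℕ) ≠ 0)).mp this with h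
      exact h)
  · rw [(H.eq_zero x b hb).mpr hc]; simp

lemma sy_pow3 (H : SyFacts) (x b : Eis) (hb : IsPrim b) : sy (x ^ 3) b = sy x b ^ 3 := by
  rw [pow_succ, pow_succ, pow_one, H.mul_left _ _ _ hb, H.mul_left _ _ _ hb]; ring

/-- `Σ_{z ≠ 0, nm z ≤ X} nm(z)^(-4/3)` is bounded. -/
lemma sum_nz_43 : ∃ C : ℝ, 0 < C ∧ ∀ X : ℝ, ∑ z ∈ nz X, (nm z : ℝ) ^ (-(4 : ℝ) / 3) ≤ C := by
  classical
  set q : ℝ := (2 : ℝ) ^ (-(1 : ℝ) / 3) with hq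
  have hq0 : 0 < q := Real.rpow_pos_of_pos (by norm_num) _
  have hq1 : q < 1 := Real.rpow_lt_one_of_one_lt_of_neg (by norm_num) (by norm_num)
  refine ⟨32 * (1 - q)⁻¹, by have : 0 < 1 - q := by linarith
                             positivity, fun X => ?_⟩
  have hmaps : ∀ z ∈ nz X, Nat.log 2 (nm z) ∈ range (Nat.log 2 ⌊X⌋₊ + 1) := by
    intro z hz
    rw [mem_nz] at hz
    rw [mem_range, Nat.lt_succ_iff]
    exact Nat.log_mono_right (Nat.le_floor hz.2)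
  rw [← sum_fiberwise_of_maps_to hmaps]
  have hone : ∀ i ∈ range (Nat.log 2 ⌊X⌋₊ + 1),
      ∑ z ∈ nz X with Nat.log 2 (nm z) = i, (nm z : ℝ) ^ (-(4 : ℝ) / 3) ≤ 32 * q ^ i := by
    intro i _
    have h1 : ∀ z ∈ (nz X).filter (fun z => Nat.log 2 (nm z) = i),
        (nm z : ℝ) ^ (-(4 : ℝ) / 3) ≤ ((2 : ℝ) ^ i) ^ (-(4 : ℝ) / 3) := by
      intro z hz
      rw [mem_filter, mem_nz] at hz
      have h2 : 2 ^ Nat.log 2 (nm z) ≤ nm z := Nat.pow_log_le_self 2 (nm_pos.mpr hz.1.1).ne'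
      rw [hz.2] at h2
      have h3 : ((2 : ℝ)) ^ i ≤ nm z := by exact_mod_cast h2
      exact Real.rpow_le_rpow_of_nonpos (by positivity) h3 (by norm_num)
    have h4 : (nz X).filter (fun z => Nat.log 2 (nm z) = i) ⊆ ball (2 ^ (i + 1)) := by
      intro z hz
      rw [mem_filter, mem_nz] at hz
      rw [mem_ball]
      have := Nat.lt_pow_succ_log_self (b := 2) (by norm_num) (nm z)
      rw [hz.2] at this
      exact this.le
    have h5 := (card_le_card h4).trans (card_ball_le (X := 2 ^ (i + 1)) Nat.one_le_two_pow)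
    have h6 : ((2 : ℝ) ^ i) ^ (-(4 : ℝ) / 3) = q ^ i * ((2 : ℝ) ^ i)⁻¹ := by
      rw [← Real.rpow_natCast 2 i, ← Real.rpow_mul (by norm_num), hq, ← Real.rpow_natCast,
        ← Real.rpow_mul (by norm_num), ← Real.rpow_neg (by norm_num), ← Real.rpow_add (by norm_num)]
      congr 1; ring
    calc ∑ z ∈ nz X with Nat.log 2 (nm z) = i, (nm z : ℝ) ^ (-(4 : ℝ) / 3)
        ≤ ∑ z ∈ nz X with Nat.log 2 (nm z) = i, ((2 : ℝ) ^ i) ^ (-(4 : ℝ) / 3) := sum_le_sum h1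
      _ = #((nz X).filter (fun z => Nat.log 2 (nm z) = i)) * ((2 : ℝ) ^ i) ^ (-(4 : ℝ) / 3) := by
          rw [sum_const, nsmul_eq_mul]
      _ ≤ (16 * 2 ^ (i + 1)) * ((2 : ℝ) ^ i) ^ (-(4 : ℝ) / 3) := by
          gcongr
          exact_mod_cast h5
      _ = 32 * q ^ i := by
          rw [h6, pow_succ]; field_simp; norm_num
  calc _ ≤ ∑ i ∈ range (Nat.log 2 ⌊X⌋₊ + 1), 32 * q ^ i := sum_le_sum hone
    _ = 32 * ∑ i ∈ range (Nat.log 2 ⌊X⌋₊ + 1), q ^ i := by rw [mul_sum]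
    _ ≤ 32 * (1 - q)⁻¹ := by
        gcongr
        exact (Summable.sum_le_tsum _ (fun _ _ => by positivity)
          (summable_geometric_of_lt_one hq0.le hq1)).trans
          (tsum_geometric_of_lt_one hq0.le hq1).le

/-- number of nonzero elements -/
lemma card_nz_le16 {X : ℝ} (hX : 0 ≤ X) : (#(nz X) : ℝ) ≤ 16 * X := by
  by_cases h : 1 ≤ X
  · have h1 : nz X ⊆ ball ⌊X⌋₊ := fun z hz => by
      rw [mem_nz] at hz; rw [mem_ball]; exact Nat.le_floor hz.2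
    have h2 := (card_le_card h1).trans (card_ball_le (X := ⌊X⌋₊) (Nat.le_floor (by simpa using h)))
    calc (#(nz X) : ℝ) ≤ ((16 * ⌊X⌋₊ : ℕ) : ℝ) := by exact_mod_cast h2
      _ = 16 * (⌊X⌋₊ : ℝ) := by push_cast; ring
      _ ≤ 16 * X := by gcongr; exact Nat.floor_le hX
  · rw [nz_eq_empty (by linarith)]; simp; linarith


/-! ### the large sieve over kernels -/

lemma sy_kv_split (H : SyFacts) (p : ℕ × ℕ) (k1 k2 b : Eis) (hb : IsPrim b) :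
    sy (kv (p, (k1, k2))) b = sy (w ^ p.1 * lam ^ p.2 * k2 ^ 2) b * sy k1 b := by
  rw [← H.mul_left _ _ _ hb]
  have : kv (p, (k1, k2)) = w ^ p.1 * lam ^ p.2 * k2 ^ 2 * k1 := by
    unfold kv; ring
  rw [this]

/-- kernels with small `k2`, by Heath-Brown's large sieve in `k1`. -/
lemma hb_part (H : SyFacts) (hHB : HBProp) {ε : ℝ} (hε : 0 < ε) :
    ∃ C : ℝ, 0 < C ∧ ∀ B K Z : ℝ, 1 ≤ B → 1 ≤ K → K ≤ 2 * B → 0 ≤ Z → ∀ 𝒦 : Finset Ker,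
      (∀ κ ∈ 𝒦, Good κ ∧ (nm (kv κ) : ℝ) ≤ K ∧ (nm κ.2.2 : ℝ) ≤ Z) →
      ∀ T : Finset Eis, (∀ b ∈ T, IsPrim b ∧ Squarefree b ∧ (nm b : ℝ) ≤ B) → ∀ β : Eis → ℂ,
      ∑ κ ∈ 𝒦, ‖∑ b ∈ T, β b * sy (kv κ) b‖ ^ 2
        ≤ C * B ^ (2 * ε) * (Z * B + (K * B) ^ ((2 : ℝ) / 3)) * ∑ b ∈ T, ‖β b‖ ^ 2 := by
  classical
  obtain ⟨C1, hC1, hHB1⟩ := hHB ε hε
  obtain ⟨C3, hC3, hsum⟩ := sum_nz_43
  refine ⟨9 * (C1 * 2 ^ ε) * (64 + C3), by positivity, ?_⟩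
  intro B K Z hB hK hKB hZ 𝒦 h𝒦 T hT β
  set E : ℝ := ∑ b ∈ T, ‖β b‖ ^ 2 with hE
  have hE0 : 0 ≤ E := sum_nonneg fun _ _ => by positivity
  set f : Ker → ℝ := fun κ => ‖∑ b ∈ T, β b * sy (kv κ) b‖ ^ 2 with hf
  have hf0 : ∀ κ, 0 ≤ f κ := fun κ => by rw [hf]; positivity
  set R : Finset (ℕ × ℕ) := range 3 ×ˢ range 3 with hR
  have hsub : 𝒦 ⊆ R ×ˢ (nz K ×ˢ nz Z) := by
    intro κ hκ
    obtain ⟨hg, h1, h2⟩ := h𝒦 κ hκ
    rw [mem_product, mem_product, mem_product, mem_range, mem_range, mem_nz, mem_nz]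
    have h3 := cond_le' hg
    have h4 := one_le_nm2 hg
    have h5 : (0 : ℝ) ≤ nm κ.2.1 := by positivity
    exact ⟨⟨hg.hi, hg.hj⟩, ⟨hg.prim1.ne_zero, by nlinarith⟩, hg.prim2.ne_zero, h2⟩
  have hstep : ∑ κ ∈ 𝒦, f κ = ∑ p ∈ R, ∑ k2 ∈ nz Z, ∑ k1 ∈ nz K,
      if (p, (k1, k2)) ∈ 𝒦 then f (p, (k1, k2)) else 0 := by
    have h1 : ∑ κ ∈ 𝒦, f κ = ∑ κ ∈ R ×ˢ (nz K ×ˢ nz Z), if κ ∈ 𝒦 then f κ else 0 := by
      rw [← sum_filter]
      congr 1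
      ext κ
      rw [mem_filter]
      exact ⟨fun h => ⟨hsub h, h⟩, fun h => h.2⟩
    rw [h1, sum_product]
    refine sum_congr rfl fun p _ => ?_
    rw [sum_product_right]
  rw [hstep]
  have hinner : ∀ p ∈ R, ∀ k2 ∈ nz Z,
      (∑ k1 ∈ nz K, if (p, (k1, k2)) ∈ 𝒦 then f (p, (k1, k2)) else 0)
        ≤ (C1 * 2 ^ ε * B ^ (2 * ε)) *
          (4 * B + (K * B) ^ ((2 : ℝ) / 3) * (nm k2 : ℝ) ^ (-(4 : ℝ) / 3)) * E := by
    intro p hp k2 hk2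
    rw [mem_nz] at hk2
    have hk21 : (1 : ℝ) ≤ nm k2 := one_le_nm' hk2.1
    rw [← sum_filter]
    set S := (nz K).filter (fun k1 => (p, (k1, k2)) ∈ 𝒦) with hS
    set x : ℝ := K / (nm k2 : ℝ) ^ 2 with hx
    have hx0 : 0 ≤ x := by positivity
    set M : ℝ := max 1 x with hM
    set c : Eis → ℂ := fun b => β b * sy (w ^ p.1 * lam ^ p.2 * k2 ^ 2) b with hc
    have hSM : ∀ m ∈ S, IsPrim m ∧ Squarefree m ∧ (nm m : ℝ) ≤ M := by
      intro m hm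
      rw [hS, mem_filter] at hm
      obtain ⟨hg, h1, h2⟩ := h𝒦 _ hm.2
      refine ⟨hg.prim1, hg.sqf1, le_trans ?_ (le_max_right _ _)⟩
      have h5 := (nm_kv_ge (p, (m, k2))).trans h1
      rw [hx, le_div_iff₀ (by positivity)]
      exact h5
    have hmain := hHB1 M B (le_max_left _ _) hB S T hSM hT c
    have hEq : ∑ k1 ∈ S, f (p, (k1, k2)) = ∑ m ∈ S, ‖∑ n ∈ T, c n * sy m n‖ ^ 2 := by
      refine sum_congr rfl fun k1 _ => ?_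
      have h1 : ∑ b ∈ T, β b * sy (kv (p, (k1, k2))) b = ∑ n ∈ T, c n * sy k1 n := by
        refine sum_congr rfl fun b hb => ?_
        rw [sy_kv_split H p k1 k2 b (hT b hb).1, hc]
        ring
      show ‖∑ b ∈ T, β b * sy (kv (p, (k1, k2))) b‖ ^ 2 = _
      rw [h1]
    rw [hEq]
    have hcE : ∑ n ∈ T, ‖c n‖ ^ 2 ≤ E := by
      rw [hE]
      refine sum_le_sum fun b hb => ?_
      rw [hc]
      simp only
      rw [norm_mul, mul_pow]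
      have h1 := norm_sy_le H (w ^ p.1 * lam ^ p.2 * k2 ^ 2) b (hT b hb).1
      have h2 : ‖sy (w ^ p.1 * lam ^ p.2 * k2 ^ 2) b‖ ^ 2 ≤ 1 :=
        pow_le_one₀ (norm_nonneg _) h1
      have h3 : 0 ≤ ‖β b‖ ^ 2 := by positivity
      nlinarith
    refine hmain.trans ?_
    have hxK : x ≤ K := by
      rw [hx, div_le_iff₀ (by positivity)]
      nlinarith [one_le_pow₀ hk21 (n := 2)]
    have hM2B : M ≤ 2 * B := by
      rw [hM]; exact max_le (by linarith) (hxK.trans hKB)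
    have hM1 : 1 ≤ M := le_max_left _ _
    have hMB : M * B ≤ 2 * B ^ 2 := by nlinarith
    have hpw : (M * B) ^ ε ≤ 2 ^ ε * B ^ (2 * ε) := by
      calc (M * B) ^ ε ≤ (2 * B ^ 2) ^ ε :=
            Real.rpow_le_rpow (by positivity) hMB hε.le
        _ = 2 ^ ε * B ^ (2 * ε) := by
            rw [Real.mul_rpow (by norm_num) (by positivity), Real.rpow_mul (by linarith)]
            norm_num
    have hpw2 : (M * B) ^ ((2 : ℝ) / 3)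
        ≤ B + (K * B) ^ ((2 : ℝ) / 3) * (nm k2 : ℝ) ^ (-(4 : ℝ) / 3) := by
      have hB0 : (0 : ℝ) ≤ B := by linarith
      have e1 : (x * B) ^ ((2 : ℝ) / 3)
          = (K * B) ^ ((2 : ℝ) / 3) * (nm k2 : ℝ) ^ (-(4 : ℝ) / 3) := by
        have : x * B = (K * B) * ((nm k2 : ℝ) ^ (-(2 : ℝ))) := by
          rw [hx, Real.rpow_neg (by positivity)]
          norm_num
          ring
        rw [this, Real.mul_rpow (by positivity) (by positivity), ← Real.rpow_mul (by positivity)]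
        norm_num
      rcases le_total 1 x with h | h
      · rw [hM, max_eq_right h, e1]; linarith
      · rw [hM, max_eq_left h, one_mul]
        have : B ^ ((2 : ℝ) / 3) ≤ B ^ (1 : ℝ) :=
          Real.rpow_le_rpow_of_exponent_le hB (by norm_num)
        rw [Real.rpow_one] at this
        have h2 : 0 ≤ (K * B) ^ ((2 : ℝ) / 3) * (nm k2 : ℝ) ^ (-(4 : ℝ) / 3) := by positivity
        linarith
    have hB0 : (0 : ℝ) ≤ B := by linarith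
    have hM0 : (0 : ℝ) ≤ M := by linarith
    calc C1 * (M * B) ^ ε * (M + B + (M * B) ^ ((2 : ℝ) / 3)) * ∑ n ∈ T, ‖c n‖ ^ 2
        ≤ C1 * (2 ^ ε * B ^ (2 * ε)) *
          (2 * B + B + (B + (K * B) ^ ((2 : ℝ) / 3) * (nm k2 : ℝ) ^ (-(4 : ℝ) / 3))) * E := by
          gcongr
      _ = _ := by ring
  have hcardR : (#R : ℝ) = 9 := by rw [hR, card_product]; simp
  calc ∑ p ∈ R, ∑ k2 ∈ nz Z, ∑ k1 ∈ nz K, (if (p, (k1, k2)) ∈ 𝒦 then f (p, (k1, k2)) else 0)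
      ≤ ∑ p ∈ R, ∑ k2 ∈ nz Z, (C1 * 2 ^ ε * B ^ (2 * ε)) *
          (4 * B + (K * B) ^ ((2 : ℝ) / 3) * (nm k2 : ℝ) ^ (-(4 : ℝ) / 3)) * E :=
        sum_le_sum fun p hp => sum_le_sum fun k2 hk2 => hinner p hp k2 hk2
    _ = 9 * ((C1 * 2 ^ ε * B ^ (2 * ε)) *
          (#(nz Z) * (4 * B) + (K * B) ^ ((2 : ℝ) / 3) *
            ∑ k2 ∈ nz Z, (nm k2 : ℝ) ^ (-(4 : ℝ) / 3)) * E) := by
        rw [sum_const, nsmul_eq_mul, hcardR, ← sum_mul, ← mul_sum, sum_add_distrib, sum_const,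
          nsmul_eq_mul, ← mul_sum]
    _ ≤ 9 * ((C1 * 2 ^ ε * B ^ (2 * ε)) *
          ((16 * Z) * (4 * B) + (K * B) ^ ((2 : ℝ) / 3) * C3) * E) := by
        have := card_nz_le16 hZ
        have h2 := hsum Z
        gcongr
    _ ≤ 9 * (C1 * 2 ^ ε) * (64 + C3) * B ^ (2 * ε) * (Z * B + (K * B) ^ ((2 : ℝ) / 3)) * E := by
        have h0 : 0 ≤ (K * B) ^ ((2 : ℝ) / 3) := by positivity
        have h1 : 0 ≤ Z * B := by positivity
        have h2 : (16 * Z) * (4 * B) + (K * B) ^ ((2 : ℝ) / 3) * C3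
            ≤ (64 + C3) * (Z * B + (K * B) ^ ((2 : ℝ) / 3)) := by nlinarith
        have h3 : 0 ≤ 9 * (C1 * 2 ^ ε * B ^ (2 * ε)) * E := by positivity
        calc _ = 9 * (C1 * 2 ^ ε * B ^ (2 * ε)) * E *
              ((16 * Z) * (4 * B) + (K * B) ^ ((2 : ℝ) / 3) * C3) := by ring
          _ ≤ 9 * (C1 * 2 ^ ε * B ^ (2 * ε)) * E *
              ((64 + C3) * (Z * B + (K * B) ^ ((2 : ℝ) / 3))) := by gcongr
          _ = _ := by ring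


theorem ls_kernel (H : SyFacts) (hL1 : L1Prop) (hHB : HBProp) {δ : ℝ} (hδ : 0 < δ)
    (hδ2 : δ ≤ 1 / 2) :
    ∃ C : ℝ, 0 < C ∧ ∀ B K : ℝ, 1 ≤ B → 1 ≤ K → K ≤ 2 * B ^ (1 - δ) → ∀ 𝒦 : Finset Ker,
      (∀ κ ∈ 𝒦, Good κ ∧ (nm (kv κ) : ℝ) ≤ K) →
      ∀ T : Finset Eis, (∀ b ∈ T, IsPrim b ∧ Squarefree b ∧ (nm b : ℝ) ≤ B) → ∀ β : Eis → ℂ,
      ∑ κ ∈ 𝒦, ‖∑ b ∈ T, β b * sy (kv κ) b‖ ^ 2
        ≤ C * (B + K ^ ((1 : ℝ) / 3) * B ^ (1 - δ / 6)) * ∑ b ∈ T, ‖β b‖ ^ 2 := by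
  classical
  obtain ⟨C1, hC1, hL⟩ := hL1
  obtain ⟨C2, hC2, hP⟩ := hb_part H hHB (ε := δ / 12) (by positivity)
  refine ⟨3 * C1 + 3 * C2, by positivity, ?_⟩
  intro B K hB hK hKB 𝒦 h𝒦 T hT β
  set E : ℝ := ∑ b ∈ T, ‖β b‖ ^ 2 with hE
  have hE0 : 0 ≤ E := sum_nonneg fun _ _ => by positivity
  have hB0 : (0 : ℝ) < B := by linarith
  have hK0 : (0 : ℝ) < K := by linarith
  have hT' : ∀ b ∈ T, IsPrim b ∧ (nm b : ℝ) ≤ B := fun b hb => ⟨(hT b hb).1, (hT b hb).2.2⟩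
  have hmono : ∀ {a b : ℝ}, a ≤ b → B ^ a ≤ B ^ b := fun h =>
    Real.rpow_le_rpow_of_exponent_le hB h
  set X : ℝ := K ^ ((1 : ℝ) / 3) * B ^ (1 - δ / 6) with hX
  have hX0 : 0 ≤ X := by positivity
  rcases le_or_gt (K ^ 2) B with hKs | hKs
  · have h1 := hL B K hB hK 𝒦 (fun κ hκ => ⟨(h𝒦 κ hκ).1,
      (cond_le' (h𝒦 κ hκ).1).trans (h𝒦 κ hκ).2⟩) T hT' β
    refine h1.trans ?_
    calc C1 * (B + K ^ 2) * E ≤ C1 * (B + B) * E := by gcongr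
      _ ≤ (3 * C1 + 3 * C2) * (B + X) * E := by
        gcongr ?_ * E
        nlinarith [mul_pos hC1 hB0, mul_pos hC2 hB0, mul_nonneg hC1.le hX0,
          mul_nonneg hC2.le hX0]
  · set Z : ℝ := K ^ ((1 : ℝ) / 3) * B ^ (-(δ / 3)) with hZ
    have hZ1 : 1 ≤ Z := by
      have h1 : B ^ ((1 : ℝ) / 6) ≤ K ^ ((1 : ℝ) / 3) := by
        calc B ^ ((1 : ℝ) / 6) ≤ (K ^ 2) ^ ((1 : ℝ) / 6) :=
              Real.rpow_le_rpow hB0.le hKs.le (by norm_num)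
          _ = K ^ ((1 : ℝ) / 3) := by
              rw [← Real.rpow_natCast, ← Real.rpow_mul hK0.le]; norm_num
      calc (1 : ℝ) = B ^ (0 : ℝ) := (Real.rpow_zero _).symm
        _ ≤ B ^ ((1 : ℝ) / 6 + -(δ / 3)) := hmono (by linarith)
        _ = B ^ ((1 : ℝ) / 6) * B ^ (-(δ / 3)) := Real.rpow_add hB0 _ _
        _ ≤ Z := by rw [hZ]; gcongr
    have hZ0 : 0 < Z := by linarith
    set Q : ℝ := K / Z with hQ
    have hQe : Q = K ^ ((2 : ℝ) / 3) * B ^ (δ / 3) := by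
      rw [hQ, hZ, div_eq_iff (by positivity)]
      calc K = K ^ ((2 : ℝ) / 3 + 1 / 3) * B ^ (δ / 3 + -(δ / 3)) := by
            norm_num
        _ = _ := by rw [Real.rpow_add hK0, Real.rpow_add hB0]; ring
    have hQ1 : 1 ≤ Q := by
      rw [hQe]
      have h1 : 1 ≤ K ^ ((2 : ℝ) / 3) := Real.one_le_rpow hK (by norm_num)
      have h2 : 1 ≤ B ^ (δ / 3) := Real.one_le_rpow hB (by positivity)
      nlinarith
    have hQ2 : Q ^ 2 ≤ 2 * X := by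
      have e1 : Q ^ 2 = K ^ ((1 : ℝ) / 3) * K * B ^ (2 * δ / 3) := by
        rw [hQe, mul_pow, ← Real.rpow_natCast, ← Real.rpow_mul hK0.le, ← Real.rpow_natCast,
          ← Real.rpow_mul hB0.le]
        have : K ^ ((1 : ℝ) / 3) * K = K ^ ((1 : ℝ) / 3 + 1) := by
          rw [Real.rpow_add hK0, Real.rpow_one]
        rw [this]
        congr 2 <;> push_cast <;> ring
      rw [e1]
      calc K ^ ((1 : ℝ) / 3) * K * B ^ (2 * δ / 3)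
          ≤ K ^ ((1 : ℝ) / 3) * (2 * B ^ (1 - δ)) * B ^ (2 * δ / 3) := by gcongr
        _ = 2 * (K ^ ((1 : ℝ) / 3) * B ^ (1 - δ / 3)) := by
            have : B ^ (1 - δ / 3) = B ^ (1 - δ) * B ^ (2 * δ / 3) := by
              rw [← Real.rpow_add hB0]; congr 1; ring
            rw [this]; ring
        _ ≤ 2 * X := by
            rw [hX]
            have : B ^ (1 - δ / 3) ≤ B ^ (1 - δ / 6) := hmono (by linarith)
            gcongr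
    -- split
    have hsplit : ∑ κ ∈ 𝒦, ‖∑ b ∈ T, β b * sy (kv κ) b‖ ^ 2
        = ∑ κ ∈ 𝒦 with (nm κ.2.2 : ℝ) ≤ Z, ‖∑ b ∈ T, β b * sy (kv κ) b‖ ^ 2
          + ∑ κ ∈ 𝒦 with ¬ (nm κ.2.2 : ℝ) ≤ Z, ‖∑ b ∈ T, β b * sy (kv κ) b‖ ^ 2 :=
      (sum_filter_add_sum_filter_not _ _ _).symm
    rw [hsplit]
    have ha : ∑ κ ∈ 𝒦 with ¬ (nm κ.2.2 : ℝ) ≤ Z, ‖∑ b ∈ T, β b * sy (kv κ) b‖ ^ 2
        ≤ C1 * (B + Q ^ 2) * E := by
      refine hL B Q hB hQ1 _ (fun κ hκ => ?_) T hT' β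
      rw [mem_filter, not_le] at hκ
      obtain ⟨hκ1, hκ2⟩ := hκ
      obtain ⟨hg, hk⟩ := h𝒦 κ hκ1
      refine ⟨hg, ?_⟩
      rw [hQ, le_div_iff₀ hZ0]
      have h1 := cond_le hg
      have h2 : (0 : ℝ) ≤ (nm κ.2.1 : ℝ) * nm κ.2.2 := by positivity
      nlinarith
    have hKB' : K ≤ 2 * B := by
      have : B ^ (1 - δ) ≤ B ^ (1 : ℝ) := hmono (by linarith)
      rw [Real.rpow_one] at this
      linarith
    have hb : ∑ κ ∈ 𝒦 with (nm κ.2.2 : ℝ) ≤ Z, ‖∑ b ∈ T, β b * sy (kv κ) b‖ ^ 2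
        ≤ C2 * B ^ (2 * (δ / 12)) * (Z * B + (K * B) ^ ((2 : ℝ) / 3)) * E := by
      refine hP B K Z hB hK hKB' hZ0.le _ (fun κ hκ => ?_) T hT β
      rw [mem_filter] at hκ
      exact ⟨(h𝒦 κ hκ.1).1, (h𝒦 κ hκ.1).2, hκ.2⟩
    have hb2 : B ^ (2 * (δ / 12)) * (Z * B + (K * B) ^ ((2 : ℝ) / 3)) ≤ 3 * X := by
      have e1 : B ^ (2 * (δ / 12)) * (Z * B) = X := by
        rw [hZ, hX]
        have : B ^ (1 - δ / 6) = B ^ (2 * (δ / 12)) * B ^ (-(δ / 3)) * B := by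
          nth_rewrite 4 [← Real.rpow_one B]
          rw [← Real.rpow_add hB0, ← Real.rpow_add hB0]; congr 1; ring
        rw [this]; ring
      have e2 : B ^ (2 * (δ / 12)) * (K * B) ^ ((2 : ℝ) / 3) ≤ 2 * X := by
        have h1 : (K * B) ^ ((2 : ℝ) / 3)
            = K ^ ((1 : ℝ) / 3) * K ^ ((1 : ℝ) / 3) * B ^ ((2 : ℝ) / 3) := by
          rw [Real.mul_rpow hK0.le hB0.le, ← Real.rpow_add hK0]; norm_num
        have h2 : K ^ ((1 : ℝ) / 3) ≤ 2 * B ^ ((1 - δ) / 3) := by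
          calc K ^ ((1 : ℝ) / 3) ≤ (2 * B ^ (1 - δ)) ^ ((1 : ℝ) / 3) :=
                Real.rpow_le_rpow hK0.le hKB (by norm_num)
            _ = 2 ^ ((1 : ℝ) / 3) * B ^ ((1 - δ) / 3) := by
                rw [Real.mul_rpow (by norm_num) (by positivity), ← Real.rpow_mul hB0.le]
                congr 2; ring
            _ ≤ 2 * B ^ ((1 - δ) / 3) := by
                gcongr
                calc (2 : ℝ) ^ ((1 : ℝ) / 3) ≤ 2 ^ (1 : ℝ) :=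
                      Real.rpow_le_rpow_of_exponent_le (by norm_num) (by norm_num)
                  _ = 2 := Real.rpow_one _
        rw [h1]
        calc B ^ (2 * (δ / 12)) * (K ^ ((1 : ℝ) / 3) * K ^ ((1 : ℝ) / 3) * B ^ ((2 : ℝ) / 3))
            ≤ B ^ (2 * (δ / 12)) * (K ^ ((1 : ℝ) / 3) * (2 * B ^ ((1 - δ) / 3))
                * B ^ ((2 : ℝ) / 3)) := by gcongr
          _ = 2 * (K ^ ((1 : ℝ) / 3) * B ^ (1 - δ / 6)) := by
              have : B ^ (1 - δ / 6)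
                  = B ^ (2 * (δ / 12)) * B ^ ((1 - δ) / 3) * B ^ ((2 : ℝ) / 3) := by
                rw [← Real.rpow_add hB0, ← Real.rpow_add hB0]; congr 1; ring
              rw [this]; ring
          _ = 2 * X := by rw [hX]
      nlinarith
    have hfin : C2 * B ^ (2 * (δ / 12)) * (Z * B + (K * B) ^ ((2 : ℝ) / 3)) * E
        ≤ C2 * (3 * X) * E := by
      rw [mul_assoc C2]
      gcongr
    calc _ ≤ C2 * (3 * X) * E + C1 * (B + 2 * X) * E := by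
          refine add_le_add (hb.trans hfin) (ha.trans ?_)
          gcongr
      _ ≤ (3 * C1 + 3 * C2) * (B + X) * E := by
          rw [← add_mul]
          gcongr ?_ * E
          nlinarith [mul_pos hC1 hB0, mul_pos hC2 hB0, mul_nonneg hC1.le hX0,
            mul_nonneg hC2.le hX0]



/-! ### from kernels to all `h` -/

/-- A choice of the kernel and cofactor of `h ≠ 0`. -/
lemma exists_ker (h : Eis) : ∃ q : Ker × Eis, h ≠ 0 →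
    Good q.1 ∧ q.2 ≠ 0 ∧ h = kv q.1 * q.2 ^ 3 ∧
      ((¬ ∃ t, h = t ^ 3) → ¬ ∃ t, kv q.1 = t ^ 3) := by
  by_cases hh : h = 0
  · exact ⟨(((0, 0), (1, 1)), 1), fun h' => absurd hh h'⟩
  · obtain ⟨i, j, k1, k2, m, hd⟩ := exists_isCubDec hh
    refine ⟨(((i, j), (k1, k2)), m), fun _ => ⟨⟨hd.hi, hd.hj, hd.prim1, hd.prim2, hd.sqf1,
      hd.sqf2, hd.cop⟩, hd.ne, ?_, ?_⟩⟩
    · rw [hd.eq]; rfl
    · rintro hnc ⟨t, ht⟩
      apply hnc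
      refine ⟨t * m, ?_⟩
      rw [hd.eq, mul_pow, ← ht]
      rfl

/-- kernel and cofactor -/
def kc (h : Eis) : Ker × Eis := (exists_ker h).choose

lemma kc_spec {h : Eis} (hh : h ≠ 0) : Good (kc h).1 ∧ (kc h).2 ≠ 0 ∧
    h = kv (kc h).1 * (kc h).2 ^ 3 ∧ ((¬ ∃ t, h = t ^ 3) → ¬ ∃ t, kv (kc h).1 = t ^ 3) :=
  (exists_ker h).choose_spec hh

lemma kc_nm {h : Eis} (hh : h ≠ 0) :
    (nm (kv (kc h).1) : ℝ) * (nm (kc h).2 : ℝ) ^ 3 = nm h := by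
  have h1 := (kc_spec hh).2.2.1
  have h2 : nm h = nm (kv (kc h).1) * nm (kc h).2 ^ 3 := by
    conv_lhs => rw [h1]
    rw [nm_mul, nm_pow]
  rw [h2]; push_cast; ring

lemma sy_kc (H : SyFacts) {h b : Eis} (hh : h ≠ 0) (hb : IsPrim b) :
    sy h b = (open Classical in if IsCoprime (kc h).2 b then (1 : ℂ) else 0) *
      sy (kv (kc h).1) b := by
  classical
  have h1 := (kc_spec hh).2.2.1
  have h2 : sy h b = sy (kv (kc h).1) b * sy ((kc h).2 ^ 3) b := by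
    conv_lhs => rw [h1]
    rw [H.mul_left _ _ _ hb]
  rw [h2, sy_pow3 H _ _ hb]
  split_ifs with hc
  · rw [H.cube _ _ hb hc]; ring
  · rw [(H.eq_zero _ _ hb).mpr hc]; ring


end Crest.Agent.R012.NonCube52
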