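import Crest.Agent.R012.Defs

/-!
# Row 12: Poisson summation over `ℤ²` and over the Eisenstein integers

* `poisson_pi` : Poisson summation on `Fin 2 → ℝ`
* `poissonE`   : `∑ m : Eis, f (z₀ + m) = (2/√3) ∑ h : Eis, f̂(h/√-3) e(z₀ h/√-3)`
  for `f : ℂ → ℂ` continuous with decay and summable transform, `f̂ w = ∫ f z e(-z w) dz`.
-/

set_option autoImplicit false

noncomputable section

open MeasureTheory Complex Set Filter Topology

namespace Crest.Agent.R012.Poisson381

abbrev V2 : Type := Fin 2 → ℝ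
abbrev Z2 : Type := Fin 2 → ℤ

/-- cast of integer vectors -/
def ic (m : Z2) : V2 := fun i => (m i : ℝ)

@[simp] lemma ic_apply (m : Z2) (i : Fin 2) : ic m i = m i := rfl

lemma ic_add (m n : Z2) : ic (m + n) = ic m + ic n := by
  ext i; simp

lemma norm_ic (m : Z2) : ‖ic m‖ = ‖m‖ := by
  simp only [ic, Pi.norm_def]
  congr 1

/-- projection to the torus -/
def pj : V2 → UnitAddTorus (Fin 2) := Pi.map (fun _ => ((↑) : ℝ → UnitAddCircle))

lemma pj_quot : IsOpenQuotientMap pj :=
  IsOpenQuotientMap.piMap (fun _ => QuotientAddGroup.isOpenQuotientMap_mk)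

lemma pj_apply (x : V2) (i : Fin 2) : pj x i = (x i : UnitAddCircle) := rfl

lemma pj_eq_iff {x y : V2} : pj x = pj y ↔ ∃ m : Z2, y = x + ic m := by
  constructor
  · intro h
    have h1 : ∀ i, ∃ n : ℤ, y i = x i + n := by
      intro i
      have h2 : (x i : UnitAddCircle) = (y i : UnitAddCircle) := congrFun h i
      rw [eq_comm, ← sub_eq_zero, ← AddCircle.coe_sub, AddCircle.coe_eq_zero_iff] at h2
      obtain ⟨n, hn⟩ := h2
      refine ⟨n, ?_⟩
      simp at hn
      linarith
    choose m hm using h1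
    exact ⟨m, by ext i; simp [hm i]⟩
  · rintro ⟨m, rfl⟩
    funext i
    rw [pj_apply, pj_apply]
    simp only [Pi.add_apply, ic_apply]
    rw [AddCircle.coe_add]
    have : ((m i : ℝ) : UnitAddCircle) = 0 := by
      rw [AddCircle.coe_eq_zero_iff]
      exact ⟨m i, by simp⟩
    rw [this, add_zero]

/-- dot product with an integer vector -/
def dot (k : Z2) (x : V2) : ℝ := (k 0 : ℝ) * x 0 + (k 1 : ℝ) * x 1

/-- the character `exp (2πi k·x)` -/
def ch (k : Z2) (x : V2) : ℂ := Complex.exp (2 * Real.pi * Complex.I * (dot k x : ℝ))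

lemma norm_ch (k : Z2) (x : V2) : ‖ch k x‖ = 1 := by
  unfold ch
  rw [Complex.norm_exp]
  simp

lemma ch_add (k : Z2) (x y : V2) : ch k (x + y) = ch k x * ch k y := by
  unfold ch dot
  rw [← Complex.exp_add]
  congr 1
  simp only [Pi.add_apply]
  push_cast
  ring

lemma ch_ic (k m : Z2) : ch k (ic m) = 1 := by
  unfold ch dot
  rw [Complex.exp_eq_one_iff]
  refine ⟨k 0 * m 0 + k 1 * m 1, ?_⟩
  simp only [ic_apply]
  push_cast
  ring

lemma continuous_ch (k : Z2) : Continuous (ch k) := by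
  unfold ch dot
  fun_prop

lemma mFourier_pj (k : Z2) (x : V2) : UnitAddTorus.mFourier k (pj x) = ch k x := by
  simp only [UnitAddTorus.mFourier, ContinuousMap.coe_mk, Fin.prod_univ_two, pj_apply,
    fourier_coe_apply]
  unfold ch dot
  rw [← Complex.exp_add]
  congr 1
  push_cast
  ring

/-- integral transform on `ℝ²` -/
def FTp (g : V2 → ℂ) (k : Z2) : ℂ := ∫ x, ch (-k) x * g x

def cubeM (m : Z2) : Set V2 := {x | ∀ i, x i ∈ Set.Ioc (m i : ℝ) (m i + 1)}

lemma measurableSet_cubeM (m : Z2) : MeasurableSet (cubeM m) := by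
  unfold cubeM
  have : {x : V2 | ∀ i, x i ∈ Set.Ioc (m i : ℝ) (m i + 1)} =
      Set.pi Set.univ (fun i => Set.Ioc (m i : ℝ) (m i + 1)) := by
    ext x; simp
  rw [this]
  exact MeasurableSet.univ_pi (fun i => measurableSet_Ioc)

lemma iUnion_cubeM : ⋃ m, cubeM m = Set.univ := by
  refine Set.eq_univ_of_forall fun x => Set.mem_iUnion.2 ⟨fun i => ⌈x i⌉ - 1, fun i => ?_⟩
  constructor
  · push_cast
    linarith [Int.ceil_lt_add_one (x i)]
  · push_cast
    linarith [Int.le_ceil (x i)]

lemma disjoint_cubeM : Pairwise (Function.onFun Disjoint cubeM) := by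
  intro m n hmn
  rw [Function.onFun, Set.disjoint_left]
  intro x hx hy
  apply hmn
  funext i
  have h1 := hx i
  have h2 := hy i
  have h3 : (m i : ℝ) < n i + 1 := lt_of_lt_of_le h1.1 h2.2
  have h4 : (n i : ℝ) < m i + 1 := lt_of_lt_of_le h2.1 h1.2
  have h5 : m i < n i + 1 := by exact_mod_cast h3
  have h6 : n i < m i + 1 := by exact_mod_cast h4
  omega

lemma cubeM_eq_preimage (m : Z2) : cubeM m = (fun x => x + ic m) '' (cubeM 0) := by
  ext x
  simp only [cubeM, Set.mem_ofPred_eq, Set.mem_image, Pi.zero_apply, Int.cast_zero, zero_add]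
  constructor
  · intro h
    refine ⟨x - ic m, fun i => ?_, by simp⟩
    have := h i
    simp only [Pi.sub_apply, ic_apply]
    constructor
    · linarith [this.1]
    · linarith [this.2]
  · rintro ⟨y, hy, rfl⟩ i
    have := hy i
    simp only [Pi.add_apply, ic_apply]
    constructor
    · linarith [this.1]
    · linarith [this.2]

lemma setIntegral_cubeM (h : V2 → ℂ) (m : Z2) :
    ∫ x in cubeM m, h x = ∫ x in cubeM 0, h (x + ic m) := by
  rw [cubeM_eq_preimage]
  have hmp : MeasurePreserving (fun x : V2 => x + ic m) volume volume :=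
    measurePreserving_add_right volume (ic m)
  have hemb : MeasurableEmbedding (fun x : V2 => x + ic m) :=
    measurableEmbedding_addRight (ic m)
  rw [hmp.setIntegral_image_emb hemb]

lemma hasSum_cube {h : V2 → ℂ} (hi : Integrable h) :
    HasSum (fun m : Z2 => ∫ x in cubeM 0, h (x + ic m)) (∫ x, h x) := by
  have h1 := hasSum_integral_iUnion (μ := volume) (f := h) (s := cubeM)
    (fun m => measurableSet_cubeM m) disjoint_cubeM (by rw [iUnion_cubeM]; exact hi.integrableOn)
  rw [iUnion_cubeM, setIntegral_univ] at h1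
  have h2 : (fun m : Z2 => ∫ x in cubeM 0, h (x + ic m)) = fun m : Z2 => ∫ x in cubeM m, h x := by
    funext m
    exact (setIntegral_cubeM h m).symm
  rw [h2]
  exact h1

/-! ### decay -/

/-- decay of order `b` -/
def Dec (C b : ℝ) (g : V2 → ℂ) : Prop := ∀ x, ‖g x‖ ≤ C * (1 + ‖x‖) ^ (-b)

lemma one_add_norm_le (x : V2) (m : Z2) : 1 + ‖m‖ ≤ (1 + ‖x + ic m‖) * (1 + ‖x‖) := by
  have h1 : ‖m‖ ≤ ‖x + ic m‖ + ‖x‖ := by
    rw [← norm_ic]
    have : ic m = (x + ic m) - x := by abel
    calc ‖ic m‖ = ‖(x + ic m) - x‖ := by rw [← this]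
      _ ≤ _ := norm_sub_le _ _
  nlinarith [norm_nonneg (x + ic m), norm_nonneg x, mul_nonneg (norm_nonneg (x + ic m)) (norm_nonneg x)]

lemma dec_bound {C b : ℝ} {g : V2 → ℂ} (hC : 0 ≤ C) (hb : 0 ≤ b) (hg : Dec C b g) (R : ℝ)
    {x : V2} (hx : ‖x‖ ≤ R) (m : Z2) :
    ‖g (x + ic m)‖ ≤ (C * (1 + R) ^ b) * (1 + ‖m‖) ^ (-b) := by
  have h0 : 0 < 1 + ‖x + ic m‖ := by positivity
  have h1 : 0 < 1 + ‖x‖ := by positivity
  have h2 : 0 < 1 + ‖m‖ := by positivity
  have hR : 0 ≤ R := le_trans (norm_nonneg _) hx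
  refine (hg _).trans ?_
  rw [mul_assoc]
  refine mul_le_mul_of_nonneg_left ?_ hC
  rw [Real.rpow_neg h0.le, Real.rpow_neg h2.le]
  have h3 : (1 + ‖m‖) ^ b ≤ (1 + ‖x + ic m‖) ^ b * (1 + R) ^ b := by
    rw [← Real.mul_rpow h0.le (by linarith)]
    apply Real.rpow_le_rpow h2.le _ hb
    refine (one_add_norm_le x m).trans ?_
    exact mul_le_mul_of_nonneg_left (by linarith) h0.le
  rw [← div_eq_mul_inv, le_div_iff₀ (Real.rpow_pos_of_pos h2 b), inv_mul_le_iff₀
    (Real.rpow_pos_of_pos h0 b)]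
  exact h3

lemma summable_wt {b : ℝ} (hb : 2 < b) : Summable fun m : Z2 => (1 + ‖m‖) ^ (-b) := by
  have h := EisensteinSeries.summable_one_div_norm_rpow hb
  have h1 : Summable fun m : Z2 => ‖m‖ ^ (-b) + (if m = 0 then 1 else 0) := by
    refine h.add ?_
    exact summable_of_ne_finset_zero (s := {0}) (fun m hm => by
      rw [if_neg (by simpa using hm)])
  refine Summable.of_nonneg_of_le (fun m => by positivity) (fun m => ?_) h1
  by_cases hm : m = 0
  · subst hm
    simp only [norm_zero, add_zero, Real.one_rpow, if_true]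
    have : (0:ℝ) ≤ 0 ^ (-b) := Real.rpow_nonneg le_rfl _
    linarith
  · rw [if_neg hm, add_zero]
    have hpos : 0 < ‖m‖ := norm_pos_iff.2 hm
    exact Real.rpow_le_rpow_of_nonpos hpos (by linarith) (by linarith)


/-- periodization -/
def per (g : V2 → ℂ) (x : V2) : ℂ := ∑' m : Z2, g (x + ic m)

lemma per_add (g : V2 → ℂ) (x : V2) (m : Z2) : per g (x + ic m) = per g x := by
  unfold per
  rw [← (Equiv.addLeft m).tsum_eq (fun n : Z2 => g (x + ic n))]
  apply tsum_congr
  intro n
  simp only [Equiv.coe_addLeft, ic_add]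
  rw [add_assoc]

lemma continuous_per {C b : ℝ} {g : V2 → ℂ} (hc : Continuous g) (hC : 0 ≤ C) (hb : 2 < b)
    (hg : Dec C b g) : Continuous (per g) := by
  rw [continuous_iff_continuousAt]
  intro x
  have h1 : ContinuousOn (per g) (Metric.ball x 1) := by
    unfold per
    refine continuousOn_tsum (u := fun m : Z2 => (C * (1 + (‖x‖ + 1)) ^ b) * (1 + ‖m‖) ^ (-b))
      (fun m => (hc.comp (continuous_id.add continuous_const)).continuousOn)
      ((summable_wt hb).mul_left _) (fun m y hy => ?_)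
    apply dec_bound hC (by linarith) hg
    have h2 : dist y x < 1 := hy
    have h3 : ‖y‖ ≤ ‖x‖ + dist y x := by
      rw [dist_eq_norm]
      calc ‖y‖ = ‖x + (y - x)‖ := by congr 1; abel
        _ ≤ _ := norm_add_le _ _
    linarith
  exact h1.continuousAt (Metric.ball_mem_nhds x one_pos)

/-- periodization as a function on the torus -/
def perT {C b : ℝ} {g : V2 → ℂ} (hc : Continuous g) (hC : 0 ≤ C) (hb : 2 < b)
    (hg : Dec C b g) : C(UnitAddTorus (Fin 2), ℂ) :=
  pj_quot.isQuotientMap.lift (f := ⟨pj, pj_quot.continuous⟩)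
    ⟨per g, continuous_per hc hC hb hg⟩ (by
      intro x y hxy
      obtain ⟨m, rfl⟩ := pj_eq_iff.1 hxy
      exact (per_add g x m).symm)

lemma perT_pj {C b : ℝ} {g : V2 → ℂ} (hc : Continuous g) (hC : 0 ≤ C) (hb : 2 < b)
    (hg : Dec C b g) (x : V2) : perT hc hC hb hg (pj x) = per g x := by
  have := Topology.IsQuotientMap.lift_comp (f := (⟨pj, pj_quot.continuous⟩ : C(V2, UnitAddTorus (Fin 2))))
    pj_quot.isQuotientMap (⟨per g, continuous_per hc hC hb hg⟩ : C(V2, ℂ)) (by
      intro x y hxy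
      obtain ⟨m, rfl⟩ := pj_eq_iff.1 hxy
      exact (per_add g x m).symm)
  exact congrArg (fun f : C(V2, ℂ) => f x) this

lemma integrable_of_dec {C b : ℝ} {g : V2 → ℂ} (hc : Continuous g) (hb : 2 < b)
    (hg : Dec C b g) : Integrable g := by
  have h1 : Integrable (fun x : V2 => (1 + ‖x‖) ^ (-b)) :=
    integrable_one_add_norm (by simpa using hb)
  exact (h1.const_mul C).mono' hc.aestronglyMeasurable (Filter.Eventually.of_forall hg)

lemma coeff_perT {C b : ℝ} {g : V2 → ℂ} (hc : Continuous g) (hC : 0 ≤ C) (hb : 2 < b)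
    (hg : Dec C b g) (k : Z2) :
    UnitAddTorus.mFourierCoeff (perT hc hC hb hg) k = FTp g k := by
  rw [UnitAddTorus.mFourierCoeff_eq_integral _ _ (0 : V2)]
  have hcube : {x : V2 | ∀ i, x i ∈ Set.Ioc ((0 : V2) i) ((0 : V2) i + 1)} = cubeM 0 := by
    ext x; simp [cubeM]
  rw [hcube]
  have h1 : ∀ x : V2, UnitAddTorus.mFourier (-k) (fun i => (x i : UnitAddCircle)) •
      perT hc hC hb hg (fun i => (x i : UnitAddCircle)) =
      ∑' m : Z2, ch (-k) (x + ic m) * g (x + ic m) := by
    intro x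
    have e1 : (fun i => (x i : UnitAddCircle)) = pj x := rfl
    rw [e1, mFourier_pj, perT_pj, smul_eq_mul, per, ← tsum_mul_left]
    apply tsum_congr
    intro m
    rw [ch_add, ch_ic, mul_one]
  simp_rw [h1]
  have hint : Integrable (fun x : V2 => ch (-k) x * g x) := by
    have := integrable_of_dec hc hb hg
    refine this.bdd_mul (c := 1) (continuous_ch (-k)).aestronglyMeasurable ?_
    exact Filter.Eventually.of_forall fun x => (norm_ch (-k) x).le
  have h2 := hasSum_cube hint
  rw [FTp, ← h2.tsum_eq]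
  rw [integral_tsum_of_summable_integral_norm]
  · intro m
    have : Integrable (fun x : V2 => ch (-k) (x + ic m) * g (x + ic m)) :=
      hint.comp_add_right (ic m)
    exact this.integrableOn
  · have hfin : volume (cubeM 0) ≠ ⊤ := by
      have : cubeM 0 = Set.pi Set.univ (fun _ : Fin 2 => Set.Ioc (0:ℝ) (0 + 1)) := by
        ext x; simp [cubeM]
      rw [this, Real.volume_pi_Ioc]
      simp
    refine Summable.of_nonneg_of_le (fun m => integral_nonneg fun x => norm_nonneg _)
      (fun m => ?_) ((summable_wt hb).mul_left ((C * (1 + 1) ^ b) * (volume (cubeM 0)).toReal))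
    calc ∫ x in cubeM 0, ‖ch (-k) (x + ic m) * g (x + ic m)‖
        ≤ ∫ x in cubeM 0, (C * (1 + 1) ^ b) * (1 + ‖m‖) ^ (-b) := by
          refine setIntegral_mono_on ?_ (integrableOn_const hfin) (measurableSet_cubeM 0) ?_
          · exact (hint.comp_add_right (ic m)).norm.integrableOn
          · intro x hx
            rw [norm_mul, norm_ch, one_mul]
            apply dec_bound hC (by linarith) hg
            rw [pi_norm_le_iff_of_nonneg zero_le_one]
            intro i
            have := hx i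
            simp only [Pi.zero_apply, Int.cast_zero, zero_add] at this
            rw [Real.norm_eq_abs, abs_le]
            constructor
            · linarith [this.1]
            · exact this.2
      _ = _ := by
          rw [setIntegral_const, smul_eq_mul, Measure.real]
          ring

/-- **Poisson summation** on `ℝ²`. -/
theorem poisson_pi {C b : ℝ} {g : V2 → ℂ} (hc : Continuous g) (hC : 0 ≤ C) (hb : 2 < b)
    (hg : Dec C b g) (hF : Summable (FTp g)) (x : V2) :
    HasSum (fun k : Z2 => FTp g k * ch k x) (∑' m : Z2, g (x + ic m)) := by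
  have h0 : UnitAddTorus.mFourierCoeff (perT hc hC hb hg) = FTp g :=
    funext (coeff_perT hc hC hb hg)
  have h1 := UnitAddTorus.hasSum_mFourier_series_apply_of_summable
    (f := perT hc hC hb hg) (by rw [h0]; exact hF) (pj x)
  rw [perT_pj, h0] at h1
  simpa only [mFourier_pj, smul_eq_mul, per] using h1


/-! ### the Eisenstein lattice -/

open Eis

/-- `√-3 = 1 + 2ω` in `ℂ`. -/
def s3 : ℂ := ⟨0, Real.sqrt 3⟩

lemma sqrt3_mul_self : Real.sqrt 3 * Real.sqrt 3 = 3 := Real.mul_self_sqrt (by norm_num)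
lemma sqrt3_pos : 0 < Real.sqrt 3 := by positivity

lemma s3_eq : s3 = 1 + 2 * wC := by
  apply Complex.ext
  · simp [s3, wC]; norm_num
  · simp [s3, wC]; ring

lemma s3_eq_toC : s3 = toC (1 + 2 * w) := by
  rw [s3_eq, map_add, map_mul, toC_w, map_one, map_ofNat]

lemma s3_sq : s3 ^ 2 = -3 := by
  apply Complex.ext
  · simp [s3, pow_two]
  · simp [s3, pow_two]

lemma s3_ne_zero : s3 ≠ 0 := by
  intro h
  have := s3_sq
  rw [h] at this
  norm_num at this

lemma norm_s3 : ‖s3‖ = Real.sqrt 3 := by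
  have : ‖s3‖ ^ 2 = 3 := by
    rw [← norm_pow, s3_sq]; simp
  rw [← this, Real.sqrt_sq (norm_nonneg _)]

/-- `(x₀, x₁) ↦ x₀ + x₁ ω` -/
def lin (x : V2) : ℂ := (x 0 : ℂ) + (x 1 : ℂ) * wC

lemma lin_re (x : V2) : (lin x).re = x 0 - x 1 / 2 := by
  simp [lin, wC]; ring

lemma lin_im (x : V2) : (lin x).im = x 1 * (Real.sqrt 3 / 2) := by
  simp [lin, wC]

lemma continuous_lin : Continuous lin := by
  unfold lin
  fun_prop




/-- `Eis ≃ ℤ²` -/
def eqv : Eis ≃ Z2 where
  toFun z := ![z.re, z.im]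
  invFun m := ⟨m 0, m 1⟩
  left_inv z := by apply ext' <;> simp
  right_inv m := by ext i; fin_cases i <;> simp

lemma lin_ic_eqv (z : Eis) : lin (ic (eqv z)) = toC z := by
  simp [lin, eqv, toC_apply]


/-- `Eis ≃ ℤ²`, dual coordinates for the pairing `Tr(z h/√-3)`. -/
def eqvD : Eis ≃ Z2 where
  toFun z := ![z.im, z.re - z.im]
  invFun m := ⟨m 0 + m 1, m 0⟩
  left_inv z := by apply ext' <;> simp
  right_inv m := by ext i; fin_cases i <;> simp

lemma trace_pair (x : V2) (h : Eis) :
    lin x * toC h / s3 + (starRingEnd ℂ) (lin x * toC h / s3) = ((dot (eqvD h) x : ℝ) : ℂ) := by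
  have hs : lin x * toC h / s3 = -(lin x * toC h * s3) / 3 := by
    rw [div_eq_div_iff s3_ne_zero (by norm_num)]
    have := s3_sq
    linear_combination (lin x * toC h) * this
  rw [hs]
  have h33 := sqrt3_mul_self
  apply Complex.ext
  · simp only [dot, eqvD, Equiv.coe_fn_mk, Complex.add_re, Complex.conj_re, Complex.ofReal_re,
      Matrix.cons_val_zero, Matrix.cons_val_one]
    have : (-(lin x * toC h * s3) / 3).re = ((lin x).re * (toC h).im + (lin x).im * (toC h).re) *
        Real.sqrt 3 / 3 := by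
      have e : (-(lin x * toC h * s3) / 3 : ℂ) = ((-1/3 : ℝ) : ℂ) * (lin x * toC h * s3) := by
        push_cast; ring
      rw [e, Complex.re_ofReal_mul]
      simp [s3]
      ring
    rw [this, lin_re, lin_im, toC_re, toC_im]
    push_cast
    linear_combination ((x 0 - x 1 / 2) * h.im / 3 + x 1 * (h.re - h.im / 2) / 3) * h33
  · rw [Complex.add_conj]
    simp

lemma eC_pair (x : V2) (h : Eis) : eC (lin x * toC h / s3) = ch (eqvD h) x := by
  unfold eC ch
  rw [trace_pair]

lemma eC_neg_pair (x : V2) (h : Eis) : eC (-(lin x * (toC h / s3))) = ch (-(eqvD h)) x := by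
  unfold eC ch
  have e1 : -(lin x * (toC h / s3)) + (starRingEnd ℂ) (-(lin x * (toC h / s3))) =
      -(lin x * toC h / s3 + (starRingEnd ℂ) (lin x * toC h / s3)) := by
    rw [map_neg, mul_div_assoc]; ring
  rw [e1, trace_pair]
  congr 1
  unfold dot
  simp only [Pi.neg_apply]
  push_cast
  ring

/-- the matrix of `lin` -/
def Mx : Matrix (Fin 2) (Fin 2) ℝ := !![1, -1/2; 0, Real.sqrt 3 / 2]

lemma det_Mx : Mx.det = Real.sqrt 3 / 2 := by
  simp [Mx, Matrix.det_fin_two]

lemma lin_eq (x : V2) : lin x = Complex.measurableEquivPi.symm (Matrix.toLin' Mx x) := by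
  rw [Complex.measurableEquivPi_symm_apply]
  apply Complex.ext
  · rw [lin_re]
    simp [Mx, Matrix.toLin'_apply, Matrix.mulVec, dotProduct, Fin.sum_univ_two]
    ring
  · rw [lin_im]
    simp [Mx, Matrix.toLin'_apply, Matrix.mulVec, dotProduct, Fin.sum_univ_two]
    ring

lemma integral_lin (F : ℂ → ℂ) :
    ∫ x : V2, F (lin x) = (2 / Real.sqrt 3 : ℝ) * ∫ z : ℂ, F z := by
  have hdet : Mx.det ≠ 0 := by rw [det_Mx]; positivity
  have hmap := Real.map_matrix_volume_pi_eq_smul_volume_pi hdet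
  have hemb : MeasurableEmbedding (Matrix.toLin' Mx) := by
    have hc : Continuous (Matrix.toLin' Mx) := LinearMap.continuous_of_finiteDimensional _
    have hinj : Function.Injective (Matrix.toLin' Mx) := by
      rw [← LinearMap.ker_eq_bot, Matrix.ker_toLin'_eq_bot_iff]
      intro v hv
      exact Matrix.eq_zero_of_mulVec_eq_zero hdet hv
    exact hc.measurableEmbedding hinj
  have h1 : ∫ x : V2, F (lin x) =
      ∫ y : V2, F (Complex.measurableEquivPi.symm y) ∂(Measure.map (Matrix.toLin' Mx) volume) := by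
    rw [hemb.integral_map]
    simp_rw [lin_eq]
  rw [h1, hmap, integral_smul_measure]
  have h2 : ∫ y : V2, F (Complex.measurableEquivPi.symm y) = ∫ z : ℂ, F z := by
    have := (Complex.volume_preserving_equiv_pi.symm).integral_comp
      (Complex.measurableEquivPi.symm.measurableEmbedding) F
    exact this
  rw [h2, det_Mx]
  rw [ENNReal.toReal_ofReal (abs_nonneg _), abs_of_pos (by positivity)]
  rw [Complex.real_smul]
  congr 2
  field_simp

/-- the transform `f̂(u) = ∫ f(z) e(-z u) dz` on `ℂ` -/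
def ftE (f : ℂ → ℂ) (u : ℂ) : ℂ := ∫ z : ℂ, f z * eC (-(z * u))

lemma FTp_lin (f : ℂ → ℂ) (z0 : ℂ) (h : Eis) :
    FTp (fun x => f (z0 + lin x)) (eqvD h) =
      (2 / Real.sqrt 3 : ℝ) * (ftE f (toC h / s3) * eC (z0 * toC h / s3)) := by
  unfold FTp
  have h1 : ∀ x : V2, ch (-(eqvD h)) x * f (z0 + lin x) =
      (fun z => eC (-(z * (toC h / s3))) * f (z0 + z)) (lin x) := by
    intro x
    simp only [eC_neg_pair]
  have h2 : ∫ x : V2, ch (-(eqvD h)) x * f (z0 + lin x) =
      ∫ x : V2, (fun z => eC (-(z * (toC h / s3))) * f (z0 + z)) (lin x) := by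
    apply integral_congr_ae
    exact Filter.Eventually.of_forall h1
  refine (h2.trans (integral_lin (fun z => eC (-(z * (toC h / s3))) * f (z0 + z)))).trans ?_
  congr 1
  unfold ftE
  rw [← integral_mul_const]
  rw [← integral_add_left_eq_self (fun z => f z * eC (-(z * (toC h / s3))) * eC (z0 * toC h / s3)) z0]
  apply integral_congr_ae
  refine Filter.Eventually.of_forall fun z => ?_
  have key : eC (-((z0 + z) * (toC h / s3))) * eC (z0 * toC h / s3) = eC (-(z * (toC h / s3))) := by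
    unfold eC
    rw [← Complex.exp_add]
    congr 1
    rw [← mul_add]
    congr 1
    simp only [map_neg, map_mul, map_add, map_div₀]
    ring
  simp only
  rw [mul_assoc, key, mul_comm]

/-- decay for functions on `ℂ` -/
def DecC (C b : ℝ) (f : ℂ → ℂ) : Prop := ∀ z, ‖f z‖ ≤ C * (1 + ‖z‖) ^ (-b)

lemma norm_le_of_lin (x : V2) : ‖x‖ ≤ 2 * ‖lin x‖ := by
  have h3 := sqrt3_pos
  have h33 := sqrt3_mul_self
  have hn : ‖lin x‖ ^ 2 = x 0 ^ 2 - x 0 * x 1 + x 1 ^ 2 := by
    rw [← Complex.normSq_eq_norm_sq, Complex.normSq_apply, lin_re, lin_im]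
    linear_combination (x 1 ^ 2 / 4) * h33
  have h0 : |x 0| ≤ 2 * ‖lin x‖ := by
    apply abs_le_of_sq_le_sq' _ (by positivity) |> abs_le.mpr
    nlinarith [sq_nonneg (x 0 - 2 * x 1), sq_nonneg (x 0)]
  have h1 : |x 1| ≤ 2 * ‖lin x‖ := by
    apply abs_le_of_sq_le_sq' _ (by positivity) |> abs_le.mpr
    nlinarith [sq_nonneg (x 1 - 2 * x 0), sq_nonneg (x 1)]
  rw [pi_norm_le_iff_of_nonneg (by positivity)]
  intro i
  fin_cases i
  · simpa [Real.norm_eq_abs] using h0
  · simpa [Real.norm_eq_abs] using h1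

lemma dec_lin {C b : ℝ} {f : ℂ → ℂ} (hC : 0 ≤ C) (hb : 0 ≤ b) (hf : DecC C b f) (z0 : ℂ) :
    Dec (C * (2 * (1 + ‖z0‖)) ^ b) b (fun x => f (z0 + lin x)) := by
  intro x
  refine (hf _).trans ?_
  rw [mul_assoc]
  refine mul_le_mul_of_nonneg_left ?_ hC
  have h0 : 0 < 1 + ‖z0 + lin x‖ := by positivity
  have h1 : 0 < 1 + ‖x‖ := by positivity
  rw [Real.rpow_neg h0.le, Real.rpow_neg h1.le, ← div_eq_mul_inv,
    le_div_iff₀ (Real.rpow_pos_of_pos h1 b), inv_mul_le_iff₀ (Real.rpow_pos_of_pos h0 b),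
    ← Real.mul_rpow h0.le (by positivity)]
  apply Real.rpow_le_rpow h1.le _ hb
  have h2 := norm_le_of_lin x
  have h3 : ‖lin x‖ ≤ ‖z0 + lin x‖ + ‖z0‖ := by
    calc ‖lin x‖ = ‖(z0 + lin x) - z0‖ := by congr 1; ring
      _ ≤ _ := norm_sub_le _ _
  nlinarith [norm_nonneg (z0 + lin x), norm_nonneg z0,
    mul_nonneg (norm_nonneg (z0 + lin x)) (norm_nonneg z0)]

/-- **Poisson summation over the Eisenstein integers.** -/
theorem poissonE {C b : ℝ} {f : ℂ → ℂ} (hc : Continuous f) (hC : 0 ≤ C) (hb : 2 < b)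
    (hf : DecC C b f) (hF : Summable fun h : Eis => ftE f (toC h / s3)) (z0 : ℂ) :
    HasSum (fun h : Eis => (2 / Real.sqrt 3 : ℝ) * (ftE f (toC h / s3) * eC (z0 * toC h / s3)))
      (∑' m : Eis, f (z0 + toC m)) := by
  have hg := dec_lin hC (by linarith) hf z0
  have hcg : Continuous (fun x => f (z0 + lin x)) :=
    hc.comp (continuous_const.add continuous_lin)
  have hsum : Summable (FTp (fun x => f (z0 + lin x))) := by
    rw [← eqvD.summable_iff]
    have : (FTp (fun x => f (z0 + lin x))) ∘ eqvD = fun h : Eis =>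
        (2 / Real.sqrt 3 : ℝ) * (ftE f (toC h / s3) * eC (z0 * toC h / s3)) := by
      funext h; exact FTp_lin f z0 h
    rw [this]
    refine Summable.mul_left _ ?_
    refine Summable.of_norm ?_
    have h1 : ∀ h : Eis, ‖ftE f (toC h / s3) * eC (z0 * toC h / s3)‖ = ‖ftE f (toC h / s3)‖ := by
      intro h
      rw [norm_mul]
      have : ‖eC (z0 * toC h / s3)‖ = 1 := by
        unfold eC
        rw [Complex.norm_exp]
        have : (2 * Real.pi * Complex.I * (z0 * toC h / s3 + (starRingEnd ℂ) (z0 * toC h / s3)) : ℂ)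
            = ((2 * Real.pi * (2 * (z0 * toC h / s3).re) : ℝ) : ℂ) * Complex.I := by
          rw [Complex.add_conj]; push_cast; ring
        rw [this]
        simp
      rw [this, mul_one]
    simp_rw [h1]
    exact hF.norm
  have h := poisson_pi hcg (mul_nonneg hC (by positivity)) hb hg hsum 0
  have h2 : (∑' m : Z2, (fun x => f (z0 + lin x)) (0 + ic m)) = ∑' m : Eis, f (z0 + toC m) := by
    rw [← eqv.tsum_eq]
    apply tsum_congr
    intro m
    simp only [zero_add, lin_ic_eqv]
  rw [h2, ← eqvD.hasSum_iff] at h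
  refine h.congr_fun ?_ |> fun h => h
  intro m
  simp only [Function.comp]
  rw [FTp_lin]
  have : ch (eqvD m) 0 = 1 := by simp [ch, dot]
  rw [this, mul_one]

end Crest.Agent.R012.Poisson381
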