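import Crest.Agent.R012.Defs

-- ▼ part R012/SgNum_51
section

/-!
# Row 12, part (Sg): the sign of the residue `ρ(1)`, numerical part

The kernel is `Kf a y = a^(1/3) ∫_{w>0} w^(-2/3) y exp(-y a (w + 4π²/w)) dw`
(a `K`-Bessel function of order `1/3`).
-/

set_option autoImplicit false
set_option linter.unusedVariables false

noncomputable section

open Real MeasureTheory Set

namespace Crest.Agent.R012.Sg51

/-- `h τ = (τ - 1) exp(-τ)`. -/
def hh (τ : ℝ) : ℝ := (τ - 1) * exp (-τ)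

/-- `gS y S = y⁻¹ exp(-S/y) - y exp(-S y)`. -/
def gS (y S : ℝ) : ℝ := y⁻¹ * exp (-(S * y⁻¹)) - y * exp (-(S * y))

lemma gS_eq_integral (y S : ℝ) :
    gS y S = ∫ v in y⁻¹..y, (S * v - 1) * exp (-(S * v)) := by
  have hd : ∀ v ∈ uIcc (y⁻¹) y, HasDerivAt (fun v : ℝ => -(v * exp (-(S * v))))
      ((S * v - 1) * exp (-(S * v))) v := by
    intro v _
    have h1 : HasDerivAt (fun v : ℝ => exp (-(S * v))) (exp (-(S * v)) * (-(S * 1))) v :=
      (((hasDerivAt_id v).const_mul S).neg).exp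
    have h2 := ((hasDerivAt_id v).mul h1).neg
    refine h2.congr_deriv ?_
    simp only [id]; ring
  rw [intervalIntegral.integral_eq_sub_of_hasDerivAt hd]
  · unfold gS; ring
  · apply Continuous.intervalIntegrable
    fun_prop

lemma hh_ratio {κ τ₁ τ : ℝ} (hκ : 1 ≤ κ) (h1 : 1 < τ₁) (hτ : τ₁ ≤ τ) :
    hh (κ * τ) ≤ hh (κ * τ₁) / hh τ₁ * hh τ := by
  have hpos : 0 < hh τ₁ := mul_pos (by linarith) (exp_pos _)
  rw [div_mul_eq_mul_div, le_div_iff₀ hpos]
  unfold hh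
  have e1 : exp (-(κ * τ)) * exp (-τ₁) = exp (-(κ * τ) + -τ₁) := (exp_add _ _).symm
  have e2 : exp (-(κ * τ₁)) * exp (-τ) = exp (-(κ * τ₁) + -τ) := (exp_add _ _).symm
  have hle : exp (-(κ * τ) + -τ₁) ≤ exp (-(κ * τ₁) + -τ) := by
    apply exp_le_exp.mpr
    nlinarith
  have hp : (κ * τ - 1) * (τ₁ - 1) ≤ (κ * τ₁ - 1) * (τ - 1) := by nlinarith
  have hn : 0 ≤ (κ * τ₁ - 1) * (τ - 1) := by
    apply mul_nonneg
    · nlinarith
    · linarith
  calc (κ * τ - 1) * exp (-(κ * τ)) * ((τ₁ - 1) * exp (-τ₁))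
      = (κ * τ - 1) * (τ₁ - 1) * (exp (-(κ * τ)) * exp (-τ₁)) := by ring
    _ = (κ * τ - 1) * (τ₁ - 1) * exp (-(κ * τ) + -τ₁) := by rw [e1]
    _ ≤ (κ * τ₁ - 1) * (τ - 1) * exp (-(κ * τ) + -τ₁) :=
        mul_le_mul_of_nonneg_right hp (exp_pos _).le
    _ ≤ (κ * τ₁ - 1) * (τ - 1) * exp (-(κ * τ₁) + -τ) :=
        mul_le_mul_of_nonneg_left hle hn
    _ = (κ * τ₁ - 1) * exp (-(κ * τ₁)) * ((τ - 1) * exp (-τ)) := by rw [← e2]; ring

/-- `q κ = h(κ τ₁)/h(τ₁)`, `τ₁ = 2.39`. -/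
def qq (κ : ℝ) : ℝ := hh (κ * (239 / 100)) / hh (239 / 100)

lemma gS_ratio {κ y S : ℝ} (hκ : 1 ≤ κ) (hy : 1 ≤ y) (hS : 239 / 100 * y ≤ S) :
    gS y (κ * S) ≤ qq κ * gS y S := by
  have hy0 : 0 < y := by linarith
  have hyy : y⁻¹ ≤ y := by
    rw [inv_le_iff_one_le_mul₀ hy0]; nlinarith
  rw [gS_eq_integral, gS_eq_integral, ← intervalIntegral.integral_const_mul]
  apply intervalIntegral.integral_mono_on hyy
  · apply Continuous.intervalIntegrable; fun_prop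
  · apply Continuous.intervalIntegrable; fun_prop
  · intro v hv
    have hv1 : y⁻¹ ≤ v := hv.1
    have hvy : 1 ≤ v * y := by
      have := mul_le_mul_of_nonneg_right hv1 hy0.le
      rwa [inv_mul_cancel₀ hy0.ne'] at this
    have hSv : 239 / 100 ≤ S * v := by
      have hv0 : 0 < v := lt_of_lt_of_le (inv_pos.mpr hy0) hv1
      nlinarith
    have := hh_ratio (κ := κ) (τ₁ := 239 / 100) (τ := S * v) hκ (by norm_num) hSv
    have e : κ * S * v = κ * (S * v) := by ring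
    rw [e]
    exact this

lemma gS_pos {y S : ℝ} (hy : 1 < y) (hS : 239 / 100 * y ≤ S) : 0 < gS y S := by
  have hy0 : 0 < y := by linarith
  have hyy : y⁻¹ < y := by
    rw [inv_lt_iff_one_lt_mul₀ hy0]; nlinarith
  rw [gS_eq_integral]
  apply intervalIntegral.intervalIntegral_pos_of_pos_on
  · apply Continuous.intervalIntegrable; fun_prop
  · intro v hv
    have hv1 : y⁻¹ < v := hv.1
    have hv0 : 0 < v := lt_trans (inv_pos.mpr hy0) hv1
    have hvy : 1 < v * y := by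
      have := mul_lt_mul_of_pos_right hv1 hy0
      rwa [inv_mul_cancel₀ hy0.ne'] at this
    have hSv : 1 < S * v := by nlinarith
    exact mul_pos (by linarith) (exp_pos _)
  · exact hyy

/-- The kernel. -/
def Kf (a y : ℝ) : ℝ :=
  a ^ ((1 : ℝ) / 3) *
    ∫ w in Ioi (0 : ℝ), w ^ (-(2 : ℝ) / 3) * (y * exp (-(a * (w + 4 * π ^ 2 / w) * y)))

lemma integrable_kernel {c : ℝ} (hc : 0 < c) :
    IntegrableOn (fun w : ℝ => w ^ (-(2 : ℝ) / 3) * exp (-(c * (w + 4 * π ^ 2 / w))))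
      (Ioi 0) := by
  have h1 : IntegrableOn (fun w : ℝ => w ^ (-(2 : ℝ) / 3) * exp (-c * w)) (Ioi 0) := by
    have := integrableOn_rpow_mul_exp_neg_mul_rpow (p := 1) (s := -(2 : ℝ) / 3) (b := c)
      (by norm_num) (by norm_num) hc
    simpa using this
  refine Integrable.mono' h1 ?_ ?_
  · apply Measurable.aestronglyMeasurable
    fun_prop
  · filter_upwards [ae_restrict_mem measurableSet_Ioi] with w hw
    have hw0 : (0 : ℝ) < w := hw
    rw [norm_mul, Real.norm_of_nonneg (rpow_nonneg hw0.le _),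
      Real.norm_of_nonneg (exp_pos _).le]
    apply mul_le_mul_of_nonneg_left _ (rpow_nonneg hw0.le _)
    apply exp_le_exp.mpr
    have : 0 ≤ c * (4 * π ^ 2 / w) := by positivity
    nlinarith

lemma integrable_kernel' {a y : ℝ} (ha : 0 < a) (hy : 0 < y) :
    IntegrableOn (fun w : ℝ => w ^ (-(2 : ℝ) / 3) *
      (y * exp (-(a * (w + 4 * π ^ 2 / w) * y)))) (Ioi 0) := by
  have h := (integrable_kernel (c := a * y) (by positivity)).const_mul y
  refine h.congr ?_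
  filter_upwards with w
  have : -(a * y * (w + 4 * π ^ 2 / w)) = -(a * (w + 4 * π ^ 2 / w) * y) := by ring
  rw [this]; ring

/-- `B a = K(a, 1/y) - K(a, y)`. -/
def Bf (y a : ℝ) : ℝ := Kf a y⁻¹ - Kf a y

lemma Bf_eq {y a : ℝ} (hy : 0 < y) (ha : 0 < a) :
    Bf y a = a ^ ((1 : ℝ) / 3) *
      ∫ w in Ioi (0 : ℝ), w ^ (-(2 : ℝ) / 3) * gS y (a * (w + 4 * π ^ 2 / w)) := by
  unfold Bf Kf
  rw [← mul_sub, ← integral_sub (integrable_kernel' ha (inv_pos.mpr hy))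
    (integrable_kernel' ha hy)]
  congr 1
  apply setIntegral_congr_fun measurableSet_Ioi
  intro w _
  simp only [gS]
  ring

lemma integrable_gS {y a : ℝ} (hy : 0 < y) (ha : 0 < a) :
    IntegrableOn (fun w : ℝ => w ^ (-(2 : ℝ) / 3) * gS y (a * (w + 4 * π ^ 2 / w)))
      (Ioi 0) := by
  have := (integrable_kernel' ha (inv_pos.mpr hy)).sub (integrable_kernel' ha hy)
  refine this.congr ?_
  filter_upwards with w
  simp only [gS, Pi.sub_apply]
  ring

lemma arg_lower {w : ℝ} (hw : 0 < w) : 4 * π ≤ w + 4 * π ^ 2 / w := by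
  rw [← sub_nonneg]
  have : w + 4 * π ^ 2 / w - 4 * π = (w - 2 * π) ^ 2 / w := by
    field_simp; ring
  rw [this]; positivity

lemma Bf_ratio {y a κ : ℝ} (hy : 1 ≤ y) (ha : 0 < a) (hκ : 1 ≤ κ)
    (hX : 239 / 100 * y ≤ 4 * π * a) :
    Bf y (κ * a) ≤ κ ^ ((1 : ℝ) / 3) * qq κ * Bf y a := by
  have hy0 : 0 < y := by linarith
  have hκ0 : 0 < κ := by linarith
  rw [Bf_eq hy0 (by positivity), Bf_eq hy0 ha, mul_rpow hκ0.le ha.le]
  have key : (∫ w in Ioi (0 : ℝ), w ^ (-(2 : ℝ) / 3) * gS y (κ * a * (w + 4 * π ^ 2 / w)))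
      ≤ qq κ * ∫ w in Ioi (0 : ℝ), w ^ (-(2 : ℝ) / 3) * gS y (a * (w + 4 * π ^ 2 / w)) := by
    rw [← integral_const_mul]
    apply setIntegral_mono_on (integrable_gS hy0 (by positivity))
      ((integrable_gS hy0 ha).const_mul _) measurableSet_Ioi
    intro w hw
    have hw0 : (0 : ℝ) < w := hw
    have hS : 239 / 100 * y ≤ a * (w + 4 * π ^ 2 / w) := by
      have := arg_lower hw0
      nlinarith
    have := gS_ratio hκ hy hS
    have e : κ * a * (w + 4 * π ^ 2 / w) = κ * (a * (w + 4 * π ^ 2 / w)) := by ring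
    rw [e]
    have hp := rpow_nonneg hw0.le (-(2 : ℝ) / 3)
    nlinarith [mul_le_mul_of_nonneg_left this hp]
  have hp : 0 ≤ κ ^ ((1 : ℝ) / 3) * a ^ ((1 : ℝ) / 3) := by positivity
  calc _ ≤ κ ^ ((1 : ℝ) / 3) * a ^ ((1 : ℝ) / 3) * (qq κ * _) :=
        mul_le_mul_of_nonneg_left key hp
    _ = _ := by ring

lemma Bf_pos {y a : ℝ} (hy : 1 < y) (ha : 0 < a) (hX : 239 / 100 * y ≤ 4 * π * a) :
    0 < Bf y a := by
  have hy0 : 0 < y := by linarith
  rw [Bf_eq hy0 ha]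
  apply mul_pos (rpow_pos_of_pos ha _)
  rw [setIntegral_pos_iff_support_of_nonneg_ae]
  · have : Ioi (0 : ℝ) ⊆ Function.support (fun w : ℝ => w ^ (-(2 : ℝ) / 3) *
        gS y (a * (w + 4 * π ^ 2 / w))) ∩ Ioi 0 := by
      intro w hw
      refine ⟨?_, hw⟩
      have hw0 : (0 : ℝ) < w := hw
      have hS : 239 / 100 * y ≤ a * (w + 4 * π ^ 2 / w) := by
        have := arg_lower hw0
        nlinarith
      exact (mul_pos (rpow_pos_of_pos hw0 _) (gS_pos hy hS)).ne'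
    refine lt_of_lt_of_le ?_ (measure_mono this)
    simp
  · filter_upwards [ae_restrict_mem measurableSet_Ioi] with w hw
    have hw0 : (0 : ℝ) < w := hw
    have hS : 239 / 100 * y ≤ a * (w + 4 * π ^ 2 / w) := by
      have := arg_lower hw0
      nlinarith
    exact (mul_pos (rpow_pos_of_pos hw0 _) (gS_pos hy hS)).le
  · exact integrable_gS hy0 ha

end Crest.Agent.R012.Sg51
end
end

-- ▼ part R012/SgNum2_51

/-!
# Row 12, part (Sg): numerical bounds for the weights `W κ = κ^(1/3) h(κ τ₁)/h(τ₁)`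
-/

set_option autoImplicit false
set_option linter.unusedVariables false

noncomputable section

open Real MeasureTheory Set

namespace Crest.Agent.R012.Sg51

def Wt (κ : ℝ) : ℝ := κ ^ ((1 : ℝ) / 3) * qq κ

lemma qq_eq (κ : ℝ) : qq κ = (κ * (239 / 100) - 1) / (139 / 100) * exp (-((κ - 1) * (239 / 100))) := by
  unfold qq hh
  have : exp (-(κ * (239 / 100))) = exp (-((κ - 1) * (239 / 100))) * exp (-(239 / 100)) := by
    rw [← exp_add]; congr 1; ring
  rw [this]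
  have h := (exp_pos (-(239 / 100 : ℝ))).ne'
  field_simp
  ring



/-- decay of the weights -/
lemma Wt_decay {κ₀ κ c : ℝ} (h0 : 1 ≤ κ₀) (h1 : κ₀ ≤ κ)
    (hc : c + 1 / (3 * κ₀) + (239 / 100) / (κ₀ * (239 / 100) - 1) ≤ 239 / 100) :
    Wt κ ≤ Wt κ₀ * exp (-(c * (κ - κ₀))) := by
  have hκ₀ : 0 < κ₀ := by linarith
  have hκ : 0 < κ := by linarith
  have hD : 0 < κ₀ * (239 / 100) - 1 := by nlinarith
  unfold Wt
  rw [qq_eq, qq_eq]
  -- κ^(1/3) ≤ κ₀^(1/3) exp((κ-κ₀)/(3κ₀))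
  have e1 : κ ^ ((1 : ℝ) / 3) ≤ κ₀ ^ ((1 : ℝ) / 3) * exp ((κ - κ₀) * (1 / (3 * κ₀))) := by
    have hs : κ = κ₀ * (κ / κ₀) := by field_simp
    have hle : κ / κ₀ ≤ exp ((κ - κ₀) / κ₀) := by
      have := add_one_le_exp ((κ - κ₀) / κ₀)
      have e : (κ - κ₀) / κ₀ + 1 = κ / κ₀ := by field_simp; ring
      linarith [e ▸ this]
    calc κ ^ ((1 : ℝ) / 3) = κ₀ ^ ((1 : ℝ) / 3) * (κ / κ₀) ^ ((1 : ℝ) / 3) := by
          rw [← mul_rpow hκ₀.le (by positivity), ← hs]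
      _ ≤ κ₀ ^ ((1 : ℝ) / 3) * (exp ((κ - κ₀) / κ₀)) ^ ((1 : ℝ) / 3) := by
          apply mul_le_mul_of_nonneg_left _ (by positivity)
          exact rpow_le_rpow (by positivity) hle (by norm_num)
      _ = κ₀ ^ ((1 : ℝ) / 3) * exp ((κ - κ₀) * (1 / (3 * κ₀))) := by
          rw [← exp_mul]; congr 2; field_simp
  have e2 : κ * (239 / 100) - 1 ≤ (κ₀ * (239 / 100) - 1) *
      exp ((κ - κ₀) * ((239 / 100) / (κ₀ * (239 / 100) - 1))) := by
    have := add_one_le_exp ((κ - κ₀) * ((239 / 100) / (κ₀ * (239 / 100) - 1)))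
    have e : (κ₀ * (239 / 100) - 1) * ((κ - κ₀) * ((239 / 100) / (κ₀ * (239 / 100) - 1)) + 1)
        = κ * (239 / 100) - 1 := by
      have gen : ∀ D a x : ℝ, D ≠ 0 → D * (x * (a / D) + 1) = x * a + D := by
        intro D a x hD; field_simp
      rw [gen _ _ _ hD.ne']; ring
    rw [← e]
    exact mul_le_mul_of_nonneg_left this hD.le
  have hN : 0 ≤ κ * (239 / 100) - 1 := by nlinarith
  calc κ ^ ((1 : ℝ) / 3) * ((κ * (239 / 100) - 1) / (139 / 100) *
        exp (-((κ - 1) * (239 / 100))))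
      ≤ (κ₀ ^ ((1 : ℝ) / 3) * exp ((κ - κ₀) * (1 / (3 * κ₀)))) *
        (((κ₀ * (239 / 100) - 1) *
      exp ((κ - κ₀) * ((239 / 100) / (κ₀ * (239 / 100) - 1)))) / (139 / 100) *
        exp (-((κ - 1) * (239 / 100)))) := by
        gcongr
    _ = κ₀ ^ ((1 : ℝ) / 3) * ((κ₀ * (239 / 100) - 1) / (139 / 100)) *
        exp ((κ - κ₀) * (1 / (3 * κ₀)) +
          (κ - κ₀) * ((239 / 100) / (κ₀ * (239 / 100) - 1)) + -((κ - 1) * (239 / 100))) := by
        rw [exp_add, exp_add]; ring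
    _ ≤ κ₀ ^ ((1 : ℝ) / 3) * ((κ₀ * (239 / 100) - 1) / (139 / 100)) *
        exp (-((κ₀ - 1) * (239 / 100)) + -(c * (κ - κ₀))) := by
        have hkk : 0 ≤ κ - κ₀ := by linarith
        apply mul_le_mul_of_nonneg_left
        · apply exp_le_exp.mpr
          nlinarith [mul_le_mul_of_nonneg_left hc hkk]
        · positivity
    _ = _ := by rw [exp_add]; ring

lemma Wt_anti {κ₀ κ : ℝ} (h0 : 1 ≤ κ₀) (h1 : κ₀ ≤ κ) : Wt κ ≤ Wt κ₀ := by
  have hD : 0 < κ₀ * (239 / 100) - 1 := by nlinarith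
  have h := Wt_decay (c := 0) h0 h1 ?_
  · simpa using h
  · have a1 : 1 / (3 * κ₀) ≤ 1 / 3 := by
      apply one_div_le_one_div_of_le <;> linarith
    have a2 : (239 / 100) / (κ₀ * (239 / 100) - 1) ≤ (239 / 100) / (139 / 100) := by
      apply div_le_div_of_nonneg_left (by norm_num) (by norm_num)
      nlinarith
    norm_num at a2 ⊢
    norm_num at a1
    linarith

/-- upper bound of `exp(-x)` by the reciprocal of a partial sum -/
lemma exp_neg_le {x : ℝ} (hx : 0 ≤ x) (n : ℕ) {s : ℝ} (hs0 : 0 < s)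
    (hs : s ≤ ∑ i ∈ Finset.range n, x ^ i / (i.factorial : ℝ)) : exp (-x) ≤ 1 / s := by
  rw [exp_neg, ← one_div]
  apply one_div_le_one_div_of_le hs0
  exact hs.trans (Real.sum_le_exp_of_nonneg hx n)

lemma Wt_le {κ r s B : ℝ} (n : ℕ) (hκ : 1 ≤ κ) (hr0 : 0 ≤ r) (hr : κ ≤ r ^ 3) (hs0 : 0 < s)
    (hs : s ≤ ∑ i ∈ Finset.range n, ((κ - 1) * (239 / 100)) ^ i / (i.factorial : ℝ))
    (hB : r * ((κ * (239 / 100) - 1) / (139 / 100) * (1 / s)) ≤ B) : Wt κ ≤ B := by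
  refine le_trans ?_ hB
  unfold Wt
  rw [qq_eq]
  have h1 : κ ^ ((1 : ℝ) / 3) ≤ r := by
    calc κ ^ ((1 : ℝ) / 3) ≤ (r ^ 3) ^ ((1 : ℝ) / 3) := by
          apply rpow_le_rpow (by linarith) hr (by norm_num)
      _ = r := by
          rw [← rpow_natCast, ← rpow_mul hr0]; norm_num
  have h2 := exp_neg_le (x := (κ - 1) * (239 / 100)) (by nlinarith) n hs0 hs
  have hN : 0 ≤ κ * (239 / 100) - 1 := by nlinarith
  have hk0 : 0 ≤ κ ^ ((1 : ℝ) / 3) := by
    apply rpow_nonneg; linarith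
  gcongr

lemma Wt_2 : Wt 2 ≤ 3145 / 10000 := by
  apply Wt_le (r := 12600 / 10000) (s := 1091 / 100) 12 <;>
  norm_num [Finset.sum_range_succ, Nat.factorial]

lemma Wt_264 : Wt (264 / 100) ≤ 1060 / 10000 := by
  apply Wt_le (r := 13821 / 10000) (s := 5010 / 100) 14 <;>
  norm_num [Finset.sum_range_succ, Nat.factorial]

lemma Wt_3 : Wt 3 ≤ 545 / 10000 := by
  apply Wt_le (r := 14423 / 10000) (s := 118) 15 <;>
  norm_num [Finset.sum_range_succ, Nat.factorial]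

lemma Wt_36 : Wt (36 / 10) ≤ 172 / 10000 := by
  apply Wt_le (r := 15327 / 10000) (s := 491) 17 <;>
  norm_num [Finset.sum_range_succ, Nat.factorial]

lemma Wt_4 : Wt 4 ≤ 78 / 10000 := by
  apply Wt_le (r := 15875 / 10000) (s := 1265) 18 <;>
  norm_num [Finset.sum_range_succ, Nat.factorial]

lemma Wt_435 : Wt (435 / 100) ≤ 39 / 10000 := by
  apply Wt_le (r := 16325 / 10000) (s := 2900) 19 <;>
  norm_num [Finset.sum_range_succ, Nat.factorial]

lemma Wt_5 : Wt 5 ≤ 10 / 10000 := by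
  apply Wt_le (r := 17100 / 10000) (s := 13600) 22 <;>
  norm_num [Finset.sum_range_succ, Nat.factorial]

lemma Wt_7 : Wt 7 ≤ 14 / 1000000 := by
  apply Wt_le (r := 19130 / 10000) (s := 1600000) 28 <;>
  norm_num [Finset.sum_range_succ, Nat.factorial]

end Crest.Agent.R012.Sg51
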