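import Crest.Agent.R012.SpecK_384
import Crest.Agent.R012.StripIneq_813
import Crest.Agent.R012.TestFn_286
import Crest.Agent.R012.LocFin_499_Mg
import Crest.Agent.R012.SymK_645

-- ▼ part R012/K1A_384
section

/-!
# Row 12, (ML/MSL): the quadratic form `NN` and the norms of the orbit derivatives

`NN w F = ∫ w(det) |E_F|² dν` for the level one quotient measure `ν = nu ⊤ 1`.
-/

set_option autoImplicit false

noncomputable section

open MeasureTheory Set Filter Complex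
open scoped ENNReal Topology ContDiff

namespace Crest.Agent.R012.ML384

open Crest.Agent.R012 Crest.Agent.R012.Parseval499 Crest.Agent.R012.StripCo813
open Crest.Agent.R012.Four813 Crest.Agent.R012.K695 Crest.Agent.R012.TestFn286

/-- the quadratic form. -/
def NN (w : ℂ → ℝ≥0∞) (F : Vec → ℂ) : ℝ≥0∞ :=
  ∫⁻ M, w (det2 M) * ‖EC (bco ⊤) F M‖ₑ ^ 2 ∂(nu ⊤ 1)

lemma enorm_sq_add_le (x y : ℂ) : ‖x + y‖ₑ ^ 2 ≤ 2 * (‖x‖ₑ ^ 2 + ‖y‖ₑ ^ 2) := by
  have h : ∀ z : ℂ, ‖z‖ₑ ^ 2 = ENNReal.ofReal (‖z‖ ^ 2) := by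
    intro z
    rw [ENNReal.ofReal_pow (norm_nonneg z), ofReal_norm]
  rw [h, h, h, ← ENNReal.ofReal_add (by positivity) (by positivity),
    show (2 : ℝ≥0∞) = ENNReal.ofReal 2 by simp, ← ENNReal.ofReal_mul (by norm_num)]
  apply ENNReal.ofReal_le_ofReal
  have h1 := norm_add_le x y
  nlinarith [norm_nonneg (x + y), norm_nonneg x, norm_nonneg y, sq_nonneg (‖x‖ - ‖y‖)]


lemma EC_add {a : Eis × Eis → ℂ} {F G : Vec → ℂ} (hF : BS F) (hG : BS G) {M : K695.Frm}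
    (hM : det2 M ≠ 0) : EC a (fun u => F u + G u) M = EC a F M + EC a G M := by
  unfold EC
  rw [← (summable_EC (a := a) hF hM).tsum_add (summable_EC hG hM)]
  exact tsum_congr fun r => by ring


lemma BS.add {F G : Vec → ℂ} (hF : BS F) (hG : BS G) : BS (fun u => F u + G u) where
  meas := hF.meas.add hG.meas
  bdd := by
    obtain ⟨C, hC⟩ := hF.bdd
    obtain ⟨D, hD⟩ := hG.bdd
    exact ⟨C + D, fun u => (norm_add_le _ _).trans (add_le_add (hC u) (hD u))⟩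
  supp := by
    obtain ⟨R, hR⟩ := hF.supp
    obtain ⟨R', hR'⟩ := hG.supp
    refine ⟨max R R', fun u hu => ?_⟩
    rw [hR u (lt_of_le_of_lt (le_max_left _ _) hu), hR' u (lt_of_le_of_lt (le_max_right _ _) hu),
      add_zero]

lemma measurable_NN_int {w : ℂ → ℝ≥0∞} (hw : Measurable w) {F : Vec → ℂ} (hF : Measurable F) :
    Measurable fun M : K695.Frm => w (det2 M) * ‖EC (bco ⊤) F M‖ₑ ^ 2 :=
  (hw.comp measurable_det2).mul ((measurable_EC hF).enorm.pow_const 2)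

lemma NN_add {w : ℂ → ℝ≥0∞} (hw : Measurable w) (hw0 : w 0 = 0) {F G : Vec → ℂ} (hF : BS F)
    (hG : BS G) :
    NN w (fun u => F u + G u) ≤ 2 * (NN w F + NN w G) := by
  unfold NN
  rw [← lintegral_add_right _ (measurable_NN_int hw hG.meas),
    ← lintegral_const_mul' _ _ (by norm_num)]
  refine lintegral_mono fun M => ?_
  by_cases hM : det2 M = 0
  · simp [hM, hw0]
  · simp only
    rw [EC_add hF hG hM]
    calc w (det2 M) * ‖EC (bco ⊤) F M + EC (bco ⊤) G M‖ₑ ^ 2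
        ≤ w (det2 M) * (2 * (‖EC (bco ⊤) F M‖ₑ ^ 2 + ‖EC (bco ⊤) G M‖ₑ ^ 2)) := by
          gcongr
          exact enorm_sq_add_le _ _
      _ = _ := by ring

lemma BS_zero : BS (fun _ : Vec => (0 : ℂ)) where
  meas := measurable_const
  bdd := ⟨0, fun _ => by simp⟩
  supp := ⟨0, fun _ _ => rfl⟩

/-- sum of a list of functions. -/
def lsum (L : List (Vec → ℂ)) (u : Vec) : ℂ := (L.map (fun F => F u)).sum

lemma lsum_cons (F : Vec → ℂ) (L : List (Vec → ℂ)) :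
    lsum (F :: L) = fun u => F u + lsum L u := by
  funext u; simp [lsum]

lemma BS_lsum {L : List (Vec → ℂ)} (hL : ∀ F ∈ L, BS F) : BS (lsum L) := by
  induction L with
  | nil => exact BS_zero
  | cons F L ih =>
    rw [lsum_cons]
    exact BS.add (hL F (by simp)) (ih fun G hG => hL G (by simp [hG]))

lemma NN_zero (w : ℂ → ℝ≥0∞) : NN w (fun _ => 0) = 0 := by
  unfold NN EC; simp

lemma NN_lsum {w : ℂ → ℝ≥0∞} (hw : Measurable w) (hw0 : w 0 = 0) {E : ℝ≥0∞}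
    {L : List (Vec → ℂ)} (hL : ∀ F ∈ L, BS F) (hE : ∀ F ∈ L, NN w F ≤ E) :
    NN w (lsum L) ≤ 4 ^ L.length * E := by
  induction L with
  | nil =>
    have : lsum [] = fun _ => 0 := by funext u; simp [lsum]
    rw [this, NN_zero]; simp
  | cons F L ih =>
    rw [lsum_cons]
    have hL' : ∀ G ∈ L, BS G := fun G hG => hL G (List.mem_cons_of_mem _ hG)
    have h1 := NN_add hw hw0 (hL F (by simp)) (BS_lsum hL')
    have h2 := ih hL' (fun G hG => hE G (List.mem_cons_of_mem _ hG))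
    refine h1.trans ?_
    calc 2 * (NN w F + NN w (lsum L)) ≤ 2 * (E + 4 ^ L.length * E) := by
          gcongr
          exact hE F (by simp)
      _ = 2 * E + 2 * (4 ^ L.length * E) := by ring
      _ ≤ 2 * (4 ^ L.length * E) + 2 * (4 ^ L.length * E) := by
          gcongr
          calc E = 1 * E := (one_mul E).symm
            _ ≤ 4 ^ L.length * E := by
              gcongr
              exact one_le_pow₀ (by norm_num)
      _ = 4 ^ (F :: L).length * E := by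
          rw [List.length_cons, pow_succ]; ring


end Crest.Agent.R012.ML384
end
end

-- ▼ part R012/TestFn2_286
section

/-!
# Row 12, (MSL): the test functions `Wf w t l B z = w(|z|²/B) |z|^{2it} (z/|z|)^l`

Radial and angular derivatives, uniform bounds.
-/

set_option autoImplicit false

noncomputable section

open MeasureTheory Set Filter Complex
open scoped ENNReal Topology ContDiff

namespace Crest.Agent.R012.TestFn286

/-- smooth functions on `ℝ` supported in `[a, b]`. -/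
structure SW (a b : ℝ) (w : ℝ → ℂ) : Prop where
  cd : ContDiff ℝ ∞ w
  supp : ∀ x, x < a ∨ b < x → w x = 0

/-- `z ↦ w(|z|²/B) |z|^{2it} (z/|z|)^l`. -/
def Wf (w : ℝ → ℂ) (t : ℝ) (l : ℤ) (B : ℝ) (z : ℂ) : ℂ :=
  w (‖z‖ ^ 2 / B) * ((‖z‖ : ℝ) : ℂ) ^ (2 * (t : ℂ) * I) * (z / ((‖z‖ : ℝ) : ℂ)) ^ l

/-- `x ↦ 2 x w'(x)`. -/
def Aw (w : ℝ → ℂ) (x : ℝ) : ℂ := 2 * (x : ℂ) * deriv w x

/-- `x ↦ 2 x w'(x) + 2 i t w(x)`. -/
def rw' (t : ℝ) (w : ℝ → ℂ) (x : ℝ) : ℂ := Aw w x + 2 * (t : ℂ) * I * w x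

section SWclosure

variable {a b : ℝ} {w w₁ w₂ : ℝ → ℂ}

lemma SW.eventually_zero (h : SW a b w) {x : ℝ} (hx : x < a ∨ b < x) :
    w =ᶠ[𝓝 x] fun _ => 0 := by
  rcases hx with hx | hx
  · filter_upwards [gt_mem_nhds hx] with y hy
    exact h.supp y (Or.inl hy)
  · filter_upwards [lt_mem_nhds hx] with y hy
    exact h.supp y (Or.inr hy)

lemma SW.deriv_zero (h : SW a b w) {x : ℝ} (hx : x < a ∨ b < x) : deriv w x = 0 := by
  rw [(h.eventually_zero hx).deriv_eq]; simp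

lemma SW.differentiable (h : SW a b w) : Differentiable ℝ w := h.cd.differentiable (by simp)

lemma SW.contDiff_deriv (h : SW a b w) : ContDiff ℝ ∞ (deriv w) :=
  (contDiff_infty_iff_deriv.mp h.cd).2

lemma SW.Aw (h : SW a b w) : SW a b (Aw w) where
  cd := by
    unfold TestFn286.Aw
    exact (contDiff_const.mul Complex.ofRealCLM.contDiff).mul h.contDiff_deriv
  supp x hx := by unfold TestFn286.Aw; rw [h.deriv_zero hx, mul_zero]

lemma SW.const_mul (h : SW a b w) (c : ℂ) : SW a b (fun x => c * w x) where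
  cd := contDiff_const.mul h.cd
  supp x hx := by rw [h.supp x hx, mul_zero]

lemma SW.add (h₁ : SW a b w₁) (h₂ : SW a b w₂) : SW a b (fun x => w₁ x + w₂ x) where
  cd := h₁.cd.add h₂.cd
  supp x hx := by rw [h₁.supp x hx, h₂.supp x hx, add_zero]

lemma SW.rw' (h : SW a b w) (t : ℝ) : SW a b (rw' t w) :=
  h.Aw.add (h.const_mul (2 * (t : ℂ) * I))

lemma SW.bdd (h : SW a b w) : ∃ C, 0 ≤ C ∧ ∀ x, ‖w x‖ ≤ C := by
  have hc : HasCompactSupport w := by
    refine HasCompactSupport.intro (isCompact_Icc (a := a) (b := b)) fun x hx => ?_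
    rw [Set.mem_Icc, not_and_or, not_le, not_le] at hx
    exact h.supp x hx
  obtain ⟨C, hC⟩ := h.cd.continuous.bounded_above_of_compact_support hc
  exact ⟨C, (norm_nonneg _).trans (hC 0), hC⟩

end SWclosure

lemma SP.bdd {R : ℝ} {φ : ℂ → ℂ} (h : SP R φ) : ∃ C, 0 ≤ C ∧ ∀ x, ‖φ x‖ ≤ C := by
  have hc : HasCompactSupport φ := by
    refine HasCompactSupport.intro (isCompact_closedBall (0 : ℂ) R) fun x hx => ?_
    rw [mem_closedBall_zero_iff, not_le] at hx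
    exact h.supp x hx
  obtain ⟨C, hC⟩ := h.cd.continuous.bounded_above_of_compact_support hc
  exact ⟨C, (norm_nonneg _).trans (hC 0), hC⟩

/-! ### smoothness of `Wf` -/

lemma Wf_zero_of {a b B : ℝ} (hB : 0 < B) {w : ℝ → ℂ} (h : SW a b w) (t : ℝ)
    (l : ℤ) (z : ℂ) (hz : ‖z‖ < Real.sqrt (a * B) ∨ Real.sqrt (b * B) < ‖z‖) :
    Wf w t l B z = 0 := by
  unfold Wf
  have : ‖z‖ ^ 2 / B < a ∨ b < ‖z‖ ^ 2 / B := by
    rcases hz with hz | hz
    · left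
      rw [div_lt_iff₀ hB]
      have := Real.lt_sqrt (norm_nonneg z) |>.mp hz
      exact this
    · right
      rw [lt_div_iff₀ hB]
      exact (Real.sqrt_lt' (lt_of_le_of_lt (Real.sqrt_nonneg _) hz)).mp hz
  rw [h.supp _ this]
  simp

lemma contDiffAt_zpow' {f : ℂ → ℂ} {z : ℂ} (hf : ContDiffAt ℝ ∞ f z) (h0 : f z ≠ 0) (l : ℤ) :
    ContDiffAt ℝ ∞ (fun z => f z ^ l) z := by
  obtain ⟨n, rfl | rfl⟩ := l.eq_nat_or_neg
  · simp only [zpow_natCast]
    exact hf.pow n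
  · simp only [zpow_neg, zpow_natCast]
    exact (hf.pow n).inv (pow_ne_zero n h0)

lemma SW.SU {a b B : ℝ} (hB : 0 < B) (ha : 0 < a) {w : ℝ → ℂ} (h : SW a b w) (t : ℝ) (l : ℤ) :
    SU (Real.sqrt (a * B)) (Real.sqrt (b * B)) (Wf w t l B) where
  supp z hz := Wf_zero_of hB h t l z hz
  cd := by
    rw [contDiff_iff_contDiffAt]
    intro z
    by_cases hz : z = 0
    · have hpos : 0 < Real.sqrt (a * B) := Real.sqrt_pos.mpr (by positivity)
      have : Wf w t l B =ᶠ[𝓝 z] fun _ => 0 := by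
        have hm : {y : ℂ | ‖y‖ < Real.sqrt (a * B)} ∈ 𝓝 z :=
          (isOpen_lt continuous_norm continuous_const).mem_nhds (by simpa [hz] using hpos)
        filter_upwards [hm] with y hy
        exact Wf_zero_of hB h t l y (Or.inl hy)
      exact contDiffAt_const.congr_of_eventuallyEq this
    · have hn : ‖z‖ ≠ 0 := norm_ne_zero_iff.mpr hz
      have hnorm : ContDiffAt ℝ ∞ (fun y : ℂ => ‖y‖) z := contDiffAt_norm ℝ hz
      have hnormC : ContDiffAt ℝ ∞ (fun y : ℂ => ((‖y‖ : ℝ) : ℂ)) z :=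
        Complex.ofRealCLM.contDiff.contDiffAt.comp z hnorm
      have h1 : ContDiffAt ℝ ∞ (fun y : ℂ => w (‖y‖ ^ 2 / B)) z :=
        h.cd.contDiffAt.comp z ((contDiff_norm_sq ℝ).contDiffAt.div_const B)
      have h2 : ContDiffAt ℝ ∞ (fun y : ℂ => ((‖y‖ : ℝ) : ℂ) ^ (2 * (t : ℂ) * I)) z := by
        have e : (fun y : ℂ => ((‖y‖ : ℝ) : ℂ) ^ (2 * (t : ℂ) * I)) =ᶠ[𝓝 z]
            fun y : ℂ => Complex.exp (((Real.log ‖y‖ : ℝ) : ℂ) * (2 * (t : ℂ) * I)) := by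
          filter_upwards [isOpen_ne.mem_nhds hz] with y hy
          rw [Complex.cpow_def_of_ne_zero (by simpa using hy), ← Complex.ofReal_log (norm_nonneg _)]
        refine ContDiffAt.congr_of_eventuallyEq ?_ e
        refine ContDiffAt.cexp ?_
        exact (Complex.ofRealCLM.contDiff.contDiffAt.comp z (hnorm.log hn)).mul contDiffAt_const
      have h3 : ContDiffAt ℝ ∞ (fun y : ℂ => (y / ((‖y‖ : ℝ) : ℂ)) ^ l) z := by
        refine contDiffAt_zpow' (f := fun y : ℂ => y / ((‖y‖ : ℝ) : ℂ)) ?_ ?_ l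
        · exact contDiffAt_id.mul (hnormC.inv (by simpa using hn))
        · exact div_ne_zero hz (by simpa using hn)
      exact (h1.mul h2).mul h3

/-! ### radial and angular derivatives -/

lemma Wf_exp_mul {B : ℝ} {w : ℝ → ℂ} (t : ℝ) (l : ℤ) (z : ℂ) (r : ℝ) :
    Wf w t l B (((Real.exp r : ℝ) : ℂ) * z) = w (Real.exp (2 * r) * (‖z‖ ^ 2 / B)) *
      Complex.exp (2 * (t : ℂ) * I * r) *
      (((‖z‖ : ℝ) : ℂ) ^ (2 * (t : ℂ) * I) * (z / ((‖z‖ : ℝ) : ℂ)) ^ l) := by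
  unfold Wf
  have hn : ‖((Real.exp r : ℝ) : ℂ) * z‖ = Real.exp r * ‖z‖ := by
    rw [norm_mul, Complex.norm_real, Real.norm_eq_abs, abs_of_pos (Real.exp_pos r)]
  have he : ((Real.exp r : ℝ) : ℂ) ≠ 0 := by
    simp [Complex.exp_ne_zero]
  rw [hn]
  have h1 : (Real.exp r * ‖z‖) ^ 2 / B = Real.exp (2 * r) * (‖z‖ ^ 2 / B) := by
    rw [mul_pow, ← Real.exp_nat_mul]; push_cast; ring
  have h2 : ((Real.exp r * ‖z‖ : ℝ) : ℂ) ^ (2 * (t : ℂ) * I)
      = Complex.exp (2 * (t : ℂ) * I * r) * ((‖z‖ : ℝ) : ℂ) ^ (2 * (t : ℂ) * I) := by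
    rw [Complex.ofReal_mul, Complex.mul_cpow_ofReal_nonneg (Real.exp_pos r).le (norm_nonneg z)]
    congr 1
    rw [Complex.cpow_def_of_ne_zero he, ← Complex.ofReal_log (Real.exp_pos r).le, Real.log_exp]
    ring_nf
  have h3 : ((Real.exp r : ℝ) : ℂ) * z / ((Real.exp r * ‖z‖ : ℝ) : ℂ) = z / ((‖z‖ : ℝ) : ℂ) := by
    rw [Complex.ofReal_mul, mul_div_mul_left _ _ he]
  rw [h1, h2, h3]
  ring

lemma Wf_rot {B : ℝ} {w : ℝ → ℂ} (t : ℝ) (l : ℤ) (z : ℂ) (u : ℂ) (hu : ‖u‖ = 1) :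
    Wf w t l B (u * z) = u ^ l * Wf w t l B z := by
  unfold Wf
  rw [norm_mul, hu, one_mul, mul_div_assoc, mul_zpow]
  ring

theorem DrU_Wf {a b B : ℝ} (hB : 0 < B) (ha : 0 < a) {w : ℝ → ℂ} (h : SW a b w) (t : ℝ)
    (l : ℤ) : DrU (Wf w t l B) = Wf (rw' t w) t l B := by
  funext z
  have hU := h.SU hB ha t l
  by_cases hz : z = 0
  · have hpos : 0 < Real.sqrt (a * B) := Real.sqrt_pos.mpr (by positivity)
    rw [hU.DrU.supp z (Or.inl (by simpa [hz] using hpos)),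
      ((h.rw' t).SU hB ha t l).supp z (Or.inl (by simpa [hz] using hpos))]
  · have hd : HasDerivAt (fun r : ℝ => ((Real.exp r : ℝ) : ℂ) * z) z 0 := by
      have h1 : HasDerivAt (fun r : ℝ => ((Real.exp r : ℝ) : ℂ)) 1 0 := by
        have := (Real.hasDerivAt_exp 0).ofReal_comp
        simpa using this
      simpa using h1.mul_const z
    have hUd : Differentiable ℝ (Wf w t l B) := hU.cd.differentiable (by simp)
    have e0 : ((Real.exp 0 : ℝ) : ℂ) * z = z := by simp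
    have hA : HasDerivAt (fun r : ℝ => Wf w t l B (((Real.exp r : ℝ) : ℂ) * z))
        (DrU (Wf w t l B) z) 0 := by
      have := (hUd (((Real.exp 0 : ℝ) : ℂ) * z)).hasFDerivAt.comp_hasDerivAt (0 : ℝ) hd
      rw [e0] at this
      exact this
    have hB' : HasDerivAt (fun r : ℝ => Wf w t l B (((Real.exp r : ℝ) : ℂ) * z))
        (Wf (rw' t w) t l B z) 0 := by
      simp_rw [Wf_exp_mul t l z]
      have h1 : HasDerivAt (fun r : ℝ => Real.exp (2 * r) * (‖z‖ ^ 2 / B))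
          (2 * (‖z‖ ^ 2 / B)) 0 := by
        have := (((hasDerivAt_id (0 : ℝ)).const_mul 2).exp).mul_const (‖z‖ ^ 2 / B)
        simpa using this
      have h2 : HasDerivAt (fun r : ℝ => w (Real.exp (2 * r) * (‖z‖ ^ 2 / B)))
          ((2 * (‖z‖ ^ 2 / B) : ℝ) • deriv w (‖z‖ ^ 2 / B)) 0 := by
        have h3 := (h.differentiable (Real.exp (2 * 0) * (‖z‖ ^ 2 / B))).hasDerivAt
        have h4 := h3.scomp (0 : ℝ) h1
        simpa [Function.comp_def] using h4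
      have h5 : HasDerivAt (fun r : ℝ => Complex.exp (2 * (t : ℂ) * I * r))
          (2 * (t : ℂ) * I) 0 := by
        have h6 : HasDerivAt (fun r : ℝ => 2 * (t : ℂ) * I * (r : ℂ)) (2 * (t : ℂ) * I) 0 := by
          have := (Complex.ofRealCLM.hasDerivAt (x := (0 : ℝ))).const_mul (2 * (t : ℂ) * I)
          simpa using this
        have := h6.cexp
        simpa using this
      have h7 := (h2.mul h5).mul_const
        (((‖z‖ : ℝ) : ℂ) ^ (2 * (t : ℂ) * I) * (z / ((‖z‖ : ℝ) : ℂ)) ^ l)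
      refine h7.congr_deriv ?_
      unfold Wf rw' Aw
      simp only [Complex.real_smul, mul_zero, Real.exp_zero, one_mul, Complex.ofReal_zero,
        Complex.exp_zero, mul_one, Complex.ofReal_mul, Complex.ofReal_ofNat]
      ring
    exact hA.unique hB'

theorem DtU_Wf {a b B : ℝ} (hB : 0 < B) (ha : 0 < a) {w : ℝ → ℂ} (h : SW a b w) (t : ℝ)
    (l : ℤ) : DtU (Wf w t l B) = Wf (fun x => ((l : ℂ) * I) * w x) t l B := by
  funext z
  have hU := h.SU hB ha t l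
  have hd : HasDerivAt (fun r : ℝ => Complex.exp (I * r) * z) (I * z) 0 := by
    have h6 : HasDerivAt (fun r : ℝ => I * (r : ℂ)) I 0 := by
      have := (Complex.ofRealCLM.hasDerivAt (x := (0 : ℝ))).const_mul I
      simpa using this
    have := h6.cexp.mul_const z
    simpa using this
  have hUd : Differentiable ℝ (Wf w t l B) := hU.cd.differentiable (by simp)
  have e0 : Complex.exp (I * ((0 : ℝ) : ℂ)) * z = z := by simp
  have hA : HasDerivAt (fun r : ℝ => Wf w t l B (Complex.exp (I * r) * z))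
      (DtU (Wf w t l B) z) 0 := by
    have := (hUd (Complex.exp (I * ((0 : ℝ) : ℂ)) * z)).hasFDerivAt.comp_hasDerivAt (0 : ℝ) hd
    rw [e0] at this
    exact this
  have hB' : HasDerivAt (fun r : ℝ => Wf w t l B (Complex.exp (I * r) * z))
      ((l : ℂ) * I * Wf w t l B z) 0 := by
    have e1 : (fun r : ℝ => Wf w t l B (Complex.exp (I * r) * z))
        = fun r : ℝ => Complex.exp ((l : ℂ) * I * r) * Wf w t l B z := by
      funext r
      rw [Wf_rot t l z _ (by rw [mul_comm]; exact Complex.norm_exp_ofReal_mul_I r),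
        ← Complex.exp_int_mul]
      ring_nf
    rw [e1]
    have h6 : HasDerivAt (fun r : ℝ => (l : ℂ) * I * (r : ℂ)) ((l : ℂ) * I) 0 := by
      have := (Complex.ofRealCLM.hasDerivAt (x := (0 : ℝ))).const_mul ((l : ℂ) * I)
      simpa using this
    have := h6.cexp.mul_const (Wf w t l B z)
    simpa using this
  rw [hA.unique hB']
  unfold Wf
  ring

/-! ### uniform bounds -/

lemma norm_Wf_le {B : ℝ} (w : ℝ → ℂ) (t : ℝ) (l : ℤ) (z : ℂ) :
    ‖Wf w t l B z‖ ≤ ‖w (‖z‖ ^ 2 / B)‖ := by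
  unfold Wf
  rw [norm_mul, norm_mul]
  have h1 : ‖((‖z‖ : ℝ) : ℂ) ^ (2 * (t : ℂ) * I)‖ ≤ 1 := by
    by_cases hz : z = 0
    · subst hz
      simp only [norm_zero, Complex.ofReal_zero]
      by_cases ht : 2 * (t : ℂ) * I = 0
      · rw [ht]; simp
      · rw [Complex.zero_cpow ht]; simp
    · have hn : 0 < ‖z‖ := norm_pos_iff.mpr hz
      rw [Complex.norm_cpow_eq_rpow_re_of_pos hn]
      simp
  have h2 : ‖(z / ((‖z‖ : ℝ) : ℂ)) ^ l‖ ≤ 1 := by
    rw [norm_zpow, norm_div, Complex.norm_real, norm_norm]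
    by_cases hz : z = 0
    · subst hz
      simp only [norm_zero, div_zero]
      by_cases hl : l = 0
      · subst hl; simp
      · rw [zero_zpow _ hl]; exact zero_le_one
    · rw [div_self (norm_ne_zero_iff.mpr hz), one_zpow]
  calc ‖w (‖z‖ ^ 2 / B)‖ * ‖((‖z‖ : ℝ) : ℂ) ^ (2 * (t : ℂ) * I)‖ * ‖(z / ((‖z‖ : ℝ) : ℂ)) ^ l‖
      ≤ ‖w (‖z‖ ^ 2 / B)‖ * 1 * 1 := by gcongr
    _ = ‖w (‖z‖ ^ 2 / B)‖ := by ring


lemma Aw_rw' {a b : ℝ} {w : ℝ → ℂ} (h : SW a b w) (t x : ℝ) :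
    Aw (rw' t w) x = Aw (Aw w) x + 2 * (t : ℂ) * I * Aw w x := by
  have h1 : HasDerivAt (rw' t w) (deriv (Aw w) x + 2 * (t : ℂ) * I * deriv w x) x := by
    unfold rw'
    exact (h.Aw.differentiable x).hasDerivAt.add
      ((h.differentiable x).hasDerivAt.const_mul (2 * (t : ℂ) * I))
  have e1 : Aw (rw' t w) x = 2 * (x : ℂ) * deriv (rw' t w) x := rfl
  have e2 : Aw (Aw w) x = 2 * (x : ℂ) * deriv (Aw w) x := rfl
  have e3 : Aw w x = 2 * (x : ℂ) * deriv w x := rfl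
  rw [e1, h1.deriv, e2, e3]
  ring


/-- `x ↦ s^k ψ(x/s)`. -/
def scp (s : ℝ) (k : ℕ) (ψ : ℂ → ℂ) (x : ℂ) : ℂ := (s : ℂ) ^ k * ψ (x / s)

lemma Rm_scp {s : ℝ} (hs : s ≠ 0) (k : ℕ) (c : ℂ) (ψ : ℂ → ℂ) :
    Rm c (scp s k ψ) = scp s (k + 1) (Rm c ψ) := by
  funext x
  unfold Rm scp
  have hs' : (s : ℂ) ≠ 0 := by exact_mod_cast hs
  have e : ((c * x).re : ℂ) = s * ((c * (x / s)).re : ℂ) := by
    have : c * x = (s : ℂ) * (c * (x / s)) := by field_simp
    rw [this, Complex.re_ofReal_mul]; push_cast; ring_nf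
  rw [e]; ring

lemma Im'_scp {s : ℝ} (hs : s ≠ 0) (k : ℕ) (c : ℂ) (ψ : ℂ → ℂ) :
    Im' c (scp s k ψ) = scp s (k + 1) (Im' c ψ) := by
  funext x
  unfold Im' scp
  have hs' : (s : ℂ) ≠ 0 := by exact_mod_cast hs
  have e : ((c * x).im : ℂ) = s * ((c * (x / s)).im : ℂ) := by
    have : c * x = (s : ℂ) * (c * (x / s)) := by field_simp
    rw [this, Complex.im_ofReal_mul]; push_cast; ring_nf
  rw [e]; ring

lemma Dm_scp {s : ℝ} (hs : s ≠ 0) (k : ℕ) (c : ℂ) {ψ : ℂ → ℂ} (hψ : Differentiable ℝ ψ) :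
    Dm c (scp s k ψ) = scp s (k + 1) (Dm c ψ) := by
  funext x
  unfold Dm
  have hs' : (s : ℂ) ≠ 0 := by exact_mod_cast hs
  have h1 : HasFDerivAt (fun y : ℂ => y / (s : ℂ)) ((s⁻¹ : ℝ) • ContinuousLinearMap.id ℝ ℂ) x := by
    have : (fun y : ℂ => y / (s : ℂ)) = fun y : ℂ => (s⁻¹ : ℝ) • (ContinuousLinearMap.id ℝ ℂ y) := by
      funext y
      simp [div_eq_inv_mul]
    rw [this]
    exact (ContinuousLinearMap.id ℝ ℂ).hasFDerivAt.const_smul (s⁻¹ : ℝ)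
  have h2 : HasFDerivAt (fun y : ℂ => ψ (y / s))
      ((fderiv ℝ ψ (x / s)).comp ((s⁻¹ : ℝ) • ContinuousLinearMap.id ℝ ℂ)) x :=
    (hψ (x / s)).hasFDerivAt.comp x h1
  have h3 : HasFDerivAt (scp s k ψ)
      ((s : ℂ) ^ k • ((fderiv ℝ ψ (x / s)).comp ((s⁻¹ : ℝ) • ContinuousLinearMap.id ℝ ℂ))) x :=
    h2.const_mul ((s : ℂ) ^ k)
  rw [h3.fderiv]
  simp only [_root_.smul_apply, ContinuousLinearMap.comp_apply,
    ContinuousLinearMap.id_apply, scp, smul_eq_mul]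
  have e : (s⁻¹ : ℝ) • (-(c * x ^ 2)) = (s : ℝ) • (-(c * (x / s) ^ 2)) := by
    rw [Complex.real_smul, Complex.real_smul]; push_cast; field_simp
  rw [e, map_smul, Complex.real_smul]
  ring

lemma SP.scp {R s : ℝ} (hs : 0 < s) {ψ : ℂ → ℂ} (h : SP R ψ) (k : ℕ) :
    SP (R * s) (scp s k ψ) where
  cd := by
    unfold TestFn286.scp
    exact contDiff_const.mul (h.cd.comp (contDiff_id.div_const _))
  supp z hz := by
    unfold TestFn286.scp
    rw [h.supp _ ?_, mul_zero]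
    rw [norm_div, Complex.norm_real, Real.norm_eq_abs, abs_of_pos hs, lt_div_iff₀ hs]
    exact hz

lemma norm_scp_le {s : ℝ} (hs : 0 < s) {ψ : ℂ → ℂ} {C : ℝ} (h : ∀ x, ‖ψ x‖ ≤ C) (k : ℕ) (x : ℂ) :
    ‖scp s k ψ x‖ ≤ C * s ^ k := by
  unfold scp
  rw [norm_mul, norm_pow, Complex.norm_real, Real.norm_eq_abs, abs_of_pos hs, mul_comm]
  gcongr
  exact h _

/-- the three pairs occurring in `D1 c`. -/
def step (c : ℂ) (p : (ℂ → ℂ) × (ℂ → ℂ)) : List ((ℂ → ℂ) × (ℂ → ℂ)) :=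
  [(DrU p.1, Rm c p.2), (DtU p.1, Im' c p.2), (p.1, Dm c p.2)]





/-! ### uniform bounds for all terms -/

lemma Aw_const_mul {a b : ℝ} {w : ℝ → ℂ} (h : SW a b w) (c : ℂ) :
    Aw (fun x => c * w x) = fun x => c * Aw w x := by
  funext x
  have h1 : HasDerivAt (fun x => c * w x) (c * deriv w x) x :=
    (h.differentiable x).hasDerivAt.const_mul c
  have e1 : Aw (fun x => c * w x) x = 2 * (x : ℂ) * deriv (fun x => c * w x) x := rfl
  rw [e1, h1.deriv]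
  unfold Aw
  ring

lemma SW.iter {a b : ℝ} {w : ℝ → ℂ} (h : SW a b w) (i : ℕ) : SW a b (TestFn286.Aw^[i] w) := by
  induction i with
  | zero => exact h
  | succ i ih => rw [Function.iterate_succ_apply']; exact ih.Aw

lemma iter_rw' {a b : ℝ} {w : ℝ → ℂ} (h : SW a b w) (t : ℝ) (i : ℕ) :
    Aw^[i] (rw' t w) = rw' t (Aw^[i] w) := by
  induction i with
  | zero => rfl
  | succ i ih =>
    rw [Function.iterate_succ_apply', Function.iterate_succ_apply', ih]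
    funext x
    exact Aw_rw' (h.iter i) t x

lemma iter_const_mul {a b : ℝ} {w : ℝ → ℂ} (h : SW a b w) (c : ℂ) (i : ℕ) :
    Aw^[i] (fun x => c * w x) = fun x => c * Aw^[i] w x := by
  induction i with
  | zero => rfl
  | succ i ih =>
    rw [Function.iterate_succ_apply', Function.iterate_succ_apply', ih]
    exact Aw_const_mul (h.iter i) c

/-- families of pairs of functions, depending on `t, s, B`. -/
abbrev Fam := ℝ → ℝ → ℝ → (ℂ → ℂ) × (ℂ → ℂ)

/-- `U` is `Wf` of a family of weights growing like `(1+|t|)^k` (with `n` derivatives), `φ` is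
`s^k ψ(·/s)`. -/
def Good (a b R : ℝ) (l : ℤ) (k n : ℕ) (P : Fam) : Prop :=
  ∃ (W : ℝ → ℝ → ℂ) (ψ : ℂ → ℂ), (∀ t, SW a b (W t)) ∧ SP R ψ ∧
    (∃ C, 0 ≤ C ∧ ∀ i ≤ n, ∀ t x, ‖(Aw^[i]) (W t) x‖ ≤ C * (1 + |t|) ^ k) ∧
    ∀ t s B, 0 < s → 0 < B → P t s B = (Wf (W t) t l B, scp s k ψ)

/-- the three families occurring in `D1 c`. -/
def stepF (c : ℂ) (P : Fam) : List Fam :=
  [fun t s B => (DrU (P t s B).1, Rm c (P t s B).2),
   fun t s B => (DtU (P t s B).1, Im' c (P t s B).2),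
   fun t s B => ((P t s B).1, Dm c (P t s B).2)]



lemma Good.step {a b R : ℝ} (ha : 0 < a) {l : ℤ} {k n : ℕ} {P : Fam}
    (h : Good a b R l k (n + 1) P) (c : ℂ) : ∀ Q ∈ stepF c P, Good a b R l (k + 1) n Q := by
  obtain ⟨W, ψ, hW, hψ, ⟨C, hC0, hC⟩, hP⟩ := h
  have h1t : ∀ t : ℝ, 1 ≤ 1 + |t| := fun t => by linarith [abs_nonneg t]
  intro Q hQ
  simp only [stepF, List.mem_cons, List.not_mem_nil, or_false] at hQ
  rcases hQ with rfl | rfl | rfl
  · refine ⟨fun t => rw' t (W t), Rm c ψ, fun t => (hW t).rw' t, hψ.Rm c, ⟨3 * C, by positivity,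
      fun i hi t x => ?_⟩, fun t s B hs hB => ?_⟩
    · rw [iter_rw' (hW t)]
      have e1 : rw' t (Aw^[i] (W t)) x = Aw^[i + 1] (W t) x + 2 * (t : ℂ) * I * Aw^[i] (W t) x := by
        rw [Function.iterate_succ_apply']; rfl
      have e2 : ‖2 * (t : ℂ) * I * Aw^[i] (W t) x‖ = 2 * |t| * ‖Aw^[i] (W t) x‖ := by simp
      rw [e1]
      calc ‖Aw^[i + 1] (W t) x + 2 * (t : ℂ) * I * Aw^[i] (W t) x‖
          ≤ ‖Aw^[i + 1] (W t) x‖ + 2 * |t| * ‖Aw^[i] (W t) x‖ := by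
            rw [← e2]; exact norm_add_le _ _
        _ ≤ C * (1 + |t|) ^ k + 2 * |t| * (C * (1 + |t|) ^ k) := by
            gcongr
            · exact hC (i + 1) (by omega) t x
            · exact hC i (by omega) t x
        _ ≤ 3 * C * (1 + |t|) ^ (k + 1) := by
            have h2 : 0 ≤ C * (1 + |t|) ^ k := by positivity
            have := abs_nonneg t
            rw [pow_succ]
            nlinarith
    · simp only [hP t s B hs hB]
      rw [DrU_Wf hB ha (hW t), Rm_scp hs.ne']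
  · refine ⟨fun t x => ((l : ℂ) * I) * W t x, Im' c ψ, fun t => (hW t).const_mul _, hψ.Im' c,
      ⟨|(l : ℝ)| * C, by positivity, fun i hi t x => ?_⟩, fun t s B hs hB => ?_⟩
    · rw [iter_const_mul (hW t)]
      have e2 : ‖(l : ℂ) * I * Aw^[i] (W t) x‖ = |(l : ℝ)| * ‖Aw^[i] (W t) x‖ := by
        rw [norm_mul, norm_mul, Complex.norm_I, mul_one]
        congr 1
        rw [← Complex.ofReal_intCast, Complex.norm_real, Real.norm_eq_abs]
      rw [e2, mul_assoc]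
      gcongr
      refine (hC i (by omega) t x).trans ?_
      gcongr
      · exact h1t t
      · omega
    · simp only [hP t s B hs hB]
      rw [DtU_Wf hB ha (hW t), Im'_scp hs.ne']
  · refine ⟨W, Dm c ψ, hW, hψ.Dm c, ⟨C, hC0, fun i hi t x => ?_⟩, fun t s B hs hB => ?_⟩
    · refine (hC i (by omega) t x).trans ?_
      gcongr
      · exact h1t t
      · omega
    · simp only [hP t s B hs hB]
      rw [Dm_scp hs.ne' _ _ (hψ.cd.differentiable (by simp))]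

lemma Good.bound {a b R : ℝ} {l : ℤ} {k n : ℕ} {P : Fam} (h : Good a b R l k n P) :
    ∃ K, 0 ≤ K ∧ ∀ t s B, 0 < s → s ≤ 1 → |t| * s ≤ 1 → 0 < B → ∀ z x,
      ‖(P t s B).1 z‖ * ‖(P t s B).2 x‖ ≤ K := by
  obtain ⟨W, ψ, hW, hψ, ⟨C, hC0, hC⟩, hP⟩ := h
  obtain ⟨C', hC'0, hC'⟩ := hψ.bdd
  refine ⟨C * C' * 2 ^ k, by positivity, fun t s B hs hs1 hts hB z x => ?_⟩
  rw [hP t s B hs hB]
  have h1 : ‖Wf (W t) t l B z‖ ≤ C * (1 + |t|) ^ k :=
    (norm_Wf_le _ _ _ _).trans (hC 0 (Nat.zero_le _) t _)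
  have h2 : ‖scp s k ψ x‖ ≤ C' * s ^ k := norm_scp_le hs hC' k x
  calc ‖Wf (W t) t l B z‖ * ‖scp s k ψ x‖ ≤ (C * (1 + |t|) ^ k) * (C' * s ^ k) := by
        gcongr
    _ = C * C' * ((1 + |t|) * s) ^ k := by rw [mul_pow]; ring
    _ ≤ C * C' * 2 ^ k := by
        gcongr
        nlinarith



end Crest.Agent.R012.TestFn286
end
end

-- ▼ part R012/TestFn3_286
section

/-!
# Row 12, (MSL): the derivatives of `prodF (Uf om l B) (φ0(T ·))` as explicit finite sums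

`orb_Uf` : the functions `F1, F2, F12` of `OrbDeriv` are sums of at most `3, 3, 9` functions
`prodF (Uf om_k l B) (ψ_k(T ·))` with `‖om_k‖ ≤ C K`, `mom om_k = 0` if `mom om = 0`, and `ψ_k` in a
fixed finite list depending only on `φ0`.
-/

set_option autoImplicit false

noncomputable section

open MeasureTheory Set Filter Complex
open scoped ENNReal Topology ContDiff

namespace Crest.Agent.R012.TestFn286

open Crest.Agent.R012.Trace384 Crest.Agent.R012.ML384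

lemma Uf_eq_Wf (om : ℝ → ℂ) (l : ℤ) (B : ℝ) : Uf om l B = Wf om 0 l B := by
  funext z
  unfold Uf Wf
  simp

/-! ### moments -/

lemma mom_Aw {a b : ℝ} (_ha : 0 < a) {om : ℝ → ℂ} (h : SW a b om) :
    mom (Aw om) = -(8 / 3) * mom om := by
  unfold mom
  -- `G x = om x * x^{4/3}`
  have hd : ∀ x ∈ Ioi (0 : ℝ), HasDerivAt (fun x : ℝ => om x * ((x ^ ((4 : ℝ) / 3) : ℝ) : ℂ))
      (deriv om x * ((x ^ ((4 : ℝ) / 3) : ℝ) : ℂ) +
        om x * (((4 : ℝ) / 3 * x ^ ((1 : ℝ) / 3) : ℝ) : ℂ)) x := by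
    intro x hx
    have h1 := (h.differentiable x).hasDerivAt
    have h2 : HasDerivAt (fun x : ℝ => x ^ ((4 : ℝ) / 3)) ((4 : ℝ) / 3 * x ^ ((1 : ℝ) / 3)) x := by
      have := Real.hasDerivAt_rpow_const (x := x) (p := (4 : ℝ) / 3) (Or.inl (ne_of_gt hx))
      convert this using 2
      norm_num
    exact h1.mul h2.ofReal_comp
  have hsupp : ∀ g : ℝ → ℂ, (∀ x, x < a ∨ b < x → g x = 0) → Continuous g →
      IntegrableOn (fun x => g x * ((x ^ ((1 : ℝ) / 3) : ℝ) : ℂ)) (Ioi 0) := by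
    intro g hg hgc
    have hc : Continuous (fun x : ℝ => g x * ((x ^ ((1 : ℝ) / 3) : ℝ) : ℂ)) :=
      hgc.mul (Complex.continuous_ofReal.comp (Real.continuous_rpow_const (by norm_num)))
    refine (hc.integrable_of_hasCompactSupport ?_).integrableOn
    refine HasCompactSupport.intro (isCompact_Icc (a := a) (b := b)) fun x hx => ?_
    rw [Set.mem_Icc, not_and_or, not_le, not_le] at hx
    rw [hg x hx, zero_mul]
  have hG : Continuous (fun x : ℝ => om x * ((x ^ ((4 : ℝ) / 3) : ℝ) : ℂ)) :=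
    h.cd.continuous.mul (Complex.continuous_ofReal.comp (Real.continuous_rpow_const (by norm_num)))
  have i1 : IntegrableOn (fun x => Aw om x * ((x ^ ((1 : ℝ) / 3) : ℝ) : ℂ)) (Ioi 0) :=
    hsupp _ h.Aw.supp h.Aw.cd.continuous
  have i2 : IntegrableOn (fun x => om x * ((x ^ ((1 : ℝ) / 3) : ℝ) : ℂ)) (Ioi 0) :=
    hsupp _ h.supp h.cd.continuous
  have e : ∀ x ∈ Ioi (0 : ℝ), deriv om x * ((x ^ ((4 : ℝ) / 3) : ℝ) : ℂ) +
        om x * (((4 : ℝ) / 3 * x ^ ((1 : ℝ) / 3) : ℝ) : ℂ) =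
      (1 / 2 : ℂ) * (Aw om x * ((x ^ ((1 : ℝ) / 3) : ℝ) : ℂ)) +
        (4 / 3 : ℂ) * (om x * ((x ^ ((1 : ℝ) / 3) : ℝ) : ℂ)) := by
    intro x hx
    have h3 : x ^ ((4 : ℝ) / 3) = x * x ^ ((1 : ℝ) / 3) := by
      rw [show (4 : ℝ) / 3 = 1 + 1 / 3 by norm_num, Real.rpow_add hx, Real.rpow_one]
    unfold Aw
    rw [h3]
    push_cast
    ring
  have key := integral_Ioi_of_hasDerivAt_of_tendsto (a := 0) (m := 0)
    (f := fun x : ℝ => om x * ((x ^ ((4 : ℝ) / 3) : ℝ) : ℂ))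
    (f' := fun x => deriv om x * ((x ^ ((4 : ℝ) / 3) : ℝ) : ℂ) +
        om x * (((4 : ℝ) / 3 * x ^ ((1 : ℝ) / 3) : ℝ) : ℂ))
    hG.continuousWithinAt hd ?_ ?_
  · rw [setIntegral_congr_fun measurableSet_Ioi e, integral_add (i1.const_mul _) (i2.const_mul _),
      integral_const_mul, integral_const_mul] at key
    have h0 : (0 : ℝ) ^ ((4 : ℝ) / 3) = 0 := Real.zero_rpow (by norm_num)
    rw [h0] at key
    simp only [Complex.ofReal_zero, mul_zero, sub_zero] at key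
    linear_combination 2 * key
  · have i3 : IntegrableOn (fun x => (1 / 2 : ℂ) * (Aw om x * ((x ^ ((1 : ℝ) / 3) : ℝ) : ℂ)) +
        (4 / 3 : ℂ) * (om x * ((x ^ ((1 : ℝ) / 3) : ℝ) : ℂ))) (Ioi 0) :=
      (i1.const_mul (1 / 2 : ℂ)).add (i2.const_mul (4 / 3 : ℂ))
    exact i3.congr_fun (fun x hx => (e x hx).symm) measurableSet_Ioi
  · refine tendsto_const_nhds.congr' ?_
    filter_upwards [eventually_gt_atTop b] with x hx
    rw [h.supp x (Or.inr hx), zero_mul]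

lemma mom_const_mul (c : ℂ) (om : ℝ → ℂ) : mom (fun x => c * om x) = c * mom om := by
  unfold mom
  rw [← integral_const_mul]
  congr 1
  funext x
  ring

/-! ### lists of pairs -/

/-- `Σ_q prodF (Uf q.1 l B) (q.2(T ·))`. -/
def sumL (l : ℤ) (B T : ℝ) (L : List ((ℝ → ℂ) × (ℂ → ℂ))) (u : ℂ × ℂ) : ℂ :=
  (L.map fun q => prodF (Uf q.1 l B) (fun p => q.2 ((T : ℂ) * p)) u).sum

/-- the three pairs in the derivative of `prodF (Uf om l B) (ψ(T ·))` in direction `c`. -/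
def stepL (T : ℝ) (l : ℤ) (c : ℂ) (q : (ℝ → ℂ) × (ℂ → ℂ)) : List ((ℝ → ℂ) × (ℂ → ℂ)) :=
  [(fun x => (T : ℂ)⁻¹ * Aw q.1 x, Rm c q.2),
   (fun x => (T : ℂ)⁻¹ * (((l : ℂ) * I) * q.1 x), Im' c q.2),
   (fun x => (T : ℂ)⁻¹ * q.1 x, Dm c q.2)]

/-- the functions `ψ` produced by one derivative. -/
def stepP (c : ℂ) (ψ : ℂ → ℂ) : List (ℂ → ℂ) := [Rm c ψ, Im' c ψ, Dm c ψ]

/-- the fixed list of functions `ψ`. -/
def PsiL (ψ : ℂ → ℂ) : List (ℂ → ℂ) :=
  stepP 1 ψ ++ stepP I ψ ++ (stepP 1 ψ).flatMap (stepP I)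

lemma rw'_zero (om : ℝ → ℂ) : rw' 0 om = Aw om := by
  funext x; simp [rw']

lemma scp_inv {T : ℝ} (hT : 0 < T) (k : ℕ) (ψ : ℂ → ℂ) :
    scp T⁻¹ k ψ = fun p => ((T : ℂ)⁻¹) ^ k * ψ ((T : ℂ) * p) := by
  funext p
  unfold scp
  have : (T : ℂ) ≠ 0 := by exact_mod_cast hT.ne'
  push_cast
  congr 2
  field_simp

lemma prodF_const_mul (c : ℂ) (om : ℝ → ℂ) (l : ℤ) (B : ℝ) (φ : ℂ → ℂ) (u : ℂ × ℂ) :
    prodF (Uf om l B) (fun p => c * φ p) u = prodF (Uf (fun x => c * om x) l B) φ u := by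
  simp only [prodF, Uf]; ring

lemma D1_Uf {a b T B : ℝ} (ha : 0 < a) (hT : 0 < T) (hB : 0 < B) (l : ℤ) (c : ℂ)
    {q : (ℝ → ℂ) × (ℂ → ℂ)} (h1 : SW a b q.1) (h2 : Differentiable ℝ q.2) (u : ℂ × ℂ) :
    D1 c (Uf q.1 l B) (fun p => q.2 ((T : ℂ) * p)) u = sumL l B T (stepL T l c q) u := by
  have e0 : (fun p => q.2 ((T : ℂ) * p)) = scp T⁻¹ 0 q.2 := by
    rw [scp_inv hT]; simp
  have hs : (T⁻¹ : ℝ) ≠ 0 := (inv_pos.mpr hT).ne'
  rw [e0]
  unfold D1
  rw [Rm_scp hs, Im'_scp hs, Dm_scp hs _ _ h2]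
  simp only [scp_inv hT, zero_add, pow_one]
  rw [Uf_eq_Wf, DrU_Wf hB ha h1, DtU_Wf hB ha h1, rw'_zero]
  simp only [← Uf_eq_Wf, prodF_const_mul]
  simp only [sumL, stepL, List.map_cons, List.map_nil, List.sum_cons, List.sum_nil, add_zero]
  ring

/-- uniform class: `‖Aw^i om‖ ≤ M T^i` for `i ≤ n`. -/
def Gd (a b T : ℝ) (n : ℕ) (M : ℝ) (om : ℝ → ℂ) : Prop :=
  SW a b om ∧ ∀ i ≤ n, ∀ x, ‖Aw^[i] om x‖ ≤ M * T ^ i

lemma Gd.step {a b T : ℝ} (hT : 1 ≤ T) {n : ℕ} {M : ℝ} (hM : 0 ≤ M) {q : (ℝ → ℂ) × (ℂ → ℂ)}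
    (h : Gd a b T (n + 1) M q.1) (l : ℤ) (c : ℂ) :
    ∀ q' ∈ stepL T l c q, Gd a b T n ((1 + |(l : ℝ)|) * M) q'.1 := by
  have hT0 : 0 < T := by linarith
  have hTi : T⁻¹ ≤ 1 := inv_le_one_of_one_le₀ hT
  have hTi0 : 0 < T⁻¹ := inv_pos.mpr hT0
  have hl : 0 ≤ |(l : ℝ)| := abs_nonneg _
  have hn : ‖(T : ℂ)⁻¹‖ = T⁻¹ := by
    rw [norm_inv, Complex.norm_real, Real.norm_eq_abs, abs_of_pos hT0]
  intro q' hq'
  simp only [stepL, List.mem_cons, List.not_mem_nil, or_false] at hq'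
  rcases hq' with rfl | rfl | rfl
  · refine ⟨h.1.Aw.const_mul _, fun i hi x => ?_⟩
    simp only
    rw [iter_const_mul h.1.Aw, norm_mul, hn]
    have h1 := h.2 (i + 1) (by omega) x
    rw [Function.iterate_succ_apply] at h1
    calc T⁻¹ * ‖Aw^[i] (Aw q.1) x‖ ≤ T⁻¹ * (M * T ^ (i + 1)) := by gcongr
      _ = M * T ^ i := by rw [pow_succ]; field_simp
      _ ≤ (1 + |(l : ℝ)|) * M * T ^ i := by
        have : 0 ≤ M * T ^ i := by positivity
        nlinarith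
  · refine ⟨(h.1.const_mul ((l : ℂ) * I)).const_mul _, fun i hi x => ?_⟩
    simp only
    rw [iter_const_mul (h.1.const_mul ((l : ℂ) * I)), norm_mul, hn, iter_const_mul h.1]
    have e2 : ‖(l : ℂ) * I * Aw^[i] q.1 x‖ = |(l : ℝ)| * ‖Aw^[i] q.1 x‖ := by
      rw [norm_mul, norm_mul, Complex.norm_I, mul_one]
      congr 1
      rw [← Complex.ofReal_intCast, Complex.norm_real, Real.norm_eq_abs]
    rw [e2]
    have h1 := h.2 i (by omega) x
    calc T⁻¹ * (|(l : ℝ)| * ‖Aw^[i] q.1 x‖) ≤ 1 * (|(l : ℝ)| * (M * T ^ i)) := by gcongr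
      _ ≤ (1 + |(l : ℝ)|) * M * T ^ i := by
        have : 0 ≤ M * T ^ i := by positivity
        nlinarith
  · refine ⟨h.1.const_mul _, fun i hi x => ?_⟩
    simp only
    rw [iter_const_mul h.1, norm_mul, hn]
    have h1 := h.2 i (by omega) x
    calc T⁻¹ * ‖Aw^[i] q.1 x‖ ≤ 1 * (M * T ^ i) := by gcongr
      _ ≤ (1 + |(l : ℝ)|) * M * T ^ i := by
        have : 0 ≤ M * T ^ i := by positivity
        nlinarith

lemma Gd_of_Cls {a b K T : ℝ} (ha : 0 < a) (hab : a ≤ b) (hK : 0 ≤ K) (hT : 1 ≤ T) {om : ℝ → ℂ}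
    (h : Cls a b K T om) : Gd a b T 2 ((1 + 6 * b + 4 * b ^ 2) * K) om := by
  have hb : 0 < b := by linarith
  have hsw : SW a b om := ⟨h.cd, h.supp⟩
  refine ⟨hsw, fun i hi x => ?_⟩
  have h0 := h.bd 0 (by norm_num) x
  have h1 := h.bd 1 (by norm_num) x
  have h2 := h.bd 2 (by norm_num) x
  simp only [iteratedDeriv_zero, pow_zero, mul_one] at h0
  rw [iteratedDeriv_one, pow_one] at h1
  rw [iteratedDeriv_succ, iteratedDeriv_one] at h2
  have hTT : T ≤ T ^ 2 := by nlinarith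
  have hx : x < a ∨ b < x ∨ (0 < x ∧ x ≤ b) := by
    rcases lt_or_ge x a with h | h
    · exact Or.inl h
    · rcases lt_or_ge b x with h' | h'
      · exact Or.inr (Or.inl h')
      · exact Or.inr (Or.inr ⟨by linarith, h'⟩)
  have hM : 0 ≤ (1 + 6 * b + 4 * b ^ 2) * K := by positivity
  by_cases hxx : x < a ∨ b < x
  · rw [(hsw.iter i).supp x hxx, norm_zero]
    positivity
  · have hx0 : 0 < x ∧ x ≤ b := by
      rcases hx with h' | h' | h'
      · exact absurd (Or.inl h') hxx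
      · exact absurd (Or.inr h') hxx
      · exact h'
    obtain ⟨hx1, hx2⟩ := hx0
    have hnx : ‖(x : ℂ)‖ = x := by rw [Complex.norm_real, Real.norm_eq_abs, abs_of_pos hx1]
    have hA1 : Aw om x = 2 * (x : ℂ) * deriv om x := rfl
    interval_cases i
    · simp only [Function.iterate_zero, id_eq, pow_zero, mul_one]
      nlinarith
    · simp only [Function.iterate_one, pow_one]
      rw [hA1, norm_mul, norm_mul, hnx]
      have : ‖(2 : ℂ)‖ = 2 := by simp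
      rw [this]
      calc 2 * x * ‖deriv om x‖ ≤ 2 * b * (K * T) := by gcongr
        _ ≤ (1 + 6 * b + 4 * b ^ 2) * K * T := by
          have : 0 ≤ K * T := by positivity
          nlinarith [mul_nonneg this hb.le, mul_nonneg this (sq_nonneg b)]
    · have e2 : Aw^[2] om x = 4 * (x : ℂ) * deriv om x + 4 * (x : ℂ) ^ 2 * deriv (deriv om) x := by
        have hd : HasDerivAt (Aw om) (2 * deriv om x + 2 * (x : ℂ) * deriv (deriv om) x) x := by
          have h3 : HasDerivAt (fun y : ℝ => 2 * (y : ℂ)) 2 x := by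
            simpa using (Complex.ofRealCLM.hasDerivAt (x := x)).const_mul (2 : ℂ)
          have h4 : HasDerivAt (deriv om) (deriv (deriv om) x) x :=
            (hsw.contDiff_deriv.differentiable (by simp) x).hasDerivAt
          exact h3.mul h4
        have : Aw^[2] om x = 2 * (x : ℂ) * deriv (Aw om) x := rfl
        rw [this, hd.deriv]
        ring
      rw [e2]
      calc ‖4 * (x : ℂ) * deriv om x + 4 * (x : ℂ) ^ 2 * deriv (deriv om) x‖
          ≤ 4 * x * ‖deriv om x‖ + 4 * x ^ 2 * ‖deriv (deriv om) x‖ := by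
            refine (norm_add_le _ _).trans (le_of_eq ?_)
            rw [norm_mul, norm_mul, norm_mul, norm_mul, norm_pow, hnx]
            simp
        _ ≤ 4 * b * (K * T) + 4 * b ^ 2 * (K * T ^ 2) := by gcongr
        _ ≤ (1 + 6 * b + 4 * b ^ 2) * K * T ^ 2 := by
          have h5 : K * T ≤ K * T ^ 2 := by gcongr
          have h6 : 0 ≤ K * T ^ 2 := by positivity
          nlinarith [mul_le_mul_of_nonneg_left h5 hb.le, mul_nonneg h6 hb.le]

lemma mom_step {a b T : ℝ} (ha : 0 < a) {q : (ℝ → ℂ) × (ℂ → ℂ)} (h : SW a b q.1)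
    (h0 : mom q.1 = 0) (l : ℤ) (c : ℂ) : ∀ q' ∈ stepL T l c q, mom q'.1 = 0 := by
  intro q' hq'
  simp only [stepL, List.mem_cons, List.not_mem_nil, or_false] at hq'
  rcases hq' with rfl | rfl | rfl
  · simp only [mom_const_mul, mom_Aw ha h, h0, mul_zero]
  · simp only [mom_const_mul, h0, mul_zero]
  · simp only [mom_const_mul, h0, mul_zero]

lemma stepL_snd {T : ℝ} {l : ℤ} {c : ℂ} {q q' : (ℝ → ℂ) × (ℂ → ℂ)} (h : q' ∈ stepL T l c q) :
    q'.2 ∈ stepP c q.2 := by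
  simp only [stepL, List.mem_cons, List.not_mem_nil, or_false] at h
  rcases h with rfl | rfl | rfl <;> simp [stepP]

lemma SP_stepP {R : ℝ} {ψ ψ' : ℂ → ℂ} {c : ℂ} (h : SP R ψ) (h' : ψ' ∈ stepP c ψ) : SP R ψ' := by
  simp only [stepP, List.mem_cons, List.not_mem_nil, or_false] at h'
  rcases h' with rfl | rfl | rfl
  · exact h.Rm c
  · exact h.Im' c
  · exact h.Dm c

lemma SP_PsiL {R : ℝ} {ψ ψ' : ℂ → ℂ} (h : SP R ψ) (h' : ψ' ∈ PsiL ψ) : SP R ψ' := by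
  simp only [PsiL, List.mem_append, List.mem_flatMap] at h'
  rcases h' with (h' | h') | ⟨χ, hχ, h'⟩
  · exact SP_stepP h h'
  · exact SP_stepP h h'
  · exact SP_stepP (SP_stepP h hχ) h'

/-- the lists for `F1`, `F2`, `F12`. -/
def L1 (T : ℝ) (l : ℤ) (om : ℝ → ℂ) (φ0 : ℂ → ℂ) : List ((ℝ → ℂ) × (ℂ → ℂ)) :=
  stepL T l 1 (om, φ0)

def L2 (T : ℝ) (l : ℤ) (om : ℝ → ℂ) (φ0 : ℂ → ℂ) : List ((ℝ → ℂ) × (ℂ → ℂ)) :=
  stepL T l I (om, φ0)

def L12 (T : ℝ) (l : ℤ) (om : ℝ → ℂ) (φ0 : ℂ → ℂ) : List ((ℝ → ℂ) × (ℂ → ℂ)) :=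
  (stepL T l 1 (om, φ0)).flatMap (stepL T l I)

lemma length_L1 (T : ℝ) (l : ℤ) (om : ℝ → ℂ) (φ0 : ℂ → ℂ) : (L1 T l om φ0).length = 3 := rfl
lemma length_L2 (T : ℝ) (l : ℤ) (om : ℝ → ℂ) (φ0 : ℂ → ℂ) : (L2 T l om φ0).length = 3 := rfl
lemma length_L12 (T : ℝ) (l : ℤ) (om : ℝ → ℂ) (φ0 : ℂ → ℂ) : (L12 T l om φ0).length = 9 := rfl

/-- the derivatives of the test function `prodF (Uf om l B) (φ0(T ·))`. -/
theorem orb_Uf {a b R T B : ℝ} (ha : 0 < a) (hT : 0 < T) (hB : 0 < B) (l : ℤ) {om : ℝ → ℂ}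
    {φ0 : ℂ → ℂ} (hom : SW a b om) (hφ : SP R φ0) :
    OrbDeriv (prodF (Uf om l B) (fun p => φ0 ((T : ℂ) * p)))
      (sumL l B T (L1 T l om φ0)) (sumL l B T (L2 T l om φ0)) (sumL l B T (L12 T l om φ0)) := by
  have hU : SU (Real.sqrt (a * B)) (Real.sqrt (b * B)) (Uf om l B) := by
    rw [Uf_eq_Wf]; exact hom.SU hB ha 0 l
  have hP : SP (R * T⁻¹) (fun p => φ0 ((T : ℂ) * p)) := by
    have := hφ.scp (inv_pos.mpr hT) 0
    rw [scp_inv hT] at this
    simpa using this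
  have key := orbDeriv_prodF (Real.sqrt_pos.mpr (by positivity)) hU hP
  have hd : Differentiable ℝ φ0 := hφ.cd.differentiable (by simp)
  have e1 : D1 1 (Uf om l B) (fun p => φ0 ((T : ℂ) * p)) = sumL l B T (L1 T l om φ0) := by
    funext u
    exact D1_Uf ha hT hB l 1 (q := (om, φ0)) hom hd u
  have e2 : D1 I (Uf om l B) (fun p => φ0 ((T : ℂ) * p)) = sumL l B T (L2 T l om φ0) := by
    funext u
    exact D1_Uf ha hT hB l I (q := (om, φ0)) hom hd u
  -- the mixed derivative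
  have e0 : (fun p => φ0 ((T : ℂ) * p)) = scp T⁻¹ 0 φ0 := by
    rw [scp_inv hT]; simp
  have hs : (T⁻¹ : ℝ) ≠ 0 := (inv_pos.mpr hT).ne'
  have e3 : D12 1 I (Uf om l B) (fun p => φ0 ((T : ℂ) * p)) = sumL l B T (L12 T l om φ0) := by
    funext u
    have hgen : ∀ q ∈ stepL T l 1 (om, φ0), D1 I (Uf q.1 l B) (fun p => q.2 ((T : ℂ) * p)) u =
        sumL l B T (stepL T l I q) u := by
      intro q hq
      refine D1_Uf (a := a) (b := b) ha hT hB l I (q := q) ?_ ?_ u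
      · simp only [stepL, List.mem_cons, List.not_mem_nil, or_false] at hq
        rcases hq with rfl | rfl | rfl
        · exact hom.Aw.const_mul _
        · exact (hom.const_mul _).const_mul _
        · exact hom.const_mul _
      · exact (SP_stepP hφ (stepL_snd hq)).cd.differentiable (by simp)
    have hscal : ∀ (c' : ℂ) (om' : ℝ → ℂ) (φ : ℂ → ℂ), SW a b om' → Differentiable ℝ φ →
        D1 I (Uf om' l B) (fun p => c' * φ p) u = D1 I (Uf (fun x => c' * om' x) l B) φ u := by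
      intro c' om' φ h1 h2
      have hc : Uf (fun x => c' * om' x) l B = fun z => c' * Uf om' l B z := by
        funext z; simp only [Uf]; ring
      have hR : Rm I (fun p => c' * φ p) = fun p => c' * Rm I φ p := by
        funext p; simp only [Rm]; ring
      have hI : Im' I (fun p => c' * φ p) = fun p => c' * Im' I φ p := by
        funext p; simp only [Im']; ring
      have hD : Dm I (fun p => c' * φ p) = fun p => c' * Dm I φ p := by
        funext p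
        have := (h2 p).hasFDerivAt.const_mul c'
        simp only [Dm, this.fderiv, _root_.smul_apply, smul_eq_mul]
      have hU' : Differentiable ℝ (Uf om' l B) := by
        rw [Uf_eq_Wf]
        exact (h1.SU hB ha 0 l).cd.differentiable (by simp)
      have hDr : DrU (fun z => c' * Uf om' l B z) = fun z => c' * DrU (Uf om' l B) z := by
        funext z
        have := (hU' z).hasFDerivAt.const_mul c'
        simp only [DrU, this.fderiv, _root_.smul_apply, smul_eq_mul]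
      have hDt : DtU (fun z => c' * Uf om' l B z) = fun z => c' * DtU (Uf om' l B) z := by
        funext z
        have := (hU' z).hasFDerivAt.const_mul c'
        simp only [DtU, this.fderiv, _root_.smul_apply, smul_eq_mul]
      rw [hc]
      simp only [D1, hR, hI, hD, hDr, hDt, prodF]
      ring
    unfold D12
    have hRd : Differentiable ℝ (fun p => Rm 1 φ0 ((T : ℂ) * p)) :=
      ((hφ.Rm 1).cd.differentiable (by simp)).comp (by fun_prop)
    have hId : Differentiable ℝ (fun p => Im' 1 φ0 ((T : ℂ) * p)) :=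
      ((hφ.Im' 1).cd.differentiable (by simp)).comp (by fun_prop)
    have hDd : Differentiable ℝ (fun p => Dm 1 φ0 ((T : ℂ) * p)) :=
      ((hφ.Dm 1).cd.differentiable (by simp)).comp (by fun_prop)
    rw [e0, Rm_scp hs, Im'_scp hs, Dm_scp hs _ _ hd]
    simp only [scp_inv hT, zero_add, pow_one]
    rw [Uf_eq_Wf, DrU_Wf hB ha hom, DtU_Wf hB ha hom, rw'_zero]
    simp only [← Uf_eq_Wf]
    rw [hscal _ _ _ hom.Aw hRd, hscal _ _ _ (hom.const_mul _) hId, hscal _ _ _ hom hDd]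
    have g1 := hgen (fun x => (T : ℂ)⁻¹ * Aw om x, Rm 1 φ0) (by simp [stepL])
    have g2 := hgen (fun x => (T : ℂ)⁻¹ * (((l : ℂ) * I) * om x), Im' 1 φ0) (by simp [stepL])
    have g3 := hgen (fun x => (T : ℂ)⁻¹ * om x, Dm 1 φ0) (by simp [stepL])
    simp only at g1 g2 g3
    rw [g1, g2, g3]
    simp only [sumL, L12, stepL, List.flatMap_cons, List.flatMap_nil, List.append_nil,
      List.map_append, List.sum_append]
    ring
  rw [e1, e2, e3] at key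
  exact key

/-- **Uniform properties** of all the pairs in the lists. -/
theorem lists_props (a b : ℝ) (l : ℤ) (ha : 0 < a) (hab : a ≤ b) {R : ℝ} {φ0 : ℂ → ℂ}
    (hφ : SP R φ0) : ∃ C, 0 ≤ C ∧ ∀ (K T : ℝ) (om : ℝ → ℂ), Cls a b K T om → 0 ≤ K → 1 ≤ T →
      ∀ q ∈ L1 T l om φ0 ++ L2 T l om φ0 ++ L12 T l om φ0,
        SW a b q.1 ∧ q.2 ∈ PsiL φ0 ∧ SP R q.2 ∧ (∀ x, ‖q.1 x‖ ≤ C * K) ∧
          (mom om = 0 → mom q.1 = 0) := by
  refine ⟨(1 + |(l : ℝ)|) * ((1 + |(l : ℝ)|) * (1 + 6 * b + 4 * b ^ 2)), by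
    have : 0 < b := by linarith
    positivity, ?_⟩
  intro K T om h hK hT q hq
  have hb : 0 < b := by linarith
  have hsw : SW a b om := ⟨h.cd, h.supp⟩
  have hG := Gd_of_Cls ha hab hK hT h
  set M := (1 + 6 * b + 4 * b ^ 2) * K with hM
  have hM0 : 0 ≤ M := by positivity
  have hM1 : 0 ≤ (1 + |(l : ℝ)|) * M := by positivity
  have hlow : Gd a b T 1 M om := ⟨hG.1, fun i hi x => hG.2 i (by omega) x⟩
  have hfin : ∀ q : (ℝ → ℂ) × (ℂ → ℂ), Gd a b T 0 ((1 + |(l : ℝ)|) * M) q.1 → ∀ x,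
      ‖q.1 x‖ ≤ (1 + |(l : ℝ)|) * ((1 + |(l : ℝ)|) * (1 + 6 * b + 4 * b ^ 2)) * K := by
    intro q hq x
    have h1 := hq.2 0 le_rfl x
    simp only [Function.iterate_zero, id_eq, pow_zero, mul_one] at h1
    refine h1.trans ?_
    have h2 : 0 ≤ |(l : ℝ)| := abs_nonneg _
    have e : (1 + |(l : ℝ)|) * ((1 + |(l : ℝ)|) * (1 + 6 * b + 4 * b ^ 2)) * K
        = (1 + |(l : ℝ)|) * ((1 + |(l : ℝ)|) * M) := by rw [hM]; ring
    rw [e]
    nlinarith [mul_nonneg h2 hM1]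
  have hfin2 : ∀ q : (ℝ → ℂ) × (ℂ → ℂ),
      Gd a b T 0 ((1 + |(l : ℝ)|) * ((1 + |(l : ℝ)|) * M)) q.1 → ∀ x,
      ‖q.1 x‖ ≤ (1 + |(l : ℝ)|) * ((1 + |(l : ℝ)|) * (1 + 6 * b + 4 * b ^ 2)) * K := by
    intro q hq x
    have h1 := hq.2 0 le_rfl x
    simp only [Function.iterate_zero, id_eq, pow_zero, mul_one] at h1
    refine h1.trans (le_of_eq ?_)
    rw [hM]; ring
  have h0 : Gd a b T (0 + 1) M om := by simpa using hlow
  rw [List.mem_append, List.mem_append] at hq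
  rcases hq with (hq | hq) | hq
  · have hg := Gd.step (q := (om, φ0)) hT hM0 h0 l 1 q hq
    have hm : q.2 ∈ stepP 1 φ0 := stepL_snd hq
    refine ⟨hg.1, by simp only [PsiL, List.mem_append]; exact Or.inl (Or.inl hm),
      SP_stepP hφ hm, hfin q hg, fun hmo => mom_step ha (q := (om, φ0)) hsw hmo l 1 q hq⟩
  · have hg := Gd.step (q := (om, φ0)) hT hM0 h0 l I q hq
    have hm : q.2 ∈ stepP I φ0 := stepL_snd hq
    refine ⟨hg.1, by simp only [PsiL, List.mem_append]; exact Or.inl (Or.inr hm),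
      SP_stepP hφ hm, hfin q hg, fun hmo => mom_step ha (q := (om, φ0)) hsw hmo l I q hq⟩
  · simp only [L12, List.mem_flatMap] at hq
    obtain ⟨q1, hq1, hq⟩ := hq
    have hg1 := Gd.step (q := (om, φ0)) (n := 1) hT hM0 (by simpa using hG) l 1 q1 hq1
    have hg := Gd.step (q := q1) (n := 0) hT hM1 (by simpa using hg1) l I q hq
    have hm1 : q1.2 ∈ stepP 1 φ0 := stepL_snd hq1
    have hm : q.2 ∈ stepP I q1.2 := stepL_snd hq
    refine ⟨hg.1, ?_, SP_stepP (SP_stepP hφ hm1) hm, hfin2 q hg, fun hmo =>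
      mom_step ha (q := q1) hg1.1 (mom_step ha (q := (om, φ0)) hsw hmo l 1 q1 hq1) l I q hq⟩
    simp only [PsiL, List.mem_append, List.mem_flatMap]
    exact Or.inr ⟨q1.2, hm1, hm⟩

end Crest.Agent.R012.TestFn286
end
end

-- ▼ part R012/K1B_384
section

/-!
# Row 12, (ML): K1 from the slice inequality (`SliceP`), the norm bound (`NB`), and the orbit
derivatives (`OrbP`).
-/

set_option autoImplicit false

noncomputable section

open MeasureTheory Set Filter Complex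
open scoped ENNReal Topology ContDiff

namespace Crest.Agent.R012.ML384

open Crest.Agent.R012 Crest.Agent.R012.Parseval499 Crest.Agent.R012.StripCo813
open Crest.Agent.R012.Four813 Crest.Agent.R012.K695 Crest.Agent.R012.TestFn286
open Crest.Agent.R012.Trace384

/-- supports and sup norm only. -/
structure SB (a b K : ℝ) (om : ℝ → ℂ) : Prop where
  cont : Continuous om
  supp : ∀ x, x < a ∨ b < x → om x = 0
  bd : ∀ x, ‖om x‖ ≤ K

/-- **(N)**: the norm bound for one product function. -/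
def NB (w : ℂ → ℝ≥0∞) : Prop :=
  ∀ (a b : ℝ) (l : ℤ) (τ : ℝ), 0 < a → a ≤ b → 0 < τ → ∃ C : ℝ, 0 ≤ C ∧
    ∀ (K L T : ℝ) (om : ℝ → ℂ) (B : ℝ) (φ : ℂ → ℂ), 0 ≤ K → 0 ≤ L → 1 ≤ T → 0 < B →
      SB a b K om → Continuous φ → (∀ p, 1 / (4 * T) < ‖p‖ → φ p = 0) → (∀ p, ‖φ p‖ ≤ L) →
      (l ≠ 0 ∨ mom om = 0) →
      NN w (prodF (Uf om l B) φ) ≤
        ENNReal.ofReal (C * (K ^ 2 * L ^ 2 * B ^ 2 * (T ^ 2)⁻¹ * (1 + B) ^ τ))

/-- the slice + Bessel inequality. -/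
def SliceP (w : ℂ → ℝ≥0∞) : Prop :=
  ∃ c : ℝ, 0 ≤ c ∧ ∀ (a b r T : ℝ) (U φ0 : ℂ → ℂ) (F1 F2 F12 : Vec → ℂ) (S : Finset Eis),
    0 < a → SU a b U → SP (1 / 4) φ0 → 1 ≤ T → 0 < r →
    OrbDeriv (prodF U (fun p => φ0 (T * p))) F1 F2 F12 →
    BS F1 → BS F2 → BS F12 →
    BX r T φ0 S (fun u e => Sg (fun _ => 1) U u e) ≤
      ENNReal.ofReal (c * ((1 + r ^ 4) * (r ^ 4)⁻¹)) *
        (NN w (prodF U (fun p => φ0 (T * p))) + NN w F1 + NN w F2 + NN w F12)

/-- the list of product functions. -/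
def Tms (l : ℤ) (B T : ℝ) (L : List ((ℝ → ℂ) × (ℂ → ℂ))) : List (Vec → ℂ) :=
  L.map fun q => prodF (Uf q.1 l B) (fun p => q.2 (T * p))

/-- the orbit derivatives of the product functions (helper286). -/
def OrbP : Prop :=
  ∀ (a b : ℝ) (l : ℤ) (φ0 : ℂ → ℂ), 0 < a → a ≤ b → SP (1 / 4) φ0 →
    ∃ (Ψ : List (ℂ → ℂ)) (C : ℝ), 0 ≤ C ∧ (∀ ψ ∈ Ψ, SP (1 / 4) ψ) ∧
      ∀ (K T : ℝ) (om : ℝ → ℂ), Cls a b K T om → 0 ≤ K → 1 ≤ T →
        ∃ L1 L2 L12 : List ((ℝ → ℂ) × (ℂ → ℂ)),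
          (∀ q ∈ L1 ++ L2 ++ L12, SB a b (C * K) q.1 ∧ q.2 ∈ Ψ ∧
            (mom om = 0 → mom q.1 = 0)) ∧
          L1.length ≤ 3 ∧ L2.length ≤ 3 ∧ L12.length ≤ 9 ∧
          ∀ B : ℝ, 0 < B → OrbDeriv (prodF (Uf om l B) (fun p => φ0 (T * p)))
            (lsum (Tms l B T L1)) (lsum (Tms l B T L2)) (lsum (Tms l B T L12))

/-! ### product functions are `BS` -/

lemma bdd_of_cont {φ : ℂ → ℂ} {R : ℝ} (hc : Continuous φ) (hs : ∀ z, R < ‖z‖ → φ z = 0) :
    ∃ C : ℝ, 0 ≤ C ∧ ∀ z, ‖φ z‖ ≤ C := by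
  have hcs : HasCompactSupport φ := by
    apply HasCompactSupport.of_support_subset_isCompact (isCompact_closedBall (0 : ℂ) R)
    intro z hz
    rw [Function.mem_support] at hz
    rw [mem_closedBall_zero_iff]
    by_contra h
    exact hz (hs z (not_le.mp h))
  obtain ⟨C, hC⟩ := hcs.exists_bound_of_continuous hc
  exact ⟨C, (norm_nonneg _).trans (hC 0), hC⟩

lemma BS_prodF {a b R : ℝ} (ha : 0 < a) {U φ : ℂ → ℂ} (hU : Continuous U)
    (hs : ∀ z, ‖z‖ < a ∨ b < ‖z‖ → U z = 0) (hφ : Continuous φ)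
    (hφs : ∀ z, R < ‖z‖ → φ z = 0) : BS (prodF U φ) where
  meas := (continuous_prodF ha hU hs hφ).measurable
  bdd := by
    obtain ⟨C, hC0, hC⟩ := bdd_of_cont hU (fun z hz => hs z (Or.inr hz))
    obtain ⟨D, hD0, hD⟩ := bdd_of_cont hφ hφs
    refine ⟨C * D, fun u => ?_⟩
    unfold prodF
    rw [norm_mul]
    exact mul_le_mul (hC _) (hD _) (norm_nonneg _) hC0
  supp := by
    refine ⟨(|b| + |R| * |b|) ^ 2 + (|b| + |R| * |b|) ^ 2, fun u hu => ?_⟩
    by_contra h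
    have h1 : U u.1 ≠ 0 := fun h0 => h (by simp [prodF, h0])
    have h2 : φ (u.2 / u.1) ≠ 0 := fun h0 => h (by simp [prodF, h0])
    have h3 : ‖u.1‖ ≤ b := by
      by_contra h3; exact h1 (hs _ (Or.inr (not_le.mp h3)))
    have h4 : a ≤ ‖u.1‖ := by
      by_contra h3; exact h1 (hs _ (Or.inl (not_le.mp h3)))
    have h5 : ‖u.2 / u.1‖ ≤ R := by
      by_contra h3; exact h2 (hφs _ (not_le.mp h3))
    have h6 : 0 < ‖u.1‖ := lt_of_lt_of_le ha h4
    rw [norm_div, div_le_iff₀ h6] at h5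
    have h7 : ‖u.2‖ ≤ |R| * |b| := by
      refine h5.trans ?_
      have : R ≤ |R| := le_abs_self R
      have : b ≤ |b| := le_abs_self b
      have h8 : ‖u.1‖ ≤ |b| := by linarith
      calc R * ‖u.1‖ ≤ |R| * ‖u.1‖ := by gcongr
        _ ≤ |R| * |b| := by gcongr
    have h8 : ‖u.1‖ ≤ |b| := h3.trans (le_abs_self b)
    have h9 : n2 u ≤ (|b| + |R| * |b|) ^ 2 + (|b| + |R| * |b|) ^ 2 := by
      unfold n2
      have : 0 ≤ |R| * |b| := by positivity
      have hb : 0 ≤ |b| := abs_nonneg b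
      gcongr
      · linarith
      · linarith
    linarith

lemma continuous_Uf {a b K : ℝ} (ha : 0 < a) {om : ℝ → ℂ} (h : SB a b K om) (l : ℤ) (B : ℝ) : Continuous (Uf om l B) := by
  rw [continuous_iff_continuousAt]
  intro z
  by_cases hz : z = 0
  · have hev : Uf om l B =ᶠ[𝓝 z] fun _ => 0 := by
      have hmem : {y : ℂ | ‖y‖ ^ 2 / B < a} ∈ 𝓝 z :=
        (isOpen_lt (by fun_prop) continuous_const).mem_nhds (by simp [hz, ha])
      filter_upwards [hmem] with y hy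
      unfold Uf
      rw [h.supp _ (Or.inl hy), zero_mul]
    exact continuousAt_const.congr hev.symm
  · unfold Uf
    have h1 : ContinuousAt (fun z : ℂ => om (‖z‖ ^ 2 / B)) z :=
      h.cont.continuousAt.comp (by fun_prop)
    have h0 : (‖z‖ : ℂ) ≠ 0 := by simpa using hz
    have h2 : ContinuousAt (fun z : ℂ => z / (‖z‖ : ℂ)) z :=
      continuousAt_id.div (by fun_prop) h0
    have h3 : ContinuousAt (fun z : ℂ => (z / (‖z‖ : ℂ)) ^ l) z :=
      h2.zpow₀ l (Or.inl (div_ne_zero hz h0))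
    exact h1.mul h3

lemma Uf_supp {a b K : ℝ} {om : ℝ → ℂ} (h : SB a b K om) (l : ℤ) {B : ℝ}
    (hB : 0 < B) (z : ℂ) (hz : ‖z‖ < Real.sqrt (a * B) ∨ Real.sqrt (b * B) < ‖z‖) :
    Uf om l B z = 0 := by
  unfold Uf
  rw [h.supp, zero_mul]
  rcases hz with hz | hz
  · left
    rw [Real.lt_sqrt (norm_nonneg z)] at hz
    rw [div_lt_iff₀ hB]; exact hz
  · right
    rw [Real.sqrt_lt' (lt_of_le_of_lt (Real.sqrt_nonneg _) hz)] at hz
    rw [lt_div_iff₀ hB]; exact hz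

lemma SP_dil_supp {φ : ℂ → ℂ} (h : SP (1 / 4) φ) {T : ℝ} (hT : 1 ≤ T) (p : ℂ)
    (hp : 1 / (4 * T) < ‖p‖) : φ (T * p) = 0 := by
  apply h.supp
  rw [norm_mul, Complex.norm_real, Real.norm_of_nonneg (by linarith)]
  have hT0 : 0 < T := by linarith
  rw [div_lt_iff₀ (by positivity)] at hp
  linarith

lemma SP_dil_cont {φ : ℂ → ℂ} {R : ℝ} (h : SP R φ) (T : ℝ) :
    Continuous (fun p : ℂ => φ (T * p)) :=
  h.cd.continuous.comp (by fun_prop)

lemma exists_common_bound {Ψ : List (ℂ → ℂ)} (hΨ : ∀ ψ ∈ Ψ, SP (1 / 4) ψ) :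
    ∃ L : ℝ, 0 ≤ L ∧ ∀ ψ ∈ Ψ, ∀ z, ‖ψ z‖ ≤ L := by
  induction Ψ with
  | nil => exact ⟨0, le_rfl, by simp⟩
  | cons ψ Ψ ih =>
    obtain ⟨L, hL0, hL⟩ := ih fun χ hχ => hΨ χ (List.mem_cons_of_mem _ hχ)
    have hψ := hΨ ψ (by simp)
    obtain ⟨M, hM0, hM⟩ := bdd_of_cont hψ.cd.continuous hψ.supp
    refine ⟨L + M, by positivity, fun χ hχ z => ?_⟩
    rcases List.mem_cons.mp hχ with h | h
    · rw [h]; linarith [hM z]
    · linarith [hL χ h z]

/-! ### the orbit derivatives -/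

lemma sumL_eq (l : ℤ) (B T : ℝ) (L : List ((ℝ → ℂ) × (ℂ → ℂ))) :
    sumL l B T L = lsum (Tms l B T L) := by
  funext u
  simp [sumL, lsum, Tms, List.map_map, Function.comp_def]

theorem orbP : OrbP := by
  intro a b l φ0 ha hab hφ
  obtain ⟨C, hC0, hC⟩ := lists_props a b l ha hab hφ
  refine ⟨PsiL φ0, C, hC0, fun ψ hψ => SP_PsiL hφ hψ, ?_⟩
  intro K T om hom hK hT
  have hT0 : 0 < T := by linarith
  refine ⟨L1 T l om φ0, L2 T l om φ0, L12 T l om φ0, ?_, (length_L1 T l om φ0).le,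
    (length_L2 T l om φ0).le, (length_L12 T l om φ0).le, ?_⟩
  · intro q hq
    obtain ⟨h1, h2, _, h4, h5⟩ := hC K T om hom hK hT q hq
    exact ⟨⟨h1.cd.continuous, h1.supp, h4⟩, h2, h5⟩
  · intro B hB
    rw [← sumL_eq, ← sumL_eq, ← sumL_eq]
    exact orb_Uf ha hT0 hB l ⟨hom.cd, hom.supp⟩ hφ

theorem SU_Uf {a b K T : ℝ} (l : ℤ) {om : ℝ → ℂ} {B : ℝ} (ha : 0 < a) (hB : 0 < B)
    (h : Cls a b K T om) : SU (Real.sqrt (a * B)) (Real.sqrt (b * B)) (Uf om l B) := by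
  rw [Uf_eq_Wf]
  have h' : TestFn286.SW a b om := ⟨h.cd, h.supp⟩
  exact h'.SU hB ha 0 l

/-- **K1 from the three inputs.** -/
theorem K1_of {w : ℂ → ℝ≥0∞} (hw : Measurable w) (hw0 : w 0 = 0) (hS : SliceP w) (hN : NB w)
    : K1_Prop := by
  intro a b l φ0 τ ha hab hφ hτ
  obtain ⟨c, hc0, hc⟩ := hS
  obtain ⟨C1, hC10, hC1⟩ := hN a b l τ ha hab hτ
  obtain ⟨Ψ, C2, hC20, hΨ, hO'⟩ := orbP a b l φ0 ha hab hφ
  obtain ⟨L, hL0, hL⟩ := exists_common_bound (Ψ := φ0 :: Ψ) (by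
    intro ψ hψ
    rcases List.mem_cons.mp hψ with h | h
    · rw [h]; exact hφ
    · exact hΨ ψ h)
  refine ⟨c * ((1 + 3 * 4 ^ 9) * (C1 * ((1 + C2) ^ 2 * L ^ 2))), by positivity, ?_⟩
  intro K T om B r S hom hK hT hB hr hcase
  obtain ⟨L1, L2, L12, hq, hl1, hl2, hl12, hD⟩ := hO' K T om hom hK hT
  have hD := hD B hB
  have hT0 : 0 < T := by linarith
  have haB : 0 < Real.sqrt (a * B) := Real.sqrt_pos.mpr (by positivity)
  set E : ℝ := C1 * (((1 + C2) * K) ^ 2 * L ^ 2 * B ^ 2 * (T ^ 2)⁻¹ * (1 + B) ^ τ) with hE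
  have hE0 : 0 ≤ E := by rw [hE]; positivity
  -- the undifferentiated function
  have hSW : SB a b ((1 + C2) * K) om := by
    refine ⟨hom.cd.continuous, hom.supp, fun x => ?_⟩
    have := hom.bd 0 (by norm_num) x
    simp only [iteratedDeriv_zero, pow_zero, mul_one] at this
    nlinarith [mul_nonneg hC20 hK]
  have hN0 : NN w (prodF (Uf om l B) (fun p => φ0 (T * p))) ≤ ENNReal.ofReal E :=
    hC1 _ L T om B _ (by positivity) hL0 hT hB hSW (SP_dil_cont hφ T)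
      (SP_dil_supp hφ hT) (fun p => hL φ0 (by simp) _) hcase
  -- the terms
  have key : ∀ Λ : List ((ℝ → ℂ) × (ℂ → ℂ)), (∀ q ∈ Λ, q ∈ L1 ++ L2 ++ L12) →
      (∀ F ∈ Tms l B T Λ, BS F) ∧ (∀ F ∈ Tms l B T Λ, NN w F ≤ ENNReal.ofReal E) := by
    intro Λ hΛ
    constructor
    · intro F hF
      obtain ⟨q, hqΛ, rfl⟩ := List.mem_map.mp hF
      obtain ⟨h1, h2, h3⟩ := hq q (hΛ q hqΛ)
      exact BS_prodF haB (continuous_Uf ha h1 l B) (Uf_supp h1 l hB)
        (SP_dil_cont (hΨ _ h2) T) (SP_dil_supp (hΨ _ h2) hT)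
    · intro F hF
      obtain ⟨q, hqΛ, rfl⟩ := List.mem_map.mp hF
      obtain ⟨h1, h2, h3⟩ := hq q (hΛ q hqΛ)
      refine hC1 _ L T q.1 B _ (by positivity) hL0 hT hB ?_ (SP_dil_cont (hΨ _ h2) T)
        (SP_dil_supp (hΨ _ h2) hT) (fun p => hL q.2 (List.mem_cons_of_mem _ h2) _) ?_
      · refine ⟨h1.cont, h1.supp, fun x => (h1.bd x).trans ?_⟩
        nlinarith
      · rcases hcase with h | h
        · exact Or.inl h
        · exact Or.inr (h3 h)
  have hlist : ∀ Λ : List ((ℝ → ℂ) × (ℂ → ℂ)), (∀ q ∈ Λ, q ∈ L1 ++ L2 ++ L12) →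
      Λ.length ≤ 9 → BS (lsum (Tms l B T Λ)) ∧
        NN w (lsum (Tms l B T Λ)) ≤ 4 ^ 9 * ENNReal.ofReal E := by
    intro Λ hΛ hlen
    obtain ⟨h1, h2⟩ := key Λ hΛ
    refine ⟨BS_lsum h1, (NN_lsum hw hw0 h1 h2).trans ?_⟩
    gcongr
    · norm_num
    · simpa [Tms] using hlen
  obtain ⟨b1, n1⟩ := hlist L1 (fun q h => by simp [h]) (by omega)
  obtain ⟨b2, n2⟩ := hlist L2 (fun q h => by simp [h]) (by omega)
  obtain ⟨b3, n3⟩ := hlist L12 (fun q h => by simp [h]) hl12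
  have main := hc _ _ r T (Uf om l B) φ0 _ _ _ S haB (SU_Uf l ha hB hom) hφ hT hr hD
    b1 b2 b3
  refine main.trans ?_
  have h4 : NN w (prodF (Uf om l B) (fun p => φ0 (T * p))) + NN w (lsum (Tms l B T L1)) +
      NN w (lsum (Tms l B T L2)) + NN w (lsum (Tms l B T L12)) ≤
      ENNReal.ofReal ((1 + 3 * 4 ^ 9) * E) := by
    have e1 : (4 : ℝ≥0∞) ^ 9 * ENNReal.ofReal E = ENNReal.ofReal (4 ^ 9 * E) := by
      rw [ENNReal.ofReal_mul (by norm_num : (0 : ℝ) ≤ 4 ^ 9), ENNReal.ofReal_pow (by norm_num)]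
      simp
    calc _ ≤ ENNReal.ofReal E + 4 ^ 9 * ENNReal.ofReal E + 4 ^ 9 * ENNReal.ofReal E
          + 4 ^ 9 * ENNReal.ofReal E := by gcongr
      _ = ENNReal.ofReal (E + 4 ^ 9 * E + 4 ^ 9 * E + 4 ^ 9 * E) := by
        rw [e1, ENNReal.ofReal_add (by positivity) (by positivity),
          ENNReal.ofReal_add (by positivity) (by positivity),
          ENNReal.ofReal_add (by positivity) (by positivity)]
      _ = ENNReal.ofReal ((1 + 3 * 4 ^ 9) * E) := by congr 1; ring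
  calc ENNReal.ofReal (c * ((1 + r ^ 4) * (r ^ 4)⁻¹)) * _
      ≤ ENNReal.ofReal (c * ((1 + r ^ 4) * (r ^ 4)⁻¹)) *
        ENNReal.ofReal ((1 + 3 * 4 ^ 9) * E) := by gcongr
    _ = ENNReal.ofReal ((c * ((1 + r ^ 4) * (r ^ 4)⁻¹)) * ((1 + 3 * 4 ^ 9) * E)) :=
        (ENNReal.ofReal_mul (by positivity)).symm
    _ = _ := by
        congr 1
        rw [hE]
        unfold RH
        ring

end Crest.Agent.R012.ML384
end
end

-- ▼ part R012/SliceP_384

/-!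
# Row 12, (MSL): the slice + Bessel inequality at level one
-/

set_option autoImplicit false

noncomputable section

open MeasureTheory Set Filter Complex
open scoped ENNReal Topology ContDiff

namespace Crest.Agent.R012.ML384

open Crest.Agent.R012 Crest.Agent.R012.Parseval499 Crest.Agent.R012.StripCo813
open Crest.Agent.R012.Four813 Crest.Agent.R012.K695 Crest.Agent.R012.TestFn286
open Crest.Agent.R012.Trace384 Crest.Agent.R012.Slice384 Crest.Agent.R012.StripIneq813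

lemma EE_eq_EC' (a : Eis × Eis → ℂ) (F : ℂ × ℂ → ℂ) (M : K695.Frm) :
    EE a F M = K695.EC a F M := by
  unfold EE rsum K695.EC
  refine tsum_congr fun r => ?_
  rw [← LocFin499.rowc_eq_rowv]; rfl

lemma BS.suppIn {F : Vec → ℂ} (hF : BS F) : ∃ ρ : ℝ, 0 ≤ ρ ∧ SuppIn ρ F := by
  obtain ⟨R, hR⟩ := hF.supp
  refine ⟨Real.sqrt (max R 0), Real.sqrt_nonneg _, fun u hu => hR u ?_⟩
  have h0 : 0 ≤ max R 0 := le_max_right _ _
  have h1 : max R 0 < ‖u‖ ^ 2 := by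
    rwa [Real.sqrt_lt' (lt_of_le_of_lt (Real.sqrt_nonneg _) hu)] at hu
  have h2 : ‖u‖ ^ 2 ≤ n2 u := by
    unfold n2
    rw [Prod.norm_def]
    rcases max_choice ‖u.1‖ ‖u.2‖ with h | h
    · rw [h]; nlinarith [norm_nonneg u.2]
    · rw [h]; nlinarith [norm_nonneg u.1]
  exact lt_of_le_of_lt (le_max_left _ _) (h1.trans_le h2)

lemma SuppIn.mono {ρ ρ' : ℝ} {F : Vec → ℂ} (h : SuppIn ρ F) (hρ : ρ ≤ ρ') : SuppIn ρ' F :=
  fun u hu => h u (lt_of_le_of_lt hρ hu)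

lemma strip_NN {w : ℂ → ℝ≥0∞} (hw : Measurable w)
    (hw1 : ∀ z : ℂ, 1 ≤ ‖z‖ → ‖z‖ ≤ 4 → 1 ≤ w z) {F : Vec → ℂ} (hF : Measurable F) {r : ℝ}
    (hr : 0 < r) :
    ∫⁻ M in strip r, ‖EC (bco ⊤) F M‖ₑ ^ 2 ≤ ENNReal.ofReal (1 + 313600 * r ^ 4) * NN w F :=
  strip_nu_w isLev_top ((measurable_EC hF).enorm.pow_const 2)
    (fun _ hg M => normsq_EC_act Sym645.syAPI (isCoef_bco Sym645.syAPI ⊤) F hg M) hw hw1 hr

lemma lint_add4' {α : Type*} [MeasurableSpace α] {μ : Measure α} {f0 f1 f2 f3 : α → ℝ≥0∞}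
    (m0 : Measurable f0) (m1 : Measurable f1) (m2 : Measurable f2) :
    ∫⁻ x, (f0 x + f1 x + f2 x + f3 x) ∂μ =
      ∫⁻ x, f0 x ∂μ + ∫⁻ x, f1 x ∂μ + ∫⁻ x, f2 x ∂μ + ∫⁻ x, f3 x ∂μ := by
  rw [lintegral_add_left (f := fun x => f0 x + f1 x + f2 x) ((m0.add m1).add m2),
    lintegral_add_left (f := fun x => f0 x + f1 x) (m0.add m1), lintegral_add_left m0]

lemma swap3' {f : Fr → ℝ≥0∞} (hf : Measurable f) {K : ℝ≥0∞} (hK : K ≠ ⊤) (A B P : Set ℂ) :
    ∫⁻ v in A, ∫⁻ e in B, K * ∫⁻ x in P, f (frame v e x 0) =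
      K * ∫⁻ v in A, ∫⁻ x in P, ∫⁻ e in B, f (frame v e x 0) := by
  rw [← lintegral_const_mul' _ _ hK]
  refine lintegral_congr fun v => ?_
  rw [lintegral_const_mul' _ _ hK]
  congr 1
  rw [lintegral_lintegral_swap]
  refine Measurable.aemeasurable (hf.comp ?_)
  unfold frame
  fun_prop

theorem sliceP {w : ℂ → ℝ≥0∞} (hw : Measurable w)
    (hw1 : ∀ z : ℂ, 1 ≤ ‖z‖ → ‖z‖ ≤ 4 → 1 ≤ w z) : SliceP w := by
  have hcov : 0 < covol 3 := covol_pos (by norm_num)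
  refine ⟨covol 3 * (4 * 313600), by positivity, ?_⟩
  intro a b r T U φ0 F1 F2 F12 S ha hU hφ hT hr hD b1 b2 b3
  have hT0 : 0 < T := by linarith
  set φ : ℂ → ℂ := fun p => φ0 (T * p) with hφdef
  have hφc : Continuous φ := SP_dil_cont hφ T
  have hφs : ∀ p, 1 / (4 * T) < ‖p‖ → φ p = 0 := SP_dil_supp hφ hT
  have b0 : BS (prodF U φ) := BS_prodF ha hU.cd.continuous hU.supp hφc hφs
  obtain ⟨ρ0, p0, s0⟩ := BS.suppIn b0
  obtain ⟨ρ1, p1, s1⟩ := BS.suppIn b1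
  obtain ⟨ρ2, p2, s2⟩ := BS.suppIn b2
  obtain ⟨ρ3, p3, s3⟩ := BS.suppIn b3
  have s0 := SuppIn.mono (ρ' := ρ0 + ρ1 + ρ2 + ρ3) s0 (by linarith)
  have s1 := SuppIn.mono (ρ' := ρ0 + ρ1 + ρ2 + ρ3) s1 (by linarith)
  have s2 := SuppIn.mono (ρ' := ρ0 + ρ1 + ρ2 + ρ3) s2 (by linarith)
  have s3 := SuppIn.mono (ρ' := ρ0 + ρ1 + ρ2 + ρ3) s3 (by linarith)
  have hsl := slice hr hD s0 s1 s2 s3 (bco ⊤)
  simp only [EE_eq_EC'] at hsl
  have hst : ∫⁻ M in strip r, (‖EC (bco ⊤) (prodF U φ) M‖ₑ ^ 2 + ‖EC (bco ⊤) F1 M‖ₑ ^ 2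
      + ‖EC (bco ⊤) F2 M‖ₑ ^ 2 + ‖EC (bco ⊤) F12 M‖ₑ ^ 2) ≤
      ENNReal.ofReal (1 + 313600 * r ^ 4) *
        (NN w (prodF U φ) + NN w F1 + NN w F2 + NN w F12) := by
    have m0 := ((measurable_EC (a := bco ⊤) b0.meas).enorm.pow_const 2)
    have m1 := ((measurable_EC (a := bco ⊤) b1.meas).enorm.pow_const 2)
    have m2 := ((measurable_EC (a := bco ⊤) b2.meas).enorm.pow_const 2)
    rw [lint_add4' m0 m1 m2, mul_add, mul_add, mul_add]
    exact add_le_add (add_le_add (add_le_add (strip_NN hw hw1 b0.meas hr)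
      (strip_NN hw hw1 b1.meas hr)) (strip_NN hw hw1 b2.meas hr)) (strip_NN hw hw1 b3.meas hr)
  -- Bessel
  obtain ⟨CU, _, hCU⟩ := bdd_of_cont hU.cd.continuous (fun z hz => hU.supp z (Or.inr hz))
  obtain ⟨Cφ, _, hCφ⟩ := bdd_of_cont hφc hφs
  have hNice : Nice U φ (max CU Cφ) (max b (1 / (4 * T))) := by
    refine ⟨hU.cd.continuous.measurable, hφc.measurable, fun z => (hCU z).trans (le_max_left _ _),
      fun z => (hCφ z).trans (le_max_right _ _), fun z hz => ?_, fun z hz => ?_, ?_⟩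
    · exact hU.supp z (Or.inr ((le_max_left _ _).trans_lt hz))
    · exact hφs z ((le_max_right _ _).trans_lt hz)
    · exact hU.supp 0 (Or.inl (by rw [norm_zero]; exact ha))
  have hsy : ∀ c d, IsPrim d → ‖sy c d‖ ≤ 1 := fun c d hd => by
    by_cases h : IsCoprime c d
    · exact (Sym645.syAPI.norm_one c d hd h).le
    · rw [(Sym645.syFacts.eq_zero c d hd).mpr h]; simp
  have hbes : ∀ v ∈ ann r (2 * r), ∀ e ∈ ann (1 / r) (2 / r),
      ∑ u ∈ S, ‖Sg (fun _ => 1) U u e‖ₑ ^ 2 * ENNReal.ofReal (wtB T φ0 u v e) ≤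
      ENNReal.ofReal (covol 3) * ∫⁻ x in par 3,
        ‖EC (bco ⊤) (prodF U φ) (frame v e x 0)‖ₑ ^ 2 := by
    intro v hv e he
    have hv0 : 0 < ‖v‖ := lt_of_lt_of_le hr hv.1
    have he0 : 0 < ‖e‖ := lt_of_lt_of_le (by positivity) he.1
    have h := special_bessel_lint Sym645.syFacts (ψ := fun _ => 1) (K := 1) (by simp) hsy hNice
      (norm_pos_iff.mp hv0) (norm_pos_iff.mp he0) S
    refine le_trans (le_of_eq ?_) (h.trans (le_of_eq ?_))
    · refine Finset.sum_congr rfl fun u _ => ?_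
      rw [ENNReal.ofReal_mul (by positivity), ENNReal.ofReal_pow (norm_nonneg _), ofReal_norm]
      rfl
    · congr 1
      refine lintegral_congr fun x => ?_
      rw [EK_eq_EC, coefK_ker_one Sym645.syFacts]
      rfl
  have hf : Measurable fun M : Fr => ‖EC (bco ⊤) (prodF U φ) M‖ₑ ^ 2 :=
    (measurable_EC (a := bco ⊤) b0.meas).enorm.pow_const 2
  have hr4 : ENNReal.ofReal (r ^ 4) ≠ 0 := by
    rw [Ne, ENNReal.ofReal_eq_zero, not_le]; positivity
  have hsl2 : ∫⁻ v in ann r (2 * r), ∫⁻ x in par 3, ∫⁻ e in ann (1 / r) (2 / r),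
      ‖EC (bco ⊤) (prodF U φ) (frame v e x 0)‖ₑ ^ 2 ≤
      ENNReal.ofReal ((r ^ 4)⁻¹) * (4 * (ENNReal.ofReal (1 + 313600 * r ^ 4) *
        (NN w (prodF U φ) + NN w F1 + NN w F2 + NN w F12))) := by
    have h := hsl.trans (mul_le_mul_right hst 4)
    calc _ = ENNReal.ofReal ((r ^ 4)⁻¹) * (ENNReal.ofReal (r ^ 4) * _) := by
          rw [← mul_assoc, ← ENNReal.ofReal_mul (by positivity),
            inv_mul_cancel₀ (by positivity), ENNReal.ofReal_one, one_mul]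
      _ ≤ _ := by gcongr
  calc BX r T φ0 S (fun u e => Sg (fun _ => 1) U u e)
      ≤ ∫⁻ v in ann r (2 * r), ∫⁻ e in ann (1 / r) (2 / r),
          ENNReal.ofReal (covol 3) * ∫⁻ x in par 3,
        ‖EC (bco ⊤) (prodF U φ) (frame v e x 0)‖ₑ ^ 2 := by
        unfold BX
        refine setLIntegral_mono' (measurableSet_ann _ _) fun v hv => ?_
        exact setLIntegral_mono' (measurableSet_ann _ _) fun e he => hbes v hv e he
    _ = ENNReal.ofReal (covol 3) * ∫⁻ v in ann r (2 * r), ∫⁻ x in par 3,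
          ∫⁻ e in ann (1 / r) (2 / r),
        ‖EC (bco ⊤) (prodF U φ) (frame v e x 0)‖ₑ ^ 2 :=
        swap3' hf ENNReal.ofReal_ne_top _ _ _
    _ ≤ ENNReal.ofReal (covol 3) * (ENNReal.ofReal ((r ^ 4)⁻¹) *
        (4 * (ENNReal.ofReal (1 + 313600 * r ^ 4) *
        (NN w (prodF U φ) + NN w F1 + NN w F2 + NN w F12)))) := by gcongr
    _ = ENNReal.ofReal (covol 3 * ((r ^ 4)⁻¹ * (4 * (1 + 313600 * r ^ 4)))) *
        (NN w (prodF U φ) + NN w F1 + NN w F2 + NN w F12) := by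
        have e4 : (4 : ℝ≥0∞) = ENNReal.ofReal 4 := by simp
        rw [e4, ENNReal.ofReal_mul hcov.le, ENNReal.ofReal_mul (p := (r ^ 4)⁻¹) (by positivity),
          ENNReal.ofReal_mul (p := 4) (by norm_num)]
        ring
    _ ≤ ENNReal.ofReal (covol 3 * (4 * 313600) * ((1 + r ^ 4) * (r ^ 4)⁻¹)) *
        (NN w (prodF U φ) + NN w F1 + NN w F2 + NN w F12) := by
        refine mul_le_mul_left (ENNReal.ofReal_le_ofReal ?_) _
        have h1 : 1 + 313600 * r ^ 4 ≤ 313600 * (1 + r ^ 4) := by linarith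
        calc covol 3 * ((r ^ 4)⁻¹ * (4 * (1 + 313600 * r ^ 4)))
            ≤ covol 3 * ((r ^ 4)⁻¹ * (4 * (313600 * (1 + r ^ 4)))) := by gcongr
          _ = _ := by ring

end Crest.Agent.R012.ML384
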